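import Vale.Agent.P154.Hel.Burn.Data.Chk
import Vale.Agent.P154.Hel.Burn.Data.S069
import Vale.Agent.P154.Hel.Burn.Chain

/-!
Data of the burn-in at `(d, λ) = (4, -1/2)`: generated by a program (see notes/P154_h12_burn_gen).
-/

namespace Vale.Agent.P154.Hel.Burn.Data

open TM

theorem TS : TabsSem cfg tabs := chkTabs_sound chk_ok

theorem cfg_p : cfg.p = 2744 := rfl

theorem cfg_q : cfg.q = 2197 := rfl

theorem good000 : Good cfg tabs 0 Y000 := Y000_eq ▸ good_zero TS

theorem good001 : Good cfg tabs 1 Y001 := good000.next TS step_000

theorem good002 : Good cfg tabs 2 Y002 := good001.next TS step_001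

theorem good003 : Good cfg tabs 3 Y003 := good002.next TS step_002

theorem good004 : Good cfg tabs 4 Y004 := good003.next TS step_003

theorem good005 : Good cfg tabs 5 Y005 := good004.next TS step_004

theorem good006 : Good cfg tabs 6 Y006 := good005.next TS step_005

theorem good007 : Good cfg tabs 7 Y007 := good006.next TS step_006

theorem good008 : Good cfg tabs 8 Y008 := good007.next TS step_007

theorem good009 : Good cfg tabs 9 Y009 := good008.next TS step_008

theorem good010 : Good cfg tabs 10 Y010 := good009.next TS step_009

theorem good011 : Good cfg tabs 11 Y011 := good010.next TS step_010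

theorem good012 : Good cfg tabs 12 Y012 := good011.next TS step_011

theorem good013 : Good cfg tabs 13 Y013 := good012.next TS step_012

theorem good014 : Good cfg tabs 14 Y014 := good013.next TS step_013

theorem good015 : Good cfg tabs 15 Y015 := good014.next TS step_014

theorem good016 : Good cfg tabs 16 Y016 := good015.next TS step_015

theorem good017 : Good cfg tabs 17 Y017 := good016.next TS step_016

theorem good018 : Good cfg tabs 18 Y018 := good017.next TS step_017

theorem good019 : Good cfg tabs 19 Y019 := good018.next TS step_018

theorem good020 : Good cfg tabs 20 Y020 := good019.next TS step_019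

theorem good021 : Good cfg tabs 21 Y021 := good020.next TS step_020

theorem good022 : Good cfg tabs 22 Y022 := good021.next TS step_021

theorem good023 : Good cfg tabs 23 Y023 := good022.next TS step_022

theorem good024 : Good cfg tabs 24 Y024 := good023.next TS step_023

theorem good025 : Good cfg tabs 25 Y025 := good024.next TS step_024

theorem good026 : Good cfg tabs 26 Y026 := good025.next TS step_025

theorem good027 : Good cfg tabs 27 Y027 := good026.next TS step_026

theorem good028 : Good cfg tabs 28 Y028 := good027.next TS step_027

theorem good029 : Good cfg tabs 29 Y029 := good028.next TS step_028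

theorem good030 : Good cfg tabs 30 Y030 := good029.next TS step_029

theorem good031 : Good cfg tabs 31 Y031 := good030.next TS step_030

theorem good032 : Good cfg tabs 32 Y032 := good031.next TS step_031

theorem good033 : Good cfg tabs 33 Y033 := good032.next TS step_032

theorem good034 : Good cfg tabs 34 Y034 := good033.next TS step_033

theorem good035 : Good cfg tabs 35 Y035 := good034.next TS step_034

theorem good036 : Good cfg tabs 36 Y036 := good035.next TS step_035

theorem good037 : Good cfg tabs 37 Y037 := good036.next TS step_036

theorem good038 : Good cfg tabs 38 Y038 := good037.next TS step_037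

theorem good039 : Good cfg tabs 39 Y039 := good038.next TS step_038

theorem good040 : Good cfg tabs 40 Y040 := good039.next TS step_039

theorem good041 : Good cfg tabs 41 Y041 := good040.next TS step_040

theorem good042 : Good cfg tabs 42 Y042 := good041.next TS step_041

theorem good043 : Good cfg tabs 43 Y043 := good042.next TS step_042

theorem good044 : Good cfg tabs 44 Y044 := good043.next TS step_043

theorem good045 : Good cfg tabs 45 Y045 := good044.next TS step_044

theorem good046 : Good cfg tabs 46 Y046 := good045.next TS step_045

theorem good047 : Good cfg tabs 47 Y047 := good046.next TS step_046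

theorem good048 : Good cfg tabs 48 Y048 := good047.next TS step_047

theorem good049 : Good cfg tabs 49 Y049 := good048.next TS step_048

theorem good050 : Good cfg tabs 50 Y050 := good049.next TS step_049

theorem good051 : Good cfg tabs 51 Y051 := good050.next TS step_050

theorem good052 : Good cfg tabs 52 Y052 := good051.next TS step_051

theorem good053 : Good cfg tabs 53 Y053 := good052.next TS step_052

theorem good054 : Good cfg tabs 54 Y054 := good053.next TS step_053

theorem good055 : Good cfg tabs 55 Y055 := good054.next TS step_054

theorem good056 : Good cfg tabs 56 Y056 := good055.next TS step_055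

theorem good057 : Good cfg tabs 57 Y057 := good056.next TS step_056

theorem good058 : Good cfg tabs 58 Y058 := good057.next TS step_057

theorem good059 : Good cfg tabs 59 Y059 := good058.next TS step_058

theorem good060 : Good cfg tabs 60 Y060 := good059.next TS step_059

theorem good061 : Good cfg tabs 61 Y061 := good060.next TS step_060

theorem good062 : Good cfg tabs 62 Y062 := good061.next TS step_061

theorem good063 : Good cfg tabs 63 Y063 := good062.next TS step_062

theorem good064 : Good cfg tabs 64 Y064 := good063.next TS step_063

theorem good065 : Good cfg tabs 65 Y065 := good064.next TS step_064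

theorem good066 : Good cfg tabs 66 Y066 := good065.next TS step_065

theorem good067 : Good cfg tabs 67 Y067 := good066.next TS step_066

theorem good068 : Good cfg tabs 68 Y068 := good067.next TS step_067

theorem good069 : Good cfg tabs 69 Y069 := good068.next TS step_068

theorem good070 : Good cfg tabs 70 Y070 := good069.next TS step_069

theorem ratio_cfg : ratio cfg = (((14 : ℕ) : ℝ) / ((13 : ℕ) : ℝ)) ^ 3 := by
  unfold ratio
  rw [cfg_p, cfg_q]
  norm_num

/-- The burn-in: after 70 levels the centre monomial of the channel image of the law is at least `1 - 13/100`. -/
theorem burn_theta : 1 - Ht cs (chanLaw (-(1 / 2)) (Lk 4 (-(1 / 2)) 70)) ≤ ((13 : ℕ) : ℝ) / ((100 : ℕ) : ℝ) :=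
  burn_of_final TS good070 (a := 14) (b := 13) (θn := 13) (θd := 100) (by norm_num) (by norm_num) ratio_cfg (by norm_num) (by norm_num) final_ok

end Vale.Agent.P154.Hel.Burn.Data
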