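import Vale.Agent.P154.Hel.Burn.Prog

/-!
Data of the burn-in at `(d, λ) = (4, -1/2)`: generated by a program (see notes/P154_h12_burn_gen).
-/

namespace Vale.Agent.P154.Hel.Burn.Data

/-- The constants of the program. -/
noncomputable def cfg : Cfg := Cfg.mk (nat_lit 2744) (nat_lit 2197) (nat_lit 31) (nat_lit 249) (nat_lit 40) (nat_lit 24) (nat_lit 168) (nat_lit 187)

/-- The labels of the grid rays. -/
noncomputable def labs : List ℕ := [nat_lit 279,nat_lit 280,nat_lit 281,nat_lit 528,nat_lit 529,nat_lit 530,nat_lit 777,nat_lit 778,nat_lit 779,nat_lit 1026,nat_lit 1027,nat_lit 1028,nat_lit 1275,nat_lit 1276,nat_lit 1277,nat_lit 1524,nat_lit 1525,nat_lit 1526,nat_lit 1773,nat_lit 1774,nat_lit 1775,nat_lit 2022,nat_lit 2023,nat_lit 2024,nat_lit 2271,nat_lit 2272,nat_lit 2273,nat_lit 2520,nat_lit 2521,nat_lit 2522,nat_lit 2769,nat_lit 2770,nat_lit 2771,nat_lit 3018,nat_lit 3019,nat_lit 3020,nat_lit 3267,nat_lit 3268,nat_lit 3269,nat_lit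 3516,nat_lit 3517,nat_lit 3518,nat_lit 3765,nat_lit 3766,nat_lit 3767,nat_lit 4014,nat_lit 4015,nat_lit 4016,nat_lit 4263,nat_lit 4264,nat_lit 4265,nat_lit 4512,nat_lit 4513,nat_lit 4514,nat_lit 4761,nat_lit 4762,nat_lit 4763,nat_lit 5010,nat_lit 5011,nat_lit 5012,nat_lit 5259,nat_lit 5260,nat_lit 5261,nat_lit 5508,nat_lit 5509,nat_lit 5510,nat_lit 5756,nat_lit 5757,nat_lit 5758,nat_lit 5759,nat_lit 6005,nat_lit 6006,nat_lit 6007,nat_lit 6008,nat_lit 6254,nat_lit 6255,nat_lit 6256,nat_lit 6257,nat_lit 6258,nat_lit 6502,nat_lit 6503,nat_lit 6504,nat_lit 6505,nat_lit 6506,nat_lit 6507,nat_lit 6750,nat_lit 6751,nat_lit 6752,nat_lit 6753,nat_lit 6754,nat_lit 6755,nat_lit 6756,nat_lit 6998,nat_lit 6999,nat_lit 7000,nat_lit 7001,nat_lit 7002,nat_lit 7003,nat_lit 7004,nat_lit 7005,nat_lit 7244,nat_lit 7245,nat_lit 7246,nat_lit 7247,nat_lit 7248,nat_lit 7249,nat_lit 7250,nat_lit 7251,nat_lit 7252,nat_lit 7253,nat_lit 7254,nat_lit 7255,nat_lit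 7471,nat_lit 7472,nat_lit 7473,nat_lit 7474,nat_lit 7475,nat_lit 7476,nat_lit 7477,nat_lit 7478,nat_lit 7479,nat_lit 7480,nat_lit 7481,nat_lit 7482,nat_lit 7483,nat_lit 7484,nat_lit 7485,nat_lit 7486,nat_lit 7487,nat_lit 7488,nat_lit 7489,nat_lit 7490,nat_lit 7491,nat_lit 7492,nat_lit 7493,nat_lit 7494,nat_lit 7495,nat_lit 7496,nat_lit 7497,nat_lit 7498,nat_lit 7499,nat_lit 7500,nat_lit 7501,nat_lit 7502,nat_lit 7503,nat_lit 7504,nat_lit 7720,nat_lit 7721,nat_lit 7722,nat_lit 7723,nat_lit 7724,nat_lit 7725,nat_lit 7726,nat_lit 7727,nat_lit 7728,nat_lit 7729,nat_lit 7730,nat_lit 7731,nat_lit 7732,nat_lit 7733,nat_lit 7734,nat_lit 7735,nat_lit 7736,nat_lit 7737,nat_lit 7738,nat_lit 7739,nat_lit 7740,nat_lit 7741,nat_lit 7742,nat_lit 7743,nat_lit 7744,nat_lit 7745,nat_lit 7746,nat_lit 7747,nat_lit 7748,nat_lit 7749,nat_lit 7750,nat_lit 7751,nat_lit 7752,nat_lit 7753,nat_lit 7754,nat_lit 7969,nat_lit 7970,nat_lit 7971,nat_lit 7972,nat_lit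 7973,nat_lit 7974,nat_lit 7975,nat_lit 7976,nat_lit 7977,nat_lit 7978,nat_lit 7979,nat_lit 7980,nat_lit 7981,nat_lit 7982,nat_lit 7983,nat_lit 7984,nat_lit 7985,nat_lit 7986,nat_lit 7987,nat_lit 7988,nat_lit 7989,nat_lit 7990,nat_lit 7991,nat_lit 7992,nat_lit 7993,nat_lit 7994,nat_lit 7995,nat_lit 7996,nat_lit 7997,nat_lit 7998,nat_lit 7999,nat_lit 8000,nat_lit 8001,nat_lit 8002,nat_lit 8003,nat_lit 8242,nat_lit 8243,nat_lit 8244,nat_lit 8245,nat_lit 8246,nat_lit 8247,nat_lit 8248,nat_lit 8249,nat_lit 8250,nat_lit 8251,nat_lit 8252,nat_lit 8253,nat_lit 8495,nat_lit 8496,nat_lit 8497,nat_lit 8498,nat_lit 8499,nat_lit 8500,nat_lit 8501,nat_lit 8502,nat_lit 8746,nat_lit 8747,nat_lit 8748,nat_lit 8749,nat_lit 8750,nat_lit 8751,nat_lit 8752,nat_lit 8997,nat_lit 8998,nat_lit 8999,nat_lit 9000,nat_lit 9001,nat_lit 9002,nat_lit 9248,nat_lit 9249,nat_lit 9250,nat_lit 9251,nat_lit 9252,nat_lit 9498,nat_lit 9499,nat_lit 9500,nat_lit 9501,nat_lit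 9748,nat_lit 9749,nat_lit 9750,nat_lit 9751,nat_lit 9999,nat_lit 10000,nat_lit 10001,nat_lit 10249,nat_lit 10250,nat_lit 10251,nat_lit 10499,nat_lit 10500,nat_lit 10501,nat_lit 10749,nat_lit 10750,nat_lit 10751,nat_lit 10999,nat_lit 11000,nat_lit 11001,nat_lit 11249,nat_lit 11250,nat_lit 11251,nat_lit 11499,nat_lit 11500,nat_lit 11501,nat_lit 11749,nat_lit 11750,nat_lit 11751,nat_lit 11999,nat_lit 12000,nat_lit 12001,nat_lit 12249,nat_lit 12250,nat_lit 12251,nat_lit 12499,nat_lit 12500,nat_lit 12501,nat_lit 12749,nat_lit 12750,nat_lit 12751,nat_lit 12999,nat_lit 13000,nat_lit 13001,nat_lit 13249,nat_lit 13250,nat_lit 13251,nat_lit 13499,nat_lit 13500,nat_lit 13501,nat_lit 13749,nat_lit 13750,nat_lit 13751,nat_lit 13999,nat_lit 14000,nat_lit 14001,nat_lit 14249,nat_lit 14250,nat_lit 14251,nat_lit 14499,nat_lit 14500,nat_lit 14501,nat_lit 14749,nat_lit 14750,nat_lit 14751,nat_lit 14999,nat_lit 15000,nat_lit 15001,nat_lit 15249,nat_lit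 15250,nat_lit 15251,nat_lit 15499,nat_lit 15500]

/-- A table of rows. -/
noncomputable def tb0 : List (List Row) := [[],
[],
[],
[],
[],
[],
[],
[],
[Row.mk (nat_lit 20832) (nat_lit 43010) (nat_lit 7495049) (nat_lit 44132) (nat_lit 893558) (nat_lit 0) (nat_lit 0)],
[Row.mk (nat_lit 20832) (nat_lit 43010) (nat_lit 7495049) (nat_lit 44132) (nat_lit 893558) (nat_lit 0) (nat_lit 0)],
[Row.mk (nat_lit 20832) (nat_lit 43010) (nat_lit 7495049) (nat_lit 44132) (nat_lit 893558) (nat_lit 0) (nat_lit 0)],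
[Row.mk (nat_lit 20832) (nat_lit 43010) (nat_lit 7495049) (nat_lit 44132) (nat_lit 893558) (nat_lit 0) (nat_lit 0)],
[Row.mk (nat_lit 20832) (nat_lit 43010) (nat_lit 7495049) (nat_lit 44132) (nat_lit 893558) (nat_lit 0) (nat_lit 0)],
[Row.mk (nat_lit 20832) (nat_lit 43010) (nat_lit 7495049) (nat_lit 44132) (nat_lit 893558) (nat_lit 0) (nat_lit 0)],
[Row.mk (nat_lit 20832) (nat_lit 43010) (nat_lit 7495049) (nat_lit 44132) (nat_lit 893558) (nat_lit 0) (nat_lit 0)],
[Row.mk (nat_lit 20832) (nat_lit 43010) (nat_lit 7495049) (nat_lit 44132) (nat_lit 893558) (nat_lit 0) (nat_lit 0)],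
[Row.mk (nat_lit 20664) (nat_lit 43197) (nat_lit 2553699) (nat_lit 44319) (nat_lit 4162689) (nat_lit 0) (nat_lit 0),Row.mk (nat_lit 20832) (nat_lit 43010) (nat_lit 7495049) (nat_lit 44132) (nat_lit 893558) (nat_lit 0) (nat_lit 0),Row.mk (nat_lit 21000) (nat_lit 41327) (nat_lit 3983619) (nat_lit 42823) (nat_lit 6493549) (nat_lit 0) (nat_lit 0)],
[Row.mk (nat_lit 20664) (nat_lit 43197) (nat_lit 2553699) (nat_lit 44319) (nat_lit 4162689) (nat_lit 0) (nat_lit 0),Row.mk (nat_lit 20832) (nat_lit 43010) (nat_lit 7495049) (nat_lit 44132) (nat_lit 893558) (nat_lit 0) (nat_lit 0),Row.mk (nat_lit 21000) (nat_lit 41327) (nat_lit 3983619) (nat_lit 42823) (nat_lit 6493549) (nat_lit 0) (nat_lit 0)],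
[Row.mk (nat_lit 20664) (nat_lit 43197) (nat_lit 2553699) (nat_lit 44319) (nat_lit 4162689) (nat_lit 0) (nat_lit 0),Row.mk (nat_lit 20832) (nat_lit 43010) (nat_lit 7495049) (nat_lit 44132) (nat_lit 893558) (nat_lit 0) (nat_lit 0),Row.mk (nat_lit 21000) (nat_lit 41327) (nat_lit 3983619) (nat_lit 42823) (nat_lit 6493549) (nat_lit 0) (nat_lit 0)],
[Row.mk (nat_lit 20664) (nat_lit 43197) (nat_lit 2553699) (nat_lit 44319) (nat_lit 4162689) (nat_lit 0) (nat_lit 0),Row.mk (nat_lit 20832) (nat_lit 43010) (nat_lit 7495049) (nat_lit 44132) (nat_lit 893558) (nat_lit 0) (nat_lit 0),Row.mk (nat_lit 21000) (nat_lit 41327) (nat_lit 3983619) (nat_lit 42823) (nat_lit 6493549) (nat_lit 0) (nat_lit 0)],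
[Row.mk (nat_lit 20664) (nat_lit 43197) (nat_lit 2553699) (nat_lit 44319) (nat_lit 4162689) (nat_lit 0) (nat_lit 0),Row.mk (nat_lit 20832) (nat_lit 43010) (nat_lit 7495049) (nat_lit 44132) (nat_lit 893558) (nat_lit 0) (nat_lit 0),Row.mk (nat_lit 21000) (nat_lit 41327) (nat_lit 3983619) (nat_lit 42823) (nat_lit 6493549) (nat_lit 0) (nat_lit 0)],
[Row.mk (nat_lit 20664) (nat_lit 43197) (nat_lit 2553699) (nat_lit 44319) (nat_lit 4162689) (nat_lit 0) (nat_lit 0),Row.mk (nat_lit 20832) (nat_lit 43010) (nat_lit 7495049) (nat_lit 44132) (nat_lit 893558) (nat_lit 0) (nat_lit 0),Row.mk (nat_lit 21000) (nat_lit 41327) (nat_lit 3983619) (nat_lit 42823) (nat_lit 6493549) (nat_lit 0) (nat_lit 0)],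
[Row.mk (nat_lit 20664) (nat_lit 43197) (nat_lit 2553699) (nat_lit 44319) (nat_lit 4162689) (nat_lit 0) (nat_lit 0),Row.mk (nat_lit 20832) (nat_lit 43010) (nat_lit 7495049) (nat_lit 44132) (nat_lit 893558) (nat_lit 0) (nat_lit 0),Row.mk (nat_lit 21000) (nat_lit 41327) (nat_lit 3983619) (nat_lit 42823) (nat_lit 6493549) (nat_lit 0) (nat_lit 0)],
[Row.mk (nat_lit 20664) (nat_lit 43197) (nat_lit 2553699) (nat_lit 44319) (nat_lit 4162689) (nat_lit 0) (nat_lit 0),Row.mk (nat_lit 20832) (nat_lit 43010) (nat_lit 7495049) (nat_lit 44132) (nat_lit 893558) (nat_lit 0) (nat_lit 0),Row.mk (nat_lit 21000) (nat_lit 41327) (nat_lit 3983619) (nat_lit 42823) (nat_lit 6493549) (nat_lit 0) (nat_lit 0)],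
[Row.mk (nat_lit 20664) (nat_lit 43197) (nat_lit 2553699) (nat_lit 44319) (nat_lit 4162689) (nat_lit 0) (nat_lit 0),Row.mk (nat_lit 20832) (nat_lit 43010) (nat_lit 7495049) (nat_lit 44132) (nat_lit 893558) (nat_lit 0) (nat_lit 0),Row.mk (nat_lit 21000) (nat_lit 41327) (nat_lit 3983619) (nat_lit 42823) (nat_lit 6493549) (nat_lit 0) (nat_lit 0)],
[Row.mk (nat_lit 20664) (nat_lit 43197) (nat_lit 2553699) (nat_lit 44319) (nat_lit 4162689) (nat_lit 0) (nat_lit 0),Row.mk (nat_lit 20832) (nat_lit 43010) (nat_lit 7495049) (nat_lit 44132) (nat_lit 893558) (nat_lit 0) (nat_lit 0),Row.mk (nat_lit 21000) (nat_lit 41327) (nat_lit 3983619) (nat_lit 42823) (nat_lit 6493549) (nat_lit 0) (nat_lit 0)],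
[Row.mk (nat_lit 20664) (nat_lit 43197) (nat_lit 2553699) (nat_lit 44319) (nat_lit 4162689) (nat_lit 0) (nat_lit 0),Row.mk (nat_lit 20832) (nat_lit 43010) (nat_lit 7495049) (nat_lit 44132) (nat_lit 893558) (nat_lit 0) (nat_lit 0),Row.mk (nat_lit 21000) (nat_lit 41327) (nat_lit 3983619) (nat_lit 42823) (nat_lit 6493549) (nat_lit 0) (nat_lit 0)],
[Row.mk (nat_lit 20664) (nat_lit 43197) (nat_lit 2553699) (nat_lit 44319) (nat_lit 4162689) (nat_lit 0) (nat_lit 0),Row.mk (nat_lit 20832) (nat_lit 43010) (nat_lit 7495049) (nat_lit 44132) (nat_lit 893558) (nat_lit 0) (nat_lit 0),Row.mk (nat_lit 21000) (nat_lit 41327) (nat_lit 3983619) (nat_lit 42823) (nat_lit 6493549) (nat_lit 0) (nat_lit 0)],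
[Row.mk (nat_lit 20496) (nat_lit 44506) (nat_lit 4254498) (nat_lit 45441) (nat_lit 1123018) (nat_lit 0) (nat_lit 0),Row.mk (nat_lit 20664) (nat_lit 43197) (nat_lit 2553699) (nat_lit 44319) (nat_lit 4162689) (nat_lit 0) (nat_lit 0),Row.mk (nat_lit 20832) (nat_lit 43010) (nat_lit 7495049) (nat_lit 44132) (nat_lit 893558) (nat_lit 0) (nat_lit 0),Row.mk (nat_lit 21000) (nat_lit 41327) (nat_lit 3983619) (nat_lit 42823) (nat_lit 6493549) (nat_lit 0) (nat_lit 0)],
[Row.mk (nat_lit 20496) (nat_lit 44506) (nat_lit 4254498) (nat_lit 45441) (nat_lit 1123018) (nat_lit 0) (nat_lit 0),Row.mk (nat_lit 20664) (nat_lit 43197) (nat_lit 2553699) (nat_lit 44319) (nat_lit 4162689) (nat_lit 0) (nat_lit 0),Row.mk (nat_lit 20832) (nat_lit 43010) (nat_lit 7495049) (nat_lit 44132) (nat_lit 893558) (nat_lit 0) (nat_lit 0),Row.mk (nat_lit 21000) (nat_lit 41327) (nat_lit 3983619) (nat_lit 42823) (nat_lit 6493549) (nat_lit 0) (nat_lit 0),Row.mk (nat_lit 21168)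 (nat_lit 41140) (nat_lit 10352961) (nat_lit 42636) (nat_lit 2732769) (nat_lit 0) (nat_lit 0)],
[Row.mk (nat_lit 20496) (nat_lit 44506) (nat_lit 4254498) (nat_lit 45441) (nat_lit 1123018) (nat_lit 0) (nat_lit 0),Row.mk (nat_lit 20664) (nat_lit 43197) (nat_lit 2553699) (nat_lit 44319) (nat_lit 4162689) (nat_lit 0) (nat_lit 0),Row.mk (nat_lit 20832) (nat_lit 43010) (nat_lit 7495049) (nat_lit 44132) (nat_lit 893558) (nat_lit 0) (nat_lit 0),Row.mk (nat_lit 21000) (nat_lit 41327) (nat_lit 3983619) (nat_lit 42823) (nat_lit 6493549) (nat_lit 0) (nat_lit 0),Row.mk (nat_lit 21168) (nat_lit 41140) (nat_lit 10352961) (nat_lit 42636) (nat_lit 2732769) (nat_lit 0) (nat_lit 0)],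
[Row.mk (nat_lit 20496) (nat_lit 44506) (nat_lit 4254498) (nat_lit 45441) (nat_lit 1123018) (nat_lit 0) (nat_lit 0),Row.mk (nat_lit 20664) (nat_lit 43197) (nat_lit 2553699) (nat_lit 44319) (nat_lit 4162689) (nat_lit 0) (nat_lit 0),Row.mk (nat_lit 20832) (nat_lit 43010) (nat_lit 7495049) (nat_lit 44132) (nat_lit 893558) (nat_lit 0) (nat_lit 0),Row.mk (nat_lit 21000) (nat_lit 41327) (nat_lit 3983619) (nat_lit 42823) (nat_lit 6493549) (nat_lit 0) (nat_lit 0),Row.mk (nat_lit 21168) (nat_lit 41140) (nat_lit 10352961) (nat_lit 42636) (nat_lit 2732769) (nat_lit 0) (nat_lit 0)],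
[Row.mk (nat_lit 20328) (nat_lit 44693) (nat_lit 646322) (nat_lit 45628) (nat_lit 3659218) (nat_lit 0) (nat_lit 0),Row.mk (nat_lit 20496) (nat_lit 44506) (nat_lit 4254498) (nat_lit 45441) (nat_lit 1123018) (nat_lit 0) (nat_lit 0),Row.mk (nat_lit 20664) (nat_lit 43197) (nat_lit 2553699) (nat_lit 44319) (nat_lit 4162689) (nat_lit 0) (nat_lit 0),Row.mk (nat_lit 20832) (nat_lit 43010) (nat_lit 7495049) (nat_lit 44132) (nat_lit 893558) (nat_lit 0) (nat_lit 0),Row.mk (nat_lit 21000) (nat_lit 41327) (nat_lit 3983619) (nat_lit 42823) (nat_lit 6493549) (nat_lit 0) (nat_lit 0),Row.mk (nat_lit 21168) (nat_lit 41140) (nat_lit 10352961) (nat_lit 42636) (nat_lit 2732769) (nat_lit 0) (nat_lit 0)],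
[Row.mk (nat_lit 20160) (nat_lit 45815) (nat_lit 1651718) (nat_lit 46563) (nat_lit 1795539) (nat_lit 0) (nat_lit 0),Row.mk (nat_lit 20328) (nat_lit 44693) (nat_lit 646322) (nat_lit 45628) (nat_lit 3659218) (nat_lit 0) (nat_lit 0),Row.mk (nat_lit 20496) (nat_lit 44506) (nat_lit 4254498) (nat_lit 45441) (nat_lit 1123018) (nat_lit 0) (nat_lit 0),Row.mk (nat_lit 20664) (nat_lit 43197) (nat_lit 2553699) (nat_lit 44319) (nat_lit 4162689) (nat_lit 0) (nat_lit 0),Row.mk (nat_lit 20832) (nat_lit 43010) (nat_lit 7495049) (nat_lit 44132) (nat_lit 893558) (nat_lit 0) (nat_lit 0),Row.mk (nat_lit 21000) (nat_lit 41327) (nat_lit 3983619) (nat_lit 42823) (nat_lit 6493549) (nat_lit 0) (nat_lit 0),Row.mk (nat_lit 21168) (nat_lit 41140) (nat_lit 10352961) (nat_lit 42636) (nat_lit 2732769) (nat_lit 0) (nat_lit 0)],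
[Row.mk (nat_lit 19992) (nat_lit 46750) (nat_lit 2049560) (nat_lit 47498) (nat_lit 710507) (nat_lit 0) (nat_lit 0),Row.mk (nat_lit 20160) (nat_lit 45815) (nat_lit 1651718) (nat_lit 46563) (nat_lit 1795539) (nat_lit 0) (nat_lit 0),Row.mk (nat_lit 20328) (nat_lit 44693) (nat_lit 646322) (nat_lit 45628) (nat_lit 3659218) (nat_lit 0) (nat_lit 0),Row.mk (nat_lit 20496) (nat_lit 44506) (nat_lit 4254498) (nat_lit 45441) (nat_lit 1123018) (nat_lit 0) (nat_lit 0),Row.mk (nat_lit 20664) (nat_lit 43197) (nat_lit 2553699) (nat_lit 44319) (nat_lit 4162689) (nat_lit 0) (nat_lit 0),Row.mk (nat_lit 20832) (nat_lit 43010) (nat_lit 7495049) (nat_lit 44132) (nat_lit 893558) (nat_lit 0) (nat_lit 0),Row.mk (nat_lit 21000) (nat_lit 41327) (nat_lit 3983619) (nat_lit 42823) (nat_lit 6493549) (nat_lit 0) (nat_lit 0),Row.mk (nat_lit 21168) (nat_lit 41140) (nat_lit 10352961) (nat_lit 42636) (nat_lit 2732769) (nat_lit 0) (nat_lit 0)],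
[Row.mk (nat_lit 19656) (nat_lit 47872) (nat_lit 270429) (nat_lit 48433) (nat_lit 1498911) (nat_lit 0) (nat_lit 0),Row.mk (nat_lit 19824) (nat_lit 47685) (nat_lit 2107101) (nat_lit 48246) (nat_lit 102762) (nat_lit 0) (nat_lit 0),Row.mk (nat_lit 19992) (nat_lit 46750) (nat_lit 2049560) (nat_lit 47498) (nat_lit 710506) (nat_lit 0) (nat_lit 0),Row.mk (nat_lit 20160) (nat_lit 45815) (nat_lit 1651718) (nat_lit 46563) (nat_lit 1795539) (nat_lit 0) (nat_lit 0),Row.mk (nat_lit 20328) (nat_lit 44693) (nat_lit 646322) (nat_lit 45628) (nat_lit 3659218) (nat_lit 0) (nat_lit 0),Row.mk (nat_lit 20496) (nat_lit 44506) (nat_lit 4254498) (nat_lit 45441) (nat_lit 1123018) (nat_lit 0) (nat_lit 0),Row.mk (nat_lit 20664) (nat_lit 43197) (nat_lit 2553699) (nat_lit 44319) (nat_lit 4162689) (nat_lit 0) (nat_lit 0),Row.mk (nat_lit 20832) (nat_lit 43010) (nat_lit 7495050) (nat_lit 44132) (nat_lit 893558) (nat_lit 0) (nat_lit 0),Row.mk (nat_lit 21000) (nat_lit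 41327) (nat_lit 3983619) (nat_lit 42823) (nat_lit 6493549) (nat_lit 0) (nat_lit 0),Row.mk (nat_lit 21168) (nat_lit 41140) (nat_lit 10352961) (nat_lit 42636) (nat_lit 2732769) (nat_lit 0) (nat_lit 0),Row.mk (nat_lit 21336) (nat_lit 38896) (nat_lit 2453430) (nat_lit 40953) (nat_lit 13890332) (nat_lit 0) (nat_lit 0)],
[Row.mk (nat_lit 18312) (nat_lit 52547) (nat_lit 256051) (nat_lit 52921) (nat_lit 42747) (nat_lit 0) (nat_lit 0),Row.mk (nat_lit 18480) (nat_lit 51986) (nat_lit 306509) (nat_lit 52360) (nat_lit 66683) (nat_lit 0) (nat_lit 0),Row.mk (nat_lit 18648) (nat_lit 51425) (nat_lit 362086) (nat_lit 51799) (nat_lit 104022) (nat_lit 0) (nat_lit 0),Row.mk (nat_lit 18816) (nat_lit 50864) (nat_lit 419889) (nat_lit 51238) (nat_lit 162268) (nat_lit 0) (nat_lit 0),Row.mk (nat_lit 18984) (nat_lit 50303) (nat_lit 473972) (nat_lit 50677) (nat_lit 253129) (nat_lit 0) (nat_lit 0),Row.mk (nat_lit 19152) (nat_lit 49742) (nat_lit 513265) (nat_lit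 50116) (nat_lit 394867) (nat_lit 0) (nat_lit 0),Row.mk (nat_lit 19320) (nat_lit 49181) (nat_lit 518265) (nat_lit 49555) (nat_lit 615970) (nat_lit 0) (nat_lit 0),Row.mk (nat_lit 19488) (nat_lit 48620) (nat_lit 455756) (nat_lit 48994) (nat_lit 960876) (nat_lit 0) (nat_lit 0),Row.mk (nat_lit 19656) (nat_lit 47872) (nat_lit 270429) (nat_lit 48433) (nat_lit 1498911) (nat_lit 0) (nat_lit 0),Row.mk (nat_lit 19824) (nat_lit 47685) (nat_lit 2107101) (nat_lit 48246) (nat_lit 102762) (nat_lit 0) (nat_lit 0),Row.mk (nat_lit 19992) (nat_lit 46750) (nat_lit 2049560) (nat_lit 47498) (nat_lit 710506) (nat_lit 0) (nat_lit 0),Row.mk (nat_lit 20160) (nat_lit 45815) (nat_lit 1651718) (nat_lit 46563) (nat_lit 1795538) (nat_lit 0) (nat_lit 0),Row.mk (nat_lit 20328) (nat_lit 44693) (nat_lit 646322) (nat_lit 45628) (nat_lit 3659218) (nat_lit 0) (nat_lit 0),Row.mk (nat_lit 20496) (nat_lit 44506) (nat_lit 4254498) (nat_lit 45441) (nat_lit 1123018) (nat_lit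 0) (nat_lit 0),Row.mk (nat_lit 20664) (nat_lit 43197) (nat_lit 2553699) (nat_lit 44319) (nat_lit 4162689) (nat_lit 0) (nat_lit 0),Row.mk (nat_lit 20832) (nat_lit 43010) (nat_lit 7495050) (nat_lit 44132) (nat_lit 893557) (nat_lit 0) (nat_lit 0),Row.mk (nat_lit 21000) (nat_lit 41327) (nat_lit 3983619) (nat_lit 42823) (nat_lit 6493549) (nat_lit 0) (nat_lit 0),Row.mk (nat_lit 21168) (nat_lit 41140) (nat_lit 10352961) (nat_lit 42636) (nat_lit 2732769) (nat_lit 0) (nat_lit 0),Row.mk (nat_lit 21336) (nat_lit 38896) (nat_lit 2453430) (nat_lit 40953) (nat_lit 13890332) (nat_lit 0) (nat_lit 0)],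
[Row.mk (nat_lit 16296) (nat_lit 59279) (nat_lit 20530) (nat_lit 59653) (nat_lit 205) (nat_lit 0) (nat_lit 0),Row.mk (nat_lit 16464) (nat_lit 58718) (nat_lit 25577) (nat_lit 59092) (nat_lit 321) (nat_lit 0) (nat_lit 0),Row.mk (nat_lit 16632) (nat_lit 58157) (nat_lit 31846) (nat_lit 58531) (nat_lit 500) (nat_lit 0) (nat_lit 0),Row.mk (nat_lit 16800) (nat_lit 57596) (nat_lit 39619) (nat_lit 57970) (nat_lit 781) (nat_lit 0) (nat_lit 0),Row.mk (nat_lit 16968) (nat_lit 57035) (nat_lit 49240) (nat_lit 57409) (nat_lit 1218) (nat_lit 0) (nat_lit 0),Row.mk (nat_lit 17136) (nat_lit 56474) (nat_lit 61121) (nat_lit 56848) (nat_lit 1901) (nat_lit 0) (nat_lit 0),Row.mk (nat_lit 17304) (nat_lit 55913) (nat_lit 75747) (nat_lit 56287) (nat_lit 2966) (nat_lit 0) (nat_lit 0),Row.mk (nat_lit 17472) (nat_lit 55352) (nat_lit 93684) (nat_lit 55726) (nat_lit 4627) (nat_lit 0) (nat_lit 0),Row.mk (nat_lit 17640) (nat_lit 54791) (nat_lit 115570) (nat_lit 55165)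 (nat_lit 7218) (nat_lit 0) (nat_lit 0),Row.mk (nat_lit 17808) (nat_lit 54230) (nat_lit 142100) (nat_lit 54604) (nat_lit 11261) (nat_lit 0) (nat_lit 0),Row.mk (nat_lit 17976) (nat_lit 53669) (nat_lit 173978) (nat_lit 54043) (nat_lit 17566) (nat_lit 0) (nat_lit 0),Row.mk (nat_lit 18144) (nat_lit 53108) (nat_lit 211831) (nat_lit 53482) (nat_lit 27403) (nat_lit 0) (nat_lit 0),Row.mk (nat_lit 18312) (nat_lit 52547) (nat_lit 256051) (nat_lit 52921) (nat_lit 42747) (nat_lit 0) (nat_lit 0),Row.mk (nat_lit 18480) (nat_lit 51986) (nat_lit 306509) (nat_lit 52360) (nat_lit 66683) (nat_lit 0) (nat_lit 0),Row.mk (nat_lit 18648) (nat_lit 51425) (nat_lit 362086) (nat_lit 51799) (nat_lit 104022) (nat_lit 0) (nat_lit 0),Row.mk (nat_lit 18816) (nat_lit 50864) (nat_lit 419889) (nat_lit 51238) (nat_lit 162268) (nat_lit 0) (nat_lit 0),Row.mk (nat_lit 18984) (nat_lit 50303) (nat_lit 473972) (nat_lit 50677) (nat_lit 253129) (nat_lit 0) (nat_lit 0),Row.mk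 (nat_lit 19152) (nat_lit 49742) (nat_lit 513265) (nat_lit 50116) (nat_lit 394867) (nat_lit 0) (nat_lit 0),Row.mk (nat_lit 19320) (nat_lit 49181) (nat_lit 518265) (nat_lit 49555) (nat_lit 615970) (nat_lit 0) (nat_lit 0),Row.mk (nat_lit 19488) (nat_lit 48620) (nat_lit 455756) (nat_lit 48994) (nat_lit 960876) (nat_lit 0) (nat_lit 0),Row.mk (nat_lit 19656) (nat_lit 47872) (nat_lit 270429) (nat_lit 48433) (nat_lit 1498911) (nat_lit 0) (nat_lit 0),Row.mk (nat_lit 19824) (nat_lit 47685) (nat_lit 2107101) (nat_lit 48246) (nat_lit 102762) (nat_lit 0) (nat_lit 0),Row.mk (nat_lit 19992) (nat_lit 46750) (nat_lit 2049560) (nat_lit 47498) (nat_lit 710506) (nat_lit 0) (nat_lit 0),Row.mk (nat_lit 20160) (nat_lit 45815) (nat_lit 1651718) (nat_lit 46563) (nat_lit 1795538) (nat_lit 0) (nat_lit 0),Row.mk (nat_lit 20328) (nat_lit 44693) (nat_lit 646322) (nat_lit 45628) (nat_lit 3659218) (nat_lit 0) (nat_lit 0),Row.mk (nat_lit 20496) (nat_lit 44506) (nat_lit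 4254498) (nat_lit 45441) (nat_lit 1123018) (nat_lit 0) (nat_lit 0),Row.mk (nat_lit 20664) (nat_lit 43197) (nat_lit 2553699) (nat_lit 44319) (nat_lit 4162689) (nat_lit 0) (nat_lit 0),Row.mk (nat_lit 20832) (nat_lit 43010) (nat_lit 7495050) (nat_lit 44132) (nat_lit 893557) (nat_lit 0) (nat_lit 0),Row.mk (nat_lit 21000) (nat_lit 41327) (nat_lit 3983619) (nat_lit 42823) (nat_lit 6493549) (nat_lit 0) (nat_lit 0),Row.mk (nat_lit 21168) (nat_lit 41140) (nat_lit 10352961) (nat_lit 42636) (nat_lit 2732769) (nat_lit 0) (nat_lit 0),Row.mk (nat_lit 21336) (nat_lit 38896) (nat_lit 2453430) (nat_lit 40953) (nat_lit 13890332) (nat_lit 0) (nat_lit 0),Row.mk (nat_lit 21504) (nat_lit 38709) (nat_lit 9780664) (nat_lit 40766) (nat_lit 10632300) (nat_lit 0) (nat_lit 0)],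
[Row.mk (nat_lit 15960) (nat_lit 60401) (nat_lit 13208) (nat_lit 60775) (nat_lit 84) (nat_lit 0) (nat_lit 0),Row.mk (nat_lit 16128) (nat_lit 59840) (nat_lit 16470) (nat_lit 60214) (nat_lit 131) (nat_lit 0) (nat_lit 0),Row.mk (nat_lit 16296) (nat_lit 59279) (nat_lit 20530) (nat_lit 59653) (nat_lit 205) (nat_lit 0) (nat_lit 0),Row.mk (nat_lit 16464) (nat_lit 58718) (nat_lit 25577) (nat_lit 59092) (nat_lit 320) (nat_lit 0) (nat_lit 0),Row.mk (nat_lit 16632) (nat_lit 58157) (nat_lit 31846) (nat_lit 58531) (nat_lit 500) (nat_lit 0) (nat_lit 0),Row.mk (nat_lit 16800) (nat_lit 57596) (nat_lit 39619) (nat_lit 57970) (nat_lit 781) (nat_lit 0) (nat_lit 0),Row.mk (nat_lit 16968) (nat_lit 57035) (nat_lit 49240) (nat_lit 57409) (nat_lit 1218) (nat_lit 0) (nat_lit 0),Row.mk (nat_lit 17136) (nat_lit 56474) (nat_lit 61121) (nat_lit 56848) (nat_lit 1901) (nat_lit 0) (nat_lit 0),Row.mk (nat_lit 17304) (nat_lit 55913) (nat_lit 75747) (nat_lit 56287)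 (nat_lit 2966) (nat_lit 0) (nat_lit 0),Row.mk (nat_lit 17472) (nat_lit 55352) (nat_lit 93684) (nat_lit 55726) (nat_lit 4627) (nat_lit 0) (nat_lit 0),Row.mk (nat_lit 17640) (nat_lit 54791) (nat_lit 115570) (nat_lit 55165) (nat_lit 7218) (nat_lit 0) (nat_lit 0),Row.mk (nat_lit 17808) (nat_lit 54230) (nat_lit 142100) (nat_lit 54604) (nat_lit 11261) (nat_lit 0) (nat_lit 0),Row.mk (nat_lit 17976) (nat_lit 53669) (nat_lit 173978) (nat_lit 54043) (nat_lit 17566) (nat_lit 0) (nat_lit 0),Row.mk (nat_lit 18144) (nat_lit 53108) (nat_lit 211831) (nat_lit 53482) (nat_lit 27403) (nat_lit 0) (nat_lit 0),Row.mk (nat_lit 18312) (nat_lit 52547) (nat_lit 256051) (nat_lit 52921) (nat_lit 42747) (nat_lit 0) (nat_lit 0),Row.mk (nat_lit 18480) (nat_lit 51986) (nat_lit 306509) (nat_lit 52360) (nat_lit 66683) (nat_lit 0) (nat_lit 0),Row.mk (nat_lit 18648) (nat_lit 51425) (nat_lit 362086) (nat_lit 51799) (nat_lit 104022) (nat_lit 0) (nat_lit 0),Row.mk (nat_lit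 18816) (nat_lit 50864) (nat_lit 419889) (nat_lit 51238) (nat_lit 162268) (nat_lit 0) (nat_lit 0),Row.mk (nat_lit 18984) (nat_lit 50303) (nat_lit 473972) (nat_lit 50677) (nat_lit 253129) (nat_lit 0) (nat_lit 0),Row.mk (nat_lit 19152) (nat_lit 49742) (nat_lit 513265) (nat_lit 50116) (nat_lit 394867) (nat_lit 0) (nat_lit 0),Row.mk (nat_lit 19320) (nat_lit 49181) (nat_lit 518265) (nat_lit 49555) (nat_lit 615970) (nat_lit 0) (nat_lit 0),Row.mk (nat_lit 19488) (nat_lit 48620) (nat_lit 455756) (nat_lit 48994) (nat_lit 960876) (nat_lit 0) (nat_lit 0),Row.mk (nat_lit 19656) (nat_lit 47872) (nat_lit 270429) (nat_lit 48433) (nat_lit 1498911) (nat_lit 0) (nat_lit 0),Row.mk (nat_lit 19824) (nat_lit 47685) (nat_lit 2107101) (nat_lit 48246) (nat_lit 102762) (nat_lit 0) (nat_lit 0),Row.mk (nat_lit 19992) (nat_lit 46750) (nat_lit 2049560) (nat_lit 47498) (nat_lit 710506) (nat_lit 0) (nat_lit 0),Row.mk (nat_lit 20160) (nat_lit 45815) (nat_lit 1651718)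 (nat_lit 46563) (nat_lit 1795538) (nat_lit 0) (nat_lit 0),Row.mk (nat_lit 20328) (nat_lit 44693) (nat_lit 646322) (nat_lit 45628) (nat_lit 3659218) (nat_lit 0) (nat_lit 0),Row.mk (nat_lit 20496) (nat_lit 44506) (nat_lit 4254498) (nat_lit 45441) (nat_lit 1123018) (nat_lit 0) (nat_lit 0),Row.mk (nat_lit 20664) (nat_lit 43197) (nat_lit 2553699) (nat_lit 44319) (nat_lit 4162689) (nat_lit 0) (nat_lit 0),Row.mk (nat_lit 20832) (nat_lit 43010) (nat_lit 7495050) (nat_lit 44132) (nat_lit 893557) (nat_lit 0) (nat_lit 0),Row.mk (nat_lit 21000) (nat_lit 41327) (nat_lit 3983619) (nat_lit 42823) (nat_lit 6493549) (nat_lit 0) (nat_lit 0),Row.mk (nat_lit 21168) (nat_lit 41140) (nat_lit 10352961) (nat_lit 42636) (nat_lit 2732769) (nat_lit 0) (nat_lit 0),Row.mk (nat_lit 21336) (nat_lit 38896) (nat_lit 2453430) (nat_lit 40953) (nat_lit 13890332) (nat_lit 0) (nat_lit 0),Row.mk (nat_lit 21504) (nat_lit 38709) (nat_lit 9780664) (nat_lit 40766) (nat_lit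 10632300) (nat_lit 0) (nat_lit 0)],
[Row.mk (nat_lit 15792) (nat_lit 60962) (nat_lit 10588) (nat_lit 61336) (nat_lit 54) (nat_lit 0) (nat_lit 0),Row.mk (nat_lit 15960) (nat_lit 60401) (nat_lit 13208) (nat_lit 60775) (nat_lit 84) (nat_lit 0) (nat_lit 0),Row.mk (nat_lit 16128) (nat_lit 59840) (nat_lit 16470) (nat_lit 60214) (nat_lit 131) (nat_lit 0) (nat_lit 0),Row.mk (nat_lit 16296) (nat_lit 59279) (nat_lit 20530) (nat_lit 59653) (nat_lit 205) (nat_lit 0) (nat_lit 0),Row.mk (nat_lit 16464) (nat_lit 58718) (nat_lit 25577) (nat_lit 59092) (nat_lit 320) (nat_lit 0) (nat_lit 0),Row.mk (nat_lit 16632) (nat_lit 58157) (nat_lit 31846) (nat_lit 58531) (nat_lit 500) (nat_lit 0) (nat_lit 0),Row.mk (nat_lit 16800) (nat_lit 57596) (nat_lit 39619) (nat_lit 57970) (nat_lit 781) (nat_lit 0) (nat_lit 0),Row.mk (nat_lit 16968) (nat_lit 57035) (nat_lit 49240) (nat_lit 57409) (nat_lit 1218) (nat_lit 0) (nat_lit 0),Row.mk (nat_lit 17136) (nat_lit 56474)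 (nat_lit 61121) (nat_lit 56848) (nat_lit 1901) (nat_lit 0) (nat_lit 0),Row.mk (nat_lit 17304) (nat_lit 55913) (nat_lit 75747) (nat_lit 56287) (nat_lit 2966) (nat_lit 0) (nat_lit 0),Row.mk (nat_lit 17472) (nat_lit 55352) (nat_lit 93684) (nat_lit 55726) (nat_lit 4627) (nat_lit 0) (nat_lit 0),Row.mk (nat_lit 17640) (nat_lit 54791) (nat_lit 115570) (nat_lit 55165) (nat_lit 7218) (nat_lit 0) (nat_lit 0),Row.mk (nat_lit 17808) (nat_lit 54230) (nat_lit 142100) (nat_lit 54604) (nat_lit 11261) (nat_lit 0) (nat_lit 0),Row.mk (nat_lit 17976) (nat_lit 53669) (nat_lit 173978) (nat_lit 54043) (nat_lit 17566) (nat_lit 0) (nat_lit 0),Row.mk (nat_lit 18144) (nat_lit 53108) (nat_lit 211831) (nat_lit 53482) (nat_lit 27403) (nat_lit 0) (nat_lit 0),Row.mk (nat_lit 18312) (nat_lit 52547) (nat_lit 256051) (nat_lit 52921) (nat_lit 42747) (nat_lit 0) (nat_lit 0),Row.mk (nat_lit 18480) (nat_lit 51986) (nat_lit 306509) (nat_lit 52360) (nat_lit 66683) (nat_lit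 0) (nat_lit 0),Row.mk (nat_lit 18648) (nat_lit 51425) (nat_lit 362086) (nat_lit 51799) (nat_lit 104022) (nat_lit 0) (nat_lit 0),Row.mk (nat_lit 18816) (nat_lit 50864) (nat_lit 419889) (nat_lit 51238) (nat_lit 162268) (nat_lit 0) (nat_lit 0),Row.mk (nat_lit 18984) (nat_lit 50303) (nat_lit 473972) (nat_lit 50677) (nat_lit 253129) (nat_lit 0) (nat_lit 0),Row.mk (nat_lit 19152) (nat_lit 49742) (nat_lit 513265) (nat_lit 50116) (nat_lit 394867) (nat_lit 0) (nat_lit 0),Row.mk (nat_lit 19320) (nat_lit 49181) (nat_lit 518265) (nat_lit 49555) (nat_lit 615970) (nat_lit 0) (nat_lit 0),Row.mk (nat_lit 19488) (nat_lit 48620) (nat_lit 455756) (nat_lit 48994) (nat_lit 960876) (nat_lit 0) (nat_lit 0),Row.mk (nat_lit 19656) (nat_lit 47872) (nat_lit 270429) (nat_lit 48433) (nat_lit 1498911) (nat_lit 0) (nat_lit 0),Row.mk (nat_lit 19824) (nat_lit 47685) (nat_lit 2107101) (nat_lit 48246) (nat_lit 102762) (nat_lit 0) (nat_lit 0),Row.mk (nat_lit 19992)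 (nat_lit 46750) (nat_lit 2049560) (nat_lit 47498) (nat_lit 710506) (nat_lit 0) (nat_lit 0),Row.mk (nat_lit 20160) (nat_lit 45815) (nat_lit 1651718) (nat_lit 46563) (nat_lit 1795538) (nat_lit 0) (nat_lit 0),Row.mk (nat_lit 20328) (nat_lit 44693) (nat_lit 646322) (nat_lit 45628) (nat_lit 3659218) (nat_lit 0) (nat_lit 0),Row.mk (nat_lit 20496) (nat_lit 44506) (nat_lit 4254498) (nat_lit 45441) (nat_lit 1123018) (nat_lit 0) (nat_lit 0),Row.mk (nat_lit 20664) (nat_lit 43197) (nat_lit 2553699) (nat_lit 44319) (nat_lit 4162689) (nat_lit 0) (nat_lit 0),Row.mk (nat_lit 20832) (nat_lit 43010) (nat_lit 7495050) (nat_lit 44132) (nat_lit 893557) (nat_lit 0) (nat_lit 0),Row.mk (nat_lit 21000) (nat_lit 41327) (nat_lit 3983619) (nat_lit 42823) (nat_lit 6493549) (nat_lit 0) (nat_lit 0),Row.mk (nat_lit 21168) (nat_lit 41140) (nat_lit 10352961) (nat_lit 42636) (nat_lit 2732769) (nat_lit 0) (nat_lit 0),Row.mk (nat_lit 21336) (nat_lit 38896) (nat_lit 2453430)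 (nat_lit 40953) (nat_lit 13890332) (nat_lit 0) (nat_lit 0),Row.mk (nat_lit 21504) (nat_lit 38709) (nat_lit 9780664) (nat_lit 40766) (nat_lit 10632300) (nat_lit 0) (nat_lit 0),Row.mk (nat_lit 21672) (nat_lit 38522) (nat_lit 18932203) (nat_lit 40579) (nat_lit 6563097) (nat_lit 0) (nat_lit 0)],
[Row.mk (nat_lit 15792) (nat_lit 60962) (nat_lit 10588) (nat_lit 61336) (nat_lit 53) (nat_lit 0) (nat_lit 0),Row.mk (nat_lit 15960) (nat_lit 60401) (nat_lit 13208) (nat_lit 60775) (nat_lit 84) (nat_lit 0) (nat_lit 0),Row.mk (nat_lit 16128) (nat_lit 59840) (nat_lit 16470) (nat_lit 60214) (nat_lit 131) (nat_lit 0) (nat_lit 0),Row.mk (nat_lit 16296) (nat_lit 59279) (nat_lit 20530) (nat_lit 59653) (nat_lit 205) (nat_lit 0) (nat_lit 0),Row.mk (nat_lit 16464) (nat_lit 58718) (nat_lit 25577) (nat_lit 59092) (nat_lit 320) (nat_lit 0) (nat_lit 0),Row.mk (nat_lit 16632) (nat_lit 58157) (nat_lit 31846) (nat_lit 58531) (nat_lit 500) (nat_lit 0) (nat_lit 0),Row.mk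 (nat_lit 16800) (nat_lit 57596) (nat_lit 39619) (nat_lit 57970) (nat_lit 781) (nat_lit 0) (nat_lit 0),Row.mk (nat_lit 16968) (nat_lit 57035) (nat_lit 49240) (nat_lit 57409) (nat_lit 1218) (nat_lit 0) (nat_lit 0),Row.mk (nat_lit 17136) (nat_lit 56474) (nat_lit 61121) (nat_lit 56848) (nat_lit 1901) (nat_lit 0) (nat_lit 0),Row.mk (nat_lit 17304) (nat_lit 55913) (nat_lit 75747) (nat_lit 56287) (nat_lit 2966) (nat_lit 0) (nat_lit 0),Row.mk (nat_lit 17472) (nat_lit 55352) (nat_lit 93684) (nat_lit 55726) (nat_lit 4627) (nat_lit 0) (nat_lit 0),Row.mk (nat_lit 17640) (nat_lit 54791) (nat_lit 115570) (nat_lit 55165) (nat_lit 7218) (nat_lit 0) (nat_lit 0),Row.mk (nat_lit 17808) (nat_lit 54230) (nat_lit 142100) (nat_lit 54604) (nat_lit 11260) (nat_lit 0) (nat_lit 0),Row.mk (nat_lit 17976) (nat_lit 53669) (nat_lit 173978) (nat_lit 54043) (nat_lit 17566) (nat_lit 0) (nat_lit 0),Row.mk (nat_lit 18144) (nat_lit 53108) (nat_lit 211831) (nat_lit 53482)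 (nat_lit 27403) (nat_lit 0) (nat_lit 0),Row.mk (nat_lit 18312) (nat_lit 52547) (nat_lit 256051) (nat_lit 52921) (nat_lit 42747) (nat_lit 0) (nat_lit 0),Row.mk (nat_lit 18480) (nat_lit 51986) (nat_lit 306509) (nat_lit 52360) (nat_lit 66683) (nat_lit 0) (nat_lit 0),Row.mk (nat_lit 18648) (nat_lit 51425) (nat_lit 362086) (nat_lit 51799) (nat_lit 104022) (nat_lit 0) (nat_lit 0),Row.mk (nat_lit 18816) (nat_lit 50864) (nat_lit 419889) (nat_lit 51238) (nat_lit 162268) (nat_lit 0) (nat_lit 0),Row.mk (nat_lit 18984) (nat_lit 50303) (nat_lit 473972) (nat_lit 50677) (nat_lit 253129) (nat_lit 0) (nat_lit 0),Row.mk (nat_lit 19152) (nat_lit 49742) (nat_lit 513265) (nat_lit 50116) (nat_lit 394867) (nat_lit 0) (nat_lit 0),Row.mk (nat_lit 19320) (nat_lit 49181) (nat_lit 518265) (nat_lit 49555) (nat_lit 615969) (nat_lit 0) (nat_lit 0),Row.mk (nat_lit 19488) (nat_lit 48620) (nat_lit 455756) (nat_lit 48994) (nat_lit 960876) (nat_lit 0) (nat_lit 0),Row.mk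 (nat_lit 19656) (nat_lit 47872) (nat_lit 270429) (nat_lit 48433) (nat_lit 1498911) (nat_lit 0) (nat_lit 0),Row.mk (nat_lit 19824) (nat_lit 47685) (nat_lit 2107101) (nat_lit 48246) (nat_lit 102762) (nat_lit 0) (nat_lit 0),Row.mk (nat_lit 19992) (nat_lit 46750) (nat_lit 2049560) (nat_lit 47498) (nat_lit 710506) (nat_lit 0) (nat_lit 0),Row.mk (nat_lit 20160) (nat_lit 45815) (nat_lit 1651718) (nat_lit 46563) (nat_lit 1795538) (nat_lit 0) (nat_lit 0),Row.mk (nat_lit 20328) (nat_lit 44693) (nat_lit 646322) (nat_lit 45628) (nat_lit 3659218) (nat_lit 0) (nat_lit 0),Row.mk (nat_lit 20496) (nat_lit 44506) (nat_lit 4254499) (nat_lit 45441) (nat_lit 1123018) (nat_lit 0) (nat_lit 0),Row.mk (nat_lit 20664) (nat_lit 43197) (nat_lit 2553699) (nat_lit 44319) (nat_lit 4162689) (nat_lit 0) (nat_lit 0),Row.mk (nat_lit 20832) (nat_lit 43010) (nat_lit 7495050) (nat_lit 44132) (nat_lit 893557) (nat_lit 0) (nat_lit 0),Row.mk (nat_lit 21000) (nat_lit 41327)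 (nat_lit 3983619) (nat_lit 42823) (nat_lit 6493549) (nat_lit 0) (nat_lit 0),Row.mk (nat_lit 21168) (nat_lit 41140) (nat_lit 10352961) (nat_lit 42636) (nat_lit 2732769) (nat_lit 0) (nat_lit 0),Row.mk (nat_lit 21336) (nat_lit 38896) (nat_lit 2453430) (nat_lit 40953) (nat_lit 13890331) (nat_lit 0) (nat_lit 0),Row.mk (nat_lit 21504) (nat_lit 38709) (nat_lit 9780664) (nat_lit 40766) (nat_lit 10632300) (nat_lit 0) (nat_lit 0),Row.mk (nat_lit 21672) (nat_lit 38522) (nat_lit 18932203) (nat_lit 40579) (nat_lit 6563097) (nat_lit 0) (nat_lit 0)],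
[Row.mk (nat_lit 15792) (nat_lit 60962) (nat_lit 10588) (nat_lit 61336) (nat_lit 53) (nat_lit 0) (nat_lit 0),Row.mk (nat_lit 15960) (nat_lit 60401) (nat_lit 13208) (nat_lit 60775) (nat_lit 84) (nat_lit 0) (nat_lit 0),Row.mk (nat_lit 16128) (nat_lit 59840) (nat_lit 16470) (nat_lit 60214) (nat_lit 131) (nat_lit 0) (nat_lit 0),Row.mk (nat_lit 16296) (nat_lit 59279) (nat_lit 20530) (nat_lit 59653) (nat_lit 205) (nat_lit 0) (nat_lit 0),Row.mk (nat_lit 16464) (nat_lit 58718) (nat_lit 25577) (nat_lit 59092) (nat_lit 320) (nat_lit 0) (nat_lit 0),Row.mk (nat_lit 16632) (nat_lit 58157) (nat_lit 31846) (nat_lit 58531) (nat_lit 500) (nat_lit 0) (nat_lit 0),Row.mk (nat_lit 16800) (nat_lit 57596) (nat_lit 39619) (nat_lit 57970) (nat_lit 781) (nat_lit 0) (nat_lit 0),Row.mk (nat_lit 16968) (nat_lit 57035) (nat_lit 49240) (nat_lit 57409) (nat_lit 1218) (nat_lit 0) (nat_lit 0),Row.mk (nat_lit 17136) (nat_lit 56474) (nat_lit 61121) (nat_lit 56848) (nat_lit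 1901) (nat_lit 0) (nat_lit 0),Row.mk (nat_lit 17304) (nat_lit 55913) (nat_lit 75747) (nat_lit 56287) (nat_lit 2966) (nat_lit 0) (nat_lit 0),Row.mk (nat_lit 17472) (nat_lit 55352) (nat_lit 93684) (nat_lit 55726) (nat_lit 4627) (nat_lit 0) (nat_lit 0),Row.mk (nat_lit 17640) (nat_lit 54791) (nat_lit 115570) (nat_lit 55165) (nat_lit 7218) (nat_lit 0) (nat_lit 0),Row.mk (nat_lit 17808) (nat_lit 54230) (nat_lit 142100) (nat_lit 54604) (nat_lit 11260) (nat_lit 0) (nat_lit 0),Row.mk (nat_lit 17976) (nat_lit 53669) (nat_lit 173978) (nat_lit 54043) (nat_lit 17566) (nat_lit 0) (nat_lit 0),Row.mk (nat_lit 18144) (nat_lit 53108) (nat_lit 211831) (nat_lit 53482) (nat_lit 27402) (nat_lit 0) (nat_lit 0),Row.mk (nat_lit 18312) (nat_lit 52547) (nat_lit 256051) (nat_lit 52921) (nat_lit 42747) (nat_lit 0) (nat_lit 0),Row.mk (nat_lit 18480) (nat_lit 51986) (nat_lit 306509) (nat_lit 52360) (nat_lit 66683) (nat_lit 0) (nat_lit 0),Row.mk (nat_lit 18648)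 (nat_lit 51425) (nat_lit 362086) (nat_lit 51799) (nat_lit 104022) (nat_lit 0) (nat_lit 0),Row.mk (nat_lit 18816) (nat_lit 50864) (nat_lit 419889) (nat_lit 51238) (nat_lit 162268) (nat_lit 0) (nat_lit 0),Row.mk (nat_lit 18984) (nat_lit 50303) (nat_lit 473972) (nat_lit 50677) (nat_lit 253129) (nat_lit 0) (nat_lit 0),Row.mk (nat_lit 19152) (nat_lit 49742) (nat_lit 513265) (nat_lit 50116) (nat_lit 394867) (nat_lit 0) (nat_lit 0),Row.mk (nat_lit 19320) (nat_lit 49181) (nat_lit 518265) (nat_lit 49555) (nat_lit 615969) (nat_lit 0) (nat_lit 0),Row.mk (nat_lit 19488) (nat_lit 48620) (nat_lit 455756) (nat_lit 48994) (nat_lit 960876) (nat_lit 0) (nat_lit 0),Row.mk (nat_lit 19656) (nat_lit 47872) (nat_lit 270429) (nat_lit 48433) (nat_lit 1498910) (nat_lit 0) (nat_lit 0),Row.mk (nat_lit 19824) (nat_lit 47685) (nat_lit 2107101) (nat_lit 48246) (nat_lit 102762) (nat_lit 0) (nat_lit 0),Row.mk (nat_lit 19992) (nat_lit 46750) (nat_lit 2049560) (nat_lit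 47498) (nat_lit 710506) (nat_lit 0) (nat_lit 0),Row.mk (nat_lit 20160) (nat_lit 45815) (nat_lit 1651718) (nat_lit 46563) (nat_lit 1795538) (nat_lit 0) (nat_lit 0),Row.mk (nat_lit 20328) (nat_lit 44693) (nat_lit 646322) (nat_lit 45628) (nat_lit 3659218) (nat_lit 0) (nat_lit 0),Row.mk (nat_lit 20496) (nat_lit 44506) (nat_lit 4254499) (nat_lit 45441) (nat_lit 1123017) (nat_lit 0) (nat_lit 0),Row.mk (nat_lit 20664) (nat_lit 43197) (nat_lit 2553699) (nat_lit 44319) (nat_lit 4162689) (nat_lit 0) (nat_lit 0),Row.mk (nat_lit 20832) (nat_lit 43010) (nat_lit 7495050) (nat_lit 44132) (nat_lit 893557) (nat_lit 0) (nat_lit 0),Row.mk (nat_lit 21000) (nat_lit 41327) (nat_lit 3983619) (nat_lit 42823) (nat_lit 6493549) (nat_lit 0) (nat_lit 0),Row.mk (nat_lit 21168) (nat_lit 41140) (nat_lit 10352962) (nat_lit 42636) (nat_lit 2732769) (nat_lit 0) (nat_lit 0),Row.mk (nat_lit 21336) (nat_lit 38896) (nat_lit 2453430) (nat_lit 40953) (nat_lit 13890331)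 (nat_lit 0) (nat_lit 0),Row.mk (nat_lit 21504) (nat_lit 38709) (nat_lit 9780664) (nat_lit 40766) (nat_lit 10632300) (nat_lit 0) (nat_lit 0),Row.mk (nat_lit 21672) (nat_lit 38522) (nat_lit 18932203) (nat_lit 40579) (nat_lit 6563097) (nat_lit 0) (nat_lit 0),Row.mk (nat_lit 21840) (nat_lit 38335) (nat_lit 30362254) (nat_lit 40392) (nat_lit 1480761) (nat_lit 0) (nat_lit 0)],
[Row.mk (nat_lit 15792) (nat_lit 60962) (nat_lit 10588) (nat_lit 61336) (nat_lit 53) (nat_lit 0) (nat_lit 0),Row.mk (nat_lit 15960) (nat_lit 60401) (nat_lit 13208) (nat_lit 60775) (nat_lit 84) (nat_lit 0) (nat_lit 0),Row.mk (nat_lit 16128) (nat_lit 59840) (nat_lit 16470) (nat_lit 60214) (nat_lit 131) (nat_lit 0) (nat_lit 0),Row.mk (nat_lit 16296) (nat_lit 59279) (nat_lit 20530) (nat_lit 59653) (nat_lit 205) (nat_lit 0) (nat_lit 0),Row.mk (nat_lit 16464) (nat_lit 58718) (nat_lit 25577) (nat_lit 59092) (nat_lit 320) (nat_lit 0) (nat_lit 0),Row.mk (nat_lit 16632) (nat_lit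 58157) (nat_lit 31846) (nat_lit 58531) (nat_lit 500) (nat_lit 0) (nat_lit 0),Row.mk (nat_lit 16800) (nat_lit 57596) (nat_lit 39619) (nat_lit 57970) (nat_lit 781) (nat_lit 0) (nat_lit 0),Row.mk (nat_lit 16968) (nat_lit 57035) (nat_lit 49240) (nat_lit 57409) (nat_lit 1218) (nat_lit 0) (nat_lit 0),Row.mk (nat_lit 17136) (nat_lit 56474) (nat_lit 61121) (nat_lit 56848) (nat_lit 1901) (nat_lit 0) (nat_lit 0),Row.mk (nat_lit 17304) (nat_lit 55913) (nat_lit 75747) (nat_lit 56287) (nat_lit 2966) (nat_lit 0) (nat_lit 0),Row.mk (nat_lit 17472) (nat_lit 55352) (nat_lit 93684) (nat_lit 55726) (nat_lit 4627) (nat_lit 0) (nat_lit 0),Row.mk (nat_lit 17640) (nat_lit 54791) (nat_lit 115570) (nat_lit 55165) (nat_lit 7218) (nat_lit 0) (nat_lit 0),Row.mk (nat_lit 17808) (nat_lit 54230) (nat_lit 142100) (nat_lit 54604) (nat_lit 11260) (nat_lit 0) (nat_lit 0),Row.mk (nat_lit 17976) (nat_lit 53669) (nat_lit 173978) (nat_lit 54043) (nat_lit 17566) (nat_lit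 0) (nat_lit 0),Row.mk (nat_lit 18144) (nat_lit 53108) (nat_lit 211831) (nat_lit 53482) (nat_lit 27402) (nat_lit 0) (nat_lit 0),Row.mk (nat_lit 18312) (nat_lit 52547) (nat_lit 256051) (nat_lit 52921) (nat_lit 42747) (nat_lit 0) (nat_lit 0),Row.mk (nat_lit 18480) (nat_lit 51986) (nat_lit 306509) (nat_lit 52360) (nat_lit 66683) (nat_lit 0) (nat_lit 0),Row.mk (nat_lit 18648) (nat_lit 51425) (nat_lit 362086) (nat_lit 51799) (nat_lit 104022) (nat_lit 0) (nat_lit 0),Row.mk (nat_lit 18816) (nat_lit 50864) (nat_lit 419889) (nat_lit 51238) (nat_lit 162268) (nat_lit 0) (nat_lit 0),Row.mk (nat_lit 18984) (nat_lit 50303) (nat_lit 473972) (nat_lit 50677) (nat_lit 253129) (nat_lit 0) (nat_lit 0),Row.mk (nat_lit 19152) (nat_lit 49742) (nat_lit 513265) (nat_lit 50116) (nat_lit 394867) (nat_lit 0) (nat_lit 0),Row.mk (nat_lit 19320) (nat_lit 49181) (nat_lit 518265) (nat_lit 49555) (nat_lit 615969) (nat_lit 0) (nat_lit 0),Row.mk (nat_lit 19488) (nat_lit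 48620) (nat_lit 455756) (nat_lit 48994) (nat_lit 960876) (nat_lit 0) (nat_lit 0),Row.mk (nat_lit 19656) (nat_lit 47872) (nat_lit 270429) (nat_lit 48433) (nat_lit 1498910) (nat_lit 0) (nat_lit 0),Row.mk (nat_lit 19824) (nat_lit 47685) (nat_lit 2107101) (nat_lit 48246) (nat_lit 102762) (nat_lit 0) (nat_lit 0),Row.mk (nat_lit 19992) (nat_lit 46750) (nat_lit 2049560) (nat_lit 47498) (nat_lit 710506) (nat_lit 0) (nat_lit 0),Row.mk (nat_lit 20160) (nat_lit 45815) (nat_lit 1651718) (nat_lit 46563) (nat_lit 1795538) (nat_lit 0) (nat_lit 0),Row.mk (nat_lit 20328) (nat_lit 44693) (nat_lit 646322) (nat_lit 45628) (nat_lit 3659218) (nat_lit 0) (nat_lit 0),Row.mk (nat_lit 20496) (nat_lit 44506) (nat_lit 4254499) (nat_lit 45441) (nat_lit 1123017) (nat_lit 0) (nat_lit 0),Row.mk (nat_lit 20664) (nat_lit 43197) (nat_lit 2553699) (nat_lit 44319) (nat_lit 4162689) (nat_lit 0) (nat_lit 0),Row.mk (nat_lit 20832) (nat_lit 43010) (nat_lit 7495050) (nat_lit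 44132) (nat_lit 893557) (nat_lit 0) (nat_lit 0),Row.mk (nat_lit 21000) (nat_lit 41327) (nat_lit 3983619) (nat_lit 42823) (nat_lit 6493549) (nat_lit 0) (nat_lit 0),Row.mk (nat_lit 21168) (nat_lit 41140) (nat_lit 10352962) (nat_lit 42636) (nat_lit 2732769) (nat_lit 0) (nat_lit 0),Row.mk (nat_lit 21336) (nat_lit 38896) (nat_lit 2453430) (nat_lit 40953) (nat_lit 13890331) (nat_lit 0) (nat_lit 0),Row.mk (nat_lit 21504) (nat_lit 38709) (nat_lit 9780664) (nat_lit 40766) (nat_lit 10632300) (nat_lit 0) (nat_lit 0),Row.mk (nat_lit 21672) (nat_lit 38522) (nat_lit 18932203) (nat_lit 40579) (nat_lit 6563097) (nat_lit 0) (nat_lit 0),Row.mk (nat_lit 21840) (nat_lit 38335) (nat_lit 30362254) (nat_lit 40392) (nat_lit 1480760) (nat_lit 40579) (nat_lit 1),Row.mk (nat_lit 22008) (nat_lit 31603) (nat_lit 6078706) (nat_lit 38148) (nat_lit 33692451) (nat_lit 38335) (nat_lit 1)],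
[Row.mk (nat_lit 15792) (nat_lit 60962) (nat_lit 10588) (nat_lit 61336) (nat_lit 53) (nat_lit 0) (nat_lit 0),Row.mk (nat_lit 15960) (nat_lit 60401) (nat_lit 13208) (nat_lit 60775) (nat_lit 84) (nat_lit 0) (nat_lit 0),Row.mk (nat_lit 16128) (nat_lit 59840) (nat_lit 16470) (nat_lit 60214) (nat_lit 131) (nat_lit 0) (nat_lit 0),Row.mk (nat_lit 16296) (nat_lit 59279) (nat_lit 20530) (nat_lit 59653) (nat_lit 205) (nat_lit 0) (nat_lit 0),Row.mk (nat_lit 16464) (nat_lit 58718) (nat_lit 25577) (nat_lit 59092) (nat_lit 320) (nat_lit 0) (nat_lit 0),Row.mk (nat_lit 16632) (nat_lit 58157) (nat_lit 31846) (nat_lit 58531) (nat_lit 500) (nat_lit 0) (nat_lit 0),Row.mk (nat_lit 16800) (nat_lit 57596) (nat_lit 39619) (nat_lit 57970) (nat_lit 781) (nat_lit 0) (nat_lit 0),Row.mk (nat_lit 16968) (nat_lit 57035) (nat_lit 49240) (nat_lit 57409) (nat_lit 1218) (nat_lit 0) (nat_lit 0),Row.mk (nat_lit 17136) (nat_lit 56474) (nat_lit 61121) (nat_lit 56848) (nat_lit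 1901) (nat_lit 0) (nat_lit 0),Row.mk (nat_lit 17304) (nat_lit 55913) (nat_lit 75747) (nat_lit 56287) (nat_lit 2966) (nat_lit 0) (nat_lit 0),Row.mk (nat_lit 17472) (nat_lit 55352) (nat_lit 93684) (nat_lit 55726) (nat_lit 4627) (nat_lit 0) (nat_lit 0),Row.mk (nat_lit 17640) (nat_lit 54791) (nat_lit 115570) (nat_lit 55165) (nat_lit 7218) (nat_lit 0) (nat_lit 0),Row.mk (nat_lit 17808) (nat_lit 54230) (nat_lit 142100) (nat_lit 54604) (nat_lit 11260) (nat_lit 0) (nat_lit 0),Row.mk (nat_lit 17976) (nat_lit 53669) (nat_lit 173978) (nat_lit 54043) (nat_lit 17566) (nat_lit 0) (nat_lit 0),Row.mk (nat_lit 18144) (nat_lit 53108) (nat_lit 211831) (nat_lit 53482) (nat_lit 27402) (nat_lit 0) (nat_lit 0),Row.mk (nat_lit 18312) (nat_lit 52547) (nat_lit 256051) (nat_lit 52921) (nat_lit 42747) (nat_lit 0) (nat_lit 0),Row.mk (nat_lit 18480) (nat_lit 51986) (nat_lit 306509) (nat_lit 52360) (nat_lit 66683) (nat_lit 0) (nat_lit 0),Row.mk (nat_lit 18648)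 (nat_lit 51425) (nat_lit 362086) (nat_lit 51799) (nat_lit 104022) (nat_lit 0) (nat_lit 0),Row.mk (nat_lit 18816) (nat_lit 50864) (nat_lit 419889) (nat_lit 51238) (nat_lit 162268) (nat_lit 0) (nat_lit 0),Row.mk (nat_lit 18984) (nat_lit 50303) (nat_lit 473972) (nat_lit 50677) (nat_lit 253129) (nat_lit 0) (nat_lit 0),Row.mk (nat_lit 19152) (nat_lit 49742) (nat_lit 513265) (nat_lit 50116) (nat_lit 394867) (nat_lit 0) (nat_lit 0),Row.mk (nat_lit 19320) (nat_lit 49181) (nat_lit 518265) (nat_lit 49555) (nat_lit 615969) (nat_lit 0) (nat_lit 0),Row.mk (nat_lit 19488) (nat_lit 48620) (nat_lit 455756) (nat_lit 48994) (nat_lit 960876) (nat_lit 0) (nat_lit 0),Row.mk (nat_lit 19656) (nat_lit 47872) (nat_lit 270429) (nat_lit 48433) (nat_lit 1498910) (nat_lit 0) (nat_lit 0),Row.mk (nat_lit 19824) (nat_lit 47685) (nat_lit 2107101) (nat_lit 48246) (nat_lit 102762) (nat_lit 0) (nat_lit 0),Row.mk (nat_lit 19992) (nat_lit 46750) (nat_lit 2049560) (nat_lit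 47498) (nat_lit 710506) (nat_lit 0) (nat_lit 0),Row.mk (nat_lit 20160) (nat_lit 45815) (nat_lit 1651718) (nat_lit 46563) (nat_lit 1795538) (nat_lit 0) (nat_lit 0),Row.mk (nat_lit 20328) (nat_lit 44693) (nat_lit 646323) (nat_lit 45628) (nat_lit 3659217) (nat_lit 0) (nat_lit 0),Row.mk (nat_lit 20496) (nat_lit 44506) (nat_lit 4254499) (nat_lit 45441) (nat_lit 1123017) (nat_lit 0) (nat_lit 0),Row.mk (nat_lit 20664) (nat_lit 43197) (nat_lit 2553699) (nat_lit 44319) (nat_lit 4162689) (nat_lit 0) (nat_lit 0),Row.mk (nat_lit 20832) (nat_lit 43010) (nat_lit 7495050) (nat_lit 44132) (nat_lit 893557) (nat_lit 0) (nat_lit 0),Row.mk (nat_lit 21000) (nat_lit 41327) (nat_lit 3983620) (nat_lit 42823) (nat_lit 6493548) (nat_lit 0) (nat_lit 0),Row.mk (nat_lit 21168) (nat_lit 41140) (nat_lit 10352962) (nat_lit 42636) (nat_lit 2732768) (nat_lit 0) (nat_lit 0),Row.mk (nat_lit 21336) (nat_lit 38896) (nat_lit 2453430) (nat_lit 40953) (nat_lit 13890331)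 (nat_lit 0) (nat_lit 0),Row.mk (nat_lit 21504) (nat_lit 38709) (nat_lit 9780665) (nat_lit 40766) (nat_lit 10632299) (nat_lit 0) (nat_lit 0),Row.mk (nat_lit 21672) (nat_lit 38522) (nat_lit 18932203) (nat_lit 40579) (nat_lit 6563096) (nat_lit 40766) (nat_lit 1),Row.mk (nat_lit 21840) (nat_lit 38335) (nat_lit 30362254) (nat_lit 40392) (nat_lit 1480760) (nat_lit 40579) (nat_lit 1),Row.mk (nat_lit 22008) (nat_lit 31603) (nat_lit 6078707) (nat_lit 38148) (nat_lit 33692450) (nat_lit 38335) (nat_lit 1)],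
[Row.mk (nat_lit 15792) (nat_lit 60962) (nat_lit 10588) (nat_lit 61336) (nat_lit 53) (nat_lit 0) (nat_lit 0),Row.mk (nat_lit 15960) (nat_lit 60401) (nat_lit 13208) (nat_lit 60775) (nat_lit 83) (nat_lit 0) (nat_lit 0),Row.mk (nat_lit 16128) (nat_lit 59840) (nat_lit 16470) (nat_lit 60214) (nat_lit 131) (nat_lit 0) (nat_lit 0),Row.mk (nat_lit 16296) (nat_lit 59279) (nat_lit 20530) (nat_lit 59653) (nat_lit 205) (nat_lit 0) (nat_lit 0),Row.mk (nat_lit 16464) (nat_lit 58718) (nat_lit 25577) (nat_lit 59092) (nat_lit 320) (nat_lit 0) (nat_lit 0),Row.mk (nat_lit 16632) (nat_lit 58157) (nat_lit 31846) (nat_lit 58531) (nat_lit 500) (nat_lit 0) (nat_lit 0),Row.mk (nat_lit 16800) (nat_lit 57596) (nat_lit 39619) (nat_lit 57970) (nat_lit 780) (nat_lit 0) (nat_lit 0),Row.mk (nat_lit 16968) (nat_lit 57035) (nat_lit 49240) (nat_lit 57409) (nat_lit 1218) (nat_lit 0) (nat_lit 0),Row.mk (nat_lit 17136) (nat_lit 56474) (nat_lit 61121) (nat_lit 56848) (nat_lit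 1901) (nat_lit 0) (nat_lit 0),Row.mk (nat_lit 17304) (nat_lit 55913) (nat_lit 75747) (nat_lit 56287) (nat_lit 2965) (nat_lit 0) (nat_lit 0),Row.mk (nat_lit 17472) (nat_lit 55352) (nat_lit 93684) (nat_lit 55726) (nat_lit 4627) (nat_lit 0) (nat_lit 0),Row.mk (nat_lit 17640) (nat_lit 54791) (nat_lit 115570) (nat_lit 55165) (nat_lit 7218) (nat_lit 0) (nat_lit 0),Row.mk (nat_lit 17808) (nat_lit 54230) (nat_lit 142100) (nat_lit 54604) (nat_lit 11260) (nat_lit 0) (nat_lit 0),Row.mk (nat_lit 17976) (nat_lit 53669) (nat_lit 173978) (nat_lit 54043) (nat_lit 17566) (nat_lit 0) (nat_lit 0),Row.mk (nat_lit 18144) (nat_lit 53108) (nat_lit 211831) (nat_lit 53482) (nat_lit 27402) (nat_lit 0) (nat_lit 0),Row.mk (nat_lit 18312) (nat_lit 52547) (nat_lit 256051) (nat_lit 52921) (nat_lit 42746) (nat_lit 0) (nat_lit 0),Row.mk (nat_lit 18480) (nat_lit 51986) (nat_lit 306509) (nat_lit 52360) (nat_lit 66682) (nat_lit 0) (nat_lit 0),Row.mk (nat_lit 18648)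 (nat_lit 51425) (nat_lit 362086) (nat_lit 51799) (nat_lit 104021) (nat_lit 0) (nat_lit 0),Row.mk (nat_lit 18816) (nat_lit 50864) (nat_lit 419889) (nat_lit 51238) (nat_lit 162268) (nat_lit 0) (nat_lit 0),Row.mk (nat_lit 18984) (nat_lit 50303) (nat_lit 473972) (nat_lit 50677) (nat_lit 253129) (nat_lit 0) (nat_lit 0),Row.mk (nat_lit 19152) (nat_lit 49742) (nat_lit 513265) (nat_lit 50116) (nat_lit 394867) (nat_lit 0) (nat_lit 0),Row.mk (nat_lit 19320) (nat_lit 49181) (nat_lit 518265) (nat_lit 49555) (nat_lit 615969) (nat_lit 0) (nat_lit 0),Row.mk (nat_lit 19488) (nat_lit 48620) (nat_lit 455756) (nat_lit 48994) (nat_lit 960876) (nat_lit 0) (nat_lit 0),Row.mk (nat_lit 19656) (nat_lit 47872) (nat_lit 270429) (nat_lit 48433) (nat_lit 1498910) (nat_lit 0) (nat_lit 0),Row.mk (nat_lit 19824) (nat_lit 47685) (nat_lit 2107101) (nat_lit 48246) (nat_lit 102762) (nat_lit 0) (nat_lit 0),Row.mk (nat_lit 19992) (nat_lit 46750) (nat_lit 2049560) (nat_lit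 47498) (nat_lit 710506) (nat_lit 0) (nat_lit 0),Row.mk (nat_lit 20160) (nat_lit 45815) (nat_lit 1651718) (nat_lit 46563) (nat_lit 1795538) (nat_lit 0) (nat_lit 0),Row.mk (nat_lit 20328) (nat_lit 44693) (nat_lit 646323) (nat_lit 45628) (nat_lit 3659217) (nat_lit 0) (nat_lit 0),Row.mk (nat_lit 20496) (nat_lit 44506) (nat_lit 4254499) (nat_lit 45441) (nat_lit 1123017) (nat_lit 0) (nat_lit 0),Row.mk (nat_lit 20664) (nat_lit 43197) (nat_lit 2553699) (nat_lit 44319) (nat_lit 4162689) (nat_lit 0) (nat_lit 0),Row.mk (nat_lit 20832) (nat_lit 43010) (nat_lit 7495050) (nat_lit 44132) (nat_lit 893557) (nat_lit 0) (nat_lit 0),Row.mk (nat_lit 21000) (nat_lit 41327) (nat_lit 3983620) (nat_lit 42823) (nat_lit 6493548) (nat_lit 0) (nat_lit 0),Row.mk (nat_lit 21168) (nat_lit 41140) (nat_lit 10352962) (nat_lit 42636) (nat_lit 2732768) (nat_lit 0) (nat_lit 0),Row.mk (nat_lit 21336) (nat_lit 38896) (nat_lit 2453431) (nat_lit 40953) (nat_lit 13890331)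 (nat_lit 0) (nat_lit 0),Row.mk (nat_lit 21504) (nat_lit 38709) (nat_lit 9780665) (nat_lit 40766) (nat_lit 10632299) (nat_lit 0) (nat_lit 0),Row.mk (nat_lit 21672) (nat_lit 38522) (nat_lit 18932203) (nat_lit 40579) (nat_lit 6563096) (nat_lit 40766) (nat_lit 1),Row.mk (nat_lit 21840) (nat_lit 38335) (nat_lit 30362254) (nat_lit 40392) (nat_lit 1480760) (nat_lit 40579) (nat_lit 1),Row.mk (nat_lit 22008) (nat_lit 31603) (nat_lit 6078707) (nat_lit 38148) (nat_lit 33692449) (nat_lit 38335) (nat_lit 2),Row.mk (nat_lit 22176) (nat_lit 31416) (nat_lit 15980766) (nat_lit 37961) (nat_lit 33692449) (nat_lit 38148) (nat_lit 3)],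
[Row.mk (nat_lit 15792) (nat_lit 60962) (nat_lit 10588) (nat_lit 61336) (nat_lit 53) (nat_lit 0) (nat_lit 0),Row.mk (nat_lit 15960) (nat_lit 60401) (nat_lit 13208) (nat_lit 60775) (nat_lit 83) (nat_lit 0) (nat_lit 0),Row.mk (nat_lit 16128) (nat_lit 59840) (nat_lit 16470) (nat_lit 60214) (nat_lit 131) (nat_lit 0) (nat_lit 0),Row.mk (nat_lit 16296) (nat_lit 59279) (nat_lit 20530) (nat_lit 59653) (nat_lit 205) (nat_lit 0) (nat_lit 0),Row.mk (nat_lit 16464) (nat_lit 58718) (nat_lit 25577) (nat_lit 59092) (nat_lit 320) (nat_lit 0) (nat_lit 0),Row.mk (nat_lit 16632) (nat_lit 58157) (nat_lit 31846) (nat_lit 58531) (nat_lit 500) (nat_lit 0) (nat_lit 0),Row.mk (nat_lit 16800) (nat_lit 57596) (nat_lit 39619) (nat_lit 57970) (nat_lit 780) (nat_lit 0) (nat_lit 0),Row.mk (nat_lit 16968) (nat_lit 57035) (nat_lit 49240) (nat_lit 57409) (nat_lit 1218) (nat_lit 0) (nat_lit 0),Row.mk (nat_lit 17136) (nat_lit 56474) (nat_lit 61121) (nat_lit 56848) (nat_lit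 1900) (nat_lit 0) (nat_lit 0),Row.mk (nat_lit 17304) (nat_lit 55913) (nat_lit 75747) (nat_lit 56287) (nat_lit 2965) (nat_lit 0) (nat_lit 0),Row.mk (nat_lit 17472) (nat_lit 55352) (nat_lit 93684) (nat_lit 55726) (nat_lit 4626) (nat_lit 0) (nat_lit 0),Row.mk (nat_lit 17640) (nat_lit 54791) (nat_lit 115570) (nat_lit 55165) (nat_lit 7218) (nat_lit 0) (nat_lit 0),Row.mk (nat_lit 17808) (nat_lit 54230) (nat_lit 142100) (nat_lit 54604) (nat_lit 11260) (nat_lit 0) (nat_lit 0),Row.mk (nat_lit 17976) (nat_lit 53669) (nat_lit 173978) (nat_lit 54043) (nat_lit 17566) (nat_lit 0) (nat_lit 0),Row.mk (nat_lit 18144) (nat_lit 53108) (nat_lit 211831) (nat_lit 53482) (nat_lit 27402) (nat_lit 0) (nat_lit 0),Row.mk (nat_lit 18312) (nat_lit 52547) (nat_lit 256051) (nat_lit 52921) (nat_lit 42746) (nat_lit 0) (nat_lit 0),Row.mk (nat_lit 18480) (nat_lit 51986) (nat_lit 306509) (nat_lit 52360) (nat_lit 66682) (nat_lit 0) (nat_lit 0),Row.mk (nat_lit 18648)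 (nat_lit 51425) (nat_lit 362086) (nat_lit 51799) (nat_lit 104021) (nat_lit 0) (nat_lit 0),Row.mk (nat_lit 18816) (nat_lit 50864) (nat_lit 419889) (nat_lit 51238) (nat_lit 162268) (nat_lit 0) (nat_lit 0),Row.mk (nat_lit 18984) (nat_lit 50303) (nat_lit 473972) (nat_lit 50677) (nat_lit 253129) (nat_lit 0) (nat_lit 0),Row.mk (nat_lit 19152) (nat_lit 49742) (nat_lit 513265) (nat_lit 50116) (nat_lit 394866) (nat_lit 0) (nat_lit 0),Row.mk (nat_lit 19320) (nat_lit 49181) (nat_lit 518265) (nat_lit 49555) (nat_lit 615969) (nat_lit 0) (nat_lit 0),Row.mk (nat_lit 19488) (nat_lit 48620) (nat_lit 455756) (nat_lit 48994) (nat_lit 960876) (nat_lit 0) (nat_lit 0),Row.mk (nat_lit 19656) (nat_lit 47872) (nat_lit 270429) (nat_lit 48433) (nat_lit 1498910) (nat_lit 0) (nat_lit 0),Row.mk (nat_lit 19824) (nat_lit 47685) (nat_lit 2107101) (nat_lit 48246) (nat_lit 102762) (nat_lit 0) (nat_lit 0),Row.mk (nat_lit 19992) (nat_lit 46750) (nat_lit 2049560) (nat_lit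 47498) (nat_lit 710506) (nat_lit 0) (nat_lit 0),Row.mk (nat_lit 20160) (nat_lit 45815) (nat_lit 1651718) (nat_lit 46563) (nat_lit 1795538) (nat_lit 0) (nat_lit 0),Row.mk (nat_lit 20328) (nat_lit 44693) (nat_lit 646323) (nat_lit 45628) (nat_lit 3659217) (nat_lit 0) (nat_lit 0),Row.mk (nat_lit 20496) (nat_lit 44506) (nat_lit 4254499) (nat_lit 45441) (nat_lit 1123017) (nat_lit 0) (nat_lit 0),Row.mk (nat_lit 20664) (nat_lit 43197) (nat_lit 2553699) (nat_lit 44319) (nat_lit 4162689) (nat_lit 0) (nat_lit 0),Row.mk (nat_lit 20832) (nat_lit 43010) (nat_lit 7495050) (nat_lit 44132) (nat_lit 893557) (nat_lit 0) (nat_lit 0),Row.mk (nat_lit 21000) (nat_lit 41327) (nat_lit 3983620) (nat_lit 42823) (nat_lit 6493548) (nat_lit 0) (nat_lit 0),Row.mk (nat_lit 21168) (nat_lit 41140) (nat_lit 10352962) (nat_lit 42636) (nat_lit 2732768) (nat_lit 0) (nat_lit 0),Row.mk (nat_lit 21336) (nat_lit 38896) (nat_lit 2453431) (nat_lit 40953) (nat_lit 13890330)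 (nat_lit 0) (nat_lit 0),Row.mk (nat_lit 21504) (nat_lit 38709) (nat_lit 9780665) (nat_lit 40766) (nat_lit 10632299) (nat_lit 40953) (nat_lit 1),Row.mk (nat_lit 21672) (nat_lit 38522) (nat_lit 18932204) (nat_lit 40579) (nat_lit 6563095) (nat_lit 40766) (nat_lit 1),Row.mk (nat_lit 21840) (nat_lit 38335) (nat_lit 30362255) (nat_lit 40392) (nat_lit 1480759) (nat_lit 40579) (nat_lit 2),Row.mk (nat_lit 22008) (nat_lit 31603) (nat_lit 6078707) (nat_lit 38148) (nat_lit 33692449) (nat_lit 38335) (nat_lit 2),Row.mk (nat_lit 22176) (nat_lit 31416) (nat_lit 15980766) (nat_lit 37961) (nat_lit 33692448) (nat_lit 38148) (nat_lit 3),Row.mk (nat_lit 22344) (nat_lit 31229) (nat_lit 28348199) (nat_lit 37774) (nat_lit 33692447) (nat_lit 37961) (nat_lit 5)],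
[Row.mk (nat_lit 15792) (nat_lit 60775) (nat_lit 1) (nat_lit 60962) (nat_lit 10588) (nat_lit 61336) (nat_lit 53),Row.mk (nat_lit 15960) (nat_lit 60214) (nat_lit 1) (nat_lit 60401) (nat_lit 13208) (nat_lit 60775) (nat_lit 83),Row.mk (nat_lit 16128) (nat_lit 59653) (nat_lit 1) (nat_lit 59840) (nat_lit 16470) (nat_lit 60214) (nat_lit 130),Row.mk (nat_lit 16296) (nat_lit 59092) (nat_lit 1) (nat_lit 59279) (nat_lit 20530) (nat_lit 59653) (nat_lit 204),Row.mk (nat_lit 16464) (nat_lit 58531) (nat_lit 1) (nat_lit 58718) (nat_lit 25577) (nat_lit 59092) (nat_lit 320),Row.mk (nat_lit 16632) (nat_lit 57970) (nat_lit 1) (nat_lit 58157) (nat_lit 31846) (nat_lit 58531) (nat_lit 499),Row.mk (nat_lit 16800) (nat_lit 57409) (nat_lit 1) (nat_lit 57596) (nat_lit 39619) (nat_lit 57970) (nat_lit 780),Row.mk (nat_lit 16968) (nat_lit 56848) (nat_lit 1) (nat_lit 57035) (nat_lit 49240) (nat_lit 57409) (nat_lit 1218),Row.mk (nat_lit 17136) (nat_lit 56287) (nat_lit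 1) (nat_lit 56474) (nat_lit 61121) (nat_lit 56848) (nat_lit 1900),Row.mk (nat_lit 17304) (nat_lit 55726) (nat_lit 1) (nat_lit 55913) (nat_lit 75747) (nat_lit 56287) (nat_lit 2965),Row.mk (nat_lit 17472) (nat_lit 55165) (nat_lit 1) (nat_lit 55352) (nat_lit 93684) (nat_lit 55726) (nat_lit 4626),Row.mk (nat_lit 17640) (nat_lit 54604) (nat_lit 1) (nat_lit 54791) (nat_lit 115570) (nat_lit 55165) (nat_lit 7218),Row.mk (nat_lit 17808) (nat_lit 54043) (nat_lit 1) (nat_lit 54230) (nat_lit 142100) (nat_lit 54604) (nat_lit 11260),Row.mk (nat_lit 17976) (nat_lit 53482) (nat_lit 1) (nat_lit 53669) (nat_lit 173978) (nat_lit 54043) (nat_lit 17565),Row.mk (nat_lit 18144) (nat_lit 52921) (nat_lit 1) (nat_lit 53108) (nat_lit 211831) (nat_lit 53482) (nat_lit 27402),Row.mk (nat_lit 18312) (nat_lit 52360) (nat_lit 1) (nat_lit 52547) (nat_lit 256051) (nat_lit 52921) (nat_lit 42746),Row.mk (nat_lit 18480) (nat_lit 51799) (nat_lit 1) (nat_lit 51986) (nat_lit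 306509) (nat_lit 52360) (nat_lit 66682),Row.mk (nat_lit 18648) (nat_lit 51238) (nat_lit 1) (nat_lit 51425) (nat_lit 362086) (nat_lit 51799) (nat_lit 104021),Row.mk (nat_lit 18816) (nat_lit 50677) (nat_lit 1) (nat_lit 50864) (nat_lit 419889) (nat_lit 51238) (nat_lit 162267),Row.mk (nat_lit 18984) (nat_lit 50116) (nat_lit 1) (nat_lit 50303) (nat_lit 473972) (nat_lit 50677) (nat_lit 253128),Row.mk (nat_lit 19152) (nat_lit 49555) (nat_lit 1) (nat_lit 49742) (nat_lit 513265) (nat_lit 50116) (nat_lit 394866),Row.mk (nat_lit 19320) (nat_lit 48994) (nat_lit 1) (nat_lit 49181) (nat_lit 518265) (nat_lit 49555) (nat_lit 615969),Row.mk (nat_lit 19488) (nat_lit 48433) (nat_lit 1) (nat_lit 48620) (nat_lit 455756) (nat_lit 48994) (nat_lit 960876),Row.mk (nat_lit 19656) (nat_lit 47872) (nat_lit 270430) (nat_lit 48433) (nat_lit 1498910) (nat_lit 0) (nat_lit 0),Row.mk (nat_lit 19824) (nat_lit 47685) (nat_lit 2107101) (nat_lit 48246) (nat_lit 102762)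 (nat_lit 0) (nat_lit 0),Row.mk (nat_lit 19992) (nat_lit 46750) (nat_lit 2049560) (nat_lit 47498) (nat_lit 710506) (nat_lit 0) (nat_lit 0),Row.mk (nat_lit 20160) (nat_lit 45815) (nat_lit 1651718) (nat_lit 46563) (nat_lit 1795538) (nat_lit 0) (nat_lit 0),Row.mk (nat_lit 20328) (nat_lit 44693) (nat_lit 646323) (nat_lit 45628) (nat_lit 3659217) (nat_lit 0) (nat_lit 0),Row.mk (nat_lit 20496) (nat_lit 44506) (nat_lit 4254499) (nat_lit 45441) (nat_lit 1123017) (nat_lit 0) (nat_lit 0),Row.mk (nat_lit 20664) (nat_lit 43197) (nat_lit 2553700) (nat_lit 44319) (nat_lit 4162688) (nat_lit 0) (nat_lit 0),Row.mk (nat_lit 20832) (nat_lit 43010) (nat_lit 7495051) (nat_lit 44132) (nat_lit 893557) (nat_lit 0) (nat_lit 0),Row.mk (nat_lit 21000) (nat_lit 41327) (nat_lit 3983620) (nat_lit 42823) (nat_lit 6493548) (nat_lit 0) (nat_lit 0),Row.mk (nat_lit 21168) (nat_lit 41140) (nat_lit 10352962) (nat_lit 42636) (nat_lit 2732768) (nat_lit 0) (nat_lit 0),Row.mk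 (nat_lit 21336) (nat_lit 38896) (nat_lit 2453431) (nat_lit 40953) (nat_lit 13890330) (nat_lit 0) (nat_lit 0),Row.mk (nat_lit 21504) (nat_lit 38709) (nat_lit 9780665) (nat_lit 40766) (nat_lit 10632298) (nat_lit 40953) (nat_lit 1),Row.mk (nat_lit 21672) (nat_lit 38522) (nat_lit 18932204) (nat_lit 40579) (nat_lit 6563095) (nat_lit 40766) (nat_lit 2),Row.mk (nat_lit 21840) (nat_lit 38335) (nat_lit 30362255) (nat_lit 40392) (nat_lit 1480758) (nat_lit 40579) (nat_lit 2),Row.mk (nat_lit 22008) (nat_lit 31603) (nat_lit 6078707) (nat_lit 38148) (nat_lit 33692448) (nat_lit 38335) (nat_lit 3),Row.mk (nat_lit 22176) (nat_lit 31416) (nat_lit 15980766) (nat_lit 37961) (nat_lit 33692447) (nat_lit 38148) (nat_lit 4),Row.mk (nat_lit 22344) (nat_lit 31229) (nat_lit 28348199) (nat_lit 37774) (nat_lit 33692445) (nat_lit 37961) (nat_lit 6),Row.mk (nat_lit 22512) (nat_lit 31042) (nat_lit 43794825) (nat_lit 37587) (nat_lit 33692443) (nat_lit 37774) (nat_lit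 8)],
[Row.mk (nat_lit 15792) (nat_lit 60775) (nat_lit 1) (nat_lit 60962) (nat_lit 10588) (nat_lit 61336) (nat_lit 52),Row.mk (nat_lit 15960) (nat_lit 60214) (nat_lit 1) (nat_lit 60401) (nat_lit 13208) (nat_lit 60775) (nat_lit 83),Row.mk (nat_lit 16128) (nat_lit 59653) (nat_lit 1) (nat_lit 59840) (nat_lit 16470) (nat_lit 60214) (nat_lit 130),Row.mk (nat_lit 16296) (nat_lit 59092) (nat_lit 1) (nat_lit 59279) (nat_lit 20530) (nat_lit 59653) (nat_lit 204),Row.mk (nat_lit 16464) (nat_lit 58531) (nat_lit 1) (nat_lit 58718) (nat_lit 25577) (nat_lit 59092) (nat_lit 319),Row.mk (nat_lit 16632) (nat_lit 57970) (nat_lit 1) (nat_lit 58157) (nat_lit 31846) (nat_lit 58531) (nat_lit 499),Row.mk (nat_lit 16800) (nat_lit 57409) (nat_lit 1) (nat_lit 57596) (nat_lit 39619) (nat_lit 57970) (nat_lit 780),Row.mk (nat_lit 16968) (nat_lit 56848) (nat_lit 1) (nat_lit 57035) (nat_lit 49240) (nat_lit 57409) (nat_lit 1217),Row.mk (nat_lit 17136) (nat_lit 56287)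 (nat_lit 1) (nat_lit 56474) (nat_lit 61121) (nat_lit 56848) (nat_lit 1900),Row.mk (nat_lit 17304) (nat_lit 55726) (nat_lit 1) (nat_lit 55913) (nat_lit 75747) (nat_lit 56287) (nat_lit 2965),Row.mk (nat_lit 17472) (nat_lit 55165) (nat_lit 1) (nat_lit 55352) (nat_lit 93684) (nat_lit 55726) (nat_lit 4626),Row.mk (nat_lit 17640) (nat_lit 54604) (nat_lit 1) (nat_lit 54791) (nat_lit 115570) (nat_lit 55165) (nat_lit 7217),Row.mk (nat_lit 17808) (nat_lit 54043) (nat_lit 1) (nat_lit 54230) (nat_lit 142100) (nat_lit 54604) (nat_lit 11260),Row.mk (nat_lit 17976) (nat_lit 53482) (nat_lit 1) (nat_lit 53669) (nat_lit 173978) (nat_lit 54043) (nat_lit 17565),Row.mk (nat_lit 18144) (nat_lit 52921) (nat_lit 1) (nat_lit 53108) (nat_lit 211831) (nat_lit 53482) (nat_lit 27402),Row.mk (nat_lit 18312) (nat_lit 52360) (nat_lit 1) (nat_lit 52547) (nat_lit 256051) (nat_lit 52921) (nat_lit 42746),Row.mk (nat_lit 18480) (nat_lit 51799) (nat_lit 1) (nat_lit 51986)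 (nat_lit 306509) (nat_lit 52360) (nat_lit 66682),Row.mk (nat_lit 18648) (nat_lit 51238) (nat_lit 1) (nat_lit 51425) (nat_lit 362086) (nat_lit 51799) (nat_lit 104021),Row.mk (nat_lit 18816) (nat_lit 50677) (nat_lit 1) (nat_lit 50864) (nat_lit 419889) (nat_lit 51238) (nat_lit 162267),Row.mk (nat_lit 18984) (nat_lit 50116) (nat_lit 1) (nat_lit 50303) (nat_lit 473972) (nat_lit 50677) (nat_lit 253128),Row.mk (nat_lit 19152) (nat_lit 49555) (nat_lit 1) (nat_lit 49742) (nat_lit 513265) (nat_lit 50116) (nat_lit 394866),Row.mk (nat_lit 19320) (nat_lit 48994) (nat_lit 1) (nat_lit 49181) (nat_lit 518266) (nat_lit 49555) (nat_lit 615968),Row.mk (nat_lit 19488) (nat_lit 48433) (nat_lit 1) (nat_lit 48620) (nat_lit 455756) (nat_lit 48994) (nat_lit 960875),Row.mk (nat_lit 19656) (nat_lit 47685) (nat_lit 1) (nat_lit 47872) (nat_lit 270430) (nat_lit 48433) (nat_lit 1498910),Row.mk (nat_lit 19824) (nat_lit 47498) (nat_lit 1) (nat_lit 47685) (nat_lit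 2107101) (nat_lit 48246) (nat_lit 102761),Row.mk (nat_lit 19992) (nat_lit 46563) (nat_lit 1) (nat_lit 46750) (nat_lit 2049560) (nat_lit 47498) (nat_lit 710505),Row.mk (nat_lit 20160) (nat_lit 45815) (nat_lit 1651718) (nat_lit 46563) (nat_lit 1795537) (nat_lit 0) (nat_lit 0),Row.mk (nat_lit 20328) (nat_lit 44693) (nat_lit 646323) (nat_lit 45628) (nat_lit 3659217) (nat_lit 0) (nat_lit 0),Row.mk (nat_lit 20496) (nat_lit 44506) (nat_lit 4254499) (nat_lit 45441) (nat_lit 1123017) (nat_lit 0) (nat_lit 0),Row.mk (nat_lit 20664) (nat_lit 43197) (nat_lit 2553700) (nat_lit 44319) (nat_lit 4162688) (nat_lit 0) (nat_lit 0),Row.mk (nat_lit 20832) (nat_lit 43010) (nat_lit 7495051) (nat_lit 44132) (nat_lit 893556) (nat_lit 0) (nat_lit 0),Row.mk (nat_lit 21000) (nat_lit 41327) (nat_lit 3983620) (nat_lit 42823) (nat_lit 6493548) (nat_lit 0) (nat_lit 0),Row.mk (nat_lit 21168) (nat_lit 41140) (nat_lit 10352963) (nat_lit 42636) (nat_lit 2732767) (nat_lit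 0) (nat_lit 0),Row.mk (nat_lit 21336) (nat_lit 38896) (nat_lit 2453431) (nat_lit 40953) (nat_lit 13890330) (nat_lit 41140) (nat_lit 1),Row.mk (nat_lit 21504) (nat_lit 38709) (nat_lit 9780665) (nat_lit 40766) (nat_lit 10632298) (nat_lit 40953) (nat_lit 1),Row.mk (nat_lit 21672) (nat_lit 38522) (nat_lit 18932204) (nat_lit 40579) (nat_lit 6563094) (nat_lit 40766) (nat_lit 2),Row.mk (nat_lit 21840) (nat_lit 38335) (nat_lit 30362255) (nat_lit 40392) (nat_lit 1480757) (nat_lit 40579) (nat_lit 3),Row.mk (nat_lit 22008) (nat_lit 31603) (nat_lit 6078707) (nat_lit 38148) (nat_lit 33692447) (nat_lit 38335) (nat_lit 4),Row.mk (nat_lit 22176) (nat_lit 31416) (nat_lit 15980767) (nat_lit 37961) (nat_lit 33692445) (nat_lit 38148) (nat_lit 6),Row.mk (nat_lit 22344) (nat_lit 31229) (nat_lit 28348200) (nat_lit 37774) (nat_lit 33692443) (nat_lit 37961) (nat_lit 7),Row.mk (nat_lit 22512) (nat_lit 31042) (nat_lit 43794825) (nat_lit 37587) (nat_lit 33692441)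 (nat_lit 37774) (nat_lit 10),Row.mk (nat_lit 22680) (nat_lit 30855) (nat_lit 63087288) (nat_lit 37400) (nat_lit 33692438) (nat_lit 37587) (nat_lit 13)],
[Row.mk (nat_lit 15792) (nat_lit 60775) (nat_lit 1) (nat_lit 60962) (nat_lit 10588) (nat_lit 61336) (nat_lit 52),Row.mk (nat_lit 15960) (nat_lit 60214) (nat_lit 1) (nat_lit 60401) (nat_lit 13208) (nat_lit 60775) (nat_lit 83),Row.mk (nat_lit 16128) (nat_lit 59653) (nat_lit 1) (nat_lit 59840) (nat_lit 16470) (nat_lit 60214) (nat_lit 130),Row.mk (nat_lit 16296) (nat_lit 59092) (nat_lit 1) (nat_lit 59279) (nat_lit 20530) (nat_lit 59653) (nat_lit 204),Row.mk (nat_lit 16464) (nat_lit 58531) (nat_lit 1) (nat_lit 58718) (nat_lit 25577) (nat_lit 59092) (nat_lit 319),Row.mk (nat_lit 16632) (nat_lit 57970) (nat_lit 1) (nat_lit 58157) (nat_lit 31846) (nat_lit 58531) (nat_lit 499),Row.mk (nat_lit 16800) (nat_lit 57409) (nat_lit 1) (nat_lit 57596) (nat_lit 39619) (nat_lit 57970) (nat_lit 779),Row.mk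 (nat_lit 16968) (nat_lit 56848) (nat_lit 1) (nat_lit 57035) (nat_lit 49240) (nat_lit 57409) (nat_lit 1217),Row.mk (nat_lit 17136) (nat_lit 56287) (nat_lit 1) (nat_lit 56474) (nat_lit 61121) (nat_lit 56848) (nat_lit 1900),Row.mk (nat_lit 17304) (nat_lit 55726) (nat_lit 1) (nat_lit 55913) (nat_lit 75747) (nat_lit 56287) (nat_lit 2965),Row.mk (nat_lit 17472) (nat_lit 55165) (nat_lit 1) (nat_lit 55352) (nat_lit 93684) (nat_lit 55726) (nat_lit 4626),Row.mk (nat_lit 17640) (nat_lit 54604) (nat_lit 1) (nat_lit 54791) (nat_lit 115570) (nat_lit 55165) (nat_lit 7217),Row.mk (nat_lit 17808) (nat_lit 54043) (nat_lit 1) (nat_lit 54230) (nat_lit 142100) (nat_lit 54604) (nat_lit 11259),Row.mk (nat_lit 17976) (nat_lit 53482) (nat_lit 1) (nat_lit 53669) (nat_lit 173978) (nat_lit 54043) (nat_lit 17565),Row.mk (nat_lit 18144) (nat_lit 52921) (nat_lit 1) (nat_lit 53108) (nat_lit 211831) (nat_lit 53482) (nat_lit 27401),Row.mk (nat_lit 18312) (nat_lit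 52360) (nat_lit 1) (nat_lit 52547) (nat_lit 256051) (nat_lit 52921) (nat_lit 42745),Row.mk (nat_lit 18480) (nat_lit 51799) (nat_lit 1) (nat_lit 51986) (nat_lit 306509) (nat_lit 52360) (nat_lit 66682),Row.mk (nat_lit 18648) (nat_lit 51238) (nat_lit 1) (nat_lit 51425) (nat_lit 362086) (nat_lit 51799) (nat_lit 104020),Row.mk (nat_lit 18816) (nat_lit 50677) (nat_lit 1) (nat_lit 50864) (nat_lit 419889) (nat_lit 51238) (nat_lit 162267),Row.mk (nat_lit 18984) (nat_lit 50116) (nat_lit 1) (nat_lit 50303) (nat_lit 473972) (nat_lit 50677) (nat_lit 253128),Row.mk (nat_lit 19152) (nat_lit 49555) (nat_lit 1) (nat_lit 49742) (nat_lit 513265) (nat_lit 50116) (nat_lit 394866),Row.mk (nat_lit 19320) (nat_lit 48994) (nat_lit 1) (nat_lit 49181) (nat_lit 518266) (nat_lit 49555) (nat_lit 615968),Row.mk (nat_lit 19488) (nat_lit 48433) (nat_lit 1) (nat_lit 48620) (nat_lit 455756) (nat_lit 48994) (nat_lit 960875),Row.mk (nat_lit 19656) (nat_lit 47685) (nat_lit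 1) (nat_lit 47872) (nat_lit 270430) (nat_lit 48433) (nat_lit 1498909),Row.mk (nat_lit 19824) (nat_lit 47498) (nat_lit 1) (nat_lit 47685) (nat_lit 2107101) (nat_lit 48246) (nat_lit 102761),Row.mk (nat_lit 19992) (nat_lit 46563) (nat_lit 1) (nat_lit 46750) (nat_lit 2049560) (nat_lit 47498) (nat_lit 710505),Row.mk (nat_lit 20160) (nat_lit 45628) (nat_lit 1) (nat_lit 45815) (nat_lit 1651719) (nat_lit 46563) (nat_lit 1795537),Row.mk (nat_lit 20328) (nat_lit 44693) (nat_lit 646323) (nat_lit 45628) (nat_lit 3659216) (nat_lit 0) (nat_lit 0),Row.mk (nat_lit 20496) (nat_lit 44506) (nat_lit 4254500) (nat_lit 45441) (nat_lit 1123016) (nat_lit 0) (nat_lit 0),Row.mk (nat_lit 20664) (nat_lit 43197) (nat_lit 2553700) (nat_lit 44319) (nat_lit 4162688) (nat_lit 0) (nat_lit 0),Row.mk (nat_lit 20832) (nat_lit 43010) (nat_lit 7495051) (nat_lit 44132) (nat_lit 893556) (nat_lit 0) (nat_lit 0),Row.mk (nat_lit 21000) (nat_lit 41327) (nat_lit 3983621) (nat_lit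 42823) (nat_lit 6493547) (nat_lit 0) (nat_lit 0),Row.mk (nat_lit 21168) (nat_lit 41140) (nat_lit 10352963) (nat_lit 42636) (nat_lit 2732767) (nat_lit 0) (nat_lit 0),Row.mk (nat_lit 21336) (nat_lit 38896) (nat_lit 2453432) (nat_lit 40953) (nat_lit 13890329) (nat_lit 41140) (nat_lit 1),Row.mk (nat_lit 21504) (nat_lit 38709) (nat_lit 9780666) (nat_lit 40766) (nat_lit 10632297) (nat_lit 40953) (nat_lit 2),Row.mk (nat_lit 21672) (nat_lit 38522) (nat_lit 18932204) (nat_lit 40579) (nat_lit 6563093) (nat_lit 40766) (nat_lit 3),Row.mk (nat_lit 21840) (nat_lit 38335) (nat_lit 30362255) (nat_lit 40392) (nat_lit 1480756) (nat_lit 40579) (nat_lit 4),Row.mk (nat_lit 22008) (nat_lit 31603) (nat_lit 6078708) (nat_lit 38148) (nat_lit 33692445) (nat_lit 38335) (nat_lit 5),Row.mk (nat_lit 22176) (nat_lit 31416) (nat_lit 15980767) (nat_lit 37961) (nat_lit 33692443) (nat_lit 38148) (nat_lit 7),Row.mk (nat_lit 22344) (nat_lit 31229) (nat_lit 28348200)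 (nat_lit 37774) (nat_lit 33692441) (nat_lit 37961) (nat_lit 9),Row.mk (nat_lit 22512) (nat_lit 31042) (nat_lit 43794826) (nat_lit 37587) (nat_lit 33692438) (nat_lit 37774) (nat_lit 12),Row.mk (nat_lit 22680) (nat_lit 30855) (nat_lit 63087289) (nat_lit 37400) (nat_lit 33692435) (nat_lit 37587) (nat_lit 16),Row.mk (nat_lit 22848) (nat_lit 30668) (nat_lit 87183109) (nat_lit 37213) (nat_lit 33692430) (nat_lit 37400) (nat_lit 20)],
[Row.mk (nat_lit 15624) (nat_lit 32912) (nat_lit 8521) (nat_lit 61710) (nat_lit 8380086) (nat_lit 0) (nat_lit 0),Row.mk (nat_lit 15792) (nat_lit 60775) (nat_lit 2) (nat_lit 60962) (nat_lit 10588) (nat_lit 61336) (nat_lit 52),Row.mk (nat_lit 15960) (nat_lit 60214) (nat_lit 2) (nat_lit 60401) (nat_lit 13208) (nat_lit 60775) (nat_lit 82),Row.mk (nat_lit 16128) (nat_lit 59653) (nat_lit 2) (nat_lit 59840) (nat_lit 16470) (nat_lit 60214) (nat_lit 130),Row.mk (nat_lit 16296) (nat_lit 59092) (nat_lit 2) (nat_lit 59279)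 (nat_lit 20530) (nat_lit 59653) (nat_lit 203),Row.mk (nat_lit 16464) (nat_lit 58531) (nat_lit 2) (nat_lit 58718) (nat_lit 25577) (nat_lit 59092) (nat_lit 319),Row.mk (nat_lit 16632) (nat_lit 57970) (nat_lit 2) (nat_lit 58157) (nat_lit 31846) (nat_lit 58531) (nat_lit 499),Row.mk (nat_lit 16800) (nat_lit 57409) (nat_lit 2) (nat_lit 57596) (nat_lit 39619) (nat_lit 57970) (nat_lit 779),Row.mk (nat_lit 16968) (nat_lit 56848) (nat_lit 2) (nat_lit 57035) (nat_lit 49240) (nat_lit 57409) (nat_lit 1217),Row.mk (nat_lit 17136) (nat_lit 56287) (nat_lit 2) (nat_lit 56474) (nat_lit 61121) (nat_lit 56848) (nat_lit 1899),Row.mk (nat_lit 17304) (nat_lit 55726) (nat_lit 2) (nat_lit 55913) (nat_lit 75747) (nat_lit 56287) (nat_lit 2964),Row.mk (nat_lit 17472) (nat_lit 55165) (nat_lit 2) (nat_lit 55352) (nat_lit 93684) (nat_lit 55726) (nat_lit 4625),Row.mk (nat_lit 17640) (nat_lit 54604) (nat_lit 2) (nat_lit 54791) (nat_lit 115570) (nat_lit 55165) (nat_lit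 7217),Row.mk (nat_lit 17808) (nat_lit 54043) (nat_lit 2) (nat_lit 54230) (nat_lit 142100) (nat_lit 54604) (nat_lit 11259),Row.mk (nat_lit 17976) (nat_lit 53482) (nat_lit 2) (nat_lit 53669) (nat_lit 173978) (nat_lit 54043) (nat_lit 17564),Row.mk (nat_lit 18144) (nat_lit 52921) (nat_lit 2) (nat_lit 53108) (nat_lit 211831) (nat_lit 53482) (nat_lit 27401),Row.mk (nat_lit 18312) (nat_lit 52360) (nat_lit 2) (nat_lit 52547) (nat_lit 256051) (nat_lit 52921) (nat_lit 42745),Row.mk (nat_lit 18480) (nat_lit 51799) (nat_lit 2) (nat_lit 51986) (nat_lit 306509) (nat_lit 52360) (nat_lit 66681),Row.mk (nat_lit 18648) (nat_lit 51238) (nat_lit 2) (nat_lit 51425) (nat_lit 362086) (nat_lit 51799) (nat_lit 104020),Row.mk (nat_lit 18816) (nat_lit 50677) (nat_lit 2) (nat_lit 50864) (nat_lit 419889) (nat_lit 51238) (nat_lit 162267),Row.mk (nat_lit 18984) (nat_lit 50116) (nat_lit 2) (nat_lit 50303) (nat_lit 473972) (nat_lit 50677) (nat_lit 253128),Row.mk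 (nat_lit 19152) (nat_lit 49555) (nat_lit 2) (nat_lit 49742) (nat_lit 513265) (nat_lit 50116) (nat_lit 394865),Row.mk (nat_lit 19320) (nat_lit 48994) (nat_lit 2) (nat_lit 49181) (nat_lit 518266) (nat_lit 49555) (nat_lit 615968),Row.mk (nat_lit 19488) (nat_lit 48433) (nat_lit 2) (nat_lit 48620) (nat_lit 455756) (nat_lit 48994) (nat_lit 960875),Row.mk (nat_lit 19656) (nat_lit 47685) (nat_lit 1) (nat_lit 47872) (nat_lit 270430) (nat_lit 48433) (nat_lit 1498909),Row.mk (nat_lit 19824) (nat_lit 47498) (nat_lit 1) (nat_lit 47685) (nat_lit 2107101) (nat_lit 48246) (nat_lit 102761),Row.mk (nat_lit 19992) (nat_lit 46563) (nat_lit 1) (nat_lit 46750) (nat_lit 2049560) (nat_lit 47498) (nat_lit 710505),Row.mk (nat_lit 20160) (nat_lit 45628) (nat_lit 1) (nat_lit 45815) (nat_lit 1651719) (nat_lit 46563) (nat_lit 1795537),Row.mk (nat_lit 20328) (nat_lit 44506) (nat_lit 1) (nat_lit 44693) (nat_lit 646323) (nat_lit 45628) (nat_lit 3659216),Row.mk (nat_lit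 20496) (nat_lit 44506) (nat_lit 4254500) (nat_lit 45441) (nat_lit 1123016) (nat_lit 0) (nat_lit 0),Row.mk (nat_lit 20664) (nat_lit 43197) (nat_lit 2553701) (nat_lit 44319) (nat_lit 4162688) (nat_lit 0) (nat_lit 0),Row.mk (nat_lit 20832) (nat_lit 43010) (nat_lit 7495052) (nat_lit 44132) (nat_lit 893556) (nat_lit 0) (nat_lit 0),Row.mk (nat_lit 21000) (nat_lit 41327) (nat_lit 3983621) (nat_lit 42823) (nat_lit 6493547) (nat_lit 0) (nat_lit 0),Row.mk (nat_lit 21168) (nat_lit 41140) (nat_lit 10352964) (nat_lit 42636) (nat_lit 2732766) (nat_lit 42823) (nat_lit 1),Row.mk (nat_lit 21336) (nat_lit 38896) (nat_lit 2453432) (nat_lit 40953) (nat_lit 13890328) (nat_lit 41140) (nat_lit 1),Row.mk (nat_lit 21504) (nat_lit 38709) (nat_lit 9780666) (nat_lit 40766) (nat_lit 10632296) (nat_lit 40953) (nat_lit 2),Row.mk (nat_lit 21672) (nat_lit 38522) (nat_lit 18932205) (nat_lit 40579) (nat_lit 6563092) (nat_lit 40766) (nat_lit 3),Row.mk (nat_lit 21840)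 (nat_lit 38335) (nat_lit 30362256) (nat_lit 40392) (nat_lit 1480755) (nat_lit 40579) (nat_lit 5),Row.mk (nat_lit 22008) (nat_lit 31603) (nat_lit 6078708) (nat_lit 38148) (nat_lit 33692443) (nat_lit 38335) (nat_lit 7),Row.mk (nat_lit 22176) (nat_lit 31416) (nat_lit 15980768) (nat_lit 37961) (nat_lit 33692441) (nat_lit 38148) (nat_lit 9),Row.mk (nat_lit 22344) (nat_lit 31229) (nat_lit 28348201) (nat_lit 37774) (nat_lit 33692438) (nat_lit 37961) (nat_lit 12),Row.mk (nat_lit 22512) (nat_lit 31042) (nat_lit 43794826) (nat_lit 37587) (nat_lit 33692435) (nat_lit 37774) (nat_lit 15),Row.mk (nat_lit 22680) (nat_lit 30855) (nat_lit 63087289) (nat_lit 37400) (nat_lit 33692430) (nat_lit 37587) (nat_lit 20),Row.mk (nat_lit 22848) (nat_lit 30668) (nat_lit 87183110) (nat_lit 37213) (nat_lit 33692425) (nat_lit 37400) (nat_lit 25),Row.mk (nat_lit 23016) (nat_lit 30481) (nat_lit 117278208) (nat_lit 37026) (nat_lit 33692418) (nat_lit 37213) (nat_lit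 32)],
[Row.mk (nat_lit 15624) (nat_lit 32912) (nat_lit 8522) (nat_lit 61710) (nat_lit 8380086) (nat_lit 0) (nat_lit 0),Row.mk (nat_lit 15792) (nat_lit 60775) (nat_lit 3) (nat_lit 60962) (nat_lit 10588) (nat_lit 61336) (nat_lit 51),Row.mk (nat_lit 15960) (nat_lit 60214) (nat_lit 3) (nat_lit 60401) (nat_lit 13208) (nat_lit 60775) (nat_lit 82),Row.mk (nat_lit 16128) (nat_lit 59653) (nat_lit 3) (nat_lit 59840) (nat_lit 16470) (nat_lit 60214) (nat_lit 129),Row.mk (nat_lit 16296) (nat_lit 59092) (nat_lit 3) (nat_lit 59279) (nat_lit 20530) (nat_lit 59653) (nat_lit 203),Row.mk (nat_lit 16464) (nat_lit 58531) (nat_lit 3) (nat_lit 58718) (nat_lit 25577) (nat_lit 59092) (nat_lit 318),Row.mk (nat_lit 16632) (nat_lit 57970) (nat_lit 3) (nat_lit 58157) (nat_lit 31846) (nat_lit 58531) (nat_lit 498),Row.mk (nat_lit 16800) (nat_lit 57409) (nat_lit 2) (nat_lit 57596) (nat_lit 39619) (nat_lit 57970) (nat_lit 779),Row.mk (nat_lit 16968) (nat_lit 56848)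 (nat_lit 2) (nat_lit 57035) (nat_lit 49240) (nat_lit 57409) (nat_lit 1216),Row.mk (nat_lit 17136) (nat_lit 56287) (nat_lit 2) (nat_lit 56474) (nat_lit 61121) (nat_lit 56848) (nat_lit 1899),Row.mk (nat_lit 17304) (nat_lit 55726) (nat_lit 2) (nat_lit 55913) (nat_lit 75747) (nat_lit 56287) (nat_lit 2964),Row.mk (nat_lit 17472) (nat_lit 55165) (nat_lit 2) (nat_lit 55352) (nat_lit 93684) (nat_lit 55726) (nat_lit 4625),Row.mk (nat_lit 17640) (nat_lit 54604) (nat_lit 2) (nat_lit 54791) (nat_lit 115571) (nat_lit 55165) (nat_lit 7216),Row.mk (nat_lit 17808) (nat_lit 54043) (nat_lit 2) (nat_lit 54230) (nat_lit 142100) (nat_lit 54604) (nat_lit 11258),Row.mk (nat_lit 17976) (nat_lit 53482) (nat_lit 2) (nat_lit 53669) (nat_lit 173978) (nat_lit 54043) (nat_lit 17564),Row.mk (nat_lit 18144) (nat_lit 52921) (nat_lit 2) (nat_lit 53108) (nat_lit 211831) (nat_lit 53482) (nat_lit 27400),Row.mk (nat_lit 18312) (nat_lit 52360) (nat_lit 2) (nat_lit 52547)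 (nat_lit 256051) (nat_lit 52921) (nat_lit 42745),Row.mk (nat_lit 18480) (nat_lit 51799) (nat_lit 2) (nat_lit 51986) (nat_lit 306509) (nat_lit 52360) (nat_lit 66681),Row.mk (nat_lit 18648) (nat_lit 51238) (nat_lit 2) (nat_lit 51425) (nat_lit 362086) (nat_lit 51799) (nat_lit 104020),Row.mk (nat_lit 18816) (nat_lit 50677) (nat_lit 2) (nat_lit 50864) (nat_lit 419889) (nat_lit 51238) (nat_lit 162266),Row.mk (nat_lit 18984) (nat_lit 50116) (nat_lit 2) (nat_lit 50303) (nat_lit 473972) (nat_lit 50677) (nat_lit 253127),Row.mk (nat_lit 19152) (nat_lit 49555) (nat_lit 2) (nat_lit 49742) (nat_lit 513265) (nat_lit 50116) (nat_lit 394865),Row.mk (nat_lit 19320) (nat_lit 48994) (nat_lit 2) (nat_lit 49181) (nat_lit 518266) (nat_lit 49555) (nat_lit 615967),Row.mk (nat_lit 19488) (nat_lit 48433) (nat_lit 2) (nat_lit 48620) (nat_lit 455756) (nat_lit 48994) (nat_lit 960874),Row.mk (nat_lit 19656) (nat_lit 47685) (nat_lit 2) (nat_lit 47872) (nat_lit 270430)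 (nat_lit 48433) (nat_lit 1498908),Row.mk (nat_lit 19824) (nat_lit 47498) (nat_lit 2) (nat_lit 47685) (nat_lit 2107102) (nat_lit 48246) (nat_lit 102760),Row.mk (nat_lit 19992) (nat_lit 46563) (nat_lit 2) (nat_lit 46750) (nat_lit 2049561) (nat_lit 47498) (nat_lit 710504),Row.mk (nat_lit 20160) (nat_lit 45628) (nat_lit 1) (nat_lit 45815) (nat_lit 1651719) (nat_lit 46563) (nat_lit 1795536),Row.mk (nat_lit 20328) (nat_lit 44506) (nat_lit 1) (nat_lit 44693) (nat_lit 646324) (nat_lit 45628) (nat_lit 3659216),Row.mk (nat_lit 20496) (nat_lit 44319) (nat_lit 1) (nat_lit 44506) (nat_lit 4254500) (nat_lit 45441) (nat_lit 1123015),Row.mk (nat_lit 20664) (nat_lit 43197) (nat_lit 2553701) (nat_lit 44319) (nat_lit 4162687) (nat_lit 0) (nat_lit 0),Row.mk (nat_lit 20832) (nat_lit 43010) (nat_lit 7495052) (nat_lit 44132) (nat_lit 893555) (nat_lit 0) (nat_lit 0),Row.mk (nat_lit 21000) (nat_lit 41327) (nat_lit 3983622) (nat_lit 42823) (nat_lit 6493546)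 (nat_lit 0) (nat_lit 0),Row.mk (nat_lit 21168) (nat_lit 41140) (nat_lit 10352964) (nat_lit 42636) (nat_lit 2732765) (nat_lit 42823) (nat_lit 1),Row.mk (nat_lit 21336) (nat_lit 38896) (nat_lit 2453433) (nat_lit 40953) (nat_lit 13890327) (nat_lit 41140) (nat_lit 2),Row.mk (nat_lit 21504) (nat_lit 38709) (nat_lit 9780667) (nat_lit 40766) (nat_lit 10632295) (nat_lit 40953) (nat_lit 3),Row.mk (nat_lit 21672) (nat_lit 38522) (nat_lit 18932206) (nat_lit 40579) (nat_lit 6563091) (nat_lit 40766) (nat_lit 4),Row.mk (nat_lit 21840) (nat_lit 38335) (nat_lit 30362257) (nat_lit 40392) (nat_lit 1480753) (nat_lit 40579) (nat_lit 6),Row.mk (nat_lit 22008) (nat_lit 31603) (nat_lit 6078709) (nat_lit 38148) (nat_lit 33692441) (nat_lit 38335) (nat_lit 9),Row.mk (nat_lit 22176) (nat_lit 31416) (nat_lit 15980768) (nat_lit 37961) (nat_lit 33692438) (nat_lit 38148) (nat_lit 11),Row.mk (nat_lit 22344) (nat_lit 31229) (nat_lit 28348201) (nat_lit 37774) (nat_lit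 33692435) (nat_lit 37961) (nat_lit 15),Row.mk (nat_lit 22512) (nat_lit 31042) (nat_lit 43794827) (nat_lit 37587) (nat_lit 33692430) (nat_lit 37774) (nat_lit 19),Row.mk (nat_lit 22680) (nat_lit 30855) (nat_lit 63087290) (nat_lit 37400) (nat_lit 33692425) (nat_lit 37587) (nat_lit 25),Row.mk (nat_lit 22848) (nat_lit 30668) (nat_lit 87183110) (nat_lit 37213) (nat_lit 33692418) (nat_lit 37400) (nat_lit 32),Row.mk (nat_lit 23016) (nat_lit 30481) (nat_lit 117278209) (nat_lit 37026) (nat_lit 33692409) (nat_lit 37213) (nat_lit 41),Row.mk (nat_lit 23184) (nat_lit 30294) (nat_lit 154866261) (nat_lit 36839) (nat_lit 33692398) (nat_lit 37026) (nat_lit 51)],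
[Row.mk (nat_lit 15624) (nat_lit 32912) (nat_lit 8522) (nat_lit 61710) (nat_lit 8380086) (nat_lit 0) (nat_lit 0),Row.mk (nat_lit 15792) (nat_lit 60775) (nat_lit 3) (nat_lit 60962) (nat_lit 10588) (nat_lit 61336) (nat_lit 51),Row.mk (nat_lit 15960) (nat_lit 60214) (nat_lit 3) (nat_lit 60401) (nat_lit 13208) (nat_lit 60775) (nat_lit 81),Row.mk (nat_lit 16128) (nat_lit 59653) (nat_lit 3) (nat_lit 59840) (nat_lit 16470) (nat_lit 60214) (nat_lit 128),Row.mk (nat_lit 16296) (nat_lit 59092) (nat_lit 3) (nat_lit 59279) (nat_lit 20530) (nat_lit 59653) (nat_lit 202),Row.mk (nat_lit 16464) (nat_lit 58531) (nat_lit 3) (nat_lit 58718) (nat_lit 25577) (nat_lit 59092) (nat_lit 318),Row.mk (nat_lit 16632) (nat_lit 57970) (nat_lit 3) (nat_lit 58157) (nat_lit 31846) (nat_lit 58531) (nat_lit 497),Row.mk (nat_lit 16800) (nat_lit 57409) (nat_lit 3) (nat_lit 57596) (nat_lit 39619) (nat_lit 57970) (nat_lit 778),Row.mk (nat_lit 16968) (nat_lit 56848) (nat_lit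 3) (nat_lit 57035) (nat_lit 49240) (nat_lit 57409) (nat_lit 1216),Row.mk (nat_lit 17136) (nat_lit 56287) (nat_lit 3) (nat_lit 56474) (nat_lit 61121) (nat_lit 56848) (nat_lit 1898),Row.mk (nat_lit 17304) (nat_lit 55726) (nat_lit 3) (nat_lit 55913) (nat_lit 75747) (nat_lit 56287) (nat_lit 2963),Row.mk (nat_lit 17472) (nat_lit 55165) (nat_lit 3) (nat_lit 55352) (nat_lit 93684) (nat_lit 55726) (nat_lit 4624),Row.mk (nat_lit 17640) (nat_lit 54604) (nat_lit 3) (nat_lit 54791) (nat_lit 115571) (nat_lit 55165) (nat_lit 7216),Row.mk (nat_lit 17808) (nat_lit 54043) (nat_lit 3) (nat_lit 54230) (nat_lit 142100) (nat_lit 54604) (nat_lit 11258),Row.mk (nat_lit 17976) (nat_lit 53482) (nat_lit 3) (nat_lit 53669) (nat_lit 173978) (nat_lit 54043) (nat_lit 17563),Row.mk (nat_lit 18144) (nat_lit 52921) (nat_lit 3) (nat_lit 53108) (nat_lit 211832) (nat_lit 53482) (nat_lit 27400),Row.mk (nat_lit 18312) (nat_lit 52360) (nat_lit 3) (nat_lit 52547) (nat_lit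 256051) (nat_lit 52921) (nat_lit 42744),Row.mk (nat_lit 18480) (nat_lit 51799) (nat_lit 3) (nat_lit 51986) (nat_lit 306509) (nat_lit 52360) (nat_lit 66680),Row.mk (nat_lit 18648) (nat_lit 51238) (nat_lit 3) (nat_lit 51425) (nat_lit 362086) (nat_lit 51799) (nat_lit 104019),Row.mk (nat_lit 18816) (nat_lit 50677) (nat_lit 3) (nat_lit 50864) (nat_lit 419889) (nat_lit 51238) (nat_lit 162265),Row.mk (nat_lit 18984) (nat_lit 50116) (nat_lit 3) (nat_lit 50303) (nat_lit 473972) (nat_lit 50677) (nat_lit 253126),Row.mk (nat_lit 19152) (nat_lit 49555) (nat_lit 3) (nat_lit 49742) (nat_lit 513265) (nat_lit 50116) (nat_lit 394864),Row.mk (nat_lit 19320) (nat_lit 48994) (nat_lit 3) (nat_lit 49181) (nat_lit 518266) (nat_lit 49555) (nat_lit 615967),Row.mk (nat_lit 19488) (nat_lit 48433) (nat_lit 3) (nat_lit 48620) (nat_lit 455757) (nat_lit 48994) (nat_lit 960874),Row.mk (nat_lit 19656) (nat_lit 47685) (nat_lit 2) (nat_lit 47872) (nat_lit 270430) (nat_lit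 48433) (nat_lit 1498908),Row.mk (nat_lit 19824) (nat_lit 47498) (nat_lit 2) (nat_lit 47685) (nat_lit 2107102) (nat_lit 48246) (nat_lit 102759),Row.mk (nat_lit 19992) (nat_lit 46563) (nat_lit 2) (nat_lit 46750) (nat_lit 2049561) (nat_lit 47498) (nat_lit 710504),Row.mk (nat_lit 20160) (nat_lit 45628) (nat_lit 2) (nat_lit 45815) (nat_lit 1651719) (nat_lit 46563) (nat_lit 1795536),Row.mk (nat_lit 20328) (nat_lit 44506) (nat_lit 1) (nat_lit 44693) (nat_lit 646324) (nat_lit 45628) (nat_lit 3659215),Row.mk (nat_lit 20496) (nat_lit 44319) (nat_lit 1) (nat_lit 44506) (nat_lit 4254501) (nat_lit 45441) (nat_lit 1123015),Row.mk (nat_lit 20664) (nat_lit 43197) (nat_lit 2553702) (nat_lit 44319) (nat_lit 4162686) (nat_lit 0) (nat_lit 0),Row.mk (nat_lit 20832) (nat_lit 43010) (nat_lit 7495053) (nat_lit 44132) (nat_lit 893555) (nat_lit 0) (nat_lit 0),Row.mk (nat_lit 21000) (nat_lit 41327) (nat_lit 3983623) (nat_lit 42823) (nat_lit 6493545) (nat_lit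 0) (nat_lit 0),Row.mk (nat_lit 21168) (nat_lit 41140) (nat_lit 10352965) (nat_lit 42636) (nat_lit 2732765) (nat_lit 42823) (nat_lit 1),Row.mk (nat_lit 21336) (nat_lit 38896) (nat_lit 2453434) (nat_lit 40953) (nat_lit 13890326) (nat_lit 41140) (nat_lit 2),Row.mk (nat_lit 21504) (nat_lit 38709) (nat_lit 9780668) (nat_lit 40766) (nat_lit 10632293) (nat_lit 40953) (nat_lit 4),Row.mk (nat_lit 21672) (nat_lit 38522) (nat_lit 18932206) (nat_lit 40579) (nat_lit 6563089) (nat_lit 40766) (nat_lit 6),Row.mk (nat_lit 21840) (nat_lit 38335) (nat_lit 30362257) (nat_lit 40392) (nat_lit 1480750) (nat_lit 40579) (nat_lit 8),Row.mk (nat_lit 22008) (nat_lit 31603) (nat_lit 6078710) (nat_lit 38148) (nat_lit 33692438) (nat_lit 38335) (nat_lit 11),Row.mk (nat_lit 22176) (nat_lit 31416) (nat_lit 15980769) (nat_lit 37961) (nat_lit 33692435) (nat_lit 38148) (nat_lit 14),Row.mk (nat_lit 22344) (nat_lit 31229) (nat_lit 28348202) (nat_lit 37774) (nat_lit 33692430)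 (nat_lit 37961) (nat_lit 19),Row.mk (nat_lit 22512) (nat_lit 31042) (nat_lit 43794828) (nat_lit 37587) (nat_lit 33692425) (nat_lit 37774) (nat_lit 24),Row.mk (nat_lit 22680) (nat_lit 30855) (nat_lit 63087290) (nat_lit 37400) (nat_lit 33692418) (nat_lit 37587) (nat_lit 31),Row.mk (nat_lit 22848) (nat_lit 30668) (nat_lit 87183111) (nat_lit 37213) (nat_lit 33692409) (nat_lit 37400) (nat_lit 40),Row.mk (nat_lit 23016) (nat_lit 30481) (nat_lit 117278210) (nat_lit 37026) (nat_lit 33692398) (nat_lit 37213) (nat_lit 51),Row.mk (nat_lit 23184) (nat_lit 30294) (nat_lit 154866262) (nat_lit 36839) (nat_lit 33692385) (nat_lit 37026) (nat_lit 64),Row.mk (nat_lit 23352) (nat_lit 30107) (nat_lit 201812832) (nat_lit 36652) (nat_lit 33692368) (nat_lit 36839) (nat_lit 81)],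
[Row.mk (nat_lit 15624) (nat_lit 32912) (nat_lit 8522) (nat_lit 61710) (nat_lit 8380086) (nat_lit 0) (nat_lit 0),Row.mk (nat_lit 15792) (nat_lit 60775) (nat_lit 4) (nat_lit 60962) (nat_lit 10588) (nat_lit 61336) (nat_lit 50),Row.mk (nat_lit 15960) (nat_lit 60214) (nat_lit 4) (nat_lit 60401) (nat_lit 13208) (nat_lit 60775) (nat_lit 80),Row.mk (nat_lit 16128) (nat_lit 59653) (nat_lit 4) (nat_lit 59840) (nat_lit 16470) (nat_lit 60214) (nat_lit 128),Row.mk (nat_lit 16296) (nat_lit 59092) (nat_lit 4) (nat_lit 59279) (nat_lit 20530) (nat_lit 59653) (nat_lit 202),Row.mk (nat_lit 16464) (nat_lit 58531) (nat_lit 4) (nat_lit 58718) (nat_lit 25577) (nat_lit 59092) (nat_lit 317),Row.mk (nat_lit 16632) (nat_lit 57970) (nat_lit 4) (nat_lit 58157) (nat_lit 31846) (nat_lit 58531) (nat_lit 497),Row.mk (nat_lit 16800) (nat_lit 57409) (nat_lit 4) (nat_lit 57596) (nat_lit 39619) (nat_lit 57970) (nat_lit 777),Row.mk (nat_lit 16968) (nat_lit 56848) (nat_lit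 4) (nat_lit 57035) (nat_lit 49240) (nat_lit 57409) (nat_lit 1215),Row.mk (nat_lit 17136) (nat_lit 56287) (nat_lit 4) (nat_lit 56474) (nat_lit 61121) (nat_lit 56848) (nat_lit 1897),Row.mk (nat_lit 17304) (nat_lit 55726) (nat_lit 4) (nat_lit 55913) (nat_lit 75747) (nat_lit 56287) (nat_lit 2962),Row.mk (nat_lit 17472) (nat_lit 55165) (nat_lit 4) (nat_lit 55352) (nat_lit 93684) (nat_lit 55726) (nat_lit 4623),Row.mk (nat_lit 17640) (nat_lit 54604) (nat_lit 4) (nat_lit 54791) (nat_lit 115571) (nat_lit 55165) (nat_lit 7215),Row.mk (nat_lit 17808) (nat_lit 54043) (nat_lit 4) (nat_lit 54230) (nat_lit 142100) (nat_lit 54604) (nat_lit 11257),Row.mk (nat_lit 17976) (nat_lit 53482) (nat_lit 4) (nat_lit 53669) (nat_lit 173978) (nat_lit 54043) (nat_lit 17563),Row.mk (nat_lit 18144) (nat_lit 52921) (nat_lit 4) (nat_lit 53108) (nat_lit 211832) (nat_lit 53482) (nat_lit 27399),Row.mk (nat_lit 18312) (nat_lit 52360) (nat_lit 4) (nat_lit 52547) (nat_lit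 256051) (nat_lit 52921) (nat_lit 42743),Row.mk (nat_lit 18480) (nat_lit 51799) (nat_lit 4) (nat_lit 51986) (nat_lit 306509) (nat_lit 52360) (nat_lit 66679),Row.mk (nat_lit 18648) (nat_lit 51238) (nat_lit 4) (nat_lit 51425) (nat_lit 362086) (nat_lit 51799) (nat_lit 104018),Row.mk (nat_lit 18816) (nat_lit 50677) (nat_lit 4) (nat_lit 50864) (nat_lit 419889) (nat_lit 51238) (nat_lit 162265),Row.mk (nat_lit 18984) (nat_lit 50116) (nat_lit 4) (nat_lit 50303) (nat_lit 473972) (nat_lit 50677) (nat_lit 253126),Row.mk (nat_lit 19152) (nat_lit 49555) (nat_lit 4) (nat_lit 49742) (nat_lit 513265) (nat_lit 50116) (nat_lit 394863),Row.mk (nat_lit 19320) (nat_lit 48994) (nat_lit 4) (nat_lit 49181) (nat_lit 518266) (nat_lit 49555) (nat_lit 615966),Row.mk (nat_lit 19488) (nat_lit 48433) (nat_lit 3) (nat_lit 48620) (nat_lit 455757) (nat_lit 48994) (nat_lit 960873),Row.mk (nat_lit 19656) (nat_lit 47685) (nat_lit 3) (nat_lit 47872) (nat_lit 270430) (nat_lit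 48433) (nat_lit 1498907),Row.mk (nat_lit 19824) (nat_lit 47498) (nat_lit 3) (nat_lit 47685) (nat_lit 2107102) (nat_lit 48246) (nat_lit 102759),Row.mk (nat_lit 19992) (nat_lit 46563) (nat_lit 3) (nat_lit 46750) (nat_lit 2049561) (nat_lit 47498) (nat_lit 710503),Row.mk (nat_lit 20160) (nat_lit 45628) (nat_lit 2) (nat_lit 45815) (nat_lit 1651720) (nat_lit 46563) (nat_lit 1795535),Row.mk (nat_lit 20328) (nat_lit 44506) (nat_lit 2) (nat_lit 44693) (nat_lit 646325) (nat_lit 45628) (nat_lit 3659214),Row.mk (nat_lit 20496) (nat_lit 44319) (nat_lit 1) (nat_lit 44506) (nat_lit 4254501) (nat_lit 45441) (nat_lit 1123014),Row.mk (nat_lit 20664) (nat_lit 43197) (nat_lit 2553702) (nat_lit 44319) (nat_lit 4162686) (nat_lit 0) (nat_lit 0),Row.mk (nat_lit 20832) (nat_lit 43010) (nat_lit 7495054) (nat_lit 44132) (nat_lit 893554) (nat_lit 0) (nat_lit 0),Row.mk (nat_lit 21000) (nat_lit 41327) (nat_lit 3983624) (nat_lit 42823) (nat_lit 6493544) (nat_lit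 0) (nat_lit 0),Row.mk (nat_lit 21168) (nat_lit 41140) (nat_lit 10352966) (nat_lit 42636) (nat_lit 2732763) (nat_lit 42823) (nat_lit 2),Row.mk (nat_lit 21336) (nat_lit 38896) (nat_lit 2453435) (nat_lit 40953) (nat_lit 13890325) (nat_lit 41140) (nat_lit 3),Row.mk (nat_lit 21504) (nat_lit 38709) (nat_lit 9780669) (nat_lit 40766) (nat_lit 10632291) (nat_lit 40953) (nat_lit 5),Row.mk (nat_lit 21672) (nat_lit 38522) (nat_lit 18932207) (nat_lit 40579) (nat_lit 6563086) (nat_lit 40766) (nat_lit 7),Row.mk (nat_lit 21840) (nat_lit 38335) (nat_lit 30362258) (nat_lit 40392) (nat_lit 1480748) (nat_lit 40579) (nat_lit 10),Row.mk (nat_lit 22008) (nat_lit 31603) (nat_lit 6078711) (nat_lit 38148) (nat_lit 33692435) (nat_lit 38335) (nat_lit 14),Row.mk (nat_lit 22176) (nat_lit 31416) (nat_lit 15980770) (nat_lit 37961) (nat_lit 33692430) (nat_lit 38148) (nat_lit 18),Row.mk (nat_lit 22344) (nat_lit 31229) (nat_lit 28348203) (nat_lit 37774) (nat_lit 33692425)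 (nat_lit 37961) (nat_lit 24),Row.mk (nat_lit 22512) (nat_lit 31042) (nat_lit 43794829) (nat_lit 37587) (nat_lit 33692418) (nat_lit 37774) (nat_lit 31),Row.mk (nat_lit 22680) (nat_lit 30855) (nat_lit 63087291) (nat_lit 37400) (nat_lit 33692409) (nat_lit 37587) (nat_lit 39),Row.mk (nat_lit 22848) (nat_lit 30668) (nat_lit 87183112) (nat_lit 37213) (nat_lit 33692398) (nat_lit 37400) (nat_lit 50),Row.mk (nat_lit 23016) (nat_lit 30481) (nat_lit 117278211) (nat_lit 37026) (nat_lit 33692385) (nat_lit 37213) (nat_lit 63),Row.mk (nat_lit 23184) (nat_lit 30294) (nat_lit 154866263) (nat_lit 36839) (nat_lit 33692368) (nat_lit 37026) (nat_lit 80),Row.mk (nat_lit 23352) (nat_lit 30107) (nat_lit 201812833) (nat_lit 36652) (nat_lit 33692347) (nat_lit 36839) (nat_lit 101)],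
[Row.mk (nat_lit 15624) (nat_lit 32912) (nat_lit 8522) (nat_lit 61710) (nat_lit 8380086) (nat_lit 0) (nat_lit 0),Row.mk (nat_lit 15792) (nat_lit 60775) (nat_lit 5) (nat_lit 60962) (nat_lit 10588) (nat_lit 61336) (nat_lit 49),Row.mk (nat_lit 15960) (nat_lit 60214) (nat_lit 5) (nat_lit 60401) (nat_lit 13208) (nat_lit 60775) (nat_lit 79),Row.mk (nat_lit 16128) (nat_lit 59653) (nat_lit 5) (nat_lit 59840) (nat_lit 16470) (nat_lit 60214) (nat_lit 127),Row.mk (nat_lit 16296) (nat_lit 59092) (nat_lit 5) (nat_lit 59279) (nat_lit 20530) (nat_lit 59653) (nat_lit 201),Row.mk (nat_lit 16464) (nat_lit 58531) (nat_lit 5) (nat_lit 58718) (nat_lit 25577) (nat_lit 59092) (nat_lit 316),Row.mk (nat_lit 16632) (nat_lit 57970) (nat_lit 5) (nat_lit 58157) (nat_lit 31846) (nat_lit 58531) (nat_lit 496),Row.mk (nat_lit 16800) (nat_lit 57409) (nat_lit 5) (nat_lit 57596) (nat_lit 39619) (nat_lit 57970) (nat_lit 776),Row.mk (nat_lit 16968) (nat_lit 56848) (nat_lit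 5) (nat_lit 57035) (nat_lit 49240) (nat_lit 57409) (nat_lit 1214),Row.mk (nat_lit 17136) (nat_lit 56287) (nat_lit 5) (nat_lit 56474) (nat_lit 61121) (nat_lit 56848) (nat_lit 1897),Row.mk (nat_lit 17304) (nat_lit 55726) (nat_lit 5) (nat_lit 55913) (nat_lit 75747) (nat_lit 56287) (nat_lit 2961),Row.mk (nat_lit 17472) (nat_lit 55165) (nat_lit 5) (nat_lit 55352) (nat_lit 93684) (nat_lit 55726) (nat_lit 4623),Row.mk (nat_lit 17640) (nat_lit 54604) (nat_lit 5) (nat_lit 54791) (nat_lit 115571) (nat_lit 55165) (nat_lit 7214),Row.mk (nat_lit 17808) (nat_lit 54043) (nat_lit 5) (nat_lit 54230) (nat_lit 142100) (nat_lit 54604) (nat_lit 11256),Row.mk (nat_lit 17976) (nat_lit 53482) (nat_lit 5) (nat_lit 53669) (nat_lit 173978) (nat_lit 54043) (nat_lit 17562),Row.mk (nat_lit 18144) (nat_lit 52921) (nat_lit 5) (nat_lit 53108) (nat_lit 211832) (nat_lit 53482) (nat_lit 27398),Row.mk (nat_lit 18312) (nat_lit 52360) (nat_lit 5) (nat_lit 52547) (nat_lit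 256051) (nat_lit 52921) (nat_lit 42742),Row.mk (nat_lit 18480) (nat_lit 51799) (nat_lit 5) (nat_lit 51986) (nat_lit 306509) (nat_lit 52360) (nat_lit 66678),Row.mk (nat_lit 18648) (nat_lit 51238) (nat_lit 5) (nat_lit 51425) (nat_lit 362086) (nat_lit 51799) (nat_lit 104017),Row.mk (nat_lit 18816) (nat_lit 50677) (nat_lit 5) (nat_lit 50864) (nat_lit 419890) (nat_lit 51238) (nat_lit 162264),Row.mk (nat_lit 18984) (nat_lit 50116) (nat_lit 5) (nat_lit 50303) (nat_lit 473972) (nat_lit 50677) (nat_lit 253125),Row.mk (nat_lit 19152) (nat_lit 49555) (nat_lit 5) (nat_lit 49742) (nat_lit 513265) (nat_lit 50116) (nat_lit 394863),Row.mk (nat_lit 19320) (nat_lit 48994) (nat_lit 5) (nat_lit 49181) (nat_lit 518266) (nat_lit 49555) (nat_lit 615965),Row.mk (nat_lit 19488) (nat_lit 48433) (nat_lit 4) (nat_lit 48620) (nat_lit 455757) (nat_lit 48994) (nat_lit 960872),Row.mk (nat_lit 19656) (nat_lit 47685) (nat_lit 4) (nat_lit 47872) (nat_lit 270430) (nat_lit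 48433) (nat_lit 1498906),Row.mk (nat_lit 19824) (nat_lit 47498) (nat_lit 4) (nat_lit 47685) (nat_lit 2107102) (nat_lit 48246) (nat_lit 102758),Row.mk (nat_lit 19992) (nat_lit 46563) (nat_lit 3) (nat_lit 46750) (nat_lit 2049562) (nat_lit 47498) (nat_lit 710502),Row.mk (nat_lit 20160) (nat_lit 45628) (nat_lit 3) (nat_lit 45815) (nat_lit 1651720) (nat_lit 46563) (nat_lit 1795534),Row.mk (nat_lit 20328) (nat_lit 44506) (nat_lit 2) (nat_lit 44693) (nat_lit 646325) (nat_lit 45628) (nat_lit 3659213),Row.mk (nat_lit 20496) (nat_lit 44319) (nat_lit 2) (nat_lit 44506) (nat_lit 4254502) (nat_lit 45441) (nat_lit 1123013),Row.mk (nat_lit 20664) (nat_lit 43010) (nat_lit 1) (nat_lit 43197) (nat_lit 2553703) (nat_lit 44319) (nat_lit 4162685),Row.mk (nat_lit 20832) (nat_lit 43010) (nat_lit 7495055) (nat_lit 44132) (nat_lit 893553) (nat_lit 0) (nat_lit 0),Row.mk (nat_lit 21000) (nat_lit 41327) (nat_lit 3983625) (nat_lit 42823) (nat_lit 6493543) (nat_lit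 43010) (nat_lit 1),Row.mk (nat_lit 21168) (nat_lit 41140) (nat_lit 10352967) (nat_lit 42636) (nat_lit 2732762) (nat_lit 42823) (nat_lit 2),Row.mk (nat_lit 21336) (nat_lit 38896) (nat_lit 2453436) (nat_lit 40953) (nat_lit 13890323) (nat_lit 41140) (nat_lit 4),Row.mk (nat_lit 21504) (nat_lit 38709) (nat_lit 9780670) (nat_lit 40766) (nat_lit 10632289) (nat_lit 40953) (nat_lit 6),Row.mk (nat_lit 21672) (nat_lit 38522) (nat_lit 18932208) (nat_lit 40579) (nat_lit 6563084) (nat_lit 40766) (nat_lit 9),Row.mk (nat_lit 21840) (nat_lit 38335) (nat_lit 30362259) (nat_lit 40392) (nat_lit 1480744) (nat_lit 40579) (nat_lit 13),Row.mk (nat_lit 22008) (nat_lit 31603) (nat_lit 6078712) (nat_lit 38148) (nat_lit 33692430) (nat_lit 38335) (nat_lit 17),Row.mk (nat_lit 22176) (nat_lit 31416) (nat_lit 15980771) (nat_lit 37961) (nat_lit 33692425) (nat_lit 38148) (nat_lit 23),Row.mk (nat_lit 22344) (nat_lit 31229) (nat_lit 28348204) (nat_lit 37774) (nat_lit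 33692418) (nat_lit 37961) (nat_lit 30),Row.mk (nat_lit 22512) (nat_lit 31042) (nat_lit 43794830) (nat_lit 37587) (nat_lit 33692409) (nat_lit 37774) (nat_lit 38),Row.mk (nat_lit 22680) (nat_lit 30855) (nat_lit 63087293) (nat_lit 37400) (nat_lit 33692398) (nat_lit 37587) (nat_lit 49),Row.mk (nat_lit 22848) (nat_lit 30668) (nat_lit 87183113) (nat_lit 37213) (nat_lit 33692385) (nat_lit 37400) (nat_lit 63),Row.mk (nat_lit 23016) (nat_lit 30481) (nat_lit 117278212) (nat_lit 37026) (nat_lit 33692368) (nat_lit 37213) (nat_lit 79),Row.mk (nat_lit 23184) (nat_lit 30294) (nat_lit 154866264) (nat_lit 36839) (nat_lit 33692347) (nat_lit 37026) (nat_lit 100),Row.mk (nat_lit 23352) (nat_lit 30107) (nat_lit 201812834) (nat_lit 36652) (nat_lit 33692320) (nat_lit 36839) (nat_lit 127),Row.mk (nat_lit 23520) (nat_lit 29920) (nat_lit 260447968) (nat_lit 36465) (nat_lit 33692288) (nat_lit 36652) (nat_lit 160)],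
[Row.mk (nat_lit 15624) (nat_lit 32912) (nat_lit 8522) (nat_lit 61710) (nat_lit 8380086) (nat_lit 0) (nat_lit 0),Row.mk (nat_lit 15792) (nat_lit 60775) (nat_lit 7) (nat_lit 60962) (nat_lit 10588) (nat_lit 61336) (nat_lit 48),Row.mk (nat_lit 15960) (nat_lit 60214) (nat_lit 7) (nat_lit 60401) (nat_lit 13208) (nat_lit 60775) (nat_lit 78),Row.mk (nat_lit 16128) (nat_lit 59653) (nat_lit 7) (nat_lit 59840) (nat_lit 16470) (nat_lit 60214) (nat_lit 126),Row.mk (nat_lit 16296) (nat_lit 59092) (nat_lit 7) (nat_lit 59279) (nat_lit 20530) (nat_lit 59653) (nat_lit 200),Row.mk (nat_lit 16464) (nat_lit 58531) (nat_lit 7) (nat_lit 58718) (nat_lit 25577) (nat_lit 59092) (nat_lit 315),Row.mk (nat_lit 16632) (nat_lit 57970) (nat_lit 7) (nat_lit 58157) (nat_lit 31846) (nat_lit 58531) (nat_lit 495),Row.mk (nat_lit 16800) (nat_lit 57409) (nat_lit 7) (nat_lit 57596) (nat_lit 39619) (nat_lit 57970) (nat_lit 775),Row.mk (nat_lit 16968) (nat_lit 56848) (nat_lit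 7) (nat_lit 57035) (nat_lit 49240) (nat_lit 57409) (nat_lit 1213),Row.mk (nat_lit 17136) (nat_lit 56287) (nat_lit 7) (nat_lit 56474) (nat_lit 61121) (nat_lit 56848) (nat_lit 1895),Row.mk (nat_lit 17304) (nat_lit 55726) (nat_lit 7) (nat_lit 55913) (nat_lit 75747) (nat_lit 56287) (nat_lit 2960),Row.mk (nat_lit 17472) (nat_lit 55165) (nat_lit 7) (nat_lit 55352) (nat_lit 93684) (nat_lit 55726) (nat_lit 4621),Row.mk (nat_lit 17640) (nat_lit 54604) (nat_lit 7) (nat_lit 54791) (nat_lit 115571) (nat_lit 55165) (nat_lit 7213),Row.mk (nat_lit 17808) (nat_lit 54043) (nat_lit 7) (nat_lit 54230) (nat_lit 142100) (nat_lit 54604) (nat_lit 11255),Row.mk (nat_lit 17976) (nat_lit 53482) (nat_lit 7) (nat_lit 53669) (nat_lit 173978) (nat_lit 54043) (nat_lit 17561),Row.mk (nat_lit 18144) (nat_lit 52921) (nat_lit 7) (nat_lit 53108) (nat_lit 211832) (nat_lit 53482) (nat_lit 27397),Row.mk (nat_lit 18312) (nat_lit 52360) (nat_lit 7) (nat_lit 52547) (nat_lit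 256051) (nat_lit 52921) (nat_lit 42741),Row.mk (nat_lit 18480) (nat_lit 51799) (nat_lit 7) (nat_lit 51986) (nat_lit 306509) (nat_lit 52360) (nat_lit 66677),Row.mk (nat_lit 18648) (nat_lit 51238) (nat_lit 6) (nat_lit 51425) (nat_lit 362086) (nat_lit 51799) (nat_lit 104016),Row.mk (nat_lit 18816) (nat_lit 50677) (nat_lit 6) (nat_lit 50864) (nat_lit 419890) (nat_lit 51238) (nat_lit 162263),Row.mk (nat_lit 18984) (nat_lit 50116) (nat_lit 6) (nat_lit 50303) (nat_lit 473972) (nat_lit 50677) (nat_lit 253124),Row.mk (nat_lit 19152) (nat_lit 49555) (nat_lit 6) (nat_lit 49742) (nat_lit 513265) (nat_lit 50116) (nat_lit 394861),Row.mk (nat_lit 19320) (nat_lit 48994) (nat_lit 6) (nat_lit 49181) (nat_lit 518266) (nat_lit 49555) (nat_lit 615964),Row.mk (nat_lit 19488) (nat_lit 48433) (nat_lit 6) (nat_lit 48620) (nat_lit 455757) (nat_lit 48994) (nat_lit 960871),Row.mk (nat_lit 19656) (nat_lit 47685) (nat_lit 5) (nat_lit 47872) (nat_lit 270431) (nat_lit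 48433) (nat_lit 1498905),Row.mk (nat_lit 19824) (nat_lit 47498) (nat_lit 5) (nat_lit 47685) (nat_lit 2107103) (nat_lit 48246) (nat_lit 102757),Row.mk (nat_lit 19992) (nat_lit 46563) (nat_lit 4) (nat_lit 46750) (nat_lit 2049562) (nat_lit 47498) (nat_lit 710501),Row.mk (nat_lit 20160) (nat_lit 45628) (nat_lit 4) (nat_lit 45815) (nat_lit 1651721) (nat_lit 46563) (nat_lit 1795533),Row.mk (nat_lit 20328) (nat_lit 44506) (nat_lit 3) (nat_lit 44693) (nat_lit 646326) (nat_lit 45628) (nat_lit 3659212),Row.mk (nat_lit 20496) (nat_lit 44319) (nat_lit 2) (nat_lit 44506) (nat_lit 4254503) (nat_lit 45441) (nat_lit 1123012),Row.mk (nat_lit 20664) (nat_lit 43010) (nat_lit 1) (nat_lit 43197) (nat_lit 2553705) (nat_lit 44319) (nat_lit 4162684),Row.mk (nat_lit 20832) (nat_lit 43010) (nat_lit 7495057) (nat_lit 44132) (nat_lit 893552) (nat_lit 0) (nat_lit 0),Row.mk (nat_lit 21000) (nat_lit 41327) (nat_lit 3983626) (nat_lit 42823) (nat_lit 6493542) (nat_lit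 43010) (nat_lit 1),Row.mk (nat_lit 21168) (nat_lit 41140) (nat_lit 10352968) (nat_lit 42636) (nat_lit 2732760) (nat_lit 42823) (nat_lit 3),Row.mk (nat_lit 21336) (nat_lit 38896) (nat_lit 2453437) (nat_lit 40953) (nat_lit 13890321) (nat_lit 41140) (nat_lit 5),Row.mk (nat_lit 21504) (nat_lit 38709) (nat_lit 9780671) (nat_lit 40766) (nat_lit 10632286) (nat_lit 40953) (nat_lit 8),Row.mk (nat_lit 21672) (nat_lit 38522) (nat_lit 18932210) (nat_lit 40579) (nat_lit 6563080) (nat_lit 40766) (nat_lit 11),Row.mk (nat_lit 21840) (nat_lit 38335) (nat_lit 30362261) (nat_lit 40392) (nat_lit 1480740) (nat_lit 40579) (nat_lit 16),Row.mk (nat_lit 22008) (nat_lit 31603) (nat_lit 6078713) (nat_lit 38148) (nat_lit 33692425) (nat_lit 38335) (nat_lit 21),Row.mk (nat_lit 22176) (nat_lit 31416) (nat_lit 15980772) (nat_lit 37961) (nat_lit 33692418) (nat_lit 38148) (nat_lit 28),Row.mk (nat_lit 22344) (nat_lit 31229) (nat_lit 28348206) (nat_lit 37774) (nat_lit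 33692409) (nat_lit 37961) (nat_lit 37),Row.mk (nat_lit 22512) (nat_lit 31042) (nat_lit 43794831) (nat_lit 37587) (nat_lit 33692398) (nat_lit 37774) (nat_lit 48),Row.mk (nat_lit 22680) (nat_lit 30855) (nat_lit 63087294) (nat_lit 37400) (nat_lit 33692385) (nat_lit 37587) (nat_lit 61),Row.mk (nat_lit 22848) (nat_lit 30668) (nat_lit 87183115) (nat_lit 37213) (nat_lit 33692368) (nat_lit 37400) (nat_lit 78),Row.mk (nat_lit 23016) (nat_lit 30481) (nat_lit 117278213) (nat_lit 37026) (nat_lit 33692347) (nat_lit 37213) (nat_lit 99),Row.mk (nat_lit 23184) (nat_lit 30294) (nat_lit 154866265) (nat_lit 36839) (nat_lit 33692320) (nat_lit 37026) (nat_lit 126),Row.mk (nat_lit 23352) (nat_lit 30107) (nat_lit 201812836) (nat_lit 36652) (nat_lit 33692288) (nat_lit 36839) (nat_lit 158),Row.mk (nat_lit 23520) (nat_lit 29920) (nat_lit 260447970) (nat_lit 36465) (nat_lit 33692247) (nat_lit 36652) (nat_lit 200),Row.mk (nat_lit 23688) (nat_lit 29733) (nat_lit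 333681837) (nat_lit 36278) (nat_lit 33692195) (nat_lit 36465) (nat_lit 251)],
[Row.mk (nat_lit 15624) (nat_lit 32912) (nat_lit 8523) (nat_lit 61710) (nat_lit 8380086) (nat_lit 0) (nat_lit 0),Row.mk (nat_lit 15792) (nat_lit 60775) (nat_lit 9) (nat_lit 60962) (nat_lit 10588) (nat_lit 61336) (nat_lit 46),Row.mk (nat_lit 15960) (nat_lit 60214) (nat_lit 9) (nat_lit 60401) (nat_lit 13208) (nat_lit 60775) (nat_lit 77),Row.mk (nat_lit 16128) (nat_lit 59653) (nat_lit 9) (nat_lit 59840) (nat_lit 16470) (nat_lit 60214) (nat_lit 124),Row.mk (nat_lit 16296) (nat_lit 59092) (nat_lit 9) (nat_lit 59279) (nat_lit 20530) (nat_lit 59653) (nat_lit 198),Row.mk (nat_lit 16464) (nat_lit 58531) (nat_lit 9) (nat_lit 58718) (nat_lit 25577) (nat_lit 59092) (nat_lit 313),Row.mk (nat_lit 16632) (nat_lit 57970) (nat_lit 9) (nat_lit 58157) (nat_lit 31846) (nat_lit 58531) (nat_lit 493),Row.mk (nat_lit 16800) (nat_lit 57409) (nat_lit 9) (nat_lit 57596) (nat_lit 39619)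 (nat_lit 57970) (nat_lit 774),Row.mk (nat_lit 16968) (nat_lit 56848) (nat_lit 9) (nat_lit 57035) (nat_lit 49240) (nat_lit 57409) (nat_lit 1211),Row.mk (nat_lit 17136) (nat_lit 56287) (nat_lit 9) (nat_lit 56474) (nat_lit 61121) (nat_lit 56848) (nat_lit 1894),Row.mk (nat_lit 17304) (nat_lit 55726) (nat_lit 9) (nat_lit 55913) (nat_lit 75747) (nat_lit 56287) (nat_lit 2959),Row.mk (nat_lit 17472) (nat_lit 55165) (nat_lit 9) (nat_lit 55352) (nat_lit 93684) (nat_lit 55726) (nat_lit 4620),Row.mk (nat_lit 17640) (nat_lit 54604) (nat_lit 9) (nat_lit 54791) (nat_lit 115571) (nat_lit 55165) (nat_lit 7211),Row.mk (nat_lit 17808) (nat_lit 54043) (nat_lit 8) (nat_lit 54230) (nat_lit 142100) (nat_lit 54604) (nat_lit 11253),Row.mk (nat_lit 17976) (nat_lit 53482) (nat_lit 8) (nat_lit 53669) (nat_lit 173978) (nat_lit 54043) (nat_lit 17559),Row.mk (nat_lit 18144) (nat_lit 52921) (nat_lit 8) (nat_lit 53108) (nat_lit 211832) (nat_lit 53482) (nat_lit 27395),Row.mk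 (nat_lit 18312) (nat_lit 52360) (nat_lit 8) (nat_lit 52547) (nat_lit 256051) (nat_lit 52921) (nat_lit 42740),Row.mk (nat_lit 18480) (nat_lit 51799) (nat_lit 8) (nat_lit 51986) (nat_lit 306509) (nat_lit 52360) (nat_lit 66676),Row.mk (nat_lit 18648) (nat_lit 51238) (nat_lit 8) (nat_lit 51425) (nat_lit 362086) (nat_lit 51799) (nat_lit 104015),Row.mk (nat_lit 18816) (nat_lit 50677) (nat_lit 8) (nat_lit 50864) (nat_lit 419890) (nat_lit 51238) (nat_lit 162261),Row.mk (nat_lit 18984) (nat_lit 50116) (nat_lit 8) (nat_lit 50303) (nat_lit 473972) (nat_lit 50677) (nat_lit 253122),Row.mk (nat_lit 19152) (nat_lit 49555) (nat_lit 8) (nat_lit 49742) (nat_lit 513266) (nat_lit 50116) (nat_lit 394860),Row.mk (nat_lit 19320) (nat_lit 48994) (nat_lit 7) (nat_lit 49181) (nat_lit 518267) (nat_lit 49555) (nat_lit 615962),Row.mk (nat_lit 19488) (nat_lit 48433) (nat_lit 7) (nat_lit 48620) (nat_lit 455757) (nat_lit 48994) (nat_lit 960869),Row.mk (nat_lit 19656)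 (nat_lit 47685) (nat_lit 7) (nat_lit 47872) (nat_lit 270431) (nat_lit 48433) (nat_lit 1498903),Row.mk (nat_lit 19824) (nat_lit 47498) (nat_lit 6) (nat_lit 47685) (nat_lit 2107103) (nat_lit 48246) (nat_lit 102755),Row.mk (nat_lit 19992) (nat_lit 46563) (nat_lit 6) (nat_lit 46750) (nat_lit 2049563) (nat_lit 47498) (nat_lit 710499),Row.mk (nat_lit 20160) (nat_lit 45628) (nat_lit 5) (nat_lit 45815) (nat_lit 1651721) (nat_lit 46563) (nat_lit 1795531),Row.mk (nat_lit 20328) (nat_lit 44506) (nat_lit 4) (nat_lit 44693) (nat_lit 646327) (nat_lit 45628) (nat_lit 3659211),Row.mk (nat_lit 20496) (nat_lit 44319) (nat_lit 3) (nat_lit 44506) (nat_lit 4254504) (nat_lit 45441) (nat_lit 1123010),Row.mk (nat_lit 20664) (nat_lit 43010) (nat_lit 1) (nat_lit 43197) (nat_lit 2553706) (nat_lit 44319) (nat_lit 4162682),Row.mk (nat_lit 20832) (nat_lit 43010) (nat_lit 7495059) (nat_lit 44132) (nat_lit 893550) (nat_lit 0) (nat_lit 0),Row.mk (nat_lit 21000) (nat_lit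 41327) (nat_lit 3983628) (nat_lit 42823) (nat_lit 6493540) (nat_lit 43010) (nat_lit 1),Row.mk (nat_lit 21168) (nat_lit 41140) (nat_lit 10352970) (nat_lit 42636) (nat_lit 2732758) (nat_lit 42823) (nat_lit 4),Row.mk (nat_lit 21336) (nat_lit 38896) (nat_lit 2453439) (nat_lit 40953) (nat_lit 13890318) (nat_lit 41140) (nat_lit 6),Row.mk (nat_lit 21504) (nat_lit 38709) (nat_lit 9780673) (nat_lit 40766) (nat_lit 10632283) (nat_lit 40953) (nat_lit 10),Row.mk (nat_lit 21672) (nat_lit 38522) (nat_lit 18932212) (nat_lit 40579) (nat_lit 6563076) (nat_lit 40766) (nat_lit 14),Row.mk (nat_lit 21840) (nat_lit 38335) (nat_lit 30362263) (nat_lit 40392) (nat_lit 1480734) (nat_lit 40579) (nat_lit 20),Row.mk (nat_lit 22008) (nat_lit 31603) (nat_lit 6078715) (nat_lit 38148) (nat_lit 33692418) (nat_lit 38335) (nat_lit 27),Row.mk (nat_lit 22176) (nat_lit 31416) (nat_lit 15980774) (nat_lit 37961) (nat_lit 33692409) (nat_lit 38148) (nat_lit 36),Row.mk (nat_lit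 22344) (nat_lit 31229) (nat_lit 28348207) (nat_lit 37774) (nat_lit 33692398) (nat_lit 37961) (nat_lit 46),Row.mk (nat_lit 22512) (nat_lit 31042) (nat_lit 43794833) (nat_lit 37587) (nat_lit 33692385) (nat_lit 37774) (nat_lit 60),Row.mk (nat_lit 22680) (nat_lit 30855) (nat_lit 63087296) (nat_lit 37400) (nat_lit 33692368) (nat_lit 37587) (nat_lit 77),Row.mk (nat_lit 22848) (nat_lit 30668) (nat_lit 87183116) (nat_lit 37213) (nat_lit 33692347) (nat_lit 37400) (nat_lit 98),Row.mk (nat_lit 23016) (nat_lit 30481) (nat_lit 117278215) (nat_lit 37026) (nat_lit 33692320) (nat_lit 37213) (nat_lit 124),Row.mk (nat_lit 23184) (nat_lit 30294) (nat_lit 154866267) (nat_lit 36839) (nat_lit 33692288) (nat_lit 37026) (nat_lit 157),Row.mk (nat_lit 23352) (nat_lit 30107) (nat_lit 201812838) (nat_lit 36652) (nat_lit 33692247) (nat_lit 36839) (nat_lit 198),Row.mk (nat_lit 23520) (nat_lit 29920) (nat_lit 260447972) (nat_lit 36465) (nat_lit 33692195) (nat_lit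 36652) (nat_lit 249),Row.mk (nat_lit 23688) (nat_lit 29733) (nat_lit 333681839) (nat_lit 36278) (nat_lit 33692131) (nat_lit 36465) (nat_lit 313),Row.mk (nat_lit 23856) (nat_lit 29546) (nat_lit 425149173) (nat_lit 36091) (nat_lit 33692051) (nat_lit 36278) (nat_lit 393)],
[Row.mk (nat_lit 15624) (nat_lit 32912) (nat_lit 8523) (nat_lit 61710) (nat_lit 8380086) (nat_lit 0) (nat_lit 0),Row.mk (nat_lit 15792) (nat_lit 60775) (nat_lit 11) (nat_lit 60962) (nat_lit 10588) (nat_lit 61336) (nat_lit 45),Row.mk (nat_lit 15960) (nat_lit 60214) (nat_lit 11) (nat_lit 60401) (nat_lit 13208) (nat_lit 60775) (nat_lit 75),Row.mk (nat_lit 16128) (nat_lit 59653) (nat_lit 11) (nat_lit 59840) (nat_lit 16470) (nat_lit 60214) (nat_lit 122),Row.mk (nat_lit 16296) (nat_lit 59092) (nat_lit 11) (nat_lit 59279) (nat_lit 20530) (nat_lit 59653) (nat_lit 196),Row.mk (nat_lit 16464) (nat_lit 58531) (nat_lit 11) (nat_lit 58718) (nat_lit 25577) (nat_lit 59092) (nat_lit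 312),Row.mk (nat_lit 16632) (nat_lit 57970) (nat_lit 11) (nat_lit 58157) (nat_lit 31846) (nat_lit 58531) (nat_lit 491),Row.mk (nat_lit 16800) (nat_lit 57409) (nat_lit 11) (nat_lit 57596) (nat_lit 39619) (nat_lit 57970) (nat_lit 772),Row.mk (nat_lit 16968) (nat_lit 56848) (nat_lit 11) (nat_lit 57035) (nat_lit 49240) (nat_lit 57409) (nat_lit 1209),Row.mk (nat_lit 17136) (nat_lit 56287) (nat_lit 11) (nat_lit 56474) (nat_lit 61121) (nat_lit 56848) (nat_lit 1892),Row.mk (nat_lit 17304) (nat_lit 55726) (nat_lit 11) (nat_lit 55913) (nat_lit 75748) (nat_lit 56287) (nat_lit 2957),Row.mk (nat_lit 17472) (nat_lit 55165) (nat_lit 11) (nat_lit 55352) (nat_lit 93684) (nat_lit 55726) (nat_lit 4618),Row.mk (nat_lit 17640) (nat_lit 54604) (nat_lit 11) (nat_lit 54791) (nat_lit 115571) (nat_lit 55165) (nat_lit 7209),Row.mk (nat_lit 17808) (nat_lit 54043) (nat_lit 11) (nat_lit 54230) (nat_lit 142100) (nat_lit 54604) (nat_lit 11252),Row.mk (nat_lit 17976)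 (nat_lit 53482) (nat_lit 11) (nat_lit 53669) (nat_lit 173978) (nat_lit 54043) (nat_lit 17557),Row.mk (nat_lit 18144) (nat_lit 52921) (nat_lit 11) (nat_lit 53108) (nat_lit 211832) (nat_lit 53482) (nat_lit 27394),Row.mk (nat_lit 18312) (nat_lit 52360) (nat_lit 11) (nat_lit 52547) (nat_lit 256051) (nat_lit 52921) (nat_lit 42738),Row.mk (nat_lit 18480) (nat_lit 51799) (nat_lit 10) (nat_lit 51986) (nat_lit 306509) (nat_lit 52360) (nat_lit 66674),Row.mk (nat_lit 18648) (nat_lit 51238) (nat_lit 10) (nat_lit 51425) (nat_lit 362086) (nat_lit 51799) (nat_lit 104013),Row.mk (nat_lit 18816) (nat_lit 50677) (nat_lit 10) (nat_lit 50864) (nat_lit 419890) (nat_lit 51238) (nat_lit 162259),Row.mk (nat_lit 18984) (nat_lit 50116) (nat_lit 10) (nat_lit 50303) (nat_lit 473973) (nat_lit 50677) (nat_lit 253120),Row.mk (nat_lit 19152) (nat_lit 49555) (nat_lit 10) (nat_lit 49742) (nat_lit 513266) (nat_lit 50116) (nat_lit 394858),Row.mk (nat_lit 19320) (nat_lit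 48994) (nat_lit 9) (nat_lit 49181) (nat_lit 518267) (nat_lit 49555) (nat_lit 615961),Row.mk (nat_lit 19488) (nat_lit 48433) (nat_lit 9) (nat_lit 48620) (nat_lit 455758) (nat_lit 48994) (nat_lit 960867),Row.mk (nat_lit 19656) (nat_lit 47685) (nat_lit 9) (nat_lit 47872) (nat_lit 270432) (nat_lit 48433) (nat_lit 1498902),Row.mk (nat_lit 19824) (nat_lit 47498) (nat_lit 8) (nat_lit 47685) (nat_lit 2107104) (nat_lit 48246) (nat_lit 102753),Row.mk (nat_lit 19992) (nat_lit 46563) (nat_lit 7) (nat_lit 46750) (nat_lit 2049563) (nat_lit 47498) (nat_lit 710497),Row.mk (nat_lit 20160) (nat_lit 45628) (nat_lit 6) (nat_lit 45815) (nat_lit 1651722) (nat_lit 46563) (nat_lit 1795529),Row.mk (nat_lit 20328) (nat_lit 44506) (nat_lit 5) (nat_lit 44693) (nat_lit 646328) (nat_lit 45628) (nat_lit 3659209),Row.mk (nat_lit 20496) (nat_lit 44319) (nat_lit 4) (nat_lit 44506) (nat_lit 4254506) (nat_lit 45441) (nat_lit 1123009),Row.mk (nat_lit 20664) (nat_lit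 43010) (nat_lit 2) (nat_lit 43197) (nat_lit 2553708) (nat_lit 44319) (nat_lit 4162680),Row.mk (nat_lit 20832) (nat_lit 43010) (nat_lit 7495061) (nat_lit 44132) (nat_lit 893548) (nat_lit 0) (nat_lit 0),Row.mk (nat_lit 21000) (nat_lit 41327) (nat_lit 3983630) (nat_lit 42823) (nat_lit 6493538) (nat_lit 43010) (nat_lit 2),Row.mk (nat_lit 21168) (nat_lit 41140) (nat_lit 10352973) (nat_lit 42636) (nat_lit 2732755) (nat_lit 42823) (nat_lit 5),Row.mk (nat_lit 21336) (nat_lit 38896) (nat_lit 2453441) (nat_lit 40953) (nat_lit 13890314) (nat_lit 41140) (nat_lit 8),Row.mk (nat_lit 21504) (nat_lit 38709) (nat_lit 9780675) (nat_lit 40766) (nat_lit 10632278) (nat_lit 40953) (nat_lit 13),Row.mk (nat_lit 21672) (nat_lit 38522) (nat_lit 18932214) (nat_lit 40579) (nat_lit 6563070) (nat_lit 40766) (nat_lit 18),Row.mk (nat_lit 21840) (nat_lit 38335) (nat_lit 30362265) (nat_lit 40392) (nat_lit 1480727) (nat_lit 40579) (nat_lit 25),Row.mk (nat_lit 22008)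 (nat_lit 31603) (nat_lit 6078717) (nat_lit 38148) (nat_lit 33692409) (nat_lit 38335) (nat_lit 34),Row.mk (nat_lit 22176) (nat_lit 31416) (nat_lit 15980777) (nat_lit 37961) (nat_lit 33692398) (nat_lit 38148) (nat_lit 45),Row.mk (nat_lit 22344) (nat_lit 31229) (nat_lit 28348210) (nat_lit 37774) (nat_lit 33692385) (nat_lit 37961) (nat_lit 58),Row.mk (nat_lit 22512) (nat_lit 31042) (nat_lit 43794835) (nat_lit 37587) (nat_lit 33692368) (nat_lit 37774) (nat_lit 75),Row.mk (nat_lit 22680) (nat_lit 30855) (nat_lit 63087298) (nat_lit 37400) (nat_lit 33692347) (nat_lit 37587) (nat_lit 96),Row.mk (nat_lit 22848) (nat_lit 30668) (nat_lit 87183119) (nat_lit 37213) (nat_lit 33692320) (nat_lit 37400) (nat_lit 122),Row.mk (nat_lit 23016) (nat_lit 30481) (nat_lit 117278217) (nat_lit 37026) (nat_lit 33692288) (nat_lit 37213) (nat_lit 155),Row.mk (nat_lit 23184) (nat_lit 30294) (nat_lit 154866269) (nat_lit 36839) (nat_lit 33692247) (nat_lit 37026) (nat_lit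 196),Row.mk (nat_lit 23352) (nat_lit 30107) (nat_lit 201812840) (nat_lit 36652) (nat_lit 33692195) (nat_lit 36839) (nat_lit 247),Row.mk (nat_lit 23520) (nat_lit 29920) (nat_lit 260447974) (nat_lit 36465) (nat_lit 33692131) (nat_lit 36652) (nat_lit 312),Row.mk (nat_lit 23688) (nat_lit 29733) (nat_lit 333681842) (nat_lit 36278) (nat_lit 33692051) (nat_lit 36465) (nat_lit 391),Row.mk (nat_lit 23856) (nat_lit 29546) (nat_lit 425149176) (nat_lit 36091) (nat_lit 33691951) (nat_lit 36278) (nat_lit 491),Row.mk (nat_lit 24024) (nat_lit 29359) (nat_lit 539389670) (nat_lit 35904) (nat_lit 33691827) (nat_lit 36091) (nat_lit 616)],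
[Row.mk (nat_lit 15624) (nat_lit 32912) (nat_lit 8524) (nat_lit 61710) (nat_lit 8380086) (nat_lit 0) (nat_lit 0),Row.mk (nat_lit 15792) (nat_lit 60775) (nat_lit 14) (nat_lit 60962) (nat_lit 10588) (nat_lit 61336) (nat_lit 42),Row.mk (nat_lit 15960) (nat_lit 60214) (nat_lit 14) (nat_lit 60401) (nat_lit 13208) (nat_lit 60775) (nat_lit 73),Row.mk (nat_lit 16128) (nat_lit 59653) (nat_lit 14) (nat_lit 59840) (nat_lit 16470) (nat_lit 60214) (nat_lit 120),Row.mk (nat_lit 16296) (nat_lit 59092) (nat_lit 14) (nat_lit 59279) (nat_lit 20530) (nat_lit 59653) (nat_lit 194),Row.mk (nat_lit 16464) (nat_lit 58531) (nat_lit 14) (nat_lit 58718) (nat_lit 25577) (nat_lit 59092) (nat_lit 309),Row.mk (nat_lit 16632) (nat_lit 57970) (nat_lit 14) (nat_lit 58157) (nat_lit 31846) (nat_lit 58531) (nat_lit 489),Row.mk (nat_lit 16800) (nat_lit 57409) (nat_lit 14) (nat_lit 57596) (nat_lit 39619) (nat_lit 57970) (nat_lit 770),Row.mk (nat_lit 16968) (nat_lit 56848)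 (nat_lit 14) (nat_lit 57035) (nat_lit 49240) (nat_lit 57409) (nat_lit 1207),Row.mk (nat_lit 17136) (nat_lit 56287) (nat_lit 14) (nat_lit 56474) (nat_lit 61121) (nat_lit 56848) (nat_lit 1890),Row.mk (nat_lit 17304) (nat_lit 55726) (nat_lit 14) (nat_lit 55913) (nat_lit 75748) (nat_lit 56287) (nat_lit 2955),Row.mk (nat_lit 17472) (nat_lit 55165) (nat_lit 14) (nat_lit 55352) (nat_lit 93684) (nat_lit 55726) (nat_lit 4616),Row.mk (nat_lit 17640) (nat_lit 54604) (nat_lit 14) (nat_lit 54791) (nat_lit 115571) (nat_lit 55165) (nat_lit 7207),Row.mk (nat_lit 17808) (nat_lit 54043) (nat_lit 14) (nat_lit 54230) (nat_lit 142100) (nat_lit 54604) (nat_lit 11249),Row.mk (nat_lit 17976) (nat_lit 53482) (nat_lit 13) (nat_lit 53669) (nat_lit 173978) (nat_lit 54043) (nat_lit 17555),Row.mk (nat_lit 18144) (nat_lit 52921) (nat_lit 13) (nat_lit 53108) (nat_lit 211832) (nat_lit 53482) (nat_lit 27391),Row.mk (nat_lit 18312) (nat_lit 52360) (nat_lit 13) (nat_lit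 52547) (nat_lit 256051) (nat_lit 52921) (nat_lit 42736),Row.mk (nat_lit 18480) (nat_lit 51799) (nat_lit 13) (nat_lit 51986) (nat_lit 306509) (nat_lit 52360) (nat_lit 66672),Row.mk (nat_lit 18648) (nat_lit 51238) (nat_lit 13) (nat_lit 51425) (nat_lit 362087) (nat_lit 51799) (nat_lit 104011),Row.mk (nat_lit 18816) (nat_lit 50677) (nat_lit 13) (nat_lit 50864) (nat_lit 419890) (nat_lit 51238) (nat_lit 162257),Row.mk (nat_lit 18984) (nat_lit 50116) (nat_lit 13) (nat_lit 50303) (nat_lit 473973) (nat_lit 50677) (nat_lit 253118),Row.mk (nat_lit 19152) (nat_lit 49555) (nat_lit 12) (nat_lit 49742) (nat_lit 513266) (nat_lit 50116) (nat_lit 394856),Row.mk (nat_lit 19320) (nat_lit 48994) (nat_lit 12) (nat_lit 49181) (nat_lit 518267) (nat_lit 49555) (nat_lit 615958),Row.mk (nat_lit 19488) (nat_lit 48433) (nat_lit 11) (nat_lit 48620) (nat_lit 455758) (nat_lit 48994) (nat_lit 960865),Row.mk (nat_lit 19656) (nat_lit 47685) (nat_lit 11) (nat_lit 47872)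 (nat_lit 270432) (nat_lit 48433) (nat_lit 1498899),Row.mk (nat_lit 19824) (nat_lit 47498) (nat_lit 10) (nat_lit 47685) (nat_lit 2107105) (nat_lit 48246) (nat_lit 102751),Row.mk (nat_lit 19992) (nat_lit 46563) (nat_lit 9) (nat_lit 46750) (nat_lit 2049564) (nat_lit 47498) (nat_lit 710495),Row.mk (nat_lit 20160) (nat_lit 45628) (nat_lit 8) (nat_lit 45815) (nat_lit 1651724) (nat_lit 46563) (nat_lit 1795527),Row.mk (nat_lit 20328) (nat_lit 44506) (nat_lit 6) (nat_lit 44693) (nat_lit 646330) (nat_lit 45628) (nat_lit 3659207),Row.mk (nat_lit 20496) (nat_lit 44319) (nat_lit 5) (nat_lit 44506) (nat_lit 4254507) (nat_lit 45441) (nat_lit 1123006),Row.mk (nat_lit 20664) (nat_lit 43010) (nat_lit 2) (nat_lit 43197) (nat_lit 2553710) (nat_lit 44319) (nat_lit 4162678),Row.mk (nat_lit 20832) (nat_lit 43010) (nat_lit 7495064) (nat_lit 44132) (nat_lit 893546) (nat_lit 0) (nat_lit 0),Row.mk (nat_lit 21000) (nat_lit 41327) (nat_lit 3983633) (nat_lit 42823)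 (nat_lit 6493535) (nat_lit 43010) (nat_lit 2),Row.mk (nat_lit 21168) (nat_lit 41140) (nat_lit 10352975) (nat_lit 42636) (nat_lit 2732751) (nat_lit 42823) (nat_lit 6),Row.mk (nat_lit 21336) (nat_lit 38896) (nat_lit 2453444) (nat_lit 40953) (nat_lit 13890310) (nat_lit 41140) (nat_lit 10),Row.mk (nat_lit 21504) (nat_lit 38709) (nat_lit 9780678) (nat_lit 40766) (nat_lit 10632273) (nat_lit 40953) (nat_lit 16),Row.mk (nat_lit 21672) (nat_lit 38522) (nat_lit 18932217) (nat_lit 40579) (nat_lit 6563063) (nat_lit 40766) (nat_lit 23),Row.mk (nat_lit 21840) (nat_lit 38335) (nat_lit 30362268) (nat_lit 40392) (nat_lit 1480718) (nat_lit 40579) (nat_lit 31),Row.mk (nat_lit 22008) (nat_lit 31603) (nat_lit 6078720) (nat_lit 38148) (nat_lit 33692398) (nat_lit 38335) (nat_lit 42),Row.mk (nat_lit 22176) (nat_lit 31416) (nat_lit 15980779) (nat_lit 37961) (nat_lit 33692385) (nat_lit 38148) (nat_lit 56),Row.mk (nat_lit 22344) (nat_lit 31229) (nat_lit 28348213)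 (nat_lit 37774) (nat_lit 33692368) (nat_lit 37961) (nat_lit 73),Row.mk (nat_lit 22512) (nat_lit 31042) (nat_lit 43794838) (nat_lit 37587) (nat_lit 33692347) (nat_lit 37774) (nat_lit 94),Row.mk (nat_lit 22680) (nat_lit 30855) (nat_lit 63087301) (nat_lit 37400) (nat_lit 33692320) (nat_lit 37587) (nat_lit 120),Row.mk (nat_lit 22848) (nat_lit 30668) (nat_lit 87183122) (nat_lit 37213) (nat_lit 33692288) (nat_lit 37400) (nat_lit 153),Row.mk (nat_lit 23016) (nat_lit 30481) (nat_lit 117278220) (nat_lit 37026) (nat_lit 33692247) (nat_lit 37213) (nat_lit 194),Row.mk (nat_lit 23184) (nat_lit 30294) (nat_lit 154866272) (nat_lit 36839) (nat_lit 33692195) (nat_lit 37026) (nat_lit 245),Row.mk (nat_lit 23352) (nat_lit 30107) (nat_lit 201812843) (nat_lit 36652) (nat_lit 33692131) (nat_lit 36839) (nat_lit 309),Row.mk (nat_lit 23520) (nat_lit 29920) (nat_lit 260447977) (nat_lit 36465) (nat_lit 33692051) (nat_lit 36652) (nat_lit 389),Row.mk (nat_lit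 23688) (nat_lit 29733) (nat_lit 333681844) (nat_lit 36278) (nat_lit 33691951) (nat_lit 36465) (nat_lit 489),Row.mk (nat_lit 23856) (nat_lit 29546) (nat_lit 425149179) (nat_lit 36091) (nat_lit 33691827) (nat_lit 36278) (nat_lit 614),Row.mk (nat_lit 24024) (nat_lit 29359) (nat_lit 539389672) (nat_lit 35904) (nat_lit 33691671) (nat_lit 36091) (nat_lit 770),Row.mk (nat_lit 24192) (nat_lit 29172) (nat_lit 682073293) (nat_lit 35717) (nat_lit 33691476) (nat_lit 35904) (nat_lit 964)],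
[Row.mk (nat_lit 15624) (nat_lit 32912) (nat_lit 8525) (nat_lit 61710) (nat_lit 8380086) (nat_lit 0) (nat_lit 0),Row.mk (nat_lit 15792) (nat_lit 60775) (nat_lit 17) (nat_lit 60962) (nat_lit 10588) (nat_lit 61336) (nat_lit 39),Row.mk (nat_lit 15960) (nat_lit 60214) (nat_lit 17) (nat_lit 60401) (nat_lit 13208) (nat_lit 60775) (nat_lit 70),Row.mk (nat_lit 16128) (nat_lit 59653) (nat_lit 17) (nat_lit 59840) (nat_lit 16470) (nat_lit 60214) (nat_lit 117),Row.mk (nat_lit 16296) (nat_lit 59092) (nat_lit 17) (nat_lit 59279) (nat_lit 20530) (nat_lit 59653) (nat_lit 191),Row.mk (nat_lit 16464) (nat_lit 58531) (nat_lit 17) (nat_lit 58718) (nat_lit 25577) (nat_lit 59092) (nat_lit 306),Row.mk (nat_lit 16632) (nat_lit 57970) (nat_lit 17) (nat_lit 58157) (nat_lit 31846) (nat_lit 58531) (nat_lit 486),Row.mk (nat_lit 16800) (nat_lit 57409) (nat_lit 17) (nat_lit 57596) (nat_lit 39619) (nat_lit 57970) (nat_lit 767),Row.mk (nat_lit 16968) (nat_lit 56848)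 (nat_lit 17) (nat_lit 57035) (nat_lit 49240) (nat_lit 57409) (nat_lit 1204),Row.mk (nat_lit 17136) (nat_lit 56287) (nat_lit 17) (nat_lit 56474) (nat_lit 61121) (nat_lit 56848) (nat_lit 1887),Row.mk (nat_lit 17304) (nat_lit 55726) (nat_lit 17) (nat_lit 55913) (nat_lit 75748) (nat_lit 56287) (nat_lit 2952),Row.mk (nat_lit 17472) (nat_lit 55165) (nat_lit 17) (nat_lit 55352) (nat_lit 93684) (nat_lit 55726) (nat_lit 4613),Row.mk (nat_lit 17640) (nat_lit 54604) (nat_lit 17) (nat_lit 54791) (nat_lit 115571) (nat_lit 55165) (nat_lit 7204),Row.mk (nat_lit 17808) (nat_lit 54043) (nat_lit 17) (nat_lit 54230) (nat_lit 142100) (nat_lit 54604) (nat_lit 11246),Row.mk (nat_lit 17976) (nat_lit 53482) (nat_lit 17) (nat_lit 53669) (nat_lit 173978) (nat_lit 54043) (nat_lit 17552),Row.mk (nat_lit 18144) (nat_lit 52921) (nat_lit 17) (nat_lit 53108) (nat_lit 211832) (nat_lit 53482) (nat_lit 27389),Row.mk (nat_lit 18312) (nat_lit 52360) (nat_lit 17) (nat_lit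 52547) (nat_lit 256052) (nat_lit 52921) (nat_lit 42733),Row.mk (nat_lit 18480) (nat_lit 51799) (nat_lit 17) (nat_lit 51986) (nat_lit 306509) (nat_lit 52360) (nat_lit 66669),Row.mk (nat_lit 18648) (nat_lit 51238) (nat_lit 16) (nat_lit 51425) (nat_lit 362087) (nat_lit 51799) (nat_lit 104008),Row.mk (nat_lit 18816) (nat_lit 50677) (nat_lit 16) (nat_lit 50864) (nat_lit 419890) (nat_lit 51238) (nat_lit 162254),Row.mk (nat_lit 18984) (nat_lit 50116) (nat_lit 16) (nat_lit 50303) (nat_lit 473973) (nat_lit 50677) (nat_lit 253115),Row.mk (nat_lit 19152) (nat_lit 49555) (nat_lit 15) (nat_lit 49742) (nat_lit 513267) (nat_lit 50116) (nat_lit 394853),Row.mk (nat_lit 19320) (nat_lit 48994) (nat_lit 15) (nat_lit 49181) (nat_lit 518268) (nat_lit 49555) (nat_lit 615955),Row.mk (nat_lit 19488) (nat_lit 48433) (nat_lit 14) (nat_lit 48620) (nat_lit 455759) (nat_lit 48994) (nat_lit 960862),Row.mk (nat_lit 19656) (nat_lit 47685) (nat_lit 14) (nat_lit 47872)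 (nat_lit 270433) (nat_lit 48433) (nat_lit 1498896),Row.mk (nat_lit 19824) (nat_lit 47498) (nat_lit 13) (nat_lit 47685) (nat_lit 2107105) (nat_lit 48246) (nat_lit 102748),Row.mk (nat_lit 19992) (nat_lit 46563) (nat_lit 11) (nat_lit 46750) (nat_lit 2049565) (nat_lit 47498) (nat_lit 710492),Row.mk (nat_lit 20160) (nat_lit 45628) (nat_lit 10) (nat_lit 45815) (nat_lit 1651725) (nat_lit 46563) (nat_lit 1795524),Row.mk (nat_lit 20328) (nat_lit 44506) (nat_lit 8) (nat_lit 44693) (nat_lit 646331) (nat_lit 45628) (nat_lit 3659204),Row.mk (nat_lit 20496) (nat_lit 44319) (nat_lit 6) (nat_lit 44506) (nat_lit 4254510) (nat_lit 45441) (nat_lit 1123004),Row.mk (nat_lit 20664) (nat_lit 43010) (nat_lit 3) (nat_lit 43197) (nat_lit 2553713) (nat_lit 44319) (nat_lit 4162675),Row.mk (nat_lit 20832) (nat_lit 43010) (nat_lit 7495067) (nat_lit 44132) (nat_lit 893543) (nat_lit 0) (nat_lit 0),Row.mk (nat_lit 21000) (nat_lit 41327) (nat_lit 3983637) (nat_lit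 42823) (nat_lit 6493531) (nat_lit 43010) (nat_lit 3),Row.mk (nat_lit 21168) (nat_lit 41140) (nat_lit 10352979) (nat_lit 42636) (nat_lit 2732747) (nat_lit 42823) (nat_lit 8),Row.mk (nat_lit 21336) (nat_lit 38896) (nat_lit 2453448) (nat_lit 40953) (nat_lit 13890304) (nat_lit 41140) (nat_lit 13),Row.mk (nat_lit 21504) (nat_lit 38709) (nat_lit 9780682) (nat_lit 40766) (nat_lit 10632266) (nat_lit 40953) (nat_lit 20),Row.mk (nat_lit 21672) (nat_lit 38522) (nat_lit 18932220) (nat_lit 40579) (nat_lit 6563054) (nat_lit 40766) (nat_lit 29),Row.mk (nat_lit 21840) (nat_lit 38335) (nat_lit 30362271) (nat_lit 40392) (nat_lit 1480708) (nat_lit 40579) (nat_lit 39),Row.mk (nat_lit 22008) (nat_lit 31603) (nat_lit 6078724) (nat_lit 38148) (nat_lit 33692385) (nat_lit 38335) (nat_lit 53),Row.mk (nat_lit 22176) (nat_lit 31416) (nat_lit 15980783) (nat_lit 37961) (nat_lit 33692368) (nat_lit 38148) (nat_lit 70),Row.mk (nat_lit 22344) (nat_lit 31229) (nat_lit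 28348216) (nat_lit 37774) (nat_lit 33692347) (nat_lit 37961) (nat_lit 91),Row.mk (nat_lit 22512) (nat_lit 31042) (nat_lit 43794842) (nat_lit 37587) (nat_lit 33692320) (nat_lit 37774) (nat_lit 117),Row.mk (nat_lit 22680) (nat_lit 30855) (nat_lit 63087304) (nat_lit 37400) (nat_lit 33692288) (nat_lit 37587) (nat_lit 150),Row.mk (nat_lit 22848) (nat_lit 30668) (nat_lit 87183125) (nat_lit 37213) (nat_lit 33692247) (nat_lit 37400) (nat_lit 191),Row.mk (nat_lit 23016) (nat_lit 30481) (nat_lit 117278224) (nat_lit 37026) (nat_lit 33692195) (nat_lit 37213) (nat_lit 242),Row.mk (nat_lit 23184) (nat_lit 30294) (nat_lit 154866276) (nat_lit 36839) (nat_lit 33692131) (nat_lit 37026) (nat_lit 306),Row.mk (nat_lit 23352) (nat_lit 30107) (nat_lit 201812846) (nat_lit 36652) (nat_lit 33692051) (nat_lit 36839) (nat_lit 386),Row.mk (nat_lit 23520) (nat_lit 29920) (nat_lit 260447980) (nat_lit 36465) (nat_lit 33691951) (nat_lit 36652) (nat_lit 486),Row.mk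 (nat_lit 23688) (nat_lit 29733) (nat_lit 333681848) (nat_lit 36278) (nat_lit 33691827) (nat_lit 36465) (nat_lit 611),Row.mk (nat_lit 23856) (nat_lit 29546) (nat_lit 425149182) (nat_lit 36091) (nat_lit 33691671) (nat_lit 36278) (nat_lit 767),Row.mk (nat_lit 24024) (nat_lit 29359) (nat_lit 539389676) (nat_lit 35904) (nat_lit 33691476) (nat_lit 36091) (nat_lit 961),Row.mk (nat_lit 24192) (nat_lit 29172) (nat_lit 682073297) (nat_lit 35717) (nat_lit 33691233) (nat_lit 35904) (nat_lit 1204),Row.mk (nat_lit 24360) (nat_lit 28985) (nat_lit 860281697) (nat_lit 35530) (nat_lit 33690930) (nat_lit 35717) (nat_lit 1508)],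
[Row.mk (nat_lit 15456) (nat_lit 32912) (nat_lit 6827) (nat_lit 61710) (nat_lit 8381785) (nat_lit 0) (nat_lit 0),Row.mk (nat_lit 15624) (nat_lit 32912) (nat_lit 8525) (nat_lit 61710) (nat_lit 8380086) (nat_lit 0) (nat_lit 0),Row.mk (nat_lit 15792) (nat_lit 60775) (nat_lit 22) (nat_lit 60962) (nat_lit 10588) (nat_lit 61336) (nat_lit 36),Row.mk (nat_lit 15960) (nat_lit 60214) (nat_lit 22) (nat_lit 60401) (nat_lit 13208) (nat_lit 60775) (nat_lit 66),Row.mk (nat_lit 16128) (nat_lit 59653) (nat_lit 22) (nat_lit 59840) (nat_lit 16470) (nat_lit 60214) (nat_lit 114),Row.mk (nat_lit 16296) (nat_lit 59092) (nat_lit 22) (nat_lit 59279) (nat_lit 20530) (nat_lit 59653) (nat_lit 188),Row.mk (nat_lit 16464) (nat_lit 58531) (nat_lit 22) (nat_lit 58718) (nat_lit 25578) (nat_lit 59092) (nat_lit 303),Row.mk (nat_lit 16632) (nat_lit 57970) (nat_lit 22) (nat_lit 58157) (nat_lit 31846) (nat_lit 58531) (nat_lit 483),Row.mk (nat_lit 16800) (nat_lit 57409)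 (nat_lit 22) (nat_lit 57596) (nat_lit 39619) (nat_lit 57970) (nat_lit 763),Row.mk (nat_lit 16968) (nat_lit 56848) (nat_lit 22) (nat_lit 57035) (nat_lit 49240) (nat_lit 57409) (nat_lit 1201),Row.mk (nat_lit 17136) (nat_lit 56287) (nat_lit 22) (nat_lit 56474) (nat_lit 61121) (nat_lit 56848) (nat_lit 1883),Row.mk (nat_lit 17304) (nat_lit 55726) (nat_lit 22) (nat_lit 55913) (nat_lit 75748) (nat_lit 56287) (nat_lit 2948),Row.mk (nat_lit 17472) (nat_lit 55165) (nat_lit 22) (nat_lit 55352) (nat_lit 93685) (nat_lit 55726) (nat_lit 4609),Row.mk (nat_lit 17640) (nat_lit 54604) (nat_lit 21) (nat_lit 54791) (nat_lit 115571) (nat_lit 55165) (nat_lit 7201),Row.mk (nat_lit 17808) (nat_lit 54043) (nat_lit 21) (nat_lit 54230) (nat_lit 142100) (nat_lit 54604) (nat_lit 11243),Row.mk (nat_lit 17976) (nat_lit 53482) (nat_lit 21) (nat_lit 53669) (nat_lit 173978) (nat_lit 54043) (nat_lit 17549),Row.mk (nat_lit 18144) (nat_lit 52921) (nat_lit 21) (nat_lit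 53108) (nat_lit 211832) (nat_lit 53482) (nat_lit 27385),Row.mk (nat_lit 18312) (nat_lit 52360) (nat_lit 21) (nat_lit 52547) (nat_lit 256052) (nat_lit 52921) (nat_lit 42729),Row.mk (nat_lit 18480) (nat_lit 51799) (nat_lit 21) (nat_lit 51986) (nat_lit 306510) (nat_lit 52360) (nat_lit 66665),Row.mk (nat_lit 18648) (nat_lit 51238) (nat_lit 21) (nat_lit 51425) (nat_lit 362087) (nat_lit 51799) (nat_lit 104004),Row.mk (nat_lit 18816) (nat_lit 50677) (nat_lit 20) (nat_lit 50864) (nat_lit 419891) (nat_lit 51238) (nat_lit 162251),Row.mk (nat_lit 18984) (nat_lit 50116) (nat_lit 20) (nat_lit 50303) (nat_lit 473974) (nat_lit 50677) (nat_lit 253112),Row.mk (nat_lit 19152) (nat_lit 49555) (nat_lit 19) (nat_lit 49742) (nat_lit 513267) (nat_lit 50116) (nat_lit 394849),Row.mk (nat_lit 19320) (nat_lit 48994) (nat_lit 19) (nat_lit 49181) (nat_lit 518268) (nat_lit 49555) (nat_lit 615952),Row.mk (nat_lit 19488) (nat_lit 48433) (nat_lit 18) (nat_lit 48620)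 (nat_lit 455760) (nat_lit 48994) (nat_lit 960859),Row.mk (nat_lit 19656) (nat_lit 47685) (nat_lit 17) (nat_lit 47872) (nat_lit 270434) (nat_lit 48433) (nat_lit 1498893),Row.mk (nat_lit 19824) (nat_lit 47498) (nat_lit 16) (nat_lit 47685) (nat_lit 2107107) (nat_lit 48246) (nat_lit 102745),Row.mk (nat_lit 19992) (nat_lit 46563) (nat_lit 14) (nat_lit 46750) (nat_lit 2049567) (nat_lit 47498) (nat_lit 710489),Row.mk (nat_lit 20160) (nat_lit 45628) (nat_lit 13) (nat_lit 45815) (nat_lit 1651727) (nat_lit 46563) (nat_lit 1795521),Row.mk (nat_lit 20328) (nat_lit 44506) (nat_lit 10) (nat_lit 44693) (nat_lit 646334) (nat_lit 45628) (nat_lit 3659200),Row.mk (nat_lit 20496) (nat_lit 44319) (nat_lit 8) (nat_lit 44506) (nat_lit 4254513) (nat_lit 45441) (nat_lit 1123000),Row.mk (nat_lit 20664) (nat_lit 43010) (nat_lit 4) (nat_lit 43197) (nat_lit 2553717) (nat_lit 44319) (nat_lit 4162672),Row.mk (nat_lit 20832) (nat_lit 43010) (nat_lit 7495072) (nat_lit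 44132) (nat_lit 893540) (nat_lit 0) (nat_lit 0),Row.mk (nat_lit 21000) (nat_lit 41327) (nat_lit 3983641) (nat_lit 42823) (nat_lit 6493527) (nat_lit 43010) (nat_lit 4),Row.mk (nat_lit 21168) (nat_lit 41140) (nat_lit 10352983) (nat_lit 42636) (nat_lit 2732741) (nat_lit 42823) (nat_lit 9),Row.mk (nat_lit 21336) (nat_lit 38896) (nat_lit 2453452) (nat_lit 40953) (nat_lit 13890297) (nat_lit 41140) (nat_lit 16),Row.mk (nat_lit 21504) (nat_lit 38709) (nat_lit 9780686) (nat_lit 40766) (nat_lit 10632257) (nat_lit 40953) (nat_lit 25),Row.mk (nat_lit 21672) (nat_lit 38522) (nat_lit 18932225) (nat_lit 40579) (nat_lit 6563044) (nat_lit 40766) (nat_lit 36),Row.mk (nat_lit 21840) (nat_lit 38335) (nat_lit 30362276) (nat_lit 40392) (nat_lit 1480694) (nat_lit 40579) (nat_lit 49),Row.mk (nat_lit 22008) (nat_lit 31603) (nat_lit 6078728) (nat_lit 38148) (nat_lit 33692368) (nat_lit 38335) (nat_lit 66),Row.mk (nat_lit 22176) (nat_lit 31416) (nat_lit 15980787)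 (nat_lit 37961) (nat_lit 33692347) (nat_lit 38148) (nat_lit 87),Row.mk (nat_lit 22344) (nat_lit 31229) (nat_lit 28348221) (nat_lit 37774) (nat_lit 33692320) (nat_lit 37961) (nat_lit 114),Row.mk (nat_lit 22512) (nat_lit 31042) (nat_lit 43794846) (nat_lit 37587) (nat_lit 33692288) (nat_lit 37774) (nat_lit 146),Row.mk (nat_lit 22680) (nat_lit 30855) (nat_lit 63087309) (nat_lit 37400) (nat_lit 33692247) (nat_lit 37587) (nat_lit 188),Row.mk (nat_lit 22848) (nat_lit 30668) (nat_lit 87183130) (nat_lit 37213) (nat_lit 33692195) (nat_lit 37400) (nat_lit 239),Row.mk (nat_lit 23016) (nat_lit 30481) (nat_lit 117278228) (nat_lit 37026) (nat_lit 33692131) (nat_lit 37213) (nat_lit 303),Row.mk (nat_lit 23184) (nat_lit 30294) (nat_lit 154866280) (nat_lit 36839) (nat_lit 33692051) (nat_lit 37026) (nat_lit 383),Row.mk (nat_lit 23352) (nat_lit 30107) (nat_lit 201812851) (nat_lit 36652) (nat_lit 33691951) (nat_lit 36839) (nat_lit 483),Row.mk (nat_lit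 23520) (nat_lit 29920) (nat_lit 260447985) (nat_lit 36465) (nat_lit 33691827) (nat_lit 36652) (nat_lit 607),Row.mk (nat_lit 23688) (nat_lit 29733) (nat_lit 333681852) (nat_lit 36278) (nat_lit 33691671) (nat_lit 36465) (nat_lit 763),Row.mk (nat_lit 23856) (nat_lit 29546) (nat_lit 425149187) (nat_lit 36091) (nat_lit 33691476) (nat_lit 36278) (nat_lit 958),Row.mk (nat_lit 24024) (nat_lit 29359) (nat_lit 539389680) (nat_lit 35904) (nat_lit 33691233) (nat_lit 36091) (nat_lit 1201),Row.mk (nat_lit 24192) (nat_lit 29172) (nat_lit 682073301) (nat_lit 35717) (nat_lit 33690930) (nat_lit 35904) (nat_lit 1504),Row.mk (nat_lit 24360) (nat_lit 28985) (nat_lit 860281702) (nat_lit 35530) (nat_lit 33690551) (nat_lit 35717) (nat_lit 1883),Row.mk (nat_lit 24528) (nat_lit 28798) (nat_lit 1082859695) (nat_lit 35343) (nat_lit 33690077) (nat_lit 35530) (nat_lit 2357)],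
[Row.mk (nat_lit 15456) (nat_lit 32912) (nat_lit 6828) (nat_lit 61710) (nat_lit 8381785) (nat_lit 0) (nat_lit 0),Row.mk (nat_lit 15624) (nat_lit 32912) (nat_lit 8527) (nat_lit 61710) (nat_lit 8380086) (nat_lit 0) (nat_lit 0),Row.mk (nat_lit 15792) (nat_lit 60775) (nat_lit 27) (nat_lit 60962) (nat_lit 10588) (nat_lit 61336) (nat_lit 31),Row.mk (nat_lit 15960) (nat_lit 60214) (nat_lit 27) (nat_lit 60401) (nat_lit 13208) (nat_lit 60775) (nat_lit 62),Row.mk (nat_lit 16128) (nat_lit 59653) (nat_lit 27) (nat_lit 59840) (nat_lit 16470) (nat_lit 60214) (nat_lit 109),Row.mk (nat_lit 16296) (nat_lit 59092) (nat_lit 27) (nat_lit 59279) (nat_lit 20530) (nat_lit 59653) (nat_lit 183),Row.mk (nat_lit 16464) (nat_lit 58531) (nat_lit 27) (nat_lit 58718) (nat_lit 25578) (nat_lit 59092) (nat_lit 298),Row.mk (nat_lit 16632) (nat_lit 57970) (nat_lit 27) (nat_lit 58157) (nat_lit 31846) (nat_lit 58531) (nat_lit 478),Row.mk (nat_lit 16800) (nat_lit 57409)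 (nat_lit 27) (nat_lit 57596) (nat_lit 39619) (nat_lit 57970) (nat_lit 759),Row.mk (nat_lit 16968) (nat_lit 56848) (nat_lit 27) (nat_lit 57035) (nat_lit 49240) (nat_lit 57409) (nat_lit 1196),Row.mk (nat_lit 17136) (nat_lit 56287) (nat_lit 27) (nat_lit 56474) (nat_lit 61121) (nat_lit 56848) (nat_lit 1879),Row.mk (nat_lit 17304) (nat_lit 55726) (nat_lit 27) (nat_lit 55913) (nat_lit 75748) (nat_lit 56287) (nat_lit 2944),Row.mk (nat_lit 17472) (nat_lit 55165) (nat_lit 27) (nat_lit 55352) (nat_lit 93685) (nat_lit 55726) (nat_lit 4605),Row.mk (nat_lit 17640) (nat_lit 54604) (nat_lit 27) (nat_lit 54791) (nat_lit 115571) (nat_lit 55165) (nat_lit 7196),Row.mk (nat_lit 17808) (nat_lit 54043) (nat_lit 27) (nat_lit 54230) (nat_lit 142100) (nat_lit 54604) (nat_lit 11238),Row.mk (nat_lit 17976) (nat_lit 53482) (nat_lit 27) (nat_lit 53669) (nat_lit 173978) (nat_lit 54043) (nat_lit 17544),Row.mk (nat_lit 18144) (nat_lit 52921) (nat_lit 27) (nat_lit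 53108) (nat_lit 211832) (nat_lit 53482) (nat_lit 27381),Row.mk (nat_lit 18312) (nat_lit 52360) (nat_lit 26) (nat_lit 52547) (nat_lit 256052) (nat_lit 52921) (nat_lit 42725),Row.mk (nat_lit 18480) (nat_lit 51799) (nat_lit 26) (nat_lit 51986) (nat_lit 306510) (nat_lit 52360) (nat_lit 66661),Row.mk (nat_lit 18648) (nat_lit 51238) (nat_lit 26) (nat_lit 51425) (nat_lit 362087) (nat_lit 51799) (nat_lit 104000),Row.mk (nat_lit 18816) (nat_lit 50677) (nat_lit 25) (nat_lit 50864) (nat_lit 419891) (nat_lit 51238) (nat_lit 162246),Row.mk (nat_lit 18984) (nat_lit 50116) (nat_lit 25) (nat_lit 50303) (nat_lit 473974) (nat_lit 50677) (nat_lit 253107),Row.mk (nat_lit 19152) (nat_lit 49555) (nat_lit 24) (nat_lit 49742) (nat_lit 513268) (nat_lit 50116) (nat_lit 394845),Row.mk (nat_lit 19320) (nat_lit 48994) (nat_lit 24) (nat_lit 49181) (nat_lit 518269) (nat_lit 49555) (nat_lit 615947),Row.mk (nat_lit 19488) (nat_lit 48433) (nat_lit 23) (nat_lit 48620)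 (nat_lit 455761) (nat_lit 48994) (nat_lit 960854),Row.mk (nat_lit 19656) (nat_lit 47685) (nat_lit 21) (nat_lit 47872) (nat_lit 270435) (nat_lit 48433) (nat_lit 1498888),Row.mk (nat_lit 19824) (nat_lit 47498) (nat_lit 20) (nat_lit 47685) (nat_lit 2107108) (nat_lit 48246) (nat_lit 102740),Row.mk (nat_lit 19992) (nat_lit 46563) (nat_lit 18) (nat_lit 46750) (nat_lit 2049569) (nat_lit 47498) (nat_lit 710484),Row.mk (nat_lit 20160) (nat_lit 45628) (nat_lit 16) (nat_lit 45815) (nat_lit 1651729) (nat_lit 46563) (nat_lit 1795516),Row.mk (nat_lit 20328) (nat_lit 44506) (nat_lit 13) (nat_lit 44693) (nat_lit 646337) (nat_lit 45628) (nat_lit 3659196),Row.mk (nat_lit 20496) (nat_lit 44319) (nat_lit 9) (nat_lit 44506) (nat_lit 4254516) (nat_lit 45441) (nat_lit 1122996),Row.mk (nat_lit 20664) (nat_lit 43010) (nat_lit 5) (nat_lit 43197) (nat_lit 2553721) (nat_lit 44319) (nat_lit 4162667),Row.mk (nat_lit 20832) (nat_lit 43010) (nat_lit 7495077) (nat_lit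 44132) (nat_lit 893535) (nat_lit 0) (nat_lit 0),Row.mk (nat_lit 21000) (nat_lit 41327) (nat_lit 3983647) (nat_lit 42823) (nat_lit 6493521) (nat_lit 43010) (nat_lit 5),Row.mk (nat_lit 21168) (nat_lit 41140) (nat_lit 10352989) (nat_lit 42636) (nat_lit 2732734) (nat_lit 42823) (nat_lit 12),Row.mk (nat_lit 21336) (nat_lit 38896) (nat_lit 2453458) (nat_lit 40953) (nat_lit 13890289) (nat_lit 41140) (nat_lit 21),Row.mk (nat_lit 21504) (nat_lit 38709) (nat_lit 9780692) (nat_lit 40766) (nat_lit 10632246) (nat_lit 40953) (nat_lit 31),Row.mk (nat_lit 21672) (nat_lit 38522) (nat_lit 18932230) (nat_lit 40579) (nat_lit 6563030) (nat_lit 40766) (nat_lit 45),Row.mk (nat_lit 21840) (nat_lit 38335) (nat_lit 30362281) (nat_lit 40392) (nat_lit 1480677) (nat_lit 40579) (nat_lit 62),Row.mk (nat_lit 22008) (nat_lit 31603) (nat_lit 6078734) (nat_lit 38148) (nat_lit 33692347) (nat_lit 38335) (nat_lit 83),Row.mk (nat_lit 22176) (nat_lit 31416) (nat_lit 15980793)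 (nat_lit 37961) (nat_lit 33692320) (nat_lit 38148) (nat_lit 109),Row.mk (nat_lit 22344) (nat_lit 31229) (nat_lit 28348226) (nat_lit 37774) (nat_lit 33692288) (nat_lit 37961) (nat_lit 142),Row.mk (nat_lit 22512) (nat_lit 31042) (nat_lit 43794852) (nat_lit 37587) (nat_lit 33692247) (nat_lit 37774) (nat_lit 183),Row.mk (nat_lit 22680) (nat_lit 30855) (nat_lit 63087314) (nat_lit 37400) (nat_lit 33692195) (nat_lit 37587) (nat_lit 234),Row.mk (nat_lit 22848) (nat_lit 30668) (nat_lit 87183135) (nat_lit 37213) (nat_lit 33692131) (nat_lit 37400) (nat_lit 298),Row.mk (nat_lit 23016) (nat_lit 30481) (nat_lit 117278234) (nat_lit 37026) (nat_lit 33692051) (nat_lit 37213) (nat_lit 378),Row.mk (nat_lit 23184) (nat_lit 30294) (nat_lit 154866286) (nat_lit 36839) (nat_lit 33691951) (nat_lit 37026) (nat_lit 478),Row.mk (nat_lit 23352) (nat_lit 30107) (nat_lit 201812856) (nat_lit 36652) (nat_lit 33691827) (nat_lit 36839) (nat_lit 603),Row.mk (nat_lit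 23520) (nat_lit 29920) (nat_lit 260447990) (nat_lit 36465) (nat_lit 33691671) (nat_lit 36652) (nat_lit 759),Row.mk (nat_lit 23688) (nat_lit 29733) (nat_lit 333681858) (nat_lit 36278) (nat_lit 33691476) (nat_lit 36465) (nat_lit 953),Row.mk (nat_lit 23856) (nat_lit 29546) (nat_lit 425149192) (nat_lit 36091) (nat_lit 33691233) (nat_lit 36278) (nat_lit 1196),Row.mk (nat_lit 24024) (nat_lit 29359) (nat_lit 539389686) (nat_lit 35904) (nat_lit 33690930) (nat_lit 36091) (nat_lit 1500),Row.mk (nat_lit 24192) (nat_lit 29172) (nat_lit 682073307) (nat_lit 35717) (nat_lit 33690551) (nat_lit 35904) (nat_lit 1879),Row.mk (nat_lit 24360) (nat_lit 28985) (nat_lit 860281707) (nat_lit 35530) (nat_lit 33690077) (nat_lit 35717) (nat_lit 2352),Row.mk (nat_lit 24528) (nat_lit 28798) (nat_lit 1082859700) (nat_lit 35343) (nat_lit 33689486) (nat_lit 35530) (nat_lit 2944),Row.mk (nat_lit 24696) (nat_lit 28611) (nat_lit 1360854244) (nat_lit 35156) (nat_lit 33688747)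 (nat_lit 35343) (nat_lit 3682)],
[Row.mk (nat_lit 15288) (nat_lit 32912) (nat_lit 5469) (nat_lit 61710) (nat_lit 8383145) (nat_lit 0) (nat_lit 0),Row.mk (nat_lit 15456) (nat_lit 32912) (nat_lit 6829) (nat_lit 61710) (nat_lit 8381785) (nat_lit 0) (nat_lit 0),Row.mk (nat_lit 15624) (nat_lit 32912) (nat_lit 8528) (nat_lit 61710) (nat_lit 8380086) (nat_lit 0) (nat_lit 0),Row.mk (nat_lit 15792) (nat_lit 60775) (nat_lit 34) (nat_lit 60962) (nat_lit 10588) (nat_lit 61336) (nat_lit 26),Row.mk (nat_lit 15960) (nat_lit 60214) (nat_lit 34) (nat_lit 60401) (nat_lit 13208) (nat_lit 60775) (nat_lit 56),Row.mk (nat_lit 16128) (nat_lit 59653) (nat_lit 34) (nat_lit 59840) (nat_lit 16470) (nat_lit 60214) (nat_lit 104),Row.mk (nat_lit 16296) (nat_lit 59092) (nat_lit 34) (nat_lit 59279) (nat_lit 20530) (nat_lit 59653) (nat_lit 178),Row.mk (nat_lit 16464) (nat_lit 58531) (nat_lit 34) (nat_lit 58718) (nat_lit 25578) (nat_lit 59092) (nat_lit 293),Row.mk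 (nat_lit 16632) (nat_lit 57970) (nat_lit 34) (nat_lit 58157) (nat_lit 31846) (nat_lit 58531) (nat_lit 473),Row.mk (nat_lit 16800) (nat_lit 57409) (nat_lit 34) (nat_lit 57596) (nat_lit 39619) (nat_lit 57970) (nat_lit 753),Row.mk (nat_lit 16968) (nat_lit 56848) (nat_lit 34) (nat_lit 57035) (nat_lit 49241) (nat_lit 57409) (nat_lit 1191),Row.mk (nat_lit 17136) (nat_lit 56287) (nat_lit 34) (nat_lit 56474) (nat_lit 61121) (nat_lit 56848) (nat_lit 1873),Row.mk (nat_lit 17304) (nat_lit 55726) (nat_lit 34) (nat_lit 55913) (nat_lit 75748) (nat_lit 56287) (nat_lit 2938),Row.mk (nat_lit 17472) (nat_lit 55165) (nat_lit 34) (nat_lit 55352) (nat_lit 93685) (nat_lit 55726) (nat_lit 4599),Row.mk (nat_lit 17640) (nat_lit 54604) (nat_lit 34) (nat_lit 54791) (nat_lit 115571) (nat_lit 55165) (nat_lit 7191),Row.mk (nat_lit 17808) (nat_lit 54043) (nat_lit 34) (nat_lit 54230) (nat_lit 142101) (nat_lit 54604) (nat_lit 11233),Row.mk (nat_lit 17976) (nat_lit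 53482) (nat_lit 33) (nat_lit 53669) (nat_lit 173979) (nat_lit 54043) (nat_lit 17539),Row.mk (nat_lit 18144) (nat_lit 52921) (nat_lit 33) (nat_lit 53108) (nat_lit 211832) (nat_lit 53482) (nat_lit 27375),Row.mk (nat_lit 18312) (nat_lit 52360) (nat_lit 33) (nat_lit 52547) (nat_lit 256052) (nat_lit 52921) (nat_lit 42719),Row.mk (nat_lit 18480) (nat_lit 51799) (nat_lit 33) (nat_lit 51986) (nat_lit 306510) (nat_lit 52360) (nat_lit 66655),Row.mk (nat_lit 18648) (nat_lit 51238) (nat_lit 32) (nat_lit 51425) (nat_lit 362088) (nat_lit 51799) (nat_lit 103994),Row.mk (nat_lit 18816) (nat_lit 50677) (nat_lit 32) (nat_lit 50864) (nat_lit 419892) (nat_lit 51238) (nat_lit 162241),Row.mk (nat_lit 18984) (nat_lit 50116) (nat_lit 31) (nat_lit 50303) (nat_lit 473975) (nat_lit 50677) (nat_lit 253102),Row.mk (nat_lit 19152) (nat_lit 49555) (nat_lit 31) (nat_lit 49742) (nat_lit 513268) (nat_lit 50116) (nat_lit 394839),Row.mk (nat_lit 19320) (nat_lit 48994)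 (nat_lit 30) (nat_lit 49181) (nat_lit 518270) (nat_lit 49555) (nat_lit 615942),Row.mk (nat_lit 19488) (nat_lit 48433) (nat_lit 28) (nat_lit 48620) (nat_lit 455762) (nat_lit 48994) (nat_lit 960849),Row.mk (nat_lit 19656) (nat_lit 47685) (nat_lit 27) (nat_lit 47872) (nat_lit 270437) (nat_lit 48433) (nat_lit 1498883),Row.mk (nat_lit 19824) (nat_lit 47498) (nat_lit 25) (nat_lit 47685) (nat_lit 2107110) (nat_lit 48246) (nat_lit 102735),Row.mk (nat_lit 19992) (nat_lit 46563) (nat_lit 23) (nat_lit 46750) (nat_lit 2049571) (nat_lit 47498) (nat_lit 710479),Row.mk (nat_lit 20160) (nat_lit 45628) (nat_lit 20) (nat_lit 45815) (nat_lit 1651732) (nat_lit 46563) (nat_lit 1795511),Row.mk (nat_lit 20328) (nat_lit 44506) (nat_lit 16) (nat_lit 44693) (nat_lit 646340) (nat_lit 45628) (nat_lit 3659190),Row.mk (nat_lit 20496) (nat_lit 44319) (nat_lit 12) (nat_lit 44506) (nat_lit 4254521) (nat_lit 45441) (nat_lit 1122990),Row.mk (nat_lit 20664) (nat_lit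 43010) (nat_lit 6) (nat_lit 43197) (nat_lit 2553727) (nat_lit 44319) (nat_lit 4162662),Row.mk (nat_lit 20832) (nat_lit 43010) (nat_lit 7495084) (nat_lit 44132) (nat_lit 893530) (nat_lit 0) (nat_lit 0),Row.mk (nat_lit 21000) (nat_lit 41327) (nat_lit 3983654) (nat_lit 42823) (nat_lit 6493514) (nat_lit 43010) (nat_lit 6),Row.mk (nat_lit 21168) (nat_lit 41140) (nat_lit 10352996) (nat_lit 42636) (nat_lit 2732726) (nat_lit 42823) (nat_lit 15),Row.mk (nat_lit 21336) (nat_lit 38896) (nat_lit 2453465) (nat_lit 40953) (nat_lit 13890278) (nat_lit 41140) (nat_lit 26),Row.mk (nat_lit 21504) (nat_lit 38709) (nat_lit 9780699) (nat_lit 40766) (nat_lit 10632233) (nat_lit 40953) (nat_lit 39),Row.mk (nat_lit 21672) (nat_lit 38522) (nat_lit 18932237) (nat_lit 40579) (nat_lit 6563013) (nat_lit 40766) (nat_lit 56),Row.mk (nat_lit 21840) (nat_lit 38335) (nat_lit 30362288) (nat_lit 40392) (nat_lit 1480656) (nat_lit 40579) (nat_lit 77),Row.mk (nat_lit 22008)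 (nat_lit 31603) (nat_lit 6078741) (nat_lit 38148) (nat_lit 33692320) (nat_lit 38335) (nat_lit 104),Row.mk (nat_lit 22176) (nat_lit 31416) (nat_lit 15980800) (nat_lit 37961) (nat_lit 33692288) (nat_lit 38148) (nat_lit 137),Row.mk (nat_lit 22344) (nat_lit 31229) (nat_lit 28348233) (nat_lit 37774) (nat_lit 33692247) (nat_lit 37961) (nat_lit 178),Row.mk (nat_lit 22512) (nat_lit 31042) (nat_lit 43794859) (nat_lit 37587) (nat_lit 33692195) (nat_lit 37774) (nat_lit 229),Row.mk (nat_lit 22680) (nat_lit 30855) (nat_lit 63087321) (nat_lit 37400) (nat_lit 33692131) (nat_lit 37587) (nat_lit 293),Row.mk (nat_lit 22848) (nat_lit 30668) (nat_lit 87183142) (nat_lit 37213) (nat_lit 33692051) (nat_lit 37400) (nat_lit 373),Row.mk (nat_lit 23016) (nat_lit 30481) (nat_lit 117278241) (nat_lit 37026) (nat_lit 33691951) (nat_lit 37213) (nat_lit 473),Row.mk (nat_lit 23184) (nat_lit 30294) (nat_lit 154866293) (nat_lit 36839) (nat_lit 33691827) (nat_lit 37026)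 (nat_lit 597),Row.mk (nat_lit 23352) (nat_lit 30107) (nat_lit 201812863) (nat_lit 36652) (nat_lit 33691671) (nat_lit 36839) (nat_lit 753),Row.mk (nat_lit 23520) (nat_lit 29920) (nat_lit 260447997) (nat_lit 36465) (nat_lit 33691476) (nat_lit 36652) (nat_lit 948),Row.mk (nat_lit 23688) (nat_lit 29733) (nat_lit 333681865) (nat_lit 36278) (nat_lit 33691233) (nat_lit 36465) (nat_lit 1191),Row.mk (nat_lit 23856) (nat_lit 29546) (nat_lit 425149199) (nat_lit 36091) (nat_lit 33690930) (nat_lit 36278) (nat_lit 1494),Row.mk (nat_lit 24024) (nat_lit 29359) (nat_lit 539389693) (nat_lit 35904) (nat_lit 33690551) (nat_lit 36091) (nat_lit 1873),Row.mk (nat_lit 24192) (nat_lit 29172) (nat_lit 682073314) (nat_lit 35717) (nat_lit 33690077) (nat_lit 35904) (nat_lit 2347),Row.mk (nat_lit 24360) (nat_lit 28985) (nat_lit 860281714) (nat_lit 35530) (nat_lit 33689486) (nat_lit 35717) (nat_lit 2938),Row.mk (nat_lit 24528) (nat_lit 28798) (nat_lit 1082859707)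 (nat_lit 35343) (nat_lit 33688747) (nat_lit 35530) (nat_lit 3677),Row.mk (nat_lit 24696) (nat_lit 28611) (nat_lit 1360854251) (nat_lit 35156) (nat_lit 33687825) (nat_lit 35343) (nat_lit 4599),Row.mk (nat_lit 24864) (nat_lit 28424) (nat_lit 1708062730) (nat_lit 34969) (nat_lit 33686673) (nat_lit 35156) (nat_lit 5752)],
[Row.mk (nat_lit 15120) (nat_lit 32912) (nat_lit 4382) (nat_lit 61710) (nat_lit 8384234) (nat_lit 0) (nat_lit 0),Row.mk (nat_lit 15288) (nat_lit 32912) (nat_lit 5471) (nat_lit 61710) (nat_lit 8383145) (nat_lit 0) (nat_lit 0),Row.mk (nat_lit 15456) (nat_lit 32912) (nat_lit 6831) (nat_lit 61710) (nat_lit 8381785) (nat_lit 0) (nat_lit 0),Row.mk (nat_lit 15624) (nat_lit 32912) (nat_lit 8530) (nat_lit 61710) (nat_lit 8380086) (nat_lit 0) (nat_lit 0),Row.mk (nat_lit 15792) (nat_lit 60775) (nat_lit 43) (nat_lit 60962) (nat_lit 10588) (nat_lit 61336) (nat_lit 19),Row.mk (nat_lit 15960) (nat_lit 60214) (nat_lit 43) (nat_lit 60401)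 (nat_lit 13208) (nat_lit 60775) (nat_lit 49),Row.mk (nat_lit 16128) (nat_lit 59653) (nat_lit 43) (nat_lit 59840) (nat_lit 16470) (nat_lit 60214) (nat_lit 97),Row.mk (nat_lit 16296) (nat_lit 59092) (nat_lit 43) (nat_lit 59279) (nat_lit 20530) (nat_lit 59653) (nat_lit 171),Row.mk (nat_lit 16464) (nat_lit 58531) (nat_lit 43) (nat_lit 58718) (nat_lit 25578) (nat_lit 59092) (nat_lit 286),Row.mk (nat_lit 16632) (nat_lit 57970) (nat_lit 43) (nat_lit 58157) (nat_lit 31846) (nat_lit 58531) (nat_lit 466),Row.mk (nat_lit 16800) (nat_lit 57409) (nat_lit 43) (nat_lit 57596) (nat_lit 39619) (nat_lit 57970) (nat_lit 746),Row.mk (nat_lit 16968) (nat_lit 56848) (nat_lit 43) (nat_lit 57035) (nat_lit 49241) (nat_lit 57409) (nat_lit 1184),Row.mk (nat_lit 17136) (nat_lit 56287) (nat_lit 43) (nat_lit 56474) (nat_lit 61121) (nat_lit 56848) (nat_lit 1866),Row.mk (nat_lit 17304) (nat_lit 55726) (nat_lit 43) (nat_lit 55913) (nat_lit 75748) (nat_lit 56287)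 (nat_lit 2931),Row.mk (nat_lit 17472) (nat_lit 55165) (nat_lit 42) (nat_lit 55352) (nat_lit 93685) (nat_lit 55726) (nat_lit 4592),Row.mk (nat_lit 17640) (nat_lit 54604) (nat_lit 42) (nat_lit 54791) (nat_lit 115571) (nat_lit 55165) (nat_lit 7184),Row.mk (nat_lit 17808) (nat_lit 54043) (nat_lit 42) (nat_lit 54230) (nat_lit 142101) (nat_lit 54604) (nat_lit 11226),Row.mk (nat_lit 17976) (nat_lit 53482) (nat_lit 42) (nat_lit 53669) (nat_lit 173979) (nat_lit 54043) (nat_lit 17532),Row.mk (nat_lit 18144) (nat_lit 52921) (nat_lit 42) (nat_lit 53108) (nat_lit 211833) (nat_lit 53482) (nat_lit 27368),Row.mk (nat_lit 18312) (nat_lit 52360) (nat_lit 41) (nat_lit 52547) (nat_lit 256053) (nat_lit 52921) (nat_lit 42712),Row.mk (nat_lit 18480) (nat_lit 51799) (nat_lit 41) (nat_lit 51986) (nat_lit 306511) (nat_lit 52360) (nat_lit 66648),Row.mk (nat_lit 18648) (nat_lit 51238) (nat_lit 41) (nat_lit 51425) (nat_lit 362088) (nat_lit 51799) (nat_lit 103987),Row.mk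 (nat_lit 18816) (nat_lit 50677) (nat_lit 40) (nat_lit 50864) (nat_lit 419892) (nat_lit 51238) (nat_lit 162234),Row.mk (nat_lit 18984) (nat_lit 50116) (nat_lit 39) (nat_lit 50303) (nat_lit 473975) (nat_lit 50677) (nat_lit 253095),Row.mk (nat_lit 19152) (nat_lit 49555) (nat_lit 38) (nat_lit 49742) (nat_lit 513269) (nat_lit 50116) (nat_lit 394832),Row.mk (nat_lit 19320) (nat_lit 48994) (nat_lit 37) (nat_lit 49181) (nat_lit 518271) (nat_lit 49555) (nat_lit 615935),Row.mk (nat_lit 19488) (nat_lit 48433) (nat_lit 36) (nat_lit 48620) (nat_lit 455763) (nat_lit 48994) (nat_lit 960842),Row.mk (nat_lit 19656) (nat_lit 47685) (nat_lit 34) (nat_lit 47872) (nat_lit 270438) (nat_lit 48433) (nat_lit 1498876),Row.mk (nat_lit 19824) (nat_lit 47498) (nat_lit 31) (nat_lit 47685) (nat_lit 2107112) (nat_lit 48246) (nat_lit 102728),Row.mk (nat_lit 19992) (nat_lit 46563) (nat_lit 29) (nat_lit 46750) (nat_lit 2049574) (nat_lit 47498) (nat_lit 710472),Row.mk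 (nat_lit 20160) (nat_lit 45628) (nat_lit 25) (nat_lit 45815) (nat_lit 1651736) (nat_lit 46563) (nat_lit 1795504),Row.mk (nat_lit 20328) (nat_lit 44506) (nat_lit 21) (nat_lit 44693) (nat_lit 646345) (nat_lit 45628) (nat_lit 3659183),Row.mk (nat_lit 20496) (nat_lit 44319) (nat_lit 15) (nat_lit 44506) (nat_lit 4254526) (nat_lit 45441) (nat_lit 1122983),Row.mk (nat_lit 20664) (nat_lit 43010) (nat_lit 8) (nat_lit 43197) (nat_lit 2553733) (nat_lit 44319) (nat_lit 4162655),Row.mk (nat_lit 20832) (nat_lit 43010) (nat_lit 7495093) (nat_lit 44132) (nat_lit 893523) (nat_lit 0) (nat_lit 0),Row.mk (nat_lit 21000) (nat_lit 41327) (nat_lit 3983662) (nat_lit 42823) (nat_lit 6493506) (nat_lit 43010) (nat_lit 8),Row.mk (nat_lit 21168) (nat_lit 41140) (nat_lit 10353005) (nat_lit 42636) (nat_lit 2732715) (nat_lit 42823) (nat_lit 19),Row.mk (nat_lit 21336) (nat_lit 38896) (nat_lit 2453473) (nat_lit 40953) (nat_lit 13890264) (nat_lit 41140) (nat_lit 32),Row.mk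 (nat_lit 21504) (nat_lit 38709) (nat_lit 9780707) (nat_lit 40766) (nat_lit 10632216) (nat_lit 40953) (nat_lit 49),Row.mk (nat_lit 21672) (nat_lit 38522) (nat_lit 18932246) (nat_lit 40579) (nat_lit 6562992) (nat_lit 40766) (nat_lit 70),Row.mk (nat_lit 21840) (nat_lit 38335) (nat_lit 30362297) (nat_lit 40392) (nat_lit 1480630) (nat_lit 40579) (nat_lit 97),Row.mk (nat_lit 22008) (nat_lit 31603) (nat_lit 6078749) (nat_lit 38148) (nat_lit 33692288) (nat_lit 38335) (nat_lit 130),Row.mk (nat_lit 22176) (nat_lit 31416) (nat_lit 15980809) (nat_lit 37961) (nat_lit 33692247) (nat_lit 38148) (nat_lit 171),Row.mk (nat_lit 22344) (nat_lit 31229) (nat_lit 28348242) (nat_lit 37774) (nat_lit 33692195) (nat_lit 37961) (nat_lit 222),Row.mk (nat_lit 22512) (nat_lit 31042) (nat_lit 43794867) (nat_lit 37587) (nat_lit 33692131) (nat_lit 37774) (nat_lit 286),Row.mk (nat_lit 22680) (nat_lit 30855) (nat_lit 63087330) (nat_lit 37400) (nat_lit 33692051) (nat_lit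 37587) (nat_lit 366),Row.mk (nat_lit 22848) (nat_lit 30668) (nat_lit 87183151) (nat_lit 37213) (nat_lit 33691951) (nat_lit 37400) (nat_lit 466),Row.mk (nat_lit 23016) (nat_lit 30481) (nat_lit 117278249) (nat_lit 37026) (nat_lit 33691827) (nat_lit 37213) (nat_lit 590),Row.mk (nat_lit 23184) (nat_lit 30294) (nat_lit 154866301) (nat_lit 36839) (nat_lit 33691671) (nat_lit 37026) (nat_lit 746),Row.mk (nat_lit 23352) (nat_lit 30107) (nat_lit 201812872) (nat_lit 36652) (nat_lit 33691476) (nat_lit 36839) (nat_lit 941),Row.mk (nat_lit 23520) (nat_lit 29920) (nat_lit 260448006) (nat_lit 36465) (nat_lit 33691233) (nat_lit 36652) (nat_lit 1184),Row.mk (nat_lit 23688) (nat_lit 29733) (nat_lit 333681874) (nat_lit 36278) (nat_lit 33690930) (nat_lit 36465) (nat_lit 1487),Row.mk (nat_lit 23856) (nat_lit 29546) (nat_lit 425149208) (nat_lit 36091) (nat_lit 33690551) (nat_lit 36278) (nat_lit 1866),Row.mk (nat_lit 24024) (nat_lit 29359) (nat_lit 539389702)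 (nat_lit 35904) (nat_lit 33690077) (nat_lit 36091) (nat_lit 2340),Row.mk (nat_lit 24192) (nat_lit 29172) (nat_lit 682073322) (nat_lit 35717) (nat_lit 33689486) (nat_lit 35904) (nat_lit 2931),Row.mk (nat_lit 24360) (nat_lit 28985) (nat_lit 860281723) (nat_lit 35530) (nat_lit 33688747) (nat_lit 35717) (nat_lit 3670),Row.mk (nat_lit 24528) (nat_lit 28798) (nat_lit 1082859716) (nat_lit 35343) (nat_lit 33687825) (nat_lit 35530) (nat_lit 4592),Row.mk (nat_lit 24696) (nat_lit 28611) (nat_lit 1360854260) (nat_lit 35156) (nat_lit 33686673) (nat_lit 35343) (nat_lit 5745),Row.mk (nat_lit 24864) (nat_lit 28424) (nat_lit 1708062739) (nat_lit 34969) (nat_lit 33685233) (nat_lit 35156) (nat_lit 7184),Row.mk (nat_lit 25032) (nat_lit 28237) (nat_lit 2141717753) (nat_lit 34782) (nat_lit 33683436) (nat_lit 34969) (nat_lit 8981)],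
[Row.mk (nat_lit 14616) (nat_lit 32912) (nat_lit 2255) (nat_lit 61710) (nat_lit 8386363) (nat_lit 0) (nat_lit 0),Row.mk (nat_lit 14784) (nat_lit 32912) (nat_lit 2814) (nat_lit 61710) (nat_lit 8385804) (nat_lit 0) (nat_lit 0),Row.mk (nat_lit 14952) (nat_lit 32912) (nat_lit 3512) (nat_lit 61710) (nat_lit 8385106) (nat_lit 0) (nat_lit 0),Row.mk (nat_lit 15120) (nat_lit 32912) (nat_lit 4384) (nat_lit 61710) (nat_lit 8384234) (nat_lit 0) (nat_lit 0),Row.mk (nat_lit 15288) (nat_lit 32912) (nat_lit 5473) (nat_lit 61710) (nat_lit 8383145) (nat_lit 0) (nat_lit 0),Row.mk (nat_lit 15456) (nat_lit 32912) (nat_lit 6833) (nat_lit 61710) (nat_lit 8381785) (nat_lit 0) (nat_lit 0),Row.mk (nat_lit 15624) (nat_lit 60962) (nat_lit 10) (nat_lit 61336) (nat_lit 43) (nat_lit 61523) (nat_lit 8478),Row.mk (nat_lit 15792) (nat_lit 60775) (nat_lit 54) (nat_lit 60962) (nat_lit 10588) (nat_lit 61336) (nat_lit 10),Row.mk (nat_lit 15960) (nat_lit 60214) (nat_lit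 54) (nat_lit 60401) (nat_lit 13208) (nat_lit 60775) (nat_lit 41),Row.mk (nat_lit 16128) (nat_lit 59653) (nat_lit 54) (nat_lit 59840) (nat_lit 16470) (nat_lit 60214) (nat_lit 88),Row.mk (nat_lit 16296) (nat_lit 59092) (nat_lit 54) (nat_lit 59279) (nat_lit 20530) (nat_lit 59653) (nat_lit 162),Row.mk (nat_lit 16464) (nat_lit 58531) (nat_lit 54) (nat_lit 58718) (nat_lit 25578) (nat_lit 59092) (nat_lit 277),Row.mk (nat_lit 16632) (nat_lit 57970) (nat_lit 54) (nat_lit 58157) (nat_lit 31846) (nat_lit 58531) (nat_lit 457),Row.mk (nat_lit 16800) (nat_lit 57409) (nat_lit 53) (nat_lit 57596) (nat_lit 39619) (nat_lit 57970) (nat_lit 738),Row.mk (nat_lit 16968) (nat_lit 56848) (nat_lit 53) (nat_lit 57035) (nat_lit 49241) (nat_lit 57409) (nat_lit 1175),Row.mk (nat_lit 17136) (nat_lit 56287) (nat_lit 53) (nat_lit 56474) (nat_lit 61121) (nat_lit 56848) (nat_lit 1858),Row.mk (nat_lit 17304) (nat_lit 55726) (nat_lit 53) (nat_lit 55913) (nat_lit 75748)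 (nat_lit 56287) (nat_lit 2923),Row.mk (nat_lit 17472) (nat_lit 55165) (nat_lit 53) (nat_lit 55352) (nat_lit 93685) (nat_lit 55726) (nat_lit 4584),Row.mk (nat_lit 17640) (nat_lit 54604) (nat_lit 53) (nat_lit 54791) (nat_lit 115571) (nat_lit 55165) (nat_lit 7175),Row.mk (nat_lit 17808) (nat_lit 54043) (nat_lit 53) (nat_lit 54230) (nat_lit 142101) (nat_lit 54604) (nat_lit 11217),Row.mk (nat_lit 17976) (nat_lit 53482) (nat_lit 52) (nat_lit 53669) (nat_lit 173979) (nat_lit 54043) (nat_lit 17523),Row.mk (nat_lit 18144) (nat_lit 52921) (nat_lit 52) (nat_lit 53108) (nat_lit 211833) (nat_lit 53482) (nat_lit 27359),Row.mk (nat_lit 18312) (nat_lit 52360) (nat_lit 52) (nat_lit 52547) (nat_lit 256053) (nat_lit 52921) (nat_lit 42704),Row.mk (nat_lit 18480) (nat_lit 51799) (nat_lit 51) (nat_lit 51986) (nat_lit 306511) (nat_lit 52360) (nat_lit 66640),Row.mk (nat_lit 18648) (nat_lit 51238) (nat_lit 51) (nat_lit 51425) (nat_lit 362089) (nat_lit 51799)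 (nat_lit 103979),Row.mk (nat_lit 18816) (nat_lit 50677) (nat_lit 50) (nat_lit 50864) (nat_lit 419893) (nat_lit 51238) (nat_lit 162225),Row.mk (nat_lit 18984) (nat_lit 50116) (nat_lit 49) (nat_lit 50303) (nat_lit 473976) (nat_lit 50677) (nat_lit 253086),Row.mk (nat_lit 19152) (nat_lit 49555) (nat_lit 48) (nat_lit 49742) (nat_lit 513271) (nat_lit 50116) (nat_lit 394824),Row.mk (nat_lit 19320) (nat_lit 48994) (nat_lit 46) (nat_lit 49181) (nat_lit 518273) (nat_lit 49555) (nat_lit 615926),Row.mk (nat_lit 19488) (nat_lit 48433) (nat_lit 45) (nat_lit 48620) (nat_lit 455765) (nat_lit 48994) (nat_lit 960833),Row.mk (nat_lit 19656) (nat_lit 47685) (nat_lit 42) (nat_lit 47872) (nat_lit 270441) (nat_lit 48433) (nat_lit 1498867),Row.mk (nat_lit 19824) (nat_lit 47498) (nat_lit 39) (nat_lit 47685) (nat_lit 2107115) (nat_lit 48246) (nat_lit 102719),Row.mk (nat_lit 19992) (nat_lit 46563) (nat_lit 36) (nat_lit 46750) (nat_lit 2049577) (nat_lit 47498)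 (nat_lit 710463),Row.mk (nat_lit 20160) (nat_lit 45628) (nat_lit 31) (nat_lit 45815) (nat_lit 1651740) (nat_lit 46563) (nat_lit 1795495),Row.mk (nat_lit 20328) (nat_lit 44506) (nat_lit 26) (nat_lit 44693) (nat_lit 646350) (nat_lit 45628) (nat_lit 3659175),Row.mk (nat_lit 20496) (nat_lit 44319) (nat_lit 19) (nat_lit 44506) (nat_lit 4254533) (nat_lit 45441) (nat_lit 1122974),Row.mk (nat_lit 20664) (nat_lit 43010) (nat_lit 10) (nat_lit 43197) (nat_lit 2553742) (nat_lit 44319) (nat_lit 4162646),Row.mk (nat_lit 20832) (nat_lit 43010) (nat_lit 7495104) (nat_lit 44132) (nat_lit 893514) (nat_lit 0) (nat_lit 0),Row.mk (nat_lit 21000) (nat_lit 41327) (nat_lit 3983673) (nat_lit 42823) (nat_lit 6493495) (nat_lit 43010) (nat_lit 10),Row.mk (nat_lit 21168) (nat_lit 41140) (nat_lit 10353015) (nat_lit 42636) (nat_lit 2732701) (nat_lit 42823) (nat_lit 24),Row.mk (nat_lit 21336) (nat_lit 38896) (nat_lit 2453484) (nat_lit 40953) (nat_lit 13890247) (nat_lit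 41140) (nat_lit 41),Row.mk (nat_lit 21504) (nat_lit 38709) (nat_lit 9780718) (nat_lit 40766) (nat_lit 10632195) (nat_lit 40953) (nat_lit 62),Row.mk (nat_lit 21672) (nat_lit 38522) (nat_lit 18932257) (nat_lit 40579) (nat_lit 6562966) (nat_lit 40766) (nat_lit 88),Row.mk (nat_lit 21840) (nat_lit 38335) (nat_lit 30362308) (nat_lit 40392) (nat_lit 1480597) (nat_lit 40579) (nat_lit 121),Row.mk (nat_lit 22008) (nat_lit 31603) (nat_lit 6078760) (nat_lit 38148) (nat_lit 33692247) (nat_lit 38335) (nat_lit 162),Row.mk (nat_lit 22176) (nat_lit 31416) (nat_lit 15980819) (nat_lit 37961) (nat_lit 33692195) (nat_lit 38148) (nat_lit 213),Row.mk (nat_lit 22344) (nat_lit 31229) (nat_lit 28348252) (nat_lit 37774) (nat_lit 33692131) (nat_lit 37961) (nat_lit 277),Row.mk (nat_lit 22512) (nat_lit 31042) (nat_lit 43794878) (nat_lit 37587) (nat_lit 33692051) (nat_lit 37774) (nat_lit 357),Row.mk (nat_lit 22680) (nat_lit 30855) (nat_lit 63087341) (nat_lit 37400)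 (nat_lit 33691951) (nat_lit 37587) (nat_lit 457),Row.mk (nat_lit 22848) (nat_lit 30668) (nat_lit 87183161) (nat_lit 37213) (nat_lit 33691827) (nat_lit 37400) (nat_lit 582),Row.mk (nat_lit 23016) (nat_lit 30481) (nat_lit 117278260) (nat_lit 37026) (nat_lit 33691671) (nat_lit 37213) (nat_lit 738),Row.mk (nat_lit 23184) (nat_lit 30294) (nat_lit 154866312) (nat_lit 36839) (nat_lit 33691476) (nat_lit 37026) (nat_lit 932),Row.mk (nat_lit 23352) (nat_lit 30107) (nat_lit 201812883) (nat_lit 36652) (nat_lit 33691233) (nat_lit 36839) (nat_lit 1175),Row.mk (nat_lit 23520) (nat_lit 29920) (nat_lit 260448017) (nat_lit 36465) (nat_lit 33690930) (nat_lit 36652) (nat_lit 1479),Row.mk (nat_lit 23688) (nat_lit 29733) (nat_lit 333681884) (nat_lit 36278) (nat_lit 33690551) (nat_lit 36465) (nat_lit 1858),Row.mk (nat_lit 23856) (nat_lit 29546) (nat_lit 425149219) (nat_lit 36091) (nat_lit 33690077) (nat_lit 36278) (nat_lit 2331),Row.mk (nat_lit 24024) (nat_lit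 29359) (nat_lit 539389712) (nat_lit 35904) (nat_lit 33689486) (nat_lit 36091) (nat_lit 2923),Row.mk (nat_lit 24192) (nat_lit 29172) (nat_lit 682073333) (nat_lit 35717) (nat_lit 33688747) (nat_lit 35904) (nat_lit 3661),Row.mk (nat_lit 24360) (nat_lit 28985) (nat_lit 860281734) (nat_lit 35530) (nat_lit 33687825) (nat_lit 35717) (nat_lit 4584),Row.mk (nat_lit 24528) (nat_lit 28798) (nat_lit 1082859727) (nat_lit 35343) (nat_lit 33686673) (nat_lit 35530) (nat_lit 5736),Row.mk (nat_lit 24696) (nat_lit 28611) (nat_lit 1360854271) (nat_lit 35156) (nat_lit 33685233) (nat_lit 35343) (nat_lit 7175),Row.mk (nat_lit 24864) (nat_lit 28424) (nat_lit 1708062750) (nat_lit 34969) (nat_lit 33683436) (nat_lit 35156) (nat_lit 8972),Row.mk (nat_lit 25032) (nat_lit 28237) (nat_lit 2141717764) (nat_lit 34782) (nat_lit 33681191) (nat_lit 34969) (nat_lit 11217),Row.mk (nat_lit 25200) (nat_lit 28050) (nat_lit 2683342415) (nat_lit 34595) (nat_lit 33678387) (nat_lit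 34782) (nat_lit 14021)],
[Row.mk (nat_lit 12264) (nat_lit 32912) (nat_lit 113) (nat_lit 61710) (nat_lit 8388508) (nat_lit 0) (nat_lit 0),Row.mk (nat_lit 12432) (nat_lit 32912) (nat_lit 138) (nat_lit 61710) (nat_lit 8388483) (nat_lit 0) (nat_lit 0),Row.mk (nat_lit 12600) (nat_lit 32912) (nat_lit 169) (nat_lit 61710) (nat_lit 8388452) (nat_lit 0) (nat_lit 0),Row.mk (nat_lit 12768) (nat_lit 32912) (nat_lit 208) (nat_lit 61710) (nat_lit 8388413) (nat_lit 0) (nat_lit 0),Row.mk (nat_lit 12936) (nat_lit 32912) (nat_lit 256) (nat_lit 61710) (nat_lit 8388364) (nat_lit 0) (nat_lit 0),Row.mk (nat_lit 13104) (nat_lit 32912) (nat_lit 317) (nat_lit 61710) (nat_lit 8388304) (nat_lit 0) (nat_lit 0),Row.mk (nat_lit 13272) (nat_lit 32912) (nat_lit 392) (nat_lit 61710) (nat_lit 8388228) (nat_lit 0) (nat_lit 0),Row.mk (nat_lit 13440) (nat_lit 32912) (nat_lit 486) (nat_lit 61710) (nat_lit 8388134) (nat_lit 0) (nat_lit 0),Row.mk (nat_lit 13608) (nat_lit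 32912) (nat_lit 604) (nat_lit 61710) (nat_lit 8388016) (nat_lit 0) (nat_lit 0),Row.mk (nat_lit 13776) (nat_lit 32912) (nat_lit 752) (nat_lit 61710) (nat_lit 8387869) (nat_lit 0) (nat_lit 0),Row.mk (nat_lit 13944) (nat_lit 32912) (nat_lit 936) (nat_lit 61710) (nat_lit 8387685) (nat_lit 0) (nat_lit 0),Row.mk (nat_lit 14112) (nat_lit 32912) (nat_lit 1165) (nat_lit 61710) (nat_lit 8387455) (nat_lit 0) (nat_lit 0),Row.mk (nat_lit 14280) (nat_lit 32912) (nat_lit 1452) (nat_lit 61710) (nat_lit 8387168) (nat_lit 0) (nat_lit 0),Row.mk (nat_lit 14448) (nat_lit 32912) (nat_lit 1810) (nat_lit 61710) (nat_lit 8386810) (nat_lit 0) (nat_lit 0),Row.mk (nat_lit 14616) (nat_lit 32912) (nat_lit 2258) (nat_lit 61710) (nat_lit 8386363) (nat_lit 0) (nat_lit 0),Row.mk (nat_lit 14784) (nat_lit 32912) (nat_lit 2817) (nat_lit 61710) (nat_lit 8385804) (nat_lit 0) (nat_lit 0),Row.mk (nat_lit 14952) (nat_lit 32912) (nat_lit 3515) (nat_lit 61710) (nat_lit 8385106)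 (nat_lit 0) (nat_lit 0),Row.mk (nat_lit 15120) (nat_lit 32912) (nat_lit 4387) (nat_lit 61710) (nat_lit 8384234) (nat_lit 0) (nat_lit 0),Row.mk (nat_lit 15288) (nat_lit 32912) (nat_lit 5476) (nat_lit 61710) (nat_lit 8383145) (nat_lit 0) (nat_lit 0),Row.mk (nat_lit 15456) (nat_lit 32912) (nat_lit 6836) (nat_lit 61710) (nat_lit 8381785) (nat_lit 0) (nat_lit 0),Row.mk (nat_lit 15624) (nat_lit 60962) (nat_lit 24) (nat_lit 61336) (nat_lit 43) (nat_lit 61523) (nat_lit 8467),Row.mk (nat_lit 15792) (nat_lit 60775) (nat_lit 67) (nat_lit 60962) (nat_lit 10588) (nat_lit 0) (nat_lit 0),Row.mk (nat_lit 15960) (nat_lit 60214) (nat_lit 67) (nat_lit 60401) (nat_lit 13208) (nat_lit 60775) (nat_lit 30),Row.mk (nat_lit 16128) (nat_lit 59653) (nat_lit 67) (nat_lit 59840) (nat_lit 16470) (nat_lit 60214) (nat_lit 77),Row.mk (nat_lit 16296) (nat_lit 59092) (nat_lit 67) (nat_lit 59279) (nat_lit 20530) (nat_lit 59653) (nat_lit 151),Row.mk (nat_lit 16464) (nat_lit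 58531) (nat_lit 67) (nat_lit 58718) (nat_lit 25578) (nat_lit 59092) (nat_lit 266),Row.mk (nat_lit 16632) (nat_lit 57970) (nat_lit 67) (nat_lit 58157) (nat_lit 31846) (nat_lit 58531) (nat_lit 446),Row.mk (nat_lit 16800) (nat_lit 57409) (nat_lit 67) (nat_lit 57596) (nat_lit 39619) (nat_lit 57970) (nat_lit 727),Row.mk (nat_lit 16968) (nat_lit 56848) (nat_lit 67) (nat_lit 57035) (nat_lit 49241) (nat_lit 57409) (nat_lit 1164),Row.mk (nat_lit 17136) (nat_lit 56287) (nat_lit 67) (nat_lit 56474) (nat_lit 61122) (nat_lit 56848) (nat_lit 1847),Row.mk (nat_lit 17304) (nat_lit 55726) (nat_lit 67) (nat_lit 55913) (nat_lit 75748) (nat_lit 56287) (nat_lit 2912),Row.mk (nat_lit 17472) (nat_lit 55165) (nat_lit 66) (nat_lit 55352) (nat_lit 93685) (nat_lit 55726) (nat_lit 4573),Row.mk (nat_lit 17640) (nat_lit 54604) (nat_lit 66) (nat_lit 54791) (nat_lit 115571) (nat_lit 55165) (nat_lit 7164),Row.mk (nat_lit 17808) (nat_lit 54043) (nat_lit 66) (nat_lit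 54230) (nat_lit 142101) (nat_lit 54604) (nat_lit 11207),Row.mk (nat_lit 17976) (nat_lit 53482) (nat_lit 66) (nat_lit 53669) (nat_lit 173979) (nat_lit 54043) (nat_lit 17512),Row.mk (nat_lit 18144) (nat_lit 52921) (nat_lit 65) (nat_lit 53108) (nat_lit 211833) (nat_lit 53482) (nat_lit 27349),Row.mk (nat_lit 18312) (nat_lit 52360) (nat_lit 65) (nat_lit 52547) (nat_lit 256053) (nat_lit 52921) (nat_lit 42693),Row.mk (nat_lit 18480) (nat_lit 51799) (nat_lit 64) (nat_lit 51986) (nat_lit 306512) (nat_lit 52360) (nat_lit 66629),Row.mk (nat_lit 18648) (nat_lit 51238) (nat_lit 63) (nat_lit 51425) (nat_lit 362089) (nat_lit 51799) (nat_lit 103968),Row.mk (nat_lit 18816) (nat_lit 50677) (nat_lit 63) (nat_lit 50864) (nat_lit 419894) (nat_lit 51238) (nat_lit 162214),Row.mk (nat_lit 18984) (nat_lit 50116) (nat_lit 61) (nat_lit 50303) (nat_lit 473977) (nat_lit 50677) (nat_lit 253075),Row.mk (nat_lit 19152) (nat_lit 49555) (nat_lit 60) (nat_lit 49742)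 (nat_lit 513272) (nat_lit 50116) (nat_lit 394813),Row.mk (nat_lit 19320) (nat_lit 48994) (nat_lit 58) (nat_lit 49181) (nat_lit 518274) (nat_lit 49555) (nat_lit 615916),Row.mk (nat_lit 19488) (nat_lit 48433) (nat_lit 56) (nat_lit 48620) (nat_lit 455767) (nat_lit 48994) (nat_lit 960822),Row.mk (nat_lit 19656) (nat_lit 47685) (nat_lit 53) (nat_lit 47872) (nat_lit 270444) (nat_lit 48433) (nat_lit 1498857),Row.mk (nat_lit 19824) (nat_lit 47498) (nat_lit 49) (nat_lit 47685) (nat_lit 2107119) (nat_lit 48246) (nat_lit 102708),Row.mk (nat_lit 19992) (nat_lit 46563) (nat_lit 45) (nat_lit 46750) (nat_lit 2049582) (nat_lit 47498) (nat_lit 710452),Row.mk (nat_lit 20160) (nat_lit 45628) (nat_lit 39) (nat_lit 45815) (nat_lit 1651746) (nat_lit 46563) (nat_lit 1795484),Row.mk (nat_lit 20328) (nat_lit 44506) (nat_lit 32) (nat_lit 44693) (nat_lit 646357) (nat_lit 45628) (nat_lit 3659164),Row.mk (nat_lit 20496) (nat_lit 44319) (nat_lit 24) (nat_lit 44506)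 (nat_lit 4254542) (nat_lit 45441) (nat_lit 1122964),Row.mk (nat_lit 20664) (nat_lit 43010) (nat_lit 13) (nat_lit 43197) (nat_lit 2553753) (nat_lit 44319) (nat_lit 4162635),Row.mk (nat_lit 20832) (nat_lit 43010) (nat_lit 7495117) (nat_lit 44132) (nat_lit 893503) (nat_lit 0) (nat_lit 0),Row.mk (nat_lit 21000) (nat_lit 41327) (nat_lit 3983687) (nat_lit 42823) (nat_lit 6493481) (nat_lit 43010) (nat_lit 13),Row.mk (nat_lit 21168) (nat_lit 41140) (nat_lit 10353029) (nat_lit 42636) (nat_lit 2732685) (nat_lit 42823) (nat_lit 30),Row.mk (nat_lit 21336) (nat_lit 38896) (nat_lit 2453498) (nat_lit 40953) (nat_lit 13890226) (nat_lit 41140) (nat_lit 51),Row.mk (nat_lit 21504) (nat_lit 38709) (nat_lit 9780732) (nat_lit 40766) (nat_lit 10632169) (nat_lit 40953) (nat_lit 77),Row.mk (nat_lit 21672) (nat_lit 38522) (nat_lit 18932270) (nat_lit 40579) (nat_lit 6562933) (nat_lit 40766) (nat_lit 110),Row.mk (nat_lit 21840) (nat_lit 38335) (nat_lit 30362321)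 (nat_lit 40392) (nat_lit 1480556) (nat_lit 40579) (nat_lit 151),Row.mk (nat_lit 22008) (nat_lit 31603) (nat_lit 6078774) (nat_lit 38148) (nat_lit 33692195) (nat_lit 38335) (nat_lit 202),Row.mk (nat_lit 22176) (nat_lit 31416) (nat_lit 15980833) (nat_lit 37961) (nat_lit 33692131) (nat_lit 38148) (nat_lit 266),Row.mk (nat_lit 22344) (nat_lit 31229) (nat_lit 28348266) (nat_lit 37774) (nat_lit 33692051) (nat_lit 37961) (nat_lit 346),Row.mk (nat_lit 22512) (nat_lit 31042) (nat_lit 43794892) (nat_lit 37587) (nat_lit 33691951) (nat_lit 37774) (nat_lit 446),Row.mk (nat_lit 22680) (nat_lit 30855) (nat_lit 63087354) (nat_lit 37400) (nat_lit 33691827) (nat_lit 37587) (nat_lit 571),Row.mk (nat_lit 22848) (nat_lit 30668) (nat_lit 87183175) (nat_lit 37213) (nat_lit 33691671) (nat_lit 37400) (nat_lit 727),Row.mk (nat_lit 23016) (nat_lit 30481) (nat_lit 117278274) (nat_lit 37026) (nat_lit 33691476) (nat_lit 37213) (nat_lit 921),Row.mk (nat_lit 23184)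 (nat_lit 30294) (nat_lit 154866326) (nat_lit 36839) (nat_lit 33691233) (nat_lit 37026) (nat_lit 1164),Row.mk (nat_lit 23352) (nat_lit 30107) (nat_lit 201812896) (nat_lit 36652) (nat_lit 33690930) (nat_lit 36839) (nat_lit 1468),Row.mk (nat_lit 23520) (nat_lit 29920) (nat_lit 260448030) (nat_lit 36465) (nat_lit 33690551) (nat_lit 36652) (nat_lit 1847),Row.mk (nat_lit 23688) (nat_lit 29733) (nat_lit 333681898) (nat_lit 36278) (nat_lit 33690077) (nat_lit 36465) (nat_lit 2321),Row.mk (nat_lit 23856) (nat_lit 29546) (nat_lit 425149232) (nat_lit 36091) (nat_lit 33689486) (nat_lit 36278) (nat_lit 2912),Row.mk (nat_lit 24024) (nat_lit 29359) (nat_lit 539389726) (nat_lit 35904) (nat_lit 33688747) (nat_lit 36091) (nat_lit 3651),Row.mk (nat_lit 24192) (nat_lit 29172) (nat_lit 682073347) (nat_lit 35717) (nat_lit 33687825) (nat_lit 35904) (nat_lit 4573),Row.mk (nat_lit 24360) (nat_lit 28985) (nat_lit 860281747) (nat_lit 35530) (nat_lit 33686673)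 (nat_lit 35717) (nat_lit 5725),Row.mk (nat_lit 24528) (nat_lit 28798) (nat_lit 1082859740) (nat_lit 35343) (nat_lit 33685233) (nat_lit 35530) (nat_lit 7164),Row.mk (nat_lit 24696) (nat_lit 28611) (nat_lit 1360854284) (nat_lit 35156) (nat_lit 33683436) (nat_lit 35343) (nat_lit 8962),Row.mk (nat_lit 24864) (nat_lit 28424) (nat_lit 1708062763) (nat_lit 34969) (nat_lit 33681191) (nat_lit 35156) (nat_lit 11207),Row.mk (nat_lit 25032) (nat_lit 28237) (nat_lit 2141717777) (nat_lit 34782) (nat_lit 33678387) (nat_lit 34969) (nat_lit 14010),Row.mk (nat_lit 25200) (nat_lit 28050) (nat_lit 2683342429) (nat_lit 34595) (nat_lit 33674886) (nat_lit 34782) (nat_lit 17512),Row.mk (nat_lit 25368) (nat_lit 27863) (nat_lit 3359818552) (nat_lit 34408) (nat_lit 33670512) (nat_lit 34595) (nat_lit 21886)],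
[Row.mk (nat_lit 11424) (nat_lit 32912) (nat_lit 49) (nat_lit 61710) (nat_lit 8388575) (nat_lit 0) (nat_lit 0),Row.mk (nat_lit 11592) (nat_lit 32912) (nat_lit 57) (nat_lit 61710) (nat_lit 8388566) (nat_lit 0) (nat_lit 0),Row.mk (nat_lit 11760) (nat_lit 32912) (nat_lit 68) (nat_lit 61710) (nat_lit 8388556) (nat_lit 0) (nat_lit 0),Row.mk (nat_lit 11928) (nat_lit 32912) (nat_lit 80) (nat_lit 61710) (nat_lit 8388543) (nat_lit 0) (nat_lit 0),Row.mk (nat_lit 12096) (nat_lit 32912) (nat_lit 96) (nat_lit 61710) (nat_lit 8388528) (nat_lit 0) (nat_lit 0),Row.mk (nat_lit 12264) (nat_lit 32912) (nat_lit 116) (nat_lit 61710) (nat_lit 8388508) (nat_lit 0) (nat_lit 0),Row.mk (nat_lit 12432) (nat_lit 32912) (nat_lit 141) (nat_lit 61710) (nat_lit 8388483) (nat_lit 0) (nat_lit 0),Row.mk (nat_lit 12600) (nat_lit 32912) (nat_lit 172) (nat_lit 61710) (nat_lit 8388452) (nat_lit 0) (nat_lit 0),Row.mk (nat_lit 12768) (nat_lit 32912) (nat_lit 211) (nat_lit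 61710) (nat_lit 8388413) (nat_lit 0) (nat_lit 0),Row.mk (nat_lit 12936) (nat_lit 32912) (nat_lit 259) (nat_lit 61710) (nat_lit 8388364) (nat_lit 0) (nat_lit 0),Row.mk (nat_lit 13104) (nat_lit 32912) (nat_lit 320) (nat_lit 61710) (nat_lit 8388304) (nat_lit 0) (nat_lit 0),Row.mk (nat_lit 13272) (nat_lit 32912) (nat_lit 395) (nat_lit 61710) (nat_lit 8388228) (nat_lit 0) (nat_lit 0),Row.mk (nat_lit 13440) (nat_lit 32912) (nat_lit 490) (nat_lit 61710) (nat_lit 8388134) (nat_lit 0) (nat_lit 0),Row.mk (nat_lit 13608) (nat_lit 32912) (nat_lit 608) (nat_lit 61710) (nat_lit 8388016) (nat_lit 0) (nat_lit 0),Row.mk (nat_lit 13776) (nat_lit 32912) (nat_lit 755) (nat_lit 61710) (nat_lit 8387869) (nat_lit 0) (nat_lit 0),Row.mk (nat_lit 13944) (nat_lit 32912) (nat_lit 939) (nat_lit 61710) (nat_lit 8387685) (nat_lit 0) (nat_lit 0),Row.mk (nat_lit 14112) (nat_lit 32912) (nat_lit 1169) (nat_lit 61710) (nat_lit 8387455) (nat_lit 0) (nat_lit 0),Row.mk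 (nat_lit 14280) (nat_lit 32912) (nat_lit 1455) (nat_lit 61710) (nat_lit 8387168) (nat_lit 0) (nat_lit 0),Row.mk (nat_lit 14448) (nat_lit 32912) (nat_lit 1814) (nat_lit 61710) (nat_lit 8386810) (nat_lit 0) (nat_lit 0),Row.mk (nat_lit 14616) (nat_lit 32912) (nat_lit 2261) (nat_lit 61710) (nat_lit 8386363) (nat_lit 0) (nat_lit 0),Row.mk (nat_lit 14784) (nat_lit 32912) (nat_lit 2820) (nat_lit 61710) (nat_lit 8385804) (nat_lit 0) (nat_lit 0),Row.mk (nat_lit 14952) (nat_lit 32912) (nat_lit 3518) (nat_lit 61710) (nat_lit 8385106) (nat_lit 0) (nat_lit 0),Row.mk (nat_lit 15120) (nat_lit 32912) (nat_lit 4390) (nat_lit 61710) (nat_lit 8384234) (nat_lit 0) (nat_lit 0),Row.mk (nat_lit 15288) (nat_lit 32912) (nat_lit 5479) (nat_lit 61710) (nat_lit 8383145) (nat_lit 0) (nat_lit 0),Row.mk (nat_lit 15456) (nat_lit 32912) (nat_lit 6839) (nat_lit 61710) (nat_lit 8381785) (nat_lit 0) (nat_lit 0),Row.mk (nat_lit 15624) (nat_lit 60962) (nat_lit 41) (nat_lit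 61336) (nat_lit 43) (nat_lit 61523) (nat_lit 8453),Row.mk (nat_lit 15792) (nat_lit 60401) (nat_lit 16) (nat_lit 60775) (nat_lit 67) (nat_lit 60962) (nat_lit 10575),Row.mk (nat_lit 15960) (nat_lit 60214) (nat_lit 84) (nat_lit 60401) (nat_lit 13208) (nat_lit 60775) (nat_lit 16),Row.mk (nat_lit 16128) (nat_lit 59653) (nat_lit 84) (nat_lit 59840) (nat_lit 16470) (nat_lit 60214) (nat_lit 64),Row.mk (nat_lit 16296) (nat_lit 59092) (nat_lit 84) (nat_lit 59279) (nat_lit 20530) (nat_lit 59653) (nat_lit 138),Row.mk (nat_lit 16464) (nat_lit 58531) (nat_lit 84) (nat_lit 58718) (nat_lit 25578) (nat_lit 59092) (nat_lit 253),Row.mk (nat_lit 16632) (nat_lit 57970) (nat_lit 84) (nat_lit 58157) (nat_lit 31846) (nat_lit 58531) (nat_lit 433),Row.mk (nat_lit 16800) (nat_lit 57409) (nat_lit 84) (nat_lit 57596) (nat_lit 39619) (nat_lit 57970) (nat_lit 713),Row.mk (nat_lit 16968) (nat_lit 56848) (nat_lit 84) (nat_lit 57035) (nat_lit 49241) (nat_lit 57409)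 (nat_lit 1151),Row.mk (nat_lit 17136) (nat_lit 56287) (nat_lit 83) (nat_lit 56474) (nat_lit 61122) (nat_lit 56848) (nat_lit 1834),Row.mk (nat_lit 17304) (nat_lit 55726) (nat_lit 83) (nat_lit 55913) (nat_lit 75748) (nat_lit 56287) (nat_lit 2898),Row.mk (nat_lit 17472) (nat_lit 55165) (nat_lit 83) (nat_lit 55352) (nat_lit 93685) (nat_lit 55726) (nat_lit 4560),Row.mk (nat_lit 17640) (nat_lit 54604) (nat_lit 83) (nat_lit 54791) (nat_lit 115572) (nat_lit 55165) (nat_lit 7151),Row.mk (nat_lit 17808) (nat_lit 54043) (nat_lit 83) (nat_lit 54230) (nat_lit 142102) (nat_lit 54604) (nat_lit 11193),Row.mk (nat_lit 17976) (nat_lit 53482) (nat_lit 82) (nat_lit 53669) (nat_lit 173980) (nat_lit 54043) (nat_lit 17499),Row.mk (nat_lit 18144) (nat_lit 52921) (nat_lit 82) (nat_lit 53108) (nat_lit 211834) (nat_lit 53482) (nat_lit 27335),Row.mk (nat_lit 18312) (nat_lit 52360) (nat_lit 81) (nat_lit 52547) (nat_lit 256054) (nat_lit 52921) (nat_lit 42679),Row.mk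 (nat_lit 18480) (nat_lit 51799) (nat_lit 80) (nat_lit 51986) (nat_lit 306512) (nat_lit 52360) (nat_lit 66615),Row.mk (nat_lit 18648) (nat_lit 51238) (nat_lit 79) (nat_lit 51425) (nat_lit 362090) (nat_lit 51799) (nat_lit 103954),Row.mk (nat_lit 18816) (nat_lit 50677) (nat_lit 78) (nat_lit 50864) (nat_lit 419895) (nat_lit 51238) (nat_lit 162201),Row.mk (nat_lit 18984) (nat_lit 50116) (nat_lit 77) (nat_lit 50303) (nat_lit 473979) (nat_lit 50677) (nat_lit 253062),Row.mk (nat_lit 19152) (nat_lit 49555) (nat_lit 75) (nat_lit 49742) (nat_lit 513274) (nat_lit 50116) (nat_lit 394799),Row.mk (nat_lit 19320) (nat_lit 48994) (nat_lit 73) (nat_lit 49181) (nat_lit 518277) (nat_lit 49555) (nat_lit 615902),Row.mk (nat_lit 19488) (nat_lit 48433) (nat_lit 70) (nat_lit 48620) (nat_lit 455770) (nat_lit 48994) (nat_lit 960809),Row.mk (nat_lit 19656) (nat_lit 47685) (nat_lit 66) (nat_lit 47872) (nat_lit 270447) (nat_lit 48433) (nat_lit 1498843),Row.mk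 (nat_lit 19824) (nat_lit 47498) (nat_lit 62) (nat_lit 47685) (nat_lit 2107123) (nat_lit 48246) (nat_lit 102695),Row.mk (nat_lit 19992) (nat_lit 46563) (nat_lit 56) (nat_lit 46750) (nat_lit 2049587) (nat_lit 47498) (nat_lit 710439),Row.mk (nat_lit 20160) (nat_lit 45628) (nat_lit 49) (nat_lit 45815) (nat_lit 1651752) (nat_lit 46563) (nat_lit 1795471),Row.mk (nat_lit 20328) (nat_lit 44506) (nat_lit 41) (nat_lit 44693) (nat_lit 646366) (nat_lit 45628) (nat_lit 3659150),Row.mk (nat_lit 20496) (nat_lit 44319) (nat_lit 30) (nat_lit 44506) (nat_lit 4254553) (nat_lit 45441) (nat_lit 1122950),Row.mk (nat_lit 20664) (nat_lit 43010) (nat_lit 16) (nat_lit 43197) (nat_lit 2553766) (nat_lit 44319) (nat_lit 4162622),Row.mk (nat_lit 20832) (nat_lit 43010) (nat_lit 7495134) (nat_lit 44132) (nat_lit 893490) (nat_lit 0) (nat_lit 0),Row.mk (nat_lit 21000) (nat_lit 41327) (nat_lit 3983704) (nat_lit 42823) (nat_lit 6493465) (nat_lit 43010) (nat_lit 16),Row.mk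 (nat_lit 21168) (nat_lit 41140) (nat_lit 10353046) (nat_lit 42636) (nat_lit 2732664) (nat_lit 42823) (nat_lit 37),Row.mk (nat_lit 21336) (nat_lit 38896) (nat_lit 2453514) (nat_lit 40953) (nat_lit 13890200) (nat_lit 41140) (nat_lit 64),Row.mk (nat_lit 21504) (nat_lit 38709) (nat_lit 9780749) (nat_lit 40766) (nat_lit 10632136) (nat_lit 40953) (nat_lit 97),Row.mk (nat_lit 21672) (nat_lit 38522) (nat_lit 18932287) (nat_lit 40579) (nat_lit 6562892) (nat_lit 40766) (nat_lit 138),Row.mk (nat_lit 21840) (nat_lit 38335) (nat_lit 30362338) (nat_lit 40392) (nat_lit 1480505) (nat_lit 40579) (nat_lit 189),Row.mk (nat_lit 22008) (nat_lit 31603) (nat_lit 6078790) (nat_lit 38148) (nat_lit 33692131) (nat_lit 38335) (nat_lit 253),Row.mk (nat_lit 22176) (nat_lit 31416) (nat_lit 15980850) (nat_lit 37961) (nat_lit 33692051) (nat_lit 38148) (nat_lit 333),Row.mk (nat_lit 22344) (nat_lit 31229) (nat_lit 28348283) (nat_lit 37774) (nat_lit 33691951) (nat_lit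 37961) (nat_lit 433),Row.mk (nat_lit 22512) (nat_lit 31042) (nat_lit 43794908) (nat_lit 37587) (nat_lit 33691827) (nat_lit 37774) (nat_lit 557),Row.mk (nat_lit 22680) (nat_lit 30855) (nat_lit 63087371) (nat_lit 37400) (nat_lit 33691671) (nat_lit 37587) (nat_lit 713),Row.mk (nat_lit 22848) (nat_lit 30668) (nat_lit 87183192) (nat_lit 37213) (nat_lit 33691476) (nat_lit 37400) (nat_lit 908),Row.mk (nat_lit 23016) (nat_lit 30481) (nat_lit 117278290) (nat_lit 37026) (nat_lit 33691233) (nat_lit 37213) (nat_lit 1151),Row.mk (nat_lit 23184) (nat_lit 30294) (nat_lit 154866343) (nat_lit 36839) (nat_lit 33690930) (nat_lit 37026) (nat_lit 1454),Row.mk (nat_lit 23352) (nat_lit 30107) (nat_lit 201812913) (nat_lit 36652) (nat_lit 33690551) (nat_lit 36839) (nat_lit 1834),Row.mk (nat_lit 23520) (nat_lit 29920) (nat_lit 260448047) (nat_lit 36465) (nat_lit 33690077) (nat_lit 36652) (nat_lit 2307),Row.mk (nat_lit 23688) (nat_lit 29733) (nat_lit 333681915)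 (nat_lit 36278) (nat_lit 33689486) (nat_lit 36465) (nat_lit 2898),Row.mk (nat_lit 23856) (nat_lit 29546) (nat_lit 425149249) (nat_lit 36091) (nat_lit 33688747) (nat_lit 36278) (nat_lit 3637),Row.mk (nat_lit 24024) (nat_lit 29359) (nat_lit 539389743) (nat_lit 35904) (nat_lit 33687825) (nat_lit 36091) (nat_lit 4560),Row.mk (nat_lit 24192) (nat_lit 29172) (nat_lit 682073364) (nat_lit 35717) (nat_lit 33686673) (nat_lit 35904) (nat_lit 5712),Row.mk (nat_lit 24360) (nat_lit 28985) (nat_lit 860281764) (nat_lit 35530) (nat_lit 33685233) (nat_lit 35717) (nat_lit 7151),Row.mk (nat_lit 24528) (nat_lit 28798) (nat_lit 1082859757) (nat_lit 35343) (nat_lit 33683436) (nat_lit 35530) (nat_lit 8948),Row.mk (nat_lit 24696) (nat_lit 28611) (nat_lit 1360854301) (nat_lit 35156) (nat_lit 33681191) (nat_lit 35343) (nat_lit 11193),Row.mk (nat_lit 24864) (nat_lit 28424) (nat_lit 1708062780) (nat_lit 34969) (nat_lit 33678387) (nat_lit 35156) (nat_lit 13997),Row.mk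 (nat_lit 25032) (nat_lit 28237) (nat_lit 2141717794) (nat_lit 34782) (nat_lit 33674886) (nat_lit 34969) (nat_lit 17499),Row.mk (nat_lit 25200) (nat_lit 28050) (nat_lit 2683342446) (nat_lit 34595) (nat_lit 33670512) (nat_lit 34782) (nat_lit 21872),Row.mk (nat_lit 25368) (nat_lit 27863) (nat_lit 3359818569) (nat_lit 34408) (nat_lit 33665049) (nat_lit 34595) (nat_lit 27335)],
[Row.mk (nat_lit 11088) (nat_lit 32912) (nat_lit 42) (nat_lit 61710) (nat_lit 8388586) (nat_lit 0) (nat_lit 0),Row.mk (nat_lit 11256) (nat_lit 32912) (nat_lit 47) (nat_lit 61710) (nat_lit 8388581) (nat_lit 0) (nat_lit 0),Row.mk (nat_lit 11424) (nat_lit 32912) (nat_lit 53) (nat_lit 61710) (nat_lit 8388575) (nat_lit 0) (nat_lit 0),Row.mk (nat_lit 11592) (nat_lit 32912) (nat_lit 62) (nat_lit 61710) (nat_lit 8388566) (nat_lit 0) (nat_lit 0),Row.mk (nat_lit 11760) (nat_lit 32912) (nat_lit 72) (nat_lit 61710) (nat_lit 8388556) (nat_lit 0) (nat_lit 0),Row.mk (nat_lit 11928)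 (nat_lit 32912) (nat_lit 85) (nat_lit 61710) (nat_lit 8388543) (nat_lit 0) (nat_lit 0),Row.mk (nat_lit 12096) (nat_lit 32912) (nat_lit 101) (nat_lit 61710) (nat_lit 8388528) (nat_lit 0) (nat_lit 0),Row.mk (nat_lit 12264) (nat_lit 32912) (nat_lit 120) (nat_lit 61710) (nat_lit 8388508) (nat_lit 0) (nat_lit 0),Row.mk (nat_lit 12432) (nat_lit 32912) (nat_lit 145) (nat_lit 61710) (nat_lit 8388483) (nat_lit 0) (nat_lit 0),Row.mk (nat_lit 12600) (nat_lit 32912) (nat_lit 176) (nat_lit 61710) (nat_lit 8388452) (nat_lit 0) (nat_lit 0),Row.mk (nat_lit 12768) (nat_lit 32912) (nat_lit 215) (nat_lit 61710) (nat_lit 8388413) (nat_lit 0) (nat_lit 0),Row.mk (nat_lit 12936) (nat_lit 32912) (nat_lit 264) (nat_lit 61710) (nat_lit 8388364) (nat_lit 0) (nat_lit 0),Row.mk (nat_lit 13104) (nat_lit 32912) (nat_lit 324) (nat_lit 61710) (nat_lit 8388304) (nat_lit 0) (nat_lit 0),Row.mk (nat_lit 13272) (nat_lit 32912) (nat_lit 400) (nat_lit 61710) (nat_lit 8388228)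 (nat_lit 0) (nat_lit 0),Row.mk (nat_lit 13440) (nat_lit 32912) (nat_lit 494) (nat_lit 61710) (nat_lit 8388134) (nat_lit 0) (nat_lit 0),Row.mk (nat_lit 13608) (nat_lit 32912) (nat_lit 612) (nat_lit 61710) (nat_lit 8388016) (nat_lit 0) (nat_lit 0),Row.mk (nat_lit 13776) (nat_lit 32912) (nat_lit 759) (nat_lit 61710) (nat_lit 8387869) (nat_lit 0) (nat_lit 0),Row.mk (nat_lit 13944) (nat_lit 32912) (nat_lit 943) (nat_lit 61710) (nat_lit 8387685) (nat_lit 0) (nat_lit 0),Row.mk (nat_lit 14112) (nat_lit 32912) (nat_lit 1173) (nat_lit 61710) (nat_lit 8387455) (nat_lit 0) (nat_lit 0),Row.mk (nat_lit 14280) (nat_lit 32912) (nat_lit 1460) (nat_lit 61710) (nat_lit 8387168) (nat_lit 0) (nat_lit 0),Row.mk (nat_lit 14448) (nat_lit 32912) (nat_lit 1818) (nat_lit 61710) (nat_lit 8386810) (nat_lit 0) (nat_lit 0),Row.mk (nat_lit 14616) (nat_lit 32912) (nat_lit 2265) (nat_lit 61710) (nat_lit 8386363) (nat_lit 0) (nat_lit 0),Row.mk (nat_lit 14784) (nat_lit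 32912) (nat_lit 2824) (nat_lit 61710) (nat_lit 8385804) (nat_lit 0) (nat_lit 0),Row.mk (nat_lit 14952) (nat_lit 32912) (nat_lit 3522) (nat_lit 61710) (nat_lit 8385106) (nat_lit 0) (nat_lit 0),Row.mk (nat_lit 15120) (nat_lit 32912) (nat_lit 4394) (nat_lit 61710) (nat_lit 8384234) (nat_lit 0) (nat_lit 0),Row.mk (nat_lit 15288) (nat_lit 32912) (nat_lit 5483) (nat_lit 61710) (nat_lit 8383145) (nat_lit 0) (nat_lit 0),Row.mk (nat_lit 15456) (nat_lit 32912) (nat_lit 6843) (nat_lit 61710) (nat_lit 8381785) (nat_lit 0) (nat_lit 0),Row.mk (nat_lit 15624) (nat_lit 60962) (nat_lit 62) (nat_lit 61336) (nat_lit 43) (nat_lit 61523) (nat_lit 8436),Row.mk (nat_lit 15792) (nat_lit 60401) (nat_lit 37) (nat_lit 60775) (nat_lit 67) (nat_lit 60962) (nat_lit 10558),Row.mk (nat_lit 15960) (nat_lit 60214) (nat_lit 105) (nat_lit 60401) (nat_lit 13208) (nat_lit 0) (nat_lit 0),Row.mk (nat_lit 16128) (nat_lit 59653) (nat_lit 105) (nat_lit 59840) (nat_lit 16470)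 (nat_lit 60214) (nat_lit 47),Row.mk (nat_lit 16296) (nat_lit 59092) (nat_lit 105) (nat_lit 59279) (nat_lit 20530) (nat_lit 59653) (nat_lit 121),Row.mk (nat_lit 16464) (nat_lit 58531) (nat_lit 105) (nat_lit 58718) (nat_lit 25578) (nat_lit 59092) (nat_lit 236),Row.mk (nat_lit 16632) (nat_lit 57970) (nat_lit 105) (nat_lit 58157) (nat_lit 31846) (nat_lit 58531) (nat_lit 416),Row.mk (nat_lit 16800) (nat_lit 57409) (nat_lit 105) (nat_lit 57596) (nat_lit 39620) (nat_lit 57970) (nat_lit 696),Row.mk (nat_lit 16968) (nat_lit 56848) (nat_lit 105) (nat_lit 57035) (nat_lit 49241) (nat_lit 57409) (nat_lit 1134),Row.mk (nat_lit 17136) (nat_lit 56287) (nat_lit 104) (nat_lit 56474) (nat_lit 61122) (nat_lit 56848) (nat_lit 1817),Row.mk (nat_lit 17304) (nat_lit 55726) (nat_lit 104) (nat_lit 55913) (nat_lit 75748) (nat_lit 56287) (nat_lit 2882),Row.mk (nat_lit 17472) (nat_lit 55165) (nat_lit 104) (nat_lit 55352) (nat_lit 93686) (nat_lit 55726) (nat_lit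 4543),Row.mk (nat_lit 17640) (nat_lit 54604) (nat_lit 104) (nat_lit 54791) (nat_lit 115572) (nat_lit 55165) (nat_lit 7134),Row.mk (nat_lit 17808) (nat_lit 54043) (nat_lit 103) (nat_lit 54230) (nat_lit 142102) (nat_lit 54604) (nat_lit 11176),Row.mk (nat_lit 17976) (nat_lit 53482) (nat_lit 103) (nat_lit 53669) (nat_lit 173980) (nat_lit 54043) (nat_lit 17482),Row.mk (nat_lit 18144) (nat_lit 52921) (nat_lit 102) (nat_lit 53108) (nat_lit 211834) (nat_lit 53482) (nat_lit 27318),Row.mk (nat_lit 18312) (nat_lit 52360) (nat_lit 101) (nat_lit 52547) (nat_lit 256055) (nat_lit 52921) (nat_lit 42662),Row.mk (nat_lit 18480) (nat_lit 51799) (nat_lit 100) (nat_lit 51986) (nat_lit 306513) (nat_lit 52360) (nat_lit 66599),Row.mk (nat_lit 18648) (nat_lit 51238) (nat_lit 99) (nat_lit 51425) (nat_lit 362092) (nat_lit 51799) (nat_lit 103937),Row.mk (nat_lit 18816) (nat_lit 50677) (nat_lit 98) (nat_lit 50864) (nat_lit 419896) (nat_lit 51238) (nat_lit 162184),Row.mk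 (nat_lit 18984) (nat_lit 50116) (nat_lit 96) (nat_lit 50303) (nat_lit 473981) (nat_lit 50677) (nat_lit 253045),Row.mk (nat_lit 19152) (nat_lit 49555) (nat_lit 94) (nat_lit 49742) (nat_lit 513276) (nat_lit 50116) (nat_lit 394783),Row.mk (nat_lit 19320) (nat_lit 48994) (nat_lit 91) (nat_lit 49181) (nat_lit 518280) (nat_lit 49555) (nat_lit 615885),Row.mk (nat_lit 19488) (nat_lit 48433) (nat_lit 87) (nat_lit 48620) (nat_lit 455774) (nat_lit 48994) (nat_lit 960792),Row.mk (nat_lit 19656) (nat_lit 47685) (nat_lit 83) (nat_lit 47872) (nat_lit 270452) (nat_lit 48433) (nat_lit 1498826),Row.mk (nat_lit 19824) (nat_lit 47498) (nat_lit 77) (nat_lit 47685) (nat_lit 2107129) (nat_lit 48246) (nat_lit 102678),Row.mk (nat_lit 19992) (nat_lit 46563) (nat_lit 70) (nat_lit 46750) (nat_lit 2049594) (nat_lit 47498) (nat_lit 710422),Row.mk (nat_lit 20160) (nat_lit 45628) (nat_lit 62) (nat_lit 45815) (nat_lit 1651761) (nat_lit 46563) (nat_lit 1795454),Row.mk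 (nat_lit 20328) (nat_lit 44506) (nat_lit 51) (nat_lit 44693) (nat_lit 646376) (nat_lit 45628) (nat_lit 3659133),Row.mk (nat_lit 20496) (nat_lit 44319) (nat_lit 37) (nat_lit 44506) (nat_lit 4254566) (nat_lit 45441) (nat_lit 1122933),Row.mk (nat_lit 20664) (nat_lit 43010) (nat_lit 21) (nat_lit 43197) (nat_lit 2553783) (nat_lit 44319) (nat_lit 4162605),Row.mk (nat_lit 20832) (nat_lit 43010) (nat_lit 7495155) (nat_lit 44132) (nat_lit 893473) (nat_lit 0) (nat_lit 0),Row.mk (nat_lit 21000) (nat_lit 41327) (nat_lit 3983725) (nat_lit 42823) (nat_lit 6493443) (nat_lit 43010) (nat_lit 21),Row.mk (nat_lit 21168) (nat_lit 41140) (nat_lit 10353067) (nat_lit 42636) (nat_lit 2732637) (nat_lit 42823) (nat_lit 47),Row.mk (nat_lit 21336) (nat_lit 38896) (nat_lit 2453535) (nat_lit 40953) (nat_lit 13890167) (nat_lit 41140) (nat_lit 80),Row.mk (nat_lit 21504) (nat_lit 38709) (nat_lit 9780770) (nat_lit 40766) (nat_lit 10632095) (nat_lit 40953) (nat_lit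 121),Row.mk (nat_lit 21672) (nat_lit 38522) (nat_lit 18932308) (nat_lit 40579) (nat_lit 6562841) (nat_lit 40766) (nat_lit 172),Row.mk (nat_lit 21840) (nat_lit 38335) (nat_lit 30362359) (nat_lit 40392) (nat_lit 1480441) (nat_lit 40579) (nat_lit 236),Row.mk (nat_lit 22008) (nat_lit 31603) (nat_lit 6078812) (nat_lit 38148) (nat_lit 33692051) (nat_lit 38335) (nat_lit 316),Row.mk (nat_lit 22176) (nat_lit 31416) (nat_lit 15980871) (nat_lit 37961) (nat_lit 33691951) (nat_lit 38148) (nat_lit 416),Row.mk (nat_lit 22344) (nat_lit 31229) (nat_lit 28348304) (nat_lit 37774) (nat_lit 33691827) (nat_lit 37961) (nat_lit 541),Row.mk (nat_lit 22512) (nat_lit 31042) (nat_lit 43794930) (nat_lit 37587) (nat_lit 33691671) (nat_lit 37774) (nat_lit 696),Row.mk (nat_lit 22680) (nat_lit 30855) (nat_lit 63087392) (nat_lit 37400) (nat_lit 33691476) (nat_lit 37587) (nat_lit 891),Row.mk (nat_lit 22848) (nat_lit 30668) (nat_lit 87183213) (nat_lit 37213) (nat_lit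 33691233) (nat_lit 37400) (nat_lit 1134),Row.mk (nat_lit 23016) (nat_lit 30481) (nat_lit 117278312) (nat_lit 37026) (nat_lit 33690930) (nat_lit 37213) (nat_lit 1438),Row.mk (nat_lit 23184) (nat_lit 30294) (nat_lit 154866364) (nat_lit 36839) (nat_lit 33690551) (nat_lit 37026) (nat_lit 1817),Row.mk (nat_lit 23352) (nat_lit 30107) (nat_lit 201812934) (nat_lit 36652) (nat_lit 33690077) (nat_lit 36839) (nat_lit 2290),Row.mk (nat_lit 23520) (nat_lit 29920) (nat_lit 260448068) (nat_lit 36465) (nat_lit 33689486) (nat_lit 36652) (nat_lit 2882),Row.mk (nat_lit 23688) (nat_lit 29733) (nat_lit 333681936) (nat_lit 36278) (nat_lit 33688747) (nat_lit 36465) (nat_lit 3620),Row.mk (nat_lit 23856) (nat_lit 29546) (nat_lit 425149270) (nat_lit 36091) (nat_lit 33687825) (nat_lit 36278) (nat_lit 4543),Row.mk (nat_lit 24024) (nat_lit 29359) (nat_lit 539389764) (nat_lit 35904) (nat_lit 33686673) (nat_lit 36091) (nat_lit 5695),Row.mk (nat_lit 24192) (nat_lit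 29172) (nat_lit 682073385) (nat_lit 35717) (nat_lit 33685233) (nat_lit 35904) (nat_lit 7134),Row.mk (nat_lit 24360) (nat_lit 28985) (nat_lit 860281785) (nat_lit 35530) (nat_lit 33683436) (nat_lit 35717) (nat_lit 8931),Row.mk (nat_lit 24528) (nat_lit 28798) (nat_lit 1082859778) (nat_lit 35343) (nat_lit 33681191) (nat_lit 35530) (nat_lit 11176),Row.mk (nat_lit 24696) (nat_lit 28611) (nat_lit 1360854322) (nat_lit 35156) (nat_lit 33678387) (nat_lit 35343) (nat_lit 13980),Row.mk (nat_lit 24864) (nat_lit 28424) (nat_lit 1708062801) (nat_lit 34969) (nat_lit 33674886) (nat_lit 35156) (nat_lit 17482),Row.mk (nat_lit 25032) (nat_lit 28237) (nat_lit 2141717815) (nat_lit 34782) (nat_lit 33670512) (nat_lit 34969) (nat_lit 21856),Row.mk (nat_lit 25200) (nat_lit 28050) (nat_lit 2683342467) (nat_lit 34595) (nat_lit 33665049) (nat_lit 34782) (nat_lit 27318),Row.mk (nat_lit 25368) (nat_lit 27863) (nat_lit 3359818590) (nat_lit 34408) (nat_lit 33658226)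 (nat_lit 34595) (nat_lit 34141),Row.mk (nat_lit 25536) (nat_lit 27676) (nat_lit 4204720949) (nat_lit 34221) (nat_lit 33649705) (nat_lit 34408) (nat_lit 42662)],
[Row.mk (nat_lit 11088) (nat_lit 32912) (nat_lit 47) (nat_lit 61710) (nat_lit 8388581) (nat_lit 0) (nat_lit 0),Row.mk (nat_lit 11256) (nat_lit 32912) (nat_lit 52) (nat_lit 61710) (nat_lit 8388581) (nat_lit 0) (nat_lit 0),Row.mk (nat_lit 11424) (nat_lit 32912) (nat_lit 59) (nat_lit 61710) (nat_lit 8388575) (nat_lit 0) (nat_lit 0),Row.mk (nat_lit 11592) (nat_lit 32912) (nat_lit 67) (nat_lit 61710) (nat_lit 8388566) (nat_lit 0) (nat_lit 0),Row.mk (nat_lit 11760) (nat_lit 32912) (nat_lit 77) (nat_lit 61710) (nat_lit 8388556) (nat_lit 0) (nat_lit 0),Row.mk (nat_lit 11928) (nat_lit 32912) (nat_lit 90) (nat_lit 61710) (nat_lit 8388543) (nat_lit 0) (nat_lit 0),Row.mk (nat_lit 12096) (nat_lit 32912) (nat_lit 106) (nat_lit 61710) (nat_lit 8388528) (nat_lit 0) (nat_lit 0),Row.mk (nat_lit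 12264) (nat_lit 32912) (nat_lit 126) (nat_lit 61710) (nat_lit 8388508) (nat_lit 0) (nat_lit 0),Row.mk (nat_lit 12432) (nat_lit 32912) (nat_lit 151) (nat_lit 61710) (nat_lit 8388483) (nat_lit 0) (nat_lit 0),Row.mk (nat_lit 12600) (nat_lit 32912) (nat_lit 182) (nat_lit 61710) (nat_lit 8388452) (nat_lit 0) (nat_lit 0),Row.mk (nat_lit 12768) (nat_lit 32912) (nat_lit 220) (nat_lit 61710) (nat_lit 8388413) (nat_lit 0) (nat_lit 0),Row.mk (nat_lit 12936) (nat_lit 32912) (nat_lit 269) (nat_lit 61710) (nat_lit 8388364) (nat_lit 0) (nat_lit 0),Row.mk (nat_lit 13104) (nat_lit 32912) (nat_lit 329) (nat_lit 61710) (nat_lit 8388304) (nat_lit 0) (nat_lit 0),Row.mk (nat_lit 13272) (nat_lit 32912) (nat_lit 405) (nat_lit 61710) (nat_lit 8388228) (nat_lit 0) (nat_lit 0),Row.mk (nat_lit 13440) (nat_lit 32912) (nat_lit 499) (nat_lit 61710) (nat_lit 8388134) (nat_lit 0) (nat_lit 0),Row.mk (nat_lit 13608) (nat_lit 32912) (nat_lit 617) (nat_lit 61710) (nat_lit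 8388016) (nat_lit 0) (nat_lit 0),Row.mk (nat_lit 13776) (nat_lit 32912) (nat_lit 764) (nat_lit 61710) (nat_lit 8387869) (nat_lit 0) (nat_lit 0),Row.mk (nat_lit 13944) (nat_lit 32912) (nat_lit 948) (nat_lit 61710) (nat_lit 8387685) (nat_lit 0) (nat_lit 0),Row.mk (nat_lit 14112) (nat_lit 32912) (nat_lit 1178) (nat_lit 61710) (nat_lit 8387455) (nat_lit 0) (nat_lit 0),Row.mk (nat_lit 14280) (nat_lit 32912) (nat_lit 1465) (nat_lit 61710) (nat_lit 8387168) (nat_lit 0) (nat_lit 0),Row.mk (nat_lit 14448) (nat_lit 32912) (nat_lit 1823) (nat_lit 61710) (nat_lit 8386810) (nat_lit 0) (nat_lit 0),Row.mk (nat_lit 14616) (nat_lit 32912) (nat_lit 2271) (nat_lit 61710) (nat_lit 8386363) (nat_lit 0) (nat_lit 0),Row.mk (nat_lit 14784) (nat_lit 32912) (nat_lit 2830) (nat_lit 61710) (nat_lit 8385804) (nat_lit 0) (nat_lit 0),Row.mk (nat_lit 14952) (nat_lit 32912) (nat_lit 3528) (nat_lit 61710) (nat_lit 8385106) (nat_lit 0) (nat_lit 0),Row.mk (nat_lit 15120)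 (nat_lit 32912) (nat_lit 4400) (nat_lit 61710) (nat_lit 8384234) (nat_lit 0) (nat_lit 0),Row.mk (nat_lit 15288) (nat_lit 32912) (nat_lit 5488) (nat_lit 61710) (nat_lit 8383145) (nat_lit 0) (nat_lit 0),Row.mk (nat_lit 15456) (nat_lit 32912) (nat_lit 6849) (nat_lit 61710) (nat_lit 8381785) (nat_lit 0) (nat_lit 0),Row.mk (nat_lit 15624) (nat_lit 60962) (nat_lit 88) (nat_lit 61336) (nat_lit 43) (nat_lit 61523) (nat_lit 8415),Row.mk (nat_lit 15792) (nat_lit 60401) (nat_lit 64) (nat_lit 60775) (nat_lit 67) (nat_lit 60962) (nat_lit 10537),Row.mk (nat_lit 15960) (nat_lit 59840) (nat_lit 26) (nat_lit 60214) (nat_lit 105) (nat_lit 60401) (nat_lit 13187),Row.mk (nat_lit 16128) (nat_lit 59653) (nat_lit 131) (nat_lit 59840) (nat_lit 16470) (nat_lit 60214) (nat_lit 26),Row.mk (nat_lit 16296) (nat_lit 59092) (nat_lit 131) (nat_lit 59279) (nat_lit 20530) (nat_lit 59653) (nat_lit 100),Row.mk (nat_lit 16464) (nat_lit 58531) (nat_lit 131) (nat_lit 58718)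 (nat_lit 25578) (nat_lit 59092) (nat_lit 215),Row.mk (nat_lit 16632) (nat_lit 57970) (nat_lit 131) (nat_lit 58157) (nat_lit 31846) (nat_lit 58531) (nat_lit 395),Row.mk (nat_lit 16800) (nat_lit 57409) (nat_lit 131) (nat_lit 57596) (nat_lit 39620) (nat_lit 57970) (nat_lit 675),Row.mk (nat_lit 16968) (nat_lit 56848) (nat_lit 131) (nat_lit 57035) (nat_lit 49241) (nat_lit 57409) (nat_lit 1113),Row.mk (nat_lit 17136) (nat_lit 56287) (nat_lit 130) (nat_lit 56474) (nat_lit 61122) (nat_lit 56848) (nat_lit 1796),Row.mk (nat_lit 17304) (nat_lit 55726) (nat_lit 130) (nat_lit 55913) (nat_lit 75749) (nat_lit 56287) (nat_lit 2860),Row.mk (nat_lit 17472) (nat_lit 55165) (nat_lit 130) (nat_lit 55352) (nat_lit 93686) (nat_lit 55726) (nat_lit 4522),Row.mk (nat_lit 17640) (nat_lit 54604) (nat_lit 130) (nat_lit 54791) (nat_lit 115572) (nat_lit 55165) (nat_lit 7113),Row.mk (nat_lit 17808) (nat_lit 54043) (nat_lit 129) (nat_lit 54230) (nat_lit 142102) (nat_lit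 54604) (nat_lit 11155),Row.mk (nat_lit 17976) (nat_lit 53482) (nat_lit 128) (nat_lit 53669) (nat_lit 173981) (nat_lit 54043) (nat_lit 17461),Row.mk (nat_lit 18144) (nat_lit 52921) (nat_lit 128) (nat_lit 53108) (nat_lit 211835) (nat_lit 53482) (nat_lit 27297),Row.mk (nat_lit 18312) (nat_lit 52360) (nat_lit 127) (nat_lit 52547) (nat_lit 256056) (nat_lit 52921) (nat_lit 42641),Row.mk (nat_lit 18480) (nat_lit 51799) (nat_lit 126) (nat_lit 51986) (nat_lit 306514) (nat_lit 52360) (nat_lit 66577),Row.mk (nat_lit 18648) (nat_lit 51238) (nat_lit 124) (nat_lit 51425) (nat_lit 362093) (nat_lit 51799) (nat_lit 103916),Row.mk (nat_lit 18816) (nat_lit 50677) (nat_lit 122) (nat_lit 50864) (nat_lit 419898) (nat_lit 51238) (nat_lit 162163),Row.mk (nat_lit 18984) (nat_lit 50116) (nat_lit 120) (nat_lit 50303) (nat_lit 473983) (nat_lit 50677) (nat_lit 253024),Row.mk (nat_lit 19152) (nat_lit 49555) (nat_lit 117) (nat_lit 49742) (nat_lit 513279) (nat_lit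 50116) (nat_lit 394762),Row.mk (nat_lit 19320) (nat_lit 48994) (nat_lit 114) (nat_lit 49181) (nat_lit 518283) (nat_lit 49555) (nat_lit 615864),Row.mk (nat_lit 19488) (nat_lit 48433) (nat_lit 109) (nat_lit 48620) (nat_lit 455778) (nat_lit 48994) (nat_lit 960771),Row.mk (nat_lit 19656) (nat_lit 47685) (nat_lit 104) (nat_lit 47872) (nat_lit 270457) (nat_lit 48433) (nat_lit 1498805),Row.mk (nat_lit 19824) (nat_lit 47498) (nat_lit 97) (nat_lit 47685) (nat_lit 2107136) (nat_lit 48246) (nat_lit 102657),Row.mk (nat_lit 19992) (nat_lit 46563) (nat_lit 88) (nat_lit 46750) (nat_lit 2049603) (nat_lit 47498) (nat_lit 710401),Row.mk (nat_lit 20160) (nat_lit 45628) (nat_lit 77) (nat_lit 45815) (nat_lit 1651772) (nat_lit 46563) (nat_lit 1795433),Row.mk (nat_lit 20328) (nat_lit 44506) (nat_lit 64) (nat_lit 44693) (nat_lit 646390) (nat_lit 45628) (nat_lit 3659112),Row.mk (nat_lit 20496) (nat_lit 44319) (nat_lit 47) (nat_lit 44506) (nat_lit 4254583)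 (nat_lit 45441) (nat_lit 1122912),Row.mk (nat_lit 20664) (nat_lit 43010) (nat_lit 26) (nat_lit 43197) (nat_lit 2553804) (nat_lit 44319) (nat_lit 4162584),Row.mk (nat_lit 20832) (nat_lit 43010) (nat_lit 7495181) (nat_lit 44132) (nat_lit 893452) (nat_lit 0) (nat_lit 0),Row.mk (nat_lit 21000) (nat_lit 41327) (nat_lit 3983751) (nat_lit 42823) (nat_lit 6493417) (nat_lit 43010) (nat_lit 26),Row.mk (nat_lit 21168) (nat_lit 41140) (nat_lit 10353093) (nat_lit 42636) (nat_lit 2732604) (nat_lit 42823) (nat_lit 59),Row.mk (nat_lit 21336) (nat_lit 38896) (nat_lit 2453562) (nat_lit 40953) (nat_lit 13890126) (nat_lit 41140) (nat_lit 100),Row.mk (nat_lit 21504) (nat_lit 38709) (nat_lit 9780796) (nat_lit 40766) (nat_lit 10632043) (nat_lit 40953) (nat_lit 151),Row.mk (nat_lit 21672) (nat_lit 38522) (nat_lit 18932335) (nat_lit 40579) (nat_lit 6562777) (nat_lit 40766) (nat_lit 215),Row.mk (nat_lit 21840) (nat_lit 38335) (nat_lit 30362385) (nat_lit 40392)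 (nat_lit 1480361) (nat_lit 40579) (nat_lit 295),Row.mk (nat_lit 22008) (nat_lit 31603) (nat_lit 6078838) (nat_lit 38148) (nat_lit 33691951) (nat_lit 38335) (nat_lit 395),Row.mk (nat_lit 22176) (nat_lit 31416) (nat_lit 15980897) (nat_lit 37961) (nat_lit 33691827) (nat_lit 38148) (nat_lit 520),Row.mk (nat_lit 22344) (nat_lit 31229) (nat_lit 28348330) (nat_lit 37774) (nat_lit 33691671) (nat_lit 37961) (nat_lit 675),Row.mk (nat_lit 22512) (nat_lit 31042) (nat_lit 43794956) (nat_lit 37587) (nat_lit 33691476) (nat_lit 37774) (nat_lit 870),Row.mk (nat_lit 22680) (nat_lit 30855) (nat_lit 63087419) (nat_lit 37400) (nat_lit 33691233) (nat_lit 37587) (nat_lit 1113),Row.mk (nat_lit 22848) (nat_lit 30668) (nat_lit 87183239) (nat_lit 37213) (nat_lit 33690930) (nat_lit 37400) (nat_lit 1416),Row.mk (nat_lit 23016) (nat_lit 30481) (nat_lit 117278338) (nat_lit 37026) (nat_lit 33690551) (nat_lit 37213) (nat_lit 1796),Row.mk (nat_lit 23184) (nat_lit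 30294) (nat_lit 154866390) (nat_lit 36839) (nat_lit 33690077) (nat_lit 37026) (nat_lit 2269),Row.mk (nat_lit 23352) (nat_lit 30107) (nat_lit 201812960) (nat_lit 36652) (nat_lit 33689486) (nat_lit 36839) (nat_lit 2860),Row.mk (nat_lit 23520) (nat_lit 29920) (nat_lit 260448094) (nat_lit 36465) (nat_lit 33688747) (nat_lit 36652) (nat_lit 3599),Row.mk (nat_lit 23688) (nat_lit 29733) (nat_lit 333681962) (nat_lit 36278) (nat_lit 33687825) (nat_lit 36465) (nat_lit 4522),Row.mk (nat_lit 23856) (nat_lit 29546) (nat_lit 425149296) (nat_lit 36091) (nat_lit 33686673) (nat_lit 36278) (nat_lit 5674),Row.mk (nat_lit 24024) (nat_lit 29359) (nat_lit 539389790) (nat_lit 35904) (nat_lit 33685233) (nat_lit 36091) (nat_lit 7113),Row.mk (nat_lit 24192) (nat_lit 29172) (nat_lit 682073411) (nat_lit 35717) (nat_lit 33683436) (nat_lit 35904) (nat_lit 8910),Row.mk (nat_lit 24360) (nat_lit 28985) (nat_lit 860281811) (nat_lit 35530) (nat_lit 33681191) (nat_lit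 35717) (nat_lit 11155),Row.mk (nat_lit 24528) (nat_lit 28798) (nat_lit 1082859804) (nat_lit 35343) (nat_lit 33678387) (nat_lit 35530) (nat_lit 13959),Row.mk (nat_lit 24696) (nat_lit 28611) (nat_lit 1360854348) (nat_lit 35156) (nat_lit 33674886) (nat_lit 35343) (nat_lit 17461),Row.mk (nat_lit 24864) (nat_lit 28424) (nat_lit 1708062827) (nat_lit 34969) (nat_lit 33670512) (nat_lit 35156) (nat_lit 21834),Row.mk (nat_lit 25032) (nat_lit 28237) (nat_lit 2141717842) (nat_lit 34782) (nat_lit 33665049) (nat_lit 34969) (nat_lit 27297),Row.mk (nat_lit 25200) (nat_lit 28050) (nat_lit 2683342493) (nat_lit 34595) (nat_lit 33658226) (nat_lit 34782) (nat_lit 34120),Row.mk (nat_lit 25368) (nat_lit 27863) (nat_lit 3359818617) (nat_lit 34408) (nat_lit 33649705) (nat_lit 34595) (nat_lit 42641),Row.mk (nat_lit 25536) (nat_lit 27676) (nat_lit 4204720976) (nat_lit 34221) (nat_lit 33639062) (nat_lit 34408) (nat_lit 53284),Row.mk (nat_lit 25704) (nat_lit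 27489) (nat_lit 5259983640) (nat_lit 34034) (nat_lit 33625769) (nat_lit 34221) (nat_lit 66577)],
[Row.mk (nat_lit 10920) (nat_lit 32912) (nat_lit 49) (nat_lit 61710) (nat_lit 8388575) (nat_lit 0) (nat_lit 0),Row.mk (nat_lit 11088) (nat_lit 32912) (nat_lit 53) (nat_lit 61710) (nat_lit 8388575) (nat_lit 0) (nat_lit 0),Row.mk (nat_lit 11256) (nat_lit 32912) (nat_lit 59) (nat_lit 61710) (nat_lit 8388575) (nat_lit 0) (nat_lit 0),Row.mk (nat_lit 11424) (nat_lit 32912) (nat_lit 65) (nat_lit 61710) (nat_lit 8388575) (nat_lit 0) (nat_lit 0),Row.mk (nat_lit 11592) (nat_lit 32912) (nat_lit 73) (nat_lit 61710) (nat_lit 8388566) (nat_lit 0) (nat_lit 0),Row.mk (nat_lit 11760) (nat_lit 32912) (nat_lit 84) (nat_lit 61710) (nat_lit 8388556) (nat_lit 0) (nat_lit 0),Row.mk (nat_lit 11928) (nat_lit 32912) (nat_lit 96) (nat_lit 61710) (nat_lit 8388543) (nat_lit 0) (nat_lit 0),Row.mk (nat_lit 12096) (nat_lit 32912) (nat_lit 112) (nat_lit 61710) (nat_lit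 8388528) (nat_lit 0) (nat_lit 0),Row.mk (nat_lit 12264) (nat_lit 32912) (nat_lit 132) (nat_lit 61710) (nat_lit 8388508) (nat_lit 0) (nat_lit 0),Row.mk (nat_lit 12432) (nat_lit 32912) (nat_lit 157) (nat_lit 61710) (nat_lit 8388483) (nat_lit 0) (nat_lit 0),Row.mk (nat_lit 12600) (nat_lit 32912) (nat_lit 188) (nat_lit 61710) (nat_lit 8388452) (nat_lit 0) (nat_lit 0),Row.mk (nat_lit 12768) (nat_lit 32912) (nat_lit 227) (nat_lit 61710) (nat_lit 8388413) (nat_lit 0) (nat_lit 0),Row.mk (nat_lit 12936) (nat_lit 32912) (nat_lit 275) (nat_lit 61710) (nat_lit 8388364) (nat_lit 0) (nat_lit 0),Row.mk (nat_lit 13104) (nat_lit 32912) (nat_lit 336) (nat_lit 61710) (nat_lit 8388304) (nat_lit 0) (nat_lit 0),Row.mk (nat_lit 13272) (nat_lit 32912) (nat_lit 411) (nat_lit 61710) (nat_lit 8388228) (nat_lit 0) (nat_lit 0),Row.mk (nat_lit 13440) (nat_lit 32912) (nat_lit 506) (nat_lit 61710) (nat_lit 8388134) (nat_lit 0) (nat_lit 0),Row.mk (nat_lit 13608)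 (nat_lit 32912) (nat_lit 624) (nat_lit 61710) (nat_lit 8388016) (nat_lit 0) (nat_lit 0),Row.mk (nat_lit 13776) (nat_lit 32912) (nat_lit 771) (nat_lit 61710) (nat_lit 8387869) (nat_lit 0) (nat_lit 0),Row.mk (nat_lit 13944) (nat_lit 32912) (nat_lit 955) (nat_lit 61710) (nat_lit 8387685) (nat_lit 0) (nat_lit 0),Row.mk (nat_lit 14112) (nat_lit 32912) (nat_lit 1185) (nat_lit 61710) (nat_lit 8387455) (nat_lit 0) (nat_lit 0),Row.mk (nat_lit 14280) (nat_lit 32912) (nat_lit 1471) (nat_lit 61710) (nat_lit 8387168) (nat_lit 0) (nat_lit 0),Row.mk (nat_lit 14448) (nat_lit 32912) (nat_lit 1830) (nat_lit 61710) (nat_lit 8386810) (nat_lit 0) (nat_lit 0),Row.mk (nat_lit 14616) (nat_lit 32912) (nat_lit 2277) (nat_lit 61710) (nat_lit 8386363) (nat_lit 0) (nat_lit 0),Row.mk (nat_lit 14784) (nat_lit 32912) (nat_lit 2836) (nat_lit 61710) (nat_lit 8385804) (nat_lit 0) (nat_lit 0),Row.mk (nat_lit 14952) (nat_lit 32912) (nat_lit 3534) (nat_lit 61710) (nat_lit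 8385106) (nat_lit 0) (nat_lit 0),Row.mk (nat_lit 15120) (nat_lit 32912) (nat_lit 4406) (nat_lit 61710) (nat_lit 8384234) (nat_lit 0) (nat_lit 0),Row.mk (nat_lit 15288) (nat_lit 32912) (nat_lit 5495) (nat_lit 61710) (nat_lit 8383145) (nat_lit 0) (nat_lit 0),Row.mk (nat_lit 15456) (nat_lit 32912) (nat_lit 6855) (nat_lit 61710) (nat_lit 8381785) (nat_lit 0) (nat_lit 0),Row.mk (nat_lit 15624) (nat_lit 60962) (nat_lit 121) (nat_lit 61336) (nat_lit 43) (nat_lit 61523) (nat_lit 8389),Row.mk (nat_lit 15792) (nat_lit 60401) (nat_lit 97) (nat_lit 60775) (nat_lit 67) (nat_lit 60962) (nat_lit 10511),Row.mk (nat_lit 15960) (nat_lit 59840) (nat_lit 59) (nat_lit 60214) (nat_lit 105) (nat_lit 60401) (nat_lit 13161),Row.mk (nat_lit 16128) (nat_lit 59653) (nat_lit 164) (nat_lit 59840) (nat_lit 16470) (nat_lit 0) (nat_lit 0),Row.mk (nat_lit 16296) (nat_lit 59092) (nat_lit 164) (nat_lit 59279) (nat_lit 20530) (nat_lit 59653) (nat_lit 73),Row.mk (nat_lit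 16464) (nat_lit 58531) (nat_lit 164) (nat_lit 58718) (nat_lit 25578) (nat_lit 59092) (nat_lit 189),Row.mk (nat_lit 16632) (nat_lit 57970) (nat_lit 164) (nat_lit 58157) (nat_lit 31846) (nat_lit 58531) (nat_lit 369),Row.mk (nat_lit 16800) (nat_lit 57409) (nat_lit 164) (nat_lit 57596) (nat_lit 39620) (nat_lit 57970) (nat_lit 649),Row.mk (nat_lit 16968) (nat_lit 56848) (nat_lit 163) (nat_lit 57035) (nat_lit 49241) (nat_lit 57409) (nat_lit 1087),Row.mk (nat_lit 17136) (nat_lit 56287) (nat_lit 163) (nat_lit 56474) (nat_lit 61122) (nat_lit 56848) (nat_lit 1769),Row.mk (nat_lit 17304) (nat_lit 55726) (nat_lit 163) (nat_lit 55913) (nat_lit 75749) (nat_lit 56287) (nat_lit 2834),Row.mk (nat_lit 17472) (nat_lit 55165) (nat_lit 162) (nat_lit 55352) (nat_lit 93686) (nat_lit 55726) (nat_lit 4495),Row.mk (nat_lit 17640) (nat_lit 54604) (nat_lit 162) (nat_lit 54791) (nat_lit 115573) (nat_lit 55165) (nat_lit 7087),Row.mk (nat_lit 17808) (nat_lit 54043)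 (nat_lit 161) (nat_lit 54230) (nat_lit 142103) (nat_lit 54604) (nat_lit 11129),Row.mk (nat_lit 17976) (nat_lit 53482) (nat_lit 161) (nat_lit 53669) (nat_lit 173981) (nat_lit 54043) (nat_lit 17434),Row.mk (nat_lit 18144) (nat_lit 52921) (nat_lit 160) (nat_lit 53108) (nat_lit 211836) (nat_lit 53482) (nat_lit 27271),Row.mk (nat_lit 18312) (nat_lit 52360) (nat_lit 158) (nat_lit 52547) (nat_lit 256057) (nat_lit 52921) (nat_lit 42615),Row.mk (nat_lit 18480) (nat_lit 51799) (nat_lit 157) (nat_lit 51986) (nat_lit 306516) (nat_lit 52360) (nat_lit 66551),Row.mk (nat_lit 18648) (nat_lit 51238) (nat_lit 155) (nat_lit 51425) (nat_lit 362095) (nat_lit 51799) (nat_lit 103890),Row.mk (nat_lit 18816) (nat_lit 50677) (nat_lit 153) (nat_lit 50864) (nat_lit 419901) (nat_lit 51238) (nat_lit 162136),Row.mk (nat_lit 18984) (nat_lit 50116) (nat_lit 150) (nat_lit 50303) (nat_lit 473986) (nat_lit 50677) (nat_lit 252997),Row.mk (nat_lit 19152) (nat_lit 49555)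 (nat_lit 146) (nat_lit 49742) (nat_lit 513283) (nat_lit 50116) (nat_lit 394735),Row.mk (nat_lit 19320) (nat_lit 48994) (nat_lit 142) (nat_lit 49181) (nat_lit 518288) (nat_lit 49555) (nat_lit 615838),Row.mk (nat_lit 19488) (nat_lit 48433) (nat_lit 137) (nat_lit 48620) (nat_lit 455784) (nat_lit 48994) (nat_lit 960745),Row.mk (nat_lit 19656) (nat_lit 47685) (nat_lit 130) (nat_lit 47872) (nat_lit 270464) (nat_lit 48433) (nat_lit 1498779),Row.mk (nat_lit 19824) (nat_lit 47498) (nat_lit 121) (nat_lit 47685) (nat_lit 2107144) (nat_lit 48246) (nat_lit 102631),Row.mk (nat_lit 19992) (nat_lit 46563) (nat_lit 110) (nat_lit 46750) (nat_lit 2049614) (nat_lit 47498) (nat_lit 710375),Row.mk (nat_lit 20160) (nat_lit 45628) (nat_lit 97) (nat_lit 45815) (nat_lit 1651785) (nat_lit 46563) (nat_lit 1795407),Row.mk (nat_lit 20328) (nat_lit 44506) (nat_lit 80) (nat_lit 44693) (nat_lit 646407) (nat_lit 45628) (nat_lit 3659086),Row.mk (nat_lit 20496) (nat_lit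 44319) (nat_lit 59) (nat_lit 44506) (nat_lit 4254604) (nat_lit 45441) (nat_lit 1122886),Row.mk (nat_lit 20664) (nat_lit 43010) (nat_lit 32) (nat_lit 43197) (nat_lit 2553831) (nat_lit 44319) (nat_lit 4162557),Row.mk (nat_lit 20832) (nat_lit 43010) (nat_lit 7495214) (nat_lit 44132) (nat_lit 893426) (nat_lit 0) (nat_lit 0),Row.mk (nat_lit 21000) (nat_lit 41327) (nat_lit 3983784) (nat_lit 42823) (nat_lit 6493384) (nat_lit 43010) (nat_lit 32),Row.mk (nat_lit 21168) (nat_lit 41140) (nat_lit 10353126) (nat_lit 42636) (nat_lit 2732563) (nat_lit 42823) (nat_lit 73),Row.mk (nat_lit 21336) (nat_lit 38896) (nat_lit 2453595) (nat_lit 40953) (nat_lit 13890075) (nat_lit 41140) (nat_lit 125),Row.mk (nat_lit 21504) (nat_lit 38709) (nat_lit 9780829) (nat_lit 40766) (nat_lit 10631979) (nat_lit 40953) (nat_lit 189),Row.mk (nat_lit 21672) (nat_lit 38522) (nat_lit 18932367) (nat_lit 40579) (nat_lit 6562697) (nat_lit 40766) (nat_lit 269),Row.mk (nat_lit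 21840) (nat_lit 38335) (nat_lit 30362418) (nat_lit 40392) (nat_lit 1480261) (nat_lit 40579) (nat_lit 369),Row.mk (nat_lit 22008) (nat_lit 31603) (nat_lit 6078871) (nat_lit 38148) (nat_lit 33691827) (nat_lit 38335) (nat_lit 493),Row.mk (nat_lit 22176) (nat_lit 31416) (nat_lit 15980930) (nat_lit 37961) (nat_lit 33691671) (nat_lit 38148) (nat_lit 649),Row.mk (nat_lit 22344) (nat_lit 31229) (nat_lit 28348363) (nat_lit 37774) (nat_lit 33691476) (nat_lit 37961) (nat_lit 844),Row.mk (nat_lit 22512) (nat_lit 31042) (nat_lit 43794989) (nat_lit 37587) (nat_lit 33691233) (nat_lit 37774) (nat_lit 1087),Row.mk (nat_lit 22680) (nat_lit 30855) (nat_lit 63087451) (nat_lit 37400) (nat_lit 33690930) (nat_lit 37587) (nat_lit 1390),Row.mk (nat_lit 22848) (nat_lit 30668) (nat_lit 87183272) (nat_lit 37213) (nat_lit 33690551) (nat_lit 37400) (nat_lit 1769),Row.mk (nat_lit 23016) (nat_lit 30481) (nat_lit 117278371) (nat_lit 37026) (nat_lit 33690077) (nat_lit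 37213) (nat_lit 2243),Row.mk (nat_lit 23184) (nat_lit 30294) (nat_lit 154866423) (nat_lit 36839) (nat_lit 33689486) (nat_lit 37026) (nat_lit 2834),Row.mk (nat_lit 23352) (nat_lit 30107) (nat_lit 201812993) (nat_lit 36652) (nat_lit 33688747) (nat_lit 36839) (nat_lit 3573),Row.mk (nat_lit 23520) (nat_lit 29920) (nat_lit 260448127) (nat_lit 36465) (nat_lit 33687825) (nat_lit 36652) (nat_lit 4495),Row.mk (nat_lit 23688) (nat_lit 29733) (nat_lit 333681995) (nat_lit 36278) (nat_lit 33686673) (nat_lit 36465) (nat_lit 5647),Row.mk (nat_lit 23856) (nat_lit 29546) (nat_lit 425149329) (nat_lit 36091) (nat_lit 33685233) (nat_lit 36278) (nat_lit 7087),Row.mk (nat_lit 24024) (nat_lit 29359) (nat_lit 539389823) (nat_lit 35904) (nat_lit 33683436) (nat_lit 36091) (nat_lit 8884),Row.mk (nat_lit 24192) (nat_lit 29172) (nat_lit 682073444) (nat_lit 35717) (nat_lit 33681191) (nat_lit 35904) (nat_lit 11129),Row.mk (nat_lit 24360) (nat_lit 28985) (nat_lit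 860281844) (nat_lit 35530) (nat_lit 33678387) (nat_lit 35717) (nat_lit 13933),Row.mk (nat_lit 24528) (nat_lit 28798) (nat_lit 1082859837) (nat_lit 35343) (nat_lit 33674886) (nat_lit 35530) (nat_lit 17434),Row.mk (nat_lit 24696) (nat_lit 28611) (nat_lit 1360854381) (nat_lit 35156) (nat_lit 33670512) (nat_lit 35343) (nat_lit 21808),Row.mk (nat_lit 24864) (nat_lit 28424) (nat_lit 1708062860) (nat_lit 34969) (nat_lit 33665049) (nat_lit 35156) (nat_lit 27271),Row.mk (nat_lit 25032) (nat_lit 28237) (nat_lit 2141717874) (nat_lit 34782) (nat_lit 33658226) (nat_lit 34969) (nat_lit 34094),Row.mk (nat_lit 25200) (nat_lit 28050) (nat_lit 2683342526) (nat_lit 34595) (nat_lit 33649705) (nat_lit 34782) (nat_lit 42615),Row.mk (nat_lit 25368) (nat_lit 27863) (nat_lit 3359818649) (nat_lit 34408) (nat_lit 33639062) (nat_lit 34595) (nat_lit 53258),Row.mk (nat_lit 25536) (nat_lit 27676) (nat_lit 4204721009) (nat_lit 34221) (nat_lit 33625769) (nat_lit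 34408) (nat_lit 66551),Row.mk (nat_lit 25704) (nat_lit 27489) (nat_lit 5259983673) (nat_lit 34034) (nat_lit 33609166) (nat_lit 34221) (nat_lit 83154),Row.mk (nat_lit 25872) (nat_lit 27302) (nat_lit 6577981284) (nat_lit 33847) (nat_lit 33588430) (nat_lit 34034) (nat_lit 103890)],
[Row.mk (nat_lit 10920) (nat_lit 32912) (nat_lit 57) (nat_lit 61710) (nat_lit 8388566) (nat_lit 0) (nat_lit 0),Row.mk (nat_lit 11088) (nat_lit 32912) (nat_lit 62) (nat_lit 61710) (nat_lit 8388566) (nat_lit 0) (nat_lit 0),Row.mk (nat_lit 11256) (nat_lit 32912) (nat_lit 67) (nat_lit 61710) (nat_lit 8388566) (nat_lit 0) (nat_lit 0),Row.mk (nat_lit 11424) (nat_lit 32912) (nat_lit 73) (nat_lit 61710) (nat_lit 8388566) (nat_lit 0) (nat_lit 0),Row.mk (nat_lit 11592) (nat_lit 32912) (nat_lit 82) (nat_lit 61710) (nat_lit 8388566) (nat_lit 0) (nat_lit 0),Row.mk (nat_lit 11760) (nat_lit 32912) (nat_lit 92) (nat_lit 61710) (nat_lit 8388556) (nat_lit 0) (nat_lit 0),Row.mk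 (nat_lit 11928) (nat_lit 32912) (nat_lit 105) (nat_lit 61710) (nat_lit 8388543) (nat_lit 0) (nat_lit 0),Row.mk (nat_lit 12096) (nat_lit 32912) (nat_lit 121) (nat_lit 61710) (nat_lit 8388528) (nat_lit 0) (nat_lit 0),Row.mk (nat_lit 12264) (nat_lit 32912) (nat_lit 140) (nat_lit 61710) (nat_lit 8388508) (nat_lit 0) (nat_lit 0),Row.mk (nat_lit 12432) (nat_lit 32912) (nat_lit 165) (nat_lit 61710) (nat_lit 8388483) (nat_lit 0) (nat_lit 0),Row.mk (nat_lit 12600) (nat_lit 32912) (nat_lit 196) (nat_lit 61710) (nat_lit 8388452) (nat_lit 0) (nat_lit 0),Row.mk (nat_lit 12768) (nat_lit 32912) (nat_lit 235) (nat_lit 61710) (nat_lit 8388413) (nat_lit 0) (nat_lit 0),Row.mk (nat_lit 12936) (nat_lit 32912) (nat_lit 284) (nat_lit 61710) (nat_lit 8388364) (nat_lit 0) (nat_lit 0),Row.mk (nat_lit 13104) (nat_lit 32912) (nat_lit 344) (nat_lit 61710) (nat_lit 8388304) (nat_lit 0) (nat_lit 0),Row.mk (nat_lit 13272) (nat_lit 32912) (nat_lit 420) (nat_lit 61710)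 (nat_lit 8388228) (nat_lit 0) (nat_lit 0),Row.mk (nat_lit 13440) (nat_lit 32912) (nat_lit 514) (nat_lit 61710) (nat_lit 8388134) (nat_lit 0) (nat_lit 0),Row.mk (nat_lit 13608) (nat_lit 32912) (nat_lit 632) (nat_lit 61710) (nat_lit 8388016) (nat_lit 0) (nat_lit 0),Row.mk (nat_lit 13776) (nat_lit 32912) (nat_lit 779) (nat_lit 61710) (nat_lit 8387869) (nat_lit 0) (nat_lit 0),Row.mk (nat_lit 13944) (nat_lit 32912) (nat_lit 963) (nat_lit 61710) (nat_lit 8387685) (nat_lit 0) (nat_lit 0),Row.mk (nat_lit 14112) (nat_lit 32912) (nat_lit 1193) (nat_lit 61710) (nat_lit 8387455) (nat_lit 0) (nat_lit 0),Row.mk (nat_lit 14280) (nat_lit 32912) (nat_lit 1480) (nat_lit 61710) (nat_lit 8387168) (nat_lit 0) (nat_lit 0),Row.mk (nat_lit 14448) (nat_lit 32912) (nat_lit 1838) (nat_lit 61710) (nat_lit 8386810) (nat_lit 0) (nat_lit 0),Row.mk (nat_lit 14616) (nat_lit 32912) (nat_lit 2285) (nat_lit 61710) (nat_lit 8386363) (nat_lit 0) (nat_lit 0),Row.mk (nat_lit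 14784) (nat_lit 32912) (nat_lit 2844) (nat_lit 61710) (nat_lit 8385804) (nat_lit 0) (nat_lit 0),Row.mk (nat_lit 14952) (nat_lit 32912) (nat_lit 3542) (nat_lit 61710) (nat_lit 8385106) (nat_lit 0) (nat_lit 0),Row.mk (nat_lit 15120) (nat_lit 32912) (nat_lit 4414) (nat_lit 61710) (nat_lit 8384234) (nat_lit 0) (nat_lit 0),Row.mk (nat_lit 15288) (nat_lit 32912) (nat_lit 5503) (nat_lit 61710) (nat_lit 8383145) (nat_lit 0) (nat_lit 0),Row.mk (nat_lit 15456) (nat_lit 32912) (nat_lit 6863) (nat_lit 61710) (nat_lit 8381785) (nat_lit 0) (nat_lit 0),Row.mk (nat_lit 15624) (nat_lit 60962) (nat_lit 162) (nat_lit 61336) (nat_lit 43) (nat_lit 61523) (nat_lit 8356),Row.mk (nat_lit 15792) (nat_lit 60401) (nat_lit 138) (nat_lit 60775) (nat_lit 67) (nat_lit 60962) (nat_lit 10478),Row.mk (nat_lit 15960) (nat_lit 59840) (nat_lit 100) (nat_lit 60214) (nat_lit 105) (nat_lit 60401) (nat_lit 13128),Row.mk (nat_lit 16128) (nat_lit 59279) (nat_lit 41) (nat_lit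 59653) (nat_lit 164) (nat_lit 59840) (nat_lit 16438),Row.mk (nat_lit 16296) (nat_lit 59092) (nat_lit 205) (nat_lit 59279) (nat_lit 20530) (nat_lit 59653) (nat_lit 41),Row.mk (nat_lit 16464) (nat_lit 58531) (nat_lit 205) (nat_lit 58718) (nat_lit 25578) (nat_lit 59092) (nat_lit 156),Row.mk (nat_lit 16632) (nat_lit 57970) (nat_lit 205) (nat_lit 58157) (nat_lit 31847) (nat_lit 58531) (nat_lit 336),Row.mk (nat_lit 16800) (nat_lit 57409) (nat_lit 204) (nat_lit 57596) (nat_lit 39620) (nat_lit 57970) (nat_lit 616),Row.mk (nat_lit 16968) (nat_lit 56848) (nat_lit 204) (nat_lit 57035) (nat_lit 49242) (nat_lit 57409) (nat_lit 1054),Row.mk (nat_lit 17136) (nat_lit 56287) (nat_lit 204) (nat_lit 56474) (nat_lit 61123) (nat_lit 56848) (nat_lit 1736),Row.mk (nat_lit 17304) (nat_lit 55726) (nat_lit 203) (nat_lit 55913) (nat_lit 75749) (nat_lit 56287) (nat_lit 2801),Row.mk (nat_lit 17472) (nat_lit 55165) (nat_lit 203) (nat_lit 55352) (nat_lit 93687)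 (nat_lit 55726) (nat_lit 4462),Row.mk (nat_lit 17640) (nat_lit 54604) (nat_lit 202) (nat_lit 54791) (nat_lit 115573) (nat_lit 55165) (nat_lit 7054),Row.mk (nat_lit 17808) (nat_lit 54043) (nat_lit 202) (nat_lit 54230) (nat_lit 142104) (nat_lit 54604) (nat_lit 11096),Row.mk (nat_lit 17976) (nat_lit 53482) (nat_lit 201) (nat_lit 53669) (nat_lit 173982) (nat_lit 54043) (nat_lit 17402),Row.mk (nat_lit 18144) (nat_lit 52921) (nat_lit 200) (nat_lit 53108) (nat_lit 211837) (nat_lit 53482) (nat_lit 27238),Row.mk (nat_lit 18312) (nat_lit 52360) (nat_lit 198) (nat_lit 52547) (nat_lit 256058) (nat_lit 52921) (nat_lit 42582),Row.mk (nat_lit 18480) (nat_lit 51799) (nat_lit 196) (nat_lit 51986) (nat_lit 306518) (nat_lit 52360) (nat_lit 66518),Row.mk (nat_lit 18648) (nat_lit 51238) (nat_lit 194) (nat_lit 51425) (nat_lit 362097) (nat_lit 51799) (nat_lit 103857),Row.mk (nat_lit 18816) (nat_lit 50677) (nat_lit 191) (nat_lit 50864) (nat_lit 419903) (nat_lit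 51238) (nat_lit 162104),Row.mk (nat_lit 18984) (nat_lit 50116) (nat_lit 188) (nat_lit 50303) (nat_lit 473989) (nat_lit 50677) (nat_lit 252965),Row.mk (nat_lit 19152) (nat_lit 49555) (nat_lit 183) (nat_lit 49742) (nat_lit 513287) (nat_lit 50116) (nat_lit 394702),Row.mk (nat_lit 19320) (nat_lit 48994) (nat_lit 178) (nat_lit 49181) (nat_lit 518293) (nat_lit 49555) (nat_lit 615805),Row.mk (nat_lit 19488) (nat_lit 48433) (nat_lit 171) (nat_lit 48620) (nat_lit 455791) (nat_lit 48994) (nat_lit 960712),Row.mk (nat_lit 19656) (nat_lit 47685) (nat_lit 162) (nat_lit 47872) (nat_lit 270473) (nat_lit 48433) (nat_lit 1498746),Row.mk (nat_lit 19824) (nat_lit 47498) (nat_lit 151) (nat_lit 47685) (nat_lit 2107155) (nat_lit 48246) (nat_lit 102598),Row.mk (nat_lit 19992) (nat_lit 46563) (nat_lit 138) (nat_lit 46750) (nat_lit 2049627) (nat_lit 47498) (nat_lit 710342),Row.mk (nat_lit 20160) (nat_lit 45628) (nat_lit 121) (nat_lit 45815) (nat_lit 1651802)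 (nat_lit 46563) (nat_lit 1795374),Row.mk (nat_lit 20328) (nat_lit 44506) (nat_lit 100) (nat_lit 44693) (nat_lit 646428) (nat_lit 45628) (nat_lit 3659053),Row.mk (nat_lit 20496) (nat_lit 44319) (nat_lit 73) (nat_lit 44506) (nat_lit 4254630) (nat_lit 45441) (nat_lit 1122853),Row.mk (nat_lit 20664) (nat_lit 43010) (nat_lit 41) (nat_lit 43197) (nat_lit 2553864) (nat_lit 44319) (nat_lit 4162525),Row.mk (nat_lit 20832) (nat_lit 43010) (nat_lit 7495255) (nat_lit 44132) (nat_lit 893393) (nat_lit 0) (nat_lit 0),Row.mk (nat_lit 21000) (nat_lit 41327) (nat_lit 3983825) (nat_lit 42823) (nat_lit 6493343) (nat_lit 43010) (nat_lit 41),Row.mk (nat_lit 21168) (nat_lit 41140) (nat_lit 10353167) (nat_lit 42636) (nat_lit 2732512) (nat_lit 42823) (nat_lit 92),Row.mk (nat_lit 21336) (nat_lit 38896) (nat_lit 2453636) (nat_lit 40953) (nat_lit 13890011) (nat_lit 41140) (nat_lit 156),Row.mk (nat_lit 21504) (nat_lit 38709) (nat_lit 9780870) (nat_lit 40766)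 (nat_lit 10631899) (nat_lit 40953) (nat_lit 236),Row.mk (nat_lit 21672) (nat_lit 38522) (nat_lit 18932408) (nat_lit 40579) (nat_lit 6562597) (nat_lit 40766) (nat_lit 336),Row.mk (nat_lit 21840) (nat_lit 38335) (nat_lit 30362459) (nat_lit 40392) (nat_lit 1480136) (nat_lit 40579) (nat_lit 460),Row.mk (nat_lit 22008) (nat_lit 31603) (nat_lit 6078912) (nat_lit 38148) (nat_lit 33691671) (nat_lit 38335) (nat_lit 616),Row.mk (nat_lit 22176) (nat_lit 31416) (nat_lit 15980971) (nat_lit 37961) (nat_lit 33691476) (nat_lit 38148) (nat_lit 811),Row.mk (nat_lit 22344) (nat_lit 31229) (nat_lit 28348404) (nat_lit 37774) (nat_lit 33691233) (nat_lit 37961) (nat_lit 1054),Row.mk (nat_lit 22512) (nat_lit 31042) (nat_lit 43795030) (nat_lit 37587) (nat_lit 33690930) (nat_lit 37774) (nat_lit 1357),Row.mk (nat_lit 22680) (nat_lit 30855) (nat_lit 63087493) (nat_lit 37400) (nat_lit 33690551) (nat_lit 37587) (nat_lit 1736),Row.mk (nat_lit 22848) (nat_lit 30668)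 (nat_lit 87183313) (nat_lit 37213) (nat_lit 33690077) (nat_lit 37400) (nat_lit 2210),Row.mk (nat_lit 23016) (nat_lit 30481) (nat_lit 117278412) (nat_lit 37026) (nat_lit 33689486) (nat_lit 37213) (nat_lit 2801),Row.mk (nat_lit 23184) (nat_lit 30294) (nat_lit 154866464) (nat_lit 36839) (nat_lit 33688747) (nat_lit 37026) (nat_lit 3540),Row.mk (nat_lit 23352) (nat_lit 30107) (nat_lit 201813034) (nat_lit 36652) (nat_lit 33687825) (nat_lit 36839) (nat_lit 4462),Row.mk (nat_lit 23520) (nat_lit 29920) (nat_lit 260448168) (nat_lit 36465) (nat_lit 33686673) (nat_lit 36652) (nat_lit 5615),Row.mk (nat_lit 23688) (nat_lit 29733) (nat_lit 333682036) (nat_lit 36278) (nat_lit 33685233) (nat_lit 36465) (nat_lit 7054),Row.mk (nat_lit 23856) (nat_lit 29546) (nat_lit 425149370) (nat_lit 36091) (nat_lit 33683436) (nat_lit 36278) (nat_lit 8851),Row.mk (nat_lit 24024) (nat_lit 29359) (nat_lit 539389864) (nat_lit 35904) (nat_lit 33681191) (nat_lit 36091)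 (nat_lit 11096),Row.mk (nat_lit 24192) (nat_lit 29172) (nat_lit 682073485) (nat_lit 35717) (nat_lit 33678387) (nat_lit 35904) (nat_lit 13900),Row.mk (nat_lit 24360) (nat_lit 28985) (nat_lit 860281885) (nat_lit 35530) (nat_lit 33674886) (nat_lit 35717) (nat_lit 17402),Row.mk (nat_lit 24528) (nat_lit 28798) (nat_lit 1082859878) (nat_lit 35343) (nat_lit 33670512) (nat_lit 35530) (nat_lit 21775),Row.mk (nat_lit 24696) (nat_lit 28611) (nat_lit 1360854422) (nat_lit 35156) (nat_lit 33665049) (nat_lit 35343) (nat_lit 27238),Row.mk (nat_lit 24864) (nat_lit 28424) (nat_lit 1708062901) (nat_lit 34969) (nat_lit 33658226) (nat_lit 35156) (nat_lit 34061),Row.mk (nat_lit 25032) (nat_lit 28237) (nat_lit 2141717915) (nat_lit 34782) (nat_lit 33649705) (nat_lit 34969) (nat_lit 42582),Row.mk (nat_lit 25200) (nat_lit 28050) (nat_lit 2683342567) (nat_lit 34595) (nat_lit 33639062) (nat_lit 34782) (nat_lit 53225),Row.mk (nat_lit 25368) (nat_lit 27863) (nat_lit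 3359818690) (nat_lit 34408) (nat_lit 33625769) (nat_lit 34595) (nat_lit 66518),Row.mk (nat_lit 25536) (nat_lit 27676) (nat_lit 4204721050) (nat_lit 34221) (nat_lit 33609166) (nat_lit 34408) (nat_lit 83121),Row.mk (nat_lit 25704) (nat_lit 27489) (nat_lit 5259983714) (nat_lit 34034) (nat_lit 33588430) (nat_lit 34221) (nat_lit 103857),Row.mk (nat_lit 25872) (nat_lit 27302) (nat_lit 6577981325) (nat_lit 33847) (nat_lit 33562531) (nat_lit 34034) (nat_lit 129756)],
[Row.mk (nat_lit 10920) (nat_lit 32912) (nat_lit 68) (nat_lit 61710) (nat_lit 8388556) (nat_lit 0) (nat_lit 0),Row.mk (nat_lit 11088) (nat_lit 32912) (nat_lit 72) (nat_lit 61710) (nat_lit 8388556) (nat_lit 0) (nat_lit 0),Row.mk (nat_lit 11256) (nat_lit 32912) (nat_lit 77) (nat_lit 61710) (nat_lit 8388556) (nat_lit 0) (nat_lit 0),Row.mk (nat_lit 11424) (nat_lit 32912) (nat_lit 84) (nat_lit 61710) (nat_lit 8388556) (nat_lit 0) (nat_lit 0),Row.mk (nat_lit 11592) (nat_lit 32912)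 (nat_lit 92) (nat_lit 61710) (nat_lit 8388556) (nat_lit 0) (nat_lit 0),Row.mk (nat_lit 11760) (nat_lit 32912) (nat_lit 102) (nat_lit 61710) (nat_lit 8388556) (nat_lit 0) (nat_lit 0),Row.mk (nat_lit 11928) (nat_lit 32912) (nat_lit 115) (nat_lit 61710) (nat_lit 8388543) (nat_lit 0) (nat_lit 0),Row.mk (nat_lit 12096) (nat_lit 32912) (nat_lit 131) (nat_lit 61710) (nat_lit 8388528) (nat_lit 0) (nat_lit 0),Row.mk (nat_lit 12264) (nat_lit 32912) (nat_lit 151) (nat_lit 61710) (nat_lit 8388508) (nat_lit 0) (nat_lit 0),Row.mk (nat_lit 12432) (nat_lit 32912) (nat_lit 175) (nat_lit 61710) (nat_lit 8388483) (nat_lit 0) (nat_lit 0),Row.mk (nat_lit 12600) (nat_lit 32912) (nat_lit 207) (nat_lit 61710) (nat_lit 8388452) (nat_lit 0) (nat_lit 0),Row.mk (nat_lit 12768) (nat_lit 32912) (nat_lit 245) (nat_lit 61710) (nat_lit 8388413) (nat_lit 0) (nat_lit 0),Row.mk (nat_lit 12936) (nat_lit 32912) (nat_lit 294) (nat_lit 61710) (nat_lit 8388364) (nat_lit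 0) (nat_lit 0),Row.mk (nat_lit 13104) (nat_lit 32912) (nat_lit 354) (nat_lit 61710) (nat_lit 8388304) (nat_lit 0) (nat_lit 0),Row.mk (nat_lit 13272) (nat_lit 32912) (nat_lit 430) (nat_lit 61710) (nat_lit 8388228) (nat_lit 0) (nat_lit 0),Row.mk (nat_lit 13440) (nat_lit 32912) (nat_lit 524) (nat_lit 61710) (nat_lit 8388134) (nat_lit 0) (nat_lit 0),Row.mk (nat_lit 13608) (nat_lit 32912) (nat_lit 642) (nat_lit 61710) (nat_lit 8388016) (nat_lit 0) (nat_lit 0),Row.mk (nat_lit 13776) (nat_lit 32912) (nat_lit 789) (nat_lit 61710) (nat_lit 8387869) (nat_lit 0) (nat_lit 0),Row.mk (nat_lit 13944) (nat_lit 32912) (nat_lit 973) (nat_lit 61710) (nat_lit 8387685) (nat_lit 0) (nat_lit 0),Row.mk (nat_lit 14112) (nat_lit 32912) (nat_lit 1203) (nat_lit 61710) (nat_lit 8387455) (nat_lit 0) (nat_lit 0),Row.mk (nat_lit 14280) (nat_lit 32912) (nat_lit 1490) (nat_lit 61710) (nat_lit 8387168) (nat_lit 0) (nat_lit 0),Row.mk (nat_lit 14448) (nat_lit 32912)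 (nat_lit 1848) (nat_lit 61710) (nat_lit 8386810) (nat_lit 0) (nat_lit 0),Row.mk (nat_lit 14616) (nat_lit 32912) (nat_lit 2296) (nat_lit 61710) (nat_lit 8386363) (nat_lit 0) (nat_lit 0),Row.mk (nat_lit 14784) (nat_lit 32912) (nat_lit 2855) (nat_lit 61710) (nat_lit 8385804) (nat_lit 0) (nat_lit 0),Row.mk (nat_lit 14952) (nat_lit 32912) (nat_lit 3553) (nat_lit 61710) (nat_lit 8385106) (nat_lit 0) (nat_lit 0),Row.mk (nat_lit 15120) (nat_lit 32912) (nat_lit 4424) (nat_lit 61710) (nat_lit 8384234) (nat_lit 0) (nat_lit 0),Row.mk (nat_lit 15288) (nat_lit 32912) (nat_lit 5513) (nat_lit 61710) (nat_lit 8383145) (nat_lit 0) (nat_lit 0),Row.mk (nat_lit 15456) (nat_lit 32912) (nat_lit 6874) (nat_lit 61710) (nat_lit 8381785) (nat_lit 0) (nat_lit 0),Row.mk (nat_lit 15624) (nat_lit 60962) (nat_lit 213) (nat_lit 61336) (nat_lit 43) (nat_lit 61523) (nat_lit 8315),Row.mk (nat_lit 15792) (nat_lit 60401) (nat_lit 189) (nat_lit 60775) (nat_lit 67) (nat_lit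 60962) (nat_lit 10437),Row.mk (nat_lit 15960) (nat_lit 59840) (nat_lit 151) (nat_lit 60214) (nat_lit 105) (nat_lit 60401) (nat_lit 13087),Row.mk (nat_lit 16128) (nat_lit 59279) (nat_lit 92) (nat_lit 59653) (nat_lit 164) (nat_lit 59840) (nat_lit 16397),Row.mk (nat_lit 16296) (nat_lit 59092) (nat_lit 256) (nat_lit 59279) (nat_lit 20531) (nat_lit 0) (nat_lit 0),Row.mk (nat_lit 16464) (nat_lit 58531) (nat_lit 256) (nat_lit 58718) (nat_lit 25578) (nat_lit 59092) (nat_lit 115),Row.mk (nat_lit 16632) (nat_lit 57970) (nat_lit 256) (nat_lit 58157) (nat_lit 31847) (nat_lit 58531) (nat_lit 295),Row.mk (nat_lit 16800) (nat_lit 57409) (nat_lit 255) (nat_lit 57596) (nat_lit 39620) (nat_lit 57970) (nat_lit 575),Row.mk (nat_lit 16968) (nat_lit 56848) (nat_lit 255) (nat_lit 57035) (nat_lit 49242) (nat_lit 57409) (nat_lit 1013),Row.mk (nat_lit 17136) (nat_lit 56287) (nat_lit 255) (nat_lit 56474) (nat_lit 61123) (nat_lit 56848) (nat_lit 1695),Row.mk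 (nat_lit 17304) (nat_lit 55726) (nat_lit 254) (nat_lit 55913) (nat_lit 75750) (nat_lit 56287) (nat_lit 2760),Row.mk (nat_lit 17472) (nat_lit 55165) (nat_lit 254) (nat_lit 55352) (nat_lit 93687) (nat_lit 55726) (nat_lit 4421),Row.mk (nat_lit 17640) (nat_lit 54604) (nat_lit 253) (nat_lit 54791) (nat_lit 115574) (nat_lit 55165) (nat_lit 7013),Row.mk (nat_lit 17808) (nat_lit 54043) (nat_lit 252) (nat_lit 54230) (nat_lit 142105) (nat_lit 54604) (nat_lit 11055),Row.mk (nat_lit 17976) (nat_lit 53482) (nat_lit 251) (nat_lit 53669) (nat_lit 173984) (nat_lit 54043) (nat_lit 17361),Row.mk (nat_lit 18144) (nat_lit 52921) (nat_lit 249) (nat_lit 53108) (nat_lit 211839) (nat_lit 53482) (nat_lit 27197),Row.mk (nat_lit 18312) (nat_lit 52360) (nat_lit 247) (nat_lit 52547) (nat_lit 256060) (nat_lit 52921) (nat_lit 42541),Row.mk (nat_lit 18480) (nat_lit 51799) (nat_lit 245) (nat_lit 51986) (nat_lit 306520) (nat_lit 52360) (nat_lit 66477),Row.mk (nat_lit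 18648) (nat_lit 51238) (nat_lit 242) (nat_lit 51425) (nat_lit 362100) (nat_lit 51799) (nat_lit 103816),Row.mk (nat_lit 18816) (nat_lit 50677) (nat_lit 239) (nat_lit 50864) (nat_lit 419907) (nat_lit 51238) (nat_lit 162063),Row.mk (nat_lit 18984) (nat_lit 50116) (nat_lit 234) (nat_lit 50303) (nat_lit 473994) (nat_lit 50677) (nat_lit 252924),Row.mk (nat_lit 19152) (nat_lit 49555) (nat_lit 229) (nat_lit 49742) (nat_lit 513292) (nat_lit 50116) (nat_lit 394661),Row.mk (nat_lit 19320) (nat_lit 48994) (nat_lit 222) (nat_lit 49181) (nat_lit 518300) (nat_lit 49555) (nat_lit 615764),Row.mk (nat_lit 19488) (nat_lit 48433) (nat_lit 213) (nat_lit 48620) (nat_lit 455799) (nat_lit 48994) (nat_lit 960671),Row.mk (nat_lit 19656) (nat_lit 47685) (nat_lit 202) (nat_lit 47872) (nat_lit 270483) (nat_lit 48433) (nat_lit 1498705),Row.mk (nat_lit 19824) (nat_lit 47498) (nat_lit 189) (nat_lit 47685) (nat_lit 2107169) (nat_lit 48246) (nat_lit 102557),Row.mk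 (nat_lit 19992) (nat_lit 46563) (nat_lit 172) (nat_lit 46750) (nat_lit 2049644) (nat_lit 47498) (nat_lit 710301),Row.mk (nat_lit 20160) (nat_lit 45628) (nat_lit 151) (nat_lit 45815) (nat_lit 1651823) (nat_lit 46563) (nat_lit 1795333),Row.mk (nat_lit 20328) (nat_lit 44506) (nat_lit 125) (nat_lit 44693) (nat_lit 646454) (nat_lit 45628) (nat_lit 3659012),Row.mk (nat_lit 20496) (nat_lit 44319) (nat_lit 92) (nat_lit 44506) (nat_lit 4254663) (nat_lit 45441) (nat_lit 1122812),Row.mk (nat_lit 20664) (nat_lit 43010) (nat_lit 51) (nat_lit 43197) (nat_lit 2553905) (nat_lit 44319) (nat_lit 4162484),Row.mk (nat_lit 20832) (nat_lit 43010) (nat_lit 7495307) (nat_lit 44132) (nat_lit 893352) (nat_lit 0) (nat_lit 0),Row.mk (nat_lit 21000) (nat_lit 41327) (nat_lit 3983876) (nat_lit 42823) (nat_lit 6493292) (nat_lit 43010) (nat_lit 51),Row.mk (nat_lit 21168) (nat_lit 41140) (nat_lit 10353218) (nat_lit 42636) (nat_lit 2732448) (nat_lit 42823) (nat_lit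 115),Row.mk (nat_lit 21336) (nat_lit 38896) (nat_lit 2453687) (nat_lit 40953) (nat_lit 13889931) (nat_lit 41140) (nat_lit 195),Row.mk (nat_lit 21504) (nat_lit 38709) (nat_lit 9780921) (nat_lit 40766) (nat_lit 10631800) (nat_lit 40953) (nat_lit 295),Row.mk (nat_lit 21672) (nat_lit 38522) (nat_lit 18932460) (nat_lit 40579) (nat_lit 6562472) (nat_lit 40766) (nat_lit 419),Row.mk (nat_lit 21840) (nat_lit 38335) (nat_lit 30362511) (nat_lit 40392) (nat_lit 1479980) (nat_lit 40579) (nat_lit 575),Row.mk (nat_lit 22008) (nat_lit 31603) (nat_lit 6078963) (nat_lit 38148) (nat_lit 33691476) (nat_lit 38335) (nat_lit 770),Row.mk (nat_lit 22176) (nat_lit 31416) (nat_lit 15981022) (nat_lit 37961) (nat_lit 33691233) (nat_lit 38148) (nat_lit 1013),Row.mk (nat_lit 22344) (nat_lit 31229) (nat_lit 28348455) (nat_lit 37774) (nat_lit 33690930) (nat_lit 37961) (nat_lit 1316),Row.mk (nat_lit 22512) (nat_lit 31042) (nat_lit 43795081) (nat_lit 37587) (nat_lit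 33690551) (nat_lit 37774) (nat_lit 1695),Row.mk (nat_lit 22680) (nat_lit 30855) (nat_lit 63087544) (nat_lit 37400) (nat_lit 33690077) (nat_lit 37587) (nat_lit 2169),Row.mk (nat_lit 22848) (nat_lit 30668) (nat_lit 87183364) (nat_lit 37213) (nat_lit 33689486) (nat_lit 37400) (nat_lit 2760),Row.mk (nat_lit 23016) (nat_lit 30481) (nat_lit 117278463) (nat_lit 37026) (nat_lit 33688747) (nat_lit 37213) (nat_lit 3499),Row.mk (nat_lit 23184) (nat_lit 30294) (nat_lit 154866515) (nat_lit 36839) (nat_lit 33687825) (nat_lit 37026) (nat_lit 4421),Row.mk (nat_lit 23352) (nat_lit 30107) (nat_lit 201813086) (nat_lit 36652) (nat_lit 33686673) (nat_lit 36839) (nat_lit 5574),Row.mk (nat_lit 23520) (nat_lit 29920) (nat_lit 260448220) (nat_lit 36465) (nat_lit 33685233) (nat_lit 36652) (nat_lit 7013),Row.mk (nat_lit 23688) (nat_lit 29733) (nat_lit 333682087) (nat_lit 36278) (nat_lit 33683436) (nat_lit 36465) (nat_lit 8810),Row.mk (nat_lit 23856) (nat_lit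 29546) (nat_lit 425149421) (nat_lit 36091) (nat_lit 33681191) (nat_lit 36278) (nat_lit 11055),Row.mk (nat_lit 24024) (nat_lit 29359) (nat_lit 539389915) (nat_lit 35904) (nat_lit 33678387) (nat_lit 36091) (nat_lit 13859),Row.mk (nat_lit 24192) (nat_lit 29172) (nat_lit 682073536) (nat_lit 35717) (nat_lit 33674886) (nat_lit 35904) (nat_lit 17361),Row.mk (nat_lit 24360) (nat_lit 28985) (nat_lit 860281937) (nat_lit 35530) (nat_lit 33670512) (nat_lit 35717) (nat_lit 21734),Row.mk (nat_lit 24528) (nat_lit 28798) (nat_lit 1082859930) (nat_lit 35343) (nat_lit 33665049) (nat_lit 35530) (nat_lit 27197),Row.mk (nat_lit 24696) (nat_lit 28611) (nat_lit 1360854473) (nat_lit 35156) (nat_lit 33658226) (nat_lit 35343) (nat_lit 34020),Row.mk (nat_lit 24864) (nat_lit 28424) (nat_lit 1708062952) (nat_lit 34969) (nat_lit 33649705) (nat_lit 35156) (nat_lit 42541),Row.mk (nat_lit 25032) (nat_lit 28237) (nat_lit 2141717967) (nat_lit 34782) (nat_lit 33639062)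 (nat_lit 34969) (nat_lit 53184),Row.mk (nat_lit 25200) (nat_lit 28050) (nat_lit 2683342618) (nat_lit 34595) (nat_lit 33625769) (nat_lit 34782) (nat_lit 66477),Row.mk (nat_lit 25368) (nat_lit 27863) (nat_lit 3359818742) (nat_lit 34408) (nat_lit 33609166) (nat_lit 34595) (nat_lit 83080),Row.mk (nat_lit 25536) (nat_lit 27676) (nat_lit 4204721101) (nat_lit 34221) (nat_lit 33588430) (nat_lit 34408) (nat_lit 103816),Row.mk (nat_lit 25704) (nat_lit 27489) (nat_lit 5259983765) (nat_lit 34034) (nat_lit 33562531) (nat_lit 34221) (nat_lit 129715),Row.mk (nat_lit 25872) (nat_lit 27302) (nat_lit 6577981376) (nat_lit 33847) (nat_lit 33530184) (nat_lit 34034) (nat_lit 162063)],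
[Row.mk (nat_lit 10920) (nat_lit 32912) (nat_lit 80) (nat_lit 61710) (nat_lit 8388543) (nat_lit 0) (nat_lit 0),Row.mk (nat_lit 11088) (nat_lit 32912) (nat_lit 85) (nat_lit 61710) (nat_lit 8388543) (nat_lit 0) (nat_lit 0),Row.mk (nat_lit 11256) (nat_lit 32912) (nat_lit 90) (nat_lit 61710) (nat_lit 8388543) (nat_lit 0) (nat_lit 0),Row.mk (nat_lit 11424) (nat_lit 32912) (nat_lit 96) (nat_lit 61710) (nat_lit 8388543) (nat_lit 0) (nat_lit 0),Row.mk (nat_lit 11592) (nat_lit 32912) (nat_lit 105) (nat_lit 61710) (nat_lit 8388543) (nat_lit 0) (nat_lit 0),Row.mk (nat_lit 11760) (nat_lit 32912) (nat_lit 115) (nat_lit 61710) (nat_lit 8388543) (nat_lit 0) (nat_lit 0),Row.mk (nat_lit 11928) (nat_lit 32912) (nat_lit 128) (nat_lit 61710) (nat_lit 8388543) (nat_lit 0) (nat_lit 0),Row.mk (nat_lit 12096) (nat_lit 32912) (nat_lit 143) (nat_lit 61710) (nat_lit 8388528) (nat_lit 0) (nat_lit 0),Row.mk (nat_lit 12264) (nat_lit 32912) (nat_lit 163) (nat_lit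 61710) (nat_lit 8388508) (nat_lit 0) (nat_lit 0),Row.mk (nat_lit 12432) (nat_lit 32912) (nat_lit 188) (nat_lit 61710) (nat_lit 8388483) (nat_lit 0) (nat_lit 0),Row.mk (nat_lit 12600) (nat_lit 32912) (nat_lit 219) (nat_lit 61710) (nat_lit 8388452) (nat_lit 0) (nat_lit 0),Row.mk (nat_lit 12768) (nat_lit 32912) (nat_lit 258) (nat_lit 61710) (nat_lit 8388413) (nat_lit 0) (nat_lit 0),Row.mk (nat_lit 12936) (nat_lit 32912) (nat_lit 307) (nat_lit 61710) (nat_lit 8388364) (nat_lit 0) (nat_lit 0),Row.mk (nat_lit 13104) (nat_lit 32912) (nat_lit 367) (nat_lit 61710) (nat_lit 8388304) (nat_lit 0) (nat_lit 0),Row.mk (nat_lit 13272) (nat_lit 32912) (nat_lit 443) (nat_lit 61710) (nat_lit 8388228) (nat_lit 0) (nat_lit 0),Row.mk (nat_lit 13440) (nat_lit 32912) (nat_lit 537) (nat_lit 61710) (nat_lit 8388134) (nat_lit 0) (nat_lit 0),Row.mk (nat_lit 13608) (nat_lit 32912) (nat_lit 655) (nat_lit 61710) (nat_lit 8388016) (nat_lit 0) (nat_lit 0),Row.mk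 (nat_lit 13776) (nat_lit 32912) (nat_lit 802) (nat_lit 61710) (nat_lit 8387869) (nat_lit 0) (nat_lit 0),Row.mk (nat_lit 13944) (nat_lit 32912) (nat_lit 986) (nat_lit 61710) (nat_lit 8387685) (nat_lit 0) (nat_lit 0),Row.mk (nat_lit 14112) (nat_lit 32912) (nat_lit 1216) (nat_lit 61710) (nat_lit 8387455) (nat_lit 0) (nat_lit 0),Row.mk (nat_lit 14280) (nat_lit 32912) (nat_lit 1503) (nat_lit 61710) (nat_lit 8387168) (nat_lit 0) (nat_lit 0),Row.mk (nat_lit 14448) (nat_lit 32912) (nat_lit 1861) (nat_lit 61710) (nat_lit 8386810) (nat_lit 0) (nat_lit 0),Row.mk (nat_lit 14616) (nat_lit 32912) (nat_lit 2308) (nat_lit 61710) (nat_lit 8386363) (nat_lit 0) (nat_lit 0),Row.mk (nat_lit 14784) (nat_lit 32912) (nat_lit 2867) (nat_lit 61710) (nat_lit 8385804) (nat_lit 0) (nat_lit 0),Row.mk (nat_lit 14952) (nat_lit 32912) (nat_lit 3565) (nat_lit 61710) (nat_lit 8385106) (nat_lit 0) (nat_lit 0),Row.mk (nat_lit 15120) (nat_lit 32912) (nat_lit 4437) (nat_lit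 61710) (nat_lit 8384234) (nat_lit 0) (nat_lit 0),Row.mk (nat_lit 15288) (nat_lit 32912) (nat_lit 5526) (nat_lit 61710) (nat_lit 8383145) (nat_lit 0) (nat_lit 0),Row.mk (nat_lit 15456) (nat_lit 32912) (nat_lit 6886) (nat_lit 61710) (nat_lit 8381785) (nat_lit 0) (nat_lit 0),Row.mk (nat_lit 15624) (nat_lit 60962) (nat_lit 277) (nat_lit 61336) (nat_lit 43) (nat_lit 61523) (nat_lit 8264),Row.mk (nat_lit 15792) (nat_lit 60401) (nat_lit 253) (nat_lit 60775) (nat_lit 67) (nat_lit 60962) (nat_lit 10386),Row.mk (nat_lit 15960) (nat_lit 59840) (nat_lit 215) (nat_lit 60214) (nat_lit 105) (nat_lit 60401) (nat_lit 13036),Row.mk (nat_lit 16128) (nat_lit 59279) (nat_lit 156) (nat_lit 59653) (nat_lit 164) (nat_lit 59840) (nat_lit 16346),Row.mk (nat_lit 16296) (nat_lit 58718) (nat_lit 64) (nat_lit 59092) (nat_lit 256) (nat_lit 59279) (nat_lit 20479),Row.mk (nat_lit 16464) (nat_lit 58531) (nat_lit 320) (nat_lit 58718) (nat_lit 25578) (nat_lit 59092)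 (nat_lit 64),Row.mk (nat_lit 16632) (nat_lit 57970) (nat_lit 319) (nat_lit 58157) (nat_lit 31847) (nat_lit 58531) (nat_lit 243),Row.mk (nat_lit 16800) (nat_lit 57409) (nat_lit 319) (nat_lit 57596) (nat_lit 39621) (nat_lit 57970) (nat_lit 524),Row.mk (nat_lit 16968) (nat_lit 56848) (nat_lit 319) (nat_lit 57035) (nat_lit 49242) (nat_lit 57409) (nat_lit 961),Row.mk (nat_lit 17136) (nat_lit 56287) (nat_lit 318) (nat_lit 56474) (nat_lit 61123) (nat_lit 56848) (nat_lit 1644),Row.mk (nat_lit 17304) (nat_lit 55726) (nat_lit 318) (nat_lit 55913) (nat_lit 75750) (nat_lit 56287) (nat_lit 2709),Row.mk (nat_lit 17472) (nat_lit 55165) (nat_lit 317) (nat_lit 55352) (nat_lit 93688) (nat_lit 55726) (nat_lit 4370),Row.mk (nat_lit 17640) (nat_lit 54604) (nat_lit 316) (nat_lit 54791) (nat_lit 115575) (nat_lit 55165) (nat_lit 6961),Row.mk (nat_lit 17808) (nat_lit 54043) (nat_lit 315) (nat_lit 54230) (nat_lit 142106) (nat_lit 54604) (nat_lit 11004),Row.mk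 (nat_lit 17976) (nat_lit 53482) (nat_lit 313) (nat_lit 53669) (nat_lit 173985) (nat_lit 54043) (nat_lit 17309),Row.mk (nat_lit 18144) (nat_lit 52921) (nat_lit 312) (nat_lit 53108) (nat_lit 211841) (nat_lit 53482) (nat_lit 27146),Row.mk (nat_lit 18312) (nat_lit 52360) (nat_lit 309) (nat_lit 52547) (nat_lit 256062) (nat_lit 52921) (nat_lit 42490),Row.mk (nat_lit 18480) (nat_lit 51799) (nat_lit 306) (nat_lit 51986) (nat_lit 306523) (nat_lit 52360) (nat_lit 66426),Row.mk (nat_lit 18648) (nat_lit 51238) (nat_lit 303) (nat_lit 51425) (nat_lit 362104) (nat_lit 51799) (nat_lit 103765),Row.mk (nat_lit 18816) (nat_lit 50677) (nat_lit 298) (nat_lit 50864) (nat_lit 419911) (nat_lit 51238) (nat_lit 162011),Row.mk (nat_lit 18984) (nat_lit 50116) (nat_lit 293) (nat_lit 50303) (nat_lit 473999) (nat_lit 50677) (nat_lit 252872),Row.mk (nat_lit 19152) (nat_lit 49555) (nat_lit 286) (nat_lit 49742) (nat_lit 513299) (nat_lit 50116) (nat_lit 394610),Row.mk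 (nat_lit 19320) (nat_lit 48994) (nat_lit 277) (nat_lit 49181) (nat_lit 518309) (nat_lit 49555) (nat_lit 615713),Row.mk (nat_lit 19488) (nat_lit 48433) (nat_lit 266) (nat_lit 48620) (nat_lit 455810) (nat_lit 48994) (nat_lit 960619),Row.mk (nat_lit 19656) (nat_lit 47685) (nat_lit 253) (nat_lit 47872) (nat_lit 270497) (nat_lit 48433) (nat_lit 1498654),Row.mk (nat_lit 19824) (nat_lit 47498) (nat_lit 236) (nat_lit 47685) (nat_lit 2107185) (nat_lit 48246) (nat_lit 102505),Row.mk (nat_lit 19992) (nat_lit 46563) (nat_lit 215) (nat_lit 46750) (nat_lit 2049665) (nat_lit 47498) (nat_lit 710249),Row.mk (nat_lit 20160) (nat_lit 45628) (nat_lit 189) (nat_lit 45815) (nat_lit 1651850) (nat_lit 46563) (nat_lit 1795281),Row.mk (nat_lit 20328) (nat_lit 44506) (nat_lit 156) (nat_lit 44693) (nat_lit 646487) (nat_lit 45628) (nat_lit 3658961),Row.mk (nat_lit 20496) (nat_lit 44319) (nat_lit 115) (nat_lit 44506) (nat_lit 4254704) (nat_lit 45441) (nat_lit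 1122761),Row.mk (nat_lit 20664) (nat_lit 43010) (nat_lit 64) (nat_lit 43197) (nat_lit 2553956) (nat_lit 44319) (nat_lit 4162432),Row.mk (nat_lit 20832) (nat_lit 43010) (nat_lit 7495371) (nat_lit 44132) (nat_lit 893300) (nat_lit 0) (nat_lit 0),Row.mk (nat_lit 21000) (nat_lit 41327) (nat_lit 3983940) (nat_lit 42823) (nat_lit 6493228) (nat_lit 43010) (nat_lit 64),Row.mk (nat_lit 21168) (nat_lit 41140) (nat_lit 10353282) (nat_lit 42636) (nat_lit 2732368) (nat_lit 42823) (nat_lit 143),Row.mk (nat_lit 21336) (nat_lit 38896) (nat_lit 2453751) (nat_lit 40953) (nat_lit 13889831) (nat_lit 41140) (nat_lit 243),Row.mk (nat_lit 21504) (nat_lit 38709) (nat_lit 9780985) (nat_lit 40766) (nat_lit 10631675) (nat_lit 40953) (nat_lit 368),Row.mk (nat_lit 21672) (nat_lit 38522) (nat_lit 18932524) (nat_lit 40579) (nat_lit 6562316) (nat_lit 40766) (nat_lit 524),Row.mk (nat_lit 21840) (nat_lit 38335) (nat_lit 30362575) (nat_lit 40392) (nat_lit 1479786) (nat_lit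 40579) (nat_lit 718),Row.mk (nat_lit 22008) (nat_lit 31603) (nat_lit 6079027) (nat_lit 38148) (nat_lit 33691233) (nat_lit 38335) (nat_lit 961),Row.mk (nat_lit 22176) (nat_lit 31416) (nat_lit 15981086) (nat_lit 37961) (nat_lit 33690930) (nat_lit 38148) (nat_lit 1265),Row.mk (nat_lit 22344) (nat_lit 31229) (nat_lit 28348519) (nat_lit 37774) (nat_lit 33690551) (nat_lit 37961) (nat_lit 1644),Row.mk (nat_lit 22512) (nat_lit 31042) (nat_lit 43795145) (nat_lit 37587) (nat_lit 33690077) (nat_lit 37774) (nat_lit 2118),Row.mk (nat_lit 22680) (nat_lit 30855) (nat_lit 63087608) (nat_lit 37400) (nat_lit 33689486) (nat_lit 37587) (nat_lit 2709),Row.mk (nat_lit 22848) (nat_lit 30668) (nat_lit 87183428) (nat_lit 37213) (nat_lit 33688747) (nat_lit 37400) (nat_lit 3448),Row.mk (nat_lit 23016) (nat_lit 30481) (nat_lit 117278527) (nat_lit 37026) (nat_lit 33687825) (nat_lit 37213) (nat_lit 4370),Row.mk (nat_lit 23184) (nat_lit 30294) (nat_lit 154866579)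 (nat_lit 36839) (nat_lit 33686673) (nat_lit 37026) (nat_lit 5522),Row.mk (nat_lit 23352) (nat_lit 30107) (nat_lit 201813150) (nat_lit 36652) (nat_lit 33685233) (nat_lit 36839) (nat_lit 6961),Row.mk (nat_lit 23520) (nat_lit 29920) (nat_lit 260448284) (nat_lit 36465) (nat_lit 33683436) (nat_lit 36652) (nat_lit 8759),Row.mk (nat_lit 23688) (nat_lit 29733) (nat_lit 333682151) (nat_lit 36278) (nat_lit 33681191) (nat_lit 36465) (nat_lit 11004),Row.mk (nat_lit 23856) (nat_lit 29546) (nat_lit 425149485) (nat_lit 36091) (nat_lit 33678387) (nat_lit 36278) (nat_lit 13807),Row.mk (nat_lit 24024) (nat_lit 29359) (nat_lit 539389979) (nat_lit 35904) (nat_lit 33674886) (nat_lit 36091) (nat_lit 17309),Row.mk (nat_lit 24192) (nat_lit 29172) (nat_lit 682073600) (nat_lit 35717) (nat_lit 33670512) (nat_lit 35904) (nat_lit 21683),Row.mk (nat_lit 24360) (nat_lit 28985) (nat_lit 860282001) (nat_lit 35530) (nat_lit 33665049) (nat_lit 35717) (nat_lit 27146),Row.mk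 (nat_lit 24528) (nat_lit 28798) (nat_lit 1082859994) (nat_lit 35343) (nat_lit 33658226) (nat_lit 35530) (nat_lit 33968),Row.mk (nat_lit 24696) (nat_lit 28611) (nat_lit 1360854537) (nat_lit 35156) (nat_lit 33649705) (nat_lit 35343) (nat_lit 42490),Row.mk (nat_lit 24864) (nat_lit 28424) (nat_lit 1708063016) (nat_lit 34969) (nat_lit 33639062) (nat_lit 35156) (nat_lit 53133),Row.mk (nat_lit 25032) (nat_lit 28237) (nat_lit 2141718031) (nat_lit 34782) (nat_lit 33625769) (nat_lit 34969) (nat_lit 66426),Row.mk (nat_lit 25200) (nat_lit 28050) (nat_lit 2683342682) (nat_lit 34595) (nat_lit 33609166) (nat_lit 34782) (nat_lit 83029),Row.mk (nat_lit 25368) (nat_lit 27863) (nat_lit 3359818806) (nat_lit 34408) (nat_lit 33588430) (nat_lit 34595) (nat_lit 103765),Row.mk (nat_lit 25536) (nat_lit 27676) (nat_lit 4204721165) (nat_lit 34221) (nat_lit 33562531) (nat_lit 34408) (nat_lit 129664),Row.mk (nat_lit 25704) (nat_lit 27489) (nat_lit 5259983829)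 (nat_lit 34034) (nat_lit 33530184) (nat_lit 34221) (nat_lit 162011),Row.mk (nat_lit 25872) (nat_lit 27302) (nat_lit 6577981440) (nat_lit 33847) (nat_lit 33489782) (nat_lit 34034) (nat_lit 202412)],
[Row.mk (nat_lit 10920) (nat_lit 32912) (nat_lit 96) (nat_lit 61710) (nat_lit 8388528) (nat_lit 0) (nat_lit 0),Row.mk (nat_lit 11088) (nat_lit 32912) (nat_lit 101) (nat_lit 61710) (nat_lit 8388528) (nat_lit 0) (nat_lit 0),Row.mk (nat_lit 11256) (nat_lit 32912) (nat_lit 106) (nat_lit 61710) (nat_lit 8388528) (nat_lit 0) (nat_lit 0),Row.mk (nat_lit 11424) (nat_lit 32912) (nat_lit 112) (nat_lit 61710) (nat_lit 8388528) (nat_lit 0) (nat_lit 0),Row.mk (nat_lit 11592) (nat_lit 32912) (nat_lit 121) (nat_lit 61710) (nat_lit 8388528) (nat_lit 0) (nat_lit 0),Row.mk (nat_lit 11760) (nat_lit 32912) (nat_lit 131) (nat_lit 61710) (nat_lit 8388528) (nat_lit 0) (nat_lit 0),Row.mk (nat_lit 11928) (nat_lit 32912) (nat_lit 143) (nat_lit 61710) (nat_lit 8388528)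 (nat_lit 0) (nat_lit 0),Row.mk (nat_lit 12096) (nat_lit 32912) (nat_lit 159) (nat_lit 61710) (nat_lit 8388528) (nat_lit 0) (nat_lit 0),Row.mk (nat_lit 12264) (nat_lit 32912) (nat_lit 179) (nat_lit 61710) (nat_lit 8388508) (nat_lit 0) (nat_lit 0),Row.mk (nat_lit 12432) (nat_lit 32912) (nat_lit 204) (nat_lit 61710) (nat_lit 8388483) (nat_lit 0) (nat_lit 0),Row.mk (nat_lit 12600) (nat_lit 32912) (nat_lit 235) (nat_lit 61710) (nat_lit 8388452) (nat_lit 0) (nat_lit 0),Row.mk (nat_lit 12768) (nat_lit 32912) (nat_lit 274) (nat_lit 61710) (nat_lit 8388413) (nat_lit 0) (nat_lit 0),Row.mk (nat_lit 12936) (nat_lit 32912) (nat_lit 322) (nat_lit 61710) (nat_lit 8388364) (nat_lit 0) (nat_lit 0),Row.mk (nat_lit 13104) (nat_lit 32912) (nat_lit 383) (nat_lit 61710) (nat_lit 8388304) (nat_lit 0) (nat_lit 0),Row.mk (nat_lit 13272) (nat_lit 32912) (nat_lit 459) (nat_lit 61710) (nat_lit 8388228) (nat_lit 0) (nat_lit 0),Row.mk (nat_lit 13440) (nat_lit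 32912) (nat_lit 553) (nat_lit 61710) (nat_lit 8388134) (nat_lit 0) (nat_lit 0),Row.mk (nat_lit 13608) (nat_lit 32912) (nat_lit 671) (nat_lit 61710) (nat_lit 8388016) (nat_lit 0) (nat_lit 0),Row.mk (nat_lit 13776) (nat_lit 32912) (nat_lit 818) (nat_lit 61710) (nat_lit 8387869) (nat_lit 0) (nat_lit 0),Row.mk (nat_lit 13944) (nat_lit 32912) (nat_lit 1002) (nat_lit 61710) (nat_lit 8387685) (nat_lit 0) (nat_lit 0),Row.mk (nat_lit 14112) (nat_lit 32912) (nat_lit 1232) (nat_lit 61710) (nat_lit 8387455) (nat_lit 0) (nat_lit 0),Row.mk (nat_lit 14280) (nat_lit 32912) (nat_lit 1519) (nat_lit 61710) (nat_lit 8387168) (nat_lit 0) (nat_lit 0),Row.mk (nat_lit 14448) (nat_lit 32912) (nat_lit 1877) (nat_lit 61710) (nat_lit 8386810) (nat_lit 0) (nat_lit 0),Row.mk (nat_lit 14616) (nat_lit 32912) (nat_lit 2324) (nat_lit 61710) (nat_lit 8386363) (nat_lit 0) (nat_lit 0),Row.mk (nat_lit 14784) (nat_lit 32912) (nat_lit 2883) (nat_lit 61710) (nat_lit 8385804)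 (nat_lit 0) (nat_lit 0),Row.mk (nat_lit 14952) (nat_lit 32912) (nat_lit 3581) (nat_lit 61710) (nat_lit 8385106) (nat_lit 0) (nat_lit 0),Row.mk (nat_lit 15120) (nat_lit 32912) (nat_lit 4453) (nat_lit 61710) (nat_lit 8384234) (nat_lit 0) (nat_lit 0),Row.mk (nat_lit 15288) (nat_lit 32912) (nat_lit 5542) (nat_lit 61710) (nat_lit 8383145) (nat_lit 0) (nat_lit 0),Row.mk (nat_lit 15456) (nat_lit 32912) (nat_lit 6902) (nat_lit 61710) (nat_lit 8381785) (nat_lit 0) (nat_lit 0),Row.mk (nat_lit 15624) (nat_lit 60962) (nat_lit 357) (nat_lit 61336) (nat_lit 43) (nat_lit 61523) (nat_lit 8200),Row.mk (nat_lit 15792) (nat_lit 60401) (nat_lit 333) (nat_lit 60775) (nat_lit 67) (nat_lit 60962) (nat_lit 10322),Row.mk (nat_lit 15960) (nat_lit 59840) (nat_lit 295) (nat_lit 60214) (nat_lit 105) (nat_lit 60401) (nat_lit 12972),Row.mk (nat_lit 16128) (nat_lit 59279) (nat_lit 236) (nat_lit 59653) (nat_lit 164) (nat_lit 59840) (nat_lit 16282),Row.mk (nat_lit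 16296) (nat_lit 58718) (nat_lit 143) (nat_lit 59092) (nat_lit 256) (nat_lit 59279) (nat_lit 20416),Row.mk (nat_lit 16464) (nat_lit 58531) (nat_lit 399) (nat_lit 58718) (nat_lit 25579) (nat_lit 0) (nat_lit 0),Row.mk (nat_lit 16632) (nat_lit 57970) (nat_lit 399) (nat_lit 58157) (nat_lit 31847) (nat_lit 58531) (nat_lit 179),Row.mk (nat_lit 16800) (nat_lit 57409) (nat_lit 399) (nat_lit 57596) (nat_lit 39621) (nat_lit 57970) (nat_lit 460),Row.mk (nat_lit 16968) (nat_lit 56848) (nat_lit 398) (nat_lit 57035) (nat_lit 49243) (nat_lit 57409) (nat_lit 897),Row.mk (nat_lit 17136) (nat_lit 56287) (nat_lit 398) (nat_lit 56474) (nat_lit 61124) (nat_lit 56848) (nat_lit 1580),Row.mk (nat_lit 17304) (nat_lit 55726) (nat_lit 397) (nat_lit 55913) (nat_lit 75751) (nat_lit 56287) (nat_lit 2645),Row.mk (nat_lit 17472) (nat_lit 55165) (nat_lit 396) (nat_lit 55352) (nat_lit 93689) (nat_lit 55726) (nat_lit 4306),Row.mk (nat_lit 17640) (nat_lit 54604) (nat_lit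 395) (nat_lit 54791) (nat_lit 115576) (nat_lit 55165) (nat_lit 6897),Row.mk (nat_lit 17808) (nat_lit 54043) (nat_lit 393) (nat_lit 54230) (nat_lit 142107) (nat_lit 54604) (nat_lit 10940),Row.mk (nat_lit 17976) (nat_lit 53482) (nat_lit 391) (nat_lit 53669) (nat_lit 173987) (nat_lit 54043) (nat_lit 17245),Row.mk (nat_lit 18144) (nat_lit 52921) (nat_lit 389) (nat_lit 53108) (nat_lit 211843) (nat_lit 53482) (nat_lit 27082),Row.mk (nat_lit 18312) (nat_lit 52360) (nat_lit 386) (nat_lit 52547) (nat_lit 256065) (nat_lit 52921) (nat_lit 42426),Row.mk (nat_lit 18480) (nat_lit 51799) (nat_lit 383) (nat_lit 51986) (nat_lit 306526) (nat_lit 52360) (nat_lit 66362),Row.mk (nat_lit 18648) (nat_lit 51238) (nat_lit 378) (nat_lit 51425) (nat_lit 362108) (nat_lit 51799) (nat_lit 103701),Row.mk (nat_lit 18816) (nat_lit 50677) (nat_lit 373) (nat_lit 50864) (nat_lit 419917) (nat_lit 51238) (nat_lit 161947),Row.mk (nat_lit 18984) (nat_lit 50116) (nat_lit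 366) (nat_lit 50303) (nat_lit 474006) (nat_lit 50677) (nat_lit 252808),Row.mk (nat_lit 19152) (nat_lit 49555) (nat_lit 357) (nat_lit 49742) (nat_lit 513308) (nat_lit 50116) (nat_lit 394546),Row.mk (nat_lit 19320) (nat_lit 48994) (nat_lit 346) (nat_lit 49181) (nat_lit 518320) (nat_lit 49555) (nat_lit 615649),Row.mk (nat_lit 19488) (nat_lit 48433) (nat_lit 333) (nat_lit 48620) (nat_lit 455824) (nat_lit 48994) (nat_lit 960555),Row.mk (nat_lit 19656) (nat_lit 47685) (nat_lit 316) (nat_lit 47872) (nat_lit 270514) (nat_lit 48433) (nat_lit 1498590),Row.mk (nat_lit 19824) (nat_lit 47498) (nat_lit 295) (nat_lit 47685) (nat_lit 2107206) (nat_lit 48246) (nat_lit 102441),Row.mk (nat_lit 19992) (nat_lit 46563) (nat_lit 269) (nat_lit 46750) (nat_lit 2049692) (nat_lit 47498) (nat_lit 710185),Row.mk (nat_lit 20160) (nat_lit 45628) (nat_lit 236) (nat_lit 45815) (nat_lit 1651883) (nat_lit 46563) (nat_lit 1795217),Row.mk (nat_lit 20328) (nat_lit 44506)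 (nat_lit 195) (nat_lit 44693) (nat_lit 646528) (nat_lit 45628) (nat_lit 3658897),Row.mk (nat_lit 20496) (nat_lit 44319) (nat_lit 143) (nat_lit 44506) (nat_lit 4254755) (nat_lit 45441) (nat_lit 1122697),Row.mk (nat_lit 20664) (nat_lit 43010) (nat_lit 79) (nat_lit 43197) (nat_lit 2554020) (nat_lit 44319) (nat_lit 4162368),Row.mk (nat_lit 20832) (nat_lit 43010) (nat_lit 7495451) (nat_lit 44132) (nat_lit 893236) (nat_lit 0) (nat_lit 0),Row.mk (nat_lit 21000) (nat_lit 41327) (nat_lit 3984020) (nat_lit 42823) (nat_lit 6493148) (nat_lit 43010) (nat_lit 79),Row.mk (nat_lit 21168) (nat_lit 41140) (nat_lit 10353362) (nat_lit 42636) (nat_lit 2732268) (nat_lit 42823) (nat_lit 179),Row.mk (nat_lit 21336) (nat_lit 38896) (nat_lit 2453831) (nat_lit 40953) (nat_lit 13889706) (nat_lit 41140) (nat_lit 304),Row.mk (nat_lit 21504) (nat_lit 38709) (nat_lit 9781065) (nat_lit 40766) (nat_lit 10631519) (nat_lit 40953) (nat_lit 460),Row.mk (nat_lit 21672)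 (nat_lit 38522) (nat_lit 18932604) (nat_lit 40579) (nat_lit 6562122) (nat_lit 40766) (nat_lit 654),Row.mk (nat_lit 21840) (nat_lit 38335) (nat_lit 30362655) (nat_lit 40392) (nat_lit 1479543) (nat_lit 40579) (nat_lit 897),Row.mk (nat_lit 22008) (nat_lit 31603) (nat_lit 6079107) (nat_lit 38148) (nat_lit 33690930) (nat_lit 38335) (nat_lit 1201),Row.mk (nat_lit 22176) (nat_lit 31416) (nat_lit 15981166) (nat_lit 37961) (nat_lit 33690551) (nat_lit 38148) (nat_lit 1580),Row.mk (nat_lit 22344) (nat_lit 31229) (nat_lit 28348599) (nat_lit 37774) (nat_lit 33690077) (nat_lit 37961) (nat_lit 2054),Row.mk (nat_lit 22512) (nat_lit 31042) (nat_lit 43795225) (nat_lit 37587) (nat_lit 33689486) (nat_lit 37774) (nat_lit 2645),Row.mk (nat_lit 22680) (nat_lit 30855) (nat_lit 63087688) (nat_lit 37400) (nat_lit 33688747) (nat_lit 37587) (nat_lit 3384),Row.mk (nat_lit 22848) (nat_lit 30668) (nat_lit 87183508) (nat_lit 37213) (nat_lit 33687825) (nat_lit 37400)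 (nat_lit 4306),Row.mk (nat_lit 23016) (nat_lit 30481) (nat_lit 117278607) (nat_lit 37026) (nat_lit 33686673) (nat_lit 37213) (nat_lit 5458),Row.mk (nat_lit 23184) (nat_lit 30294) (nat_lit 154866659) (nat_lit 36839) (nat_lit 33685233) (nat_lit 37026) (nat_lit 6897),Row.mk (nat_lit 23352) (nat_lit 30107) (nat_lit 201813230) (nat_lit 36652) (nat_lit 33683436) (nat_lit 36839) (nat_lit 8695),Row.mk (nat_lit 23520) (nat_lit 29920) (nat_lit 260448364) (nat_lit 36465) (nat_lit 33681191) (nat_lit 36652) (nat_lit 10940),Row.mk (nat_lit 23688) (nat_lit 29733) (nat_lit 333682231) (nat_lit 36278) (nat_lit 33678387) (nat_lit 36465) (nat_lit 13743),Row.mk (nat_lit 23856) (nat_lit 29546) (nat_lit 425149565) (nat_lit 36091) (nat_lit 33674886) (nat_lit 36278) (nat_lit 17245),Row.mk (nat_lit 24024) (nat_lit 29359) (nat_lit 539390059) (nat_lit 35904) (nat_lit 33670512) (nat_lit 36091) (nat_lit 21619),Row.mk (nat_lit 24192) (nat_lit 29172) (nat_lit 682073680)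 (nat_lit 35717) (nat_lit 33665049) (nat_lit 35904) (nat_lit 27082),Row.mk (nat_lit 24360) (nat_lit 28985) (nat_lit 860282081) (nat_lit 35530) (nat_lit 33658226) (nat_lit 35717) (nat_lit 33904),Row.mk (nat_lit 24528) (nat_lit 28798) (nat_lit 1082860074) (nat_lit 35343) (nat_lit 33649705) (nat_lit 35530) (nat_lit 42426),Row.mk (nat_lit 24696) (nat_lit 28611) (nat_lit 1360854617) (nat_lit 35156) (nat_lit 33639062) (nat_lit 35343) (nat_lit 53069),Row.mk (nat_lit 24864) (nat_lit 28424) (nat_lit 1708063096) (nat_lit 34969) (nat_lit 33625769) (nat_lit 35156) (nat_lit 66362),Row.mk (nat_lit 25032) (nat_lit 28237) (nat_lit 2141718111) (nat_lit 34782) (nat_lit 33609166) (nat_lit 34969) (nat_lit 82965),Row.mk (nat_lit 25200) (nat_lit 28050) (nat_lit 2683342762) (nat_lit 34595) (nat_lit 33588430) (nat_lit 34782) (nat_lit 103701),Row.mk (nat_lit 25368) (nat_lit 27863) (nat_lit 3359818886) (nat_lit 34408) (nat_lit 33562531) (nat_lit 34595) (nat_lit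 129600),Row.mk (nat_lit 25536) (nat_lit 27676) (nat_lit 4204721245) (nat_lit 34221) (nat_lit 33530184) (nat_lit 34408) (nat_lit 161947),Row.mk (nat_lit 25704) (nat_lit 27489) (nat_lit 5259983909) (nat_lit 34034) (nat_lit 33489782) (nat_lit 34221) (nat_lit 202348),Row.mk (nat_lit 25872) (nat_lit 27302) (nat_lit 6577981520) (nat_lit 33847) (nat_lit 33439323) (nat_lit 34034) (nat_lit 252808),Row.mk (nat_lit 26040) (nat_lit 32912) (nat_lit 8388687) (nat_lit 62084) (nat_lit 8249432185) (nat_lit 0) (nat_lit 0)],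
[Row.mk (nat_lit 10752) (nat_lit 32912) (nat_lit 113) (nat_lit 61710) (nat_lit 8388508) (nat_lit 0) (nat_lit 0),Row.mk (nat_lit 10920) (nat_lit 32912) (nat_lit 116) (nat_lit 61710) (nat_lit 8388508) (nat_lit 0) (nat_lit 0),Row.mk (nat_lit 11088) (nat_lit 32912) (nat_lit 120) (nat_lit 61710) (nat_lit 8388508) (nat_lit 0) (nat_lit 0),Row.mk (nat_lit 11256) (nat_lit 32912) (nat_lit 126) (nat_lit 61710) (nat_lit 8388508) (nat_lit 0) (nat_lit 0),Row.mk (nat_lit 11424) (nat_lit 32912) (nat_lit 132) (nat_lit 61710) (nat_lit 8388508) (nat_lit 0) (nat_lit 0),Row.mk (nat_lit 11592) (nat_lit 32912) (nat_lit 140) (nat_lit 61710) (nat_lit 8388508) (nat_lit 0) (nat_lit 0),Row.mk (nat_lit 11760) (nat_lit 32912) (nat_lit 151) (nat_lit 61710) (nat_lit 8388508) (nat_lit 0) (nat_lit 0),Row.mk (nat_lit 11928) (nat_lit 32912) (nat_lit 163) (nat_lit 61710) (nat_lit 8388508) (nat_lit 0) (nat_lit 0),Row.mk (nat_lit 12096) (nat_lit 32912) (nat_lit 179) (nat_lit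 61710) (nat_lit 8388508) (nat_lit 0) (nat_lit 0),Row.mk (nat_lit 12264) (nat_lit 32912) (nat_lit 199) (nat_lit 61710) (nat_lit 8388508) (nat_lit 0) (nat_lit 0),Row.mk (nat_lit 12432) (nat_lit 32912) (nat_lit 224) (nat_lit 61710) (nat_lit 8388483) (nat_lit 0) (nat_lit 0),Row.mk (nat_lit 12600) (nat_lit 32912) (nat_lit 255) (nat_lit 61710) (nat_lit 8388452) (nat_lit 0) (nat_lit 0),Row.mk (nat_lit 12768) (nat_lit 32912) (nat_lit 294) (nat_lit 61710) (nat_lit 8388413) (nat_lit 0) (nat_lit 0),Row.mk (nat_lit 12936) (nat_lit 32912) (nat_lit 342) (nat_lit 61710) (nat_lit 8388364) (nat_lit 0) (nat_lit 0),Row.mk (nat_lit 13104) (nat_lit 32912) (nat_lit 403) (nat_lit 61710) (nat_lit 8388304) (nat_lit 0) (nat_lit 0),Row.mk (nat_lit 13272) (nat_lit 32912) (nat_lit 478) (nat_lit 61710) (nat_lit 8388228) (nat_lit 0) (nat_lit 0),Row.mk (nat_lit 13440) (nat_lit 32912) (nat_lit 573) (nat_lit 61710) (nat_lit 8388134) (nat_lit 0) (nat_lit 0),Row.mk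 (nat_lit 13608) (nat_lit 32912) (nat_lit 691) (nat_lit 61710) (nat_lit 8388016) (nat_lit 0) (nat_lit 0),Row.mk (nat_lit 13776) (nat_lit 32912) (nat_lit 838) (nat_lit 61710) (nat_lit 8387869) (nat_lit 0) (nat_lit 0),Row.mk (nat_lit 13944) (nat_lit 32912) (nat_lit 1022) (nat_lit 61710) (nat_lit 8387685) (nat_lit 0) (nat_lit 0),Row.mk (nat_lit 14112) (nat_lit 32912) (nat_lit 1252) (nat_lit 61710) (nat_lit 8387455) (nat_lit 0) (nat_lit 0),Row.mk (nat_lit 14280) (nat_lit 32912) (nat_lit 1538) (nat_lit 61710) (nat_lit 8387168) (nat_lit 0) (nat_lit 0),Row.mk (nat_lit 14448) (nat_lit 32912) (nat_lit 1897) (nat_lit 61710) (nat_lit 8386810) (nat_lit 0) (nat_lit 0),Row.mk (nat_lit 14616) (nat_lit 32912) (nat_lit 2344) (nat_lit 61710) (nat_lit 8386363) (nat_lit 0) (nat_lit 0),Row.mk (nat_lit 14784) (nat_lit 32912) (nat_lit 2903) (nat_lit 61710) (nat_lit 8385804) (nat_lit 0) (nat_lit 0),Row.mk (nat_lit 14952) (nat_lit 32912) (nat_lit 3601) (nat_lit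 61710) (nat_lit 8385106) (nat_lit 0) (nat_lit 0),Row.mk (nat_lit 15120) (nat_lit 32912) (nat_lit 4473) (nat_lit 61710) (nat_lit 8384234) (nat_lit 0) (nat_lit 0),Row.mk (nat_lit 15288) (nat_lit 32912) (nat_lit 5562) (nat_lit 61710) (nat_lit 8383145) (nat_lit 0) (nat_lit 0),Row.mk (nat_lit 15456) (nat_lit 32912) (nat_lit 6922) (nat_lit 61710) (nat_lit 8381785) (nat_lit 0) (nat_lit 0),Row.mk (nat_lit 15624) (nat_lit 60962) (nat_lit 457) (nat_lit 61336) (nat_lit 42) (nat_lit 61523) (nat_lit 8120),Row.mk (nat_lit 15792) (nat_lit 60401) (nat_lit 433) (nat_lit 60775) (nat_lit 67) (nat_lit 60962) (nat_lit 10242),Row.mk (nat_lit 15960) (nat_lit 59840) (nat_lit 395) (nat_lit 60214) (nat_lit 104) (nat_lit 60401) (nat_lit 12892),Row.mk (nat_lit 16128) (nat_lit 59279) (nat_lit 336) (nat_lit 59653) (nat_lit 163) (nat_lit 59840) (nat_lit 16202),Row.mk (nat_lit 16296) (nat_lit 58718) (nat_lit 243) (nat_lit 59092) (nat_lit 255) (nat_lit 59279) (nat_lit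 20336),Row.mk (nat_lit 16464) (nat_lit 58157) (nat_lit 99) (nat_lit 58531) (nat_lit 399) (nat_lit 58718) (nat_lit 25499),Row.mk (nat_lit 16632) (nat_lit 57970) (nat_lit 499) (nat_lit 58157) (nat_lit 31848) (nat_lit 58531) (nat_lit 99),Row.mk (nat_lit 16800) (nat_lit 57409) (nat_lit 498) (nat_lit 57596) (nat_lit 39621) (nat_lit 57970) (nat_lit 380),Row.mk (nat_lit 16968) (nat_lit 56848) (nat_lit 497) (nat_lit 57035) (nat_lit 49243) (nat_lit 57409) (nat_lit 817),Row.mk (nat_lit 17136) (nat_lit 56287) (nat_lit 497) (nat_lit 56474) (nat_lit 61125) (nat_lit 56848) (nat_lit 1500),Row.mk (nat_lit 17304) (nat_lit 55726) (nat_lit 496) (nat_lit 55913) (nat_lit 75752) (nat_lit 56287) (nat_lit 2565),Row.mk (nat_lit 17472) (nat_lit 55165) (nat_lit 495) (nat_lit 55352) (nat_lit 93690) (nat_lit 55726) (nat_lit 4226),Row.mk (nat_lit 17640) (nat_lit 54604) (nat_lit 493) (nat_lit 54791) (nat_lit 115578) (nat_lit 55165) (nat_lit 6817),Row.mk (nat_lit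 17808) (nat_lit 54043) (nat_lit 491) (nat_lit 54230) (nat_lit 142109) (nat_lit 54604) (nat_lit 10860),Row.mk (nat_lit 17976) (nat_lit 53482) (nat_lit 489) (nat_lit 53669) (nat_lit 173989) (nat_lit 54043) (nat_lit 17165),Row.mk (nat_lit 18144) (nat_lit 52921) (nat_lit 486) (nat_lit 53108) (nat_lit 211846) (nat_lit 53482) (nat_lit 27002),Row.mk (nat_lit 18312) (nat_lit 52360) (nat_lit 483) (nat_lit 52547) (nat_lit 256069) (nat_lit 52921) (nat_lit 42346),Row.mk (nat_lit 18480) (nat_lit 51799) (nat_lit 478) (nat_lit 51986) (nat_lit 306531) (nat_lit 52360) (nat_lit 66282),Row.mk (nat_lit 18648) (nat_lit 51238) (nat_lit 473) (nat_lit 51425) (nat_lit 362114) (nat_lit 51799) (nat_lit 103621),Row.mk (nat_lit 18816) (nat_lit 50677) (nat_lit 466) (nat_lit 50864) (nat_lit 419924) (nat_lit 51238) (nat_lit 161867),Row.mk (nat_lit 18984) (nat_lit 50116) (nat_lit 457) (nat_lit 50303) (nat_lit 474015) (nat_lit 50677) (nat_lit 252728),Row.mk (nat_lit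 19152) (nat_lit 49555) (nat_lit 446) (nat_lit 49742) (nat_lit 513319) (nat_lit 50116) (nat_lit 394466),Row.mk (nat_lit 19320) (nat_lit 48994) (nat_lit 433) (nat_lit 49181) (nat_lit 518333) (nat_lit 49555) (nat_lit 615569),Row.mk (nat_lit 19488) (nat_lit 48433) (nat_lit 416) (nat_lit 48620) (nat_lit 455841) (nat_lit 48994) (nat_lit 960475),Row.mk (nat_lit 19656) (nat_lit 47685) (nat_lit 395) (nat_lit 47872) (nat_lit 270535) (nat_lit 48433) (nat_lit 1498510),Row.mk (nat_lit 19824) (nat_lit 47498) (nat_lit 369) (nat_lit 47685) (nat_lit 2107233) (nat_lit 48246) (nat_lit 102361),Row.mk (nat_lit 19992) (nat_lit 46563) (nat_lit 336) (nat_lit 46750) (nat_lit 2049724) (nat_lit 47498) (nat_lit 710105),Row.mk (nat_lit 20160) (nat_lit 45628) (nat_lit 295) (nat_lit 45815) (nat_lit 1651924) (nat_lit 46563) (nat_lit 1795137),Row.mk (nat_lit 20328) (nat_lit 44506) (nat_lit 243) (nat_lit 44693) (nat_lit 646579) (nat_lit 45628) (nat_lit 3658817),Row.mk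 (nat_lit 20496) (nat_lit 44319) (nat_lit 179) (nat_lit 44506) (nat_lit 4254819) (nat_lit 45441) (nat_lit 1122617),Row.mk (nat_lit 20664) (nat_lit 43010) (nat_lit 99) (nat_lit 43197) (nat_lit 2554100) (nat_lit 44319) (nat_lit 4162288),Row.mk (nat_lit 20832) (nat_lit 43010) (nat_lit 7495550) (nat_lit 44132) (nat_lit 893156) (nat_lit 0) (nat_lit 0),Row.mk (nat_lit 21000) (nat_lit 41327) (nat_lit 3984120) (nat_lit 42823) (nat_lit 6493048) (nat_lit 43010) (nat_lit 99),Row.mk (nat_lit 21168) (nat_lit 41140) (nat_lit 10353462) (nat_lit 42636) (nat_lit 2732143) (nat_lit 42823) (nat_lit 224),Row.mk (nat_lit 21336) (nat_lit 38896) (nat_lit 2453931) (nat_lit 40953) (nat_lit 13889550) (nat_lit 41140) (nat_lit 380),Row.mk (nat_lit 21504) (nat_lit 38709) (nat_lit 9781165) (nat_lit 40766) (nat_lit 10631324) (nat_lit 40953) (nat_lit 574),Row.mk (nat_lit 21672) (nat_lit 38522) (nat_lit 18932704) (nat_lit 40579) (nat_lit 6561879) (nat_lit 40766) (nat_lit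 817),Row.mk (nat_lit 21840) (nat_lit 38335) (nat_lit 30362755) (nat_lit 40392) (nat_lit 1479239) (nat_lit 40579) (nat_lit 1121),Row.mk (nat_lit 22008) (nat_lit 31603) (nat_lit 6079207) (nat_lit 38148) (nat_lit 33690551) (nat_lit 38335) (nat_lit 1500),Row.mk (nat_lit 22176) (nat_lit 31416) (nat_lit 15981266) (nat_lit 37961) (nat_lit 33690077) (nat_lit 38148) (nat_lit 1974),Row.mk (nat_lit 22344) (nat_lit 31229) (nat_lit 28348699) (nat_lit 37774) (nat_lit 33689486) (nat_lit 37961) (nat_lit 2565),Row.mk (nat_lit 22512) (nat_lit 31042) (nat_lit 43795325) (nat_lit 37587) (nat_lit 33688747) (nat_lit 37774) (nat_lit 3304),Row.mk (nat_lit 22680) (nat_lit 30855) (nat_lit 63087788) (nat_lit 37400) (nat_lit 33687825) (nat_lit 37587) (nat_lit 4226),Row.mk (nat_lit 22848) (nat_lit 30668) (nat_lit 87183608) (nat_lit 37213) (nat_lit 33686673) (nat_lit 37400) (nat_lit 5378),Row.mk (nat_lit 23016) (nat_lit 30481) (nat_lit 117278707) (nat_lit 37026)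 (nat_lit 33685233) (nat_lit 37213) (nat_lit 6817),Row.mk (nat_lit 23184) (nat_lit 30294) (nat_lit 154866759) (nat_lit 36839) (nat_lit 33683436) (nat_lit 37026) (nat_lit 8615),Row.mk (nat_lit 23352) (nat_lit 30107) (nat_lit 201813329) (nat_lit 36652) (nat_lit 33681191) (nat_lit 36839) (nat_lit 10860),Row.mk (nat_lit 23520) (nat_lit 29920) (nat_lit 260448463) (nat_lit 36465) (nat_lit 33678387) (nat_lit 36652) (nat_lit 13663),Row.mk (nat_lit 23688) (nat_lit 29733) (nat_lit 333682331) (nat_lit 36278) (nat_lit 33674886) (nat_lit 36465) (nat_lit 17165),Row.mk (nat_lit 23856) (nat_lit 29546) (nat_lit 425149665) (nat_lit 36091) (nat_lit 33670512) (nat_lit 36278) (nat_lit 21539),Row.mk (nat_lit 24024) (nat_lit 29359) (nat_lit 539390159) (nat_lit 35904) (nat_lit 33665049) (nat_lit 36091) (nat_lit 27002),Row.mk (nat_lit 24192) (nat_lit 29172) (nat_lit 682073780) (nat_lit 35717) (nat_lit 33658226) (nat_lit 35904) (nat_lit 33824),Row.mk (nat_lit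 24360) (nat_lit 28985) (nat_lit 860282180) (nat_lit 35530) (nat_lit 33649705) (nat_lit 35717) (nat_lit 42346),Row.mk (nat_lit 24528) (nat_lit 28798) (nat_lit 1082860173) (nat_lit 35343) (nat_lit 33639062) (nat_lit 35530) (nat_lit 52989),Row.mk (nat_lit 24696) (nat_lit 28611) (nat_lit 1360854717) (nat_lit 35156) (nat_lit 33625769) (nat_lit 35343) (nat_lit 66282),Row.mk (nat_lit 24864) (nat_lit 28424) (nat_lit 1708063196) (nat_lit 34969) (nat_lit 33609166) (nat_lit 35156) (nat_lit 82885),Row.mk (nat_lit 25032) (nat_lit 28237) (nat_lit 2141718211) (nat_lit 34782) (nat_lit 33588430) (nat_lit 34969) (nat_lit 103621),Row.mk (nat_lit 25200) (nat_lit 28050) (nat_lit 2683342862) (nat_lit 34595) (nat_lit 33562531) (nat_lit 34782) (nat_lit 129520),Row.mk (nat_lit 25368) (nat_lit 27863) (nat_lit 3359818986) (nat_lit 34408) (nat_lit 33530184) (nat_lit 34595) (nat_lit 161867),Row.mk (nat_lit 25536) (nat_lit 27676) (nat_lit 4204721345) (nat_lit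 34221) (nat_lit 33489782) (nat_lit 34408) (nat_lit 202268),Row.mk (nat_lit 25704) (nat_lit 27489) (nat_lit 5259984009) (nat_lit 34034) (nat_lit 33439323) (nat_lit 34221) (nat_lit 252728),Row.mk (nat_lit 25872) (nat_lit 27302) (nat_lit 6577981620) (nat_lit 33847) (nat_lit 33376299) (nat_lit 34034) (nat_lit 315752),Row.mk (nat_lit 26040) (nat_lit 32912) (nat_lit 8388707) (nat_lit 62084) (nat_lit 8249432185) (nat_lit 0) (nat_lit 0)],
[Row.mk (nat_lit 10752) (nat_lit 32912) (nat_lit 138) (nat_lit 61710) (nat_lit 8388483) (nat_lit 0) (nat_lit 0),Row.mk (nat_lit 10920) (nat_lit 32912) (nat_lit 141) (nat_lit 61710) (nat_lit 8388483) (nat_lit 0) (nat_lit 0),Row.mk (nat_lit 11088) (nat_lit 32912) (nat_lit 145) (nat_lit 61710) (nat_lit 8388483) (nat_lit 0) (nat_lit 0),Row.mk (nat_lit 11256) (nat_lit 32912) (nat_lit 151) (nat_lit 61710) (nat_lit 8388483) (nat_lit 0) (nat_lit 0),Row.mk (nat_lit 11424) (nat_lit 32912) (nat_lit 157) (nat_lit 61710)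 (nat_lit 8388483) (nat_lit 0) (nat_lit 0),Row.mk (nat_lit 11592) (nat_lit 32912) (nat_lit 165) (nat_lit 61710) (nat_lit 8388483) (nat_lit 0) (nat_lit 0),Row.mk (nat_lit 11760) (nat_lit 32912) (nat_lit 175) (nat_lit 61710) (nat_lit 8388483) (nat_lit 0) (nat_lit 0),Row.mk (nat_lit 11928) (nat_lit 32912) (nat_lit 188) (nat_lit 61710) (nat_lit 8388483) (nat_lit 0) (nat_lit 0),Row.mk (nat_lit 12096) (nat_lit 32912) (nat_lit 204) (nat_lit 61710) (nat_lit 8388483) (nat_lit 0) (nat_lit 0),Row.mk (nat_lit 12264) (nat_lit 32912) (nat_lit 224) (nat_lit 61710) (nat_lit 8388483) (nat_lit 0) (nat_lit 0),Row.mk (nat_lit 12432) (nat_lit 32912) (nat_lit 249) (nat_lit 61710) (nat_lit 8388483) (nat_lit 0) (nat_lit 0),Row.mk (nat_lit 12600) (nat_lit 32912) (nat_lit 280) (nat_lit 61710) (nat_lit 8388452) (nat_lit 0) (nat_lit 0),Row.mk (nat_lit 12768) (nat_lit 32912) (nat_lit 319) (nat_lit 61710) (nat_lit 8388413) (nat_lit 0) (nat_lit 0),Row.mk (nat_lit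 12936) (nat_lit 32912) (nat_lit 367) (nat_lit 61710) (nat_lit 8388364) (nat_lit 0) (nat_lit 0),Row.mk (nat_lit 13104) (nat_lit 32912) (nat_lit 428) (nat_lit 61710) (nat_lit 8388304) (nat_lit 0) (nat_lit 0),Row.mk (nat_lit 13272) (nat_lit 32912) (nat_lit 503) (nat_lit 61710) (nat_lit 8388228) (nat_lit 0) (nat_lit 0),Row.mk (nat_lit 13440) (nat_lit 32912) (nat_lit 598) (nat_lit 61710) (nat_lit 8388134) (nat_lit 0) (nat_lit 0),Row.mk (nat_lit 13608) (nat_lit 32912) (nat_lit 716) (nat_lit 61710) (nat_lit 8388016) (nat_lit 0) (nat_lit 0),Row.mk (nat_lit 13776) (nat_lit 32912) (nat_lit 863) (nat_lit 61710) (nat_lit 8387869) (nat_lit 0) (nat_lit 0),Row.mk (nat_lit 13944) (nat_lit 32912) (nat_lit 1047) (nat_lit 61710) (nat_lit 8387685) (nat_lit 0) (nat_lit 0),Row.mk (nat_lit 14112) (nat_lit 32912) (nat_lit 1276) (nat_lit 61710) (nat_lit 8387455) (nat_lit 0) (nat_lit 0),Row.mk (nat_lit 14280) (nat_lit 32912) (nat_lit 1563) (nat_lit 61710)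 (nat_lit 8387168) (nat_lit 0) (nat_lit 0),Row.mk (nat_lit 14448) (nat_lit 32912) (nat_lit 1922) (nat_lit 61710) (nat_lit 8386810) (nat_lit 0) (nat_lit 0),Row.mk (nat_lit 14616) (nat_lit 32912) (nat_lit 2369) (nat_lit 61710) (nat_lit 8386363) (nat_lit 0) (nat_lit 0),Row.mk (nat_lit 14784) (nat_lit 32912) (nat_lit 2928) (nat_lit 61710) (nat_lit 8385804) (nat_lit 0) (nat_lit 0),Row.mk (nat_lit 14952) (nat_lit 32912) (nat_lit 3626) (nat_lit 61710) (nat_lit 8385106) (nat_lit 0) (nat_lit 0),Row.mk (nat_lit 15120) (nat_lit 32912) (nat_lit 4498) (nat_lit 61710) (nat_lit 8384234) (nat_lit 0) (nat_lit 0),Row.mk (nat_lit 15288) (nat_lit 32912) (nat_lit 5587) (nat_lit 61710) (nat_lit 8383145) (nat_lit 0) (nat_lit 0),Row.mk (nat_lit 15456) (nat_lit 32912) (nat_lit 6947) (nat_lit 61710) (nat_lit 8381785) (nat_lit 0) (nat_lit 0),Row.mk (nat_lit 15624) (nat_lit 60962) (nat_lit 582) (nat_lit 61336) (nat_lit 42) (nat_lit 61523) (nat_lit 8021),Row.mk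 (nat_lit 15792) (nat_lit 60401) (nat_lit 557) (nat_lit 60775) (nat_lit 66) (nat_lit 60962) (nat_lit 10142),Row.mk (nat_lit 15960) (nat_lit 59840) (nat_lit 520) (nat_lit 60214) (nat_lit 104) (nat_lit 60401) (nat_lit 12792),Row.mk (nat_lit 16128) (nat_lit 59279) (nat_lit 460) (nat_lit 59653) (nat_lit 163) (nat_lit 59840) (nat_lit 16102),Row.mk (nat_lit 16296) (nat_lit 58718) (nat_lit 368) (nat_lit 59092) (nat_lit 255) (nat_lit 59279) (nat_lit 20236),Row.mk (nat_lit 16464) (nat_lit 58157) (nat_lit 224) (nat_lit 58531) (nat_lit 399) (nat_lit 58718) (nat_lit 25400),Row.mk (nat_lit 16632) (nat_lit 57970) (nat_lit 623) (nat_lit 58157) (nat_lit 31848) (nat_lit 0) (nat_lit 0),Row.mk (nat_lit 16800) (nat_lit 57409) (nat_lit 622) (nat_lit 57596) (nat_lit 39622) (nat_lit 57970) (nat_lit 280),Row.mk (nat_lit 16968) (nat_lit 56848) (nat_lit 621) (nat_lit 57035) (nat_lit 49244) (nat_lit 57409) (nat_lit 718),Row.mk (nat_lit 17136) (nat_lit 56287)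 (nat_lit 621) (nat_lit 56474) (nat_lit 61126) (nat_lit 56848) (nat_lit 1400),Row.mk (nat_lit 17304) (nat_lit 55726) (nat_lit 619) (nat_lit 55913) (nat_lit 75753) (nat_lit 56287) (nat_lit 2465),Row.mk (nat_lit 17472) (nat_lit 55165) (nat_lit 618) (nat_lit 55352) (nat_lit 93692) (nat_lit 55726) (nat_lit 4126),Row.mk (nat_lit 17640) (nat_lit 54604) (nat_lit 616) (nat_lit 54791) (nat_lit 115580) (nat_lit 55165) (nat_lit 6718),Row.mk (nat_lit 17808) (nat_lit 54043) (nat_lit 614) (nat_lit 54230) (nat_lit 142111) (nat_lit 54604) (nat_lit 10760),Row.mk (nat_lit 17976) (nat_lit 53482) (nat_lit 611) (nat_lit 53669) (nat_lit 173992) (nat_lit 54043) (nat_lit 17065),Row.mk (nat_lit 18144) (nat_lit 52921) (nat_lit 607) (nat_lit 53108) (nat_lit 211849) (nat_lit 53482) (nat_lit 26902),Row.mk (nat_lit 18312) (nat_lit 52360) (nat_lit 603) (nat_lit 52547) (nat_lit 256073) (nat_lit 52921) (nat_lit 42246),Row.mk (nat_lit 18480) (nat_lit 51799) (nat_lit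 597) (nat_lit 51986) (nat_lit 306536) (nat_lit 52360) (nat_lit 66182),Row.mk (nat_lit 18648) (nat_lit 51238) (nat_lit 590) (nat_lit 51425) (nat_lit 362121) (nat_lit 51799) (nat_lit 103521),Row.mk (nat_lit 18816) (nat_lit 50677) (nat_lit 582) (nat_lit 50864) (nat_lit 419933) (nat_lit 51238) (nat_lit 161767),Row.mk (nat_lit 18984) (nat_lit 50116) (nat_lit 571) (nat_lit 50303) (nat_lit 474026) (nat_lit 50677) (nat_lit 252628),Row.mk (nat_lit 19152) (nat_lit 49555) (nat_lit 557) (nat_lit 49742) (nat_lit 513332) (nat_lit 50116) (nat_lit 394366),Row.mk (nat_lit 19320) (nat_lit 48994) (nat_lit 541) (nat_lit 49181) (nat_lit 518350) (nat_lit 49555) (nat_lit 615469),Row.mk (nat_lit 19488) (nat_lit 48433) (nat_lit 520) (nat_lit 48620) (nat_lit 455862) (nat_lit 48994) (nat_lit 960376),Row.mk (nat_lit 19656) (nat_lit 47685) (nat_lit 493) (nat_lit 47872) (nat_lit 270561) (nat_lit 48433) (nat_lit 1498410),Row.mk (nat_lit 19824) (nat_lit 47498) (nat_lit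 460) (nat_lit 47685) (nat_lit 2107266) (nat_lit 48246) (nat_lit 102262),Row.mk (nat_lit 19992) (nat_lit 46563) (nat_lit 419) (nat_lit 46750) (nat_lit 2049765) (nat_lit 47498) (nat_lit 710006),Row.mk (nat_lit 20160) (nat_lit 45628) (nat_lit 368) (nat_lit 45815) (nat_lit 1651975) (nat_lit 46563) (nat_lit 1795038),Row.mk (nat_lit 20328) (nat_lit 44506) (nat_lit 304) (nat_lit 44693) (nat_lit 646643) (nat_lit 45628) (nat_lit 3658717),Row.mk (nat_lit 20496) (nat_lit 44319) (nat_lit 224) (nat_lit 44506) (nat_lit 4254899) (nat_lit 45441) (nat_lit 1122517),Row.mk (nat_lit 20664) (nat_lit 43010) (nat_lit 124) (nat_lit 43197) (nat_lit 2554200) (nat_lit 44319) (nat_lit 4162188),Row.mk (nat_lit 20832) (nat_lit 43010) (nat_lit 7495675) (nat_lit 44132) (nat_lit 893057) (nat_lit 0) (nat_lit 0),Row.mk (nat_lit 21000) (nat_lit 41327) (nat_lit 3984245) (nat_lit 42823) (nat_lit 6492923) (nat_lit 43010) (nat_lit 124),Row.mk (nat_lit 21168) (nat_lit 41140)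 (nat_lit 10353587) (nat_lit 42636) (nat_lit 2731988) (nat_lit 42823) (nat_lit 280),Row.mk (nat_lit 21336) (nat_lit 38896) (nat_lit 2454056) (nat_lit 40953) (nat_lit 13889356) (nat_lit 41140) (nat_lit 475),Row.mk (nat_lit 21504) (nat_lit 38709) (nat_lit 9781290) (nat_lit 40766) (nat_lit 10631081) (nat_lit 40953) (nat_lit 718),Row.mk (nat_lit 21672) (nat_lit 38522) (nat_lit 18932828) (nat_lit 40579) (nat_lit 6561575) (nat_lit 40766) (nat_lit 1021),Row.mk (nat_lit 21840) (nat_lit 38335) (nat_lit 30362879) (nat_lit 40392) (nat_lit 1478860) (nat_lit 40579) (nat_lit 1400),Row.mk (nat_lit 22008) (nat_lit 31603) (nat_lit 6079332) (nat_lit 38148) (nat_lit 33690077) (nat_lit 38335) (nat_lit 1874),Row.mk (nat_lit 22176) (nat_lit 31416) (nat_lit 15981391) (nat_lit 37961) (nat_lit 33689486) (nat_lit 38148) (nat_lit 2465),Row.mk (nat_lit 22344) (nat_lit 31229) (nat_lit 28348824) (nat_lit 37774) (nat_lit 33688747) (nat_lit 37961) (nat_lit 3204),Row.mk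 (nat_lit 22512) (nat_lit 31042) (nat_lit 43795450) (nat_lit 37587) (nat_lit 33687825) (nat_lit 37774) (nat_lit 4126),Row.mk (nat_lit 22680) (nat_lit 30855) (nat_lit 63087912) (nat_lit 37400) (nat_lit 33686673) (nat_lit 37587) (nat_lit 5278),Row.mk (nat_lit 22848) (nat_lit 30668) (nat_lit 87183733) (nat_lit 37213) (nat_lit 33685233) (nat_lit 37400) (nat_lit 6718),Row.mk (nat_lit 23016) (nat_lit 30481) (nat_lit 117278832) (nat_lit 37026) (nat_lit 33683436) (nat_lit 37213) (nat_lit 8515),Row.mk (nat_lit 23184) (nat_lit 30294) (nat_lit 154866884) (nat_lit 36839) (nat_lit 33681191) (nat_lit 37026) (nat_lit 10760),Row.mk (nat_lit 23352) (nat_lit 30107) (nat_lit 201813454) (nat_lit 36652) (nat_lit 33678387) (nat_lit 36839) (nat_lit 13564),Row.mk (nat_lit 23520) (nat_lit 29920) (nat_lit 260448588) (nat_lit 36465) (nat_lit 33674886) (nat_lit 36652) (nat_lit 17065),Row.mk (nat_lit 23688) (nat_lit 29733) (nat_lit 333682456) (nat_lit 36278) (nat_lit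 33670512) (nat_lit 36465) (nat_lit 21439),Row.mk (nat_lit 23856) (nat_lit 29546) (nat_lit 425149790) (nat_lit 36091) (nat_lit 33665049) (nat_lit 36278) (nat_lit 26902),Row.mk (nat_lit 24024) (nat_lit 29359) (nat_lit 539390284) (nat_lit 35904) (nat_lit 33658226) (nat_lit 36091) (nat_lit 33725),Row.mk (nat_lit 24192) (nat_lit 29172) (nat_lit 682073905) (nat_lit 35717) (nat_lit 33649705) (nat_lit 35904) (nat_lit 42246),Row.mk (nat_lit 24360) (nat_lit 28985) (nat_lit 860282305) (nat_lit 35530) (nat_lit 33639062) (nat_lit 35717) (nat_lit 52889),Row.mk (nat_lit 24528) (nat_lit 28798) (nat_lit 1082860298) (nat_lit 35343) (nat_lit 33625769) (nat_lit 35530) (nat_lit 66182),Row.mk (nat_lit 24696) (nat_lit 28611) (nat_lit 1360854842) (nat_lit 35156) (nat_lit 33609166) (nat_lit 35343) (nat_lit 82785),Row.mk (nat_lit 24864) (nat_lit 28424) (nat_lit 1708063321) (nat_lit 34969) (nat_lit 33588430) (nat_lit 35156) (nat_lit 103521),Row.mk (nat_lit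 25032) (nat_lit 28237) (nat_lit 2141718335) (nat_lit 34782) (nat_lit 33562531) (nat_lit 34969) (nat_lit 129420),Row.mk (nat_lit 25200) (nat_lit 28050) (nat_lit 2683342987) (nat_lit 34595) (nat_lit 33530184) (nat_lit 34782) (nat_lit 161767),Row.mk (nat_lit 25368) (nat_lit 27863) (nat_lit 3359819110) (nat_lit 34408) (nat_lit 33489782) (nat_lit 34595) (nat_lit 202169),Row.mk (nat_lit 25536) (nat_lit 27676) (nat_lit 4204721469) (nat_lit 34221) (nat_lit 33439323) (nat_lit 34408) (nat_lit 252628),Row.mk (nat_lit 25704) (nat_lit 27489) (nat_lit 5259984134) (nat_lit 34034) (nat_lit 33376299) (nat_lit 34221) (nat_lit 315652),Row.mk (nat_lit 25872) (nat_lit 27302) (nat_lit 6577981745) (nat_lit 33847) (nat_lit 33297585) (nat_lit 34034) (nat_lit 394366),Row.mk (nat_lit 26040) (nat_lit 32912) (nat_lit 8388732) (nat_lit 62084) (nat_lit 8249432185) (nat_lit 0) (nat_lit 0)],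
[Row.mk (nat_lit 10752) (nat_lit 32912) (nat_lit 169) (nat_lit 61710) (nat_lit 8388452) (nat_lit 0) (nat_lit 0),Row.mk (nat_lit 10920) (nat_lit 32912) (nat_lit 172) (nat_lit 61710) (nat_lit 8388452) (nat_lit 0) (nat_lit 0),Row.mk (nat_lit 11088) (nat_lit 32912) (nat_lit 176) (nat_lit 61710) (nat_lit 8388452) (nat_lit 0) (nat_lit 0),Row.mk (nat_lit 11256) (nat_lit 32912) (nat_lit 182) (nat_lit 61710) (nat_lit 8388452) (nat_lit 0) (nat_lit 0),Row.mk (nat_lit 11424) (nat_lit 32912) (nat_lit 188) (nat_lit 61710) (nat_lit 8388452) (nat_lit 0) (nat_lit 0),Row.mk (nat_lit 11592) (nat_lit 32912) (nat_lit 196) (nat_lit 61710) (nat_lit 8388452) (nat_lit 0) (nat_lit 0),Row.mk (nat_lit 11760) (nat_lit 32912) (nat_lit 207) (nat_lit 61710) (nat_lit 8388452) (nat_lit 0) (nat_lit 0),Row.mk (nat_lit 11928) (nat_lit 32912) (nat_lit 219) (nat_lit 61710) (nat_lit 8388452) (nat_lit 0) (nat_lit 0),Row.mk (nat_lit 12096) (nat_lit 32912) (nat_lit 235) (nat_lit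 61710) (nat_lit 8388452) (nat_lit 0) (nat_lit 0),Row.mk (nat_lit 12264) (nat_lit 32912) (nat_lit 255) (nat_lit 61710) (nat_lit 8388452) (nat_lit 0) (nat_lit 0),Row.mk (nat_lit 12432) (nat_lit 32912) (nat_lit 280) (nat_lit 61710) (nat_lit 8388452) (nat_lit 0) (nat_lit 0),Row.mk (nat_lit 12600) (nat_lit 32912) (nat_lit 311) (nat_lit 61710) (nat_lit 8388452) (nat_lit 0) (nat_lit 0),Row.mk (nat_lit 12768) (nat_lit 32912) (nat_lit 350) (nat_lit 61710) (nat_lit 8388413) (nat_lit 0) (nat_lit 0),Row.mk (nat_lit 12936) (nat_lit 32912) (nat_lit 398) (nat_lit 61710) (nat_lit 8388364) (nat_lit 0) (nat_lit 0),Row.mk (nat_lit 13104) (nat_lit 32912) (nat_lit 459) (nat_lit 61710) (nat_lit 8388304) (nat_lit 0) (nat_lit 0),Row.mk (nat_lit 13272) (nat_lit 32912) (nat_lit 534) (nat_lit 61710) (nat_lit 8388228) (nat_lit 0) (nat_lit 0),Row.mk (nat_lit 13440) (nat_lit 32912) (nat_lit 629) (nat_lit 61710) (nat_lit 8388134) (nat_lit 0) (nat_lit 0),Row.mk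 (nat_lit 13608) (nat_lit 32912) (nat_lit 747) (nat_lit 61710) (nat_lit 8388016) (nat_lit 0) (nat_lit 0),Row.mk (nat_lit 13776) (nat_lit 32912) (nat_lit 894) (nat_lit 61710) (nat_lit 8387869) (nat_lit 0) (nat_lit 0),Row.mk (nat_lit 13944) (nat_lit 32912) (nat_lit 1078) (nat_lit 61710) (nat_lit 8387685) (nat_lit 0) (nat_lit 0),Row.mk (nat_lit 14112) (nat_lit 32912) (nat_lit 1307) (nat_lit 61710) (nat_lit 8387455) (nat_lit 0) (nat_lit 0),Row.mk (nat_lit 14280) (nat_lit 32912) (nat_lit 1594) (nat_lit 61710) (nat_lit 8387168) (nat_lit 0) (nat_lit 0),Row.mk (nat_lit 14448) (nat_lit 32912) (nat_lit 1953) (nat_lit 61710) (nat_lit 8386810) (nat_lit 0) (nat_lit 0),Row.mk (nat_lit 14616) (nat_lit 32912) (nat_lit 2400) (nat_lit 61710) (nat_lit 8386363) (nat_lit 0) (nat_lit 0),Row.mk (nat_lit 14784) (nat_lit 32912) (nat_lit 2959) (nat_lit 61710) (nat_lit 8385804) (nat_lit 0) (nat_lit 0),Row.mk (nat_lit 14952) (nat_lit 32912) (nat_lit 3657) (nat_lit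 61710) (nat_lit 8385106) (nat_lit 0) (nat_lit 0),Row.mk (nat_lit 15120) (nat_lit 32912) (nat_lit 4529) (nat_lit 61710) (nat_lit 8384234) (nat_lit 0) (nat_lit 0),Row.mk (nat_lit 15288) (nat_lit 32912) (nat_lit 5618) (nat_lit 61710) (nat_lit 8383145) (nat_lit 0) (nat_lit 0),Row.mk (nat_lit 15456) (nat_lit 32912) (nat_lit 6978) (nat_lit 61710) (nat_lit 8381785) (nat_lit 0) (nat_lit 0),Row.mk (nat_lit 15624) (nat_lit 60962) (nat_lit 738) (nat_lit 61336) (nat_lit 42) (nat_lit 61523) (nat_lit 7896),Row.mk (nat_lit 15792) (nat_lit 60401) (nat_lit 713) (nat_lit 60775) (nat_lit 66) (nat_lit 60962) (nat_lit 10018),Row.mk (nat_lit 15960) (nat_lit 59840) (nat_lit 675) (nat_lit 60214) (nat_lit 104) (nat_lit 60401) (nat_lit 12668),Row.mk (nat_lit 16128) (nat_lit 59279) (nat_lit 616) (nat_lit 59653) (nat_lit 163) (nat_lit 59840) (nat_lit 15978),Row.mk (nat_lit 16296) (nat_lit 58718) (nat_lit 524) (nat_lit 59092) (nat_lit 255) (nat_lit 59279) (nat_lit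 20112),Row.mk (nat_lit 16464) (nat_lit 58157) (nat_lit 380) (nat_lit 58531) (nat_lit 398) (nat_lit 58718) (nat_lit 25275),Row.mk (nat_lit 16632) (nat_lit 57596) (nat_lit 155) (nat_lit 57970) (nat_lit 622) (nat_lit 58157) (nat_lit 31724),Row.mk (nat_lit 16800) (nat_lit 57409) (nat_lit 777) (nat_lit 57596) (nat_lit 39623) (nat_lit 57970) (nat_lit 155),Row.mk (nat_lit 16968) (nat_lit 56848) (nat_lit 776) (nat_lit 57035) (nat_lit 49245) (nat_lit 57409) (nat_lit 593),Row.mk (nat_lit 17136) (nat_lit 56287) (nat_lit 775) (nat_lit 56474) (nat_lit 61127) (nat_lit 56848) (nat_lit 1276),Row.mk (nat_lit 17304) (nat_lit 55726) (nat_lit 774) (nat_lit 55913) (nat_lit 75755) (nat_lit 56287) (nat_lit 2340),Row.mk (nat_lit 17472) (nat_lit 55165) (nat_lit 772) (nat_lit 55352) (nat_lit 93693) (nat_lit 55726) (nat_lit 4002),Row.mk (nat_lit 17640) (nat_lit 54604) (nat_lit 770) (nat_lit 54791) (nat_lit 115582) (nat_lit 55165) (nat_lit 6593),Row.mk (nat_lit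 17808) (nat_lit 54043) (nat_lit 767) (nat_lit 54230) (nat_lit 142114) (nat_lit 54604) (nat_lit 10635),Row.mk (nat_lit 17976) (nat_lit 53482) (nat_lit 763) (nat_lit 53669) (nat_lit 173996) (nat_lit 54043) (nat_lit 16941),Row.mk (nat_lit 18144) (nat_lit 52921) (nat_lit 759) (nat_lit 53108) (nat_lit 211854) (nat_lit 53482) (nat_lit 26777),Row.mk (nat_lit 18312) (nat_lit 52360) (nat_lit 753) (nat_lit 52547) (nat_lit 256079) (nat_lit 52921) (nat_lit 42121),Row.mk (nat_lit 18480) (nat_lit 51799) (nat_lit 746) (nat_lit 51986) (nat_lit 306543) (nat_lit 52360) (nat_lit 66057),Row.mk (nat_lit 18648) (nat_lit 51238) (nat_lit 738) (nat_lit 51425) (nat_lit 362129) (nat_lit 51799) (nat_lit 103396),Row.mk (nat_lit 18816) (nat_lit 50677) (nat_lit 727) (nat_lit 50864) (nat_lit 419943) (nat_lit 51238) (nat_lit 161643),Row.mk (nat_lit 18984) (nat_lit 50116) (nat_lit 713) (nat_lit 50303) (nat_lit 474039) (nat_lit 50677) (nat_lit 252504),Row.mk (nat_lit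 19152) (nat_lit 49555) (nat_lit 696) (nat_lit 49742) (nat_lit 513349) (nat_lit 50116) (nat_lit 394241),Row.mk (nat_lit 19320) (nat_lit 48994) (nat_lit 675) (nat_lit 49181) (nat_lit 518371) (nat_lit 49555) (nat_lit 615344),Row.mk (nat_lit 19488) (nat_lit 48433) (nat_lit 649) (nat_lit 48620) (nat_lit 455888) (nat_lit 48994) (nat_lit 960251),Row.mk (nat_lit 19656) (nat_lit 47685) (nat_lit 616) (nat_lit 47872) (nat_lit 270594) (nat_lit 48433) (nat_lit 1498285),Row.mk (nat_lit 19824) (nat_lit 47498) (nat_lit 575) (nat_lit 47685) (nat_lit 2107307) (nat_lit 48246) (nat_lit 102137),Row.mk (nat_lit 19992) (nat_lit 46563) (nat_lit 524) (nat_lit 46750) (nat_lit 2049817) (nat_lit 47498) (nat_lit 709881),Row.mk (nat_lit 20160) (nat_lit 45628) (nat_lit 460) (nat_lit 45815) (nat_lit 1652039) (nat_lit 46563) (nat_lit 1794913),Row.mk (nat_lit 20328) (nat_lit 44506) (nat_lit 380) (nat_lit 44693) (nat_lit 646723) (nat_lit 45628) (nat_lit 3658592),Row.mk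 (nat_lit 20496) (nat_lit 44319) (nat_lit 280) (nat_lit 44506) (nat_lit 4254999) (nat_lit 45441) (nat_lit 1122392),Row.mk (nat_lit 20664) (nat_lit 43010) (nat_lit 155) (nat_lit 43197) (nat_lit 2554324) (nat_lit 44319) (nat_lit 4162064),Row.mk (nat_lit 20832) (nat_lit 43010) (nat_lit 7495831) (nat_lit 44132) (nat_lit 892932) (nat_lit 0) (nat_lit 0),Row.mk (nat_lit 21000) (nat_lit 41327) (nat_lit 3984400) (nat_lit 42823) (nat_lit 6492768) (nat_lit 43010) (nat_lit 155),Row.mk (nat_lit 21168) (nat_lit 41140) (nat_lit 10353743) (nat_lit 42636) (nat_lit 2731793) (nat_lit 42823) (nat_lit 350),Row.mk (nat_lit 21336) (nat_lit 38896) (nat_lit 2454211) (nat_lit 40953) (nat_lit 13889113) (nat_lit 41140) (nat_lit 593),Row.mk (nat_lit 21504) (nat_lit 38709) (nat_lit 9781445) (nat_lit 40766) (nat_lit 10630778) (nat_lit 40953) (nat_lit 896),Row.mk (nat_lit 21672) (nat_lit 38522) (nat_lit 18932984) (nat_lit 40579) (nat_lit 6561196) (nat_lit 40766)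 (nat_lit 1276),Row.mk (nat_lit 21840) (nat_lit 38335) (nat_lit 30363035) (nat_lit 40392) (nat_lit 1478387) (nat_lit 40579) (nat_lit 1749),Row.mk (nat_lit 22008) (nat_lit 31603) (nat_lit 6079487) (nat_lit 38148) (nat_lit 33689486) (nat_lit 38335) (nat_lit 2340),Row.mk (nat_lit 22176) (nat_lit 31416) (nat_lit 15981547) (nat_lit 37961) (nat_lit 33688747) (nat_lit 38148) (nat_lit 3079),Row.mk (nat_lit 22344) (nat_lit 31229) (nat_lit 28348980) (nat_lit 37774) (nat_lit 33687825) (nat_lit 37961) (nat_lit 4002),Row.mk (nat_lit 22512) (nat_lit 31042) (nat_lit 43795605) (nat_lit 37587) (nat_lit 33686673) (nat_lit 37774) (nat_lit 5154),Row.mk (nat_lit 22680) (nat_lit 30855) (nat_lit 63088068) (nat_lit 37400) (nat_lit 33685233) (nat_lit 37587) (nat_lit 6593),Row.mk (nat_lit 22848) (nat_lit 30668) (nat_lit 87183889) (nat_lit 37213) (nat_lit 33683436) (nat_lit 37400) (nat_lit 8390),Row.mk (nat_lit 23016) (nat_lit 30481) (nat_lit 117278987) (nat_lit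 37026) (nat_lit 33681191) (nat_lit 37213) (nat_lit 10635),Row.mk (nat_lit 23184) (nat_lit 30294) (nat_lit 154867040) (nat_lit 36839) (nat_lit 33678387) (nat_lit 37026) (nat_lit 13439),Row.mk (nat_lit 23352) (nat_lit 30107) (nat_lit 201813610) (nat_lit 36652) (nat_lit 33674886) (nat_lit 36839) (nat_lit 16941),Row.mk (nat_lit 23520) (nat_lit 29920) (nat_lit 260448744) (nat_lit 36465) (nat_lit 33670512) (nat_lit 36652) (nat_lit 21314),Row.mk (nat_lit 23688) (nat_lit 29733) (nat_lit 333682612) (nat_lit 36278) (nat_lit 33665049) (nat_lit 36465) (nat_lit 26777),Row.mk (nat_lit 23856) (nat_lit 29546) (nat_lit 425149946) (nat_lit 36091) (nat_lit 33658226) (nat_lit 36278) (nat_lit 33600),Row.mk (nat_lit 24024) (nat_lit 29359) (nat_lit 539390440) (nat_lit 35904) (nat_lit 33649705) (nat_lit 36091) (nat_lit 42121),Row.mk (nat_lit 24192) (nat_lit 29172) (nat_lit 682074061) (nat_lit 35717) (nat_lit 33639062) (nat_lit 35904) (nat_lit 52764),Row.mk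 (nat_lit 24360) (nat_lit 28985) (nat_lit 860282461) (nat_lit 35530) (nat_lit 33625769) (nat_lit 35717) (nat_lit 66057),Row.mk (nat_lit 24528) (nat_lit 28798) (nat_lit 1082860454) (nat_lit 35343) (nat_lit 33609166) (nat_lit 35530) (nat_lit 82660),Row.mk (nat_lit 24696) (nat_lit 28611) (nat_lit 1360854998) (nat_lit 35156) (nat_lit 33588430) (nat_lit 35343) (nat_lit 103396),Row.mk (nat_lit 24864) (nat_lit 28424) (nat_lit 1708063477) (nat_lit 34969) (nat_lit 33562531) (nat_lit 35156) (nat_lit 129295),Row.mk (nat_lit 25032) (nat_lit 28237) (nat_lit 2141718491) (nat_lit 34782) (nat_lit 33530184) (nat_lit 34969) (nat_lit 161643),Row.mk (nat_lit 25200) (nat_lit 28050) (nat_lit 2683343142) (nat_lit 34595) (nat_lit 33489782) (nat_lit 34782) (nat_lit 202044),Row.mk (nat_lit 25368) (nat_lit 27863) (nat_lit 3359819266) (nat_lit 34408) (nat_lit 33439323) (nat_lit 34595) (nat_lit 252504),Row.mk (nat_lit 25536) (nat_lit 27676) (nat_lit 4204721625)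 (nat_lit 34221) (nat_lit 33376299) (nat_lit 34408) (nat_lit 315527),Row.mk (nat_lit 25704) (nat_lit 27489) (nat_lit 5259984290) (nat_lit 34034) (nat_lit 33297585) (nat_lit 34221) (nat_lit 394241),Row.mk (nat_lit 25872) (nat_lit 27302) (nat_lit 6577981900) (nat_lit 33847) (nat_lit 33199272) (nat_lit 34034) (nat_lit 492554),Row.mk (nat_lit 26040) (nat_lit 32912) (nat_lit 8388763) (nat_lit 62084) (nat_lit 8249432185) (nat_lit 0) (nat_lit 0)],
[Row.mk (nat_lit 10752) (nat_lit 32912) (nat_lit 208) (nat_lit 61710) (nat_lit 8388413) (nat_lit 0) (nat_lit 0),Row.mk (nat_lit 10920) (nat_lit 32912) (nat_lit 211) (nat_lit 61710) (nat_lit 8388413) (nat_lit 0) (nat_lit 0),Row.mk (nat_lit 11088) (nat_lit 32912) (nat_lit 215) (nat_lit 61710) (nat_lit 8388413) (nat_lit 0) (nat_lit 0),Row.mk (nat_lit 11256) (nat_lit 32912) (nat_lit 220) (nat_lit 61710) (nat_lit 8388413) (nat_lit 0) (nat_lit 0),Row.mk (nat_lit 11424) (nat_lit 32912) (nat_lit 227) (nat_lit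 61710) (nat_lit 8388413) (nat_lit 0) (nat_lit 0),Row.mk (nat_lit 11592) (nat_lit 32912) (nat_lit 235) (nat_lit 61710) (nat_lit 8388413) (nat_lit 0) (nat_lit 0),Row.mk (nat_lit 11760) (nat_lit 32912) (nat_lit 245) (nat_lit 61710) (nat_lit 8388413) (nat_lit 0) (nat_lit 0),Row.mk (nat_lit 11928) (nat_lit 32912) (nat_lit 258) (nat_lit 61710) (nat_lit 8388413) (nat_lit 0) (nat_lit 0),Row.mk (nat_lit 12096) (nat_lit 32912) (nat_lit 274) (nat_lit 61710) (nat_lit 8388413) (nat_lit 0) (nat_lit 0),Row.mk (nat_lit 12264) (nat_lit 32912) (nat_lit 294) (nat_lit 61710) (nat_lit 8388413) (nat_lit 0) (nat_lit 0),Row.mk (nat_lit 12432) (nat_lit 32912) (nat_lit 319) (nat_lit 61710) (nat_lit 8388413) (nat_lit 0) (nat_lit 0),Row.mk (nat_lit 12600) (nat_lit 32912) (nat_lit 350) (nat_lit 61710) (nat_lit 8388413) (nat_lit 0) (nat_lit 0),Row.mk (nat_lit 12768) (nat_lit 32912) (nat_lit 389) (nat_lit 61710) (nat_lit 8388413) (nat_lit 0) (nat_lit 0),Row.mk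 (nat_lit 12936) (nat_lit 32912) (nat_lit 437) (nat_lit 61710) (nat_lit 8388364) (nat_lit 0) (nat_lit 0),Row.mk (nat_lit 13104) (nat_lit 32912) (nat_lit 498) (nat_lit 61710) (nat_lit 8388304) (nat_lit 0) (nat_lit 0),Row.mk (nat_lit 13272) (nat_lit 32912) (nat_lit 573) (nat_lit 61710) (nat_lit 8388228) (nat_lit 0) (nat_lit 0),Row.mk (nat_lit 13440) (nat_lit 32912) (nat_lit 668) (nat_lit 61710) (nat_lit 8388134) (nat_lit 0) (nat_lit 0),Row.mk (nat_lit 13608) (nat_lit 32912) (nat_lit 785) (nat_lit 61710) (nat_lit 8388016) (nat_lit 0) (nat_lit 0),Row.mk (nat_lit 13776) (nat_lit 32912) (nat_lit 933) (nat_lit 61710) (nat_lit 8387869) (nat_lit 0) (nat_lit 0),Row.mk (nat_lit 13944) (nat_lit 32912) (nat_lit 1117) (nat_lit 61710) (nat_lit 8387685) (nat_lit 0) (nat_lit 0),Row.mk (nat_lit 14112) (nat_lit 32912) (nat_lit 1346) (nat_lit 61710) (nat_lit 8387455) (nat_lit 0) (nat_lit 0),Row.mk (nat_lit 14280) (nat_lit 32912) (nat_lit 1633) (nat_lit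 61710) (nat_lit 8387168) (nat_lit 0) (nat_lit 0),Row.mk (nat_lit 14448) (nat_lit 32912) (nat_lit 1991) (nat_lit 61710) (nat_lit 8386810) (nat_lit 0) (nat_lit 0),Row.mk (nat_lit 14616) (nat_lit 32912) (nat_lit 2439) (nat_lit 61710) (nat_lit 8386363) (nat_lit 0) (nat_lit 0),Row.mk (nat_lit 14784) (nat_lit 32912) (nat_lit 2998) (nat_lit 61710) (nat_lit 8385804) (nat_lit 0) (nat_lit 0),Row.mk (nat_lit 14952) (nat_lit 32912) (nat_lit 3696) (nat_lit 61710) (nat_lit 8385106) (nat_lit 0) (nat_lit 0),Row.mk (nat_lit 15120) (nat_lit 32912) (nat_lit 4568) (nat_lit 61710) (nat_lit 8384234) (nat_lit 0) (nat_lit 0),Row.mk (nat_lit 15288) (nat_lit 32912) (nat_lit 5657) (nat_lit 61710) (nat_lit 8383145) (nat_lit 0) (nat_lit 0),Row.mk (nat_lit 15456) (nat_lit 32912) (nat_lit 7017) (nat_lit 61710) (nat_lit 8381785) (nat_lit 0) (nat_lit 0),Row.mk (nat_lit 15624) (nat_lit 60962) (nat_lit 932) (nat_lit 61336) (nat_lit 42) (nat_lit 61523) (nat_lit 7740),Row.mk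 (nat_lit 15792) (nat_lit 60401) (nat_lit 908) (nat_lit 60775) (nat_lit 66) (nat_lit 60962) (nat_lit 9862),Row.mk (nat_lit 15960) (nat_lit 59840) (nat_lit 870) (nat_lit 60214) (nat_lit 104) (nat_lit 60401) (nat_lit 12513),Row.mk (nat_lit 16128) (nat_lit 59279) (nat_lit 811) (nat_lit 59653) (nat_lit 162) (nat_lit 59840) (nat_lit 15823),Row.mk (nat_lit 16296) (nat_lit 58718) (nat_lit 718) (nat_lit 59092) (nat_lit 254) (nat_lit 59279) (nat_lit 19957),Row.mk (nat_lit 16464) (nat_lit 58157) (nat_lit 574) (nat_lit 58531) (nat_lit 398) (nat_lit 58718) (nat_lit 25120),Row.mk (nat_lit 16632) (nat_lit 57596) (nat_lit 350) (nat_lit 57970) (nat_lit 621) (nat_lit 58157) (nat_lit 31569),Row.mk (nat_lit 16800) (nat_lit 57409) (nat_lit 971) (nat_lit 57596) (nat_lit 39624) (nat_lit 0) (nat_lit 0),Row.mk (nat_lit 16968) (nat_lit 56848) (nat_lit 970) (nat_lit 57035) (nat_lit 49246) (nat_lit 57409) (nat_lit 437),Row.mk (nat_lit 17136) (nat_lit 56287)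 (nat_lit 968) (nat_lit 56474) (nat_lit 61128) (nat_lit 56848) (nat_lit 1120),Row.mk (nat_lit 17304) (nat_lit 55726) (nat_lit 966) (nat_lit 55913) (nat_lit 75757) (nat_lit 56287) (nat_lit 2185),Row.mk (nat_lit 17472) (nat_lit 55165) (nat_lit 964) (nat_lit 55352) (nat_lit 93696) (nat_lit 55726) (nat_lit 3846),Row.mk (nat_lit 17640) (nat_lit 54604) (nat_lit 961) (nat_lit 54791) (nat_lit 115585) (nat_lit 55165) (nat_lit 6437),Row.mk (nat_lit 17808) (nat_lit 54043) (nat_lit 958) (nat_lit 54230) (nat_lit 142118) (nat_lit 54604) (nat_lit 10479),Row.mk (nat_lit 17976) (nat_lit 53482) (nat_lit 953) (nat_lit 53669) (nat_lit 174000) (nat_lit 54043) (nat_lit 16785),Row.mk (nat_lit 18144) (nat_lit 52921) (nat_lit 948) (nat_lit 53108) (nat_lit 211859) (nat_lit 53482) (nat_lit 26621),Row.mk (nat_lit 18312) (nat_lit 52360) (nat_lit 941) (nat_lit 52547) (nat_lit 256086) (nat_lit 52921) (nat_lit 41966),Row.mk (nat_lit 18480) (nat_lit 51799) (nat_lit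 932) (nat_lit 51986) (nat_lit 306552) (nat_lit 52360) (nat_lit 65902),Row.mk (nat_lit 18648) (nat_lit 51238) (nat_lit 921) (nat_lit 51425) (nat_lit 362140) (nat_lit 51799) (nat_lit 103240),Row.mk (nat_lit 18816) (nat_lit 50677) (nat_lit 908) (nat_lit 50864) (nat_lit 419957) (nat_lit 51238) (nat_lit 161487),Row.mk (nat_lit 18984) (nat_lit 50116) (nat_lit 891) (nat_lit 50303) (nat_lit 474056) (nat_lit 50677) (nat_lit 252348),Row.mk (nat_lit 19152) (nat_lit 49555) (nat_lit 870) (nat_lit 49742) (nat_lit 513370) (nat_lit 50116) (nat_lit 394086),Row.mk (nat_lit 19320) (nat_lit 48994) (nat_lit 844) (nat_lit 49181) (nat_lit 518397) (nat_lit 49555) (nat_lit 615188),Row.mk (nat_lit 19488) (nat_lit 48433) (nat_lit 811) (nat_lit 48620) (nat_lit 455921) (nat_lit 48994) (nat_lit 960095),Row.mk (nat_lit 19656) (nat_lit 47685) (nat_lit 770) (nat_lit 47872) (nat_lit 270635) (nat_lit 48433) (nat_lit 1498129),Row.mk (nat_lit 19824) (nat_lit 47498) (nat_lit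 718) (nat_lit 47685) (nat_lit 2107358) (nat_lit 48246) (nat_lit 101981),Row.mk (nat_lit 19992) (nat_lit 46563) (nat_lit 654) (nat_lit 46750) (nat_lit 2049881) (nat_lit 47498) (nat_lit 709725),Row.mk (nat_lit 20160) (nat_lit 45628) (nat_lit 574) (nat_lit 45815) (nat_lit 1652119) (nat_lit 46563) (nat_lit 1794757),Row.mk (nat_lit 20328) (nat_lit 44506) (nat_lit 475) (nat_lit 44693) (nat_lit 646823) (nat_lit 45628) (nat_lit 3658436),Row.mk (nat_lit 20496) (nat_lit 44319) (nat_lit 350) (nat_lit 44506) (nat_lit 4255124) (nat_lit 45441) (nat_lit 1122236),Row.mk (nat_lit 20664) (nat_lit 43010) (nat_lit 194) (nat_lit 43197) (nat_lit 2554480) (nat_lit 44319) (nat_lit 4161908),Row.mk (nat_lit 20832) (nat_lit 43010) (nat_lit 7496025) (nat_lit 44132) (nat_lit 892776) (nat_lit 0) (nat_lit 0),Row.mk (nat_lit 21000) (nat_lit 41327) (nat_lit 3984595) (nat_lit 42823) (nat_lit 6492573) (nat_lit 43010) (nat_lit 194),Row.mk (nat_lit 21168) (nat_lit 41140)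 (nat_lit 10353937) (nat_lit 42636) (nat_lit 2731550) (nat_lit 42823) (nat_lit 437),Row.mk (nat_lit 21336) (nat_lit 38896) (nat_lit 2454406) (nat_lit 40953) (nat_lit 13888809) (nat_lit 41140) (nat_lit 741),Row.mk (nat_lit 21504) (nat_lit 38709) (nat_lit 9781640) (nat_lit 40766) (nat_lit 10630399) (nat_lit 40953) (nat_lit 1120),Row.mk (nat_lit 21672) (nat_lit 38522) (nat_lit 18933179) (nat_lit 40579) (nat_lit 6560723) (nat_lit 40766) (nat_lit 1593),Row.mk (nat_lit 21840) (nat_lit 38335) (nat_lit 30363230) (nat_lit 40392) (nat_lit 1477795) (nat_lit 40579) (nat_lit 2185),Row.mk (nat_lit 22008) (nat_lit 31603) (nat_lit 6079682) (nat_lit 38148) (nat_lit 33688747) (nat_lit 38335) (nat_lit 2923),Row.mk (nat_lit 22176) (nat_lit 31416) (nat_lit 15981741) (nat_lit 37961) (nat_lit 33687825) (nat_lit 38148) (nat_lit 3846),Row.mk (nat_lit 22344) (nat_lit 31229) (nat_lit 28349174) (nat_lit 37774) (nat_lit 33686673) (nat_lit 37961) (nat_lit 4998),Row.mk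 (nat_lit 22512) (nat_lit 31042) (nat_lit 43795800) (nat_lit 37587) (nat_lit 33685233) (nat_lit 37774) (nat_lit 6437),Row.mk (nat_lit 22680) (nat_lit 30855) (nat_lit 63088263) (nat_lit 37400) (nat_lit 33683436) (nat_lit 37587) (nat_lit 8234),Row.mk (nat_lit 22848) (nat_lit 30668) (nat_lit 87184083) (nat_lit 37213) (nat_lit 33681191) (nat_lit 37400) (nat_lit 10479),Row.mk (nat_lit 23016) (nat_lit 30481) (nat_lit 117279182) (nat_lit 37026) (nat_lit 33678387) (nat_lit 37213) (nat_lit 13283),Row.mk (nat_lit 23184) (nat_lit 30294) (nat_lit 154867234) (nat_lit 36839) (nat_lit 33674886) (nat_lit 37026) (nat_lit 16785),Row.mk (nat_lit 23352) (nat_lit 30107) (nat_lit 201813805) (nat_lit 36652) (nat_lit 33670512) (nat_lit 36839) (nat_lit 21159),Row.mk (nat_lit 23520) (nat_lit 29920) (nat_lit 260448938) (nat_lit 36465) (nat_lit 33665049) (nat_lit 36652) (nat_lit 26621),Row.mk (nat_lit 23688) (nat_lit 29733) (nat_lit 333682806) (nat_lit 36278)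 (nat_lit 33658226) (nat_lit 36465) (nat_lit 33444),Row.mk (nat_lit 23856) (nat_lit 29546) (nat_lit 425150140) (nat_lit 36091) (nat_lit 33649705) (nat_lit 36278) (nat_lit 41966),Row.mk (nat_lit 24024) (nat_lit 29359) (nat_lit 539390634) (nat_lit 35904) (nat_lit 33639062) (nat_lit 36091) (nat_lit 52609),Row.mk (nat_lit 24192) (nat_lit 29172) (nat_lit 682074255) (nat_lit 35717) (nat_lit 33625769) (nat_lit 35904) (nat_lit 65902),Row.mk (nat_lit 24360) (nat_lit 28985) (nat_lit 860282655) (nat_lit 35530) (nat_lit 33609166) (nat_lit 35717) (nat_lit 82504),Row.mk (nat_lit 24528) (nat_lit 28798) (nat_lit 1082860649) (nat_lit 35343) (nat_lit 33588430) (nat_lit 35530) (nat_lit 103240),Row.mk (nat_lit 24696) (nat_lit 28611) (nat_lit 1360855192) (nat_lit 35156) (nat_lit 33562531) (nat_lit 35343) (nat_lit 129140),Row.mk (nat_lit 24864) (nat_lit 28424) (nat_lit 1708063671) (nat_lit 34969) (nat_lit 33530184) (nat_lit 35156) (nat_lit 161487),Row.mk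 (nat_lit 25032) (nat_lit 28237) (nat_lit 2141718686) (nat_lit 34782) (nat_lit 33489782) (nat_lit 34969) (nat_lit 201888),Row.mk (nat_lit 25200) (nat_lit 28050) (nat_lit 2683343337) (nat_lit 34595) (nat_lit 33439323) (nat_lit 34782) (nat_lit 252348),Row.mk (nat_lit 25368) (nat_lit 27863) (nat_lit 3359819461) (nat_lit 34408) (nat_lit 33376299) (nat_lit 34595) (nat_lit 315371),Row.mk (nat_lit 25536) (nat_lit 27676) (nat_lit 4204721820) (nat_lit 34221) (nat_lit 33297585) (nat_lit 34408) (nat_lit 394086),Row.mk (nat_lit 25704) (nat_lit 27489) (nat_lit 5259984484) (nat_lit 34034) (nat_lit 33199272) (nat_lit 34221) (nat_lit 492398),Row.mk (nat_lit 25872) (nat_lit 27302) (nat_lit 6577982095) (nat_lit 33847) (nat_lit 33076482) (nat_lit 34034) (nat_lit 615188),Row.mk (nat_lit 26040) (nat_lit 32912) (nat_lit 8388802) (nat_lit 62084) (nat_lit 8249432185) (nat_lit 0) (nat_lit 0)],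
[Row.mk (nat_lit 10752) (nat_lit 32912) (nat_lit 256) (nat_lit 61710) (nat_lit 8388364) (nat_lit 0) (nat_lit 0),Row.mk (nat_lit 10920) (nat_lit 32912) (nat_lit 259) (nat_lit 61710) (nat_lit 8388364) (nat_lit 0) (nat_lit 0),Row.mk (nat_lit 11088) (nat_lit 32912) (nat_lit 264) (nat_lit 61710) (nat_lit 8388364) (nat_lit 0) (nat_lit 0),Row.mk (nat_lit 11256) (nat_lit 32912) (nat_lit 269) (nat_lit 61710) (nat_lit 8388364) (nat_lit 0) (nat_lit 0),Row.mk (nat_lit 11424) (nat_lit 32912) (nat_lit 275) (nat_lit 61710) (nat_lit 8388364) (nat_lit 0) (nat_lit 0),Row.mk (nat_lit 11592) (nat_lit 32912) (nat_lit 284) (nat_lit 61710) (nat_lit 8388364) (nat_lit 0) (nat_lit 0),Row.mk (nat_lit 11760) (nat_lit 32912) (nat_lit 294) (nat_lit 61710) (nat_lit 8388364) (nat_lit 0) (nat_lit 0),Row.mk (nat_lit 11928) (nat_lit 32912) (nat_lit 307) (nat_lit 61710) (nat_lit 8388364) (nat_lit 0) (nat_lit 0),Row.mk (nat_lit 12096) (nat_lit 32912) (nat_lit 322) (nat_lit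 61710) (nat_lit 8388364) (nat_lit 0) (nat_lit 0),Row.mk (nat_lit 12264) (nat_lit 32912) (nat_lit 342) (nat_lit 61710) (nat_lit 8388364) (nat_lit 0) (nat_lit 0),Row.mk (nat_lit 12432) (nat_lit 32912) (nat_lit 367) (nat_lit 61710) (nat_lit 8388364) (nat_lit 0) (nat_lit 0),Row.mk (nat_lit 12600) (nat_lit 32912) (nat_lit 398) (nat_lit 61710) (nat_lit 8388364) (nat_lit 0) (nat_lit 0),Row.mk (nat_lit 12768) (nat_lit 32912) (nat_lit 437) (nat_lit 61710) (nat_lit 8388364) (nat_lit 0) (nat_lit 0),Row.mk (nat_lit 12936) (nat_lit 32912) (nat_lit 486) (nat_lit 61710) (nat_lit 8388364) (nat_lit 0) (nat_lit 0),Row.mk (nat_lit 13104) (nat_lit 32912) (nat_lit 546) (nat_lit 61710) (nat_lit 8388304) (nat_lit 0) (nat_lit 0),Row.mk (nat_lit 13272) (nat_lit 32912) (nat_lit 622) (nat_lit 61710) (nat_lit 8388228) (nat_lit 0) (nat_lit 0),Row.mk (nat_lit 13440) (nat_lit 32912) (nat_lit 716) (nat_lit 61710) (nat_lit 8388134) (nat_lit 0) (nat_lit 0),Row.mk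 (nat_lit 13608) (nat_lit 32912) (nat_lit 834) (nat_lit 61710) (nat_lit 8388016) (nat_lit 0) (nat_lit 0),Row.mk (nat_lit 13776) (nat_lit 32912) (nat_lit 981) (nat_lit 61710) (nat_lit 8387869) (nat_lit 0) (nat_lit 0),Row.mk (nat_lit 13944) (nat_lit 32912) (nat_lit 1165) (nat_lit 61710) (nat_lit 8387685) (nat_lit 0) (nat_lit 0),Row.mk (nat_lit 14112) (nat_lit 32912) (nat_lit 1395) (nat_lit 61710) (nat_lit 8387455) (nat_lit 0) (nat_lit 0),Row.mk (nat_lit 14280) (nat_lit 32912) (nat_lit 1682) (nat_lit 61710) (nat_lit 8387168) (nat_lit 0) (nat_lit 0),Row.mk (nat_lit 14448) (nat_lit 32912) (nat_lit 2040) (nat_lit 61710) (nat_lit 8386810) (nat_lit 0) (nat_lit 0),Row.mk (nat_lit 14616) (nat_lit 32912) (nat_lit 2487) (nat_lit 61710) (nat_lit 8386363) (nat_lit 0) (nat_lit 0),Row.mk (nat_lit 14784) (nat_lit 32912) (nat_lit 3046) (nat_lit 61710) (nat_lit 8385804) (nat_lit 0) (nat_lit 0),Row.mk (nat_lit 14952) (nat_lit 32912) (nat_lit 3744) (nat_lit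 61710) (nat_lit 8385106) (nat_lit 0) (nat_lit 0),Row.mk (nat_lit 15120) (nat_lit 32912) (nat_lit 4616) (nat_lit 61710) (nat_lit 8384234) (nat_lit 0) (nat_lit 0),Row.mk (nat_lit 15288) (nat_lit 32912) (nat_lit 5705) (nat_lit 61710) (nat_lit 8383145) (nat_lit 0) (nat_lit 0),Row.mk (nat_lit 15456) (nat_lit 32912) (nat_lit 7065) (nat_lit 61710) (nat_lit 8381785) (nat_lit 0) (nat_lit 0),Row.mk (nat_lit 15624) (nat_lit 60962) (nat_lit 1175) (nat_lit 61336) (nat_lit 42) (nat_lit 61523) (nat_lit 7546),Row.mk (nat_lit 15792) (nat_lit 60401) (nat_lit 1151) (nat_lit 60775) (nat_lit 66) (nat_lit 60962) (nat_lit 9668),Row.mk (nat_lit 15960) (nat_lit 59840) (nat_lit 1113) (nat_lit 60214) (nat_lit 103) (nat_lit 60401) (nat_lit 12318),Row.mk (nat_lit 16128) (nat_lit 59279) (nat_lit 1054) (nat_lit 59653) (nat_lit 162) (nat_lit 59840) (nat_lit 15628),Row.mk (nat_lit 16296) (nat_lit 58718) (nat_lit 961) (nat_lit 59092) (nat_lit 254) (nat_lit 59279)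 (nat_lit 19763),Row.mk (nat_lit 16464) (nat_lit 58157) (nat_lit 817) (nat_lit 58531) (nat_lit 397) (nat_lit 58718) (nat_lit 24926),Row.mk (nat_lit 16632) (nat_lit 57596) (nat_lit 593) (nat_lit 57970) (nat_lit 621) (nat_lit 58157) (nat_lit 31375),Row.mk (nat_lit 16800) (nat_lit 57035) (nat_lit 243) (nat_lit 57409) (nat_lit 970) (nat_lit 57596) (nat_lit 39430),Row.mk (nat_lit 16968) (nat_lit 56848) (nat_lit 1211) (nat_lit 57035) (nat_lit 49248) (nat_lit 57409) (nat_lit 243),Row.mk (nat_lit 17136) (nat_lit 56287) (nat_lit 1209) (nat_lit 56474) (nat_lit 61130) (nat_lit 56848) (nat_lit 925),Row.mk (nat_lit 17304) (nat_lit 55726) (nat_lit 1207) (nat_lit 55913) (nat_lit 75759) (nat_lit 56287) (nat_lit 1990),Row.mk (nat_lit 17472) (nat_lit 55165) (nat_lit 1204) (nat_lit 55352) (nat_lit 93699) (nat_lit 55726) (nat_lit 3651),Row.mk (nat_lit 17640) (nat_lit 54604) (nat_lit 1201) (nat_lit 54791) (nat_lit 115588) (nat_lit 55165) (nat_lit 6242),Row.mk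 (nat_lit 17808) (nat_lit 54043) (nat_lit 1196) (nat_lit 54230) (nat_lit 142122) (nat_lit 54604) (nat_lit 10285),Row.mk (nat_lit 17976) (nat_lit 53482) (nat_lit 1191) (nat_lit 53669) (nat_lit 174006) (nat_lit 54043) (nat_lit 16590),Row.mk (nat_lit 18144) (nat_lit 52921) (nat_lit 1184) (nat_lit 53108) (nat_lit 211866) (nat_lit 53482) (nat_lit 26427),Row.mk (nat_lit 18312) (nat_lit 52360) (nat_lit 1175) (nat_lit 52547) (nat_lit 256094) (nat_lit 52921) (nat_lit 41771),Row.mk (nat_lit 18480) (nat_lit 51799) (nat_lit 1164) (nat_lit 51986) (nat_lit 306563) (nat_lit 52360) (nat_lit 65707),Row.mk (nat_lit 18648) (nat_lit 51238) (nat_lit 1151) (nat_lit 51425) (nat_lit 362153) (nat_lit 51799) (nat_lit 103046),Row.mk (nat_lit 18816) (nat_lit 50677) (nat_lit 1134) (nat_lit 50864) (nat_lit 419974) (nat_lit 51238) (nat_lit 161292),Row.mk (nat_lit 18984) (nat_lit 50116) (nat_lit 1113) (nat_lit 50303) (nat_lit 474077) (nat_lit 50677) (nat_lit 252153),Row.mk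 (nat_lit 19152) (nat_lit 49555) (nat_lit 1087) (nat_lit 49742) (nat_lit 513397) (nat_lit 50116) (nat_lit 393891),Row.mk (nat_lit 19320) (nat_lit 48994) (nat_lit 1054) (nat_lit 49181) (nat_lit 518430) (nat_lit 49555) (nat_lit 614994),Row.mk (nat_lit 19488) (nat_lit 48433) (nat_lit 1013) (nat_lit 48620) (nat_lit 455962) (nat_lit 48994) (nat_lit 959900),Row.mk (nat_lit 19656) (nat_lit 47685) (nat_lit 961) (nat_lit 47872) (nat_lit 270686) (nat_lit 48433) (nat_lit 1497935),Row.mk (nat_lit 19824) (nat_lit 47498) (nat_lit 897) (nat_lit 47685) (nat_lit 2107422) (nat_lit 48246) (nat_lit 101786),Row.mk (nat_lit 19992) (nat_lit 46563) (nat_lit 817) (nat_lit 46750) (nat_lit 2049961) (nat_lit 47498) (nat_lit 709530),Row.mk (nat_lit 20160) (nat_lit 45628) (nat_lit 718) (nat_lit 45815) (nat_lit 1652219) (nat_lit 46563) (nat_lit 1794562),Row.mk (nat_lit 20328) (nat_lit 44506) (nat_lit 593) (nat_lit 44693) (nat_lit 646948) (nat_lit 45628) (nat_lit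 3658242),Row.mk (nat_lit 20496) (nat_lit 44319) (nat_lit 437) (nat_lit 44506) (nat_lit 4255280) (nat_lit 45441) (nat_lit 1122042),Row.mk (nat_lit 20664) (nat_lit 43010) (nat_lit 243) (nat_lit 43197) (nat_lit 2554675) (nat_lit 44319) (nat_lit 4161713),Row.mk (nat_lit 20832) (nat_lit 43010) (nat_lit 7496269) (nat_lit 44132) (nat_lit 892582) (nat_lit 0) (nat_lit 0),Row.mk (nat_lit 21000) (nat_lit 41327) (nat_lit 3984838) (nat_lit 42823) (nat_lit 6492330) (nat_lit 43010) (nat_lit 243),Row.mk (nat_lit 21168) (nat_lit 41140) (nat_lit 10354180) (nat_lit 42636) (nat_lit 2731247) (nat_lit 42823) (nat_lit 546),Row.mk (nat_lit 21336) (nat_lit 38896) (nat_lit 2454649) (nat_lit 40953) (nat_lit 13888430) (nat_lit 41140) (nat_lit 925),Row.mk (nat_lit 21504) (nat_lit 38709) (nat_lit 9781883) (nat_lit 40766) (nat_lit 10629925) (nat_lit 40953) (nat_lit 1399),Row.mk (nat_lit 21672) (nat_lit 38522) (nat_lit 18933422) (nat_lit 40579) (nat_lit 6560131)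 (nat_lit 40766) (nat_lit 1990),Row.mk (nat_lit 21840) (nat_lit 38335) (nat_lit 30363473) (nat_lit 40392) (nat_lit 1477057) (nat_lit 40579) (nat_lit 2729),Row.mk (nat_lit 22008) (nat_lit 31603) (nat_lit 6079925) (nat_lit 38148) (nat_lit 33687825) (nat_lit 38335) (nat_lit 3651),Row.mk (nat_lit 22176) (nat_lit 31416) (nat_lit 15981984) (nat_lit 37961) (nat_lit 33686673) (nat_lit 38148) (nat_lit 4803),Row.mk (nat_lit 22344) (nat_lit 31229) (nat_lit 28349417) (nat_lit 37774) (nat_lit 33685233) (nat_lit 37961) (nat_lit 6242),Row.mk (nat_lit 22512) (nat_lit 31042) (nat_lit 43796043) (nat_lit 37587) (nat_lit 33683436) (nat_lit 37774) (nat_lit 8040),Row.mk (nat_lit 22680) (nat_lit 30855) (nat_lit 63088506) (nat_lit 37400) (nat_lit 33681191) (nat_lit 37587) (nat_lit 10285),Row.mk (nat_lit 22848) (nat_lit 30668) (nat_lit 87184326) (nat_lit 37213) (nat_lit 33678387) (nat_lit 37400) (nat_lit 13088),Row.mk (nat_lit 23016) (nat_lit 30481) (nat_lit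 117279425) (nat_lit 37026) (nat_lit 33674886) (nat_lit 37213) (nat_lit 16590),Row.mk (nat_lit 23184) (nat_lit 30294) (nat_lit 154867477) (nat_lit 36839) (nat_lit 33670512) (nat_lit 37026) (nat_lit 20964),Row.mk (nat_lit 23352) (nat_lit 30107) (nat_lit 201814048) (nat_lit 36652) (nat_lit 33665049) (nat_lit 36839) (nat_lit 26427),Row.mk (nat_lit 23520) (nat_lit 29920) (nat_lit 260449182) (nat_lit 36465) (nat_lit 33658226) (nat_lit 36652) (nat_lit 33249),Row.mk (nat_lit 23688) (nat_lit 29733) (nat_lit 333683049) (nat_lit 36278) (nat_lit 33649705) (nat_lit 36465) (nat_lit 41771),Row.mk (nat_lit 23856) (nat_lit 29546) (nat_lit 425150383) (nat_lit 36091) (nat_lit 33639062) (nat_lit 36278) (nat_lit 52414),Row.mk (nat_lit 24024) (nat_lit 29359) (nat_lit 539390877) (nat_lit 35904) (nat_lit 33625769) (nat_lit 36091) (nat_lit 65707),Row.mk (nat_lit 24192) (nat_lit 29172) (nat_lit 682074498) (nat_lit 35717) (nat_lit 33609166) (nat_lit 35904)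 (nat_lit 82310),Row.mk (nat_lit 24360) (nat_lit 28985) (nat_lit 860282899) (nat_lit 35530) (nat_lit 33588430) (nat_lit 35717) (nat_lit 103046),Row.mk (nat_lit 24528) (nat_lit 28798) (nat_lit 1082860892) (nat_lit 35343) (nat_lit 33562531) (nat_lit 35530) (nat_lit 128945),Row.mk (nat_lit 24696) (nat_lit 28611) (nat_lit 1360855435) (nat_lit 35156) (nat_lit 33530184) (nat_lit 35343) (nat_lit 161292),Row.mk (nat_lit 24864) (nat_lit 28424) (nat_lit 1708063914) (nat_lit 34969) (nat_lit 33489782) (nat_lit 35156) (nat_lit 201693),Row.mk (nat_lit 25032) (nat_lit 28237) (nat_lit 2141718929) (nat_lit 34782) (nat_lit 33439323) (nat_lit 34969) (nat_lit 252153),Row.mk (nat_lit 25200) (nat_lit 28050) (nat_lit 2683343580) (nat_lit 34595) (nat_lit 33376299) (nat_lit 34782) (nat_lit 315177),Row.mk (nat_lit 25368) (nat_lit 27863) (nat_lit 3359819704) (nat_lit 34408) (nat_lit 33297585) (nat_lit 34595) (nat_lit 393891),Row.mk (nat_lit 25536) (nat_lit 27676)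 (nat_lit 4204722063) (nat_lit 34221) (nat_lit 33199272) (nat_lit 34408) (nat_lit 492204),Row.mk (nat_lit 25704) (nat_lit 27489) (nat_lit 5259984727) (nat_lit 34034) (nat_lit 33076482) (nat_lit 34221) (nat_lit 614994),Row.mk (nat_lit 25872) (nat_lit 27302) (nat_lit 6577982338) (nat_lit 33847) (nat_lit 32923121) (nat_lit 34034) (nat_lit 768355),Row.mk (nat_lit 26040) (nat_lit 32912) (nat_lit 8388851) (nat_lit 62084) (nat_lit 8249432185) (nat_lit 0) (nat_lit 0)],
[Row.mk (nat_lit 10752) (nat_lit 32912) (nat_lit 317) (nat_lit 61710) (nat_lit 8388304) (nat_lit 0) (nat_lit 0),Row.mk (nat_lit 10920) (nat_lit 32912) (nat_lit 320) (nat_lit 61710) (nat_lit 8388304) (nat_lit 0) (nat_lit 0),Row.mk (nat_lit 11088) (nat_lit 32912) (nat_lit 324) (nat_lit 61710) (nat_lit 8388304) (nat_lit 0) (nat_lit 0),Row.mk (nat_lit 11256) (nat_lit 32912) (nat_lit 329) (nat_lit 61710) (nat_lit 8388304) (nat_lit 0) (nat_lit 0),Row.mk (nat_lit 11424) (nat_lit 32912)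 (nat_lit 336) (nat_lit 61710) (nat_lit 8388304) (nat_lit 0) (nat_lit 0),Row.mk (nat_lit 11592) (nat_lit 32912) (nat_lit 344) (nat_lit 61710) (nat_lit 8388304) (nat_lit 0) (nat_lit 0),Row.mk (nat_lit 11760) (nat_lit 32912) (nat_lit 354) (nat_lit 61710) (nat_lit 8388304) (nat_lit 0) (nat_lit 0),Row.mk (nat_lit 11928) (nat_lit 32912) (nat_lit 367) (nat_lit 61710) (nat_lit 8388304) (nat_lit 0) (nat_lit 0),Row.mk (nat_lit 12096) (nat_lit 32912) (nat_lit 383) (nat_lit 61710) (nat_lit 8388304) (nat_lit 0) (nat_lit 0),Row.mk (nat_lit 12264) (nat_lit 32912) (nat_lit 403) (nat_lit 61710) (nat_lit 8388304) (nat_lit 0) (nat_lit 0),Row.mk (nat_lit 12432) (nat_lit 32912) (nat_lit 428) (nat_lit 61710) (nat_lit 8388304) (nat_lit 0) (nat_lit 0),Row.mk (nat_lit 12600) (nat_lit 32912) (nat_lit 459) (nat_lit 61710) (nat_lit 8388304) (nat_lit 0) (nat_lit 0),Row.mk (nat_lit 12768) (nat_lit 32912) (nat_lit 498) (nat_lit 61710) (nat_lit 8388304) (nat_lit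 0) (nat_lit 0),Row.mk (nat_lit 12936) (nat_lit 32912) (nat_lit 546) (nat_lit 61710) (nat_lit 8388304) (nat_lit 0) (nat_lit 0),Row.mk (nat_lit 13104) (nat_lit 32912) (nat_lit 607) (nat_lit 61710) (nat_lit 8388304) (nat_lit 0) (nat_lit 0),Row.mk (nat_lit 13272) (nat_lit 32912) (nat_lit 682) (nat_lit 61710) (nat_lit 8388228) (nat_lit 0) (nat_lit 0),Row.mk (nat_lit 13440) (nat_lit 32912) (nat_lit 777) (nat_lit 61710) (nat_lit 8388134) (nat_lit 0) (nat_lit 0),Row.mk (nat_lit 13608) (nat_lit 32912) (nat_lit 894) (nat_lit 61710) (nat_lit 8388016) (nat_lit 0) (nat_lit 0),Row.mk (nat_lit 13776) (nat_lit 32912) (nat_lit 1042) (nat_lit 61710) (nat_lit 8387869) (nat_lit 0) (nat_lit 0),Row.mk (nat_lit 13944) (nat_lit 32912) (nat_lit 1226) (nat_lit 61710) (nat_lit 8387685) (nat_lit 0) (nat_lit 0),Row.mk (nat_lit 14112) (nat_lit 32912) (nat_lit 1455) (nat_lit 61710) (nat_lit 8387455) (nat_lit 0) (nat_lit 0),Row.mk (nat_lit 14280) (nat_lit 32912)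 (nat_lit 1742) (nat_lit 61710) (nat_lit 8387168) (nat_lit 0) (nat_lit 0),Row.mk (nat_lit 14448) (nat_lit 32912) (nat_lit 2100) (nat_lit 61710) (nat_lit 8386810) (nat_lit 0) (nat_lit 0),Row.mk (nat_lit 14616) (nat_lit 32912) (nat_lit 2548) (nat_lit 61710) (nat_lit 8386363) (nat_lit 0) (nat_lit 0),Row.mk (nat_lit 14784) (nat_lit 32912) (nat_lit 3107) (nat_lit 61710) (nat_lit 8385804) (nat_lit 0) (nat_lit 0),Row.mk (nat_lit 14952) (nat_lit 32912) (nat_lit 3805) (nat_lit 61710) (nat_lit 8385106) (nat_lit 0) (nat_lit 0),Row.mk (nat_lit 15120) (nat_lit 32912) (nat_lit 4677) (nat_lit 61710) (nat_lit 8384234) (nat_lit 0) (nat_lit 0),Row.mk (nat_lit 15288) (nat_lit 32912) (nat_lit 5766) (nat_lit 61710) (nat_lit 8383145) (nat_lit 0) (nat_lit 0),Row.mk (nat_lit 15456) (nat_lit 32912) (nat_lit 7126) (nat_lit 61710) (nat_lit 8381785) (nat_lit 0) (nat_lit 0),Row.mk (nat_lit 15624) (nat_lit 60962) (nat_lit 1479) (nat_lit 61336) (nat_lit 41) (nat_lit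 61523) (nat_lit 7303),Row.mk (nat_lit 15792) (nat_lit 60401) (nat_lit 1454) (nat_lit 60775) (nat_lit 65) (nat_lit 60962) (nat_lit 9425),Row.mk (nat_lit 15960) (nat_lit 59840) (nat_lit 1416) (nat_lit 60214) (nat_lit 103) (nat_lit 60401) (nat_lit 12076),Row.mk (nat_lit 16128) (nat_lit 59279) (nat_lit 1357) (nat_lit 59653) (nat_lit 161) (nat_lit 59840) (nat_lit 15386),Row.mk (nat_lit 16296) (nat_lit 58718) (nat_lit 1265) (nat_lit 59092) (nat_lit 253) (nat_lit 59279) (nat_lit 19520),Row.mk (nat_lit 16464) (nat_lit 58157) (nat_lit 1121) (nat_lit 58531) (nat_lit 396) (nat_lit 58718) (nat_lit 24684),Row.mk (nat_lit 16632) (nat_lit 57596) (nat_lit 896) (nat_lit 57970) (nat_lit 619) (nat_lit 58157) (nat_lit 31134),Row.mk (nat_lit 16800) (nat_lit 57035) (nat_lit 546) (nat_lit 57409) (nat_lit 968) (nat_lit 57596) (nat_lit 39189),Row.mk (nat_lit 16968) (nat_lit 56848) (nat_lit 1513) (nat_lit 57035) (nat_lit 49249) (nat_lit 0) (nat_lit 0),Row.mk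 (nat_lit 17136) (nat_lit 56287) (nat_lit 1511) (nat_lit 56474) (nat_lit 61132) (nat_lit 56848) (nat_lit 682),Row.mk (nat_lit 17304) (nat_lit 55726) (nat_lit 1508) (nat_lit 55913) (nat_lit 75762) (nat_lit 56287) (nat_lit 1747),Row.mk (nat_lit 17472) (nat_lit 55165) (nat_lit 1504) (nat_lit 55352) (nat_lit 93702) (nat_lit 55726) (nat_lit 3408),Row.mk (nat_lit 17640) (nat_lit 54604) (nat_lit 1500) (nat_lit 54791) (nat_lit 115593) (nat_lit 55165) (nat_lit 5999),Row.mk (nat_lit 17808) (nat_lit 54043) (nat_lit 1494) (nat_lit 54230) (nat_lit 142128) (nat_lit 54604) (nat_lit 10042),Row.mk (nat_lit 17976) (nat_lit 53482) (nat_lit 1487) (nat_lit 53669) (nat_lit 174012) (nat_lit 54043) (nat_lit 16347),Row.mk (nat_lit 18144) (nat_lit 52921) (nat_lit 1479) (nat_lit 53108) (nat_lit 211875) (nat_lit 53482) (nat_lit 26184),Row.mk (nat_lit 18312) (nat_lit 52360) (nat_lit 1468) (nat_lit 52547) (nat_lit 256105) (nat_lit 52921) (nat_lit 41528),Row.mk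 (nat_lit 18480) (nat_lit 51799) (nat_lit 1454) (nat_lit 51986) (nat_lit 306576) (nat_lit 52360) (nat_lit 65464),Row.mk (nat_lit 18648) (nat_lit 51238) (nat_lit 1438) (nat_lit 51425) (nat_lit 362170) (nat_lit 51799) (nat_lit 102803),Row.mk (nat_lit 18816) (nat_lit 50677) (nat_lit 1416) (nat_lit 50864) (nat_lit 419995) (nat_lit 51238) (nat_lit 161049),Row.mk (nat_lit 18984) (nat_lit 50116) (nat_lit 1390) (nat_lit 50303) (nat_lit 474104) (nat_lit 50677) (nat_lit 251910),Row.mk (nat_lit 19152) (nat_lit 49555) (nat_lit 1357) (nat_lit 49742) (nat_lit 513430) (nat_lit 50116) (nat_lit 393648),Row.mk (nat_lit 19320) (nat_lit 48994) (nat_lit 1316) (nat_lit 49181) (nat_lit 518471) (nat_lit 49555) (nat_lit 614751),Row.mk (nat_lit 19488) (nat_lit 48433) (nat_lit 1265) (nat_lit 48620) (nat_lit 456013) (nat_lit 48994) (nat_lit 959657),Row.mk (nat_lit 19656) (nat_lit 47685) (nat_lit 1201) (nat_lit 47872) (nat_lit 270750) (nat_lit 48433) (nat_lit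 1497692),Row.mk (nat_lit 19824) (nat_lit 47498) (nat_lit 1121) (nat_lit 47685) (nat_lit 2107502) (nat_lit 48246) (nat_lit 101543),Row.mk (nat_lit 19992) (nat_lit 46563) (nat_lit 1021) (nat_lit 46750) (nat_lit 2050061) (nat_lit 47498) (nat_lit 709287),Row.mk (nat_lit 20160) (nat_lit 45628) (nat_lit 896) (nat_lit 45815) (nat_lit 1652343) (nat_lit 46563) (nat_lit 1794319),Row.mk (nat_lit 20328) (nat_lit 44506) (nat_lit 741) (nat_lit 44693) (nat_lit 647104) (nat_lit 45628) (nat_lit 3657999),Row.mk (nat_lit 20496) (nat_lit 44319) (nat_lit 546) (nat_lit 44506) (nat_lit 4255474) (nat_lit 45441) (nat_lit 1121799),Row.mk (nat_lit 20664) (nat_lit 43010) (nat_lit 303) (nat_lit 43197) (nat_lit 2554918) (nat_lit 44319) (nat_lit 4161470),Row.mk (nat_lit 20832) (nat_lit 43010) (nat_lit 7496572) (nat_lit 44132) (nat_lit 892338) (nat_lit 0) (nat_lit 0),Row.mk (nat_lit 21000) (nat_lit 41327) (nat_lit 3985142) (nat_lit 42823) (nat_lit 6492026) (nat_lit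 43010) (nat_lit 303),Row.mk (nat_lit 21168) (nat_lit 41140) (nat_lit 10354484) (nat_lit 42636) (nat_lit 2730867) (nat_lit 42823) (nat_lit 682),Row.mk (nat_lit 21336) (nat_lit 38896) (nat_lit 2454952) (nat_lit 40953) (nat_lit 13887957) (nat_lit 41140) (nat_lit 1156),Row.mk (nat_lit 21504) (nat_lit 38709) (nat_lit 9782187) (nat_lit 40766) (nat_lit 10629334) (nat_lit 40953) (nat_lit 1747),Row.mk (nat_lit 21672) (nat_lit 38522) (nat_lit 18933725) (nat_lit 40579) (nat_lit 6559393) (nat_lit 40766) (nat_lit 2486),Row.mk (nat_lit 21840) (nat_lit 38335) (nat_lit 30363776) (nat_lit 40392) (nat_lit 1476134) (nat_lit 40579) (nat_lit 3408),Row.mk (nat_lit 22008) (nat_lit 31603) (nat_lit 6080229) (nat_lit 38148) (nat_lit 33686673) (nat_lit 38335) (nat_lit 4560),Row.mk (nat_lit 22176) (nat_lit 31416) (nat_lit 15982288) (nat_lit 37961) (nat_lit 33685233) (nat_lit 38148) (nat_lit 5999),Row.mk (nat_lit 22344) (nat_lit 31229) (nat_lit 28349721) (nat_lit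 37774) (nat_lit 33683436) (nat_lit 37961) (nat_lit 7797),Row.mk (nat_lit 22512) (nat_lit 31042) (nat_lit 43796347) (nat_lit 37587) (nat_lit 33681191) (nat_lit 37774) (nat_lit 10042),Row.mk (nat_lit 22680) (nat_lit 30855) (nat_lit 63088809) (nat_lit 37400) (nat_lit 33678387) (nat_lit 37587) (nat_lit 12845),Row.mk (nat_lit 22848) (nat_lit 30668) (nat_lit 87184630) (nat_lit 37213) (nat_lit 33674886) (nat_lit 37400) (nat_lit 16347),Row.mk (nat_lit 23016) (nat_lit 30481) (nat_lit 117279729) (nat_lit 37026) (nat_lit 33670512) (nat_lit 37213) (nat_lit 20721),Row.mk (nat_lit 23184) (nat_lit 30294) (nat_lit 154867781) (nat_lit 36839) (nat_lit 33665049) (nat_lit 37026) (nat_lit 26184),Row.mk (nat_lit 23352) (nat_lit 30107) (nat_lit 201814351) (nat_lit 36652) (nat_lit 33658226) (nat_lit 36839) (nat_lit 33006),Row.mk (nat_lit 23520) (nat_lit 29920) (nat_lit 260449485) (nat_lit 36465) (nat_lit 33649705) (nat_lit 36652) (nat_lit 41528),Row.mk (nat_lit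 23688) (nat_lit 29733) (nat_lit 333683353) (nat_lit 36278) (nat_lit 33639062) (nat_lit 36465) (nat_lit 52171),Row.mk (nat_lit 23856) (nat_lit 29546) (nat_lit 425150687) (nat_lit 36091) (nat_lit 33625769) (nat_lit 36278) (nat_lit 65464),Row.mk (nat_lit 24024) (nat_lit 29359) (nat_lit 539391181) (nat_lit 35904) (nat_lit 33609166) (nat_lit 36091) (nat_lit 82067),Row.mk (nat_lit 24192) (nat_lit 29172) (nat_lit 682074802) (nat_lit 35717) (nat_lit 33588430) (nat_lit 35904) (nat_lit 102803),Row.mk (nat_lit 24360) (nat_lit 28985) (nat_lit 860283202) (nat_lit 35530) (nat_lit 33562531) (nat_lit 35717) (nat_lit 128702),Row.mk (nat_lit 24528) (nat_lit 28798) (nat_lit 1082861195) (nat_lit 35343) (nat_lit 33530184) (nat_lit 35530) (nat_lit 161049),Row.mk (nat_lit 24696) (nat_lit 28611) (nat_lit 1360855739) (nat_lit 35156) (nat_lit 33489782) (nat_lit 35343) (nat_lit 201450),Row.mk (nat_lit 24864) (nat_lit 28424) (nat_lit 1708064218) (nat_lit 34969)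 (nat_lit 33439323) (nat_lit 35156) (nat_lit 251910),Row.mk (nat_lit 25032) (nat_lit 28237) (nat_lit 2141719232) (nat_lit 34782) (nat_lit 33376299) (nat_lit 34969) (nat_lit 314934),Row.mk (nat_lit 25200) (nat_lit 28050) (nat_lit 2683343884) (nat_lit 34595) (nat_lit 33297585) (nat_lit 34782) (nat_lit 393648),Row.mk (nat_lit 25368) (nat_lit 27863) (nat_lit 3359820007) (nat_lit 34408) (nat_lit 33199272) (nat_lit 34595) (nat_lit 491961),Row.mk (nat_lit 25536) (nat_lit 27676) (nat_lit 4204722366) (nat_lit 34221) (nat_lit 33076482) (nat_lit 34408) (nat_lit 614751),Row.mk (nat_lit 25704) (nat_lit 27489) (nat_lit 5259985031) (nat_lit 34034) (nat_lit 32923121) (nat_lit 34221) (nat_lit 768112),Row.mk (nat_lit 25872) (nat_lit 27302) (nat_lit 6577982642) (nat_lit 33847) (nat_lit 32731575) (nat_lit 34034) (nat_lit 959657),Row.mk (nat_lit 26040) (nat_lit 32912) (nat_lit 8388911) (nat_lit 62084) (nat_lit 8249432185) (nat_lit 0) (nat_lit 0)],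
[Row.mk (nat_lit 10752) (nat_lit 32912) (nat_lit 392) (nat_lit 61710) (nat_lit 8388228) (nat_lit 0) (nat_lit 0),Row.mk (nat_lit 10920) (nat_lit 32912) (nat_lit 395) (nat_lit 61710) (nat_lit 8388228) (nat_lit 0) (nat_lit 0),Row.mk (nat_lit 11088) (nat_lit 32912) (nat_lit 400) (nat_lit 61710) (nat_lit 8388228) (nat_lit 0) (nat_lit 0),Row.mk (nat_lit 11256) (nat_lit 32912) (nat_lit 405) (nat_lit 61710) (nat_lit 8388228) (nat_lit 0) (nat_lit 0),Row.mk (nat_lit 11424) (nat_lit 32912) (nat_lit 411) (nat_lit 61710) (nat_lit 8388228) (nat_lit 0) (nat_lit 0),Row.mk (nat_lit 11592) (nat_lit 32912) (nat_lit 420) (nat_lit 61710) (nat_lit 8388228) (nat_lit 0) (nat_lit 0),Row.mk (nat_lit 11760) (nat_lit 32912) (nat_lit 430) (nat_lit 61710) (nat_lit 8388228) (nat_lit 0) (nat_lit 0),Row.mk (nat_lit 11928) (nat_lit 32912) (nat_lit 443) (nat_lit 61710) (nat_lit 8388228) (nat_lit 0) (nat_lit 0),Row.mk (nat_lit 12096) (nat_lit 32912) (nat_lit 459) (nat_lit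 61710) (nat_lit 8388228) (nat_lit 0) (nat_lit 0),Row.mk (nat_lit 12264) (nat_lit 32912) (nat_lit 478) (nat_lit 61710) (nat_lit 8388228) (nat_lit 0) (nat_lit 0),Row.mk (nat_lit 12432) (nat_lit 32912) (nat_lit 503) (nat_lit 61710) (nat_lit 8388228) (nat_lit 0) (nat_lit 0),Row.mk (nat_lit 12600) (nat_lit 32912) (nat_lit 534) (nat_lit 61710) (nat_lit 8388228) (nat_lit 0) (nat_lit 0),Row.mk (nat_lit 12768) (nat_lit 32912) (nat_lit 573) (nat_lit 61710) (nat_lit 8388228) (nat_lit 0) (nat_lit 0),Row.mk (nat_lit 12936) (nat_lit 32912) (nat_lit 622) (nat_lit 61710) (nat_lit 8388228) (nat_lit 0) (nat_lit 0),Row.mk (nat_lit 13104) (nat_lit 32912) (nat_lit 682) (nat_lit 61710) (nat_lit 8388228) (nat_lit 0) (nat_lit 0),Row.mk (nat_lit 13272) (nat_lit 32912) (nat_lit 758) (nat_lit 61710) (nat_lit 8388228) (nat_lit 0) (nat_lit 0),Row.mk (nat_lit 13440) (nat_lit 32912) (nat_lit 852) (nat_lit 61710) (nat_lit 8388134) (nat_lit 0) (nat_lit 0),Row.mk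 (nat_lit 13608) (nat_lit 32912) (nat_lit 970) (nat_lit 61710) (nat_lit 8388016) (nat_lit 0) (nat_lit 0),Row.mk (nat_lit 13776) (nat_lit 32912) (nat_lit 1117) (nat_lit 61710) (nat_lit 8387869) (nat_lit 0) (nat_lit 0),Row.mk (nat_lit 13944) (nat_lit 32912) (nat_lit 1301) (nat_lit 61710) (nat_lit 8387685) (nat_lit 0) (nat_lit 0),Row.mk (nat_lit 14112) (nat_lit 32912) (nat_lit 1531) (nat_lit 61710) (nat_lit 8387455) (nat_lit 0) (nat_lit 0),Row.mk (nat_lit 14280) (nat_lit 32912) (nat_lit 1818) (nat_lit 61710) (nat_lit 8387168) (nat_lit 0) (nat_lit 0),Row.mk (nat_lit 14448) (nat_lit 32912) (nat_lit 2176) (nat_lit 61710) (nat_lit 8386810) (nat_lit 0) (nat_lit 0),Row.mk (nat_lit 14616) (nat_lit 32912) (nat_lit 2623) (nat_lit 61710) (nat_lit 8386363) (nat_lit 0) (nat_lit 0),Row.mk (nat_lit 14784) (nat_lit 32912) (nat_lit 3182) (nat_lit 61710) (nat_lit 8385804) (nat_lit 0) (nat_lit 0),Row.mk (nat_lit 14952) (nat_lit 32912) (nat_lit 3880) (nat_lit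 61710) (nat_lit 8385106) (nat_lit 0) (nat_lit 0),Row.mk (nat_lit 15120) (nat_lit 32912) (nat_lit 4752) (nat_lit 61710) (nat_lit 8384234) (nat_lit 0) (nat_lit 0),Row.mk (nat_lit 15288) (nat_lit 32912) (nat_lit 5841) (nat_lit 61710) (nat_lit 8383145) (nat_lit 0) (nat_lit 0),Row.mk (nat_lit 15456) (nat_lit 32912) (nat_lit 7201) (nat_lit 61710) (nat_lit 8381785) (nat_lit 0) (nat_lit 0),Row.mk (nat_lit 15624) (nat_lit 60962) (nat_lit 1858) (nat_lit 61336) (nat_lit 41) (nat_lit 61523) (nat_lit 7000),Row.mk (nat_lit 15792) (nat_lit 60401) (nat_lit 1834) (nat_lit 60775) (nat_lit 65) (nat_lit 60962) (nat_lit 9122),Row.mk (nat_lit 15960) (nat_lit 59840) (nat_lit 1796) (nat_lit 60214) (nat_lit 102) (nat_lit 60401) (nat_lit 11773),Row.mk (nat_lit 16128) (nat_lit 59279) (nat_lit 1736) (nat_lit 59653) (nat_lit 161) (nat_lit 59840) (nat_lit 15083),Row.mk (nat_lit 16296) (nat_lit 58718) (nat_lit 1644) (nat_lit 59092) (nat_lit 252) (nat_lit 59279)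 (nat_lit 19218),Row.mk (nat_lit 16464) (nat_lit 58157) (nat_lit 1500) (nat_lit 58531) (nat_lit 395) (nat_lit 58718) (nat_lit 24382),Row.mk (nat_lit 16632) (nat_lit 57596) (nat_lit 1276) (nat_lit 57970) (nat_lit 618) (nat_lit 58157) (nat_lit 30832),Row.mk (nat_lit 16800) (nat_lit 57035) (nat_lit 925) (nat_lit 57409) (nat_lit 966) (nat_lit 57596) (nat_lit 38887),Row.mk (nat_lit 16968) (nat_lit 56474) (nat_lit 379) (nat_lit 56848) (nat_lit 1511) (nat_lit 57035) (nat_lit 48948),Row.mk (nat_lit 17136) (nat_lit 56287) (nat_lit 1887) (nat_lit 56474) (nat_lit 61135) (nat_lit 56848) (nat_lit 379),Row.mk (nat_lit 17304) (nat_lit 55726) (nat_lit 1883) (nat_lit 55913) (nat_lit 75765) (nat_lit 56287) (nat_lit 1443),Row.mk (nat_lit 17472) (nat_lit 55165) (nat_lit 1879) (nat_lit 55352) (nat_lit 93707) (nat_lit 55726) (nat_lit 3105),Row.mk (nat_lit 17640) (nat_lit 54604) (nat_lit 1873) (nat_lit 54791) (nat_lit 115598) (nat_lit 55165) (nat_lit 5696),Row.mk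 (nat_lit 17808) (nat_lit 54043) (nat_lit 1866) (nat_lit 54230) (nat_lit 142135) (nat_lit 54604) (nat_lit 9738),Row.mk (nat_lit 17976) (nat_lit 53482) (nat_lit 1858) (nat_lit 53669) (nat_lit 174021) (nat_lit 54043) (nat_lit 16044),Row.mk (nat_lit 18144) (nat_lit 52921) (nat_lit 1847) (nat_lit 53108) (nat_lit 211886) (nat_lit 53482) (nat_lit 25880),Row.mk (nat_lit 18312) (nat_lit 52360) (nat_lit 1834) (nat_lit 52547) (nat_lit 256119) (nat_lit 52921) (nat_lit 41224),Row.mk (nat_lit 18480) (nat_lit 51799) (nat_lit 1817) (nat_lit 51986) (nat_lit 306593) (nat_lit 52360) (nat_lit 65160),Row.mk (nat_lit 18648) (nat_lit 51238) (nat_lit 1796) (nat_lit 51425) (nat_lit 362191) (nat_lit 51799) (nat_lit 102499),Row.mk (nat_lit 18816) (nat_lit 50677) (nat_lit 1769) (nat_lit 50864) (nat_lit 420021) (nat_lit 51238) (nat_lit 160746),Row.mk (nat_lit 18984) (nat_lit 50116) (nat_lit 1736) (nat_lit 50303) (nat_lit 474136) (nat_lit 50677) (nat_lit 251607),Row.mk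 (nat_lit 19152) (nat_lit 49555) (nat_lit 1695) (nat_lit 49742) (nat_lit 513471) (nat_lit 50116) (nat_lit 393345),Row.mk (nat_lit 19320) (nat_lit 48994) (nat_lit 1644) (nat_lit 49181) (nat_lit 518522) (nat_lit 49555) (nat_lit 614447),Row.mk (nat_lit 19488) (nat_lit 48433) (nat_lit 1580) (nat_lit 48620) (nat_lit 456077) (nat_lit 48994) (nat_lit 959354),Row.mk (nat_lit 19656) (nat_lit 47685) (nat_lit 1500) (nat_lit 47872) (nat_lit 270830) (nat_lit 48433) (nat_lit 1497388),Row.mk (nat_lit 19824) (nat_lit 47498) (nat_lit 1400) (nat_lit 47685) (nat_lit 2107602) (nat_lit 48246) (nat_lit 101240),Row.mk (nat_lit 19992) (nat_lit 46563) (nat_lit 1276) (nat_lit 46750) (nat_lit 2050185) (nat_lit 47498) (nat_lit 708984),Row.mk (nat_lit 20160) (nat_lit 45628) (nat_lit 1120) (nat_lit 45815) (nat_lit 1652499) (nat_lit 46563) (nat_lit 1794016),Row.mk (nat_lit 20328) (nat_lit 44506) (nat_lit 925) (nat_lit 44693) (nat_lit 647298) (nat_lit 45628) (nat_lit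 3657695),Row.mk (nat_lit 20496) (nat_lit 44319) (nat_lit 682) (nat_lit 44506) (nat_lit 4255717) (nat_lit 45441) (nat_lit 1121495),Row.mk (nat_lit 20664) (nat_lit 43010) (nat_lit 379) (nat_lit 43197) (nat_lit 2555221) (nat_lit 44319) (nat_lit 4161167),Row.mk (nat_lit 20832) (nat_lit 43010) (nat_lit 7496951) (nat_lit 44132) (nat_lit 892035) (nat_lit 0) (nat_lit 0),Row.mk (nat_lit 21000) (nat_lit 41327) (nat_lit 3985521) (nat_lit 42823) (nat_lit 6491647) (nat_lit 43010) (nat_lit 379),Row.mk (nat_lit 21168) (nat_lit 41140) (nat_lit 10354863) (nat_lit 42636) (nat_lit 2730394) (nat_lit 42823) (nat_lit 852),Row.mk (nat_lit 21336) (nat_lit 38896) (nat_lit 2455332) (nat_lit 40953) (nat_lit 13887365) (nat_lit 41140) (nat_lit 1443),Row.mk (nat_lit 21504) (nat_lit 38709) (nat_lit 9782566) (nat_lit 40766) (nat_lit 10628595) (nat_lit 40953) (nat_lit 2182),Row.mk (nat_lit 21672) (nat_lit 38522) (nat_lit 18934104) (nat_lit 40579) (nat_lit 6558470)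 (nat_lit 40766) (nat_lit 3105),Row.mk (nat_lit 21840) (nat_lit 38335) (nat_lit 30364155) (nat_lit 40392) (nat_lit 1474982) (nat_lit 40579) (nat_lit 4257),Row.mk (nat_lit 22008) (nat_lit 31603) (nat_lit 6080608) (nat_lit 38148) (nat_lit 33685233) (nat_lit 38335) (nat_lit 5696),Row.mk (nat_lit 22176) (nat_lit 31416) (nat_lit 15982667) (nat_lit 37961) (nat_lit 33683436) (nat_lit 38148) (nat_lit 7493),Row.mk (nat_lit 22344) (nat_lit 31229) (nat_lit 28350100) (nat_lit 37774) (nat_lit 33681191) (nat_lit 37961) (nat_lit 9738),Row.mk (nat_lit 22512) (nat_lit 31042) (nat_lit 43796726) (nat_lit 37587) (nat_lit 33678387) (nat_lit 37774) (nat_lit 12542),Row.mk (nat_lit 22680) (nat_lit 30855) (nat_lit 63089188) (nat_lit 37400) (nat_lit 33674886) (nat_lit 37587) (nat_lit 16044),Row.mk (nat_lit 22848) (nat_lit 30668) (nat_lit 87185009) (nat_lit 37213) (nat_lit 33670512) (nat_lit 37400) (nat_lit 20417),Row.mk (nat_lit 23016) (nat_lit 30481) (nat_lit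 117280108) (nat_lit 37026) (nat_lit 33665049) (nat_lit 37213) (nat_lit 25880),Row.mk (nat_lit 23184) (nat_lit 30294) (nat_lit 154868160) (nat_lit 36839) (nat_lit 33658226) (nat_lit 37026) (nat_lit 32703),Row.mk (nat_lit 23352) (nat_lit 30107) (nat_lit 201814730) (nat_lit 36652) (nat_lit 33649705) (nat_lit 36839) (nat_lit 41224),Row.mk (nat_lit 23520) (nat_lit 29920) (nat_lit 260449864) (nat_lit 36465) (nat_lit 33639062) (nat_lit 36652) (nat_lit 51867),Row.mk (nat_lit 23688) (nat_lit 29733) (nat_lit 333683732) (nat_lit 36278) (nat_lit 33625769) (nat_lit 36465) (nat_lit 65160),Row.mk (nat_lit 23856) (nat_lit 29546) (nat_lit 425151066) (nat_lit 36091) (nat_lit 33609166) (nat_lit 36278) (nat_lit 81763),Row.mk (nat_lit 24024) (nat_lit 29359) (nat_lit 539391560) (nat_lit 35904) (nat_lit 33588430) (nat_lit 36091) (nat_lit 102499),Row.mk (nat_lit 24192) (nat_lit 29172) (nat_lit 682075181) (nat_lit 35717) (nat_lit 33562531) (nat_lit 35904)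 (nat_lit 128398),Row.mk (nat_lit 24360) (nat_lit 28985) (nat_lit 860283581) (nat_lit 35530) (nat_lit 33530184) (nat_lit 35717) (nat_lit 160746),Row.mk (nat_lit 24528) (nat_lit 28798) (nat_lit 1082861574) (nat_lit 35343) (nat_lit 33489782) (nat_lit 35530) (nat_lit 201147),Row.mk (nat_lit 24696) (nat_lit 28611) (nat_lit 1360856118) (nat_lit 35156) (nat_lit 33439323) (nat_lit 35343) (nat_lit 251607),Row.mk (nat_lit 24864) (nat_lit 28424) (nat_lit 1708064597) (nat_lit 34969) (nat_lit 33376299) (nat_lit 35156) (nat_lit 314630),Row.mk (nat_lit 25032) (nat_lit 28237) (nat_lit 2141719611) (nat_lit 34782) (nat_lit 33297585) (nat_lit 34969) (nat_lit 393345),Row.mk (nat_lit 25200) (nat_lit 28050) (nat_lit 2683344263) (nat_lit 34595) (nat_lit 33199272) (nat_lit 34782) (nat_lit 491657),Row.mk (nat_lit 25368) (nat_lit 27863) (nat_lit 3359820386) (nat_lit 34408) (nat_lit 33076482) (nat_lit 34595) (nat_lit 614447),Row.mk (nat_lit 25536) (nat_lit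 27676) (nat_lit 4204722745) (nat_lit 34221) (nat_lit 32923121) (nat_lit 34408) (nat_lit 767809),Row.mk (nat_lit 25704) (nat_lit 27489) (nat_lit 5259985410) (nat_lit 34034) (nat_lit 32731575) (nat_lit 34221) (nat_lit 959354),Row.mk (nat_lit 25872) (nat_lit 27302) (nat_lit 6577983021) (nat_lit 33847) (nat_lit 32492340) (nat_lit 34034) (nat_lit 1198589),Row.mk (nat_lit 26040) (nat_lit 32912) (nat_lit 8388987) (nat_lit 62084) (nat_lit 8249432185) (nat_lit 0) (nat_lit 0)],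
[Row.mk (nat_lit 10752) (nat_lit 32912) (nat_lit 486) (nat_lit 61710) (nat_lit 8388134) (nat_lit 0) (nat_lit 0),Row.mk (nat_lit 10920) (nat_lit 32912) (nat_lit 490) (nat_lit 61710) (nat_lit 8388134) (nat_lit 0) (nat_lit 0),Row.mk (nat_lit 11088) (nat_lit 32912) (nat_lit 494) (nat_lit 61710) (nat_lit 8388134) (nat_lit 0) (nat_lit 0),Row.mk (nat_lit 11256) (nat_lit 32912) (nat_lit 499) (nat_lit 61710) (nat_lit 8388134) (nat_lit 0) (nat_lit 0),Row.mk (nat_lit 11424) (nat_lit 32912) (nat_lit 506) (nat_lit 61710) (nat_lit 8388134) (nat_lit 0) (nat_lit 0),Row.mk (nat_lit 11592) (nat_lit 32912) (nat_lit 514) (nat_lit 61710) (nat_lit 8388134) (nat_lit 0) (nat_lit 0),Row.mk (nat_lit 11760) (nat_lit 32912) (nat_lit 524) (nat_lit 61710) (nat_lit 8388134) (nat_lit 0) (nat_lit 0),Row.mk (nat_lit 11928) (nat_lit 32912) (nat_lit 537) (nat_lit 61710) (nat_lit 8388134) (nat_lit 0) (nat_lit 0),Row.mk (nat_lit 12096) (nat_lit 32912) (nat_lit 553) (nat_lit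 61710) (nat_lit 8388134) (nat_lit 0) (nat_lit 0),Row.mk (nat_lit 12264) (nat_lit 32912) (nat_lit 573) (nat_lit 61710) (nat_lit 8388134) (nat_lit 0) (nat_lit 0),Row.mk (nat_lit 12432) (nat_lit 32912) (nat_lit 598) (nat_lit 61710) (nat_lit 8388134) (nat_lit 0) (nat_lit 0),Row.mk (nat_lit 12600) (nat_lit 32912) (nat_lit 629) (nat_lit 61710) (nat_lit 8388134) (nat_lit 0) (nat_lit 0),Row.mk (nat_lit 12768) (nat_lit 32912) (nat_lit 668) (nat_lit 61710) (nat_lit 8388134) (nat_lit 0) (nat_lit 0),Row.mk (nat_lit 12936) (nat_lit 32912) (nat_lit 716) (nat_lit 61710) (nat_lit 8388134) (nat_lit 0) (nat_lit 0),Row.mk (nat_lit 13104) (nat_lit 32912) (nat_lit 777) (nat_lit 61710) (nat_lit 8388134) (nat_lit 0) (nat_lit 0),Row.mk (nat_lit 13272) (nat_lit 32912) (nat_lit 852) (nat_lit 61710) (nat_lit 8388134) (nat_lit 0) (nat_lit 0),Row.mk (nat_lit 13440) (nat_lit 32912) (nat_lit 946) (nat_lit 61710) (nat_lit 8388134) (nat_lit 0) (nat_lit 0),Row.mk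 (nat_lit 13608) (nat_lit 32912) (nat_lit 1064) (nat_lit 61710) (nat_lit 8388016) (nat_lit 0) (nat_lit 0),Row.mk (nat_lit 13776) (nat_lit 32912) (nat_lit 1212) (nat_lit 61710) (nat_lit 8387869) (nat_lit 0) (nat_lit 0),Row.mk (nat_lit 13944) (nat_lit 32912) (nat_lit 1396) (nat_lit 61710) (nat_lit 8387685) (nat_lit 0) (nat_lit 0),Row.mk (nat_lit 14112) (nat_lit 32912) (nat_lit 1625) (nat_lit 61710) (nat_lit 8387455) (nat_lit 0) (nat_lit 0),Row.mk (nat_lit 14280) (nat_lit 32912) (nat_lit 1912) (nat_lit 61710) (nat_lit 8387168) (nat_lit 0) (nat_lit 0),Row.mk (nat_lit 14448) (nat_lit 32912) (nat_lit 2270) (nat_lit 61710) (nat_lit 8386810) (nat_lit 0) (nat_lit 0),Row.mk (nat_lit 14616) (nat_lit 32912) (nat_lit 2718) (nat_lit 61710) (nat_lit 8386363) (nat_lit 0) (nat_lit 0),Row.mk (nat_lit 14784) (nat_lit 32912) (nat_lit 3277) (nat_lit 61710) (nat_lit 8385804) (nat_lit 0) (nat_lit 0),Row.mk (nat_lit 14952) (nat_lit 32912) (nat_lit 3975) (nat_lit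 61710) (nat_lit 8385106) (nat_lit 0) (nat_lit 0),Row.mk (nat_lit 15120) (nat_lit 32912) (nat_lit 4847) (nat_lit 61710) (nat_lit 8384234) (nat_lit 0) (nat_lit 0),Row.mk (nat_lit 15288) (nat_lit 32912) (nat_lit 5936) (nat_lit 61710) (nat_lit 8383145) (nat_lit 0) (nat_lit 0),Row.mk (nat_lit 15456) (nat_lit 32912) (nat_lit 7296) (nat_lit 61710) (nat_lit 8381785) (nat_lit 0) (nat_lit 0),Row.mk (nat_lit 15624) (nat_lit 60962) (nat_lit 2331) (nat_lit 61336) (nat_lit 41) (nat_lit 61523) (nat_lit 6622),Row.mk (nat_lit 15792) (nat_lit 60401) (nat_lit 2307) (nat_lit 60775) (nat_lit 64) (nat_lit 60962) (nat_lit 8744),Row.mk (nat_lit 15960) (nat_lit 59840) (nat_lit 2269) (nat_lit 60214) (nat_lit 101) (nat_lit 60401) (nat_lit 11394),Row.mk (nat_lit 16128) (nat_lit 59279) (nat_lit 2210) (nat_lit 59653) (nat_lit 160) (nat_lit 59840) (nat_lit 14705),Row.mk (nat_lit 16296) (nat_lit 58718) (nat_lit 2118) (nat_lit 59092) (nat_lit 251) (nat_lit 59279)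 (nat_lit 18840),Row.mk (nat_lit 16464) (nat_lit 58157) (nat_lit 1974) (nat_lit 58531) (nat_lit 393) (nat_lit 58718) (nat_lit 24004),Row.mk (nat_lit 16632) (nat_lit 57596) (nat_lit 1749) (nat_lit 57970) (nat_lit 616) (nat_lit 58157) (nat_lit 30454),Row.mk (nat_lit 16800) (nat_lit 57035) (nat_lit 1399) (nat_lit 57409) (nat_lit 964) (nat_lit 57596) (nat_lit 38510),Row.mk (nat_lit 16968) (nat_lit 56474) (nat_lit 852) (nat_lit 56848) (nat_lit 1508) (nat_lit 57035) (nat_lit 48572),Row.mk (nat_lit 17136) (nat_lit 56287) (nat_lit 2357) (nat_lit 56474) (nat_lit 61139) (nat_lit 0) (nat_lit 0),Row.mk (nat_lit 17304) (nat_lit 55726) (nat_lit 2352) (nat_lit 55913) (nat_lit 75770) (nat_lit 56287) (nat_lit 1064),Row.mk (nat_lit 17472) (nat_lit 55165) (nat_lit 2347) (nat_lit 55352) (nat_lit 93712) (nat_lit 55726) (nat_lit 2726),Row.mk (nat_lit 17640) (nat_lit 54604) (nat_lit 2340) (nat_lit 54791) (nat_lit 115605) (nat_lit 55165) (nat_lit 5317),Row.mk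 (nat_lit 17808) (nat_lit 54043) (nat_lit 2331) (nat_lit 54230) (nat_lit 142143) (nat_lit 54604) (nat_lit 9359),Row.mk (nat_lit 17976) (nat_lit 53482) (nat_lit 2321) (nat_lit 53669) (nat_lit 174032) (nat_lit 54043) (nat_lit 15665),Row.mk (nat_lit 18144) (nat_lit 52921) (nat_lit 2307) (nat_lit 53108) (nat_lit 211899) (nat_lit 53482) (nat_lit 25501),Row.mk (nat_lit 18312) (nat_lit 52360) (nat_lit 2290) (nat_lit 52547) (nat_lit 256136) (nat_lit 52921) (nat_lit 40845),Row.mk (nat_lit 18480) (nat_lit 51799) (nat_lit 2269) (nat_lit 51986) (nat_lit 306614) (nat_lit 52360) (nat_lit 64781),Row.mk (nat_lit 18648) (nat_lit 51238) (nat_lit 2243) (nat_lit 51425) (nat_lit 362218) (nat_lit 51799) (nat_lit 102120),Row.mk (nat_lit 18816) (nat_lit 50677) (nat_lit 2210) (nat_lit 50864) (nat_lit 420054) (nat_lit 51238) (nat_lit 160367),Row.mk (nat_lit 18984) (nat_lit 50116) (nat_lit 2169) (nat_lit 50303) (nat_lit 474177) (nat_lit 50677) (nat_lit 251228),Row.mk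 (nat_lit 19152) (nat_lit 49555) (nat_lit 2118) (nat_lit 49742) (nat_lit 513522) (nat_lit 50116) (nat_lit 392965),Row.mk (nat_lit 19320) (nat_lit 48994) (nat_lit 2054) (nat_lit 49181) (nat_lit 518586) (nat_lit 49555) (nat_lit 614068),Row.mk (nat_lit 19488) (nat_lit 48433) (nat_lit 1974) (nat_lit 48620) (nat_lit 456157) (nat_lit 48994) (nat_lit 958975),Row.mk (nat_lit 19656) (nat_lit 47685) (nat_lit 1874) (nat_lit 47872) (nat_lit 270930) (nat_lit 48433) (nat_lit 1497009),Row.mk (nat_lit 19824) (nat_lit 47498) (nat_lit 1749) (nat_lit 47685) (nat_lit 2107726) (nat_lit 48246) (nat_lit 100861),Row.mk (nat_lit 19992) (nat_lit 46563) (nat_lit 1593) (nat_lit 46750) (nat_lit 2050341) (nat_lit 47498) (nat_lit 708605),Row.mk (nat_lit 20160) (nat_lit 45628) (nat_lit 1399) (nat_lit 45815) (nat_lit 1652694) (nat_lit 46563) (nat_lit 1793637),Row.mk (nat_lit 20328) (nat_lit 44506) (nat_lit 1156) (nat_lit 44693) (nat_lit 647541) (nat_lit 45628) (nat_lit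 3657316),Row.mk (nat_lit 20496) (nat_lit 44319) (nat_lit 852) (nat_lit 44506) (nat_lit 4256021) (nat_lit 45441) (nat_lit 1121116),Row.mk (nat_lit 20664) (nat_lit 43010) (nat_lit 473) (nat_lit 43197) (nat_lit 2555600) (nat_lit 44319) (nat_lit 4160788),Row.mk (nat_lit 20832) (nat_lit 43010) (nat_lit 7497425) (nat_lit 44132) (nat_lit 891656) (nat_lit 0) (nat_lit 0),Row.mk (nat_lit 21000) (nat_lit 41327) (nat_lit 3985994) (nat_lit 42823) (nat_lit 6491174) (nat_lit 43010) (nat_lit 473),Row.mk (nat_lit 21168) (nat_lit 41140) (nat_lit 10355336) (nat_lit 42636) (nat_lit 2729803) (nat_lit 42823) (nat_lit 1064),Row.mk (nat_lit 21336) (nat_lit 38896) (nat_lit 2455805) (nat_lit 40953) (nat_lit 13886627) (nat_lit 41140) (nat_lit 1803),Row.mk (nat_lit 21504) (nat_lit 38709) (nat_lit 9783039) (nat_lit 40766) (nat_lit 10627673) (nat_lit 40953) (nat_lit 2726),Row.mk (nat_lit 21672) (nat_lit 38522) (nat_lit 18934578) (nat_lit 40579) (nat_lit 6557318)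 (nat_lit 40766) (nat_lit 3878),Row.mk (nat_lit 21840) (nat_lit 38335) (nat_lit 30364629) (nat_lit 40392) (nat_lit 1473543) (nat_lit 40579) (nat_lit 5317),Row.mk (nat_lit 22008) (nat_lit 31603) (nat_lit 6081081) (nat_lit 38148) (nat_lit 33683436) (nat_lit 38335) (nat_lit 7114),Row.mk (nat_lit 22176) (nat_lit 31416) (nat_lit 15983140) (nat_lit 37961) (nat_lit 33681191) (nat_lit 38148) (nat_lit 9359),Row.mk (nat_lit 22344) (nat_lit 31229) (nat_lit 28350573) (nat_lit 37774) (nat_lit 33678387) (nat_lit 37961) (nat_lit 12163),Row.mk (nat_lit 22512) (nat_lit 31042) (nat_lit 43797199) (nat_lit 37587) (nat_lit 33674886) (nat_lit 37774) (nat_lit 15665),Row.mk (nat_lit 22680) (nat_lit 30855) (nat_lit 63089662) (nat_lit 37400) (nat_lit 33670512) (nat_lit 37587) (nat_lit 20038),Row.mk (nat_lit 22848) (nat_lit 30668) (nat_lit 87185482) (nat_lit 37213) (nat_lit 33665049) (nat_lit 37400) (nat_lit 25501),Row.mk (nat_lit 23016) (nat_lit 30481) (nat_lit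 117280581) (nat_lit 37026) (nat_lit 33658226) (nat_lit 37213) (nat_lit 32324),Row.mk (nat_lit 23184) (nat_lit 30294) (nat_lit 154868633) (nat_lit 36839) (nat_lit 33649705) (nat_lit 37026) (nat_lit 40845),Row.mk (nat_lit 23352) (nat_lit 30107) (nat_lit 201815204) (nat_lit 36652) (nat_lit 33639062) (nat_lit 36839) (nat_lit 51488),Row.mk (nat_lit 23520) (nat_lit 29920) (nat_lit 260450338) (nat_lit 36465) (nat_lit 33625769) (nat_lit 36652) (nat_lit 64781),Row.mk (nat_lit 23688) (nat_lit 29733) (nat_lit 333684205) (nat_lit 36278) (nat_lit 33609166) (nat_lit 36465) (nat_lit 81384),Row.mk (nat_lit 23856) (nat_lit 29546) (nat_lit 425151540) (nat_lit 36091) (nat_lit 33588430) (nat_lit 36278) (nat_lit 102120),Row.mk (nat_lit 24024) (nat_lit 29359) (nat_lit 539392033) (nat_lit 35904) (nat_lit 33562531) (nat_lit 36091) (nat_lit 128019),Row.mk (nat_lit 24192) (nat_lit 29172) (nat_lit 682075654) (nat_lit 35717) (nat_lit 33530184) (nat_lit 35904)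 (nat_lit 160367),Row.mk (nat_lit 24360) (nat_lit 28985) (nat_lit 860284055) (nat_lit 35530) (nat_lit 33489782) (nat_lit 35717) (nat_lit 200768),Row.mk (nat_lit 24528) (nat_lit 28798) (nat_lit 1082862048) (nat_lit 35343) (nat_lit 33439323) (nat_lit 35530) (nat_lit 251228),Row.mk (nat_lit 24696) (nat_lit 28611) (nat_lit 1360856592) (nat_lit 35156) (nat_lit 33376299) (nat_lit 35343) (nat_lit 314251),Row.mk (nat_lit 24864) (nat_lit 28424) (nat_lit 1708065071) (nat_lit 34969) (nat_lit 33297585) (nat_lit 35156) (nat_lit 392965),Row.mk (nat_lit 25032) (nat_lit 28237) (nat_lit 2141720085) (nat_lit 34782) (nat_lit 33199272) (nat_lit 34969) (nat_lit 491278),Row.mk (nat_lit 25200) (nat_lit 28050) (nat_lit 2683344736) (nat_lit 34595) (nat_lit 33076482) (nat_lit 34782) (nat_lit 614068),Row.mk (nat_lit 25368) (nat_lit 27863) (nat_lit 3359820860) (nat_lit 34408) (nat_lit 32923121) (nat_lit 34595) (nat_lit 767430),Row.mk (nat_lit 25536) (nat_lit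 27676) (nat_lit 4204723219) (nat_lit 34221) (nat_lit 32731575) (nat_lit 34408) (nat_lit 958975),Row.mk (nat_lit 25704) (nat_lit 27489) (nat_lit 5259985883) (nat_lit 34034) (nat_lit 32492340) (nat_lit 34221) (nat_lit 1198210),Row.mk (nat_lit 25872) (nat_lit 27302) (nat_lit 6577983494) (nat_lit 33847) (nat_lit 32193541) (nat_lit 34034) (nat_lit 1497009),Row.mk (nat_lit 26040) (nat_lit 32912) (nat_lit 8389081) (nat_lit 62084) (nat_lit 8249432185) (nat_lit 0) (nat_lit 0)],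
[Row.mk (nat_lit 10752) (nat_lit 32912) (nat_lit 604) (nat_lit 61710) (nat_lit 8388016) (nat_lit 0) (nat_lit 0),Row.mk (nat_lit 10920) (nat_lit 32912) (nat_lit 608) (nat_lit 61710) (nat_lit 8388016) (nat_lit 0) (nat_lit 0),Row.mk (nat_lit 11088) (nat_lit 32912) (nat_lit 612) (nat_lit 61710) (nat_lit 8388016) (nat_lit 0) (nat_lit 0),Row.mk (nat_lit 11256) (nat_lit 32912) (nat_lit 617) (nat_lit 61710) (nat_lit 8388016) (nat_lit 0) (nat_lit 0),Row.mk (nat_lit 11424) (nat_lit 32912) (nat_lit 624) (nat_lit 61710) (nat_lit 8388016) (nat_lit 0) (nat_lit 0),Row.mk (nat_lit 11592) (nat_lit 32912) (nat_lit 632) (nat_lit 61710) (nat_lit 8388016) (nat_lit 0) (nat_lit 0),Row.mk (nat_lit 11760) (nat_lit 32912) (nat_lit 642) (nat_lit 61710) (nat_lit 8388016) (nat_lit 0) (nat_lit 0),Row.mk (nat_lit 11928) (nat_lit 32912) (nat_lit 655) (nat_lit 61710) (nat_lit 8388016) (nat_lit 0) (nat_lit 0),Row.mk (nat_lit 12096) (nat_lit 32912) (nat_lit 671) (nat_lit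 61710) (nat_lit 8388016) (nat_lit 0) (nat_lit 0),Row.mk (nat_lit 12264) (nat_lit 32912) (nat_lit 691) (nat_lit 61710) (nat_lit 8388016) (nat_lit 0) (nat_lit 0),Row.mk (nat_lit 12432) (nat_lit 32912) (nat_lit 716) (nat_lit 61710) (nat_lit 8388016) (nat_lit 0) (nat_lit 0),Row.mk (nat_lit 12600) (nat_lit 32912) (nat_lit 747) (nat_lit 61710) (nat_lit 8388016) (nat_lit 0) (nat_lit 0),Row.mk (nat_lit 12768) (nat_lit 32912) (nat_lit 785) (nat_lit 61710) (nat_lit 8388016) (nat_lit 0) (nat_lit 0),Row.mk (nat_lit 12936) (nat_lit 32912) (nat_lit 834) (nat_lit 61710) (nat_lit 8388016) (nat_lit 0) (nat_lit 0),Row.mk (nat_lit 13104) (nat_lit 32912) (nat_lit 894) (nat_lit 61710) (nat_lit 8388016) (nat_lit 0) (nat_lit 0),Row.mk (nat_lit 13272) (nat_lit 32912) (nat_lit 970) (nat_lit 61710) (nat_lit 8388016) (nat_lit 0) (nat_lit 0),Row.mk (nat_lit 13440) (nat_lit 32912) (nat_lit 1064) (nat_lit 61710) (nat_lit 8388016) (nat_lit 0) (nat_lit 0),Row.mk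 (nat_lit 13608) (nat_lit 32912) (nat_lit 1182) (nat_lit 61710) (nat_lit 8388016) (nat_lit 0) (nat_lit 0),Row.mk (nat_lit 13776) (nat_lit 32912) (nat_lit 1329) (nat_lit 61710) (nat_lit 8387869) (nat_lit 0) (nat_lit 0),Row.mk (nat_lit 13944) (nat_lit 32912) (nat_lit 1513) (nat_lit 61710) (nat_lit 8387685) (nat_lit 0) (nat_lit 0),Row.mk (nat_lit 14112) (nat_lit 32912) (nat_lit 1743) (nat_lit 61710) (nat_lit 8387455) (nat_lit 0) (nat_lit 0),Row.mk (nat_lit 14280) (nat_lit 32912) (nat_lit 2030) (nat_lit 61710) (nat_lit 8387168) (nat_lit 0) (nat_lit 0),Row.mk (nat_lit 14448) (nat_lit 32912) (nat_lit 2388) (nat_lit 61710) (nat_lit 8386810) (nat_lit 0) (nat_lit 0),Row.mk (nat_lit 14616) (nat_lit 32912) (nat_lit 2836) (nat_lit 61710) (nat_lit 8386363) (nat_lit 0) (nat_lit 0),Row.mk (nat_lit 14784) (nat_lit 32912) (nat_lit 3395) (nat_lit 61710) (nat_lit 8385804) (nat_lit 0) (nat_lit 0),Row.mk (nat_lit 14952) (nat_lit 32912) (nat_lit 4093) (nat_lit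 61710) (nat_lit 8385106) (nat_lit 0) (nat_lit 0),Row.mk (nat_lit 15120) (nat_lit 32912) (nat_lit 4965) (nat_lit 61710) (nat_lit 8384234) (nat_lit 0) (nat_lit 0),Row.mk (nat_lit 15288) (nat_lit 32912) (nat_lit 6054) (nat_lit 61710) (nat_lit 8383145) (nat_lit 0) (nat_lit 0),Row.mk (nat_lit 15456) (nat_lit 32912) (nat_lit 7414) (nat_lit 61710) (nat_lit 8381785) (nat_lit 0) (nat_lit 0),Row.mk (nat_lit 15624) (nat_lit 60962) (nat_lit 2923) (nat_lit 61336) (nat_lit 40) (nat_lit 61523) (nat_lit 6149),Row.mk (nat_lit 15792) (nat_lit 60401) (nat_lit 2898) (nat_lit 60775) (nat_lit 63) (nat_lit 60962) (nat_lit 8271),Row.mk (nat_lit 15960) (nat_lit 59840) (nat_lit 2860) (nat_lit 60214) (nat_lit 100) (nat_lit 60401) (nat_lit 10922),Row.mk (nat_lit 16128) (nat_lit 59279) (nat_lit 2801) (nat_lit 59653) (nat_lit 158) (nat_lit 59840) (nat_lit 14233),Row.mk (nat_lit 16296) (nat_lit 58718) (nat_lit 2709) (nat_lit 59092) (nat_lit 249) (nat_lit 59279)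 (nat_lit 18368),Row.mk (nat_lit 16464) (nat_lit 58157) (nat_lit 2565) (nat_lit 58531) (nat_lit 391) (nat_lit 58718) (nat_lit 23533),Row.mk (nat_lit 16632) (nat_lit 57596) (nat_lit 2340) (nat_lit 57970) (nat_lit 614) (nat_lit 58157) (nat_lit 29983),Row.mk (nat_lit 16800) (nat_lit 57035) (nat_lit 1990) (nat_lit 57409) (nat_lit 961) (nat_lit 57596) (nat_lit 38040),Row.mk (nat_lit 16968) (nat_lit 56474) (nat_lit 1443) (nat_lit 56848) (nat_lit 1504) (nat_lit 57035) (nat_lit 48102),Row.mk (nat_lit 17136) (nat_lit 55913) (nat_lit 591) (nat_lit 56287) (nat_lit 2352) (nat_lit 56474) (nat_lit 60670),Row.mk (nat_lit 17304) (nat_lit 55726) (nat_lit 2938) (nat_lit 55913) (nat_lit 75775) (nat_lit 56287) (nat_lit 591),Row.mk (nat_lit 17472) (nat_lit 55165) (nat_lit 2931) (nat_lit 55352) (nat_lit 93719) (nat_lit 55726) (nat_lit 2252),Row.mk (nat_lit 17640) (nat_lit 54604) (nat_lit 2923) (nat_lit 54791) (nat_lit 115614) (nat_lit 55165) (nat_lit 4843),Row.mk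 (nat_lit 17808) (nat_lit 54043) (nat_lit 2912) (nat_lit 54230) (nat_lit 142154) (nat_lit 54604) (nat_lit 8886),Row.mk (nat_lit 17976) (nat_lit 53482) (nat_lit 2898) (nat_lit 53669) (nat_lit 174045) (nat_lit 54043) (nat_lit 15191),Row.mk (nat_lit 18144) (nat_lit 52921) (nat_lit 2882) (nat_lit 53108) (nat_lit 211916) (nat_lit 53482) (nat_lit 25028),Row.mk (nat_lit 18312) (nat_lit 52360) (nat_lit 2860) (nat_lit 52547) (nat_lit 256157) (nat_lit 52921) (nat_lit 40372),Row.mk (nat_lit 18480) (nat_lit 51799) (nat_lit 2834) (nat_lit 51986) (nat_lit 306641) (nat_lit 52360) (nat_lit 64308),Row.mk (nat_lit 18648) (nat_lit 51238) (nat_lit 2801) (nat_lit 51425) (nat_lit 362251) (nat_lit 51799) (nat_lit 101647),Row.mk (nat_lit 18816) (nat_lit 50677) (nat_lit 2760) (nat_lit 50864) (nat_lit 420095) (nat_lit 51238) (nat_lit 159893),Row.mk (nat_lit 18984) (nat_lit 50116) (nat_lit 2709) (nat_lit 50303) (nat_lit 474229) (nat_lit 50677) (nat_lit 250754),Row.mk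 (nat_lit 19152) (nat_lit 49555) (nat_lit 2645) (nat_lit 49742) (nat_lit 513586) (nat_lit 50116) (nat_lit 392492),Row.mk (nat_lit 19320) (nat_lit 48994) (nat_lit 2565) (nat_lit 49181) (nat_lit 518666) (nat_lit 49555) (nat_lit 613594),Row.mk (nat_lit 19488) (nat_lit 48433) (nat_lit 2465) (nat_lit 48620) (nat_lit 456257) (nat_lit 48994) (nat_lit 958501),Row.mk (nat_lit 19656) (nat_lit 47685) (nat_lit 2340) (nat_lit 47872) (nat_lit 271055) (nat_lit 48433) (nat_lit 1496536),Row.mk (nat_lit 19824) (nat_lit 47498) (nat_lit 2185) (nat_lit 47685) (nat_lit 2107882) (nat_lit 48246) (nat_lit 100387),Row.mk (nat_lit 19992) (nat_lit 46563) (nat_lit 1990) (nat_lit 46750) (nat_lit 2050536) (nat_lit 47498) (nat_lit 708131),Row.mk (nat_lit 20160) (nat_lit 45628) (nat_lit 1747) (nat_lit 45815) (nat_lit 1652937) (nat_lit 46563) (nat_lit 1793163),Row.mk (nat_lit 20328) (nat_lit 44506) (nat_lit 1443) (nat_lit 44693) (nat_lit 647845) (nat_lit 45628) (nat_lit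 3656843),Row.mk (nat_lit 20496) (nat_lit 44319) (nat_lit 1064) (nat_lit 44506) (nat_lit 4256400) (nat_lit 45441) (nat_lit 1120643),Row.mk (nat_lit 20664) (nat_lit 43010) (nat_lit 591) (nat_lit 43197) (nat_lit 2556074) (nat_lit 44319) (nat_lit 4160314),Row.mk (nat_lit 20832) (nat_lit 43010) (nat_lit 7498016) (nat_lit 44132) (nat_lit 891182) (nat_lit 0) (nat_lit 0),Row.mk (nat_lit 21000) (nat_lit 41327) (nat_lit 3986586) (nat_lit 42823) (nat_lit 6490582) (nat_lit 43010) (nat_lit 591),Row.mk (nat_lit 21168) (nat_lit 41140) (nat_lit 10355928) (nat_lit 42636) (nat_lit 2729064) (nat_lit 42823) (nat_lit 1329),Row.mk (nat_lit 21336) (nat_lit 38896) (nat_lit 2456396) (nat_lit 40953) (nat_lit 13885704) (nat_lit 41140) (nat_lit 2252),Row.mk (nat_lit 21504) (nat_lit 38709) (nat_lit 9783631) (nat_lit 40766) (nat_lit 10626521) (nat_lit 40953) (nat_lit 3404),Row.mk (nat_lit 21672) (nat_lit 38522) (nat_lit 18935169) (nat_lit 40579) (nat_lit 6555879)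 (nat_lit 40766) (nat_lit 4843),Row.mk (nat_lit 21840) (nat_lit 38335) (nat_lit 30365220) (nat_lit 40392) (nat_lit 1471746) (nat_lit 40579) (nat_lit 6641),Row.mk (nat_lit 22008) (nat_lit 31603) (nat_lit 6081673) (nat_lit 38148) (nat_lit 33681191) (nat_lit 38335) (nat_lit 8886),Row.mk (nat_lit 22176) (nat_lit 31416) (nat_lit 15983732) (nat_lit 37961) (nat_lit 33678387) (nat_lit 38148) (nat_lit 11689),Row.mk (nat_lit 22344) (nat_lit 31229) (nat_lit 28351165) (nat_lit 37774) (nat_lit 33674886) (nat_lit 37961) (nat_lit 15191),Row.mk (nat_lit 22512) (nat_lit 31042) (nat_lit 43797790) (nat_lit 37587) (nat_lit 33670512) (nat_lit 37774) (nat_lit 19565),Row.mk (nat_lit 22680) (nat_lit 30855) (nat_lit 63090253) (nat_lit 37400) (nat_lit 33665049) (nat_lit 37587) (nat_lit 25028),Row.mk (nat_lit 22848) (nat_lit 30668) (nat_lit 87186074) (nat_lit 37213) (nat_lit 33658226) (nat_lit 37400) (nat_lit 31850),Row.mk (nat_lit 23016) (nat_lit 30481) (nat_lit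 117281172) (nat_lit 37026) (nat_lit 33649705) (nat_lit 37213) (nat_lit 40372),Row.mk (nat_lit 23184) (nat_lit 30294) (nat_lit 154869225) (nat_lit 36839) (nat_lit 33639062) (nat_lit 37026) (nat_lit 51015),Row.mk (nat_lit 23352) (nat_lit 30107) (nat_lit 201815795) (nat_lit 36652) (nat_lit 33625769) (nat_lit 36839) (nat_lit 64308),Row.mk (nat_lit 23520) (nat_lit 29920) (nat_lit 260450929) (nat_lit 36465) (nat_lit 33609166) (nat_lit 36652) (nat_lit 80910),Row.mk (nat_lit 23688) (nat_lit 29733) (nat_lit 333684797) (nat_lit 36278) (nat_lit 33588430) (nat_lit 36465) (nat_lit 101647),Row.mk (nat_lit 23856) (nat_lit 29546) (nat_lit 425152131) (nat_lit 36091) (nat_lit 33562531) (nat_lit 36278) (nat_lit 127546),Row.mk (nat_lit 24024) (nat_lit 29359) (nat_lit 539392625) (nat_lit 35904) (nat_lit 33530184) (nat_lit 36091) (nat_lit 159893),Row.mk (nat_lit 24192) (nat_lit 29172) (nat_lit 682076246) (nat_lit 35717) (nat_lit 33489782) (nat_lit 35904)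 (nat_lit 200294),Row.mk (nat_lit 24360) (nat_lit 28985) (nat_lit 860284646) (nat_lit 35530) (nat_lit 33439323) (nat_lit 35717) (nat_lit 250754),Row.mk (nat_lit 24528) (nat_lit 28798) (nat_lit 1082862639) (nat_lit 35343) (nat_lit 33376299) (nat_lit 35530) (nat_lit 313777),Row.mk (nat_lit 24696) (nat_lit 28611) (nat_lit 1360857183) (nat_lit 35156) (nat_lit 33297585) (nat_lit 35343) (nat_lit 392492),Row.mk (nat_lit 24864) (nat_lit 28424) (nat_lit 1708065662) (nat_lit 34969) (nat_lit 33199272) (nat_lit 35156) (nat_lit 490805),Row.mk (nat_lit 25032) (nat_lit 28237) (nat_lit 2141720676) (nat_lit 34782) (nat_lit 33076482) (nat_lit 34969) (nat_lit 613594),Row.mk (nat_lit 25200) (nat_lit 28050) (nat_lit 2683345328) (nat_lit 34595) (nat_lit 32923121) (nat_lit 34782) (nat_lit 766956),Row.mk (nat_lit 25368) (nat_lit 27863) (nat_lit 3359821451) (nat_lit 34408) (nat_lit 32731575) (nat_lit 34595) (nat_lit 958501),Row.mk (nat_lit 25536) (nat_lit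 27676) (nat_lit 4204723810) (nat_lit 34221) (nat_lit 32492340) (nat_lit 34408) (nat_lit 1197737),Row.mk (nat_lit 25704) (nat_lit 27489) (nat_lit 5259986475) (nat_lit 34034) (nat_lit 32193541) (nat_lit 34221) (nat_lit 1496536),Row.mk (nat_lit 25872) (nat_lit 27302) (nat_lit 6577984086) (nat_lit 33847) (nat_lit 31820348) (nat_lit 34034) (nat_lit 1869728),Row.mk (nat_lit 26040) (nat_lit 32912) (nat_lit 8389199) (nat_lit 62084) (nat_lit 8249432185) (nat_lit 0) (nat_lit 0)],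
[Row.mk (nat_lit 10752) (nat_lit 32912) (nat_lit 752) (nat_lit 61710) (nat_lit 8387869) (nat_lit 0) (nat_lit 0),Row.mk (nat_lit 10920) (nat_lit 32912) (nat_lit 755) (nat_lit 61710) (nat_lit 8387869) (nat_lit 0) (nat_lit 0),Row.mk (nat_lit 11088) (nat_lit 32912) (nat_lit 759) (nat_lit 61710) (nat_lit 8387869) (nat_lit 0) (nat_lit 0),Row.mk (nat_lit 11256) (nat_lit 32912) (nat_lit 764) (nat_lit 61710) (nat_lit 8387869) (nat_lit 0) (nat_lit 0),Row.mk (nat_lit 11424) (nat_lit 32912) (nat_lit 771) (nat_lit 61710) (nat_lit 8387869) (nat_lit 0) (nat_lit 0),Row.mk (nat_lit 11592) (nat_lit 32912) (nat_lit 779) (nat_lit 61710) (nat_lit 8387869) (nat_lit 0) (nat_lit 0),Row.mk (nat_lit 11760) (nat_lit 32912) (nat_lit 789) (nat_lit 61710) (nat_lit 8387869) (nat_lit 0) (nat_lit 0),Row.mk (nat_lit 11928) (nat_lit 32912) (nat_lit 802) (nat_lit 61710) (nat_lit 8387869) (nat_lit 0) (nat_lit 0),Row.mk (nat_lit 12096) (nat_lit 32912) (nat_lit 818) (nat_lit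 61710) (nat_lit 8387869) (nat_lit 0) (nat_lit 0),Row.mk (nat_lit 12264) (nat_lit 32912) (nat_lit 838) (nat_lit 61710) (nat_lit 8387869) (nat_lit 0) (nat_lit 0),Row.mk (nat_lit 12432) (nat_lit 32912) (nat_lit 863) (nat_lit 61710) (nat_lit 8387869) (nat_lit 0) (nat_lit 0),Row.mk (nat_lit 12600) (nat_lit 32912) (nat_lit 894) (nat_lit 61710) (nat_lit 8387869) (nat_lit 0) (nat_lit 0),Row.mk (nat_lit 12768) (nat_lit 32912) (nat_lit 933) (nat_lit 61710) (nat_lit 8387869) (nat_lit 0) (nat_lit 0),Row.mk (nat_lit 12936) (nat_lit 32912) (nat_lit 981) (nat_lit 61710) (nat_lit 8387869) (nat_lit 0) (nat_lit 0),Row.mk (nat_lit 13104) (nat_lit 32912) (nat_lit 1042) (nat_lit 61710) (nat_lit 8387869) (nat_lit 0) (nat_lit 0),Row.mk (nat_lit 13272) (nat_lit 32912) (nat_lit 1117) (nat_lit 61710) (nat_lit 8387869) (nat_lit 0) (nat_lit 0),Row.mk (nat_lit 13440) (nat_lit 32912) (nat_lit 1212) (nat_lit 61710) (nat_lit 8387869) (nat_lit 0) (nat_lit 0),Row.mk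 (nat_lit 13608) (nat_lit 32912) (nat_lit 1329) (nat_lit 61710) (nat_lit 8387869) (nat_lit 0) (nat_lit 0),Row.mk (nat_lit 13776) (nat_lit 32912) (nat_lit 1477) (nat_lit 61710) (nat_lit 8387869) (nat_lit 0) (nat_lit 0),Row.mk (nat_lit 13944) (nat_lit 32912) (nat_lit 1661) (nat_lit 61710) (nat_lit 8387685) (nat_lit 0) (nat_lit 0),Row.mk (nat_lit 14112) (nat_lit 32912) (nat_lit 1890) (nat_lit 61710) (nat_lit 8387455) (nat_lit 0) (nat_lit 0),Row.mk (nat_lit 14280) (nat_lit 32912) (nat_lit 2177) (nat_lit 61710) (nat_lit 8387168) (nat_lit 0) (nat_lit 0),Row.mk (nat_lit 14448) (nat_lit 32912) (nat_lit 2535) (nat_lit 61710) (nat_lit 8386810) (nat_lit 0) (nat_lit 0),Row.mk (nat_lit 14616) (nat_lit 32912) (nat_lit 2983) (nat_lit 61710) (nat_lit 8386363) (nat_lit 0) (nat_lit 0),Row.mk (nat_lit 14784) (nat_lit 32912) (nat_lit 3542) (nat_lit 61710) (nat_lit 8385804) (nat_lit 0) (nat_lit 0),Row.mk (nat_lit 14952) (nat_lit 32912) (nat_lit 4240) (nat_lit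 61710) (nat_lit 8385106) (nat_lit 0) (nat_lit 0),Row.mk (nat_lit 15120) (nat_lit 32912) (nat_lit 5112) (nat_lit 61710) (nat_lit 8384234) (nat_lit 0) (nat_lit 0),Row.mk (nat_lit 15288) (nat_lit 32912) (nat_lit 6201) (nat_lit 61710) (nat_lit 8383145) (nat_lit 0) (nat_lit 0),Row.mk (nat_lit 15456) (nat_lit 32912) (nat_lit 7561) (nat_lit 61710) (nat_lit 8381785) (nat_lit 0) (nat_lit 0),Row.mk (nat_lit 15624) (nat_lit 60962) (nat_lit 3661) (nat_lit 61336) (nat_lit 39) (nat_lit 61523) (nat_lit 5558),Row.mk (nat_lit 15792) (nat_lit 60401) (nat_lit 3637) (nat_lit 60775) (nat_lit 63) (nat_lit 60962) (nat_lit 7681),Row.mk (nat_lit 15960) (nat_lit 59840) (nat_lit 3599) (nat_lit 60214) (nat_lit 99) (nat_lit 60401) (nat_lit 10332),Row.mk (nat_lit 16128) (nat_lit 59279) (nat_lit 3540) (nat_lit 59653) (nat_lit 157) (nat_lit 59840) (nat_lit 13643),Row.mk (nat_lit 16296) (nat_lit 58718) (nat_lit 3448) (nat_lit 59092) (nat_lit 247) (nat_lit 59279)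 (nat_lit 17778),Row.mk (nat_lit 16464) (nat_lit 58157) (nat_lit 3304) (nat_lit 58531) (nat_lit 389) (nat_lit 58718) (nat_lit 22943),Row.mk (nat_lit 16632) (nat_lit 57596) (nat_lit 3079) (nat_lit 57970) (nat_lit 611) (nat_lit 58157) (nat_lit 29395),Row.mk (nat_lit 16800) (nat_lit 57035) (nat_lit 2729) (nat_lit 57409) (nat_lit 958) (nat_lit 57596) (nat_lit 37452),Row.mk (nat_lit 16968) (nat_lit 56474) (nat_lit 2182) (nat_lit 56848) (nat_lit 1500) (nat_lit 57035) (nat_lit 47515),Row.mk (nat_lit 17136) (nat_lit 55913) (nat_lit 1329) (nat_lit 56287) (nat_lit 2347) (nat_lit 56474) (nat_lit 60084),Row.mk (nat_lit 17304) (nat_lit 55726) (nat_lit 3670) (nat_lit 55913) (nat_lit 75782) (nat_lit 0) (nat_lit 0),Row.mk (nat_lit 17472) (nat_lit 55165) (nat_lit 3661) (nat_lit 55352) (nat_lit 93728) (nat_lit 55726) (nat_lit 1661),Row.mk (nat_lit 17640) (nat_lit 54604) (nat_lit 3651) (nat_lit 54791) (nat_lit 115625) (nat_lit 55165) (nat_lit 4252),Row.mk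 (nat_lit 17808) (nat_lit 54043) (nat_lit 3637) (nat_lit 54230) (nat_lit 142168) (nat_lit 54604) (nat_lit 8294),Row.mk (nat_lit 17976) (nat_lit 53482) (nat_lit 3620) (nat_lit 53669) (nat_lit 174062) (nat_lit 54043) (nat_lit 14600),Row.mk (nat_lit 18144) (nat_lit 52921) (nat_lit 3599) (nat_lit 53108) (nat_lit 211937) (nat_lit 53482) (nat_lit 24436),Row.mk (nat_lit 18312) (nat_lit 52360) (nat_lit 3573) (nat_lit 52547) (nat_lit 256183) (nat_lit 52921) (nat_lit 39780),Row.mk (nat_lit 18480) (nat_lit 51799) (nat_lit 3540) (nat_lit 51986) (nat_lit 306673) (nat_lit 52360) (nat_lit 63717),Row.mk (nat_lit 18648) (nat_lit 51238) (nat_lit 3499) (nat_lit 51425) (nat_lit 362292) (nat_lit 51799) (nat_lit 101055),Row.mk (nat_lit 18816) (nat_lit 50677) (nat_lit 3448) (nat_lit 50864) (nat_lit 420146) (nat_lit 51238) (nat_lit 159302),Row.mk (nat_lit 18984) (nat_lit 50116) (nat_lit 3384) (nat_lit 50303) (nat_lit 474293) (nat_lit 50677) (nat_lit 250163),Row.mk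 (nat_lit 19152) (nat_lit 49555) (nat_lit 3304) (nat_lit 49742) (nat_lit 513666) (nat_lit 50116) (nat_lit 391901),Row.mk (nat_lit 19320) (nat_lit 48994) (nat_lit 3204) (nat_lit 49181) (nat_lit 518766) (nat_lit 49555) (nat_lit 613003),Row.mk (nat_lit 19488) (nat_lit 48433) (nat_lit 3079) (nat_lit 48620) (nat_lit 456382) (nat_lit 48994) (nat_lit 957910),Row.mk (nat_lit 19656) (nat_lit 47685) (nat_lit 2923) (nat_lit 47872) (nat_lit 271211) (nat_lit 48433) (nat_lit 1495944),Row.mk (nat_lit 19824) (nat_lit 47498) (nat_lit 2729) (nat_lit 47685) (nat_lit 2108077) (nat_lit 48246) (nat_lit 99796),Row.mk (nat_lit 19992) (nat_lit 46563) (nat_lit 2486) (nat_lit 46750) (nat_lit 2050779) (nat_lit 47498) (nat_lit 707540),Row.mk (nat_lit 20160) (nat_lit 45628) (nat_lit 2182) (nat_lit 45815) (nat_lit 1653240) (nat_lit 46563) (nat_lit 1792572),Row.mk (nat_lit 20328) (nat_lit 44506) (nat_lit 1803) (nat_lit 44693) (nat_lit 648224) (nat_lit 45628) (nat_lit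 3656251),Row.mk (nat_lit 20496) (nat_lit 44319) (nat_lit 1329) (nat_lit 44506) (nat_lit 4256874) (nat_lit 45441) (nat_lit 1120051),Row.mk (nat_lit 20664) (nat_lit 43010) (nat_lit 738) (nat_lit 43197) (nat_lit 2556665) (nat_lit 44319) (nat_lit 4159723),Row.mk (nat_lit 20832) (nat_lit 43010) (nat_lit 7498755) (nat_lit 44132) (nat_lit 890591) (nat_lit 0) (nat_lit 0),Row.mk (nat_lit 21000) (nat_lit 41327) (nat_lit 3987324) (nat_lit 42823) (nat_lit 6489844) (nat_lit 43010) (nat_lit 738),Row.mk (nat_lit 21168) (nat_lit 41140) (nat_lit 10356666) (nat_lit 42636) (nat_lit 2728141) (nat_lit 42823) (nat_lit 1661),Row.mk (nat_lit 21336) (nat_lit 38896) (nat_lit 2457135) (nat_lit 40953) (nat_lit 13884552) (nat_lit 41140) (nat_lit 2813),Row.mk (nat_lit 21504) (nat_lit 38709) (nat_lit 9784369) (nat_lit 40766) (nat_lit 10625082) (nat_lit 40953) (nat_lit 4252),Row.mk (nat_lit 21672) (nat_lit 38522) (nat_lit 18935908) (nat_lit 40579) (nat_lit 6554081)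 (nat_lit 40766) (nat_lit 6049),Row.mk (nat_lit 21840) (nat_lit 38335) (nat_lit 30365959) (nat_lit 40392) (nat_lit 1469501) (nat_lit 40579) (nat_lit 8294),Row.mk (nat_lit 22008) (nat_lit 31603) (nat_lit 6082411) (nat_lit 38148) (nat_lit 33678387) (nat_lit 38335) (nat_lit 11098),Row.mk (nat_lit 22176) (nat_lit 31416) (nat_lit 15984470) (nat_lit 37961) (nat_lit 33674886) (nat_lit 38148) (nat_lit 14600),Row.mk (nat_lit 22344) (nat_lit 31229) (nat_lit 28351903) (nat_lit 37774) (nat_lit 33670512) (nat_lit 37961) (nat_lit 18973),Row.mk (nat_lit 22512) (nat_lit 31042) (nat_lit 43798529) (nat_lit 37587) (nat_lit 33665049) (nat_lit 37774) (nat_lit 24436),Row.mk (nat_lit 22680) (nat_lit 30855) (nat_lit 63090992) (nat_lit 37400) (nat_lit 33658226) (nat_lit 37587) (nat_lit 31259),Row.mk (nat_lit 22848) (nat_lit 30668) (nat_lit 87186812) (nat_lit 37213) (nat_lit 33649705) (nat_lit 37400) (nat_lit 39780),Row.mk (nat_lit 23016) (nat_lit 30481) (nat_lit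 117281911) (nat_lit 37026) (nat_lit 33639062) (nat_lit 37213) (nat_lit 50424),Row.mk (nat_lit 23184) (nat_lit 30294) (nat_lit 154869963) (nat_lit 36839) (nat_lit 33625769) (nat_lit 37026) (nat_lit 63717),Row.mk (nat_lit 23352) (nat_lit 30107) (nat_lit 201816534) (nat_lit 36652) (nat_lit 33609166) (nat_lit 36839) (nat_lit 80319),Row.mk (nat_lit 23520) (nat_lit 29920) (nat_lit 260451668) (nat_lit 36465) (nat_lit 33588430) (nat_lit 36652) (nat_lit 101055),Row.mk (nat_lit 23688) (nat_lit 29733) (nat_lit 333685535) (nat_lit 36278) (nat_lit 33562531) (nat_lit 36465) (nat_lit 126954),Row.mk (nat_lit 23856) (nat_lit 29546) (nat_lit 425152870) (nat_lit 36091) (nat_lit 33530184) (nat_lit 36278) (nat_lit 159302),Row.mk (nat_lit 24024) (nat_lit 29359) (nat_lit 539393363) (nat_lit 35904) (nat_lit 33489782) (nat_lit 36091) (nat_lit 199703),Row.mk (nat_lit 24192) (nat_lit 29172) (nat_lit 682076984) (nat_lit 35717) (nat_lit 33439323) (nat_lit 35904)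 (nat_lit 250163),Row.mk (nat_lit 24360) (nat_lit 28985) (nat_lit 860285385) (nat_lit 35530) (nat_lit 33376299) (nat_lit 35717) (nat_lit 313186),Row.mk (nat_lit 24528) (nat_lit 28798) (nat_lit 1082863378) (nat_lit 35343) (nat_lit 33297585) (nat_lit 35530) (nat_lit 391901),Row.mk (nat_lit 24696) (nat_lit 28611) (nat_lit 1360857922) (nat_lit 35156) (nat_lit 33199272) (nat_lit 35343) (nat_lit 490213),Row.mk (nat_lit 24864) (nat_lit 28424) (nat_lit 1708066401) (nat_lit 34969) (nat_lit 33076482) (nat_lit 35156) (nat_lit 613003),Row.mk (nat_lit 25032) (nat_lit 28237) (nat_lit 2141721415) (nat_lit 34782) (nat_lit 32923121) (nat_lit 34969) (nat_lit 766365),Row.mk (nat_lit 25200) (nat_lit 28050) (nat_lit 2683346066) (nat_lit 34595) (nat_lit 32731575) (nat_lit 34782) (nat_lit 957910),Row.mk (nat_lit 25368) (nat_lit 27863) (nat_lit 3359822190) (nat_lit 34408) (nat_lit 32492340) (nat_lit 34595) (nat_lit 1197145),Row.mk (nat_lit 25536) (nat_lit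 27676) (nat_lit 4204724549) (nat_lit 34221) (nat_lit 32193541) (nat_lit 34408) (nat_lit 1495944),Row.mk (nat_lit 25704) (nat_lit 27489) (nat_lit 5259987213) (nat_lit 34034) (nat_lit 31820348) (nat_lit 34221) (nat_lit 1869137),Row.mk (nat_lit 25872) (nat_lit 27302) (nat_lit 6577984824) (nat_lit 33847) (nat_lit 31354240) (nat_lit 34034) (nat_lit 2335246),Row.mk (nat_lit 26040) (nat_lit 32912) (nat_lit 8389346) (nat_lit 62084) (nat_lit 8249432185) (nat_lit 0) (nat_lit 0)],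
[Row.mk (nat_lit 10752) (nat_lit 32912) (nat_lit 936) (nat_lit 61710) (nat_lit 8387685) (nat_lit 0) (nat_lit 0),Row.mk (nat_lit 10920) (nat_lit 32912) (nat_lit 939) (nat_lit 61710) (nat_lit 8387685) (nat_lit 0) (nat_lit 0),Row.mk (nat_lit 11088) (nat_lit 32912) (nat_lit 943) (nat_lit 61710) (nat_lit 8387685) (nat_lit 0) (nat_lit 0),Row.mk (nat_lit 11256) (nat_lit 32912) (nat_lit 948) (nat_lit 61710) (nat_lit 8387685) (nat_lit 0) (nat_lit 0),Row.mk (nat_lit 11424) (nat_lit 32912) (nat_lit 955) (nat_lit 61710) (nat_lit 8387685) (nat_lit 0) (nat_lit 0),Row.mk (nat_lit 11592) (nat_lit 32912) (nat_lit 963) (nat_lit 61710) (nat_lit 8387685) (nat_lit 0) (nat_lit 0),Row.mk (nat_lit 11760) (nat_lit 32912) (nat_lit 973) (nat_lit 61710) (nat_lit 8387685) (nat_lit 0) (nat_lit 0),Row.mk (nat_lit 11928) (nat_lit 32912) (nat_lit 986) (nat_lit 61710) (nat_lit 8387685) (nat_lit 0) (nat_lit 0),Row.mk (nat_lit 12096) (nat_lit 32912) (nat_lit 1002) (nat_lit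 61710) (nat_lit 8387685) (nat_lit 0) (nat_lit 0),Row.mk (nat_lit 12264) (nat_lit 32912) (nat_lit 1022) (nat_lit 61710) (nat_lit 8387685) (nat_lit 0) (nat_lit 0),Row.mk (nat_lit 12432) (nat_lit 32912) (nat_lit 1047) (nat_lit 61710) (nat_lit 8387685) (nat_lit 0) (nat_lit 0),Row.mk (nat_lit 12600) (nat_lit 32912) (nat_lit 1078) (nat_lit 61710) (nat_lit 8387685) (nat_lit 0) (nat_lit 0),Row.mk (nat_lit 12768) (nat_lit 32912) (nat_lit 1117) (nat_lit 61710) (nat_lit 8387685) (nat_lit 0) (nat_lit 0),Row.mk (nat_lit 12936) (nat_lit 32912) (nat_lit 1165) (nat_lit 61710) (nat_lit 8387685) (nat_lit 0) (nat_lit 0),Row.mk (nat_lit 13104) (nat_lit 32912) (nat_lit 1226) (nat_lit 61710) (nat_lit 8387685) (nat_lit 0) (nat_lit 0),Row.mk (nat_lit 13272) (nat_lit 32912) (nat_lit 1301) (nat_lit 61710) (nat_lit 8387685) (nat_lit 0) (nat_lit 0),Row.mk (nat_lit 13440) (nat_lit 32912) (nat_lit 1396) (nat_lit 61710) (nat_lit 8387685) (nat_lit 0) (nat_lit 0),Row.mk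 (nat_lit 13608) (nat_lit 32912) (nat_lit 1513) (nat_lit 61710) (nat_lit 8387685) (nat_lit 0) (nat_lit 0),Row.mk (nat_lit 13776) (nat_lit 32912) (nat_lit 1661) (nat_lit 61710) (nat_lit 8387685) (nat_lit 0) (nat_lit 0),Row.mk (nat_lit 13944) (nat_lit 32912) (nat_lit 1845) (nat_lit 61710) (nat_lit 8387685) (nat_lit 0) (nat_lit 0),Row.mk (nat_lit 14112) (nat_lit 32912) (nat_lit 2074) (nat_lit 61710) (nat_lit 8387455) (nat_lit 0) (nat_lit 0),Row.mk (nat_lit 14280) (nat_lit 32912) (nat_lit 2361) (nat_lit 61710) (nat_lit 8387168) (nat_lit 0) (nat_lit 0),Row.mk (nat_lit 14448) (nat_lit 32912) (nat_lit 2719) (nat_lit 61710) (nat_lit 8386810) (nat_lit 0) (nat_lit 0),Row.mk (nat_lit 14616) (nat_lit 32912) (nat_lit 3167) (nat_lit 61710) (nat_lit 8386363) (nat_lit 0) (nat_lit 0),Row.mk (nat_lit 14784) (nat_lit 32912) (nat_lit 3726) (nat_lit 61710) (nat_lit 8385804) (nat_lit 0) (nat_lit 0),Row.mk (nat_lit 14952) (nat_lit 32912) (nat_lit 4424) (nat_lit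 61710) (nat_lit 8385106) (nat_lit 0) (nat_lit 0),Row.mk (nat_lit 15120) (nat_lit 32912) (nat_lit 5296) (nat_lit 61710) (nat_lit 8384234) (nat_lit 0) (nat_lit 0),Row.mk (nat_lit 15288) (nat_lit 32912) (nat_lit 6385) (nat_lit 61710) (nat_lit 8383145) (nat_lit 0) (nat_lit 0),Row.mk (nat_lit 15456) (nat_lit 32912) (nat_lit 7745) (nat_lit 61710) (nat_lit 8381785) (nat_lit 0) (nat_lit 0),Row.mk (nat_lit 15624) (nat_lit 60962) (nat_lit 4584) (nat_lit 61336) (nat_lit 38) (nat_lit 61523) (nat_lit 4820),Row.mk (nat_lit 15792) (nat_lit 60401) (nat_lit 4560) (nat_lit 60775) (nat_lit 61) (nat_lit 60962) (nat_lit 6943),Row.mk (nat_lit 15960) (nat_lit 59840) (nat_lit 4522) (nat_lit 60214) (nat_lit 98) (nat_lit 60401) (nat_lit 9595),Row.mk (nat_lit 16128) (nat_lit 59279) (nat_lit 4462) (nat_lit 59653) (nat_lit 155) (nat_lit 59840) (nat_lit 12906),Row.mk (nat_lit 16296) (nat_lit 58718) (nat_lit 4370) (nat_lit 59092) (nat_lit 245) (nat_lit 59279) (nat_lit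 17042),Row.mk (nat_lit 16464) (nat_lit 58157) (nat_lit 4226) (nat_lit 58531) (nat_lit 386) (nat_lit 58718) (nat_lit 22208),Row.mk (nat_lit 16632) (nat_lit 57596) (nat_lit 4002) (nat_lit 57970) (nat_lit 607) (nat_lit 58157) (nat_lit 28659),Row.mk (nat_lit 16800) (nat_lit 57035) (nat_lit 3651) (nat_lit 57409) (nat_lit 953) (nat_lit 57596) (nat_lit 36718),Row.mk (nat_lit 16968) (nat_lit 56474) (nat_lit 3105) (nat_lit 56848) (nat_lit 1494) (nat_lit 57035) (nat_lit 46782),Row.mk (nat_lit 17136) (nat_lit 55913) (nat_lit 2252) (nat_lit 56287) (nat_lit 2340) (nat_lit 56474) (nat_lit 59352),Row.mk (nat_lit 17304) (nat_lit 55352) (nat_lit 922) (nat_lit 55726) (nat_lit 3661) (nat_lit 55913) (nat_lit 75052),Row.mk (nat_lit 17472) (nat_lit 55165) (nat_lit 4573) (nat_lit 55352) (nat_lit 93739) (nat_lit 55726) (nat_lit 922),Row.mk (nat_lit 17640) (nat_lit 54604) (nat_lit 4560) (nat_lit 54791) (nat_lit 115638) (nat_lit 55165) (nat_lit 3513),Row.mk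 (nat_lit 17808) (nat_lit 54043) (nat_lit 4543) (nat_lit 54230) (nat_lit 142185) (nat_lit 54604) (nat_lit 7556),Row.mk (nat_lit 17976) (nat_lit 53482) (nat_lit 4522) (nat_lit 53669) (nat_lit 174083) (nat_lit 54043) (nat_lit 13861),Row.mk (nat_lit 18144) (nat_lit 52921) (nat_lit 4495) (nat_lit 53108) (nat_lit 211963) (nat_lit 53482) (nat_lit 23698),Row.mk (nat_lit 18312) (nat_lit 52360) (nat_lit 4462) (nat_lit 52547) (nat_lit 256216) (nat_lit 52921) (nat_lit 39042),Row.mk (nat_lit 18480) (nat_lit 51799) (nat_lit 4421) (nat_lit 51986) (nat_lit 306715) (nat_lit 52360) (nat_lit 62978),Row.mk (nat_lit 18648) (nat_lit 51238) (nat_lit 4370) (nat_lit 51425) (nat_lit 362343) (nat_lit 51799) (nat_lit 100317),Row.mk (nat_lit 18816) (nat_lit 50677) (nat_lit 4306) (nat_lit 50864) (nat_lit 420210) (nat_lit 51238) (nat_lit 158563),Row.mk (nat_lit 18984) (nat_lit 50116) (nat_lit 4226) (nat_lit 50303) (nat_lit 474373) (nat_lit 50677) (nat_lit 249424),Row.mk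 (nat_lit 19152) (nat_lit 49555) (nat_lit 4126) (nat_lit 49742) (nat_lit 513766) (nat_lit 50116) (nat_lit 391162),Row.mk (nat_lit 19320) (nat_lit 48994) (nat_lit 4002) (nat_lit 49181) (nat_lit 518891) (nat_lit 49555) (nat_lit 612264),Row.mk (nat_lit 19488) (nat_lit 48433) (nat_lit 3846) (nat_lit 48620) (nat_lit 456537) (nat_lit 48994) (nat_lit 957171),Row.mk (nat_lit 19656) (nat_lit 47685) (nat_lit 3651) (nat_lit 47872) (nat_lit 271405) (nat_lit 48433) (nat_lit 1495206),Row.mk (nat_lit 19824) (nat_lit 47498) (nat_lit 3408) (nat_lit 47685) (nat_lit 2108320) (nat_lit 48246) (nat_lit 99057),Row.mk (nat_lit 19992) (nat_lit 46563) (nat_lit 3105) (nat_lit 46750) (nat_lit 2051082) (nat_lit 47498) (nat_lit 706801),Row.mk (nat_lit 20160) (nat_lit 45628) (nat_lit 2726) (nat_lit 45815) (nat_lit 1653619) (nat_lit 46563) (nat_lit 1791833),Row.mk (nat_lit 20328) (nat_lit 44506) (nat_lit 2252) (nat_lit 44693) (nat_lit 648697) (nat_lit 45628) (nat_lit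 3655513),Row.mk (nat_lit 20496) (nat_lit 44319) (nat_lit 1661) (nat_lit 44506) (nat_lit 4257465) (nat_lit 45441) (nat_lit 1119313),Row.mk (nat_lit 20664) (nat_lit 43010) (nat_lit 922) (nat_lit 43197) (nat_lit 2557404) (nat_lit 44319) (nat_lit 4158984),Row.mk (nat_lit 20832) (nat_lit 43010) (nat_lit 7499677) (nat_lit 44132) (nat_lit 889852) (nat_lit 0) (nat_lit 0),Row.mk (nat_lit 21000) (nat_lit 41327) (nat_lit 3988247) (nat_lit 42823) (nat_lit 6488921) (nat_lit 43010) (nat_lit 922),Row.mk (nat_lit 21168) (nat_lit 41140) (nat_lit 10357589) (nat_lit 42636) (nat_lit 2726989) (nat_lit 42823) (nat_lit 2074),Row.mk (nat_lit 21336) (nat_lit 38896) (nat_lit 2458058) (nat_lit 40953) (nat_lit 13883113) (nat_lit 41140) (nat_lit 3513),Row.mk (nat_lit 21504) (nat_lit 38709) (nat_lit 9785292) (nat_lit 40766) (nat_lit 10623284) (nat_lit 40953) (nat_lit 5311),Row.mk (nat_lit 21672) (nat_lit 38522) (nat_lit 18936830) (nat_lit 40579) (nat_lit 6551837)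 (nat_lit 40766) (nat_lit 7556),Row.mk (nat_lit 21840) (nat_lit 38335) (nat_lit 30366881) (nat_lit 40392) (nat_lit 1466697) (nat_lit 40579) (nat_lit 10359),Row.mk (nat_lit 22008) (nat_lit 31603) (nat_lit 6083334) (nat_lit 38148) (nat_lit 33674886) (nat_lit 38335) (nat_lit 13861),Row.mk (nat_lit 22176) (nat_lit 31416) (nat_lit 15985393) (nat_lit 37961) (nat_lit 33670512) (nat_lit 38148) (nat_lit 18235),Row.mk (nat_lit 22344) (nat_lit 31229) (nat_lit 28352826) (nat_lit 37774) (nat_lit 33665049) (nat_lit 37961) (nat_lit 23698),Row.mk (nat_lit 22512) (nat_lit 31042) (nat_lit 43799452) (nat_lit 37587) (nat_lit 33658226) (nat_lit 37774) (nat_lit 30520),Row.mk (nat_lit 22680) (nat_lit 30855) (nat_lit 63091914) (nat_lit 37400) (nat_lit 33649705) (nat_lit 37587) (nat_lit 39042),Row.mk (nat_lit 22848) (nat_lit 30668) (nat_lit 87187735) (nat_lit 37213) (nat_lit 33639062) (nat_lit 37400) (nat_lit 49685),Row.mk (nat_lit 23016) (nat_lit 30481) (nat_lit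 117282834) (nat_lit 37026) (nat_lit 33625769) (nat_lit 37213) (nat_lit 62978),Row.mk (nat_lit 23184) (nat_lit 30294) (nat_lit 154870886) (nat_lit 36839) (nat_lit 33609166) (nat_lit 37026) (nat_lit 79581),Row.mk (nat_lit 23352) (nat_lit 30107) (nat_lit 201817456) (nat_lit 36652) (nat_lit 33588430) (nat_lit 36839) (nat_lit 100317),Row.mk (nat_lit 23520) (nat_lit 29920) (nat_lit 260452590) (nat_lit 36465) (nat_lit 33562531) (nat_lit 36652) (nat_lit 126216),Row.mk (nat_lit 23688) (nat_lit 29733) (nat_lit 333686458) (nat_lit 36278) (nat_lit 33530184) (nat_lit 36465) (nat_lit 158563),Row.mk (nat_lit 23856) (nat_lit 29546) (nat_lit 425153792) (nat_lit 36091) (nat_lit 33489782) (nat_lit 36278) (nat_lit 198964),Row.mk (nat_lit 24024) (nat_lit 29359) (nat_lit 539394286) (nat_lit 35904) (nat_lit 33439323) (nat_lit 36091) (nat_lit 249424),Row.mk (nat_lit 24192) (nat_lit 29172) (nat_lit 682077907) (nat_lit 35717) (nat_lit 33376299) (nat_lit 35904)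 (nat_lit 312447),Row.mk (nat_lit 24360) (nat_lit 28985) (nat_lit 860286307) (nat_lit 35530) (nat_lit 33297585) (nat_lit 35717) (nat_lit 391162),Row.mk (nat_lit 24528) (nat_lit 28798) (nat_lit 1082864300) (nat_lit 35343) (nat_lit 33199272) (nat_lit 35530) (nat_lit 489475),Row.mk (nat_lit 24696) (nat_lit 28611) (nat_lit 1360858844) (nat_lit 35156) (nat_lit 33076482) (nat_lit 35343) (nat_lit 612264),Row.mk (nat_lit 24864) (nat_lit 28424) (nat_lit 1708067323) (nat_lit 34969) (nat_lit 32923121) (nat_lit 35156) (nat_lit 765626),Row.mk (nat_lit 25032) (nat_lit 28237) (nat_lit 2141722337) (nat_lit 34782) (nat_lit 32731575) (nat_lit 34969) (nat_lit 957171),Row.mk (nat_lit 25200) (nat_lit 28050) (nat_lit 2683346989) (nat_lit 34595) (nat_lit 32492340) (nat_lit 34782) (nat_lit 1196407),Row.mk (nat_lit 25368) (nat_lit 27863) (nat_lit 3359823112) (nat_lit 34408) (nat_lit 32193541) (nat_lit 34595) (nat_lit 1495206),Row.mk (nat_lit 25536) (nat_lit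 27676) (nat_lit 4204725471) (nat_lit 34221) (nat_lit 31820348) (nat_lit 34408) (nat_lit 1868398),Row.mk (nat_lit 25704) (nat_lit 27489) (nat_lit 5259988136) (nat_lit 34034) (nat_lit 31354240) (nat_lit 34221) (nat_lit 2334507),Row.mk (nat_lit 25872) (nat_lit 27302) (nat_lit 6577985747) (nat_lit 33847) (nat_lit 30772081) (nat_lit 34034) (nat_lit 2916666),Row.mk (nat_lit 26040) (nat_lit 32912) (nat_lit 8389530) (nat_lit 62084) (nat_lit 8249432185) (nat_lit 0) (nat_lit 0)],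
[Row.mk (nat_lit 10752) (nat_lit 32912) (nat_lit 1165) (nat_lit 61710) (nat_lit 8387455) (nat_lit 0) (nat_lit 0),Row.mk (nat_lit 10920) (nat_lit 32912) (nat_lit 1169) (nat_lit 61710) (nat_lit 8387455) (nat_lit 0) (nat_lit 0),Row.mk (nat_lit 11088) (nat_lit 32912) (nat_lit 1173) (nat_lit 61710) (nat_lit 8387455) (nat_lit 0) (nat_lit 0),Row.mk (nat_lit 11256) (nat_lit 32912) (nat_lit 1178) (nat_lit 61710) (nat_lit 8387455) (nat_lit 0) (nat_lit 0),Row.mk (nat_lit 11424) (nat_lit 32912) (nat_lit 1185) (nat_lit 61710) (nat_lit 8387455) (nat_lit 0) (nat_lit 0),Row.mk (nat_lit 11592) (nat_lit 32912) (nat_lit 1193) (nat_lit 61710) (nat_lit 8387455) (nat_lit 0) (nat_lit 0),Row.mk (nat_lit 11760) (nat_lit 32912) (nat_lit 1203) (nat_lit 61710) (nat_lit 8387455) (nat_lit 0) (nat_lit 0),Row.mk (nat_lit 11928) (nat_lit 32912) (nat_lit 1216) (nat_lit 61710) (nat_lit 8387455) (nat_lit 0) (nat_lit 0),Row.mk (nat_lit 12096) (nat_lit 32912) (nat_lit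 1232) (nat_lit 61710) (nat_lit 8387455) (nat_lit 0) (nat_lit 0),Row.mk (nat_lit 12264) (nat_lit 32912) (nat_lit 1252) (nat_lit 61710) (nat_lit 8387455) (nat_lit 0) (nat_lit 0),Row.mk (nat_lit 12432) (nat_lit 32912) (nat_lit 1276) (nat_lit 61710) (nat_lit 8387455) (nat_lit 0) (nat_lit 0),Row.mk (nat_lit 12600) (nat_lit 32912) (nat_lit 1307) (nat_lit 61710) (nat_lit 8387455) (nat_lit 0) (nat_lit 0),Row.mk (nat_lit 12768) (nat_lit 32912) (nat_lit 1346) (nat_lit 61710) (nat_lit 8387455) (nat_lit 0) (nat_lit 0),Row.mk (nat_lit 12936) (nat_lit 32912) (nat_lit 1395) (nat_lit 61710) (nat_lit 8387455) (nat_lit 0) (nat_lit 0),Row.mk (nat_lit 13104) (nat_lit 32912) (nat_lit 1455) (nat_lit 61710) (nat_lit 8387455) (nat_lit 0) (nat_lit 0),Row.mk (nat_lit 13272) (nat_lit 32912) (nat_lit 1531) (nat_lit 61710) (nat_lit 8387455) (nat_lit 0) (nat_lit 0),Row.mk (nat_lit 13440) (nat_lit 32912) (nat_lit 1625) (nat_lit 61710) (nat_lit 8387455) (nat_lit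 0) (nat_lit 0),Row.mk (nat_lit 13608) (nat_lit 32912) (nat_lit 1743) (nat_lit 61710) (nat_lit 8387455) (nat_lit 0) (nat_lit 0),Row.mk (nat_lit 13776) (nat_lit 32912) (nat_lit 1890) (nat_lit 61710) (nat_lit 8387455) (nat_lit 0) (nat_lit 0),Row.mk (nat_lit 13944) (nat_lit 32912) (nat_lit 2074) (nat_lit 61710) (nat_lit 8387455) (nat_lit 0) (nat_lit 0),Row.mk (nat_lit 14112) (nat_lit 32912) (nat_lit 2304) (nat_lit 61710) (nat_lit 8387455) (nat_lit 0) (nat_lit 0),Row.mk (nat_lit 14280) (nat_lit 32912) (nat_lit 2591) (nat_lit 61710) (nat_lit 8387168) (nat_lit 0) (nat_lit 0),Row.mk (nat_lit 14448) (nat_lit 32912) (nat_lit 2949) (nat_lit 61710) (nat_lit 8386810) (nat_lit 0) (nat_lit 0),Row.mk (nat_lit 14616) (nat_lit 32912) (nat_lit 3397) (nat_lit 61710) (nat_lit 8386363) (nat_lit 0) (nat_lit 0),Row.mk (nat_lit 14784) (nat_lit 32912) (nat_lit 3955) (nat_lit 61710) (nat_lit 8385804) (nat_lit 0) (nat_lit 0),Row.mk (nat_lit 14952) (nat_lit 32912)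 (nat_lit 4654) (nat_lit 61710) (nat_lit 8385106) (nat_lit 0) (nat_lit 0),Row.mk (nat_lit 15120) (nat_lit 32912) (nat_lit 5525) (nat_lit 61710) (nat_lit 8384234) (nat_lit 0) (nat_lit 0),Row.mk (nat_lit 15288) (nat_lit 32912) (nat_lit 6614) (nat_lit 61710) (nat_lit 8383145) (nat_lit 0) (nat_lit 0),Row.mk (nat_lit 15456) (nat_lit 32912) (nat_lit 7974) (nat_lit 61710) (nat_lit 8381785) (nat_lit 0) (nat_lit 0),Row.mk (nat_lit 15624) (nat_lit 60962) (nat_lit 5736) (nat_lit 61336) (nat_lit 37) (nat_lit 61523) (nat_lit 3899),Row.mk (nat_lit 15792) (nat_lit 60401) (nat_lit 5712) (nat_lit 60775) (nat_lit 60) (nat_lit 60962) (nat_lit 6022),Row.mk (nat_lit 15960) (nat_lit 59840) (nat_lit 5674) (nat_lit 60214) (nat_lit 96) (nat_lit 60401) (nat_lit 8674),Row.mk (nat_lit 16128) (nat_lit 59279) (nat_lit 5615) (nat_lit 59653) (nat_lit 153) (nat_lit 59840) (nat_lit 11986),Row.mk (nat_lit 16296) (nat_lit 58718) (nat_lit 5522) (nat_lit 59092) (nat_lit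 242) (nat_lit 59279) (nat_lit 16122),Row.mk (nat_lit 16464) (nat_lit 58157) (nat_lit 5378) (nat_lit 58531) (nat_lit 383) (nat_lit 58718) (nat_lit 21289),Row.mk (nat_lit 16632) (nat_lit 57596) (nat_lit 5154) (nat_lit 57970) (nat_lit 603) (nat_lit 58157) (nat_lit 27741),Row.mk (nat_lit 16800) (nat_lit 57035) (nat_lit 4803) (nat_lit 57409) (nat_lit 948) (nat_lit 57596) (nat_lit 35801),Row.mk (nat_lit 16968) (nat_lit 56474) (nat_lit 4257) (nat_lit 56848) (nat_lit 1487) (nat_lit 57035) (nat_lit 45866),Row.mk (nat_lit 17136) (nat_lit 55913) (nat_lit 3404) (nat_lit 56287) (nat_lit 2331) (nat_lit 56474) (nat_lit 58438),Row.mk (nat_lit 17304) (nat_lit 55352) (nat_lit 2074) (nat_lit 55726) (nat_lit 3651) (nat_lit 55913) (nat_lit 74140),Row.mk (nat_lit 17472) (nat_lit 55165) (nat_lit 5712) (nat_lit 55352) (nat_lit 93752) (nat_lit 0) (nat_lit 0),Row.mk (nat_lit 17640) (nat_lit 54604) (nat_lit 5695) (nat_lit 54791) (nat_lit 115655) (nat_lit 55165)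 (nat_lit 2591),Row.mk (nat_lit 17808) (nat_lit 54043) (nat_lit 5674) (nat_lit 54230) (nat_lit 142206) (nat_lit 54604) (nat_lit 6633),Row.mk (nat_lit 17976) (nat_lit 53482) (nat_lit 5647) (nat_lit 53669) (nat_lit 174110) (nat_lit 54043) (nat_lit 12939),Row.mk (nat_lit 18144) (nat_lit 52921) (nat_lit 5615) (nat_lit 53108) (nat_lit 211996) (nat_lit 53482) (nat_lit 22775),Row.mk (nat_lit 18312) (nat_lit 52360) (nat_lit 5574) (nat_lit 52547) (nat_lit 256257) (nat_lit 52921) (nat_lit 38119),Row.mk (nat_lit 18480) (nat_lit 51799) (nat_lit 5522) (nat_lit 51986) (nat_lit 306766) (nat_lit 52360) (nat_lit 62055),Row.mk (nat_lit 18648) (nat_lit 51238) (nat_lit 5458) (nat_lit 51425) (nat_lit 362407) (nat_lit 51799) (nat_lit 99394),Row.mk (nat_lit 18816) (nat_lit 50677) (nat_lit 5378) (nat_lit 50864) (nat_lit 420290) (nat_lit 51238) (nat_lit 157641),Row.mk (nat_lit 18984) (nat_lit 50116) (nat_lit 5278) (nat_lit 50303) (nat_lit 474473) (nat_lit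 50677) (nat_lit 248502),Row.mk (nat_lit 19152) (nat_lit 49555) (nat_lit 5154) (nat_lit 49742) (nat_lit 513890) (nat_lit 50116) (nat_lit 390239),Row.mk (nat_lit 19320) (nat_lit 48994) (nat_lit 4998) (nat_lit 49181) (nat_lit 519047) (nat_lit 49555) (nat_lit 611342),Row.mk (nat_lit 19488) (nat_lit 48433) (nat_lit 4803) (nat_lit 48620) (nat_lit 456732) (nat_lit 48994) (nat_lit 956249),Row.mk (nat_lit 19656) (nat_lit 47685) (nat_lit 4560) (nat_lit 47872) (nat_lit 271648) (nat_lit 48433) (nat_lit 1494283),Row.mk (nat_lit 19824) (nat_lit 47498) (nat_lit 4257) (nat_lit 47685) (nat_lit 2108623) (nat_lit 48246) (nat_lit 98135),Row.mk (nat_lit 19992) (nat_lit 46563) (nat_lit 3878) (nat_lit 46750) (nat_lit 2051461) (nat_lit 47498) (nat_lit 705879),Row.mk (nat_lit 20160) (nat_lit 45628) (nat_lit 3404) (nat_lit 45815) (nat_lit 1654093) (nat_lit 46563) (nat_lit 1790911),Row.mk (nat_lit 20328) (nat_lit 44506) (nat_lit 2813) (nat_lit 44693) (nat_lit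 649289) (nat_lit 45628) (nat_lit 3654590),Row.mk (nat_lit 20496) (nat_lit 44319) (nat_lit 2074) (nat_lit 44506) (nat_lit 4258204) (nat_lit 45441) (nat_lit 1118390),Row.mk (nat_lit 20664) (nat_lit 43010) (nat_lit 1152) (nat_lit 43197) (nat_lit 2558326) (nat_lit 44319) (nat_lit 4158062),Row.mk (nat_lit 20832) (nat_lit 43010) (nat_lit 7500829) (nat_lit 44132) (nat_lit 888930) (nat_lit 0) (nat_lit 0),Row.mk (nat_lit 21000) (nat_lit 41327) (nat_lit 3989399) (nat_lit 42823) (nat_lit 6487769) (nat_lit 43010) (nat_lit 1152),Row.mk (nat_lit 21168) (nat_lit 41140) (nat_lit 10358741) (nat_lit 42636) (nat_lit 2725550) (nat_lit 42823) (nat_lit 2591),Row.mk (nat_lit 21336) (nat_lit 38896) (nat_lit 2459210) (nat_lit 40953) (nat_lit 13881316) (nat_lit 41140) (nat_lit 4388),Row.mk (nat_lit 21504) (nat_lit 38709) (nat_lit 9786444) (nat_lit 40766) (nat_lit 10621039) (nat_lit 40953) (nat_lit 6633),Row.mk (nat_lit 21672) (nat_lit 38522) (nat_lit 18937982)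 (nat_lit 40579) (nat_lit 6549033) (nat_lit 40766) (nat_lit 9437),Row.mk (nat_lit 21840) (nat_lit 38335) (nat_lit 30368033) (nat_lit 40392) (nat_lit 1463195) (nat_lit 40579) (nat_lit 12939),Row.mk (nat_lit 22008) (nat_lit 31603) (nat_lit 6084486) (nat_lit 38148) (nat_lit 33670512) (nat_lit 38335) (nat_lit 17312),Row.mk (nat_lit 22176) (nat_lit 31416) (nat_lit 15986545) (nat_lit 37961) (nat_lit 33665049) (nat_lit 38148) (nat_lit 22775),Row.mk (nat_lit 22344) (nat_lit 31229) (nat_lit 28353978) (nat_lit 37774) (nat_lit 33658226) (nat_lit 37961) (nat_lit 29598),Row.mk (nat_lit 22512) (nat_lit 31042) (nat_lit 43800604) (nat_lit 37587) (nat_lit 33649705) (nat_lit 37774) (nat_lit 38119),Row.mk (nat_lit 22680) (nat_lit 30855) (nat_lit 63093067) (nat_lit 37400) (nat_lit 33639062) (nat_lit 37587) (nat_lit 48762),Row.mk (nat_lit 22848) (nat_lit 30668) (nat_lit 87188887) (nat_lit 37213) (nat_lit 33625769) (nat_lit 37400) (nat_lit 62055),Row.mk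 (nat_lit 23016) (nat_lit 30481) (nat_lit 117283986) (nat_lit 37026) (nat_lit 33609166) (nat_lit 37213) (nat_lit 78658),Row.mk (nat_lit 23184) (nat_lit 30294) (nat_lit 154872038) (nat_lit 36839) (nat_lit 33588430) (nat_lit 37026) (nat_lit 99394),Row.mk (nat_lit 23352) (nat_lit 30107) (nat_lit 201818608) (nat_lit 36652) (nat_lit 33562531) (nat_lit 36839) (nat_lit 125293),Row.mk (nat_lit 23520) (nat_lit 29920) (nat_lit 260453742) (nat_lit 36465) (nat_lit 33530184) (nat_lit 36652) (nat_lit 157641),Row.mk (nat_lit 23688) (nat_lit 29733) (nat_lit 333687610) (nat_lit 36278) (nat_lit 33489782) (nat_lit 36465) (nat_lit 198042),Row.mk (nat_lit 23856) (nat_lit 29546) (nat_lit 425154944) (nat_lit 36091) (nat_lit 33439323) (nat_lit 36278) (nat_lit 248502),Row.mk (nat_lit 24024) (nat_lit 29359) (nat_lit 539395438) (nat_lit 35904) (nat_lit 33376299) (nat_lit 36091) (nat_lit 311525),Row.mk (nat_lit 24192) (nat_lit 29172) (nat_lit 682079059) (nat_lit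 35717) (nat_lit 33297585) (nat_lit 35904) (nat_lit 390239),Row.mk (nat_lit 24360) (nat_lit 28985) (nat_lit 860287459) (nat_lit 35530) (nat_lit 33199272) (nat_lit 35717) (nat_lit 488552),Row.mk (nat_lit 24528) (nat_lit 28798) (nat_lit 1082865452) (nat_lit 35343) (nat_lit 33076482) (nat_lit 35530) (nat_lit 611342),Row.mk (nat_lit 24696) (nat_lit 28611) (nat_lit 1360859996) (nat_lit 35156) (nat_lit 32923121) (nat_lit 35343) (nat_lit 764704),Row.mk (nat_lit 24864) (nat_lit 28424) (nat_lit 1708068475) (nat_lit 34969) (nat_lit 32731575) (nat_lit 35156) (nat_lit 956249),Row.mk (nat_lit 25032) (nat_lit 28237) (nat_lit 2141723490) (nat_lit 34782) (nat_lit 32492340) (nat_lit 34969) (nat_lit 1195484),Row.mk (nat_lit 25200) (nat_lit 28050) (nat_lit 2683348141) (nat_lit 34595) (nat_lit 32193541) (nat_lit 34782) (nat_lit 1494283),Row.mk (nat_lit 25368) (nat_lit 27863) (nat_lit 3359824265) (nat_lit 34408) (nat_lit 31820348) (nat_lit 34595) (nat_lit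 1867476),Row.mk (nat_lit 25536) (nat_lit 27676) (nat_lit 4204726624) (nat_lit 34221) (nat_lit 31354240) (nat_lit 34408) (nat_lit 2333585),Row.mk (nat_lit 25704) (nat_lit 27489) (nat_lit 5259989288) (nat_lit 34034) (nat_lit 30772081) (nat_lit 34221) (nat_lit 2915743),Row.mk (nat_lit 25872) (nat_lit 27302) (nat_lit 6577986899) (nat_lit 33847) (nat_lit 30044979) (nat_lit 34034) (nat_lit 3642845),Row.mk (nat_lit 26040) (nat_lit 32912) (nat_lit 8389760) (nat_lit 62084) (nat_lit 8249432185) (nat_lit 0) (nat_lit 0)],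
[Row.mk (nat_lit 10752) (nat_lit 32912) (nat_lit 1452) (nat_lit 61710) (nat_lit 8387168) (nat_lit 0) (nat_lit 0),Row.mk (nat_lit 10920) (nat_lit 32912) (nat_lit 1455) (nat_lit 61710) (nat_lit 8387168) (nat_lit 0) (nat_lit 0),Row.mk (nat_lit 11088) (nat_lit 32912) (nat_lit 1460) (nat_lit 61710) (nat_lit 8387168) (nat_lit 0) (nat_lit 0),Row.mk (nat_lit 11256) (nat_lit 32912) (nat_lit 1465) (nat_lit 61710) (nat_lit 8387168) (nat_lit 0) (nat_lit 0),Row.mk (nat_lit 11424) (nat_lit 32912) (nat_lit 1471) (nat_lit 61710) (nat_lit 8387168) (nat_lit 0) (nat_lit 0),Row.mk (nat_lit 11592) (nat_lit 32912) (nat_lit 1480) (nat_lit 61710) (nat_lit 8387168) (nat_lit 0) (nat_lit 0),Row.mk (nat_lit 11760) (nat_lit 32912) (nat_lit 1490) (nat_lit 61710) (nat_lit 8387168) (nat_lit 0) (nat_lit 0),Row.mk (nat_lit 11928) (nat_lit 32912) (nat_lit 1503) (nat_lit 61710) (nat_lit 8387168) (nat_lit 0) (nat_lit 0),Row.mk (nat_lit 12096) (nat_lit 32912) (nat_lit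 1519) (nat_lit 61710) (nat_lit 8387168) (nat_lit 0) (nat_lit 0),Row.mk (nat_lit 12264) (nat_lit 32912) (nat_lit 1538) (nat_lit 61710) (nat_lit 8387168) (nat_lit 0) (nat_lit 0),Row.mk (nat_lit 12432) (nat_lit 32912) (nat_lit 1563) (nat_lit 61710) (nat_lit 8387168) (nat_lit 0) (nat_lit 0),Row.mk (nat_lit 12600) (nat_lit 32912) (nat_lit 1594) (nat_lit 61710) (nat_lit 8387168) (nat_lit 0) (nat_lit 0),Row.mk (nat_lit 12768) (nat_lit 32912) (nat_lit 1633) (nat_lit 61710) (nat_lit 8387168) (nat_lit 0) (nat_lit 0),Row.mk (nat_lit 12936) (nat_lit 32912) (nat_lit 1682) (nat_lit 61710) (nat_lit 8387168) (nat_lit 0) (nat_lit 0),Row.mk (nat_lit 13104) (nat_lit 32912) (nat_lit 1742) (nat_lit 61710) (nat_lit 8387168) (nat_lit 0) (nat_lit 0),Row.mk (nat_lit 13272) (nat_lit 32912) (nat_lit 1818) (nat_lit 61710) (nat_lit 8387168) (nat_lit 0) (nat_lit 0),Row.mk (nat_lit 13440) (nat_lit 32912) (nat_lit 1912) (nat_lit 61710) (nat_lit 8387168) (nat_lit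 0) (nat_lit 0),Row.mk (nat_lit 13608) (nat_lit 32912) (nat_lit 2030) (nat_lit 61710) (nat_lit 8387168) (nat_lit 0) (nat_lit 0),Row.mk (nat_lit 13776) (nat_lit 32912) (nat_lit 2177) (nat_lit 61710) (nat_lit 8387168) (nat_lit 0) (nat_lit 0),Row.mk (nat_lit 13944) (nat_lit 32912) (nat_lit 2361) (nat_lit 61710) (nat_lit 8387168) (nat_lit 0) (nat_lit 0),Row.mk (nat_lit 14112) (nat_lit 32912) (nat_lit 2591) (nat_lit 61710) (nat_lit 8387168) (nat_lit 0) (nat_lit 0),Row.mk (nat_lit 14280) (nat_lit 32912) (nat_lit 2878) (nat_lit 61710) (nat_lit 8387168) (nat_lit 0) (nat_lit 0),Row.mk (nat_lit 14448) (nat_lit 32912) (nat_lit 3236) (nat_lit 61710) (nat_lit 8386810) (nat_lit 0) (nat_lit 0),Row.mk (nat_lit 14616) (nat_lit 32912) (nat_lit 3683) (nat_lit 61710) (nat_lit 8386363) (nat_lit 0) (nat_lit 0),Row.mk (nat_lit 14784) (nat_lit 32912) (nat_lit 4242) (nat_lit 61710) (nat_lit 8385804) (nat_lit 0) (nat_lit 0),Row.mk (nat_lit 14952) (nat_lit 32912)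 (nat_lit 4940) (nat_lit 61710) (nat_lit 8385106) (nat_lit 0) (nat_lit 0),Row.mk (nat_lit 15120) (nat_lit 32912) (nat_lit 5812) (nat_lit 61710) (nat_lit 8384234) (nat_lit 0) (nat_lit 0),Row.mk (nat_lit 15288) (nat_lit 32912) (nat_lit 6901) (nat_lit 61710) (nat_lit 8383145) (nat_lit 0) (nat_lit 0),Row.mk (nat_lit 15456) (nat_lit 32912) (nat_lit 8261) (nat_lit 61710) (nat_lit 8381785) (nat_lit 0) (nat_lit 0),Row.mk (nat_lit 15624) (nat_lit 60962) (nat_lit 7175) (nat_lit 61336) (nat_lit 36) (nat_lit 61523) (nat_lit 2748),Row.mk (nat_lit 15792) (nat_lit 60401) (nat_lit 7151) (nat_lit 60775) (nat_lit 58) (nat_lit 60962) (nat_lit 4872),Row.mk (nat_lit 15960) (nat_lit 59840) (nat_lit 7113) (nat_lit 60214) (nat_lit 94) (nat_lit 60401) (nat_lit 7524),Row.mk (nat_lit 16128) (nat_lit 59279) (nat_lit 7054) (nat_lit 59653) (nat_lit 150) (nat_lit 59840) (nat_lit 10836),Row.mk (nat_lit 16296) (nat_lit 58718) (nat_lit 6961) (nat_lit 59092) (nat_lit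 239) (nat_lit 59279) (nat_lit 14974),Row.mk (nat_lit 16464) (nat_lit 58157) (nat_lit 6817) (nat_lit 58531) (nat_lit 378) (nat_lit 58718) (nat_lit 20141),Row.mk (nat_lit 16632) (nat_lit 57596) (nat_lit 6593) (nat_lit 57970) (nat_lit 597) (nat_lit 58157) (nat_lit 26595),Row.mk (nat_lit 16800) (nat_lit 57035) (nat_lit 6242) (nat_lit 57409) (nat_lit 941) (nat_lit 57596) (nat_lit 34655),Row.mk (nat_lit 16968) (nat_lit 56474) (nat_lit 5696) (nat_lit 56848) (nat_lit 1479) (nat_lit 57035) (nat_lit 44723),Row.mk (nat_lit 17136) (nat_lit 55913) (nat_lit 4843) (nat_lit 56287) (nat_lit 2321) (nat_lit 56474) (nat_lit 57297),Row.mk (nat_lit 17304) (nat_lit 55352) (nat_lit 3513) (nat_lit 55726) (nat_lit 3637) (nat_lit 55913) (nat_lit 73002),Row.mk (nat_lit 17472) (nat_lit 54791) (nat_lit 1439) (nat_lit 55165) (nat_lit 5695) (nat_lit 55352) (nat_lit 92617),Row.mk (nat_lit 17640) (nat_lit 54604) (nat_lit 7113) (nat_lit 54791) (nat_lit 115676) (nat_lit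 55165) (nat_lit 1439),Row.mk (nat_lit 17808) (nat_lit 54043) (nat_lit 7087) (nat_lit 54230) (nat_lit 142232) (nat_lit 54604) (nat_lit 5481),Row.mk (nat_lit 17976) (nat_lit 53482) (nat_lit 7054) (nat_lit 53669) (nat_lit 174143) (nat_lit 54043) (nat_lit 11786),Row.mk (nat_lit 18144) (nat_lit 52921) (nat_lit 7013) (nat_lit 53108) (nat_lit 212037) (nat_lit 53482) (nat_lit 21623),Row.mk (nat_lit 18312) (nat_lit 52360) (nat_lit 6961) (nat_lit 52547) (nat_lit 256308) (nat_lit 52921) (nat_lit 36967),Row.mk (nat_lit 18480) (nat_lit 51799) (nat_lit 6897) (nat_lit 51986) (nat_lit 306830) (nat_lit 52360) (nat_lit 60903),Row.mk (nat_lit 18648) (nat_lit 51238) (nat_lit 6817) (nat_lit 51425) (nat_lit 362487) (nat_lit 51799) (nat_lit 98242),Row.mk (nat_lit 18816) (nat_lit 50677) (nat_lit 6718) (nat_lit 50864) (nat_lit 420390) (nat_lit 51238) (nat_lit 156488),Row.mk (nat_lit 18984) (nat_lit 50116) (nat_lit 6593) (nat_lit 50303) (nat_lit 474597) (nat_lit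 50677) (nat_lit 247349),Row.mk (nat_lit 19152) (nat_lit 49555) (nat_lit 6437) (nat_lit 49742) (nat_lit 514046) (nat_lit 50116) (nat_lit 389087),Row.mk (nat_lit 19320) (nat_lit 48994) (nat_lit 6242) (nat_lit 49181) (nat_lit 519241) (nat_lit 49555) (nat_lit 610190),Row.mk (nat_lit 19488) (nat_lit 48433) (nat_lit 5999) (nat_lit 48620) (nat_lit 456975) (nat_lit 48994) (nat_lit 955097),Row.mk (nat_lit 19656) (nat_lit 47685) (nat_lit 5696) (nat_lit 47872) (nat_lit 271952) (nat_lit 48433) (nat_lit 1493131),Row.mk (nat_lit 19824) (nat_lit 47498) (nat_lit 5317) (nat_lit 47685) (nat_lit 2109003) (nat_lit 48246) (nat_lit 96983),Row.mk (nat_lit 19992) (nat_lit 46563) (nat_lit 4843) (nat_lit 46750) (nat_lit 2051935) (nat_lit 47498) (nat_lit 704727),Row.mk (nat_lit 20160) (nat_lit 45628) (nat_lit 4252) (nat_lit 45815) (nat_lit 1654684) (nat_lit 46563) (nat_lit 1789759),Row.mk (nat_lit 20328) (nat_lit 44506) (nat_lit 3513) (nat_lit 44693) (nat_lit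 650027) (nat_lit 45628) (nat_lit 3653438),Row.mk (nat_lit 20496) (nat_lit 44319) (nat_lit 2591) (nat_lit 44506) (nat_lit 4259126) (nat_lit 45441) (nat_lit 1117238),Row.mk (nat_lit 20664) (nat_lit 43010) (nat_lit 1439) (nat_lit 43197) (nat_lit 2559479) (nat_lit 44319) (nat_lit 4156909),Row.mk (nat_lit 20832) (nat_lit 43010) (nat_lit 7502268) (nat_lit 44132) (nat_lit 887778) (nat_lit 0) (nat_lit 0),Row.mk (nat_lit 21000) (nat_lit 41327) (nat_lit 3990838) (nat_lit 42823) (nat_lit 6486330) (nat_lit 43010) (nat_lit 1439),Row.mk (nat_lit 21168) (nat_lit 41140) (nat_lit 10360180) (nat_lit 42636) (nat_lit 2723753) (nat_lit 42823) (nat_lit 3236),Row.mk (nat_lit 21336) (nat_lit 38896) (nat_lit 2460649) (nat_lit 40953) (nat_lit 13879071) (nat_lit 41140) (nat_lit 5481),Row.mk (nat_lit 21504) (nat_lit 38709) (nat_lit 9787883) (nat_lit 40766) (nat_lit 10618236) (nat_lit 40953) (nat_lit 8285),Row.mk (nat_lit 21672) (nat_lit 38522) (nat_lit 18939422)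 (nat_lit 40579) (nat_lit 6545531) (nat_lit 40766) (nat_lit 11786),Row.mk (nat_lit 21840) (nat_lit 38335) (nat_lit 30369473) (nat_lit 40392) (nat_lit 1458821) (nat_lit 40579) (nat_lit 16160),Row.mk (nat_lit 22008) (nat_lit 31603) (nat_lit 6085925) (nat_lit 38148) (nat_lit 33665049) (nat_lit 38335) (nat_lit 21623),Row.mk (nat_lit 22176) (nat_lit 31416) (nat_lit 15987984) (nat_lit 37961) (nat_lit 33658226) (nat_lit 38148) (nat_lit 28446),Row.mk (nat_lit 22344) (nat_lit 31229) (nat_lit 28355417) (nat_lit 37774) (nat_lit 33649705) (nat_lit 37961) (nat_lit 36967),Row.mk (nat_lit 22512) (nat_lit 31042) (nat_lit 43802043) (nat_lit 37587) (nat_lit 33639062) (nat_lit 37774) (nat_lit 47610),Row.mk (nat_lit 22680) (nat_lit 30855) (nat_lit 63094506) (nat_lit 37400) (nat_lit 33625769) (nat_lit 37587) (nat_lit 60903),Row.mk (nat_lit 22848) (nat_lit 30668) (nat_lit 87190326) (nat_lit 37213) (nat_lit 33609166) (nat_lit 37400) (nat_lit 77506),Row.mk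 (nat_lit 23016) (nat_lit 30481) (nat_lit 117285425) (nat_lit 37026) (nat_lit 33588430) (nat_lit 37213) (nat_lit 98242),Row.mk (nat_lit 23184) (nat_lit 30294) (nat_lit 154873477) (nat_lit 36839) (nat_lit 33562531) (nat_lit 37026) (nat_lit 124141),Row.mk (nat_lit 23352) (nat_lit 30107) (nat_lit 201820047) (nat_lit 36652) (nat_lit 33530184) (nat_lit 36839) (nat_lit 156488),Row.mk (nat_lit 23520) (nat_lit 29920) (nat_lit 260455181) (nat_lit 36465) (nat_lit 33489782) (nat_lit 36652) (nat_lit 196890),Row.mk (nat_lit 23688) (nat_lit 29733) (nat_lit 333689049) (nat_lit 36278) (nat_lit 33439323) (nat_lit 36465) (nat_lit 247349),Row.mk (nat_lit 23856) (nat_lit 29546) (nat_lit 425156383) (nat_lit 36091) (nat_lit 33376299) (nat_lit 36278) (nat_lit 310373),Row.mk (nat_lit 24024) (nat_lit 29359) (nat_lit 539396877) (nat_lit 35904) (nat_lit 33297585) (nat_lit 36091) (nat_lit 389087),Row.mk (nat_lit 24192) (nat_lit 29172) (nat_lit 682080498) (nat_lit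 35717) (nat_lit 33199272) (nat_lit 35904) (nat_lit 487400),Row.mk (nat_lit 24360) (nat_lit 28985) (nat_lit 860288898) (nat_lit 35530) (nat_lit 33076482) (nat_lit 35717) (nat_lit 610190),Row.mk (nat_lit 24528) (nat_lit 28798) (nat_lit 1082866891) (nat_lit 35343) (nat_lit 32923121) (nat_lit 35530) (nat_lit 763552),Row.mk (nat_lit 24696) (nat_lit 28611) (nat_lit 1360861435) (nat_lit 35156) (nat_lit 32731575) (nat_lit 35343) (nat_lit 955097),Row.mk (nat_lit 24864) (nat_lit 28424) (nat_lit 1708069914) (nat_lit 34969) (nat_lit 32492340) (nat_lit 35156) (nat_lit 1194332),Row.mk (nat_lit 25032) (nat_lit 28237) (nat_lit 2141724929) (nat_lit 34782) (nat_lit 32193541) (nat_lit 34969) (nat_lit 1493131),Row.mk (nat_lit 25200) (nat_lit 28050) (nat_lit 2683349580) (nat_lit 34595) (nat_lit 31820348) (nat_lit 34782) (nat_lit 1866324),Row.mk (nat_lit 25368) (nat_lit 27863) (nat_lit 3359825704) (nat_lit 34408) (nat_lit 31354240) (nat_lit 34595) (nat_lit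 2332432),Row.mk (nat_lit 25536) (nat_lit 27676) (nat_lit 4204728063) (nat_lit 34221) (nat_lit 30772081) (nat_lit 34408) (nat_lit 2914591),Row.mk (nat_lit 25704) (nat_lit 27489) (nat_lit 5259990727) (nat_lit 34034) (nat_lit 30044979) (nat_lit 34221) (nat_lit 3641693),Row.mk (nat_lit 25872) (nat_lit 27302) (nat_lit 6577988338) (nat_lit 33847) (nat_lit 29136846) (nat_lit 34034) (nat_lit 4549826),Row.mk (nat_lit 26040) (nat_lit 32912) (nat_lit 8390047) (nat_lit 62084) (nat_lit 8249432185) (nat_lit 0) (nat_lit 0),Row.mk (nat_lit 26208) (nat_lit 32912) (nat_lit 8390047) (nat_lit 62084) (nat_lit 10305430352) (nat_lit 0) (nat_lit 0)],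
[Row.mk (nat_lit 10752) (nat_lit 32912) (nat_lit 1810) (nat_lit 61710) (nat_lit 8386810) (nat_lit 0) (nat_lit 0),Row.mk (nat_lit 10920) (nat_lit 32912) (nat_lit 1814) (nat_lit 61710) (nat_lit 8386810) (nat_lit 0) (nat_lit 0),Row.mk (nat_lit 11088) (nat_lit 32912) (nat_lit 1818) (nat_lit 61710) (nat_lit 8386810) (nat_lit 0) (nat_lit 0),Row.mk (nat_lit 11256) (nat_lit 32912) (nat_lit 1823) (nat_lit 61710) (nat_lit 8386810) (nat_lit 0) (nat_lit 0),Row.mk (nat_lit 11424) (nat_lit 32912) (nat_lit 1830) (nat_lit 61710) (nat_lit 8386810) (nat_lit 0) (nat_lit 0),Row.mk (nat_lit 11592) (nat_lit 32912) (nat_lit 1838) (nat_lit 61710) (nat_lit 8386810) (nat_lit 0) (nat_lit 0),Row.mk (nat_lit 11760) (nat_lit 32912) (nat_lit 1848) (nat_lit 61710) (nat_lit 8386810) (nat_lit 0) (nat_lit 0),Row.mk (nat_lit 11928) (nat_lit 32912) (nat_lit 1861) (nat_lit 61710) (nat_lit 8386810) (nat_lit 0) (nat_lit 0),Row.mk (nat_lit 12096) (nat_lit 32912) (nat_lit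 1877) (nat_lit 61710) (nat_lit 8386810) (nat_lit 0) (nat_lit 0),Row.mk (nat_lit 12264) (nat_lit 32912) (nat_lit 1897) (nat_lit 61710) (nat_lit 8386810) (nat_lit 0) (nat_lit 0),Row.mk (nat_lit 12432) (nat_lit 32912) (nat_lit 1922) (nat_lit 61710) (nat_lit 8386810) (nat_lit 0) (nat_lit 0),Row.mk (nat_lit 12600) (nat_lit 32912) (nat_lit 1953) (nat_lit 61710) (nat_lit 8386810) (nat_lit 0) (nat_lit 0),Row.mk (nat_lit 12768) (nat_lit 32912) (nat_lit 1991) (nat_lit 61710) (nat_lit 8386810) (nat_lit 0) (nat_lit 0),Row.mk (nat_lit 12936) (nat_lit 32912) (nat_lit 2040) (nat_lit 61710) (nat_lit 8386810) (nat_lit 0) (nat_lit 0),Row.mk (nat_lit 13104) (nat_lit 32912) (nat_lit 2100) (nat_lit 61710) (nat_lit 8386810) (nat_lit 0) (nat_lit 0),Row.mk (nat_lit 13272) (nat_lit 32912) (nat_lit 2176) (nat_lit 61710) (nat_lit 8386810) (nat_lit 0) (nat_lit 0),Row.mk (nat_lit 13440) (nat_lit 32912) (nat_lit 2270) (nat_lit 61710) (nat_lit 8386810) (nat_lit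 0) (nat_lit 0),Row.mk (nat_lit 13608) (nat_lit 32912) (nat_lit 2388) (nat_lit 61710) (nat_lit 8386810) (nat_lit 0) (nat_lit 0),Row.mk (nat_lit 13776) (nat_lit 32912) (nat_lit 2535) (nat_lit 61710) (nat_lit 8386810) (nat_lit 0) (nat_lit 0),Row.mk (nat_lit 13944) (nat_lit 32912) (nat_lit 2719) (nat_lit 61710) (nat_lit 8386810) (nat_lit 0) (nat_lit 0),Row.mk (nat_lit 14112) (nat_lit 32912) (nat_lit 2949) (nat_lit 61710) (nat_lit 8386810) (nat_lit 0) (nat_lit 0),Row.mk (nat_lit 14280) (nat_lit 32912) (nat_lit 3236) (nat_lit 61710) (nat_lit 8386810) (nat_lit 0) (nat_lit 0),Row.mk (nat_lit 14448) (nat_lit 32912) (nat_lit 3594) (nat_lit 61710) (nat_lit 8386810) (nat_lit 0) (nat_lit 0),Row.mk (nat_lit 14616) (nat_lit 32912) (nat_lit 4042) (nat_lit 61710) (nat_lit 8386363) (nat_lit 0) (nat_lit 0),Row.mk (nat_lit 14784) (nat_lit 32912) (nat_lit 4601) (nat_lit 61710) (nat_lit 8385804) (nat_lit 0) (nat_lit 0),Row.mk (nat_lit 14952) (nat_lit 32912)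 (nat_lit 5299) (nat_lit 61710) (nat_lit 8385106) (nat_lit 0) (nat_lit 0),Row.mk (nat_lit 15120) (nat_lit 32912) (nat_lit 6171) (nat_lit 61710) (nat_lit 8384234) (nat_lit 0) (nat_lit 0),Row.mk (nat_lit 15288) (nat_lit 32912) (nat_lit 7260) (nat_lit 61710) (nat_lit 8383145) (nat_lit 0) (nat_lit 0),Row.mk (nat_lit 15456) (nat_lit 60962) (nat_lit 460) (nat_lit 61336) (nat_lit 25) (nat_lit 61523) (nat_lit 8134),Row.mk (nat_lit 15624) (nat_lit 60962) (nat_lit 8972) (nat_lit 61336) (nat_lit 34) (nat_lit 61523) (nat_lit 1311),Row.mk (nat_lit 15792) (nat_lit 60401) (nat_lit 8948) (nat_lit 60775) (nat_lit 56) (nat_lit 60962) (nat_lit 3435),Row.mk (nat_lit 15960) (nat_lit 59840) (nat_lit 8910) (nat_lit 60214) (nat_lit 91) (nat_lit 60401) (nat_lit 6088),Row.mk (nat_lit 16128) (nat_lit 59279) (nat_lit 8851) (nat_lit 59653) (nat_lit 146) (nat_lit 59840) (nat_lit 9401),Row.mk (nat_lit 16296) (nat_lit 58718) (nat_lit 8759) (nat_lit 59092) (nat_lit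 234) (nat_lit 59279) (nat_lit 13539),Row.mk (nat_lit 16464) (nat_lit 58157) (nat_lit 8615) (nat_lit 58531) (nat_lit 373) (nat_lit 58718) (nat_lit 18707),Row.mk (nat_lit 16632) (nat_lit 57596) (nat_lit 8390) (nat_lit 57970) (nat_lit 590) (nat_lit 58157) (nat_lit 25163),Row.mk (nat_lit 16800) (nat_lit 57035) (nat_lit 8040) (nat_lit 57409) (nat_lit 932) (nat_lit 57596) (nat_lit 33225),Row.mk (nat_lit 16968) (nat_lit 56474) (nat_lit 7493) (nat_lit 56848) (nat_lit 1468) (nat_lit 57035) (nat_lit 43295),Row.mk (nat_lit 17136) (nat_lit 55913) (nat_lit 6641) (nat_lit 56287) (nat_lit 2307) (nat_lit 56474) (nat_lit 55871),Row.mk (nat_lit 17304) (nat_lit 55352) (nat_lit 5311) (nat_lit 55726) (nat_lit 3620) (nat_lit 55913) (nat_lit 71580),Row.mk (nat_lit 17472) (nat_lit 54791) (nat_lit 3236) (nat_lit 55165) (nat_lit 5674) (nat_lit 55352) (nat_lit 91199),Row.mk (nat_lit 17640) (nat_lit 54604) (nat_lit 8884) (nat_lit 54791) (nat_lit 115702) (nat_lit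 0) (nat_lit 0),Row.mk (nat_lit 17808) (nat_lit 54043) (nat_lit 8851) (nat_lit 54230) (nat_lit 142265) (nat_lit 54604) (nat_lit 4042),Row.mk (nat_lit 17976) (nat_lit 53482) (nat_lit 8810) (nat_lit 53669) (nat_lit 174184) (nat_lit 54043) (nat_lit 10347),Row.mk (nat_lit 18144) (nat_lit 52921) (nat_lit 8759) (nat_lit 53108) (nat_lit 212089) (nat_lit 53482) (nat_lit 20184),Row.mk (nat_lit 18312) (nat_lit 52360) (nat_lit 8695) (nat_lit 52547) (nat_lit 256372) (nat_lit 52921) (nat_lit 35528),Row.mk (nat_lit 18480) (nat_lit 51799) (nat_lit 8615) (nat_lit 51986) (nat_lit 306910) (nat_lit 52360) (nat_lit 59464),Row.mk (nat_lit 18648) (nat_lit 51238) (nat_lit 8515) (nat_lit 51425) (nat_lit 362587) (nat_lit 51799) (nat_lit 96803),Row.mk (nat_lit 18816) (nat_lit 50677) (nat_lit 8390) (nat_lit 50864) (nat_lit 420515) (nat_lit 51238) (nat_lit 155049),Row.mk (nat_lit 18984) (nat_lit 50116) (nat_lit 8234) (nat_lit 50303) (nat_lit 474753) (nat_lit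 50677) (nat_lit 245910),Row.mk (nat_lit 19152) (nat_lit 49555) (nat_lit 8040) (nat_lit 49742) (nat_lit 514241) (nat_lit 50116) (nat_lit 387648),Row.mk (nat_lit 19320) (nat_lit 48994) (nat_lit 7797) (nat_lit 49181) (nat_lit 519484) (nat_lit 49555) (nat_lit 608751),Row.mk (nat_lit 19488) (nat_lit 48433) (nat_lit 7493) (nat_lit 48620) (nat_lit 457279) (nat_lit 48994) (nat_lit 953658),Row.mk (nat_lit 19656) (nat_lit 47685) (nat_lit 7114) (nat_lit 47872) (nat_lit 272331) (nat_lit 48433) (nat_lit 1491692),Row.mk (nat_lit 19824) (nat_lit 47498) (nat_lit 6641) (nat_lit 47685) (nat_lit 2109476) (nat_lit 48246) (nat_lit 95543),Row.mk (nat_lit 19992) (nat_lit 46563) (nat_lit 6049) (nat_lit 46750) (nat_lit 2052526) (nat_lit 47498) (nat_lit 703288),Row.mk (nat_lit 20160) (nat_lit 45628) (nat_lit 5311) (nat_lit 45815) (nat_lit 1655423) (nat_lit 46563) (nat_lit 1788320),Row.mk (nat_lit 20328) (nat_lit 44506) (nat_lit 4388) (nat_lit 44693) (nat_lit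 650950) (nat_lit 45628) (nat_lit 3651999),Row.mk (nat_lit 20496) (nat_lit 44319) (nat_lit 3236) (nat_lit 44506) (nat_lit 4260278) (nat_lit 45441) (nat_lit 1115799),Row.mk (nat_lit 20664) (nat_lit 43010) (nat_lit 1797) (nat_lit 43197) (nat_lit 2560918) (nat_lit 44319) (nat_lit 4155470),Row.mk (nat_lit 20832) (nat_lit 43010) (nat_lit 7504066) (nat_lit 44132) (nat_lit 886339) (nat_lit 0) (nat_lit 0),Row.mk (nat_lit 21000) (nat_lit 41327) (nat_lit 3992635) (nat_lit 42823) (nat_lit 6484533) (nat_lit 43010) (nat_lit 1797),Row.mk (nat_lit 21168) (nat_lit 41140) (nat_lit 10361978) (nat_lit 42636) (nat_lit 2721508) (nat_lit 42823) (nat_lit 4042),Row.mk (nat_lit 21336) (nat_lit 38896) (nat_lit 2462446) (nat_lit 40953) (nat_lit 13876267) (nat_lit 41140) (nat_lit 6846),Row.mk (nat_lit 21504) (nat_lit 38709) (nat_lit 9789680) (nat_lit 40766) (nat_lit 10614734) (nat_lit 40953) (nat_lit 10347),Row.mk (nat_lit 21672) (nat_lit 38522) (nat_lit 18941219)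 (nat_lit 40579) (nat_lit 6541157) (nat_lit 40766) (nat_lit 14721),Row.mk (nat_lit 21840) (nat_lit 38335) (nat_lit 30371270) (nat_lit 40392) (nat_lit 1453359) (nat_lit 40579) (nat_lit 20184),Row.mk (nat_lit 22008) (nat_lit 31603) (nat_lit 6087722) (nat_lit 38148) (nat_lit 33658226) (nat_lit 38335) (nat_lit 27007),Row.mk (nat_lit 22176) (nat_lit 31416) (nat_lit 15989782) (nat_lit 37961) (nat_lit 33649705) (nat_lit 38148) (nat_lit 35528),Row.mk (nat_lit 22344) (nat_lit 31229) (nat_lit 28357215) (nat_lit 37774) (nat_lit 33639062) (nat_lit 37961) (nat_lit 46171),Row.mk (nat_lit 22512) (nat_lit 31042) (nat_lit 43803840) (nat_lit 37587) (nat_lit 33625769) (nat_lit 37774) (nat_lit 59464),Row.mk (nat_lit 22680) (nat_lit 30855) (nat_lit 63096303) (nat_lit 37400) (nat_lit 33609166) (nat_lit 37587) (nat_lit 76067),Row.mk (nat_lit 22848) (nat_lit 30668) (nat_lit 87192124) (nat_lit 37213) (nat_lit 33588430) (nat_lit 37400) (nat_lit 96803),Row.mk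 (nat_lit 23016) (nat_lit 30481) (nat_lit 117287222) (nat_lit 37026) (nat_lit 33562531) (nat_lit 37213) (nat_lit 122702),Row.mk (nat_lit 23184) (nat_lit 30294) (nat_lit 154875274) (nat_lit 36839) (nat_lit 33530184) (nat_lit 37026) (nat_lit 155049),Row.mk (nat_lit 23352) (nat_lit 30107) (nat_lit 201821845) (nat_lit 36652) (nat_lit 33489782) (nat_lit 36839) (nat_lit 195450),Row.mk (nat_lit 23520) (nat_lit 29920) (nat_lit 260456979) (nat_lit 36465) (nat_lit 33439323) (nat_lit 36652) (nat_lit 245910),Row.mk (nat_lit 23688) (nat_lit 29733) (nat_lit 333690847) (nat_lit 36278) (nat_lit 33376299) (nat_lit 36465) (nat_lit 308934),Row.mk (nat_lit 23856) (nat_lit 29546) (nat_lit 425158181) (nat_lit 36091) (nat_lit 33297585) (nat_lit 36278) (nat_lit 387648),Row.mk (nat_lit 24024) (nat_lit 29359) (nat_lit 539398675) (nat_lit 35904) (nat_lit 33199272) (nat_lit 36091) (nat_lit 485961),Row.mk (nat_lit 24192) (nat_lit 29172) (nat_lit 682082295) (nat_lit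 35717) (nat_lit 33076482) (nat_lit 35904) (nat_lit 608751),Row.mk (nat_lit 24360) (nat_lit 28985) (nat_lit 860290696) (nat_lit 35530) (nat_lit 32923121) (nat_lit 35717) (nat_lit 762112),Row.mk (nat_lit 24528) (nat_lit 28798) (nat_lit 1082868689) (nat_lit 35343) (nat_lit 32731575) (nat_lit 35530) (nat_lit 953658),Row.mk (nat_lit 24696) (nat_lit 28611) (nat_lit 1360863233) (nat_lit 35156) (nat_lit 32492340) (nat_lit 35343) (nat_lit 1192893),Row.mk (nat_lit 24864) (nat_lit 28424) (nat_lit 1708071712) (nat_lit 34969) (nat_lit 32193541) (nat_lit 35156) (nat_lit 1491692),Row.mk (nat_lit 25032) (nat_lit 28237) (nat_lit 2141726726) (nat_lit 34782) (nat_lit 31820348) (nat_lit 34969) (nat_lit 1864885),Row.mk (nat_lit 25200) (nat_lit 28050) (nat_lit 2683351377) (nat_lit 34595) (nat_lit 31354240) (nat_lit 34782) (nat_lit 2330993),Row.mk (nat_lit 25368) (nat_lit 27863) (nat_lit 3359827501) (nat_lit 34408) (nat_lit 30772081) (nat_lit 34595) (nat_lit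 2913152),Row.mk (nat_lit 25536) (nat_lit 27676) (nat_lit 4204729860) (nat_lit 34221) (nat_lit 30044979) (nat_lit 34408) (nat_lit 3640254),Row.mk (nat_lit 25704) (nat_lit 27489) (nat_lit 5259992524) (nat_lit 34034) (nat_lit 29136846) (nat_lit 34221) (nat_lit 4548387),Row.mk (nat_lit 25872) (nat_lit 27302) (nat_lit 6577990135) (nat_lit 33847) (nat_lit 28002610) (nat_lit 34034) (nat_lit 5682623),Row.mk (nat_lit 26040) (nat_lit 32912) (nat_lit 8390405) (nat_lit 62084) (nat_lit 8249432185) (nat_lit 0) (nat_lit 0),Row.mk (nat_lit 26208) (nat_lit 32912) (nat_lit 8390405) (nat_lit 62084) (nat_lit 10305430352) (nat_lit 0) (nat_lit 0)],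
[Row.mk (nat_lit 10584) (nat_lit 32912) (nat_lit 2255) (nat_lit 61710) (nat_lit 8386363) (nat_lit 0) (nat_lit 0),Row.mk (nat_lit 10752) (nat_lit 32912) (nat_lit 2258) (nat_lit 61710) (nat_lit 8386363) (nat_lit 0) (nat_lit 0),Row.mk (nat_lit 10920) (nat_lit 32912) (nat_lit 2261) (nat_lit 61710) (nat_lit 8386363) (nat_lit 0) (nat_lit 0),Row.mk (nat_lit 11088) (nat_lit 32912) (nat_lit 2265) (nat_lit 61710) (nat_lit 8386363) (nat_lit 0) (nat_lit 0),Row.mk (nat_lit 11256) (nat_lit 32912) (nat_lit 2271) (nat_lit 61710) (nat_lit 8386363) (nat_lit 0) (nat_lit 0),Row.mk (nat_lit 11424) (nat_lit 32912) (nat_lit 2277) (nat_lit 61710) (nat_lit 8386363) (nat_lit 0) (nat_lit 0),Row.mk (nat_lit 11592) (nat_lit 32912) (nat_lit 2285) (nat_lit 61710) (nat_lit 8386363) (nat_lit 0) (nat_lit 0),Row.mk (nat_lit 11760) (nat_lit 32912) (nat_lit 2296) (nat_lit 61710) (nat_lit 8386363) (nat_lit 0) (nat_lit 0),Row.mk (nat_lit 11928) (nat_lit 32912) (nat_lit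 2308) (nat_lit 61710) (nat_lit 8386363) (nat_lit 0) (nat_lit 0),Row.mk (nat_lit 12096) (nat_lit 32912) (nat_lit 2324) (nat_lit 61710) (nat_lit 8386363) (nat_lit 0) (nat_lit 0),Row.mk (nat_lit 12264) (nat_lit 32912) (nat_lit 2344) (nat_lit 61710) (nat_lit 8386363) (nat_lit 0) (nat_lit 0),Row.mk (nat_lit 12432) (nat_lit 32912) (nat_lit 2369) (nat_lit 61710) (nat_lit 8386363) (nat_lit 0) (nat_lit 0),Row.mk (nat_lit 12600) (nat_lit 32912) (nat_lit 2400) (nat_lit 61710) (nat_lit 8386363) (nat_lit 0) (nat_lit 0),Row.mk (nat_lit 12768) (nat_lit 32912) (nat_lit 2439) (nat_lit 61710) (nat_lit 8386363) (nat_lit 0) (nat_lit 0),Row.mk (nat_lit 12936) (nat_lit 32912) (nat_lit 2487) (nat_lit 61710) (nat_lit 8386363) (nat_lit 0) (nat_lit 0),Row.mk (nat_lit 13104) (nat_lit 32912) (nat_lit 2548) (nat_lit 61710) (nat_lit 8386363) (nat_lit 0) (nat_lit 0),Row.mk (nat_lit 13272) (nat_lit 32912) (nat_lit 2623) (nat_lit 61710) (nat_lit 8386363) (nat_lit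 0) (nat_lit 0),Row.mk (nat_lit 13440) (nat_lit 32912) (nat_lit 2718) (nat_lit 61710) (nat_lit 8386363) (nat_lit 0) (nat_lit 0),Row.mk (nat_lit 13608) (nat_lit 32912) (nat_lit 2836) (nat_lit 61710) (nat_lit 8386363) (nat_lit 0) (nat_lit 0),Row.mk (nat_lit 13776) (nat_lit 32912) (nat_lit 2983) (nat_lit 61710) (nat_lit 8386363) (nat_lit 0) (nat_lit 0),Row.mk (nat_lit 13944) (nat_lit 32912) (nat_lit 3167) (nat_lit 61710) (nat_lit 8386363) (nat_lit 0) (nat_lit 0),Row.mk (nat_lit 14112) (nat_lit 32912) (nat_lit 3397) (nat_lit 61710) (nat_lit 8386363) (nat_lit 0) (nat_lit 0),Row.mk (nat_lit 14280) (nat_lit 32912) (nat_lit 3683) (nat_lit 61710) (nat_lit 8386363) (nat_lit 0) (nat_lit 0),Row.mk (nat_lit 14448) (nat_lit 32912) (nat_lit 4042) (nat_lit 61710) (nat_lit 8386363) (nat_lit 0) (nat_lit 0),Row.mk (nat_lit 14616) (nat_lit 32912) (nat_lit 4489) (nat_lit 61710) (nat_lit 8386363) (nat_lit 0) (nat_lit 0),Row.mk (nat_lit 14784) (nat_lit 32912)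 (nat_lit 5048) (nat_lit 61710) (nat_lit 8385804) (nat_lit 0) (nat_lit 0),Row.mk (nat_lit 14952) (nat_lit 32912) (nat_lit 5746) (nat_lit 61710) (nat_lit 8385106) (nat_lit 0) (nat_lit 0),Row.mk (nat_lit 15120) (nat_lit 32912) (nat_lit 6618) (nat_lit 61710) (nat_lit 8384234) (nat_lit 0) (nat_lit 0),Row.mk (nat_lit 15288) (nat_lit 32912) (nat_lit 7707) (nat_lit 61710) (nat_lit 8383145) (nat_lit 0) (nat_lit 0),Row.mk (nat_lit 15456) (nat_lit 60962) (nat_lit 2705) (nat_lit 61336) (nat_lit 23) (nat_lit 61523) (nat_lit 6339),Row.mk (nat_lit 15624) (nat_lit 60401) (nat_lit 563) (nat_lit 60775) (nat_lit 39) (nat_lit 60962) (nat_lit 10162),Row.mk (nat_lit 15792) (nat_lit 60401) (nat_lit 11193) (nat_lit 60775) (nat_lit 53) (nat_lit 60962) (nat_lit 1641),Row.mk (nat_lit 15960) (nat_lit 59840) (nat_lit 11155) (nat_lit 60214) (nat_lit 87) (nat_lit 60401) (nat_lit 4294),Row.mk (nat_lit 16128) (nat_lit 59279) (nat_lit 11096) (nat_lit 59653) (nat_lit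 142) (nat_lit 59840) (nat_lit 7608),Row.mk (nat_lit 16296) (nat_lit 58718) (nat_lit 11004) (nat_lit 59092) (nat_lit 229) (nat_lit 59279) (nat_lit 11747),Row.mk (nat_lit 16464) (nat_lit 58157) (nat_lit 10860) (nat_lit 58531) (nat_lit 366) (nat_lit 58718) (nat_lit 16917),Row.mk (nat_lit 16632) (nat_lit 57596) (nat_lit 10635) (nat_lit 57970) (nat_lit 582) (nat_lit 58157) (nat_lit 23374),Row.mk (nat_lit 16800) (nat_lit 57035) (nat_lit 10285) (nat_lit 57409) (nat_lit 921) (nat_lit 57596) (nat_lit 31438),Row.mk (nat_lit 16968) (nat_lit 56474) (nat_lit 9738) (nat_lit 56848) (nat_lit 1454) (nat_lit 57035) (nat_lit 41511),Row.mk (nat_lit 17136) (nat_lit 55913) (nat_lit 8886) (nat_lit 56287) (nat_lit 2290) (nat_lit 56474) (nat_lit 54091),Row.mk (nat_lit 17304) (nat_lit 55352) (nat_lit 7556) (nat_lit 55726) (nat_lit 3599) (nat_lit 55913) (nat_lit 69803),Row.mk (nat_lit 17472) (nat_lit 54791) (nat_lit 5481) (nat_lit 55165) (nat_lit 5647) (nat_lit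 55352) (nat_lit 89428),Row.mk (nat_lit 17640) (nat_lit 54230) (nat_lit 2244) (nat_lit 54604) (nat_lit 8851) (nat_lit 54791) (nat_lit 113938),Row.mk (nat_lit 17808) (nat_lit 54043) (nat_lit 11055) (nat_lit 54230) (nat_lit 142306) (nat_lit 54604) (nat_lit 2244),Row.mk (nat_lit 17976) (nat_lit 53482) (nat_lit 11004) (nat_lit 53669) (nat_lit 174235) (nat_lit 54043) (nat_lit 8550),Row.mk (nat_lit 18144) (nat_lit 52921) (nat_lit 10940) (nat_lit 53108) (nat_lit 212153) (nat_lit 53482) (nat_lit 18386),Row.mk (nat_lit 18312) (nat_lit 52360) (nat_lit 10860) (nat_lit 52547) (nat_lit 256452) (nat_lit 52921) (nat_lit 33731),Row.mk (nat_lit 18480) (nat_lit 51799) (nat_lit 10760) (nat_lit 51986) (nat_lit 307010) (nat_lit 52360) (nat_lit 57667),Row.mk (nat_lit 18648) (nat_lit 51238) (nat_lit 10635) (nat_lit 51425) (nat_lit 362711) (nat_lit 51799) (nat_lit 95006),Row.mk (nat_lit 18816) (nat_lit 50677) (nat_lit 10479) (nat_lit 50864) (nat_lit 420671)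 (nat_lit 51238) (nat_lit 153252),Row.mk (nat_lit 18984) (nat_lit 50116) (nat_lit 10285) (nat_lit 50303) (nat_lit 474948) (nat_lit 50677) (nat_lit 244113),Row.mk (nat_lit 19152) (nat_lit 49555) (nat_lit 10042) (nat_lit 49742) (nat_lit 514484) (nat_lit 50116) (nat_lit 385851),Row.mk (nat_lit 19320) (nat_lit 48994) (nat_lit 9738) (nat_lit 49181) (nat_lit 519788) (nat_lit 49555) (nat_lit 606953),Row.mk (nat_lit 19488) (nat_lit 48433) (nat_lit 9359) (nat_lit 48620) (nat_lit 457658) (nat_lit 48994) (nat_lit 951860),Row.mk (nat_lit 19656) (nat_lit 47685) (nat_lit 8886) (nat_lit 47872) (nat_lit 272804) (nat_lit 48433) (nat_lit 1489894),Row.mk (nat_lit 19824) (nat_lit 47498) (nat_lit 8294) (nat_lit 47685) (nat_lit 2110067) (nat_lit 48246) (nat_lit 93746),Row.mk (nat_lit 19992) (nat_lit 46563) (nat_lit 7556) (nat_lit 46750) (nat_lit 2053265) (nat_lit 47498) (nat_lit 701490),Row.mk (nat_lit 20160) (nat_lit 45628) (nat_lit 6633) (nat_lit 45815)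 (nat_lit 1656345) (nat_lit 46563) (nat_lit 1786522),Row.mk (nat_lit 20328) (nat_lit 44506) (nat_lit 5481) (nat_lit 44693) (nat_lit 652102) (nat_lit 45628) (nat_lit 3650202),Row.mk (nat_lit 20496) (nat_lit 44319) (nat_lit 4042) (nat_lit 44506) (nat_lit 4261717) (nat_lit 45441) (nat_lit 1114001),Row.mk (nat_lit 20664) (nat_lit 43010) (nat_lit 2244) (nat_lit 43197) (nat_lit 2562715) (nat_lit 44319) (nat_lit 4153673),Row.mk (nat_lit 20832) (nat_lit 43010) (nat_lit 7506311) (nat_lit 44132) (nat_lit 884541) (nat_lit 0) (nat_lit 0),Row.mk (nat_lit 21000) (nat_lit 41327) (nat_lit 3994880) (nat_lit 42823) (nat_lit 6482288) (nat_lit 43010) (nat_lit 2244),Row.mk (nat_lit 21168) (nat_lit 41140) (nat_lit 10364222) (nat_lit 42636) (nat_lit 2718704) (nat_lit 42823) (nat_lit 5048),Row.mk (nat_lit 21336) (nat_lit 38896) (nat_lit 2464691) (nat_lit 40953) (nat_lit 13872765) (nat_lit 41140) (nat_lit 8550),Row.mk (nat_lit 21504) (nat_lit 38709) (nat_lit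 9791925) (nat_lit 40766) (nat_lit 10610360) (nat_lit 40953) (nat_lit 12924),Row.mk (nat_lit 21672) (nat_lit 38522) (nat_lit 18943464) (nat_lit 40579) (nat_lit 6535695) (nat_lit 40766) (nat_lit 18386),Row.mk (nat_lit 21840) (nat_lit 38335) (nat_lit 30373515) (nat_lit 40392) (nat_lit 1446536) (nat_lit 40579) (nat_lit 25209),Row.mk (nat_lit 22008) (nat_lit 31603) (nat_lit 6089967) (nat_lit 38148) (nat_lit 33649705) (nat_lit 38335) (nat_lit 33731),Row.mk (nat_lit 22176) (nat_lit 31416) (nat_lit 15992026) (nat_lit 37961) (nat_lit 33639062) (nat_lit 38148) (nat_lit 44374),Row.mk (nat_lit 22344) (nat_lit 31229) (nat_lit 28359460) (nat_lit 37774) (nat_lit 33625769) (nat_lit 37961) (nat_lit 57667),Row.mk (nat_lit 22512) (nat_lit 31042) (nat_lit 43806085) (nat_lit 37587) (nat_lit 33609166) (nat_lit 37774) (nat_lit 74269),Row.mk (nat_lit 22680) (nat_lit 30855) (nat_lit 63098548) (nat_lit 37400) (nat_lit 33588430) (nat_lit 37587) (nat_lit 95006),Row.mk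 (nat_lit 22848) (nat_lit 30668) (nat_lit 87194368) (nat_lit 37213) (nat_lit 33562531) (nat_lit 37400) (nat_lit 120905),Row.mk (nat_lit 23016) (nat_lit 30481) (nat_lit 117289467) (nat_lit 37026) (nat_lit 33530184) (nat_lit 37213) (nat_lit 153252),Row.mk (nat_lit 23184) (nat_lit 30294) (nat_lit 154877519) (nat_lit 36839) (nat_lit 33489782) (nat_lit 37026) (nat_lit 193653),Row.mk (nat_lit 23352) (nat_lit 30107) (nat_lit 201824090) (nat_lit 36652) (nat_lit 33439323) (nat_lit 36839) (nat_lit 244113),Row.mk (nat_lit 23520) (nat_lit 29920) (nat_lit 260459224) (nat_lit 36465) (nat_lit 33376299) (nat_lit 36652) (nat_lit 307136),Row.mk (nat_lit 23688) (nat_lit 29733) (nat_lit 333693091) (nat_lit 36278) (nat_lit 33297585) (nat_lit 36465) (nat_lit 385851),Row.mk (nat_lit 23856) (nat_lit 29546) (nat_lit 425160426) (nat_lit 36091) (nat_lit 33199272) (nat_lit 36278) (nat_lit 484163),Row.mk (nat_lit 24024) (nat_lit 29359) (nat_lit 539400919) (nat_lit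 35904) (nat_lit 33076482) (nat_lit 36091) (nat_lit 606953),Row.mk (nat_lit 24192) (nat_lit 29172) (nat_lit 682084540) (nat_lit 35717) (nat_lit 32923121) (nat_lit 35904) (nat_lit 760315),Row.mk (nat_lit 24360) (nat_lit 28985) (nat_lit 860292941) (nat_lit 35530) (nat_lit 32731575) (nat_lit 35717) (nat_lit 951860),Row.mk (nat_lit 24528) (nat_lit 28798) (nat_lit 1082870934) (nat_lit 35343) (nat_lit 32492340) (nat_lit 35530) (nat_lit 1191095),Row.mk (nat_lit 24696) (nat_lit 28611) (nat_lit 1360865478) (nat_lit 35156) (nat_lit 32193541) (nat_lit 35343) (nat_lit 1489894),Row.mk (nat_lit 24864) (nat_lit 28424) (nat_lit 1708073957) (nat_lit 34969) (nat_lit 31820348) (nat_lit 35156) (nat_lit 1863087),Row.mk (nat_lit 25032) (nat_lit 28237) (nat_lit 2141728971) (nat_lit 34782) (nat_lit 31354240) (nat_lit 34969) (nat_lit 2329196),Row.mk (nat_lit 25200) (nat_lit 28050) (nat_lit 2683353622) (nat_lit 34595) (nat_lit 30772081) (nat_lit 34782) (nat_lit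 2911354),Row.mk (nat_lit 25368) (nat_lit 27863) (nat_lit 3359829746) (nat_lit 34408) (nat_lit 30044979) (nat_lit 34595) (nat_lit 3638456),Row.mk (nat_lit 25536) (nat_lit 27676) (nat_lit 4204732105) (nat_lit 34221) (nat_lit 29136846) (nat_lit 34408) (nat_lit 4546589),Row.mk (nat_lit 25704) (nat_lit 27489) (nat_lit 5259994769) (nat_lit 34034) (nat_lit 28002610) (nat_lit 34221) (nat_lit 5680825),Row.mk (nat_lit 25872) (nat_lit 27302) (nat_lit 6577992380) (nat_lit 33847) (nat_lit 26585977) (nat_lit 34034) (nat_lit 7097459),Row.mk (nat_lit 26040) (nat_lit 32912) (nat_lit 8390852) (nat_lit 62084) (nat_lit 8249432185) (nat_lit 0) (nat_lit 0),Row.mk (nat_lit 26208) (nat_lit 32912) (nat_lit 8390852) (nat_lit 62084) (nat_lit 10305430352) (nat_lit 0) (nat_lit 0)],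
[Row.mk (nat_lit 10584) (nat_lit 32912) (nat_lit 2814) (nat_lit 61710) (nat_lit 8385804) (nat_lit 0) (nat_lit 0),Row.mk (nat_lit 10752) (nat_lit 32912) (nat_lit 2817) (nat_lit 61710) (nat_lit 8385804) (nat_lit 0) (nat_lit 0),Row.mk (nat_lit 10920) (nat_lit 32912) (nat_lit 2820) (nat_lit 61710) (nat_lit 8385804) (nat_lit 0) (nat_lit 0),Row.mk (nat_lit 11088) (nat_lit 32912) (nat_lit 2824) (nat_lit 61710) (nat_lit 8385804) (nat_lit 0) (nat_lit 0),Row.mk (nat_lit 11256) (nat_lit 32912) (nat_lit 2830) (nat_lit 61710) (nat_lit 8385804) (nat_lit 0) (nat_lit 0),Row.mk (nat_lit 11424) (nat_lit 32912) (nat_lit 2836) (nat_lit 61710) (nat_lit 8385804) (nat_lit 0) (nat_lit 0),Row.mk (nat_lit 11592) (nat_lit 32912) (nat_lit 2844) (nat_lit 61710) (nat_lit 8385804) (nat_lit 0) (nat_lit 0),Row.mk (nat_lit 11760) (nat_lit 32912) (nat_lit 2855) (nat_lit 61710) (nat_lit 8385804) (nat_lit 0) (nat_lit 0),Row.mk (nat_lit 11928) (nat_lit 32912) (nat_lit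 2867) (nat_lit 61710) (nat_lit 8385804) (nat_lit 0) (nat_lit 0),Row.mk (nat_lit 12096) (nat_lit 32912) (nat_lit 2883) (nat_lit 61710) (nat_lit 8385804) (nat_lit 0) (nat_lit 0),Row.mk (nat_lit 12264) (nat_lit 32912) (nat_lit 2903) (nat_lit 61710) (nat_lit 8385804) (nat_lit 0) (nat_lit 0),Row.mk (nat_lit 12432) (nat_lit 32912) (nat_lit 2928) (nat_lit 61710) (nat_lit 8385804) (nat_lit 0) (nat_lit 0),Row.mk (nat_lit 12600) (nat_lit 32912) (nat_lit 2959) (nat_lit 61710) (nat_lit 8385804) (nat_lit 0) (nat_lit 0),Row.mk (nat_lit 12768) (nat_lit 32912) (nat_lit 2998) (nat_lit 61710) (nat_lit 8385804) (nat_lit 0) (nat_lit 0),Row.mk (nat_lit 12936) (nat_lit 32912) (nat_lit 3046) (nat_lit 61710) (nat_lit 8385804) (nat_lit 0) (nat_lit 0),Row.mk (nat_lit 13104) (nat_lit 32912) (nat_lit 3107) (nat_lit 61710) (nat_lit 8385804) (nat_lit 0) (nat_lit 0),Row.mk (nat_lit 13272) (nat_lit 32912) (nat_lit 3182) (nat_lit 61710) (nat_lit 8385804) (nat_lit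 0) (nat_lit 0),Row.mk (nat_lit 13440) (nat_lit 32912) (nat_lit 3277) (nat_lit 61710) (nat_lit 8385804) (nat_lit 0) (nat_lit 0),Row.mk (nat_lit 13608) (nat_lit 32912) (nat_lit 3395) (nat_lit 61710) (nat_lit 8385804) (nat_lit 0) (nat_lit 0),Row.mk (nat_lit 13776) (nat_lit 32912) (nat_lit 3542) (nat_lit 61710) (nat_lit 8385804) (nat_lit 0) (nat_lit 0),Row.mk (nat_lit 13944) (nat_lit 32912) (nat_lit 3726) (nat_lit 61710) (nat_lit 8385804) (nat_lit 0) (nat_lit 0),Row.mk (nat_lit 14112) (nat_lit 32912) (nat_lit 3955) (nat_lit 61710) (nat_lit 8385804) (nat_lit 0) (nat_lit 0),Row.mk (nat_lit 14280) (nat_lit 32912) (nat_lit 4242) (nat_lit 61710) (nat_lit 8385804) (nat_lit 0) (nat_lit 0),Row.mk (nat_lit 14448) (nat_lit 32912) (nat_lit 4601) (nat_lit 61710) (nat_lit 8385804) (nat_lit 0) (nat_lit 0),Row.mk (nat_lit 14616) (nat_lit 32912) (nat_lit 5048) (nat_lit 61710) (nat_lit 8385804) (nat_lit 0) (nat_lit 0),Row.mk (nat_lit 14784) (nat_lit 32912)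 (nat_lit 5607) (nat_lit 61710) (nat_lit 8385804) (nat_lit 0) (nat_lit 0),Row.mk (nat_lit 14952) (nat_lit 32912) (nat_lit 6305) (nat_lit 61710) (nat_lit 8385106) (nat_lit 0) (nat_lit 0),Row.mk (nat_lit 15120) (nat_lit 32912) (nat_lit 7177) (nat_lit 61710) (nat_lit 8384234) (nat_lit 0) (nat_lit 0),Row.mk (nat_lit 15288) (nat_lit 32912) (nat_lit 8266) (nat_lit 61710) (nat_lit 8383145) (nat_lit 0) (nat_lit 0),Row.mk (nat_lit 15456) (nat_lit 60962) (nat_lit 5508) (nat_lit 61336) (nat_lit 20) (nat_lit 61523) (nat_lit 4097),Row.mk (nat_lit 15624) (nat_lit 60401) (nat_lit 3367) (nat_lit 60775) (nat_lit 36) (nat_lit 60962) (nat_lit 7921),Row.mk (nat_lit 15792) (nat_lit 59840) (nat_lit 687) (nat_lit 60214) (nat_lit 62) (nat_lit 60401) (nat_lit 12697),Row.mk (nat_lit 15960) (nat_lit 59840) (nat_lit 13959) (nat_lit 60214) (nat_lit 83) (nat_lit 60401) (nat_lit 2054),Row.mk (nat_lit 16128) (nat_lit 59279) (nat_lit 13900) (nat_lit 59653) (nat_lit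 137) (nat_lit 59840) (nat_lit 5369),Row.mk (nat_lit 16296) (nat_lit 58718) (nat_lit 13807) (nat_lit 59092) (nat_lit 222) (nat_lit 59279) (nat_lit 9509),Row.mk (nat_lit 16464) (nat_lit 58157) (nat_lit 13663) (nat_lit 58531) (nat_lit 357) (nat_lit 58718) (nat_lit 14681),Row.mk (nat_lit 16632) (nat_lit 57596) (nat_lit 13439) (nat_lit 57970) (nat_lit 571) (nat_lit 58157) (nat_lit 21140),Row.mk (nat_lit 16800) (nat_lit 57035) (nat_lit 13088) (nat_lit 57409) (nat_lit 908) (nat_lit 57596) (nat_lit 29207),Row.mk (nat_lit 16968) (nat_lit 56474) (nat_lit 12542) (nat_lit 56848) (nat_lit 1438) (nat_lit 57035) (nat_lit 39283),Row.mk (nat_lit 17136) (nat_lit 55913) (nat_lit 11689) (nat_lit 56287) (nat_lit 2269) (nat_lit 56474) (nat_lit 51867),Row.mk (nat_lit 17304) (nat_lit 55352) (nat_lit 10359) (nat_lit 55726) (nat_lit 3573) (nat_lit 55913) (nat_lit 67585),Row.mk (nat_lit 17472) (nat_lit 54791) (nat_lit 8285) (nat_lit 55165) (nat_lit 5615) (nat_lit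 55352) (nat_lit 87216),Row.mk (nat_lit 17640) (nat_lit 54230) (nat_lit 5048) (nat_lit 54604) (nat_lit 8810) (nat_lit 54791) (nat_lit 111734),Row.mk (nat_lit 17808) (nat_lit 54043) (nat_lit 13807) (nat_lit 54230) (nat_lit 142357) (nat_lit 0) (nat_lit 0),Row.mk (nat_lit 17976) (nat_lit 53482) (nat_lit 13743) (nat_lit 53669) (nat_lit 174299) (nat_lit 54043) (nat_lit 6305),Row.mk (nat_lit 18144) (nat_lit 52921) (nat_lit 13663) (nat_lit 53108) (nat_lit 212233) (nat_lit 53482) (nat_lit 16142),Row.mk (nat_lit 18312) (nat_lit 52360) (nat_lit 13564) (nat_lit 52547) (nat_lit 256552) (nat_lit 52921) (nat_lit 31486),Row.mk (nat_lit 18480) (nat_lit 51799) (nat_lit 13439) (nat_lit 51986) (nat_lit 307134) (nat_lit 52360) (nat_lit 55422),Row.mk (nat_lit 18648) (nat_lit 51238) (nat_lit 13283) (nat_lit 51425) (nat_lit 362867) (nat_lit 51799) (nat_lit 92761),Row.mk (nat_lit 18816) (nat_lit 50677) (nat_lit 13088) (nat_lit 50864) (nat_lit 420865) (nat_lit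 51238) (nat_lit 151007),Row.mk (nat_lit 18984) (nat_lit 50116) (nat_lit 12845) (nat_lit 50303) (nat_lit 475191) (nat_lit 50677) (nat_lit 241868),Row.mk (nat_lit 19152) (nat_lit 49555) (nat_lit 12542) (nat_lit 49742) (nat_lit 514787) (nat_lit 50116) (nat_lit 383606),Row.mk (nat_lit 19320) (nat_lit 48994) (nat_lit 12163) (nat_lit 49181) (nat_lit 520167) (nat_lit 49555) (nat_lit 604708),Row.mk (nat_lit 19488) (nat_lit 48433) (nat_lit 11689) (nat_lit 48620) (nat_lit 458131) (nat_lit 48994) (nat_lit 949615),Row.mk (nat_lit 19656) (nat_lit 47685) (nat_lit 11098) (nat_lit 47872) (nat_lit 273396) (nat_lit 48433) (nat_lit 1487650),Row.mk (nat_lit 19824) (nat_lit 47498) (nat_lit 10359) (nat_lit 47685) (nat_lit 2110806) (nat_lit 48246) (nat_lit 91501),Row.mk (nat_lit 19992) (nat_lit 46563) (nat_lit 9437) (nat_lit 46750) (nat_lit 2054187) (nat_lit 47498) (nat_lit 699245),Row.mk (nat_lit 20160) (nat_lit 45628) (nat_lit 8285) (nat_lit 45815) (nat_lit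 1657498) (nat_lit 46563) (nat_lit 1784277),Row.mk (nat_lit 20328) (nat_lit 44506) (nat_lit 6846) (nat_lit 44693) (nat_lit 653541) (nat_lit 45628) (nat_lit 3647957),Row.mk (nat_lit 20496) (nat_lit 44319) (nat_lit 5048) (nat_lit 44506) (nat_lit 4263515) (nat_lit 45441) (nat_lit 1111757),Row.mk (nat_lit 20664) (nat_lit 43010) (nat_lit 2803) (nat_lit 43197) (nat_lit 2564960) (nat_lit 44319) (nat_lit 4151428),Row.mk (nat_lit 20832) (nat_lit 43010) (nat_lit 7509114) (nat_lit 44132) (nat_lit 882296) (nat_lit 0) (nat_lit 0),Row.mk (nat_lit 21000) (nat_lit 41327) (nat_lit 3997684) (nat_lit 42823) (nat_lit 6479484) (nat_lit 43010) (nat_lit 2803),Row.mk (nat_lit 21168) (nat_lit 41140) (nat_lit 10367026) (nat_lit 42636) (nat_lit 2715202) (nat_lit 42823) (nat_lit 6305),Row.mk (nat_lit 21336) (nat_lit 38896) (nat_lit 2467495) (nat_lit 40953) (nat_lit 13868391) (nat_lit 41140) (nat_lit 10679),Row.mk (nat_lit 21504) (nat_lit 38709) (nat_lit 9794729)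 (nat_lit 40766) (nat_lit 10604897) (nat_lit 40953) (nat_lit 16142),Row.mk (nat_lit 21672) (nat_lit 38522) (nat_lit 18946268) (nat_lit 40579) (nat_lit 6528872) (nat_lit 40766) (nat_lit 22964),Row.mk (nat_lit 21840) (nat_lit 38335) (nat_lit 30376319) (nat_lit 40392) (nat_lit 1438014) (nat_lit 40579) (nat_lit 31486),Row.mk (nat_lit 22008) (nat_lit 31603) (nat_lit 6092771) (nat_lit 38148) (nat_lit 33639062) (nat_lit 38335) (nat_lit 42129),Row.mk (nat_lit 22176) (nat_lit 31416) (nat_lit 15994830) (nat_lit 37961) (nat_lit 33625769) (nat_lit 38148) (nat_lit 55422),Row.mk (nat_lit 22344) (nat_lit 31229) (nat_lit 28362263) (nat_lit 37774) (nat_lit 33609166) (nat_lit 37961) (nat_lit 72024),Row.mk (nat_lit 22512) (nat_lit 31042) (nat_lit 43808889) (nat_lit 37587) (nat_lit 33588430) (nat_lit 37774) (nat_lit 92761),Row.mk (nat_lit 22680) (nat_lit 30855) (nat_lit 63101352) (nat_lit 37400) (nat_lit 33562531) (nat_lit 37587) (nat_lit 118660),Row.mk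 (nat_lit 22848) (nat_lit 30668) (nat_lit 87197172) (nat_lit 37213) (nat_lit 33530184) (nat_lit 37400) (nat_lit 151007),Row.mk (nat_lit 23016) (nat_lit 30481) (nat_lit 117292271) (nat_lit 37026) (nat_lit 33489782) (nat_lit 37213) (nat_lit 191408),Row.mk (nat_lit 23184) (nat_lit 30294) (nat_lit 154880323) (nat_lit 36839) (nat_lit 33439323) (nat_lit 37026) (nat_lit 241868),Row.mk (nat_lit 23352) (nat_lit 30107) (nat_lit 201826894) (nat_lit 36652) (nat_lit 33376299) (nat_lit 36839) (nat_lit 304891),Row.mk (nat_lit 23520) (nat_lit 29920) (nat_lit 260462027) (nat_lit 36465) (nat_lit 33297585) (nat_lit 36652) (nat_lit 383606),Row.mk (nat_lit 23688) (nat_lit 29733) (nat_lit 333695895) (nat_lit 36278) (nat_lit 33199272) (nat_lit 36465) (nat_lit 481918),Row.mk (nat_lit 23856) (nat_lit 29546) (nat_lit 425163229) (nat_lit 36091) (nat_lit 33076482) (nat_lit 36278) (nat_lit 604708),Row.mk (nat_lit 24024) (nat_lit 29359) (nat_lit 539403723) (nat_lit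 35904) (nat_lit 32923121) (nat_lit 36091) (nat_lit 758070),Row.mk (nat_lit 24192) (nat_lit 29172) (nat_lit 682087344) (nat_lit 35717) (nat_lit 32731575) (nat_lit 35904) (nat_lit 949615),Row.mk (nat_lit 24360) (nat_lit 28985) (nat_lit 860295744) (nat_lit 35530) (nat_lit 32492340) (nat_lit 35717) (nat_lit 1188851),Row.mk (nat_lit 24528) (nat_lit 28798) (nat_lit 1082873737) (nat_lit 35343) (nat_lit 32193541) (nat_lit 35530) (nat_lit 1487650),Row.mk (nat_lit 24696) (nat_lit 28611) (nat_lit 1360868281) (nat_lit 35156) (nat_lit 31820348) (nat_lit 35343) (nat_lit 1860842),Row.mk (nat_lit 24864) (nat_lit 28424) (nat_lit 1708076760) (nat_lit 34969) (nat_lit 31354240) (nat_lit 35156) (nat_lit 2326951),Row.mk (nat_lit 25032) (nat_lit 28237) (nat_lit 2141731775) (nat_lit 34782) (nat_lit 30772081) (nat_lit 34969) (nat_lit 2909110),Row.mk (nat_lit 25200) (nat_lit 28050) (nat_lit 2683356426) (nat_lit 34595) (nat_lit 30044979) (nat_lit 34782) (nat_lit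 3636212),Row.mk (nat_lit 25368) (nat_lit 27863) (nat_lit 3359832550) (nat_lit 34408) (nat_lit 29136846) (nat_lit 34595) (nat_lit 4544344),Row.mk (nat_lit 25536) (nat_lit 27676) (nat_lit 4204734909) (nat_lit 34221) (nat_lit 28002610) (nat_lit 34408) (nat_lit 5678581),Row.mk (nat_lit 25704) (nat_lit 27489) (nat_lit 5259997573) (nat_lit 34034) (nat_lit 26585977) (nat_lit 34221) (nat_lit 7095214),Row.mk (nat_lit 25872) (nat_lit 27302) (nat_lit 6577995184) (nat_lit 33847) (nat_lit 24816636) (nat_lit 34034) (nat_lit 8864555),Row.mk (nat_lit 26040) (nat_lit 32912) (nat_lit 8391411) (nat_lit 62084) (nat_lit 8249432185) (nat_lit 0) (nat_lit 0),Row.mk (nat_lit 26208) (nat_lit 32912) (nat_lit 8391411) (nat_lit 62084) (nat_lit 10305430352) (nat_lit 0) (nat_lit 0)],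
[Row.mk (nat_lit 10584) (nat_lit 32912) (nat_lit 3512) (nat_lit 61710) (nat_lit 8385106) (nat_lit 0) (nat_lit 0),Row.mk (nat_lit 10752) (nat_lit 32912) (nat_lit 3515) (nat_lit 61710) (nat_lit 8385106) (nat_lit 0) (nat_lit 0),Row.mk (nat_lit 10920) (nat_lit 32912) (nat_lit 3518) (nat_lit 61710) (nat_lit 8385106) (nat_lit 0) (nat_lit 0),Row.mk (nat_lit 11088) (nat_lit 32912) (nat_lit 3522) (nat_lit 61710) (nat_lit 8385106) (nat_lit 0) (nat_lit 0),Row.mk (nat_lit 11256) (nat_lit 32912) (nat_lit 3528) (nat_lit 61710) (nat_lit 8385106) (nat_lit 0) (nat_lit 0),Row.mk (nat_lit 11424) (nat_lit 32912) (nat_lit 3534) (nat_lit 61710) (nat_lit 8385106) (nat_lit 0) (nat_lit 0),Row.mk (nat_lit 11592) (nat_lit 32912) (nat_lit 3542) (nat_lit 61710) (nat_lit 8385106) (nat_lit 0) (nat_lit 0),Row.mk (nat_lit 11760) (nat_lit 32912) (nat_lit 3553) (nat_lit 61710) (nat_lit 8385106) (nat_lit 0) (nat_lit 0),Row.mk (nat_lit 11928) (nat_lit 32912) (nat_lit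 3565) (nat_lit 61710) (nat_lit 8385106) (nat_lit 0) (nat_lit 0),Row.mk (nat_lit 12096) (nat_lit 32912) (nat_lit 3581) (nat_lit 61710) (nat_lit 8385106) (nat_lit 0) (nat_lit 0),Row.mk (nat_lit 12264) (nat_lit 32912) (nat_lit 3601) (nat_lit 61710) (nat_lit 8385106) (nat_lit 0) (nat_lit 0),Row.mk (nat_lit 12432) (nat_lit 32912) (nat_lit 3626) (nat_lit 61710) (nat_lit 8385106) (nat_lit 0) (nat_lit 0),Row.mk (nat_lit 12600) (nat_lit 32912) (nat_lit 3657) (nat_lit 61710) (nat_lit 8385106) (nat_lit 0) (nat_lit 0),Row.mk (nat_lit 12768) (nat_lit 32912) (nat_lit 3696) (nat_lit 61710) (nat_lit 8385106) (nat_lit 0) (nat_lit 0),Row.mk (nat_lit 12936) (nat_lit 32912) (nat_lit 3744) (nat_lit 61710) (nat_lit 8385106) (nat_lit 0) (nat_lit 0),Row.mk (nat_lit 13104) (nat_lit 32912) (nat_lit 3805) (nat_lit 61710) (nat_lit 8385106) (nat_lit 0) (nat_lit 0),Row.mk (nat_lit 13272) (nat_lit 32912) (nat_lit 3880) (nat_lit 61710) (nat_lit 8385106) (nat_lit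 0) (nat_lit 0),Row.mk (nat_lit 13440) (nat_lit 32912) (nat_lit 3975) (nat_lit 61710) (nat_lit 8385106) (nat_lit 0) (nat_lit 0),Row.mk (nat_lit 13608) (nat_lit 32912) (nat_lit 4093) (nat_lit 61710) (nat_lit 8385106) (nat_lit 0) (nat_lit 0),Row.mk (nat_lit 13776) (nat_lit 32912) (nat_lit 4240) (nat_lit 61710) (nat_lit 8385106) (nat_lit 0) (nat_lit 0),Row.mk (nat_lit 13944) (nat_lit 32912) (nat_lit 4424) (nat_lit 61710) (nat_lit 8385106) (nat_lit 0) (nat_lit 0),Row.mk (nat_lit 14112) (nat_lit 32912) (nat_lit 4654) (nat_lit 61710) (nat_lit 8385106) (nat_lit 0) (nat_lit 0),Row.mk (nat_lit 14280) (nat_lit 32912) (nat_lit 4940) (nat_lit 61710) (nat_lit 8385106) (nat_lit 0) (nat_lit 0),Row.mk (nat_lit 14448) (nat_lit 32912) (nat_lit 5299) (nat_lit 61710) (nat_lit 8385106) (nat_lit 0) (nat_lit 0),Row.mk (nat_lit 14616) (nat_lit 32912) (nat_lit 5746) (nat_lit 61710) (nat_lit 8385106) (nat_lit 0) (nat_lit 0),Row.mk (nat_lit 14784) (nat_lit 32912)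 (nat_lit 6305) (nat_lit 61710) (nat_lit 8385106) (nat_lit 0) (nat_lit 0),Row.mk (nat_lit 14952) (nat_lit 32912) (nat_lit 7003) (nat_lit 61710) (nat_lit 8385106) (nat_lit 0) (nat_lit 0),Row.mk (nat_lit 15120) (nat_lit 32912) (nat_lit 7875) (nat_lit 61710) (nat_lit 8384234) (nat_lit 0) (nat_lit 0),Row.mk (nat_lit 15288) (nat_lit 60962) (nat_lit 2194) (nat_lit 61336) (nat_lit 9) (nat_lit 61523) (nat_lit 6759),Row.mk (nat_lit 15456) (nat_lit 60962) (nat_lit 9010) (nat_lit 61336) (nat_lit 16) (nat_lit 61523) (nat_lit 1297),Row.mk (nat_lit 15624) (nat_lit 60401) (nat_lit 6869) (nat_lit 60775) (nat_lit 31) (nat_lit 60962) (nat_lit 5121),Row.mk (nat_lit 15792) (nat_lit 59840) (nat_lit 4189) (nat_lit 60214) (nat_lit 56) (nat_lit 60401) (nat_lit 9898),Row.mk (nat_lit 15960) (nat_lit 59279) (nat_lit 832) (nat_lit 59653) (nat_lit 97) (nat_lit 59840) (nat_lit 15865),Row.mk (nat_lit 16128) (nat_lit 59279) (nat_lit 17402) (nat_lit 59653) (nat_lit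 130) (nat_lit 59840) (nat_lit 2572),Row.mk (nat_lit 16296) (nat_lit 58718) (nat_lit 17309) (nat_lit 59092) (nat_lit 213) (nat_lit 59279) (nat_lit 6714),Row.mk (nat_lit 16464) (nat_lit 58157) (nat_lit 17165) (nat_lit 58531) (nat_lit 346) (nat_lit 58718) (nat_lit 11888),Row.mk (nat_lit 16632) (nat_lit 57596) (nat_lit 16941) (nat_lit 57970) (nat_lit 557) (nat_lit 58157) (nat_lit 18350),Row.mk (nat_lit 16800) (nat_lit 57035) (nat_lit 16590) (nat_lit 57409) (nat_lit 891) (nat_lit 57596) (nat_lit 26420),Row.mk (nat_lit 16968) (nat_lit 56474) (nat_lit 16044) (nat_lit 56848) (nat_lit 1416) (nat_lit 57035) (nat_lit 36500),Row.mk (nat_lit 17136) (nat_lit 55913) (nat_lit 15191) (nat_lit 56287) (nat_lit 2243) (nat_lit 56474) (nat_lit 49090),Row.mk (nat_lit 17304) (nat_lit 55352) (nat_lit 13861) (nat_lit 55726) (nat_lit 3540) (nat_lit 55913) (nat_lit 64814),Row.mk (nat_lit 17472) (nat_lit 54791) (nat_lit 11786) (nat_lit 55165) (nat_lit 5574) (nat_lit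 55352) (nat_lit 84453),Row.mk (nat_lit 17640) (nat_lit 54230) (nat_lit 8550) (nat_lit 54604) (nat_lit 8759) (nat_lit 54791) (nat_lit 108982),Row.mk (nat_lit 17808) (nat_lit 53669) (nat_lit 3501) (nat_lit 54043) (nat_lit 13743) (nat_lit 54230) (nat_lit 139617),Row.mk (nat_lit 17976) (nat_lit 53482) (nat_lit 17165) (nat_lit 53669) (nat_lit 174379) (nat_lit 54043) (nat_lit 3501),Row.mk (nat_lit 18144) (nat_lit 52921) (nat_lit 17065) (nat_lit 53108) (nat_lit 212332) (nat_lit 53482) (nat_lit 13338),Row.mk (nat_lit 18312) (nat_lit 52360) (nat_lit 16941) (nat_lit 52547) (nat_lit 256677) (nat_lit 52921) (nat_lit 28682),Row.mk (nat_lit 18480) (nat_lit 51799) (nat_lit 16785) (nat_lit 51986) (nat_lit 307290) (nat_lit 52360) (nat_lit 52618),Row.mk (nat_lit 18648) (nat_lit 51238) (nat_lit 16590) (nat_lit 51425) (nat_lit 363062) (nat_lit 51799) (nat_lit 89957),Row.mk (nat_lit 18816) (nat_lit 50677) (nat_lit 16347) (nat_lit 50864) (nat_lit 421108)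 (nat_lit 51238) (nat_lit 148203),Row.mk (nat_lit 18984) (nat_lit 50116) (nat_lit 16044) (nat_lit 50303) (nat_lit 475494) (nat_lit 50677) (nat_lit 239064),Row.mk (nat_lit 19152) (nat_lit 49555) (nat_lit 15665) (nat_lit 49742) (nat_lit 515166) (nat_lit 50116) (nat_lit 380802),Row.mk (nat_lit 19320) (nat_lit 48994) (nat_lit 15191) (nat_lit 49181) (nat_lit 520641) (nat_lit 49555) (nat_lit 601905),Row.mk (nat_lit 19488) (nat_lit 48433) (nat_lit 14600) (nat_lit 48620) (nat_lit 458723) (nat_lit 48994) (nat_lit 946812),Row.mk (nat_lit 19656) (nat_lit 47685) (nat_lit 13861) (nat_lit 47872) (nat_lit 274134) (nat_lit 48433) (nat_lit 1484846),Row.mk (nat_lit 19824) (nat_lit 47498) (nat_lit 12939) (nat_lit 47685) (nat_lit 2111729) (nat_lit 48246) (nat_lit 88697),Row.mk (nat_lit 19992) (nat_lit 46563) (nat_lit 11786) (nat_lit 46750) (nat_lit 2055340) (nat_lit 47498) (nat_lit 696442),Row.mk (nat_lit 20160) (nat_lit 45628) (nat_lit 10347) (nat_lit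 45815) (nat_lit 1658937) (nat_lit 46563) (nat_lit 1781474),Row.mk (nat_lit 20328) (nat_lit 44506) (nat_lit 8550) (nat_lit 44693) (nat_lit 655339) (nat_lit 45628) (nat_lit 3645153),Row.mk (nat_lit 20496) (nat_lit 44319) (nat_lit 6305) (nat_lit 44506) (nat_lit 4265760) (nat_lit 45441) (nat_lit 1108953),Row.mk (nat_lit 20664) (nat_lit 43010) (nat_lit 3501) (nat_lit 43197) (nat_lit 2567764) (nat_lit 44319) (nat_lit 4148624),Row.mk (nat_lit 20832) (nat_lit 43010) (nat_lit 7512616) (nat_lit 44132) (nat_lit 879493) (nat_lit 0) (nat_lit 0),Row.mk (nat_lit 21000) (nat_lit 41327) (nat_lit 4001186) (nat_lit 42823) (nat_lit 6475982) (nat_lit 43010) (nat_lit 3501),Row.mk (nat_lit 21168) (nat_lit 41140) (nat_lit 10370528) (nat_lit 42636) (nat_lit 2710829) (nat_lit 42823) (nat_lit 7875),Row.mk (nat_lit 21336) (nat_lit 38896) (nat_lit 2470997) (nat_lit 40953) (nat_lit 13862929) (nat_lit 41140) (nat_lit 13338),Row.mk (nat_lit 21504) (nat_lit 38709)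 (nat_lit 9798231) (nat_lit 40766) (nat_lit 10598074) (nat_lit 40953) (nat_lit 20161),Row.mk (nat_lit 21672) (nat_lit 38522) (nat_lit 18949769) (nat_lit 40579) (nat_lit 6520350) (nat_lit 40766) (nat_lit 28682),Row.mk (nat_lit 21840) (nat_lit 38335) (nat_lit 30379820) (nat_lit 40392) (nat_lit 1427371) (nat_lit 40579) (nat_lit 39325),Row.mk (nat_lit 22008) (nat_lit 31603) (nat_lit 6096273) (nat_lit 38148) (nat_lit 33625769) (nat_lit 38335) (nat_lit 52618),Row.mk (nat_lit 22176) (nat_lit 31416) (nat_lit 15998332) (nat_lit 37961) (nat_lit 33609166) (nat_lit 38148) (nat_lit 69221),Row.mk (nat_lit 22344) (nat_lit 31229) (nat_lit 28365765) (nat_lit 37774) (nat_lit 33588430) (nat_lit 37961) (nat_lit 89957),Row.mk (nat_lit 22512) (nat_lit 31042) (nat_lit 43812391) (nat_lit 37587) (nat_lit 33562531) (nat_lit 37774) (nat_lit 115856),Row.mk (nat_lit 22680) (nat_lit 30855) (nat_lit 63104854) (nat_lit 37400) (nat_lit 33530184) (nat_lit 37587) (nat_lit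 148203),Row.mk (nat_lit 22848) (nat_lit 30668) (nat_lit 87200674) (nat_lit 37213) (nat_lit 33489782) (nat_lit 37400) (nat_lit 188604),Row.mk (nat_lit 23016) (nat_lit 30481) (nat_lit 117295773) (nat_lit 37026) (nat_lit 33439323) (nat_lit 37213) (nat_lit 239064),Row.mk (nat_lit 23184) (nat_lit 30294) (nat_lit 154883825) (nat_lit 36839) (nat_lit 33376299) (nat_lit 37026) (nat_lit 302088),Row.mk (nat_lit 23352) (nat_lit 30107) (nat_lit 201830395) (nat_lit 36652) (nat_lit 33297585) (nat_lit 36839) (nat_lit 380802),Row.mk (nat_lit 23520) (nat_lit 29920) (nat_lit 260465529) (nat_lit 36465) (nat_lit 33199272) (nat_lit 36652) (nat_lit 479115),Row.mk (nat_lit 23688) (nat_lit 29733) (nat_lit 333699397) (nat_lit 36278) (nat_lit 33076482) (nat_lit 36465) (nat_lit 601905),Row.mk (nat_lit 23856) (nat_lit 29546) (nat_lit 425166731) (nat_lit 36091) (nat_lit 32923121) (nat_lit 36278) (nat_lit 755266),Row.mk (nat_lit 24024) (nat_lit 29359) (nat_lit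 539407225) (nat_lit 35904) (nat_lit 32731575) (nat_lit 36091) (nat_lit 946812),Row.mk (nat_lit 24192) (nat_lit 29172) (nat_lit 682090846) (nat_lit 35717) (nat_lit 32492340) (nat_lit 35904) (nat_lit 1186047),Row.mk (nat_lit 24360) (nat_lit 28985) (nat_lit 860299246) (nat_lit 35530) (nat_lit 32193541) (nat_lit 35717) (nat_lit 1484846),Row.mk (nat_lit 24528) (nat_lit 28798) (nat_lit 1082877239) (nat_lit 35343) (nat_lit 31820348) (nat_lit 35530) (nat_lit 1858038),Row.mk (nat_lit 24696) (nat_lit 28611) (nat_lit 1360871783) (nat_lit 35156) (nat_lit 31354240) (nat_lit 35343) (nat_lit 2324147),Row.mk (nat_lit 24864) (nat_lit 28424) (nat_lit 1708080262) (nat_lit 34969) (nat_lit 30772081) (nat_lit 35156) (nat_lit 2906306),Row.mk (nat_lit 25032) (nat_lit 28237) (nat_lit 2141735276) (nat_lit 34782) (nat_lit 30044979) (nat_lit 34969) (nat_lit 3633408),Row.mk (nat_lit 25200) (nat_lit 28050) (nat_lit 2683359928) (nat_lit 34595) (nat_lit 29136846)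 (nat_lit 34782) (nat_lit 4541541),Row.mk (nat_lit 25368) (nat_lit 27863) (nat_lit 3359836051) (nat_lit 34408) (nat_lit 28002610) (nat_lit 34595) (nat_lit 5675777),Row.mk (nat_lit 25536) (nat_lit 27676) (nat_lit 4204738411) (nat_lit 34221) (nat_lit 26585977) (nat_lit 34408) (nat_lit 7092410),Row.mk (nat_lit 25704) (nat_lit 27489) (nat_lit 5260001075) (nat_lit 34034) (nat_lit 24816636) (nat_lit 34221) (nat_lit 8861751),Row.mk (nat_lit 25872) (nat_lit 27302) (nat_lit 6577998686) (nat_lit 33847) (nat_lit 22606771) (nat_lit 34034) (nat_lit 11071616),Row.mk (nat_lit 26040) (nat_lit 32912) (nat_lit 8392109) (nat_lit 62084) (nat_lit 8249432185) (nat_lit 0) (nat_lit 0),Row.mk (nat_lit 26208) (nat_lit 32912) (nat_lit 8392109) (nat_lit 62084) (nat_lit 10305430352) (nat_lit 0) (nat_lit 0)],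
[Row.mk (nat_lit 10416) (nat_lit 32912) (nat_lit 4382) (nat_lit 61710) (nat_lit 8384234) (nat_lit 0) (nat_lit 0),Row.mk (nat_lit 10584) (nat_lit 32912) (nat_lit 4384) (nat_lit 61710) (nat_lit 8384234) (nat_lit 0) (nat_lit 0),Row.mk (nat_lit 10752) (nat_lit 32912) (nat_lit 4387) (nat_lit 61710) (nat_lit 8384234) (nat_lit 0) (nat_lit 0),Row.mk (nat_lit 10920) (nat_lit 32912) (nat_lit 4390) (nat_lit 61710) (nat_lit 8384234) (nat_lit 0) (nat_lit 0),Row.mk (nat_lit 11088) (nat_lit 32912) (nat_lit 4394) (nat_lit 61710) (nat_lit 8384234) (nat_lit 0) (nat_lit 0),Row.mk (nat_lit 11256) (nat_lit 32912) (nat_lit 4400) (nat_lit 61710) (nat_lit 8384234) (nat_lit 0) (nat_lit 0),Row.mk (nat_lit 11424) (nat_lit 32912) (nat_lit 4406) (nat_lit 61710) (nat_lit 8384234) (nat_lit 0) (nat_lit 0),Row.mk (nat_lit 11592) (nat_lit 32912) (nat_lit 4414) (nat_lit 61710) (nat_lit 8384234) (nat_lit 0) (nat_lit 0),Row.mk (nat_lit 11760) (nat_lit 32912) (nat_lit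 4424) (nat_lit 61710) (nat_lit 8384234) (nat_lit 0) (nat_lit 0),Row.mk (nat_lit 11928) (nat_lit 32912) (nat_lit 4437) (nat_lit 61710) (nat_lit 8384234) (nat_lit 0) (nat_lit 0),Row.mk (nat_lit 12096) (nat_lit 32912) (nat_lit 4453) (nat_lit 61710) (nat_lit 8384234) (nat_lit 0) (nat_lit 0),Row.mk (nat_lit 12264) (nat_lit 32912) (nat_lit 4473) (nat_lit 61710) (nat_lit 8384234) (nat_lit 0) (nat_lit 0),Row.mk (nat_lit 12432) (nat_lit 32912) (nat_lit 4498) (nat_lit 61710) (nat_lit 8384234) (nat_lit 0) (nat_lit 0),Row.mk (nat_lit 12600) (nat_lit 32912) (nat_lit 4529) (nat_lit 61710) (nat_lit 8384234) (nat_lit 0) (nat_lit 0),Row.mk (nat_lit 12768) (nat_lit 32912) (nat_lit 4568) (nat_lit 61710) (nat_lit 8384234) (nat_lit 0) (nat_lit 0),Row.mk (nat_lit 12936) (nat_lit 32912) (nat_lit 4616) (nat_lit 61710) (nat_lit 8384234) (nat_lit 0) (nat_lit 0),Row.mk (nat_lit 13104) (nat_lit 32912) (nat_lit 4677) (nat_lit 61710) (nat_lit 8384234) (nat_lit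 0) (nat_lit 0),Row.mk (nat_lit 13272) (nat_lit 32912) (nat_lit 4752) (nat_lit 61710) (nat_lit 8384234) (nat_lit 0) (nat_lit 0),Row.mk (nat_lit 13440) (nat_lit 32912) (nat_lit 4847) (nat_lit 61710) (nat_lit 8384234) (nat_lit 0) (nat_lit 0),Row.mk (nat_lit 13608) (nat_lit 32912) (nat_lit 4965) (nat_lit 61710) (nat_lit 8384234) (nat_lit 0) (nat_lit 0),Row.mk (nat_lit 13776) (nat_lit 32912) (nat_lit 5112) (nat_lit 61710) (nat_lit 8384234) (nat_lit 0) (nat_lit 0),Row.mk (nat_lit 13944) (nat_lit 32912) (nat_lit 5296) (nat_lit 61710) (nat_lit 8384234) (nat_lit 0) (nat_lit 0),Row.mk (nat_lit 14112) (nat_lit 32912) (nat_lit 5525) (nat_lit 61710) (nat_lit 8384234) (nat_lit 0) (nat_lit 0),Row.mk (nat_lit 14280) (nat_lit 32912) (nat_lit 5812) (nat_lit 61710) (nat_lit 8384234) (nat_lit 0) (nat_lit 0),Row.mk (nat_lit 14448) (nat_lit 32912) (nat_lit 6171) (nat_lit 61710) (nat_lit 8384234) (nat_lit 0) (nat_lit 0),Row.mk (nat_lit 14616) (nat_lit 32912)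 (nat_lit 6618) (nat_lit 61710) (nat_lit 8384234) (nat_lit 0) (nat_lit 0),Row.mk (nat_lit 14784) (nat_lit 32912) (nat_lit 7177) (nat_lit 61710) (nat_lit 8384234) (nat_lit 0) (nat_lit 0),Row.mk (nat_lit 14952) (nat_lit 32912) (nat_lit 7875) (nat_lit 61710) (nat_lit 8384234) (nat_lit 0) (nat_lit 0),Row.mk (nat_lit 15120) (nat_lit 60962) (nat_lit 1111) (nat_lit 61523) (nat_lit 7636) (nat_lit 0) (nat_lit 0),Row.mk (nat_lit 15288) (nat_lit 60962) (nat_lit 6568) (nat_lit 61336) (nat_lit 5) (nat_lit 61523) (nat_lit 3262),Row.mk (nat_lit 15456) (nat_lit 60401) (nat_lit 2732) (nat_lit 60775) (nat_lit 15) (nat_lit 60962) (nat_lit 8448),Row.mk (nat_lit 15624) (nat_lit 60401) (nat_lit 11243) (nat_lit 60775) (nat_lit 26) (nat_lit 60962) (nat_lit 1625),Row.mk (nat_lit 15792) (nat_lit 59840) (nat_lit 8563) (nat_lit 60214) (nat_lit 49) (nat_lit 60401) (nat_lit 6403),Row.mk (nat_lit 15960) (nat_lit 59279) (nat_lit 5206) (nat_lit 59653) (nat_lit 88)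 (nat_lit 59840) (nat_lit 12372),Row.mk (nat_lit 16128) (nat_lit 58718) (nat_lit 998) (nat_lit 59092) (nat_lit 151) (nat_lit 59279) (nat_lit 19826),Row.mk (nat_lit 16296) (nat_lit 58718) (nat_lit 21683) (nat_lit 59092) (nat_lit 202) (nat_lit 59279) (nat_lit 3223),Row.mk (nat_lit 16464) (nat_lit 58157) (nat_lit 21539) (nat_lit 58531) (nat_lit 333) (nat_lit 58718) (nat_lit 8399),Row.mk (nat_lit 16632) (nat_lit 57596) (nat_lit 21314) (nat_lit 57970) (nat_lit 541) (nat_lit 58157) (nat_lit 14865),Row.mk (nat_lit 16800) (nat_lit 57035) (nat_lit 20964) (nat_lit 57409) (nat_lit 870) (nat_lit 57596) (nat_lit 22939),Row.mk (nat_lit 16968) (nat_lit 56474) (nat_lit 20417) (nat_lit 56848) (nat_lit 1390) (nat_lit 57035) (nat_lit 33025),Row.mk (nat_lit 17136) (nat_lit 55913) (nat_lit 19565) (nat_lit 56287) (nat_lit 2210) (nat_lit 56474) (nat_lit 45621),Row.mk (nat_lit 17304) (nat_lit 55352) (nat_lit 18235) (nat_lit 55726) (nat_lit 3499) (nat_lit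 55913) (nat_lit 61353),Row.mk (nat_lit 17472) (nat_lit 54791) (nat_lit 16160) (nat_lit 55165) (nat_lit 5522) (nat_lit 55352) (nat_lit 81002),Row.mk (nat_lit 17640) (nat_lit 54230) (nat_lit 12924) (nat_lit 54604) (nat_lit 8695) (nat_lit 54791) (nat_lit 105544),Row.mk (nat_lit 17808) (nat_lit 53669) (nat_lit 7875) (nat_lit 54043) (nat_lit 13663) (nat_lit 54230) (nat_lit 136195),Row.mk (nat_lit 17976) (nat_lit 53482) (nat_lit 21439) (nat_lit 53669) (nat_lit 174479) (nat_lit 0) (nat_lit 0),Row.mk (nat_lit 18144) (nat_lit 52921) (nat_lit 21314) (nat_lit 53108) (nat_lit 212457) (nat_lit 53482) (nat_lit 9836),Row.mk (nat_lit 18312) (nat_lit 52360) (nat_lit 21159) (nat_lit 52547) (nat_lit 256832) (nat_lit 52921) (nat_lit 25180),Row.mk (nat_lit 18480) (nat_lit 51799) (nat_lit 20964) (nat_lit 51986) (nat_lit 307485) (nat_lit 52360) (nat_lit 49116),Row.mk (nat_lit 18648) (nat_lit 51238) (nat_lit 20721) (nat_lit 51425) (nat_lit 363305) (nat_lit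 51799) (nat_lit 86455),Row.mk (nat_lit 18816) (nat_lit 50677) (nat_lit 20417) (nat_lit 50864) (nat_lit 421412) (nat_lit 51238) (nat_lit 144702),Row.mk (nat_lit 18984) (nat_lit 50116) (nat_lit 20038) (nat_lit 50303) (nat_lit 475873) (nat_lit 50677) (nat_lit 235563),Row.mk (nat_lit 19152) (nat_lit 49555) (nat_lit 19565) (nat_lit 49742) (nat_lit 515640) (nat_lit 50116) (nat_lit 377300),Row.mk (nat_lit 19320) (nat_lit 48994) (nat_lit 18973) (nat_lit 49181) (nat_lit 521232) (nat_lit 49555) (nat_lit 598403),Row.mk (nat_lit 19488) (nat_lit 48433) (nat_lit 18235) (nat_lit 48620) (nat_lit 459461) (nat_lit 48994) (nat_lit 943310),Row.mk (nat_lit 19656) (nat_lit 47685) (nat_lit 17312) (nat_lit 47872) (nat_lit 275057) (nat_lit 48433) (nat_lit 1481344),Row.mk (nat_lit 19824) (nat_lit 47498) (nat_lit 16160) (nat_lit 47685) (nat_lit 2112881) (nat_lit 48246) (nat_lit 85196),Row.mk (nat_lit 19992) (nat_lit 46563) (nat_lit 14721) (nat_lit 46750) (nat_lit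 2056779) (nat_lit 47498) (nat_lit 692940),Row.mk (nat_lit 20160) (nat_lit 45628) (nat_lit 12924) (nat_lit 45815) (nat_lit 1660734) (nat_lit 46563) (nat_lit 1777972),Row.mk (nat_lit 20328) (nat_lit 44506) (nat_lit 10679) (nat_lit 44693) (nat_lit 657583) (nat_lit 45628) (nat_lit 3641651),Row.mk (nat_lit 20496) (nat_lit 44319) (nat_lit 7875) (nat_lit 44506) (nat_lit 4268563) (nat_lit 45441) (nat_lit 1105451),Row.mk (nat_lit 20664) (nat_lit 43010) (nat_lit 4373) (nat_lit 43197) (nat_lit 2571266) (nat_lit 44319) (nat_lit 4145123),Row.mk (nat_lit 20832) (nat_lit 43010) (nat_lit 7516990) (nat_lit 44132) (nat_lit 875991) (nat_lit 0) (nat_lit 0),Row.mk (nat_lit 21000) (nat_lit 41327) (nat_lit 4005560) (nat_lit 42823) (nat_lit 6471608) (nat_lit 43010) (nat_lit 4373),Row.mk (nat_lit 21168) (nat_lit 41140) (nat_lit 10374902) (nat_lit 42636) (nat_lit 2705366) (nat_lit 42823) (nat_lit 9836),Row.mk (nat_lit 21336) (nat_lit 38896) (nat_lit 2475370)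 (nat_lit 40953) (nat_lit 13856106) (nat_lit 41140) (nat_lit 16659),Row.mk (nat_lit 21504) (nat_lit 38709) (nat_lit 9802605) (nat_lit 40766) (nat_lit 10589553) (nat_lit 40953) (nat_lit 25180),Row.mk (nat_lit 21672) (nat_lit 38522) (nat_lit 18954143) (nat_lit 40579) (nat_lit 6509707) (nat_lit 40766) (nat_lit 35823),Row.mk (nat_lit 21840) (nat_lit 38335) (nat_lit 30384194) (nat_lit 40392) (nat_lit 1414078) (nat_lit 40579) (nat_lit 49116),Row.mk (nat_lit 22008) (nat_lit 31603) (nat_lit 6100647) (nat_lit 38148) (nat_lit 33609166) (nat_lit 38335) (nat_lit 65719),Row.mk (nat_lit 22176) (nat_lit 31416) (nat_lit 16002706) (nat_lit 37961) (nat_lit 33588430) (nat_lit 38148) (nat_lit 86455),Row.mk (nat_lit 22344) (nat_lit 31229) (nat_lit 28370139) (nat_lit 37774) (nat_lit 33562531) (nat_lit 37961) (nat_lit 112354),Row.mk (nat_lit 22512) (nat_lit 31042) (nat_lit 43816764) (nat_lit 37587) (nat_lit 33530184) (nat_lit 37774) (nat_lit 144702),Row.mk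 (nat_lit 22680) (nat_lit 30855) (nat_lit 63109227) (nat_lit 37400) (nat_lit 33489782) (nat_lit 37587) (nat_lit 185103),Row.mk (nat_lit 22848) (nat_lit 30668) (nat_lit 87205048) (nat_lit 37213) (nat_lit 33439323) (nat_lit 37400) (nat_lit 235563),Row.mk (nat_lit 23016) (nat_lit 30481) (nat_lit 117300146) (nat_lit 37026) (nat_lit 33376299) (nat_lit 37213) (nat_lit 298586),Row.mk (nat_lit 23184) (nat_lit 30294) (nat_lit 154888199) (nat_lit 36839) (nat_lit 33297585) (nat_lit 37026) (nat_lit 377300),Row.mk (nat_lit 23352) (nat_lit 30107) (nat_lit 201834769) (nat_lit 36652) (nat_lit 33199272) (nat_lit 36839) (nat_lit 475613),Row.mk (nat_lit 23520) (nat_lit 29920) (nat_lit 260469903) (nat_lit 36465) (nat_lit 33076482) (nat_lit 36652) (nat_lit 598403),Row.mk (nat_lit 23688) (nat_lit 29733) (nat_lit 333703771) (nat_lit 36278) (nat_lit 32923121) (nat_lit 36465) (nat_lit 751765),Row.mk (nat_lit 23856) (nat_lit 29546) (nat_lit 425171105) (nat_lit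 36091) (nat_lit 32731575) (nat_lit 36278) (nat_lit 943310),Row.mk (nat_lit 24024) (nat_lit 29359) (nat_lit 539411599) (nat_lit 35904) (nat_lit 32492340) (nat_lit 36091) (nat_lit 1182545),Row.mk (nat_lit 24192) (nat_lit 29172) (nat_lit 682095220) (nat_lit 35717) (nat_lit 32193541) (nat_lit 35904) (nat_lit 1481344),Row.mk (nat_lit 24360) (nat_lit 28985) (nat_lit 860303620) (nat_lit 35530) (nat_lit 31820348) (nat_lit 35717) (nat_lit 1854537),Row.mk (nat_lit 24528) (nat_lit 28798) (nat_lit 1082881613) (nat_lit 35343) (nat_lit 31354240) (nat_lit 35530) (nat_lit 2320645),Row.mk (nat_lit 24696) (nat_lit 28611) (nat_lit 1360876157) (nat_lit 35156) (nat_lit 30772081) (nat_lit 35343) (nat_lit 2902804),Row.mk (nat_lit 24864) (nat_lit 28424) (nat_lit 1708084636) (nat_lit 34969) (nat_lit 30044979) (nat_lit 35156) (nat_lit 3629906),Row.mk (nat_lit 25032) (nat_lit 28237) (nat_lit 2141739650) (nat_lit 34782) (nat_lit 29136846) (nat_lit 34969) (nat_lit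 4538039),Row.mk (nat_lit 25200) (nat_lit 28050) (nat_lit 2683364302) (nat_lit 34595) (nat_lit 28002610) (nat_lit 34782) (nat_lit 5672275),Row.mk (nat_lit 25368) (nat_lit 27863) (nat_lit 3359840425) (nat_lit 34408) (nat_lit 26585977) (nat_lit 34595) (nat_lit 7088908),Row.mk (nat_lit 25536) (nat_lit 27676) (nat_lit 4204742784) (nat_lit 34221) (nat_lit 24816636) (nat_lit 34408) (nat_lit 8858249),Row.mk (nat_lit 25704) (nat_lit 27489) (nat_lit 5260005449) (nat_lit 34034) (nat_lit 22606771) (nat_lit 34221) (nat_lit 11068114),Row.mk (nat_lit 25872) (nat_lit 27302) (nat_lit 6578003060) (nat_lit 33847) (nat_lit 19846704) (nat_lit 34034) (nat_lit 13828181),Row.mk (nat_lit 26040) (nat_lit 32912) (nat_lit 8392981) (nat_lit 62084) (nat_lit 8249432185) (nat_lit 0) (nat_lit 0),Row.mk (nat_lit 26208) (nat_lit 32912) (nat_lit 8392981) (nat_lit 62084) (nat_lit 10305430352) (nat_lit 0) (nat_lit 0)],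
[Row.mk (nat_lit 10248) (nat_lit 32912) (nat_lit 5469) (nat_lit 61710) (nat_lit 8383145) (nat_lit 0) (nat_lit 0),Row.mk (nat_lit 10416) (nat_lit 32912) (nat_lit 5471) (nat_lit 61710) (nat_lit 8383145) (nat_lit 0) (nat_lit 0),Row.mk (nat_lit 10584) (nat_lit 32912) (nat_lit 5473) (nat_lit 61710) (nat_lit 8383145) (nat_lit 0) (nat_lit 0),Row.mk (nat_lit 10752) (nat_lit 32912) (nat_lit 5476) (nat_lit 61710) (nat_lit 8383145) (nat_lit 0) (nat_lit 0),Row.mk (nat_lit 10920) (nat_lit 32912) (nat_lit 5479) (nat_lit 61710) (nat_lit 8383145) (nat_lit 0) (nat_lit 0),Row.mk (nat_lit 11088) (nat_lit 32912) (nat_lit 5483) (nat_lit 61710) (nat_lit 8383145) (nat_lit 0) (nat_lit 0),Row.mk (nat_lit 11256) (nat_lit 32912) (nat_lit 5488) (nat_lit 61710) (nat_lit 8383145) (nat_lit 0) (nat_lit 0),Row.mk (nat_lit 11424) (nat_lit 32912) (nat_lit 5495) (nat_lit 61710) (nat_lit 8383145) (nat_lit 0) (nat_lit 0),Row.mk (nat_lit 11592) (nat_lit 32912) (nat_lit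 5503) (nat_lit 61710) (nat_lit 8383145) (nat_lit 0) (nat_lit 0),Row.mk (nat_lit 11760) (nat_lit 32912) (nat_lit 5513) (nat_lit 61710) (nat_lit 8383145) (nat_lit 0) (nat_lit 0),Row.mk (nat_lit 11928) (nat_lit 32912) (nat_lit 5526) (nat_lit 61710) (nat_lit 8383145) (nat_lit 0) (nat_lit 0),Row.mk (nat_lit 12096) (nat_lit 32912) (nat_lit 5542) (nat_lit 61710) (nat_lit 8383145) (nat_lit 0) (nat_lit 0),Row.mk (nat_lit 12264) (nat_lit 32912) (nat_lit 5562) (nat_lit 61710) (nat_lit 8383145) (nat_lit 0) (nat_lit 0),Row.mk (nat_lit 12432) (nat_lit 32912) (nat_lit 5587) (nat_lit 61710) (nat_lit 8383145) (nat_lit 0) (nat_lit 0),Row.mk (nat_lit 12600) (nat_lit 32912) (nat_lit 5618) (nat_lit 61710) (nat_lit 8383145) (nat_lit 0) (nat_lit 0),Row.mk (nat_lit 12768) (nat_lit 32912) (nat_lit 5657) (nat_lit 61710) (nat_lit 8383145) (nat_lit 0) (nat_lit 0),Row.mk (nat_lit 12936) (nat_lit 32912) (nat_lit 5705) (nat_lit 61710) (nat_lit 8383145) (nat_lit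 0) (nat_lit 0),Row.mk (nat_lit 13104) (nat_lit 32912) (nat_lit 5766) (nat_lit 61710) (nat_lit 8383145) (nat_lit 0) (nat_lit 0),Row.mk (nat_lit 13272) (nat_lit 32912) (nat_lit 5841) (nat_lit 61710) (nat_lit 8383145) (nat_lit 0) (nat_lit 0),Row.mk (nat_lit 13440) (nat_lit 32912) (nat_lit 5936) (nat_lit 61710) (nat_lit 8383145) (nat_lit 0) (nat_lit 0),Row.mk (nat_lit 13608) (nat_lit 32912) (nat_lit 6054) (nat_lit 61710) (nat_lit 8383145) (nat_lit 0) (nat_lit 0),Row.mk (nat_lit 13776) (nat_lit 32912) (nat_lit 6201) (nat_lit 61710) (nat_lit 8383145) (nat_lit 0) (nat_lit 0),Row.mk (nat_lit 13944) (nat_lit 32912) (nat_lit 6385) (nat_lit 61710) (nat_lit 8383145) (nat_lit 0) (nat_lit 0),Row.mk (nat_lit 14112) (nat_lit 32912) (nat_lit 6614) (nat_lit 61710) (nat_lit 8383145) (nat_lit 0) (nat_lit 0),Row.mk (nat_lit 14280) (nat_lit 32912) (nat_lit 6901) (nat_lit 61710) (nat_lit 8383145) (nat_lit 0) (nat_lit 0),Row.mk (nat_lit 14448) (nat_lit 32912)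 (nat_lit 7260) (nat_lit 61710) (nat_lit 8383145) (nat_lit 0) (nat_lit 0),Row.mk (nat_lit 14616) (nat_lit 32912) (nat_lit 7707) (nat_lit 61710) (nat_lit 8383145) (nat_lit 0) (nat_lit 0),Row.mk (nat_lit 14784) (nat_lit 32912) (nat_lit 8266) (nat_lit 61710) (nat_lit 8383145) (nat_lit 0) (nat_lit 0),Row.mk (nat_lit 14952) (nat_lit 60962) (nat_lit 2194) (nat_lit 61149) (nat_lit 9) (nat_lit 61523) (nat_lit 6759),Row.mk (nat_lit 15120) (nat_lit 60962) (nat_lit 6568) (nat_lit 61149) (nat_lit 5) (nat_lit 61523) (nat_lit 3262),Row.mk (nat_lit 15288) (nat_lit 60401) (nat_lit 1381) (nat_lit 60962) (nat_lit 9544) (nat_lit 0) (nat_lit 0),Row.mk (nat_lit 15456) (nat_lit 60401) (nat_lit 8195) (nat_lit 60775) (nat_lit 8) (nat_lit 60962) (nat_lit 4081),Row.mk (nat_lit 15624) (nat_lit 59840) (nat_lit 3399) (nat_lit 60214) (nat_lit 24) (nat_lit 60401) (nat_lit 10560),Row.mk (nat_lit 15792) (nat_lit 59840) (nat_lit 14025) (nat_lit 60214) (nat_lit 41)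 (nat_lit 60401) (nat_lit 2038),Row.mk (nat_lit 15960) (nat_lit 59279) (nat_lit 10668) (nat_lit 59653) (nat_lit 77) (nat_lit 59840) (nat_lit 8009),Row.mk (nat_lit 16128) (nat_lit 58718) (nat_lit 6461) (nat_lit 59092) (nat_lit 138) (nat_lit 59279) (nat_lit 15465),Row.mk (nat_lit 16296) (nat_lit 58157) (nat_lit 1183) (nat_lit 58531) (nat_lit 236) (nat_lit 58718) (nat_lit 24779),Row.mk (nat_lit 16464) (nat_lit 58157) (nat_lit 27002) (nat_lit 58531) (nat_lit 316) (nat_lit 58718) (nat_lit 4043),Row.mk (nat_lit 16632) (nat_lit 57596) (nat_lit 26777) (nat_lit 57970) (nat_lit 520) (nat_lit 58157) (nat_lit 10512),Row.mk (nat_lit 16800) (nat_lit 57035) (nat_lit 26427) (nat_lit 57409) (nat_lit 844) (nat_lit 57596) (nat_lit 18592),Row.mk (nat_lit 16968) (nat_lit 56474) (nat_lit 25880) (nat_lit 56848) (nat_lit 1357) (nat_lit 57035) (nat_lit 28684),Row.mk (nat_lit 17136) (nat_lit 55913) (nat_lit 25028) (nat_lit 56287) (nat_lit 2169) (nat_lit 56474)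 (nat_lit 41288),Row.mk (nat_lit 17304) (nat_lit 55352) (nat_lit 23698) (nat_lit 55726) (nat_lit 3448) (nat_lit 55913) (nat_lit 57031),Row.mk (nat_lit 17472) (nat_lit 54791) (nat_lit 21623) (nat_lit 55165) (nat_lit 5458) (nat_lit 55352) (nat_lit 76693),Row.mk (nat_lit 17640) (nat_lit 54230) (nat_lit 18386) (nat_lit 54604) (nat_lit 8615) (nat_lit 54791) (nat_lit 101250),Row.mk (nat_lit 17808) (nat_lit 53669) (nat_lit 13338) (nat_lit 54043) (nat_lit 13564) (nat_lit 54230) (nat_lit 131922),Row.mk (nat_lit 17976) (nat_lit 53108) (nat_lit 5462) (nat_lit 53482) (nat_lit 21314) (nat_lit 53669) (nat_lit 170230),Row.mk (nat_lit 18144) (nat_lit 52921) (nat_lit 26621) (nat_lit 53108) (nat_lit 212613) (nat_lit 53482) (nat_lit 5462),Row.mk (nat_lit 18312) (nat_lit 52360) (nat_lit 26427) (nat_lit 52547) (nat_lit 257027) (nat_lit 52921) (nat_lit 20806),Row.mk (nat_lit 18480) (nat_lit 51799) (nat_lit 26184) (nat_lit 51986) (nat_lit 307728) (nat_lit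 52360) (nat_lit 44743),Row.mk (nat_lit 18648) (nat_lit 51238) (nat_lit 25880) (nat_lit 51425) (nat_lit 363608) (nat_lit 51799) (nat_lit 82081),Row.mk (nat_lit 18816) (nat_lit 50677) (nat_lit 25501) (nat_lit 50864) (nat_lit 421791) (nat_lit 51238) (nat_lit 140328),Row.mk (nat_lit 18984) (nat_lit 50116) (nat_lit 25028) (nat_lit 50303) (nat_lit 476347) (nat_lit 50677) (nat_lit 231189),Row.mk (nat_lit 19152) (nat_lit 49555) (nat_lit 24436) (nat_lit 49742) (nat_lit 516231) (nat_lit 50116) (nat_lit 372927),Row.mk (nat_lit 19320) (nat_lit 48994) (nat_lit 23698) (nat_lit 49181) (nat_lit 521971) (nat_lit 49555) (nat_lit 594029),Row.mk (nat_lit 19488) (nat_lit 48433) (nat_lit 22775) (nat_lit 48620) (nat_lit 460384) (nat_lit 48994) (nat_lit 938936),Row.mk (nat_lit 19656) (nat_lit 47685) (nat_lit 21623) (nat_lit 47872) (nat_lit 276209) (nat_lit 48433) (nat_lit 1476970),Row.mk (nat_lit 19824) (nat_lit 47498) (nat_lit 20184) (nat_lit 47685) (nat_lit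 2114320) (nat_lit 48246) (nat_lit 80822),Row.mk (nat_lit 19992) (nat_lit 46563) (nat_lit 18386) (nat_lit 46750) (nat_lit 2058576) (nat_lit 47498) (nat_lit 688566),Row.mk (nat_lit 20160) (nat_lit 45628) (nat_lit 16142) (nat_lit 45815) (nat_lit 1662979) (nat_lit 46563) (nat_lit 1773598),Row.mk (nat_lit 20328) (nat_lit 44506) (nat_lit 13338) (nat_lit 44693) (nat_lit 660387) (nat_lit 45628) (nat_lit 3637277),Row.mk (nat_lit 20496) (nat_lit 44319) (nat_lit 9836) (nat_lit 44506) (nat_lit 4272065) (nat_lit 45441) (nat_lit 1101077),Row.mk (nat_lit 20664) (nat_lit 43010) (nat_lit 5462) (nat_lit 43197) (nat_lit 2575639) (nat_lit 44319) (nat_lit 4140749),Row.mk (nat_lit 20832) (nat_lit 43010) (nat_lit 7522453) (nat_lit 44132) (nat_lit 871617) (nat_lit 0) (nat_lit 0),Row.mk (nat_lit 21000) (nat_lit 41327) (nat_lit 4011022) (nat_lit 42823) (nat_lit 6466146) (nat_lit 43010) (nat_lit 5462),Row.mk (nat_lit 21168) (nat_lit 41140) (nat_lit 10380364)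 (nat_lit 42636) (nat_lit 2698543) (nat_lit 42823) (nat_lit 12285),Row.mk (nat_lit 21336) (nat_lit 38896) (nat_lit 2480833) (nat_lit 40953) (nat_lit 13847584) (nat_lit 41140) (nat_lit 20806),Row.mk (nat_lit 21504) (nat_lit 38709) (nat_lit 9808067) (nat_lit 40766) (nat_lit 10578910) (nat_lit 40953) (nat_lit 31450),Row.mk (nat_lit 21672) (nat_lit 38522) (nat_lit 18959606) (nat_lit 40579) (nat_lit 6496414) (nat_lit 40766) (nat_lit 44743),Row.mk (nat_lit 21840) (nat_lit 38335) (nat_lit 30389657) (nat_lit 40392) (nat_lit 1397476) (nat_lit 40579) (nat_lit 61345),Row.mk (nat_lit 22008) (nat_lit 31603) (nat_lit 6106109) (nat_lit 38148) (nat_lit 33588430) (nat_lit 38335) (nat_lit 82081),Row.mk (nat_lit 22176) (nat_lit 31416) (nat_lit 16008168) (nat_lit 37961) (nat_lit 33562531) (nat_lit 38148) (nat_lit 107980),Row.mk (nat_lit 22344) (nat_lit 31229) (nat_lit 28375602) (nat_lit 37774) (nat_lit 33530184) (nat_lit 37961) (nat_lit 140328),Row.mk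 (nat_lit 22512) (nat_lit 31042) (nat_lit 43822227) (nat_lit 37587) (nat_lit 33489782) (nat_lit 37774) (nat_lit 180729),Row.mk (nat_lit 22680) (nat_lit 30855) (nat_lit 63114690) (nat_lit 37400) (nat_lit 33439323) (nat_lit 37587) (nat_lit 231189),Row.mk (nat_lit 22848) (nat_lit 30668) (nat_lit 87210511) (nat_lit 37213) (nat_lit 33376299) (nat_lit 37400) (nat_lit 294212),Row.mk (nat_lit 23016) (nat_lit 30481) (nat_lit 117305609) (nat_lit 37026) (nat_lit 33297585) (nat_lit 37213) (nat_lit 372927),Row.mk (nat_lit 23184) (nat_lit 30294) (nat_lit 154893661) (nat_lit 36839) (nat_lit 33199272) (nat_lit 37026) (nat_lit 471239),Row.mk (nat_lit 23352) (nat_lit 30107) (nat_lit 201840232) (nat_lit 36652) (nat_lit 33076482) (nat_lit 36839) (nat_lit 594029),Row.mk (nat_lit 23520) (nat_lit 29920) (nat_lit 260475366) (nat_lit 36465) (nat_lit 32923121) (nat_lit 36652) (nat_lit 747391),Row.mk (nat_lit 23688) (nat_lit 29733) (nat_lit 333709233) (nat_lit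 36278) (nat_lit 32731575) (nat_lit 36465) (nat_lit 938936),Row.mk (nat_lit 23856) (nat_lit 29546) (nat_lit 425176568) (nat_lit 36091) (nat_lit 32492340) (nat_lit 36278) (nat_lit 1178171),Row.mk (nat_lit 24024) (nat_lit 29359) (nat_lit 539417061) (nat_lit 35904) (nat_lit 32193541) (nat_lit 36091) (nat_lit 1476970),Row.mk (nat_lit 24192) (nat_lit 29172) (nat_lit 682100682) (nat_lit 35717) (nat_lit 31820348) (nat_lit 35904) (nat_lit 1850163),Row.mk (nat_lit 24360) (nat_lit 28985) (nat_lit 860309083) (nat_lit 35530) (nat_lit 31354240) (nat_lit 35717) (nat_lit 2316272),Row.mk (nat_lit 24528) (nat_lit 28798) (nat_lit 1082887076) (nat_lit 35343) (nat_lit 30772081) (nat_lit 35530) (nat_lit 2898430),Row.mk (nat_lit 24696) (nat_lit 28611) (nat_lit 1360881620) (nat_lit 35156) (nat_lit 30044979) (nat_lit 35343) (nat_lit 3625532),Row.mk (nat_lit 24864) (nat_lit 28424) (nat_lit 1708090099) (nat_lit 34969) (nat_lit 29136846) (nat_lit 35156) (nat_lit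 4533665),Row.mk (nat_lit 25032) (nat_lit 28237) (nat_lit 2141745113) (nat_lit 34782) (nat_lit 28002610) (nat_lit 34969) (nat_lit 5667901),Row.mk (nat_lit 25200) (nat_lit 28050) (nat_lit 2683369764) (nat_lit 34595) (nat_lit 26585977) (nat_lit 34782) (nat_lit 7084535),Row.mk (nat_lit 25368) (nat_lit 27863) (nat_lit 3359845888) (nat_lit 34408) (nat_lit 24816636) (nat_lit 34595) (nat_lit 8853876),Row.mk (nat_lit 25536) (nat_lit 27676) (nat_lit 4204748247) (nat_lit 34221) (nat_lit 22606771) (nat_lit 34408) (nat_lit 11063740),Row.mk (nat_lit 25704) (nat_lit 27489) (nat_lit 5260010911) (nat_lit 34034) (nat_lit 19846704) (nat_lit 34221) (nat_lit 13823807),Row.mk (nat_lit 25872) (nat_lit 27302) (nat_lit 6578008522) (nat_lit 33847) (nat_lit 16399447) (nat_lit 34034) (nat_lit 17271064),Row.mk (nat_lit 26040) (nat_lit 32912) (nat_lit 8394070) (nat_lit 62084) (nat_lit 8249432185) (nat_lit 0) (nat_lit 0),Row.mk (nat_lit 26208) (nat_lit 32912) (nat_lit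 8394070) (nat_lit 62084) (nat_lit 10305430352) (nat_lit 0) (nat_lit 0)],
[Row.mk (nat_lit 9912) (nat_lit 32912) (nat_lit 6827) (nat_lit 61710) (nat_lit 8381785) (nat_lit 0) (nat_lit 0),Row.mk (nat_lit 10080) (nat_lit 32912) (nat_lit 6828) (nat_lit 61710) (nat_lit 8381785) (nat_lit 0) (nat_lit 0),Row.mk (nat_lit 10248) (nat_lit 32912) (nat_lit 6829) (nat_lit 61710) (nat_lit 8381785) (nat_lit 0) (nat_lit 0),Row.mk (nat_lit 10416) (nat_lit 32912) (nat_lit 6831) (nat_lit 61710) (nat_lit 8381785) (nat_lit 0) (nat_lit 0),Row.mk (nat_lit 10584) (nat_lit 32912) (nat_lit 6833) (nat_lit 61710) (nat_lit 8381785) (nat_lit 0) (nat_lit 0),Row.mk (nat_lit 10752) (nat_lit 32912) (nat_lit 6836) (nat_lit 61710) (nat_lit 8381785) (nat_lit 0) (nat_lit 0),Row.mk (nat_lit 10920) (nat_lit 32912) (nat_lit 6839) (nat_lit 61710) (nat_lit 8381785) (nat_lit 0) (nat_lit 0),Row.mk (nat_lit 11088) (nat_lit 32912) (nat_lit 6843) (nat_lit 61710) (nat_lit 8381785)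 (nat_lit 0) (nat_lit 0),Row.mk (nat_lit 11256) (nat_lit 32912) (nat_lit 6849) (nat_lit 61710) (nat_lit 8381785) (nat_lit 0) (nat_lit 0),Row.mk (nat_lit 11424) (nat_lit 32912) (nat_lit 6855) (nat_lit 61710) (nat_lit 8381785) (nat_lit 0) (nat_lit 0),Row.mk (nat_lit 11592) (nat_lit 32912) (nat_lit 6863) (nat_lit 61710) (nat_lit 8381785) (nat_lit 0) (nat_lit 0),Row.mk (nat_lit 11760) (nat_lit 32912) (nat_lit 6874) (nat_lit 61710) (nat_lit 8381785) (nat_lit 0) (nat_lit 0),Row.mk (nat_lit 11928) (nat_lit 32912) (nat_lit 6886) (nat_lit 61710) (nat_lit 8381785) (nat_lit 0) (nat_lit 0),Row.mk (nat_lit 12096) (nat_lit 32912) (nat_lit 6902) (nat_lit 61710) (nat_lit 8381785) (nat_lit 0) (nat_lit 0),Row.mk (nat_lit 12264) (nat_lit 32912) (nat_lit 6922) (nat_lit 61710) (nat_lit 8381785) (nat_lit 0) (nat_lit 0),Row.mk (nat_lit 12432) (nat_lit 32912) (nat_lit 6947) (nat_lit 61710) (nat_lit 8381785) (nat_lit 0) (nat_lit 0),Row.mk (nat_lit 12600) (nat_lit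 32912) (nat_lit 6978) (nat_lit 61710) (nat_lit 8381785) (nat_lit 0) (nat_lit 0),Row.mk (nat_lit 12768) (nat_lit 32912) (nat_lit 7017) (nat_lit 61710) (nat_lit 8381785) (nat_lit 0) (nat_lit 0),Row.mk (nat_lit 12936) (nat_lit 32912) (nat_lit 7065) (nat_lit 61710) (nat_lit 8381785) (nat_lit 0) (nat_lit 0),Row.mk (nat_lit 13104) (nat_lit 32912) (nat_lit 7126) (nat_lit 61710) (nat_lit 8381785) (nat_lit 0) (nat_lit 0),Row.mk (nat_lit 13272) (nat_lit 32912) (nat_lit 7201) (nat_lit 61710) (nat_lit 8381785) (nat_lit 0) (nat_lit 0),Row.mk (nat_lit 13440) (nat_lit 32912) (nat_lit 7296) (nat_lit 61710) (nat_lit 8381785) (nat_lit 0) (nat_lit 0),Row.mk (nat_lit 13608) (nat_lit 32912) (nat_lit 7414) (nat_lit 61710) (nat_lit 8381785) (nat_lit 0) (nat_lit 0),Row.mk (nat_lit 13776) (nat_lit 32912) (nat_lit 7561) (nat_lit 61710) (nat_lit 8381785) (nat_lit 0) (nat_lit 0),Row.mk (nat_lit 13944) (nat_lit 32912) (nat_lit 7745) (nat_lit 61710) (nat_lit 8381785)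 (nat_lit 0) (nat_lit 0),Row.mk (nat_lit 14112) (nat_lit 32912) (nat_lit 7974) (nat_lit 61710) (nat_lit 8381785) (nat_lit 0) (nat_lit 0),Row.mk (nat_lit 14280) (nat_lit 32912) (nat_lit 8261) (nat_lit 61710) (nat_lit 8381785) (nat_lit 0) (nat_lit 0),Row.mk (nat_lit 14448) (nat_lit 60962) (nat_lit 460) (nat_lit 61149) (nat_lit 25) (nat_lit 61523) (nat_lit 8134),Row.mk (nat_lit 14616) (nat_lit 60962) (nat_lit 2705) (nat_lit 61149) (nat_lit 23) (nat_lit 61523) (nat_lit 6339),Row.mk (nat_lit 14784) (nat_lit 60962) (nat_lit 5508) (nat_lit 61149) (nat_lit 20) (nat_lit 61523) (nat_lit 4097),Row.mk (nat_lit 14952) (nat_lit 60962) (nat_lit 9010) (nat_lit 61149) (nat_lit 16) (nat_lit 61523) (nat_lit 1297),Row.mk (nat_lit 15120) (nat_lit 60401) (nat_lit 2732) (nat_lit 60588) (nat_lit 15) (nat_lit 60962) (nat_lit 8448),Row.mk (nat_lit 15288) (nat_lit 60401) (nat_lit 8195) (nat_lit 60588) (nat_lit 8) (nat_lit 60962) (nat_lit 4081),Row.mk (nat_lit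 15456) (nat_lit 59840) (nat_lit 1714) (nat_lit 60401) (nat_lit 11931) (nat_lit 0) (nat_lit 0),Row.mk (nat_lit 15624) (nat_lit 59840) (nat_lit 10222) (nat_lit 60214) (nat_lit 13) (nat_lit 60401) (nat_lit 5108),Row.mk (nat_lit 15792) (nat_lit 59279) (nat_lit 4224) (nat_lit 59653) (nat_lit 37) (nat_lit 59840) (nat_lit 13203),Row.mk (nat_lit 15960) (nat_lit 59279) (nat_lit 17491) (nat_lit 59653) (nat_lit 64) (nat_lit 59840) (nat_lit 2560),Row.mk (nat_lit 16128) (nat_lit 58718) (nat_lit 13283) (nat_lit 59092) (nat_lit 121) (nat_lit 59279) (nat_lit 10020),Row.mk (nat_lit 16296) (nat_lit 58157) (nat_lit 8005) (nat_lit 58531) (nat_lit 215) (nat_lit 58718) (nat_lit 19337),Row.mk (nat_lit 16464) (nat_lit 57596) (nat_lit 1377) (nat_lit 57970) (nat_lit 369) (nat_lit 58157) (nat_lit 30975),Row.mk (nat_lit 16632) (nat_lit 57596) (nat_lit 33600) (nat_lit 57970) (nat_lit 493) (nat_lit 58157) (nat_lit 5076),Row.mk (nat_lit 16800) (nat_lit 57035) (nat_lit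 33249) (nat_lit 57409) (nat_lit 811) (nat_lit 57596) (nat_lit 13162),Row.mk (nat_lit 16968) (nat_lit 56474) (nat_lit 32703) (nat_lit 56848) (nat_lit 1316) (nat_lit 57035) (nat_lit 23262),Row.mk (nat_lit 17136) (nat_lit 55913) (nat_lit 31850) (nat_lit 56287) (nat_lit 2118) (nat_lit 56474) (nat_lit 35877),Row.mk (nat_lit 17304) (nat_lit 55352) (nat_lit 30520) (nat_lit 55726) (nat_lit 3384) (nat_lit 55913) (nat_lit 51632),Row.mk (nat_lit 17472) (nat_lit 54791) (nat_lit 28446) (nat_lit 55165) (nat_lit 5378) (nat_lit 55352) (nat_lit 71310),Row.mk (nat_lit 17640) (nat_lit 54230) (nat_lit 25209) (nat_lit 54604) (nat_lit 8515) (nat_lit 54791) (nat_lit 95887),Row.mk (nat_lit 17808) (nat_lit 53669) (nat_lit 20161) (nat_lit 54043) (nat_lit 13439) (nat_lit 54230) (nat_lit 126584),Row.mk (nat_lit 17976) (nat_lit 53108) (nat_lit 12285) (nat_lit 53482) (nat_lit 21159) (nat_lit 53669) (nat_lit 164923),Row.mk (nat_lit 18144) (nat_lit 52921) (nat_lit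 33249) (nat_lit 53108) (nat_lit 212807) (nat_lit 0) (nat_lit 0),Row.mk (nat_lit 18312) (nat_lit 52360) (nat_lit 33006) (nat_lit 52547) (nat_lit 257270) (nat_lit 52921) (nat_lit 15344),Row.mk (nat_lit 18480) (nat_lit 51799) (nat_lit 32703) (nat_lit 51986) (nat_lit 308031) (nat_lit 52360) (nat_lit 39280),Row.mk (nat_lit 18648) (nat_lit 51238) (nat_lit 32324) (nat_lit 51425) (nat_lit 363987) (nat_lit 51799) (nat_lit 76619),Row.mk (nat_lit 18816) (nat_lit 50677) (nat_lit 31850) (nat_lit 50864) (nat_lit 422264) (nat_lit 51238) (nat_lit 134865),Row.mk (nat_lit 18984) (nat_lit 50116) (nat_lit 31259) (nat_lit 50303) (nat_lit 476938) (nat_lit 50677) (nat_lit 225726),Row.mk (nat_lit 19152) (nat_lit 49555) (nat_lit 30520) (nat_lit 49742) (nat_lit 516970) (nat_lit 50116) (nat_lit 367464),Row.mk (nat_lit 19320) (nat_lit 48994) (nat_lit 29598) (nat_lit 49181) (nat_lit 522893) (nat_lit 49555) (nat_lit 588566),Row.mk (nat_lit 19488) (nat_lit 48433)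 (nat_lit 28446) (nat_lit 48620) (nat_lit 461536) (nat_lit 48994) (nat_lit 933473),Row.mk (nat_lit 19656) (nat_lit 47685) (nat_lit 27007) (nat_lit 47872) (nat_lit 277648) (nat_lit 48433) (nat_lit 1471507),Row.mk (nat_lit 19824) (nat_lit 47498) (nat_lit 25209) (nat_lit 47685) (nat_lit 2116117) (nat_lit 48246) (nat_lit 75359),Row.mk (nat_lit 19992) (nat_lit 46563) (nat_lit 22964) (nat_lit 46750) (nat_lit 2060821) (nat_lit 47498) (nat_lit 683103),Row.mk (nat_lit 20160) (nat_lit 45628) (nat_lit 20161) (nat_lit 45815) (nat_lit 1665783) (nat_lit 46563) (nat_lit 1768135),Row.mk (nat_lit 20328) (nat_lit 44506) (nat_lit 16659) (nat_lit 44693) (nat_lit 663889) (nat_lit 45628) (nat_lit 3631815),Row.mk (nat_lit 20496) (nat_lit 44319) (nat_lit 12285) (nat_lit 44506) (nat_lit 4276439) (nat_lit 45441) (nat_lit 1095614),Row.mk (nat_lit 20664) (nat_lit 43010) (nat_lit 6822) (nat_lit 43197) (nat_lit 2581102) (nat_lit 44319) (nat_lit 4135286),Row.mk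 (nat_lit 20832) (nat_lit 43010) (nat_lit 7529275) (nat_lit 44132) (nat_lit 866154) (nat_lit 0) (nat_lit 0),Row.mk (nat_lit 21000) (nat_lit 41327) (nat_lit 4017845) (nat_lit 42823) (nat_lit 6459323) (nat_lit 43010) (nat_lit 6822),Row.mk (nat_lit 21168) (nat_lit 41140) (nat_lit 10387187) (nat_lit 42636) (nat_lit 2690022) (nat_lit 42823) (nat_lit 15344),Row.mk (nat_lit 21336) (nat_lit 38896) (nat_lit 2487656) (nat_lit 40953) (nat_lit 13836941) (nat_lit 41140) (nat_lit 25987),Row.mk (nat_lit 21504) (nat_lit 38709) (nat_lit 9814890) (nat_lit 40766) (nat_lit 10565617) (nat_lit 40953) (nat_lit 39280),Row.mk (nat_lit 21672) (nat_lit 38522) (nat_lit 18966429) (nat_lit 40579) (nat_lit 6479812) (nat_lit 40766) (nat_lit 55882),Row.mk (nat_lit 21840) (nat_lit 38335) (nat_lit 30396480) (nat_lit 40392) (nat_lit 1376739) (nat_lit 40579) (nat_lit 76619),Row.mk (nat_lit 22008) (nat_lit 31603) (nat_lit 6112932) (nat_lit 38148) (nat_lit 33562531) (nat_lit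 38335) (nat_lit 102518),Row.mk (nat_lit 22176) (nat_lit 31416) (nat_lit 16014991) (nat_lit 37961) (nat_lit 33530184) (nat_lit 38148) (nat_lit 134865),Row.mk (nat_lit 22344) (nat_lit 31229) (nat_lit 28382424) (nat_lit 37774) (nat_lit 33489782) (nat_lit 37961) (nat_lit 175266),Row.mk (nat_lit 22512) (nat_lit 31042) (nat_lit 43829050) (nat_lit 37587) (nat_lit 33439323) (nat_lit 37774) (nat_lit 225726),Row.mk (nat_lit 22680) (nat_lit 30855) (nat_lit 63121513) (nat_lit 37400) (nat_lit 33376299) (nat_lit 37587) (nat_lit 288749),Row.mk (nat_lit 22848) (nat_lit 30668) (nat_lit 87217333) (nat_lit 37213) (nat_lit 33297585) (nat_lit 37400) (nat_lit 367464),Row.mk (nat_lit 23016) (nat_lit 30481) (nat_lit 117312432) (nat_lit 37026) (nat_lit 33199272) (nat_lit 37213) (nat_lit 465776),Row.mk (nat_lit 23184) (nat_lit 30294) (nat_lit 154900484) (nat_lit 36839) (nat_lit 33076482) (nat_lit 37026) (nat_lit 588566),Row.mk (nat_lit 23352) (nat_lit 30107)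 (nat_lit 201847055) (nat_lit 36652) (nat_lit 32923121) (nat_lit 36839) (nat_lit 741928),Row.mk (nat_lit 23520) (nat_lit 29920) (nat_lit 260482188) (nat_lit 36465) (nat_lit 32731575) (nat_lit 36652) (nat_lit 933473),Row.mk (nat_lit 23688) (nat_lit 29733) (nat_lit 333716056) (nat_lit 36278) (nat_lit 32492340) (nat_lit 36465) (nat_lit 1172708),Row.mk (nat_lit 23856) (nat_lit 29546) (nat_lit 425183390) (nat_lit 36091) (nat_lit 32193541) (nat_lit 36278) (nat_lit 1471507),Row.mk (nat_lit 24024) (nat_lit 29359) (nat_lit 539423884) (nat_lit 35904) (nat_lit 31820348) (nat_lit 36091) (nat_lit 1844700),Row.mk (nat_lit 24192) (nat_lit 29172) (nat_lit 682107505) (nat_lit 35717) (nat_lit 31354240) (nat_lit 35904) (nat_lit 2310809),Row.mk (nat_lit 24360) (nat_lit 28985) (nat_lit 860315905) (nat_lit 35530) (nat_lit 30772081) (nat_lit 35717) (nat_lit 2892968),Row.mk (nat_lit 24528) (nat_lit 28798) (nat_lit 1082893898) (nat_lit 35343) (nat_lit 30044979)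 (nat_lit 35530) (nat_lit 3620070),Row.mk (nat_lit 24696) (nat_lit 28611) (nat_lit 1360888442) (nat_lit 35156) (nat_lit 29136846) (nat_lit 35343) (nat_lit 4528202),Row.mk (nat_lit 24864) (nat_lit 28424) (nat_lit 1708096921) (nat_lit 34969) (nat_lit 28002610) (nat_lit 35156) (nat_lit 5662438),Row.mk (nat_lit 25032) (nat_lit 28237) (nat_lit 2141751936) (nat_lit 34782) (nat_lit 26585977) (nat_lit 34969) (nat_lit 7079072),Row.mk (nat_lit 25200) (nat_lit 28050) (nat_lit 2683376587) (nat_lit 34595) (nat_lit 24816636) (nat_lit 34782) (nat_lit 8848413),Row.mk (nat_lit 25368) (nat_lit 27863) (nat_lit 3359852711) (nat_lit 34408) (nat_lit 22606771) (nat_lit 34595) (nat_lit 11058277),Row.mk (nat_lit 25536) (nat_lit 27676) (nat_lit 4204755070) (nat_lit 34221) (nat_lit 19846704) (nat_lit 34408) (nat_lit 13818344),Row.mk (nat_lit 25704) (nat_lit 27489) (nat_lit 5260017734) (nat_lit 34034) (nat_lit 16399447) (nat_lit 34221) (nat_lit 17265602),Row.mk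 (nat_lit 25872) (nat_lit 27302) (nat_lit 6578015345) (nat_lit 33847) (nat_lit 12093906) (nat_lit 34034) (nat_lit 21571143),Row.mk (nat_lit 26040) (nat_lit 32912) (nat_lit 8395430) (nat_lit 62084) (nat_lit 8249432185) (nat_lit 0) (nat_lit 0),Row.mk (nat_lit 26208) (nat_lit 32912) (nat_lit 8395430) (nat_lit 62084) (nat_lit 10305430352) (nat_lit 0) (nat_lit 0)],
[Row.mk (nat_lit 8232) (nat_lit 32912) (nat_lit 8521) (nat_lit 61710) (nat_lit 8380086) (nat_lit 0) (nat_lit 0),Row.mk (nat_lit 8400) (nat_lit 32912) (nat_lit 8522) (nat_lit 61710) (nat_lit 8380086) (nat_lit 0) (nat_lit 0),Row.mk (nat_lit 8568) (nat_lit 32912) (nat_lit 8522) (nat_lit 61710) (nat_lit 8380086) (nat_lit 0) (nat_lit 0),Row.mk (nat_lit 8736) (nat_lit 32912) (nat_lit 8522) (nat_lit 61710) (nat_lit 8380086) (nat_lit 0) (nat_lit 0),Row.mk (nat_lit 8904) (nat_lit 32912) (nat_lit 8522) (nat_lit 61710) (nat_lit 8380086) (nat_lit 0) (nat_lit 0),Row.mk (nat_lit 9072) (nat_lit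 32912) (nat_lit 8522) (nat_lit 61710) (nat_lit 8380086) (nat_lit 0) (nat_lit 0),Row.mk (nat_lit 9240) (nat_lit 32912) (nat_lit 8523) (nat_lit 61710) (nat_lit 8380086) (nat_lit 0) (nat_lit 0),Row.mk (nat_lit 9408) (nat_lit 32912) (nat_lit 8523) (nat_lit 61710) (nat_lit 8380086) (nat_lit 0) (nat_lit 0),Row.mk (nat_lit 9576) (nat_lit 32912) (nat_lit 8524) (nat_lit 61710) (nat_lit 8380086) (nat_lit 0) (nat_lit 0),Row.mk (nat_lit 9744) (nat_lit 32912) (nat_lit 8525) (nat_lit 61710) (nat_lit 8380086) (nat_lit 0) (nat_lit 0),Row.mk (nat_lit 9912) (nat_lit 32912) (nat_lit 8525) (nat_lit 61710) (nat_lit 8380086) (nat_lit 0) (nat_lit 0),Row.mk (nat_lit 10080) (nat_lit 32912) (nat_lit 8527) (nat_lit 61710) (nat_lit 8380086) (nat_lit 0) (nat_lit 0),Row.mk (nat_lit 10248) (nat_lit 32912) (nat_lit 8528) (nat_lit 61710) (nat_lit 8380086) (nat_lit 0) (nat_lit 0),Row.mk (nat_lit 10416) (nat_lit 32912) (nat_lit 8530) (nat_lit 61710) (nat_lit 8380086)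 (nat_lit 0) (nat_lit 0),Row.mk (nat_lit 10584) (nat_lit 60962) (nat_lit 10) (nat_lit 61149) (nat_lit 43) (nat_lit 61523) (nat_lit 8478),Row.mk (nat_lit 10752) (nat_lit 60962) (nat_lit 24) (nat_lit 61149) (nat_lit 43) (nat_lit 61523) (nat_lit 8467),Row.mk (nat_lit 10920) (nat_lit 60962) (nat_lit 41) (nat_lit 61149) (nat_lit 43) (nat_lit 61523) (nat_lit 8453),Row.mk (nat_lit 11088) (nat_lit 60962) (nat_lit 62) (nat_lit 61149) (nat_lit 43) (nat_lit 61523) (nat_lit 8436),Row.mk (nat_lit 11256) (nat_lit 60962) (nat_lit 88) (nat_lit 61149) (nat_lit 43) (nat_lit 61523) (nat_lit 8415),Row.mk (nat_lit 11424) (nat_lit 60962) (nat_lit 121) (nat_lit 61149) (nat_lit 43) (nat_lit 61523) (nat_lit 8389),Row.mk (nat_lit 11592) (nat_lit 60962) (nat_lit 162) (nat_lit 61149) (nat_lit 43) (nat_lit 61523) (nat_lit 8356),Row.mk (nat_lit 11760) (nat_lit 60962) (nat_lit 213) (nat_lit 61149) (nat_lit 43) (nat_lit 61523) (nat_lit 8315),Row.mk (nat_lit 11928)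 (nat_lit 60962) (nat_lit 277) (nat_lit 61149) (nat_lit 43) (nat_lit 61523) (nat_lit 8264),Row.mk (nat_lit 12096) (nat_lit 60962) (nat_lit 357) (nat_lit 61149) (nat_lit 43) (nat_lit 61523) (nat_lit 8200),Row.mk (nat_lit 12264) (nat_lit 60962) (nat_lit 457) (nat_lit 61149) (nat_lit 42) (nat_lit 61523) (nat_lit 8120),Row.mk (nat_lit 12432) (nat_lit 60962) (nat_lit 582) (nat_lit 61149) (nat_lit 42) (nat_lit 61523) (nat_lit 8021),Row.mk (nat_lit 12600) (nat_lit 60962) (nat_lit 738) (nat_lit 61149) (nat_lit 42) (nat_lit 61523) (nat_lit 7896),Row.mk (nat_lit 12768) (nat_lit 60962) (nat_lit 932) (nat_lit 61149) (nat_lit 42) (nat_lit 61523) (nat_lit 7740),Row.mk (nat_lit 12936) (nat_lit 60962) (nat_lit 1175) (nat_lit 61149) (nat_lit 42) (nat_lit 61523) (nat_lit 7546),Row.mk (nat_lit 13104) (nat_lit 60962) (nat_lit 1479) (nat_lit 61149) (nat_lit 41) (nat_lit 61523) (nat_lit 7303),Row.mk (nat_lit 13272) (nat_lit 60962) (nat_lit 1858) (nat_lit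 61149) (nat_lit 41) (nat_lit 61523) (nat_lit 7000),Row.mk (nat_lit 13440) (nat_lit 60962) (nat_lit 2331) (nat_lit 61149) (nat_lit 41) (nat_lit 61523) (nat_lit 6622),Row.mk (nat_lit 13608) (nat_lit 60962) (nat_lit 2923) (nat_lit 61149) (nat_lit 40) (nat_lit 61523) (nat_lit 6149),Row.mk (nat_lit 13776) (nat_lit 60962) (nat_lit 3661) (nat_lit 61149) (nat_lit 39) (nat_lit 61523) (nat_lit 5558),Row.mk (nat_lit 13944) (nat_lit 60962) (nat_lit 4584) (nat_lit 61149) (nat_lit 38) (nat_lit 61523) (nat_lit 4820),Row.mk (nat_lit 14112) (nat_lit 60962) (nat_lit 5736) (nat_lit 61149) (nat_lit 37) (nat_lit 61523) (nat_lit 3899),Row.mk (nat_lit 14280) (nat_lit 60962) (nat_lit 7175) (nat_lit 61149) (nat_lit 36) (nat_lit 61523) (nat_lit 2748),Row.mk (nat_lit 14448) (nat_lit 60962) (nat_lit 8972) (nat_lit 61149) (nat_lit 34) (nat_lit 61523) (nat_lit 1311),Row.mk (nat_lit 14616) (nat_lit 60401) (nat_lit 563) (nat_lit 60588) (nat_lit 39) (nat_lit 60962)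 (nat_lit 10162),Row.mk (nat_lit 14784) (nat_lit 60401) (nat_lit 3367) (nat_lit 60588) (nat_lit 36) (nat_lit 60962) (nat_lit 7921),Row.mk (nat_lit 14952) (nat_lit 60401) (nat_lit 6869) (nat_lit 60588) (nat_lit 31) (nat_lit 60962) (nat_lit 5121),Row.mk (nat_lit 15120) (nat_lit 60401) (nat_lit 11243) (nat_lit 60588) (nat_lit 26) (nat_lit 60962) (nat_lit 1625),Row.mk (nat_lit 15288) (nat_lit 59840) (nat_lit 3399) (nat_lit 60027) (nat_lit 24) (nat_lit 60401) (nat_lit 10560),Row.mk (nat_lit 15456) (nat_lit 59840) (nat_lit 10222) (nat_lit 60027) (nat_lit 13) (nat_lit 60401) (nat_lit 5108),Row.mk (nat_lit 15624) (nat_lit 59279) (nat_lit 2124) (nat_lit 59840) (nat_lit 14918) (nat_lit 0) (nat_lit 0),Row.mk (nat_lit 15792) (nat_lit 59279) (nat_lit 12746) (nat_lit 59653) (nat_lit 21) (nat_lit 59840) (nat_lit 6397),Row.mk (nat_lit 15960) (nat_lit 58718) (nat_lit 5243) (nat_lit 59092) (nat_lit 59) (nat_lit 59279) (nat_lit 16511),Row.mk (nat_lit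 16128) (nat_lit 58718) (nat_lit 21805) (nat_lit 59092) (nat_lit 100) (nat_lit 59279) (nat_lit 3218),Row.mk (nat_lit 16296) (nat_lit 58157) (nat_lit 16527) (nat_lit 58531) (nat_lit 189) (nat_lit 58718) (nat_lit 12541),Row.mk (nat_lit 16464) (nat_lit 57596) (nat_lit 9899) (nat_lit 57970) (nat_lit 336) (nat_lit 58157) (nat_lit 24185),Row.mk (nat_lit 16632) (nat_lit 57035) (nat_lit 1564) (nat_lit 57409) (nat_lit 575) (nat_lit 57596) (nat_lit 38728),Row.mk (nat_lit 16800) (nat_lit 57035) (nat_lit 41771) (nat_lit 57409) (nat_lit 770) (nat_lit 57596) (nat_lit 6380),Row.mk (nat_lit 16968) (nat_lit 56474) (nat_lit 41224) (nat_lit 56848) (nat_lit 1265) (nat_lit 57035) (nat_lit 16491),Row.mk (nat_lit 17136) (nat_lit 55913) (nat_lit 40372) (nat_lit 56287) (nat_lit 2054) (nat_lit 56474) (nat_lit 29118),Row.mk (nat_lit 17304) (nat_lit 55352) (nat_lit 39042) (nat_lit 55726) (nat_lit 3304) (nat_lit 55913) (nat_lit 44889),Row.mk (nat_lit 17472) (nat_lit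 54791) (nat_lit 36967) (nat_lit 55165) (nat_lit 5278) (nat_lit 55352) (nat_lit 64587),Row.mk (nat_lit 17640) (nat_lit 54230) (nat_lit 33731) (nat_lit 54604) (nat_lit 8390) (nat_lit 54791) (nat_lit 89189),Row.mk (nat_lit 17808) (nat_lit 53669) (nat_lit 28682) (nat_lit 54043) (nat_lit 13283) (nat_lit 54230) (nat_lit 119917),Row.mk (nat_lit 17976) (nat_lit 53108) (nat_lit 20806) (nat_lit 53482) (nat_lit 20964) (nat_lit 53669) (nat_lit 158295),Row.mk (nat_lit 18144) (nat_lit 52547) (nat_lit 8521) (nat_lit 52921) (nat_lit 33006) (nat_lit 53108) (nat_lit 206228),Row.mk (nat_lit 18312) (nat_lit 52360) (nat_lit 41224) (nat_lit 52547) (nat_lit 257574) (nat_lit 52921) (nat_lit 8521),Row.mk (nat_lit 18480) (nat_lit 51799) (nat_lit 40845) (nat_lit 51986) (nat_lit 308410) (nat_lit 52360) (nat_lit 32457),Row.mk (nat_lit 18648) (nat_lit 51238) (nat_lit 40372) (nat_lit 51425) (nat_lit 364461) (nat_lit 51799) (nat_lit 69796),Row.mk (nat_lit 18816)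 (nat_lit 50677) (nat_lit 39780) (nat_lit 50864) (nat_lit 422856) (nat_lit 51238) (nat_lit 128042),Row.mk (nat_lit 18984) (nat_lit 50116) (nat_lit 39042) (nat_lit 50303) (nat_lit 477677) (nat_lit 50677) (nat_lit 218903),Row.mk (nat_lit 19152) (nat_lit 49555) (nat_lit 38119) (nat_lit 49742) (nat_lit 517892) (nat_lit 50116) (nat_lit 360641),Row.mk (nat_lit 19320) (nat_lit 48994) (nat_lit 36967) (nat_lit 49181) (nat_lit 524045) (nat_lit 49555) (nat_lit 581744),Row.mk (nat_lit 19488) (nat_lit 48433) (nat_lit 35528) (nat_lit 48620) (nat_lit 462975) (nat_lit 48994) (nat_lit 926650),Row.mk (nat_lit 19656) (nat_lit 47685) (nat_lit 33731) (nat_lit 47872) (nat_lit 279446) (nat_lit 48433) (nat_lit 1464685),Row.mk (nat_lit 19824) (nat_lit 47498) (nat_lit 31486) (nat_lit 47685) (nat_lit 2118362) (nat_lit 48246) (nat_lit 68536),Row.mk (nat_lit 19992) (nat_lit 46563) (nat_lit 28682) (nat_lit 46750) (nat_lit 2063625) (nat_lit 47498) (nat_lit 676281),Row.mk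 (nat_lit 20160) (nat_lit 45628) (nat_lit 25180) (nat_lit 45815) (nat_lit 1669285) (nat_lit 46563) (nat_lit 1761313),Row.mk (nat_lit 20328) (nat_lit 44506) (nat_lit 20806) (nat_lit 44693) (nat_lit 668263) (nat_lit 45628) (nat_lit 3624992),Row.mk (nat_lit 20496) (nat_lit 44319) (nat_lit 15344) (nat_lit 44506) (nat_lit 4281902) (nat_lit 45441) (nat_lit 1088792),Row.mk (nat_lit 20664) (nat_lit 43010) (nat_lit 8521) (nat_lit 43197) (nat_lit 2587925) (nat_lit 44319) (nat_lit 4128463),Row.mk (nat_lit 20832) (nat_lit 43010) (nat_lit 7537797) (nat_lit 44132) (nat_lit 859332) (nat_lit 0) (nat_lit 0),Row.mk (nat_lit 21000) (nat_lit 41327) (nat_lit 4026366) (nat_lit 42823) (nat_lit 6450802) (nat_lit 43010) (nat_lit 8521),Row.mk (nat_lit 21168) (nat_lit 41140) (nat_lit 10395709) (nat_lit 42636) (nat_lit 2679379) (nat_lit 42823) (nat_lit 19164),Row.mk (nat_lit 21336) (nat_lit 38896) (nat_lit 2496177) (nat_lit 40953) (nat_lit 13823648) (nat_lit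 41140) (nat_lit 32457),Row.mk (nat_lit 21504) (nat_lit 38709) (nat_lit 9823411) (nat_lit 40766) (nat_lit 10549014) (nat_lit 40953) (nat_lit 49060),Row.mk (nat_lit 21672) (nat_lit 38522) (nat_lit 18974950) (nat_lit 40579) (nat_lit 6459075) (nat_lit 40766) (nat_lit 69796),Row.mk (nat_lit 21840) (nat_lit 38335) (nat_lit 30405001) (nat_lit 40392) (nat_lit 1350840) (nat_lit 40579) (nat_lit 95695),Row.mk (nat_lit 22008) (nat_lit 31603) (nat_lit 6121453) (nat_lit 38148) (nat_lit 33530184) (nat_lit 38335) (nat_lit 128042),Row.mk (nat_lit 22176) (nat_lit 31416) (nat_lit 16023513) (nat_lit 37961) (nat_lit 33489782) (nat_lit 38148) (nat_lit 168443),Row.mk (nat_lit 22344) (nat_lit 31229) (nat_lit 28390946) (nat_lit 37774) (nat_lit 33439323) (nat_lit 37961) (nat_lit 218903),Row.mk (nat_lit 22512) (nat_lit 31042) (nat_lit 43837571) (nat_lit 37587) (nat_lit 33376299) (nat_lit 37774) (nat_lit 281927),Row.mk (nat_lit 22680) (nat_lit 30855) (nat_lit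 63130034) (nat_lit 37400) (nat_lit 33297585) (nat_lit 37587) (nat_lit 360641),Row.mk (nat_lit 22848) (nat_lit 30668) (nat_lit 87225855) (nat_lit 37213) (nat_lit 33199272) (nat_lit 37400) (nat_lit 458954),Row.mk (nat_lit 23016) (nat_lit 30481) (nat_lit 117320953) (nat_lit 37026) (nat_lit 33076482) (nat_lit 37213) (nat_lit 581744),Row.mk (nat_lit 23184) (nat_lit 30294) (nat_lit 154909006) (nat_lit 36839) (nat_lit 32923121) (nat_lit 37026) (nat_lit 735105),Row.mk (nat_lit 23352) (nat_lit 30107) (nat_lit 201855576) (nat_lit 36652) (nat_lit 32731575) (nat_lit 36839) (nat_lit 926650),Row.mk (nat_lit 23520) (nat_lit 29920) (nat_lit 260490710) (nat_lit 36465) (nat_lit 32492340) (nat_lit 36652) (nat_lit 1165886),Row.mk (nat_lit 23688) (nat_lit 29733) (nat_lit 333724578) (nat_lit 36278) (nat_lit 32193541) (nat_lit 36465) (nat_lit 1464685),Row.mk (nat_lit 23856) (nat_lit 29546) (nat_lit 425191912) (nat_lit 36091) (nat_lit 31820348) (nat_lit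 36278) (nat_lit 1837877),Row.mk (nat_lit 24024) (nat_lit 29359) (nat_lit 539432406) (nat_lit 35904) (nat_lit 31354240) (nat_lit 36091) (nat_lit 2303986),Row.mk (nat_lit 24192) (nat_lit 29172) (nat_lit 682116027) (nat_lit 35717) (nat_lit 30772081) (nat_lit 35904) (nat_lit 2886145),Row.mk (nat_lit 24360) (nat_lit 28985) (nat_lit 860324427) (nat_lit 35530) (nat_lit 30044979) (nat_lit 35717) (nat_lit 3613247),Row.mk (nat_lit 24528) (nat_lit 28798) (nat_lit 1082902420) (nat_lit 35343) (nat_lit 29136846) (nat_lit 35530) (nat_lit 4521380),Row.mk (nat_lit 24696) (nat_lit 28611) (nat_lit 1360896964) (nat_lit 35156) (nat_lit 28002610) (nat_lit 35343) (nat_lit 5655616),Row.mk (nat_lit 24864) (nat_lit 28424) (nat_lit 1708105443) (nat_lit 34969) (nat_lit 26585977) (nat_lit 35156) (nat_lit 7072249),Row.mk (nat_lit 25032) (nat_lit 28237) (nat_lit 2141760457) (nat_lit 34782) (nat_lit 24816636) (nat_lit 34969) (nat_lit 8841590),Row.mk (nat_lit 25200)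 (nat_lit 28050) (nat_lit 2683385109) (nat_lit 34595) (nat_lit 22606771) (nat_lit 34782) (nat_lit 11051455),Row.mk (nat_lit 25368) (nat_lit 27863) (nat_lit 3359861232) (nat_lit 34408) (nat_lit 19846704) (nat_lit 34595) (nat_lit 13811522),Row.mk (nat_lit 25536) (nat_lit 27676) (nat_lit 4204763591) (nat_lit 34221) (nat_lit 16399447) (nat_lit 34408) (nat_lit 17258779),Row.mk (nat_lit 25704) (nat_lit 27489) (nat_lit 5260026256) (nat_lit 34034) (nat_lit 12093906) (nat_lit 34221) (nat_lit 21564320),Row.mk (nat_lit 25872) (nat_lit 27302) (nat_lit 6578023866) (nat_lit 33847) (nat_lit 6716389) (nat_lit 34034) (nat_lit 26941837),Row.mk (nat_lit 26040) (nat_lit 32912) (nat_lit 8397129) (nat_lit 62084) (nat_lit 8249432185) (nat_lit 0) (nat_lit 0),Row.mk (nat_lit 26208) (nat_lit 32912) (nat_lit 8397129) (nat_lit 62084) (nat_lit 10305430352) (nat_lit 0) (nat_lit 0),Row.mk (nat_lit 26376) (nat_lit 32912) (nat_lit 8397129) (nat_lit 62084) (nat_lit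 12873322465) (nat_lit 0) (nat_lit 0)],
[Row.mk (nat_lit 6552) (nat_lit 60962) (nat_lit 10588) (nat_lit 61149) (nat_lit 54) (nat_lit 0) (nat_lit 0),Row.mk (nat_lit 6720) (nat_lit 60962) (nat_lit 10588) (nat_lit 61149) (nat_lit 53) (nat_lit 0) (nat_lit 0),Row.mk (nat_lit 6888) (nat_lit 60962) (nat_lit 10588) (nat_lit 61149) (nat_lit 53) (nat_lit 0) (nat_lit 0),Row.mk (nat_lit 7056) (nat_lit 60962) (nat_lit 10588) (nat_lit 61149) (nat_lit 53) (nat_lit 0) (nat_lit 0),Row.mk (nat_lit 7224) (nat_lit 60962) (nat_lit 10588) (nat_lit 61149) (nat_lit 53) (nat_lit 0) (nat_lit 0),Row.mk (nat_lit 7392) (nat_lit 60962) (nat_lit 10588) (nat_lit 61149) (nat_lit 53) (nat_lit 0) (nat_lit 0),Row.mk (nat_lit 7560) (nat_lit 60962) (nat_lit 10588) (nat_lit 61149) (nat_lit 53) (nat_lit 0) (nat_lit 0),Row.mk (nat_lit 7728) (nat_lit 60588) (nat_lit 1) (nat_lit 60962) (nat_lit 10588) (nat_lit 61149) (nat_lit 53),Row.mk (nat_lit 7896) (nat_lit 60588) (nat_lit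 1) (nat_lit 60962) (nat_lit 10588) (nat_lit 61149) (nat_lit 52),Row.mk (nat_lit 8064) (nat_lit 60588) (nat_lit 1) (nat_lit 60962) (nat_lit 10588) (nat_lit 61149) (nat_lit 52),Row.mk (nat_lit 8232) (nat_lit 60588) (nat_lit 2) (nat_lit 60962) (nat_lit 10588) (nat_lit 61149) (nat_lit 52),Row.mk (nat_lit 8400) (nat_lit 60588) (nat_lit 3) (nat_lit 60962) (nat_lit 10588) (nat_lit 61149) (nat_lit 51),Row.mk (nat_lit 8568) (nat_lit 60588) (nat_lit 3) (nat_lit 60962) (nat_lit 10588) (nat_lit 61149) (nat_lit 51),Row.mk (nat_lit 8736) (nat_lit 60588) (nat_lit 4) (nat_lit 60962) (nat_lit 10588) (nat_lit 61149) (nat_lit 50),Row.mk (nat_lit 8904) (nat_lit 60588) (nat_lit 5) (nat_lit 60962) (nat_lit 10588) (nat_lit 61149) (nat_lit 49),Row.mk (nat_lit 9072) (nat_lit 60588) (nat_lit 7) (nat_lit 60962) (nat_lit 10588) (nat_lit 61149) (nat_lit 48),Row.mk (nat_lit 9240) (nat_lit 60588) (nat_lit 9) (nat_lit 60962) (nat_lit 10588) (nat_lit 61149) (nat_lit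 46),Row.mk (nat_lit 9408) (nat_lit 60588) (nat_lit 11) (nat_lit 60962) (nat_lit 10588) (nat_lit 61149) (nat_lit 45),Row.mk (nat_lit 9576) (nat_lit 60588) (nat_lit 14) (nat_lit 60962) (nat_lit 10588) (nat_lit 61149) (nat_lit 42),Row.mk (nat_lit 9744) (nat_lit 60588) (nat_lit 17) (nat_lit 60962) (nat_lit 10588) (nat_lit 61149) (nat_lit 39),Row.mk (nat_lit 9912) (nat_lit 60588) (nat_lit 22) (nat_lit 60962) (nat_lit 10588) (nat_lit 61149) (nat_lit 36),Row.mk (nat_lit 10080) (nat_lit 60588) (nat_lit 27) (nat_lit 60962) (nat_lit 10588) (nat_lit 61149) (nat_lit 31),Row.mk (nat_lit 10248) (nat_lit 60588) (nat_lit 34) (nat_lit 60962) (nat_lit 10588) (nat_lit 61149) (nat_lit 26),Row.mk (nat_lit 10416) (nat_lit 60588) (nat_lit 43) (nat_lit 60962) (nat_lit 10588) (nat_lit 61149) (nat_lit 19),Row.mk (nat_lit 10584) (nat_lit 60588) (nat_lit 54) (nat_lit 60962) (nat_lit 10588) (nat_lit 61149) (nat_lit 10),Row.mk (nat_lit 10752) (nat_lit 60588) (nat_lit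 67) (nat_lit 60962) (nat_lit 10588) (nat_lit 0) (nat_lit 0),Row.mk (nat_lit 10920) (nat_lit 60401) (nat_lit 16) (nat_lit 60588) (nat_lit 67) (nat_lit 60962) (nat_lit 10575),Row.mk (nat_lit 11088) (nat_lit 60401) (nat_lit 37) (nat_lit 60588) (nat_lit 67) (nat_lit 60962) (nat_lit 10558),Row.mk (nat_lit 11256) (nat_lit 60401) (nat_lit 64) (nat_lit 60588) (nat_lit 67) (nat_lit 60962) (nat_lit 10537),Row.mk (nat_lit 11424) (nat_lit 60401) (nat_lit 97) (nat_lit 60588) (nat_lit 67) (nat_lit 60962) (nat_lit 10511),Row.mk (nat_lit 11592) (nat_lit 60401) (nat_lit 138) (nat_lit 60588) (nat_lit 67) (nat_lit 60962) (nat_lit 10478),Row.mk (nat_lit 11760) (nat_lit 60401) (nat_lit 189) (nat_lit 60588) (nat_lit 67) (nat_lit 60962) (nat_lit 10437),Row.mk (nat_lit 11928) (nat_lit 60401) (nat_lit 253) (nat_lit 60588) (nat_lit 67) (nat_lit 60962) (nat_lit 10386),Row.mk (nat_lit 12096) (nat_lit 60401) (nat_lit 333) (nat_lit 60588) (nat_lit 67) (nat_lit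 60962) (nat_lit 10322),Row.mk (nat_lit 12264) (nat_lit 60401) (nat_lit 433) (nat_lit 60588) (nat_lit 67) (nat_lit 60962) (nat_lit 10242),Row.mk (nat_lit 12432) (nat_lit 60401) (nat_lit 557) (nat_lit 60588) (nat_lit 66) (nat_lit 60962) (nat_lit 10142),Row.mk (nat_lit 12600) (nat_lit 60401) (nat_lit 713) (nat_lit 60588) (nat_lit 66) (nat_lit 60962) (nat_lit 10018),Row.mk (nat_lit 12768) (nat_lit 60401) (nat_lit 908) (nat_lit 60588) (nat_lit 66) (nat_lit 60962) (nat_lit 9862),Row.mk (nat_lit 12936) (nat_lit 60401) (nat_lit 1151) (nat_lit 60588) (nat_lit 66) (nat_lit 60962) (nat_lit 9668),Row.mk (nat_lit 13104) (nat_lit 60401) (nat_lit 1454) (nat_lit 60588) (nat_lit 65) (nat_lit 60962) (nat_lit 9425),Row.mk (nat_lit 13272) (nat_lit 60401) (nat_lit 1834) (nat_lit 60588) (nat_lit 65) (nat_lit 60962) (nat_lit 9122),Row.mk (nat_lit 13440) (nat_lit 60401) (nat_lit 2307) (nat_lit 60588) (nat_lit 64) (nat_lit 60962) (nat_lit 8744),Row.mk (nat_lit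 13608) (nat_lit 60401) (nat_lit 2898) (nat_lit 60588) (nat_lit 63) (nat_lit 60962) (nat_lit 8271),Row.mk (nat_lit 13776) (nat_lit 60401) (nat_lit 3637) (nat_lit 60588) (nat_lit 63) (nat_lit 60962) (nat_lit 7681),Row.mk (nat_lit 13944) (nat_lit 60401) (nat_lit 4560) (nat_lit 60588) (nat_lit 61) (nat_lit 60962) (nat_lit 6943),Row.mk (nat_lit 14112) (nat_lit 60401) (nat_lit 5712) (nat_lit 60588) (nat_lit 60) (nat_lit 60962) (nat_lit 6022),Row.mk (nat_lit 14280) (nat_lit 60401) (nat_lit 7151) (nat_lit 60588) (nat_lit 58) (nat_lit 60962) (nat_lit 4872),Row.mk (nat_lit 14448) (nat_lit 60401) (nat_lit 8948) (nat_lit 60588) (nat_lit 56) (nat_lit 60962) (nat_lit 3435),Row.mk (nat_lit 14616) (nat_lit 60401) (nat_lit 11193) (nat_lit 60588) (nat_lit 53) (nat_lit 60962) (nat_lit 1641),Row.mk (nat_lit 14784) (nat_lit 59840) (nat_lit 687) (nat_lit 60027) (nat_lit 62) (nat_lit 60401) (nat_lit 12697),Row.mk (nat_lit 14952) (nat_lit 59840) (nat_lit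 4189) (nat_lit 60027) (nat_lit 56) (nat_lit 60401) (nat_lit 9898),Row.mk (nat_lit 15120) (nat_lit 59840) (nat_lit 8563) (nat_lit 60027) (nat_lit 49) (nat_lit 60401) (nat_lit 6403),Row.mk (nat_lit 15288) (nat_lit 59840) (nat_lit 14025) (nat_lit 60027) (nat_lit 41) (nat_lit 60401) (nat_lit 2038),Row.mk (nat_lit 15456) (nat_lit 59279) (nat_lit 4224) (nat_lit 59466) (nat_lit 37) (nat_lit 59840) (nat_lit 13203),Row.mk (nat_lit 15624) (nat_lit 59279) (nat_lit 12746) (nat_lit 59466) (nat_lit 21) (nat_lit 59840) (nat_lit 6397),Row.mk (nat_lit 15792) (nat_lit 58718) (nat_lit 2626) (nat_lit 59279) (nat_lit 18659) (nat_lit 0) (nat_lit 0),Row.mk (nat_lit 15960) (nat_lit 58718) (nat_lit 15886) (nat_lit 59092) (nat_lit 32) (nat_lit 59279) (nat_lit 8016),Row.mk (nat_lit 16128) (nat_lit 58157) (nat_lit 6498) (nat_lit 58531) (nat_lit 92) (nat_lit 58718) (nat_lit 20655),Row.mk (nat_lit 16296) (nat_lit 58157) (nat_lit 27170) (nat_lit 58531) (nat_lit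 156) (nat_lit 58718) (nat_lit 4052),Row.mk (nat_lit 16464) (nat_lit 57596) (nat_lit 20542) (nat_lit 57970) (nat_lit 295) (nat_lit 58157) (nat_lit 15704),Row.mk (nat_lit 16632) (nat_lit 57035) (nat_lit 12208) (nat_lit 57409) (nat_lit 524) (nat_lit 57596) (nat_lit 30257),Row.mk (nat_lit 16800) (nat_lit 56474) (nat_lit 1711) (nat_lit 56848) (nat_lit 897) (nat_lit 57035) (nat_lit 48434),Row.mk (nat_lit 16968) (nat_lit 56474) (nat_lit 51867) (nat_lit 56848) (nat_lit 1201) (nat_lit 57035) (nat_lit 8033),Row.mk (nat_lit 17136) (nat_lit 55913) (nat_lit 51015) (nat_lit 56287) (nat_lit 1974) (nat_lit 56474) (nat_lit 20676),Row.mk (nat_lit 17304) (nat_lit 55352) (nat_lit 49685) (nat_lit 55726) (nat_lit 3204) (nat_lit 55913) (nat_lit 36467),Row.mk (nat_lit 17472) (nat_lit 54791) (nat_lit 47610) (nat_lit 55165) (nat_lit 5154) (nat_lit 55352) (nat_lit 56190),Row.mk (nat_lit 17640) (nat_lit 54230) (nat_lit 44374) (nat_lit 54604) (nat_lit 8234) (nat_lit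 54791) (nat_lit 80823),Row.mk (nat_lit 17808) (nat_lit 53669) (nat_lit 39325) (nat_lit 54043) (nat_lit 13088) (nat_lit 54230) (nat_lit 111590),Row.mk (nat_lit 17976) (nat_lit 53108) (nat_lit 31450) (nat_lit 53482) (nat_lit 20721) (nat_lit 53669) (nat_lit 150016),Row.mk (nat_lit 18144) (nat_lit 52547) (nat_lit 19164) (nat_lit 52921) (nat_lit 32703) (nat_lit 53108) (nat_lit 198010),Row.mk (nat_lit 18312) (nat_lit 52360) (nat_lit 51488) (nat_lit 52547) (nat_lit 257953) (nat_lit 0) (nat_lit 0),Row.mk (nat_lit 18480) (nat_lit 51799) (nat_lit 51015) (nat_lit 51986) (nat_lit 308884) (nat_lit 52360) (nat_lit 23936),Row.mk (nat_lit 18648) (nat_lit 51238) (nat_lit 50424) (nat_lit 51425) (nat_lit 365052) (nat_lit 51799) (nat_lit 61274),Row.mk (nat_lit 18816) (nat_lit 50677) (nat_lit 49685) (nat_lit 50864) (nat_lit 423594) (nat_lit 51238) (nat_lit 119521),Row.mk (nat_lit 18984) (nat_lit 50116) (nat_lit 48762) (nat_lit 50303) (nat_lit 478599)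 (nat_lit 50677) (nat_lit 210382),Row.mk (nat_lit 19152) (nat_lit 49555) (nat_lit 47610) (nat_lit 49742) (nat_lit 519045) (nat_lit 50116) (nat_lit 352120),Row.mk (nat_lit 19320) (nat_lit 48994) (nat_lit 46171) (nat_lit 49181) (nat_lit 525484) (nat_lit 49555) (nat_lit 573222),Row.mk (nat_lit 19488) (nat_lit 48433) (nat_lit 44374) (nat_lit 48620) (nat_lit 464772) (nat_lit 48994) (nat_lit 918129),Row.mk (nat_lit 19656) (nat_lit 47685) (nat_lit 42129) (nat_lit 47872) (nat_lit 281691) (nat_lit 48433) (nat_lit 1456163),Row.mk (nat_lit 19824) (nat_lit 47498) (nat_lit 39325) (nat_lit 47685) (nat_lit 2121166) (nat_lit 48246) (nat_lit 60015),Row.mk (nat_lit 19992) (nat_lit 46563) (nat_lit 35823) (nat_lit 46750) (nat_lit 2067126) (nat_lit 47498) (nat_lit 667759),Row.mk (nat_lit 20160) (nat_lit 45628) (nat_lit 31450) (nat_lit 45815) (nat_lit 1673658) (nat_lit 46563) (nat_lit 1752791),Row.mk (nat_lit 20328) (nat_lit 44506) (nat_lit 25987) (nat_lit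 44693) (nat_lit 673726) (nat_lit 45628) (nat_lit 3616470),Row.mk (nat_lit 20496) (nat_lit 44319) (nat_lit 19164) (nat_lit 44506) (nat_lit 4288724) (nat_lit 45441) (nat_lit 1080270),Row.mk (nat_lit 20664) (nat_lit 43010) (nat_lit 10643) (nat_lit 43197) (nat_lit 2596446) (nat_lit 44319) (nat_lit 4119942),Row.mk (nat_lit 20832) (nat_lit 43010) (nat_lit 7548440) (nat_lit 44132) (nat_lit 850810) (nat_lit 0) (nat_lit 0),Row.mk (nat_lit 21000) (nat_lit 41327) (nat_lit 4037010) (nat_lit 42823) (nat_lit 6440158) (nat_lit 43010) (nat_lit 10643),Row.mk (nat_lit 21168) (nat_lit 41140) (nat_lit 10406352) (nat_lit 42636) (nat_lit 2666086) (nat_lit 42823) (nat_lit 23936),Row.mk (nat_lit 21336) (nat_lit 38896) (nat_lit 2506820) (nat_lit 40953) (nat_lit 13807046) (nat_lit 41140) (nat_lit 40538),Row.mk (nat_lit 21504) (nat_lit 38709) (nat_lit 9834055) (nat_lit 40766) (nat_lit 10528278) (nat_lit 40953) (nat_lit 61274),Row.mk (nat_lit 21672) (nat_lit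 38522) (nat_lit 18985593) (nat_lit 40579) (nat_lit 6433176) (nat_lit 40766) (nat_lit 87174),Row.mk (nat_lit 21840) (nat_lit 38335) (nat_lit 30415644) (nat_lit 40392) (nat_lit 1318493) (nat_lit 40579) (nat_lit 119521),Row.mk (nat_lit 22008) (nat_lit 31603) (nat_lit 6132097) (nat_lit 38148) (nat_lit 33489782) (nat_lit 38335) (nat_lit 159922),Row.mk (nat_lit 22176) (nat_lit 31416) (nat_lit 16034156) (nat_lit 37961) (nat_lit 33439323) (nat_lit 38148) (nat_lit 210382),Row.mk (nat_lit 22344) (nat_lit 31229) (nat_lit 28401589) (nat_lit 37774) (nat_lit 33376299) (nat_lit 37961) (nat_lit 273405),Row.mk (nat_lit 22512) (nat_lit 31042) (nat_lit 43848215) (nat_lit 37587) (nat_lit 33297585) (nat_lit 37774) (nat_lit 352120),Row.mk (nat_lit 22680) (nat_lit 30855) (nat_lit 63140677) (nat_lit 37400) (nat_lit 33199272) (nat_lit 37587) (nat_lit 450432),Row.mk (nat_lit 22848) (nat_lit 30668) (nat_lit 87236498) (nat_lit 37213) (nat_lit 33076482) (nat_lit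 37400) (nat_lit 573222),Row.mk (nat_lit 23016) (nat_lit 30481) (nat_lit 117331597) (nat_lit 37026) (nat_lit 32923121) (nat_lit 37213) (nat_lit 726584),Row.mk (nat_lit 23184) (nat_lit 30294) (nat_lit 154919649) (nat_lit 36839) (nat_lit 32731575) (nat_lit 37026) (nat_lit 918129),Row.mk (nat_lit 23352) (nat_lit 30107) (nat_lit 201866219) (nat_lit 36652) (nat_lit 32492340) (nat_lit 36839) (nat_lit 1157364),Row.mk (nat_lit 23520) (nat_lit 29920) (nat_lit 260501353) (nat_lit 36465) (nat_lit 32193541) (nat_lit 36652) (nat_lit 1456163),Row.mk (nat_lit 23688) (nat_lit 29733) (nat_lit 333735221) (nat_lit 36278) (nat_lit 31820348) (nat_lit 36465) (nat_lit 1829356),Row.mk (nat_lit 23856) (nat_lit 29546) (nat_lit 425202555) (nat_lit 36091) (nat_lit 31354240) (nat_lit 36278) (nat_lit 2295465),Row.mk (nat_lit 24024) (nat_lit 29359) (nat_lit 539443049) (nat_lit 35904) (nat_lit 30772081) (nat_lit 36091) (nat_lit 2877623),Row.mk (nat_lit 24192) (nat_lit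 29172) (nat_lit 682126670) (nat_lit 35717) (nat_lit 30044979) (nat_lit 35904) (nat_lit 3604725),Row.mk (nat_lit 24360) (nat_lit 28985) (nat_lit 860335070) (nat_lit 35530) (nat_lit 29136846) (nat_lit 35717) (nat_lit 4512858),Row.mk (nat_lit 24528) (nat_lit 28798) (nat_lit 1082913063) (nat_lit 35343) (nat_lit 28002610) (nat_lit 35530) (nat_lit 5647094),Row.mk (nat_lit 24696) (nat_lit 28611) (nat_lit 1360907607) (nat_lit 35156) (nat_lit 26585977) (nat_lit 35343) (nat_lit 7063728),Row.mk (nat_lit 24864) (nat_lit 28424) (nat_lit 1708116086) (nat_lit 34969) (nat_lit 24816636) (nat_lit 35156) (nat_lit 8833069),Row.mk (nat_lit 25032) (nat_lit 28237) (nat_lit 2141771100) (nat_lit 34782) (nat_lit 22606771) (nat_lit 34969) (nat_lit 11042933),Row.mk (nat_lit 25200) (nat_lit 28050) (nat_lit 2683395752) (nat_lit 34595) (nat_lit 19846704) (nat_lit 34782) (nat_lit 13803000),Row.mk (nat_lit 25368) (nat_lit 27863) (nat_lit 3359871875) (nat_lit 34408)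 (nat_lit 16399447) (nat_lit 34595) (nat_lit 17250257),Row.mk (nat_lit 25536) (nat_lit 27676) (nat_lit 4204774234) (nat_lit 34221) (nat_lit 12093906) (nat_lit 34408) (nat_lit 21555799),Row.mk (nat_lit 25704) (nat_lit 27489) (nat_lit 5260036899) (nat_lit 34034) (nat_lit 6716389) (nat_lit 34221) (nat_lit 26933316),Row.mk (nat_lit 25872) (nat_lit 27302) (nat_lit 6578034510) (nat_lit 34034) (nat_lit 33649705) (nat_lit 0) (nat_lit 0),Row.mk (nat_lit 26040) (nat_lit 32912) (nat_lit 8399251) (nat_lit 62084) (nat_lit 8249432185) (nat_lit 0) (nat_lit 0),Row.mk (nat_lit 26208) (nat_lit 32912) (nat_lit 8399251) (nat_lit 62084) (nat_lit 10305430352) (nat_lit 0) (nat_lit 0),Row.mk (nat_lit 26376) (nat_lit 32912) (nat_lit 8399251) (nat_lit 62084) (nat_lit 12873322465) (nat_lit 0) (nat_lit 0)],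
[Row.mk (nat_lit 6384) (nat_lit 60401) (nat_lit 13208) (nat_lit 60588) (nat_lit 84) (nat_lit 0) (nat_lit 0),Row.mk (nat_lit 6552) (nat_lit 60401) (nat_lit 13208) (nat_lit 60588) (nat_lit 84) (nat_lit 0) (nat_lit 0),Row.mk (nat_lit 6720) (nat_lit 60401) (nat_lit 13208) (nat_lit 60588) (nat_lit 84) (nat_lit 0) (nat_lit 0),Row.mk (nat_lit 6888) (nat_lit 60401) (nat_lit 13208) (nat_lit 60588) (nat_lit 84) (nat_lit 0) (nat_lit 0),Row.mk (nat_lit 7056) (nat_lit 60401) (nat_lit 13208) (nat_lit 60588) (nat_lit 84) (nat_lit 0) (nat_lit 0),Row.mk (nat_lit 7224) (nat_lit 60401) (nat_lit 13208) (nat_lit 60588) (nat_lit 84) (nat_lit 0) (nat_lit 0),Row.mk (nat_lit 7392) (nat_lit 60401) (nat_lit 13208) (nat_lit 60588) (nat_lit 83) (nat_lit 0) (nat_lit 0),Row.mk (nat_lit 7560) (nat_lit 60401) (nat_lit 13208) (nat_lit 60588) (nat_lit 83) (nat_lit 0) (nat_lit 0),Row.mk (nat_lit 7728) (nat_lit 60027) (nat_lit 1) (nat_lit 60401) (nat_lit 13208) (nat_lit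 60588) (nat_lit 83),Row.mk (nat_lit 7896) (nat_lit 60027) (nat_lit 1) (nat_lit 60401) (nat_lit 13208) (nat_lit 60588) (nat_lit 83),Row.mk (nat_lit 8064) (nat_lit 60027) (nat_lit 1) (nat_lit 60401) (nat_lit 13208) (nat_lit 60588) (nat_lit 83),Row.mk (nat_lit 8232) (nat_lit 60027) (nat_lit 2) (nat_lit 60401) (nat_lit 13208) (nat_lit 60588) (nat_lit 82),Row.mk (nat_lit 8400) (nat_lit 60027) (nat_lit 3) (nat_lit 60401) (nat_lit 13208) (nat_lit 60588) (nat_lit 82),Row.mk (nat_lit 8568) (nat_lit 60027) (nat_lit 3) (nat_lit 60401) (nat_lit 13208) (nat_lit 60588) (nat_lit 81),Row.mk (nat_lit 8736) (nat_lit 60027) (nat_lit 4) (nat_lit 60401) (nat_lit 13208) (nat_lit 60588) (nat_lit 80),Row.mk (nat_lit 8904) (nat_lit 60027) (nat_lit 5) (nat_lit 60401) (nat_lit 13208) (nat_lit 60588) (nat_lit 79),Row.mk (nat_lit 9072) (nat_lit 60027) (nat_lit 7) (nat_lit 60401) (nat_lit 13208) (nat_lit 60588) (nat_lit 78),Row.mk (nat_lit 9240) (nat_lit 60027)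 (nat_lit 9) (nat_lit 60401) (nat_lit 13208) (nat_lit 60588) (nat_lit 77),Row.mk (nat_lit 9408) (nat_lit 60027) (nat_lit 11) (nat_lit 60401) (nat_lit 13208) (nat_lit 60588) (nat_lit 75),Row.mk (nat_lit 9576) (nat_lit 60027) (nat_lit 14) (nat_lit 60401) (nat_lit 13208) (nat_lit 60588) (nat_lit 73),Row.mk (nat_lit 9744) (nat_lit 60027) (nat_lit 17) (nat_lit 60401) (nat_lit 13208) (nat_lit 60588) (nat_lit 70),Row.mk (nat_lit 9912) (nat_lit 60027) (nat_lit 22) (nat_lit 60401) (nat_lit 13208) (nat_lit 60588) (nat_lit 66),Row.mk (nat_lit 10080) (nat_lit 60027) (nat_lit 27) (nat_lit 60401) (nat_lit 13208) (nat_lit 60588) (nat_lit 62),Row.mk (nat_lit 10248) (nat_lit 60027) (nat_lit 34) (nat_lit 60401) (nat_lit 13208) (nat_lit 60588) (nat_lit 56),Row.mk (nat_lit 10416) (nat_lit 60027) (nat_lit 43) (nat_lit 60401) (nat_lit 13208) (nat_lit 60588) (nat_lit 49),Row.mk (nat_lit 10584) (nat_lit 60027) (nat_lit 54) (nat_lit 60401) (nat_lit 13208)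 (nat_lit 60588) (nat_lit 41),Row.mk (nat_lit 10752) (nat_lit 60027) (nat_lit 67) (nat_lit 60401) (nat_lit 13208) (nat_lit 60588) (nat_lit 30),Row.mk (nat_lit 10920) (nat_lit 60027) (nat_lit 84) (nat_lit 60401) (nat_lit 13208) (nat_lit 60588) (nat_lit 16),Row.mk (nat_lit 11088) (nat_lit 60027) (nat_lit 105) (nat_lit 60401) (nat_lit 13208) (nat_lit 0) (nat_lit 0),Row.mk (nat_lit 11256) (nat_lit 59840) (nat_lit 26) (nat_lit 60027) (nat_lit 105) (nat_lit 60401) (nat_lit 13187),Row.mk (nat_lit 11424) (nat_lit 59840) (nat_lit 59) (nat_lit 60027) (nat_lit 105) (nat_lit 60401) (nat_lit 13161),Row.mk (nat_lit 11592) (nat_lit 59840) (nat_lit 100) (nat_lit 60027) (nat_lit 105) (nat_lit 60401) (nat_lit 13128),Row.mk (nat_lit 11760) (nat_lit 59840) (nat_lit 151) (nat_lit 60027) (nat_lit 105) (nat_lit 60401) (nat_lit 13087),Row.mk (nat_lit 11928) (nat_lit 59840) (nat_lit 215) (nat_lit 60027) (nat_lit 105) (nat_lit 60401) (nat_lit 13036),Row.mk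 (nat_lit 12096) (nat_lit 59840) (nat_lit 295) (nat_lit 60027) (nat_lit 105) (nat_lit 60401) (nat_lit 12972),Row.mk (nat_lit 12264) (nat_lit 59840) (nat_lit 395) (nat_lit 60027) (nat_lit 104) (nat_lit 60401) (nat_lit 12892),Row.mk (nat_lit 12432) (nat_lit 59840) (nat_lit 520) (nat_lit 60027) (nat_lit 104) (nat_lit 60401) (nat_lit 12792),Row.mk (nat_lit 12600) (nat_lit 59840) (nat_lit 675) (nat_lit 60027) (nat_lit 104) (nat_lit 60401) (nat_lit 12668),Row.mk (nat_lit 12768) (nat_lit 59840) (nat_lit 870) (nat_lit 60027) (nat_lit 104) (nat_lit 60401) (nat_lit 12513),Row.mk (nat_lit 12936) (nat_lit 59840) (nat_lit 1113) (nat_lit 60027) (nat_lit 103) (nat_lit 60401) (nat_lit 12318),Row.mk (nat_lit 13104) (nat_lit 59840) (nat_lit 1416) (nat_lit 60027) (nat_lit 103) (nat_lit 60401) (nat_lit 12076),Row.mk (nat_lit 13272) (nat_lit 59840) (nat_lit 1796) (nat_lit 60027) (nat_lit 102) (nat_lit 60401) (nat_lit 11773),Row.mk (nat_lit 13440) (nat_lit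 59840) (nat_lit 2269) (nat_lit 60027) (nat_lit 101) (nat_lit 60401) (nat_lit 11394),Row.mk (nat_lit 13608) (nat_lit 59840) (nat_lit 2860) (nat_lit 60027) (nat_lit 100) (nat_lit 60401) (nat_lit 10922),Row.mk (nat_lit 13776) (nat_lit 59840) (nat_lit 3599) (nat_lit 60027) (nat_lit 99) (nat_lit 60401) (nat_lit 10332),Row.mk (nat_lit 13944) (nat_lit 59840) (nat_lit 4522) (nat_lit 60027) (nat_lit 98) (nat_lit 60401) (nat_lit 9595),Row.mk (nat_lit 14112) (nat_lit 59840) (nat_lit 5674) (nat_lit 60027) (nat_lit 96) (nat_lit 60401) (nat_lit 8674),Row.mk (nat_lit 14280) (nat_lit 59840) (nat_lit 7113) (nat_lit 60027) (nat_lit 94) (nat_lit 60401) (nat_lit 7524),Row.mk (nat_lit 14448) (nat_lit 59840) (nat_lit 8910) (nat_lit 60027) (nat_lit 91) (nat_lit 60401) (nat_lit 6088),Row.mk (nat_lit 14616) (nat_lit 59840) (nat_lit 11155) (nat_lit 60027) (nat_lit 87) (nat_lit 60401) (nat_lit 4294),Row.mk (nat_lit 14784) (nat_lit 59840) (nat_lit 13959) (nat_lit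 60027) (nat_lit 83) (nat_lit 60401) (nat_lit 2054),Row.mk (nat_lit 14952) (nat_lit 59279) (nat_lit 832) (nat_lit 59466) (nat_lit 97) (nat_lit 59840) (nat_lit 15865),Row.mk (nat_lit 15120) (nat_lit 59279) (nat_lit 5206) (nat_lit 59466) (nat_lit 88) (nat_lit 59840) (nat_lit 12372),Row.mk (nat_lit 15288) (nat_lit 59279) (nat_lit 10668) (nat_lit 59466) (nat_lit 77) (nat_lit 59840) (nat_lit 8009),Row.mk (nat_lit 15456) (nat_lit 59279) (nat_lit 17491) (nat_lit 59466) (nat_lit 64) (nat_lit 59840) (nat_lit 2560),Row.mk (nat_lit 15624) (nat_lit 58718) (nat_lit 5243) (nat_lit 58905) (nat_lit 59) (nat_lit 59279) (nat_lit 16511),Row.mk (nat_lit 15792) (nat_lit 58718) (nat_lit 15886) (nat_lit 58905) (nat_lit 32) (nat_lit 59279) (nat_lit 8016),Row.mk (nat_lit 15960) (nat_lit 58157) (nat_lit 3239) (nat_lit 58718) (nat_lit 23346) (nat_lit 0) (nat_lit 0),Row.mk (nat_lit 16128) (nat_lit 58157) (nat_lit 19791) (nat_lit 58531) (nat_lit 51) (nat_lit 58718)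 (nat_lit 10053),Row.mk (nat_lit 16296) (nat_lit 57596) (nat_lit 8036) (nat_lit 57970) (nat_lit 143) (nat_lit 58157) (nat_lit 25849),Row.mk (nat_lit 16464) (nat_lit 57596) (nat_lit 33835) (nat_lit 57970) (nat_lit 243) (nat_lit 58157) (nat_lit 5112),Row.mk (nat_lit 16632) (nat_lit 57035) (nat_lit 25501) (nat_lit 57409) (nat_lit 460) (nat_lit 57596) (nat_lit 19678),Row.mk (nat_lit 16800) (nat_lit 56474) (nat_lit 15004) (nat_lit 56848) (nat_lit 817) (nat_lit 57035) (nat_lit 37871),Row.mk (nat_lit 16968) (nat_lit 55913) (nat_lit 1758) (nat_lit 56287) (nat_lit 1400) (nat_lit 56474) (nat_lit 60593),Row.mk (nat_lit 17136) (nat_lit 55913) (nat_lit 64308) (nat_lit 56287) (nat_lit 1874) (nat_lit 56474) (nat_lit 10133),Row.mk (nat_lit 17304) (nat_lit 55352) (nat_lit 62978) (nat_lit 55726) (nat_lit 3079) (nat_lit 55913) (nat_lit 25949),Row.mk (nat_lit 17472) (nat_lit 54791) (nat_lit 60903) (nat_lit 55165) (nat_lit 4998) (nat_lit 55352) (nat_lit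 45703),Row.mk (nat_lit 17640) (nat_lit 54230) (nat_lit 57667) (nat_lit 54604) (nat_lit 8040) (nat_lit 54791) (nat_lit 70375),Row.mk (nat_lit 17808) (nat_lit 53669) (nat_lit 52618) (nat_lit 54043) (nat_lit 12845) (nat_lit 54230) (nat_lit 101190),Row.mk (nat_lit 17976) (nat_lit 53108) (nat_lit 44743) (nat_lit 53482) (nat_lit 20417) (nat_lit 53669) (nat_lit 139677),Row.mk (nat_lit 18144) (nat_lit 52547) (nat_lit 32457) (nat_lit 52921) (nat_lit 32324) (nat_lit 53108) (nat_lit 187746),Row.mk (nat_lit 18312) (nat_lit 51986) (nat_lit 13292) (nat_lit 52360) (nat_lit 51015) (nat_lit 52547) (nat_lit 247783),Row.mk (nat_lit 18480) (nat_lit 51799) (nat_lit 63717) (nat_lit 51986) (nat_lit 309475) (nat_lit 52360) (nat_lit 13292),Row.mk (nat_lit 18648) (nat_lit 51238) (nat_lit 62978) (nat_lit 51425) (nat_lit 365791) (nat_lit 51799) (nat_lit 50631),Row.mk (nat_lit 18816) (nat_lit 50677) (nat_lit 62055) (nat_lit 50864) (nat_lit 424517) (nat_lit 51238)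 (nat_lit 108878),Row.mk (nat_lit 18984) (nat_lit 50116) (nat_lit 60903) (nat_lit 50303) (nat_lit 479752) (nat_lit 50677) (nat_lit 199739),Row.mk (nat_lit 19152) (nat_lit 49555) (nat_lit 59464) (nat_lit 49742) (nat_lit 520484) (nat_lit 50116) (nat_lit 341477),Row.mk (nat_lit 19320) (nat_lit 48994) (nat_lit 57667) (nat_lit 49181) (nat_lit 527282) (nat_lit 49555) (nat_lit 562579),Row.mk (nat_lit 19488) (nat_lit 48433) (nat_lit 55422) (nat_lit 48620) (nat_lit 467017) (nat_lit 48994) (nat_lit 907486),Row.mk (nat_lit 19656) (nat_lit 47685) (nat_lit 52618) (nat_lit 47872) (nat_lit 284494) (nat_lit 48433) (nat_lit 1445520),Row.mk (nat_lit 19824) (nat_lit 47498) (nat_lit 49116) (nat_lit 47685) (nat_lit 2124668) (nat_lit 48246) (nat_lit 49372),Row.mk (nat_lit 19992) (nat_lit 46563) (nat_lit 44743) (nat_lit 46750) (nat_lit 2071500) (nat_lit 47498) (nat_lit 657116),Row.mk (nat_lit 20160) (nat_lit 45628) (nat_lit 39280) (nat_lit 45815) (nat_lit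 1679121) (nat_lit 46563) (nat_lit 1742148),Row.mk (nat_lit 20328) (nat_lit 44506) (nat_lit 32457) (nat_lit 44693) (nat_lit 680548) (nat_lit 45628) (nat_lit 3605827),Row.mk (nat_lit 20496) (nat_lit 44319) (nat_lit 23936) (nat_lit 44506) (nat_lit 4297246) (nat_lit 45441) (nat_lit 1069627),Row.mk (nat_lit 20664) (nat_lit 43010) (nat_lit 13292) (nat_lit 43197) (nat_lit 2607089) (nat_lit 44319) (nat_lit 4109299),Row.mk (nat_lit 20832) (nat_lit 43010) (nat_lit 7561733) (nat_lit 44132) (nat_lit 840167) (nat_lit 0) (nat_lit 0),Row.mk (nat_lit 21000) (nat_lit 41327) (nat_lit 4050303) (nat_lit 42823) (nat_lit 6426865) (nat_lit 43010) (nat_lit 13292),Row.mk (nat_lit 21168) (nat_lit 41140) (nat_lit 10419645) (nat_lit 42636) (nat_lit 2649483) (nat_lit 42823) (nat_lit 29895),Row.mk (nat_lit 21336) (nat_lit 38896) (nat_lit 2520113) (nat_lit 40953) (nat_lit 13786309) (nat_lit 41140) (nat_lit 50631),Row.mk (nat_lit 21504) (nat_lit 38709) (nat_lit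 9847348) (nat_lit 40766) (nat_lit 10502379) (nat_lit 40953) (nat_lit 76530),Row.mk (nat_lit 21672) (nat_lit 38522) (nat_lit 18998886) (nat_lit 40579) (nat_lit 6400829) (nat_lit 40766) (nat_lit 108878),Row.mk (nat_lit 21840) (nat_lit 38335) (nat_lit 30428937) (nat_lit 40392) (nat_lit 1278092) (nat_lit 40579) (nat_lit 149279),Row.mk (nat_lit 22008) (nat_lit 31603) (nat_lit 6145390) (nat_lit 38148) (nat_lit 33439323) (nat_lit 38335) (nat_lit 199739),Row.mk (nat_lit 22176) (nat_lit 31416) (nat_lit 16047449) (nat_lit 37961) (nat_lit 33376299) (nat_lit 38148) (nat_lit 262762),Row.mk (nat_lit 22344) (nat_lit 31229) (nat_lit 28414882) (nat_lit 37774) (nat_lit 33297585) (nat_lit 37961) (nat_lit 341477),Row.mk (nat_lit 22512) (nat_lit 31042) (nat_lit 43861507) (nat_lit 37587) (nat_lit 33199272) (nat_lit 37774) (nat_lit 439789),Row.mk (nat_lit 22680) (nat_lit 30855) (nat_lit 63153970) (nat_lit 37400) (nat_lit 33076482) (nat_lit 37587) (nat_lit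 562579),Row.mk (nat_lit 22848) (nat_lit 30668) (nat_lit 87249791) (nat_lit 37213) (nat_lit 32923121) (nat_lit 37400) (nat_lit 715941),Row.mk (nat_lit 23016) (nat_lit 30481) (nat_lit 117344889) (nat_lit 37026) (nat_lit 32731575) (nat_lit 37213) (nat_lit 907486),Row.mk (nat_lit 23184) (nat_lit 30294) (nat_lit 154932942) (nat_lit 36839) (nat_lit 32492340) (nat_lit 37026) (nat_lit 1146721),Row.mk (nat_lit 23352) (nat_lit 30107) (nat_lit 201879512) (nat_lit 36652) (nat_lit 32193541) (nat_lit 36839) (nat_lit 1445520),Row.mk (nat_lit 23520) (nat_lit 29920) (nat_lit 260514646) (nat_lit 36465) (nat_lit 31820348) (nat_lit 36652) (nat_lit 1818713),Row.mk (nat_lit 23688) (nat_lit 29733) (nat_lit 333748514) (nat_lit 36278) (nat_lit 31354240) (nat_lit 36465) (nat_lit 2284822),Row.mk (nat_lit 23856) (nat_lit 29546) (nat_lit 425215848) (nat_lit 36091) (nat_lit 30772081) (nat_lit 36278) (nat_lit 2866980),Row.mk (nat_lit 24024) (nat_lit 29359) (nat_lit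 539456342) (nat_lit 35904) (nat_lit 30044979) (nat_lit 36091) (nat_lit 3594082),Row.mk (nat_lit 24192) (nat_lit 29172) (nat_lit 682139963) (nat_lit 35717) (nat_lit 29136846) (nat_lit 35904) (nat_lit 4502215),Row.mk (nat_lit 24360) (nat_lit 28985) (nat_lit 860348363) (nat_lit 35530) (nat_lit 28002610) (nat_lit 35717) (nat_lit 5636451),Row.mk (nat_lit 24528) (nat_lit 28798) (nat_lit 1082926356) (nat_lit 35343) (nat_lit 26585977) (nat_lit 35530) (nat_lit 7053085),Row.mk (nat_lit 24696) (nat_lit 28611) (nat_lit 1360920900) (nat_lit 35156) (nat_lit 24816636) (nat_lit 35343) (nat_lit 8822426),Row.mk (nat_lit 24864) (nat_lit 28424) (nat_lit 1708129379) (nat_lit 34969) (nat_lit 22606771) (nat_lit 35156) (nat_lit 11032290),Row.mk (nat_lit 25032) (nat_lit 28237) (nat_lit 2141784393) (nat_lit 34782) (nat_lit 19846704) (nat_lit 34969) (nat_lit 13792357),Row.mk (nat_lit 25200) (nat_lit 28050) (nat_lit 2683409045) (nat_lit 34595) (nat_lit 16399447)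 (nat_lit 34782) (nat_lit 17239614),Row.mk (nat_lit 25368) (nat_lit 27863) (nat_lit 3359885168) (nat_lit 34408) (nat_lit 12093906) (nat_lit 34595) (nat_lit 21545156),Row.mk (nat_lit 25536) (nat_lit 27676) (nat_lit 4204787527) (nat_lit 34221) (nat_lit 6716389) (nat_lit 34408) (nat_lit 26922673),Row.mk (nat_lit 25704) (nat_lit 27489) (nat_lit 5260050192) (nat_lit 34221) (nat_lit 33639062) (nat_lit 0) (nat_lit 0),Row.mk (nat_lit 25872) (nat_lit 27302) (nat_lit 6569659195) (nat_lit 27489) (nat_lit 8388608) (nat_lit 34034) (nat_lit 33639062),Row.mk (nat_lit 26040) (nat_lit 32912) (nat_lit 8401900) (nat_lit 62084) (nat_lit 8249432185) (nat_lit 0) (nat_lit 0),Row.mk (nat_lit 26208) (nat_lit 32912) (nat_lit 8401900) (nat_lit 62084) (nat_lit 10305430352) (nat_lit 0) (nat_lit 0),Row.mk (nat_lit 26376) (nat_lit 32912) (nat_lit 8401900) (nat_lit 62084) (nat_lit 12873322465) (nat_lit 0) (nat_lit 0)],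
[Row.mk (nat_lit 6384) (nat_lit 59840) (nat_lit 16470) (nat_lit 60027) (nat_lit 131) (nat_lit 0) (nat_lit 0),Row.mk (nat_lit 6552) (nat_lit 59840) (nat_lit 16470) (nat_lit 60027) (nat_lit 131) (nat_lit 0) (nat_lit 0),Row.mk (nat_lit 6720) (nat_lit 59840) (nat_lit 16470) (nat_lit 60027) (nat_lit 131) (nat_lit 0) (nat_lit 0),Row.mk (nat_lit 6888) (nat_lit 59840) (nat_lit 16470) (nat_lit 60027) (nat_lit 131) (nat_lit 0) (nat_lit 0),Row.mk (nat_lit 7056) (nat_lit 59840) (nat_lit 16470) (nat_lit 60027) (nat_lit 131) (nat_lit 0) (nat_lit 0),Row.mk (nat_lit 7224) (nat_lit 59840) (nat_lit 16470) (nat_lit 60027) (nat_lit 131) (nat_lit 0) (nat_lit 0),Row.mk (nat_lit 7392) (nat_lit 59840) (nat_lit 16470) (nat_lit 60027) (nat_lit 131) (nat_lit 0) (nat_lit 0),Row.mk (nat_lit 7560) (nat_lit 59840) (nat_lit 16470) (nat_lit 60027) (nat_lit 131) (nat_lit 0) (nat_lit 0),Row.mk (nat_lit 7728) (nat_lit 59466) (nat_lit 1) (nat_lit 59840) (nat_lit 16470)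 (nat_lit 60027) (nat_lit 130),Row.mk (nat_lit 7896) (nat_lit 59466) (nat_lit 1) (nat_lit 59840) (nat_lit 16470) (nat_lit 60027) (nat_lit 130),Row.mk (nat_lit 8064) (nat_lit 59466) (nat_lit 1) (nat_lit 59840) (nat_lit 16470) (nat_lit 60027) (nat_lit 130),Row.mk (nat_lit 8232) (nat_lit 59466) (nat_lit 2) (nat_lit 59840) (nat_lit 16470) (nat_lit 60027) (nat_lit 130),Row.mk (nat_lit 8400) (nat_lit 59466) (nat_lit 3) (nat_lit 59840) (nat_lit 16470) (nat_lit 60027) (nat_lit 129),Row.mk (nat_lit 8568) (nat_lit 59466) (nat_lit 3) (nat_lit 59840) (nat_lit 16470) (nat_lit 60027) (nat_lit 128),Row.mk (nat_lit 8736) (nat_lit 59466) (nat_lit 4) (nat_lit 59840) (nat_lit 16470) (nat_lit 60027) (nat_lit 128),Row.mk (nat_lit 8904) (nat_lit 59466) (nat_lit 5) (nat_lit 59840) (nat_lit 16470) (nat_lit 60027) (nat_lit 127),Row.mk (nat_lit 9072) (nat_lit 59466) (nat_lit 7) (nat_lit 59840) (nat_lit 16470) (nat_lit 60027) (nat_lit 126),Row.mk (nat_lit 9240)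 (nat_lit 59466) (nat_lit 9) (nat_lit 59840) (nat_lit 16470) (nat_lit 60027) (nat_lit 124),Row.mk (nat_lit 9408) (nat_lit 59466) (nat_lit 11) (nat_lit 59840) (nat_lit 16470) (nat_lit 60027) (nat_lit 122),Row.mk (nat_lit 9576) (nat_lit 59466) (nat_lit 14) (nat_lit 59840) (nat_lit 16470) (nat_lit 60027) (nat_lit 120),Row.mk (nat_lit 9744) (nat_lit 59466) (nat_lit 17) (nat_lit 59840) (nat_lit 16470) (nat_lit 60027) (nat_lit 117),Row.mk (nat_lit 9912) (nat_lit 59466) (nat_lit 22) (nat_lit 59840) (nat_lit 16470) (nat_lit 60027) (nat_lit 114),Row.mk (nat_lit 10080) (nat_lit 59466) (nat_lit 27) (nat_lit 59840) (nat_lit 16470) (nat_lit 60027) (nat_lit 109),Row.mk (nat_lit 10248) (nat_lit 59466) (nat_lit 34) (nat_lit 59840) (nat_lit 16470) (nat_lit 60027) (nat_lit 104),Row.mk (nat_lit 10416) (nat_lit 59466) (nat_lit 43) (nat_lit 59840) (nat_lit 16470) (nat_lit 60027) (nat_lit 97),Row.mk (nat_lit 10584) (nat_lit 59466) (nat_lit 54) (nat_lit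 59840) (nat_lit 16470) (nat_lit 60027) (nat_lit 88),Row.mk (nat_lit 10752) (nat_lit 59466) (nat_lit 67) (nat_lit 59840) (nat_lit 16470) (nat_lit 60027) (nat_lit 77),Row.mk (nat_lit 10920) (nat_lit 59466) (nat_lit 84) (nat_lit 59840) (nat_lit 16470) (nat_lit 60027) (nat_lit 64),Row.mk (nat_lit 11088) (nat_lit 59466) (nat_lit 105) (nat_lit 59840) (nat_lit 16470) (nat_lit 60027) (nat_lit 47),Row.mk (nat_lit 11256) (nat_lit 59466) (nat_lit 131) (nat_lit 59840) (nat_lit 16470) (nat_lit 60027) (nat_lit 26),Row.mk (nat_lit 11424) (nat_lit 59466) (nat_lit 164) (nat_lit 59840) (nat_lit 16470) (nat_lit 0) (nat_lit 0),Row.mk (nat_lit 11592) (nat_lit 59279) (nat_lit 41) (nat_lit 59466) (nat_lit 164) (nat_lit 59840) (nat_lit 16438),Row.mk (nat_lit 11760) (nat_lit 59279) (nat_lit 92) (nat_lit 59466) (nat_lit 164) (nat_lit 59840) (nat_lit 16397),Row.mk (nat_lit 11928) (nat_lit 59279) (nat_lit 156) (nat_lit 59466) (nat_lit 164) (nat_lit 59840) (nat_lit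 16346),Row.mk (nat_lit 12096) (nat_lit 59279) (nat_lit 236) (nat_lit 59466) (nat_lit 164) (nat_lit 59840) (nat_lit 16282),Row.mk (nat_lit 12264) (nat_lit 59279) (nat_lit 336) (nat_lit 59466) (nat_lit 163) (nat_lit 59840) (nat_lit 16202),Row.mk (nat_lit 12432) (nat_lit 59279) (nat_lit 460) (nat_lit 59466) (nat_lit 163) (nat_lit 59840) (nat_lit 16102),Row.mk (nat_lit 12600) (nat_lit 59279) (nat_lit 616) (nat_lit 59466) (nat_lit 163) (nat_lit 59840) (nat_lit 15978),Row.mk (nat_lit 12768) (nat_lit 59279) (nat_lit 811) (nat_lit 59466) (nat_lit 162) (nat_lit 59840) (nat_lit 15823),Row.mk (nat_lit 12936) (nat_lit 59279) (nat_lit 1054) (nat_lit 59466) (nat_lit 162) (nat_lit 59840) (nat_lit 15628),Row.mk (nat_lit 13104) (nat_lit 59279) (nat_lit 1357) (nat_lit 59466) (nat_lit 161) (nat_lit 59840) (nat_lit 15386),Row.mk (nat_lit 13272) (nat_lit 59279) (nat_lit 1736) (nat_lit 59466) (nat_lit 161) (nat_lit 59840) (nat_lit 15083),Row.mk (nat_lit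 13440) (nat_lit 59279) (nat_lit 2210) (nat_lit 59466) (nat_lit 160) (nat_lit 59840) (nat_lit 14705),Row.mk (nat_lit 13608) (nat_lit 59279) (nat_lit 2801) (nat_lit 59466) (nat_lit 158) (nat_lit 59840) (nat_lit 14233),Row.mk (nat_lit 13776) (nat_lit 59279) (nat_lit 3540) (nat_lit 59466) (nat_lit 157) (nat_lit 59840) (nat_lit 13643),Row.mk (nat_lit 13944) (nat_lit 59279) (nat_lit 4462) (nat_lit 59466) (nat_lit 155) (nat_lit 59840) (nat_lit 12906),Row.mk (nat_lit 14112) (nat_lit 59279) (nat_lit 5615) (nat_lit 59466) (nat_lit 153) (nat_lit 59840) (nat_lit 11986),Row.mk (nat_lit 14280) (nat_lit 59279) (nat_lit 7054) (nat_lit 59466) (nat_lit 150) (nat_lit 59840) (nat_lit 10836),Row.mk (nat_lit 14448) (nat_lit 59279) (nat_lit 8851) (nat_lit 59466) (nat_lit 146) (nat_lit 59840) (nat_lit 9401),Row.mk (nat_lit 14616) (nat_lit 59279) (nat_lit 11096) (nat_lit 59466) (nat_lit 142) (nat_lit 59840) (nat_lit 7608),Row.mk (nat_lit 14784) (nat_lit 59279)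 (nat_lit 13900) (nat_lit 59466) (nat_lit 137) (nat_lit 59840) (nat_lit 5369),Row.mk (nat_lit 14952) (nat_lit 59279) (nat_lit 17402) (nat_lit 59466) (nat_lit 130) (nat_lit 59840) (nat_lit 2572),Row.mk (nat_lit 15120) (nat_lit 58718) (nat_lit 998) (nat_lit 58905) (nat_lit 151) (nat_lit 59279) (nat_lit 19826),Row.mk (nat_lit 15288) (nat_lit 58718) (nat_lit 6461) (nat_lit 58905) (nat_lit 138) (nat_lit 59279) (nat_lit 15465),Row.mk (nat_lit 15456) (nat_lit 58718) (nat_lit 13283) (nat_lit 58905) (nat_lit 121) (nat_lit 59279) (nat_lit 10020),Row.mk (nat_lit 15624) (nat_lit 58718) (nat_lit 21805) (nat_lit 58905) (nat_lit 100) (nat_lit 59279) (nat_lit 3218),Row.mk (nat_lit 15792) (nat_lit 58157) (nat_lit 6498) (nat_lit 58344) (nat_lit 92) (nat_lit 58718) (nat_lit 20655),Row.mk (nat_lit 15960) (nat_lit 58157) (nat_lit 19791) (nat_lit 58344) (nat_lit 51) (nat_lit 58718) (nat_lit 10053),Row.mk (nat_lit 16128) (nat_lit 57596) (nat_lit 3982) (nat_lit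 58157) (nat_lit 29222) (nat_lit 0) (nat_lit 0),Row.mk (nat_lit 16296) (nat_lit 57596) (nat_lit 24638) (nat_lit 57970) (nat_lit 79) (nat_lit 58157) (nat_lit 12620),Row.mk (nat_lit 16464) (nat_lit 57035) (nat_lit 9912) (nat_lit 57409) (nat_lit 224) (nat_lit 57596) (nat_lit 32364),Row.mk (nat_lit 16632) (nat_lit 57035) (nat_lit 42103) (nat_lit 57409) (nat_lit 380) (nat_lit 57596) (nat_lit 6465),Row.mk (nat_lit 16800) (nat_lit 56474) (nat_lit 31607) (nat_lit 56848) (nat_lit 718) (nat_lit 57035) (nat_lit 24678),Row.mk (nat_lit 16968) (nat_lit 55913) (nat_lit 18361) (nat_lit 56287) (nat_lit 1276) (nat_lit 56474) (nat_lit 47425),Row.mk (nat_lit 17136) (nat_lit 55352) (nat_lit 1605) (nat_lit 55726) (nat_lit 2185) (nat_lit 55913) (nat_lit 75835),Row.mk (nat_lit 17304) (nat_lit 55352) (nat_lit 79581) (nat_lit 55726) (nat_lit 2923) (nat_lit 55913) (nat_lit 12812),Row.mk (nat_lit 17472) (nat_lit 54791) (nat_lit 77506) (nat_lit 55165) (nat_lit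 4803) (nat_lit 55352) (nat_lit 32605),Row.mk (nat_lit 17640) (nat_lit 54230) (nat_lit 74269) (nat_lit 54604) (nat_lit 7797) (nat_lit 54791) (nat_lit 57325),Row.mk (nat_lit 17808) (nat_lit 53669) (nat_lit 69221) (nat_lit 54043) (nat_lit 12542) (nat_lit 54230) (nat_lit 88200),Row.mk (nat_lit 17976) (nat_lit 53108) (nat_lit 61345) (nat_lit 53482) (nat_lit 20038) (nat_lit 53669) (nat_lit 126763),Row.mk (nat_lit 18144) (nat_lit 52547) (nat_lit 49060) (nat_lit 52921) (nat_lit 31850) (nat_lit 53108) (nat_lit 174926),Row.mk (nat_lit 18312) (nat_lit 51986) (nat_lit 29895) (nat_lit 52360) (nat_lit 50424) (nat_lit 52547) (nat_lit 235082),Row.mk (nat_lit 18480) (nat_lit 51799) (nat_lit 79581) (nat_lit 51986) (nat_lit 310214) (nat_lit 0) (nat_lit 0),Row.mk (nat_lit 18648) (nat_lit 51238) (nat_lit 78658) (nat_lit 51425) (nat_lit 366713) (nat_lit 51799) (nat_lit 37338),Row.mk (nat_lit 18816) (nat_lit 50677) (nat_lit 77506) (nat_lit 50864) (nat_lit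 425669) (nat_lit 51238) (nat_lit 95585),Row.mk (nat_lit 18984) (nat_lit 50116) (nat_lit 76067) (nat_lit 50303) (nat_lit 481191) (nat_lit 50677) (nat_lit 186446),Row.mk (nat_lit 19152) (nat_lit 49555) (nat_lit 74269) (nat_lit 49742) (nat_lit 522281) (nat_lit 50116) (nat_lit 328184),Row.mk (nat_lit 19320) (nat_lit 48994) (nat_lit 72024) (nat_lit 49181) (nat_lit 529527) (nat_lit 49555) (nat_lit 549286),Row.mk (nat_lit 19488) (nat_lit 48433) (nat_lit 69221) (nat_lit 48620) (nat_lit 469821) (nat_lit 48994) (nat_lit 894193),Row.mk (nat_lit 19656) (nat_lit 47685) (nat_lit 65719) (nat_lit 47872) (nat_lit 287996) (nat_lit 48433) (nat_lit 1432227),Row.mk (nat_lit 19824) (nat_lit 47498) (nat_lit 61345) (nat_lit 47685) (nat_lit 2129041) (nat_lit 48246) (nat_lit 36079),Row.mk (nat_lit 19992) (nat_lit 46563) (nat_lit 55882) (nat_lit 46750) (nat_lit 2076963) (nat_lit 47498) (nat_lit 643823),Row.mk (nat_lit 20160) (nat_lit 45628) (nat_lit 49060)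 (nat_lit 45815) (nat_lit 1685944) (nat_lit 46563) (nat_lit 1728855),Row.mk (nat_lit 20328) (nat_lit 44506) (nat_lit 40538) (nat_lit 44693) (nat_lit 689070) (nat_lit 45628) (nat_lit 3592534),Row.mk (nat_lit 20496) (nat_lit 44319) (nat_lit 29895) (nat_lit 44506) (nat_lit 4307889) (nat_lit 45441) (nat_lit 1056334),Row.mk (nat_lit 20664) (nat_lit 43010) (nat_lit 16602) (nat_lit 43197) (nat_lit 2620382) (nat_lit 44319) (nat_lit 4096006),Row.mk (nat_lit 20832) (nat_lit 43010) (nat_lit 7578336) (nat_lit 44132) (nat_lit 826874) (nat_lit 0) (nat_lit 0),Row.mk (nat_lit 21000) (nat_lit 41327) (nat_lit 4066905) (nat_lit 42823) (nat_lit 6410263) (nat_lit 43010) (nat_lit 16602),Row.mk (nat_lit 21168) (nat_lit 41140) (nat_lit 10436247) (nat_lit 42636) (nat_lit 2628747) (nat_lit 42823) (nat_lit 37338),Row.mk (nat_lit 21336) (nat_lit 38896) (nat_lit 2536716) (nat_lit 40953) (nat_lit 13760410) (nat_lit 41140) (nat_lit 63237),Row.mk (nat_lit 21504)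 (nat_lit 38709) (nat_lit 9863950) (nat_lit 40766) (nat_lit 10470032) (nat_lit 40953) (nat_lit 95585),Row.mk (nat_lit 21672) (nat_lit 38522) (nat_lit 19015489) (nat_lit 40579) (nat_lit 6360428) (nat_lit 40766) (nat_lit 135986),Row.mk (nat_lit 21840) (nat_lit 38335) (nat_lit 30445540) (nat_lit 40392) (nat_lit 1227632) (nat_lit 40579) (nat_lit 186446),Row.mk (nat_lit 22008) (nat_lit 31603) (nat_lit 6161992) (nat_lit 38148) (nat_lit 33376299) (nat_lit 38335) (nat_lit 249469),Row.mk (nat_lit 22176) (nat_lit 31416) (nat_lit 16064051) (nat_lit 37961) (nat_lit 33297585) (nat_lit 38148) (nat_lit 328184),Row.mk (nat_lit 22344) (nat_lit 31229) (nat_lit 28431484) (nat_lit 37774) (nat_lit 33199272) (nat_lit 37961) (nat_lit 426496),Row.mk (nat_lit 22512) (nat_lit 31042) (nat_lit 43878110) (nat_lit 37587) (nat_lit 33076482) (nat_lit 37774) (nat_lit 549286),Row.mk (nat_lit 22680) (nat_lit 30855) (nat_lit 63170573) (nat_lit 37400) (nat_lit 32923121)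 (nat_lit 37587) (nat_lit 702648),Row.mk (nat_lit 22848) (nat_lit 30668) (nat_lit 87266393) (nat_lit 37213) (nat_lit 32731575) (nat_lit 37400) (nat_lit 894193),Row.mk (nat_lit 23016) (nat_lit 30481) (nat_lit 117361492) (nat_lit 37026) (nat_lit 32492340) (nat_lit 37213) (nat_lit 1133428),Row.mk (nat_lit 23184) (nat_lit 30294) (nat_lit 154949544) (nat_lit 36839) (nat_lit 32193541) (nat_lit 37026) (nat_lit 1432227),Row.mk (nat_lit 23352) (nat_lit 30107) (nat_lit 201896115) (nat_lit 36652) (nat_lit 31820348) (nat_lit 36839) (nat_lit 1805420),Row.mk (nat_lit 23520) (nat_lit 29920) (nat_lit 260531249) (nat_lit 36465) (nat_lit 31354240) (nat_lit 36652) (nat_lit 2271529),Row.mk (nat_lit 23688) (nat_lit 29733) (nat_lit 333765116) (nat_lit 36278) (nat_lit 30772081) (nat_lit 36465) (nat_lit 2853687),Row.mk (nat_lit 23856) (nat_lit 29546) (nat_lit 425232451) (nat_lit 36091) (nat_lit 30044979) (nat_lit 36278) (nat_lit 3580789),Row.mk (nat_lit 24024)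 (nat_lit 29359) (nat_lit 539472944) (nat_lit 35904) (nat_lit 29136846) (nat_lit 36091) (nat_lit 4488922),Row.mk (nat_lit 24192) (nat_lit 29172) (nat_lit 682156565) (nat_lit 35717) (nat_lit 28002610) (nat_lit 35904) (nat_lit 5623158),Row.mk (nat_lit 24360) (nat_lit 28985) (nat_lit 860364966) (nat_lit 35530) (nat_lit 26585977) (nat_lit 35717) (nat_lit 7039792),Row.mk (nat_lit 24528) (nat_lit 28798) (nat_lit 1082942959) (nat_lit 35343) (nat_lit 24816636) (nat_lit 35530) (nat_lit 8809133),Row.mk (nat_lit 24696) (nat_lit 28611) (nat_lit 1360937503) (nat_lit 35156) (nat_lit 22606771) (nat_lit 35343) (nat_lit 11018997),Row.mk (nat_lit 24864) (nat_lit 28424) (nat_lit 1708145982) (nat_lit 34969) (nat_lit 19846704) (nat_lit 35156) (nat_lit 13779064),Row.mk (nat_lit 25032) (nat_lit 28237) (nat_lit 2141800996) (nat_lit 34782) (nat_lit 16399447) (nat_lit 34969) (nat_lit 17226321),Row.mk (nat_lit 25200) (nat_lit 28050) (nat_lit 2683425647) (nat_lit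 34595) (nat_lit 12093906) (nat_lit 34782) (nat_lit 21531863),Row.mk (nat_lit 25368) (nat_lit 27863) (nat_lit 3359901771) (nat_lit 34408) (nat_lit 6716389) (nat_lit 34595) (nat_lit 26909380),Row.mk (nat_lit 25536) (nat_lit 27676) (nat_lit 4204804130) (nat_lit 34408) (nat_lit 33625769) (nat_lit 0) (nat_lit 0),Row.mk (nat_lit 25704) (nat_lit 27489) (nat_lit 5251678186) (nat_lit 27676) (nat_lit 8388608) (nat_lit 34221) (nat_lit 33625769),Row.mk (nat_lit 25872) (nat_lit 27302) (nat_lit 6559198628) (nat_lit 27489) (nat_lit 18865777) (nat_lit 34034) (nat_lit 33625769),Row.mk (nat_lit 26040) (nat_lit 32912) (nat_lit 8405210) (nat_lit 62084) (nat_lit 8249432185) (nat_lit 0) (nat_lit 0),Row.mk (nat_lit 26208) (nat_lit 32912) (nat_lit 8405210) (nat_lit 62084) (nat_lit 10305430352) (nat_lit 0) (nat_lit 0),Row.mk (nat_lit 26376) (nat_lit 32912) (nat_lit 8405210) (nat_lit 62084) (nat_lit 12873322465) (nat_lit 0) (nat_lit 0),Row.mk (nat_lit 26544)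 (nat_lit 32912) (nat_lit 8405210) (nat_lit 62084) (nat_lit 16080557766) (nat_lit 0) (nat_lit 0)],
[Row.mk (nat_lit 6216) (nat_lit 59279) (nat_lit 20530) (nat_lit 59466) (nat_lit 205) (nat_lit 0) (nat_lit 0),Row.mk (nat_lit 6384) (nat_lit 59279) (nat_lit 20530) (nat_lit 59466) (nat_lit 205) (nat_lit 0) (nat_lit 0),Row.mk (nat_lit 6552) (nat_lit 59279) (nat_lit 20530) (nat_lit 59466) (nat_lit 205) (nat_lit 0) (nat_lit 0),Row.mk (nat_lit 6720) (nat_lit 59279) (nat_lit 20530) (nat_lit 59466) (nat_lit 205) (nat_lit 0) (nat_lit 0),Row.mk (nat_lit 6888) (nat_lit 59279) (nat_lit 20530) (nat_lit 59466) (nat_lit 205) (nat_lit 0) (nat_lit 0),Row.mk (nat_lit 7056) (nat_lit 59279) (nat_lit 20530) (nat_lit 59466) (nat_lit 205) (nat_lit 0) (nat_lit 0),Row.mk (nat_lit 7224) (nat_lit 59279) (nat_lit 20530) (nat_lit 59466) (nat_lit 205) (nat_lit 0) (nat_lit 0),Row.mk (nat_lit 7392) (nat_lit 59279) (nat_lit 20530) (nat_lit 59466) (nat_lit 205) (nat_lit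 0) (nat_lit 0),Row.mk (nat_lit 7560) (nat_lit 59279) (nat_lit 20530) (nat_lit 59466) (nat_lit 205) (nat_lit 0) (nat_lit 0),Row.mk (nat_lit 7728) (nat_lit 58905) (nat_lit 1) (nat_lit 59279) (nat_lit 20530) (nat_lit 59466) (nat_lit 204),Row.mk (nat_lit 7896) (nat_lit 58905) (nat_lit 1) (nat_lit 59279) (nat_lit 20530) (nat_lit 59466) (nat_lit 204),Row.mk (nat_lit 8064) (nat_lit 58905) (nat_lit 1) (nat_lit 59279) (nat_lit 20530) (nat_lit 59466) (nat_lit 204),Row.mk (nat_lit 8232) (nat_lit 58905) (nat_lit 2) (nat_lit 59279) (nat_lit 20530) (nat_lit 59466) (nat_lit 203),Row.mk (nat_lit 8400) (nat_lit 58905) (nat_lit 3) (nat_lit 59279) (nat_lit 20530) (nat_lit 59466) (nat_lit 203),Row.mk (nat_lit 8568) (nat_lit 58905) (nat_lit 3) (nat_lit 59279) (nat_lit 20530) (nat_lit 59466) (nat_lit 202),Row.mk (nat_lit 8736) (nat_lit 58905) (nat_lit 4) (nat_lit 59279) (nat_lit 20530) (nat_lit 59466) (nat_lit 202),Row.mk (nat_lit 8904) (nat_lit 58905)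 (nat_lit 5) (nat_lit 59279) (nat_lit 20530) (nat_lit 59466) (nat_lit 201),Row.mk (nat_lit 9072) (nat_lit 58905) (nat_lit 7) (nat_lit 59279) (nat_lit 20530) (nat_lit 59466) (nat_lit 200),Row.mk (nat_lit 9240) (nat_lit 58905) (nat_lit 9) (nat_lit 59279) (nat_lit 20530) (nat_lit 59466) (nat_lit 198),Row.mk (nat_lit 9408) (nat_lit 58905) (nat_lit 11) (nat_lit 59279) (nat_lit 20530) (nat_lit 59466) (nat_lit 196),Row.mk (nat_lit 9576) (nat_lit 58905) (nat_lit 14) (nat_lit 59279) (nat_lit 20530) (nat_lit 59466) (nat_lit 194),Row.mk (nat_lit 9744) (nat_lit 58905) (nat_lit 17) (nat_lit 59279) (nat_lit 20530) (nat_lit 59466) (nat_lit 191),Row.mk (nat_lit 9912) (nat_lit 58905) (nat_lit 22) (nat_lit 59279) (nat_lit 20530) (nat_lit 59466) (nat_lit 188),Row.mk (nat_lit 10080) (nat_lit 58905) (nat_lit 27) (nat_lit 59279) (nat_lit 20530) (nat_lit 59466) (nat_lit 183),Row.mk (nat_lit 10248) (nat_lit 58905) (nat_lit 34) (nat_lit 59279) (nat_lit 20530)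 (nat_lit 59466) (nat_lit 178),Row.mk (nat_lit 10416) (nat_lit 58905) (nat_lit 43) (nat_lit 59279) (nat_lit 20530) (nat_lit 59466) (nat_lit 171),Row.mk (nat_lit 10584) (nat_lit 58905) (nat_lit 54) (nat_lit 59279) (nat_lit 20530) (nat_lit 59466) (nat_lit 162),Row.mk (nat_lit 10752) (nat_lit 58905) (nat_lit 67) (nat_lit 59279) (nat_lit 20530) (nat_lit 59466) (nat_lit 151),Row.mk (nat_lit 10920) (nat_lit 58905) (nat_lit 84) (nat_lit 59279) (nat_lit 20530) (nat_lit 59466) (nat_lit 138),Row.mk (nat_lit 11088) (nat_lit 58905) (nat_lit 105) (nat_lit 59279) (nat_lit 20530) (nat_lit 59466) (nat_lit 121),Row.mk (nat_lit 11256) (nat_lit 58905) (nat_lit 131) (nat_lit 59279) (nat_lit 20530) (nat_lit 59466) (nat_lit 100),Row.mk (nat_lit 11424) (nat_lit 58905) (nat_lit 164) (nat_lit 59279) (nat_lit 20530) (nat_lit 59466) (nat_lit 73),Row.mk (nat_lit 11592) (nat_lit 58905) (nat_lit 205) (nat_lit 59279) (nat_lit 20530) (nat_lit 59466) (nat_lit 41),Row.mk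 (nat_lit 11760) (nat_lit 58905) (nat_lit 256) (nat_lit 59279) (nat_lit 20531) (nat_lit 0) (nat_lit 0),Row.mk (nat_lit 11928) (nat_lit 58718) (nat_lit 64) (nat_lit 58905) (nat_lit 256) (nat_lit 59279) (nat_lit 20479),Row.mk (nat_lit 12096) (nat_lit 58718) (nat_lit 143) (nat_lit 58905) (nat_lit 256) (nat_lit 59279) (nat_lit 20416),Row.mk (nat_lit 12264) (nat_lit 58718) (nat_lit 243) (nat_lit 58905) (nat_lit 255) (nat_lit 59279) (nat_lit 20336),Row.mk (nat_lit 12432) (nat_lit 58718) (nat_lit 368) (nat_lit 58905) (nat_lit 255) (nat_lit 59279) (nat_lit 20236),Row.mk (nat_lit 12600) (nat_lit 58718) (nat_lit 524) (nat_lit 58905) (nat_lit 255) (nat_lit 59279) (nat_lit 20112),Row.mk (nat_lit 12768) (nat_lit 58718) (nat_lit 718) (nat_lit 58905) (nat_lit 254) (nat_lit 59279) (nat_lit 19957),Row.mk (nat_lit 12936) (nat_lit 58718) (nat_lit 961) (nat_lit 58905) (nat_lit 254) (nat_lit 59279) (nat_lit 19763),Row.mk (nat_lit 13104) (nat_lit 58718)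 (nat_lit 1265) (nat_lit 58905) (nat_lit 253) (nat_lit 59279) (nat_lit 19520),Row.mk (nat_lit 13272) (nat_lit 58718) (nat_lit 1644) (nat_lit 58905) (nat_lit 252) (nat_lit 59279) (nat_lit 19218),Row.mk (nat_lit 13440) (nat_lit 58718) (nat_lit 2118) (nat_lit 58905) (nat_lit 251) (nat_lit 59279) (nat_lit 18840),Row.mk (nat_lit 13608) (nat_lit 58718) (nat_lit 2709) (nat_lit 58905) (nat_lit 249) (nat_lit 59279) (nat_lit 18368),Row.mk (nat_lit 13776) (nat_lit 58718) (nat_lit 3448) (nat_lit 58905) (nat_lit 247) (nat_lit 59279) (nat_lit 17778),Row.mk (nat_lit 13944) (nat_lit 58718) (nat_lit 4370) (nat_lit 58905) (nat_lit 245) (nat_lit 59279) (nat_lit 17042),Row.mk (nat_lit 14112) (nat_lit 58718) (nat_lit 5522) (nat_lit 58905) (nat_lit 242) (nat_lit 59279) (nat_lit 16122),Row.mk (nat_lit 14280) (nat_lit 58718) (nat_lit 6961) (nat_lit 58905) (nat_lit 239) (nat_lit 59279) (nat_lit 14974),Row.mk (nat_lit 14448) (nat_lit 58718) (nat_lit 8759) (nat_lit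 58905) (nat_lit 234) (nat_lit 59279) (nat_lit 13539),Row.mk (nat_lit 14616) (nat_lit 58718) (nat_lit 11004) (nat_lit 58905) (nat_lit 229) (nat_lit 59279) (nat_lit 11747),Row.mk (nat_lit 14784) (nat_lit 58718) (nat_lit 13807) (nat_lit 58905) (nat_lit 222) (nat_lit 59279) (nat_lit 9509),Row.mk (nat_lit 14952) (nat_lit 58718) (nat_lit 17309) (nat_lit 58905) (nat_lit 213) (nat_lit 59279) (nat_lit 6714),Row.mk (nat_lit 15120) (nat_lit 58718) (nat_lit 21683) (nat_lit 58905) (nat_lit 202) (nat_lit 59279) (nat_lit 3223),Row.mk (nat_lit 15288) (nat_lit 58157) (nat_lit 1183) (nat_lit 58344) (nat_lit 236) (nat_lit 58718) (nat_lit 24779),Row.mk (nat_lit 15456) (nat_lit 58157) (nat_lit 8005) (nat_lit 58344) (nat_lit 215) (nat_lit 58718) (nat_lit 19337),Row.mk (nat_lit 15624) (nat_lit 58157) (nat_lit 16527) (nat_lit 58344) (nat_lit 189) (nat_lit 58718) (nat_lit 12541),Row.mk (nat_lit 15792) (nat_lit 58157) (nat_lit 27170) (nat_lit 58344) (nat_lit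 156) (nat_lit 58718) (nat_lit 4052),Row.mk (nat_lit 15960) (nat_lit 57596) (nat_lit 8036) (nat_lit 57783) (nat_lit 143) (nat_lit 58157) (nat_lit 25849),Row.mk (nat_lit 16128) (nat_lit 57596) (nat_lit 24638) (nat_lit 57783) (nat_lit 79) (nat_lit 58157) (nat_lit 12620),Row.mk (nat_lit 16296) (nat_lit 57035) (nat_lit 4874) (nat_lit 57596) (nat_lit 36598) (nat_lit 0) (nat_lit 0),Row.mk (nat_lit 16464) (nat_lit 57035) (nat_lit 30648) (nat_lit 57409) (nat_lit 124) (nat_lit 57596) (nat_lit 15862),Row.mk (nat_lit 16632) (nat_lit 56474) (nat_lit 12185) (nat_lit 56848) (nat_lit 350) (nat_lit 57035) (nat_lit 40547),Row.mk (nat_lit 16800) (nat_lit 56474) (nat_lit 52343) (nat_lit 56848) (nat_lit 593) (nat_lit 57035) (nat_lit 8200),Row.mk (nat_lit 16968) (nat_lit 55913) (nat_lit 39097) (nat_lit 56287) (nat_lit 1120) (nat_lit 56474) (nat_lit 30978),Row.mk (nat_lit 17136) (nat_lit 55352) (nat_lit 22341) (nat_lit 55726) (nat_lit 1990) (nat_lit 55913)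 (nat_lit 59427),Row.mk (nat_lit 17304) (nat_lit 54791) (nat_lit 1082) (nat_lit 55165) (nat_lit 3408) (nat_lit 55352) (nat_lit 94959),Row.mk (nat_lit 17472) (nat_lit 54791) (nat_lit 98242) (nat_lit 55165) (nat_lit 4560) (nat_lit 55352) (nat_lit 16245),Row.mk (nat_lit 17640) (nat_lit 54230) (nat_lit 95006) (nat_lit 54604) (nat_lit 7493) (nat_lit 54791) (nat_lit 41026),Row.mk (nat_lit 17808) (nat_lit 53669) (nat_lit 89957) (nat_lit 54043) (nat_lit 12163) (nat_lit 54230) (nat_lit 71977),Row.mk (nat_lit 17976) (nat_lit 53108) (nat_lit 82081) (nat_lit 53482) (nat_lit 19565) (nat_lit 53669) (nat_lit 110634),Row.mk (nat_lit 18144) (nat_lit 52547) (nat_lit 69796) (nat_lit 52921) (nat_lit 31259) (nat_lit 53108) (nat_lit 158915),Row.mk (nat_lit 18312) (nat_lit 51986) (nat_lit 50631) (nat_lit 52360) (nat_lit 49685) (nat_lit 52547) (nat_lit 219218),Row.mk (nat_lit 18480) (nat_lit 51425) (nat_lit 20736) (nat_lit 51799) (nat_lit 78658) (nat_lit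 51986) (nat_lit 294534),Row.mk (nat_lit 18648) (nat_lit 51238) (nat_lit 98242) (nat_lit 51425) (nat_lit 367866) (nat_lit 51799) (nat_lit 20736),Row.mk (nat_lit 18816) (nat_lit 50677) (nat_lit 96803) (nat_lit 50864) (nat_lit 427108) (nat_lit 51238) (nat_lit 78982),Row.mk (nat_lit 18984) (nat_lit 50116) (nat_lit 95006) (nat_lit 50303) (nat_lit 482988) (nat_lit 50677) (nat_lit 169843),Row.mk (nat_lit 19152) (nat_lit 49555) (nat_lit 92761) (nat_lit 49742) (nat_lit 524526) (nat_lit 50116) (nat_lit 311581),Row.mk (nat_lit 19320) (nat_lit 48994) (nat_lit 89957) (nat_lit 49181) (nat_lit 532330) (nat_lit 49555) (nat_lit 532683),Row.mk (nat_lit 19488) (nat_lit 48433) (nat_lit 86455) (nat_lit 48620) (nat_lit 473323) (nat_lit 48994) (nat_lit 877590),Row.mk (nat_lit 19656) (nat_lit 47685) (nat_lit 82081) (nat_lit 47872) (nat_lit 292370) (nat_lit 48433) (nat_lit 1415625),Row.mk (nat_lit 19824) (nat_lit 47498) (nat_lit 76619) (nat_lit 47685) (nat_lit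 2134504) (nat_lit 48246) (nat_lit 19476),Row.mk (nat_lit 19992) (nat_lit 46563) (nat_lit 69796) (nat_lit 46750) (nat_lit 2083786) (nat_lit 47498) (nat_lit 627220),Row.mk (nat_lit 20160) (nat_lit 45628) (nat_lit 61274) (nat_lit 45815) (nat_lit 1694465) (nat_lit 46563) (nat_lit 1712252),Row.mk (nat_lit 20328) (nat_lit 44506) (nat_lit 50631) (nat_lit 44693) (nat_lit 699713) (nat_lit 45628) (nat_lit 3575932),Row.mk (nat_lit 20496) (nat_lit 44319) (nat_lit 37338) (nat_lit 44506) (nat_lit 4321182) (nat_lit 45441) (nat_lit 1039732),Row.mk (nat_lit 20664) (nat_lit 43010) (nat_lit 20736) (nat_lit 43197) (nat_lit 2636985) (nat_lit 44319) (nat_lit 4079403),Row.mk (nat_lit 20832) (nat_lit 43010) (nat_lit 7599072) (nat_lit 44132) (nat_lit 810271) (nat_lit 0) (nat_lit 0),Row.mk (nat_lit 21000) (nat_lit 41327) (nat_lit 4087641) (nat_lit 42823) (nat_lit 6389527) (nat_lit 43010) (nat_lit 20736),Row.mk (nat_lit 21168) (nat_lit 41140) (nat_lit 10456984)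 (nat_lit 42636) (nat_lit 2602848) (nat_lit 42823) (nat_lit 46635),Row.mk (nat_lit 21336) (nat_lit 38896) (nat_lit 2557452) (nat_lit 40953) (nat_lit 13728063) (nat_lit 41140) (nat_lit 78982),Row.mk (nat_lit 21504) (nat_lit 38709) (nat_lit 9884686) (nat_lit 40766) (nat_lit 10429631) (nat_lit 40953) (nat_lit 119383),Row.mk (nat_lit 21672) (nat_lit 38522) (nat_lit 19036225) (nat_lit 40579) (nat_lit 6309968) (nat_lit 40766) (nat_lit 169843),Row.mk (nat_lit 21840) (nat_lit 38335) (nat_lit 30466276) (nat_lit 40392) (nat_lit 1164609) (nat_lit 40579) (nat_lit 232866),Row.mk (nat_lit 22008) (nat_lit 31603) (nat_lit 6182728) (nat_lit 38148) (nat_lit 33297585) (nat_lit 38335) (nat_lit 311581),Row.mk (nat_lit 22176) (nat_lit 31416) (nat_lit 16084788) (nat_lit 37961) (nat_lit 33199272) (nat_lit 38148) (nat_lit 409894),Row.mk (nat_lit 22344) (nat_lit 31229) (nat_lit 28452221) (nat_lit 37774) (nat_lit 33076482) (nat_lit 37961) (nat_lit 532683),Row.mk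 (nat_lit 22512) (nat_lit 31042) (nat_lit 43898846) (nat_lit 37587) (nat_lit 32923121) (nat_lit 37774) (nat_lit 686045),Row.mk (nat_lit 22680) (nat_lit 30855) (nat_lit 63191309) (nat_lit 37400) (nat_lit 32731575) (nat_lit 37587) (nat_lit 877590),Row.mk (nat_lit 22848) (nat_lit 30668) (nat_lit 87287130) (nat_lit 37213) (nat_lit 32492340) (nat_lit 37400) (nat_lit 1116826),Row.mk (nat_lit 23016) (nat_lit 30481) (nat_lit 117382228) (nat_lit 37026) (nat_lit 32193541) (nat_lit 37213) (nat_lit 1415625),Row.mk (nat_lit 23184) (nat_lit 30294) (nat_lit 154970281) (nat_lit 36839) (nat_lit 31820348) (nat_lit 37026) (nat_lit 1788817),Row.mk (nat_lit 23352) (nat_lit 30107) (nat_lit 201916851) (nat_lit 36652) (nat_lit 31354240) (nat_lit 36839) (nat_lit 2254926),Row.mk (nat_lit 23520) (nat_lit 29920) (nat_lit 260551985) (nat_lit 36465) (nat_lit 30772081) (nat_lit 36652) (nat_lit 2837085),Row.mk (nat_lit 23688) (nat_lit 29733) (nat_lit 333785853) (nat_lit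 36278) (nat_lit 30044979) (nat_lit 36465) (nat_lit 3564187),Row.mk (nat_lit 23856) (nat_lit 29546) (nat_lit 425253187) (nat_lit 36091) (nat_lit 29136846) (nat_lit 36278) (nat_lit 4472320),Row.mk (nat_lit 24024) (nat_lit 29359) (nat_lit 539493681) (nat_lit 35904) (nat_lit 28002610) (nat_lit 36091) (nat_lit 5606556),Row.mk (nat_lit 24192) (nat_lit 29172) (nat_lit 682177302) (nat_lit 35717) (nat_lit 26585977) (nat_lit 35904) (nat_lit 7023189),Row.mk (nat_lit 24360) (nat_lit 28985) (nat_lit 860385702) (nat_lit 35530) (nat_lit 24816636) (nat_lit 35717) (nat_lit 8792530),Row.mk (nat_lit 24528) (nat_lit 28798) (nat_lit 1082963695) (nat_lit 35343) (nat_lit 22606771) (nat_lit 35530) (nat_lit 11002394),Row.mk (nat_lit 24696) (nat_lit 28611) (nat_lit 1360958239) (nat_lit 35156) (nat_lit 19846704) (nat_lit 35343) (nat_lit 13762461),Row.mk (nat_lit 24864) (nat_lit 28424) (nat_lit 1708166718) (nat_lit 34969) (nat_lit 16399447) (nat_lit 35156) (nat_lit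 17209719),Row.mk (nat_lit 25032) (nat_lit 28237) (nat_lit 2141821732) (nat_lit 34782) (nat_lit 12093906) (nat_lit 34969) (nat_lit 21515260),Row.mk (nat_lit 25200) (nat_lit 28050) (nat_lit 2683446383) (nat_lit 34595) (nat_lit 6716389) (nat_lit 34782) (nat_lit 26892777),Row.mk (nat_lit 25368) (nat_lit 27863) (nat_lit 3359922507) (nat_lit 34595) (nat_lit 33609166) (nat_lit 0) (nat_lit 0),Row.mk (nat_lit 25536) (nat_lit 27676) (nat_lit 4196436258) (nat_lit 27863) (nat_lit 8388608) (nat_lit 34408) (nat_lit 33609166),Row.mk (nat_lit 25704) (nat_lit 27489) (nat_lit 5241221754) (nat_lit 27676) (nat_lit 18865777) (nat_lit 34221) (nat_lit 33609166),Row.mk (nat_lit 25872) (nat_lit 27302) (nat_lit 6546133633) (nat_lit 27489) (nat_lit 31951508) (nat_lit 34034) (nat_lit 33609166),Row.mk (nat_lit 26040) (nat_lit 32912) (nat_lit 8409344) (nat_lit 62084) (nat_lit 8249432185) (nat_lit 0) (nat_lit 0),Row.mk (nat_lit 26208) (nat_lit 32912) (nat_lit 8409344)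 (nat_lit 62084) (nat_lit 10305430352) (nat_lit 0) (nat_lit 0),Row.mk (nat_lit 26376) (nat_lit 32912) (nat_lit 8409344) (nat_lit 62084) (nat_lit 12873322465) (nat_lit 0) (nat_lit 0),Row.mk (nat_lit 26544) (nat_lit 32912) (nat_lit 8409344) (nat_lit 62084) (nat_lit 16080557766) (nat_lit 0) (nat_lit 0)],
[Row.mk (nat_lit 6216) (nat_lit 58718) (nat_lit 25577) (nat_lit 58905) (nat_lit 321) (nat_lit 0) (nat_lit 0),Row.mk (nat_lit 6384) (nat_lit 58718) (nat_lit 25577) (nat_lit 58905) (nat_lit 320) (nat_lit 0) (nat_lit 0),Row.mk (nat_lit 6552) (nat_lit 58718) (nat_lit 25577) (nat_lit 58905) (nat_lit 320) (nat_lit 0) (nat_lit 0),Row.mk (nat_lit 6720) (nat_lit 58718) (nat_lit 25577) (nat_lit 58905) (nat_lit 320) (nat_lit 0) (nat_lit 0),Row.mk (nat_lit 6888) (nat_lit 58718) (nat_lit 25577) (nat_lit 58905) (nat_lit 320) (nat_lit 0) (nat_lit 0),Row.mk (nat_lit 7056) (nat_lit 58718) (nat_lit 25577) (nat_lit 58905) (nat_lit 320) (nat_lit 0) (nat_lit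 0),Row.mk (nat_lit 7224) (nat_lit 58718) (nat_lit 25577) (nat_lit 58905) (nat_lit 320) (nat_lit 0) (nat_lit 0),Row.mk (nat_lit 7392) (nat_lit 58718) (nat_lit 25577) (nat_lit 58905) (nat_lit 320) (nat_lit 0) (nat_lit 0),Row.mk (nat_lit 7560) (nat_lit 58718) (nat_lit 25577) (nat_lit 58905) (nat_lit 320) (nat_lit 0) (nat_lit 0),Row.mk (nat_lit 7728) (nat_lit 58344) (nat_lit 1) (nat_lit 58718) (nat_lit 25577) (nat_lit 58905) (nat_lit 320),Row.mk (nat_lit 7896) (nat_lit 58344) (nat_lit 1) (nat_lit 58718) (nat_lit 25577) (nat_lit 58905) (nat_lit 319),Row.mk (nat_lit 8064) (nat_lit 58344) (nat_lit 1) (nat_lit 58718) (nat_lit 25577) (nat_lit 58905) (nat_lit 319),Row.mk (nat_lit 8232) (nat_lit 58344) (nat_lit 2) (nat_lit 58718) (nat_lit 25577) (nat_lit 58905) (nat_lit 319),Row.mk (nat_lit 8400) (nat_lit 58344) (nat_lit 3) (nat_lit 58718) (nat_lit 25577) (nat_lit 58905) (nat_lit 318),Row.mk (nat_lit 8568) (nat_lit 58344) (nat_lit 3) (nat_lit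 58718) (nat_lit 25577) (nat_lit 58905) (nat_lit 318),Row.mk (nat_lit 8736) (nat_lit 58344) (nat_lit 4) (nat_lit 58718) (nat_lit 25577) (nat_lit 58905) (nat_lit 317),Row.mk (nat_lit 8904) (nat_lit 58344) (nat_lit 5) (nat_lit 58718) (nat_lit 25577) (nat_lit 58905) (nat_lit 316),Row.mk (nat_lit 9072) (nat_lit 58344) (nat_lit 7) (nat_lit 58718) (nat_lit 25577) (nat_lit 58905) (nat_lit 315),Row.mk (nat_lit 9240) (nat_lit 58344) (nat_lit 9) (nat_lit 58718) (nat_lit 25577) (nat_lit 58905) (nat_lit 313),Row.mk (nat_lit 9408) (nat_lit 58344) (nat_lit 11) (nat_lit 58718) (nat_lit 25577) (nat_lit 58905) (nat_lit 312),Row.mk (nat_lit 9576) (nat_lit 58344) (nat_lit 14) (nat_lit 58718) (nat_lit 25577) (nat_lit 58905) (nat_lit 309),Row.mk (nat_lit 9744) (nat_lit 58344) (nat_lit 17) (nat_lit 58718) (nat_lit 25577) (nat_lit 58905) (nat_lit 306),Row.mk (nat_lit 9912) (nat_lit 58344) (nat_lit 22) (nat_lit 58718) (nat_lit 25578) (nat_lit 58905) (nat_lit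 303),Row.mk (nat_lit 10080) (nat_lit 58344) (nat_lit 27) (nat_lit 58718) (nat_lit 25578) (nat_lit 58905) (nat_lit 298),Row.mk (nat_lit 10248) (nat_lit 58344) (nat_lit 34) (nat_lit 58718) (nat_lit 25578) (nat_lit 58905) (nat_lit 293),Row.mk (nat_lit 10416) (nat_lit 58344) (nat_lit 43) (nat_lit 58718) (nat_lit 25578) (nat_lit 58905) (nat_lit 286),Row.mk (nat_lit 10584) (nat_lit 58344) (nat_lit 54) (nat_lit 58718) (nat_lit 25578) (nat_lit 58905) (nat_lit 277),Row.mk (nat_lit 10752) (nat_lit 58344) (nat_lit 67) (nat_lit 58718) (nat_lit 25578) (nat_lit 58905) (nat_lit 266),Row.mk (nat_lit 10920) (nat_lit 58344) (nat_lit 84) (nat_lit 58718) (nat_lit 25578) (nat_lit 58905) (nat_lit 253),Row.mk (nat_lit 11088) (nat_lit 58344) (nat_lit 105) (nat_lit 58718) (nat_lit 25578) (nat_lit 58905) (nat_lit 236),Row.mk (nat_lit 11256) (nat_lit 58344) (nat_lit 131) (nat_lit 58718) (nat_lit 25578) (nat_lit 58905) (nat_lit 215),Row.mk (nat_lit 11424) (nat_lit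 58344) (nat_lit 164) (nat_lit 58718) (nat_lit 25578) (nat_lit 58905) (nat_lit 189),Row.mk (nat_lit 11592) (nat_lit 58344) (nat_lit 205) (nat_lit 58718) (nat_lit 25578) (nat_lit 58905) (nat_lit 156),Row.mk (nat_lit 11760) (nat_lit 58344) (nat_lit 256) (nat_lit 58718) (nat_lit 25578) (nat_lit 58905) (nat_lit 115),Row.mk (nat_lit 11928) (nat_lit 58344) (nat_lit 320) (nat_lit 58718) (nat_lit 25578) (nat_lit 58905) (nat_lit 64),Row.mk (nat_lit 12096) (nat_lit 58344) (nat_lit 399) (nat_lit 58718) (nat_lit 25579) (nat_lit 0) (nat_lit 0),Row.mk (nat_lit 12264) (nat_lit 58157) (nat_lit 99) (nat_lit 58344) (nat_lit 399) (nat_lit 58718) (nat_lit 25499),Row.mk (nat_lit 12432) (nat_lit 58157) (nat_lit 224) (nat_lit 58344) (nat_lit 399) (nat_lit 58718) (nat_lit 25400),Row.mk (nat_lit 12600) (nat_lit 58157) (nat_lit 380) (nat_lit 58344) (nat_lit 398) (nat_lit 58718) (nat_lit 25275),Row.mk (nat_lit 12768) (nat_lit 58157) (nat_lit 574) (nat_lit 58344)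 (nat_lit 398) (nat_lit 58718) (nat_lit 25120),Row.mk (nat_lit 12936) (nat_lit 58157) (nat_lit 817) (nat_lit 58344) (nat_lit 397) (nat_lit 58718) (nat_lit 24926),Row.mk (nat_lit 13104) (nat_lit 58157) (nat_lit 1121) (nat_lit 58344) (nat_lit 396) (nat_lit 58718) (nat_lit 24684),Row.mk (nat_lit 13272) (nat_lit 58157) (nat_lit 1500) (nat_lit 58344) (nat_lit 395) (nat_lit 58718) (nat_lit 24382),Row.mk (nat_lit 13440) (nat_lit 58157) (nat_lit 1974) (nat_lit 58344) (nat_lit 393) (nat_lit 58718) (nat_lit 24004),Row.mk (nat_lit 13608) (nat_lit 58157) (nat_lit 2565) (nat_lit 58344) (nat_lit 391) (nat_lit 58718) (nat_lit 23533),Row.mk (nat_lit 13776) (nat_lit 58157) (nat_lit 3304) (nat_lit 58344) (nat_lit 389) (nat_lit 58718) (nat_lit 22943),Row.mk (nat_lit 13944) (nat_lit 58157) (nat_lit 4226) (nat_lit 58344) (nat_lit 386) (nat_lit 58718) (nat_lit 22208),Row.mk (nat_lit 14112) (nat_lit 58157) (nat_lit 5378) (nat_lit 58344) (nat_lit 383) (nat_lit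 58718) (nat_lit 21289),Row.mk (nat_lit 14280) (nat_lit 58157) (nat_lit 6817) (nat_lit 58344) (nat_lit 378) (nat_lit 58718) (nat_lit 20141),Row.mk (nat_lit 14448) (nat_lit 58157) (nat_lit 8615) (nat_lit 58344) (nat_lit 373) (nat_lit 58718) (nat_lit 18707),Row.mk (nat_lit 14616) (nat_lit 58157) (nat_lit 10860) (nat_lit 58344) (nat_lit 366) (nat_lit 58718) (nat_lit 16917),Row.mk (nat_lit 14784) (nat_lit 58157) (nat_lit 13663) (nat_lit 58344) (nat_lit 357) (nat_lit 58718) (nat_lit 14681),Row.mk (nat_lit 14952) (nat_lit 58157) (nat_lit 17165) (nat_lit 58344) (nat_lit 346) (nat_lit 58718) (nat_lit 11888),Row.mk (nat_lit 15120) (nat_lit 58157) (nat_lit 21539) (nat_lit 58344) (nat_lit 333) (nat_lit 58718) (nat_lit 8399),Row.mk (nat_lit 15288) (nat_lit 58157) (nat_lit 27002) (nat_lit 58344) (nat_lit 316) (nat_lit 58718) (nat_lit 4043),Row.mk (nat_lit 15456) (nat_lit 57596) (nat_lit 1377) (nat_lit 57783) (nat_lit 369) (nat_lit 58157) (nat_lit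 30975),Row.mk (nat_lit 15624) (nat_lit 57596) (nat_lit 9899) (nat_lit 57783) (nat_lit 336) (nat_lit 58157) (nat_lit 24185),Row.mk (nat_lit 15792) (nat_lit 57596) (nat_lit 20542) (nat_lit 57783) (nat_lit 295) (nat_lit 58157) (nat_lit 15704),Row.mk (nat_lit 15960) (nat_lit 57596) (nat_lit 33835) (nat_lit 57783) (nat_lit 243) (nat_lit 58157) (nat_lit 5112),Row.mk (nat_lit 16128) (nat_lit 57035) (nat_lit 9912) (nat_lit 57222) (nat_lit 224) (nat_lit 57596) (nat_lit 32364),Row.mk (nat_lit 16296) (nat_lit 57035) (nat_lit 30648) (nat_lit 57222) (nat_lit 124) (nat_lit 57596) (nat_lit 15862),Row.mk (nat_lit 16464) (nat_lit 56474) (nat_lit 5931) (nat_lit 57035) (nat_lit 45866) (nat_lit 0) (nat_lit 0),Row.mk (nat_lit 16632) (nat_lit 56474) (nat_lit 38084) (nat_lit 56848) (nat_lit 194) (nat_lit 57035) (nat_lit 19967),Row.mk (nat_lit 16800) (nat_lit 55913) (nat_lit 14915) (nat_lit 56287) (nat_lit 546) (nat_lit 56474) (nat_lit 50837),Row.mk (nat_lit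 16968) (nat_lit 55913) (nat_lit 64996) (nat_lit 56287) (nat_lit 925) (nat_lit 56474) (nat_lit 10436),Row.mk (nat_lit 17136) (nat_lit 55352) (nat_lit 48240) (nat_lit 55726) (nat_lit 1747) (nat_lit 55913) (nat_lit 38934),Row.mk (nat_lit 17304) (nat_lit 54791) (nat_lit 26981) (nat_lit 55165) (nat_lit 3105) (nat_lit 55352) (nat_lit 74527),Row.mk (nat_lit 17472) (nat_lit 54604) (nat_lit 5229) (nat_lit 54791) (nat_lit 118911) (nat_lit 55165) (nat_lit 69),Row.mk (nat_lit 17640) (nat_lit 54230) (nat_lit 120905) (nat_lit 54604) (nat_lit 7114) (nat_lit 54791) (nat_lit 20669),Row.mk (nat_lit 17808) (nat_lit 53669) (nat_lit 115856) (nat_lit 54043) (nat_lit 11689) (nat_lit 54230) (nat_lit 51714),Row.mk (nat_lit 17976) (nat_lit 53108) (nat_lit 107980) (nat_lit 53482) (nat_lit 18973) (nat_lit 53669) (nat_lit 90489),Row.mk (nat_lit 18144) (nat_lit 52547) (nat_lit 95695) (nat_lit 52921) (nat_lit 30520) (nat_lit 53108) (nat_lit 138917),Row.mk (nat_lit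 18312) (nat_lit 51986) (nat_lit 76530) (nat_lit 52360) (nat_lit 48762) (nat_lit 52547) (nat_lit 199404),Row.mk (nat_lit 18480) (nat_lit 51425) (nat_lit 46635) (nat_lit 51799) (nat_lit 77506) (nat_lit 51986) (nat_lit 274950),Row.mk (nat_lit 18648) (nat_lit 51238) (nat_lit 122702) (nat_lit 51425) (nat_lit 369305) (nat_lit 0) (nat_lit 0),Row.mk (nat_lit 18816) (nat_lit 50677) (nat_lit 120905) (nat_lit 50864) (nat_lit 428906) (nat_lit 51238) (nat_lit 58246),Row.mk (nat_lit 18984) (nat_lit 50116) (nat_lit 118660) (nat_lit 50303) (nat_lit 485233) (nat_lit 50677) (nat_lit 149107),Row.mk (nat_lit 19152) (nat_lit 49555) (nat_lit 115856) (nat_lit 49742) (nat_lit 527330) (nat_lit 50116) (nat_lit 290845),Row.mk (nat_lit 19320) (nat_lit 48994) (nat_lit 112354) (nat_lit 49181) (nat_lit 535832) (nat_lit 49555) (nat_lit 511947),Row.mk (nat_lit 19488) (nat_lit 48433) (nat_lit 107980) (nat_lit 48620) (nat_lit 477697) (nat_lit 48994) (nat_lit 856854),Row.mk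 (nat_lit 19656) (nat_lit 47685) (nat_lit 102518) (nat_lit 47872) (nat_lit 297833) (nat_lit 48433) (nat_lit 1394888),Row.mk (nat_lit 19824) (nat_lit 46750) (nat_lit 1573) (nat_lit 47498) (nat_lit 94122) (nat_lit 47685) (nat_lit 2140067),Row.mk (nat_lit 19992) (nat_lit 46563) (nat_lit 87174) (nat_lit 46750) (nat_lit 2092307) (nat_lit 47498) (nat_lit 606484),Row.mk (nat_lit 20160) (nat_lit 45628) (nat_lit 76530) (nat_lit 45815) (nat_lit 1705108) (nat_lit 46563) (nat_lit 1691516),Row.mk (nat_lit 20328) (nat_lit 44506) (nat_lit 63237) (nat_lit 44693) (nat_lit 713006) (nat_lit 45628) (nat_lit 3555195),Row.mk (nat_lit 20496) (nat_lit 44319) (nat_lit 46635) (nat_lit 44506) (nat_lit 4337785) (nat_lit 45441) (nat_lit 1018995),Row.mk (nat_lit 20664) (nat_lit 43010) (nat_lit 25899) (nat_lit 43197) (nat_lit 2657721) (nat_lit 44319) (nat_lit 4058667),Row.mk (nat_lit 20832) (nat_lit 43010) (nat_lit 7624971) (nat_lit 44132) (nat_lit 789535) (nat_lit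 0) (nat_lit 0),Row.mk (nat_lit 21000) (nat_lit 41327) (nat_lit 4113541) (nat_lit 42823) (nat_lit 6363628) (nat_lit 43010) (nat_lit 25899),Row.mk (nat_lit 21168) (nat_lit 41140) (nat_lit 10482883) (nat_lit 42636) (nat_lit 2570500) (nat_lit 42823) (nat_lit 58246),Row.mk (nat_lit 21336) (nat_lit 38896) (nat_lit 2583351) (nat_lit 40953) (nat_lit 13687662) (nat_lit 41140) (nat_lit 98647),Row.mk (nat_lit 21504) (nat_lit 38709) (nat_lit 9910586) (nat_lit 40766) (nat_lit 10379171) (nat_lit 40953) (nat_lit 149107),Row.mk (nat_lit 21672) (nat_lit 38522) (nat_lit 19062124) (nat_lit 40579) (nat_lit 6246945) (nat_lit 40766) (nat_lit 212130),Row.mk (nat_lit 21840) (nat_lit 38335) (nat_lit 30492175) (nat_lit 40392) (nat_lit 1085894) (nat_lit 40579) (nat_lit 290845),Row.mk (nat_lit 22008) (nat_lit 31603) (nat_lit 6208627) (nat_lit 38148) (nat_lit 33199272) (nat_lit 38335) (nat_lit 389157),Row.mk (nat_lit 22176) (nat_lit 31416) (nat_lit 16110687)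 (nat_lit 37961) (nat_lit 33076482) (nat_lit 38148) (nat_lit 511947),Row.mk (nat_lit 22344) (nat_lit 31229) (nat_lit 28478120) (nat_lit 37774) (nat_lit 32923121) (nat_lit 37961) (nat_lit 665309),Row.mk (nat_lit 22512) (nat_lit 31042) (nat_lit 43924745) (nat_lit 37587) (nat_lit 32731575) (nat_lit 37774) (nat_lit 856854),Row.mk (nat_lit 22680) (nat_lit 30855) (nat_lit 63217208) (nat_lit 37400) (nat_lit 32492340) (nat_lit 37587) (nat_lit 1096089),Row.mk (nat_lit 22848) (nat_lit 30668) (nat_lit 87313029) (nat_lit 37213) (nat_lit 32193541) (nat_lit 37400) (nat_lit 1394888),Row.mk (nat_lit 23016) (nat_lit 30481) (nat_lit 117408127) (nat_lit 37026) (nat_lit 31820348) (nat_lit 37213) (nat_lit 1768081),Row.mk (nat_lit 23184) (nat_lit 30294) (nat_lit 154996180) (nat_lit 36839) (nat_lit 31354240) (nat_lit 37026) (nat_lit 2234190),Row.mk (nat_lit 23352) (nat_lit 30107) (nat_lit 201942750) (nat_lit 36652) (nat_lit 30772081) (nat_lit 36839) (nat_lit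 2816348),Row.mk (nat_lit 23520) (nat_lit 29920) (nat_lit 260577884) (nat_lit 36465) (nat_lit 30044979) (nat_lit 36652) (nat_lit 3543450),Row.mk (nat_lit 23688) (nat_lit 29733) (nat_lit 333811752) (nat_lit 36278) (nat_lit 29136846) (nat_lit 36465) (nat_lit 4451583),Row.mk (nat_lit 23856) (nat_lit 29546) (nat_lit 425279086) (nat_lit 36091) (nat_lit 28002610) (nat_lit 36278) (nat_lit 5585819),Row.mk (nat_lit 24024) (nat_lit 29359) (nat_lit 539519580) (nat_lit 35904) (nat_lit 26585977) (nat_lit 36091) (nat_lit 7002453),Row.mk (nat_lit 24192) (nat_lit 29172) (nat_lit 682203201) (nat_lit 35717) (nat_lit 24816636) (nat_lit 35904) (nat_lit 8771794),Row.mk (nat_lit 24360) (nat_lit 28985) (nat_lit 860411601) (nat_lit 35530) (nat_lit 22606771) (nat_lit 35717) (nat_lit 10981658),Row.mk (nat_lit 24528) (nat_lit 28798) (nat_lit 1082989594) (nat_lit 35343) (nat_lit 19846704) (nat_lit 35530) (nat_lit 13741725),Row.mk (nat_lit 24696) (nat_lit 28611)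 (nat_lit 1360984138) (nat_lit 35156) (nat_lit 16399447) (nat_lit 35343) (nat_lit 17188983),Row.mk (nat_lit 24864) (nat_lit 28424) (nat_lit 1708192617) (nat_lit 34969) (nat_lit 12093906) (nat_lit 35156) (nat_lit 21494524),Row.mk (nat_lit 25032) (nat_lit 28237) (nat_lit 2141847631) (nat_lit 34782) (nat_lit 6716389) (nat_lit 34969) (nat_lit 26872041),Row.mk (nat_lit 25200) (nat_lit 28050) (nat_lit 2683472283) (nat_lit 34782) (nat_lit 33588430) (nat_lit 0) (nat_lit 0),Row.mk (nat_lit 25368) (nat_lit 27863) (nat_lit 3351559798) (nat_lit 28050) (nat_lit 8388608) (nat_lit 34595) (nat_lit 33588430),Row.mk (nat_lit 25536) (nat_lit 27676) (nat_lit 4185984988) (nat_lit 27863) (nat_lit 18865777) (nat_lit 34408) (nat_lit 33588430),Row.mk (nat_lit 25704) (nat_lit 27489) (nat_lit 5228161921) (nat_lit 27676) (nat_lit 31951508) (nat_lit 34221) (nat_lit 33588430),Row.mk (nat_lit 25872) (nat_lit 27302) (nat_lit 6529815769) (nat_lit 27489) (nat_lit 48295271)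 (nat_lit 34034) (nat_lit 33588430),Row.mk (nat_lit 26040) (nat_lit 32912) (nat_lit 8414507) (nat_lit 62084) (nat_lit 8249432185) (nat_lit 0) (nat_lit 0),Row.mk (nat_lit 26208) (nat_lit 32912) (nat_lit 8414507) (nat_lit 62084) (nat_lit 10305430352) (nat_lit 0) (nat_lit 0),Row.mk (nat_lit 26376) (nat_lit 32912) (nat_lit 8414507) (nat_lit 62084) (nat_lit 12873322465) (nat_lit 0) (nat_lit 0),Row.mk (nat_lit 26544) (nat_lit 32912) (nat_lit 8414507) (nat_lit 62084) (nat_lit 16080557766) (nat_lit 0) (nat_lit 0),Row.mk (nat_lit 26712) (nat_lit 32912) (nat_lit 8414507) (nat_lit 62084) (nat_lit 20086317287) (nat_lit 0) (nat_lit 0)],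
[Row.mk (nat_lit 6216) (nat_lit 58157) (nat_lit 31846) (nat_lit 58344) (nat_lit 500) (nat_lit 0) (nat_lit 0),Row.mk (nat_lit 6384) (nat_lit 58157) (nat_lit 31846) (nat_lit 58344) (nat_lit 500) (nat_lit 0) (nat_lit 0),Row.mk (nat_lit 6552) (nat_lit 58157) (nat_lit 31846) (nat_lit 58344) (nat_lit 500) (nat_lit 0) (nat_lit 0),Row.mk (nat_lit 6720) (nat_lit 58157) (nat_lit 31846) (nat_lit 58344) (nat_lit 500) (nat_lit 0) (nat_lit 0),Row.mk (nat_lit 6888) (nat_lit 58157) (nat_lit 31846) (nat_lit 58344) (nat_lit 500) (nat_lit 0) (nat_lit 0),Row.mk (nat_lit 7056) (nat_lit 58157) (nat_lit 31846) (nat_lit 58344) (nat_lit 500) (nat_lit 0) (nat_lit 0),Row.mk (nat_lit 7224) (nat_lit 58157) (nat_lit 31846) (nat_lit 58344) (nat_lit 500) (nat_lit 0) (nat_lit 0),Row.mk (nat_lit 7392) (nat_lit 58157) (nat_lit 31846) (nat_lit 58344) (nat_lit 500) (nat_lit 0) (nat_lit 0),Row.mk (nat_lit 7560) (nat_lit 58157) (nat_lit 31846) (nat_lit 58344) (nat_lit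 500) (nat_lit 0) (nat_lit 0),Row.mk (nat_lit 7728) (nat_lit 57783) (nat_lit 1) (nat_lit 58157) (nat_lit 31846) (nat_lit 58344) (nat_lit 499),Row.mk (nat_lit 7896) (nat_lit 57783) (nat_lit 1) (nat_lit 58157) (nat_lit 31846) (nat_lit 58344) (nat_lit 499),Row.mk (nat_lit 8064) (nat_lit 57783) (nat_lit 1) (nat_lit 58157) (nat_lit 31846) (nat_lit 58344) (nat_lit 499),Row.mk (nat_lit 8232) (nat_lit 57783) (nat_lit 2) (nat_lit 58157) (nat_lit 31846) (nat_lit 58344) (nat_lit 499),Row.mk (nat_lit 8400) (nat_lit 57783) (nat_lit 3) (nat_lit 58157) (nat_lit 31846) (nat_lit 58344) (nat_lit 498),Row.mk (nat_lit 8568) (nat_lit 57783) (nat_lit 3) (nat_lit 58157) (nat_lit 31846) (nat_lit 58344) (nat_lit 497),Row.mk (nat_lit 8736) (nat_lit 57783) (nat_lit 4) (nat_lit 58157) (nat_lit 31846) (nat_lit 58344) (nat_lit 497),Row.mk (nat_lit 8904) (nat_lit 57783) (nat_lit 5) (nat_lit 58157) (nat_lit 31846) (nat_lit 58344) (nat_lit 496),Row.mk (nat_lit 9072)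 (nat_lit 57783) (nat_lit 7) (nat_lit 58157) (nat_lit 31846) (nat_lit 58344) (nat_lit 495),Row.mk (nat_lit 9240) (nat_lit 57783) (nat_lit 9) (nat_lit 58157) (nat_lit 31846) (nat_lit 58344) (nat_lit 493),Row.mk (nat_lit 9408) (nat_lit 57783) (nat_lit 11) (nat_lit 58157) (nat_lit 31846) (nat_lit 58344) (nat_lit 491),Row.mk (nat_lit 9576) (nat_lit 57783) (nat_lit 14) (nat_lit 58157) (nat_lit 31846) (nat_lit 58344) (nat_lit 489),Row.mk (nat_lit 9744) (nat_lit 57783) (nat_lit 17) (nat_lit 58157) (nat_lit 31846) (nat_lit 58344) (nat_lit 486),Row.mk (nat_lit 9912) (nat_lit 57783) (nat_lit 22) (nat_lit 58157) (nat_lit 31846) (nat_lit 58344) (nat_lit 483),Row.mk (nat_lit 10080) (nat_lit 57783) (nat_lit 27) (nat_lit 58157) (nat_lit 31846) (nat_lit 58344) (nat_lit 478),Row.mk (nat_lit 10248) (nat_lit 57783) (nat_lit 34) (nat_lit 58157) (nat_lit 31846) (nat_lit 58344) (nat_lit 473),Row.mk (nat_lit 10416) (nat_lit 57783) (nat_lit 43) (nat_lit 58157)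 (nat_lit 31846) (nat_lit 58344) (nat_lit 466),Row.mk (nat_lit 10584) (nat_lit 57783) (nat_lit 54) (nat_lit 58157) (nat_lit 31846) (nat_lit 58344) (nat_lit 457),Row.mk (nat_lit 10752) (nat_lit 57783) (nat_lit 67) (nat_lit 58157) (nat_lit 31846) (nat_lit 58344) (nat_lit 446),Row.mk (nat_lit 10920) (nat_lit 57783) (nat_lit 84) (nat_lit 58157) (nat_lit 31846) (nat_lit 58344) (nat_lit 433),Row.mk (nat_lit 11088) (nat_lit 57783) (nat_lit 105) (nat_lit 58157) (nat_lit 31846) (nat_lit 58344) (nat_lit 416),Row.mk (nat_lit 11256) (nat_lit 57783) (nat_lit 131) (nat_lit 58157) (nat_lit 31846) (nat_lit 58344) (nat_lit 395),Row.mk (nat_lit 11424) (nat_lit 57783) (nat_lit 164) (nat_lit 58157) (nat_lit 31846) (nat_lit 58344) (nat_lit 369),Row.mk (nat_lit 11592) (nat_lit 57783) (nat_lit 205) (nat_lit 58157) (nat_lit 31847) (nat_lit 58344) (nat_lit 336),Row.mk (nat_lit 11760) (nat_lit 57783) (nat_lit 256) (nat_lit 58157) (nat_lit 31847) (nat_lit 58344)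 (nat_lit 295),Row.mk (nat_lit 11928) (nat_lit 57783) (nat_lit 319) (nat_lit 58157) (nat_lit 31847) (nat_lit 58344) (nat_lit 243),Row.mk (nat_lit 12096) (nat_lit 57783) (nat_lit 399) (nat_lit 58157) (nat_lit 31847) (nat_lit 58344) (nat_lit 179),Row.mk (nat_lit 12264) (nat_lit 57783) (nat_lit 499) (nat_lit 58157) (nat_lit 31848) (nat_lit 58344) (nat_lit 99),Row.mk (nat_lit 12432) (nat_lit 57783) (nat_lit 623) (nat_lit 58157) (nat_lit 31848) (nat_lit 0) (nat_lit 0),Row.mk (nat_lit 12600) (nat_lit 57596) (nat_lit 155) (nat_lit 57783) (nat_lit 622) (nat_lit 58157) (nat_lit 31724),Row.mk (nat_lit 12768) (nat_lit 57596) (nat_lit 350) (nat_lit 57783) (nat_lit 621) (nat_lit 58157) (nat_lit 31569),Row.mk (nat_lit 12936) (nat_lit 57596) (nat_lit 593) (nat_lit 57783) (nat_lit 621) (nat_lit 58157) (nat_lit 31375),Row.mk (nat_lit 13104) (nat_lit 57596) (nat_lit 896) (nat_lit 57783) (nat_lit 619) (nat_lit 58157) (nat_lit 31134),Row.mk (nat_lit 13272)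 (nat_lit 57596) (nat_lit 1276) (nat_lit 57783) (nat_lit 618) (nat_lit 58157) (nat_lit 30832),Row.mk (nat_lit 13440) (nat_lit 57596) (nat_lit 1749) (nat_lit 57783) (nat_lit 616) (nat_lit 58157) (nat_lit 30454),Row.mk (nat_lit 13608) (nat_lit 57596) (nat_lit 2340) (nat_lit 57783) (nat_lit 614) (nat_lit 58157) (nat_lit 29983),Row.mk (nat_lit 13776) (nat_lit 57596) (nat_lit 3079) (nat_lit 57783) (nat_lit 611) (nat_lit 58157) (nat_lit 29395),Row.mk (nat_lit 13944) (nat_lit 57596) (nat_lit 4002) (nat_lit 57783) (nat_lit 607) (nat_lit 58157) (nat_lit 28659),Row.mk (nat_lit 14112) (nat_lit 57596) (nat_lit 5154) (nat_lit 57783) (nat_lit 603) (nat_lit 58157) (nat_lit 27741),Row.mk (nat_lit 14280) (nat_lit 57596) (nat_lit 6593) (nat_lit 57783) (nat_lit 597) (nat_lit 58157) (nat_lit 26595),Row.mk (nat_lit 14448) (nat_lit 57596) (nat_lit 8390) (nat_lit 57783) (nat_lit 590) (nat_lit 58157) (nat_lit 25163),Row.mk (nat_lit 14616) (nat_lit 57596)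 (nat_lit 10635) (nat_lit 57783) (nat_lit 582) (nat_lit 58157) (nat_lit 23374),Row.mk (nat_lit 14784) (nat_lit 57596) (nat_lit 13439) (nat_lit 57783) (nat_lit 571) (nat_lit 58157) (nat_lit 21140),Row.mk (nat_lit 14952) (nat_lit 57596) (nat_lit 16941) (nat_lit 57783) (nat_lit 557) (nat_lit 58157) (nat_lit 18350),Row.mk (nat_lit 15120) (nat_lit 57596) (nat_lit 21314) (nat_lit 57783) (nat_lit 541) (nat_lit 58157) (nat_lit 14865),Row.mk (nat_lit 15288) (nat_lit 57596) (nat_lit 26777) (nat_lit 57783) (nat_lit 520) (nat_lit 58157) (nat_lit 10512),Row.mk (nat_lit 15456) (nat_lit 57596) (nat_lit 33600) (nat_lit 57783) (nat_lit 493) (nat_lit 58157) (nat_lit 5076),Row.mk (nat_lit 15624) (nat_lit 57035) (nat_lit 1564) (nat_lit 57222) (nat_lit 575) (nat_lit 57596) (nat_lit 38728),Row.mk (nat_lit 15792) (nat_lit 57035) (nat_lit 12208) (nat_lit 57222) (nat_lit 524) (nat_lit 57596) (nat_lit 30257),Row.mk (nat_lit 15960) (nat_lit 57035) (nat_lit 25501)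 (nat_lit 57222) (nat_lit 460) (nat_lit 57596) (nat_lit 19678),Row.mk (nat_lit 16128) (nat_lit 57035) (nat_lit 42103) (nat_lit 57222) (nat_lit 380) (nat_lit 57596) (nat_lit 6465),Row.mk (nat_lit 16296) (nat_lit 56474) (nat_lit 12185) (nat_lit 56661) (nat_lit 350) (nat_lit 57035) (nat_lit 40547),Row.mk (nat_lit 16464) (nat_lit 56474) (nat_lit 38084) (nat_lit 56661) (nat_lit 194) (nat_lit 57035) (nat_lit 19967),Row.mk (nat_lit 16632) (nat_lit 55913) (nat_lit 7165) (nat_lit 56474) (nat_lit 57529) (nat_lit 0) (nat_lit 0),Row.mk (nat_lit 16800) (nat_lit 55913) (nat_lit 47263) (nat_lit 56287) (nat_lit 303) (nat_lit 56474) (nat_lit 25181),Row.mk (nat_lit 16968) (nat_lit 55352) (nat_lit 18155) (nat_lit 55726) (nat_lit 852) (nat_lit 55913) (nat_lit 63798),Row.mk (nat_lit 17136) (nat_lit 55352) (nat_lit 80587) (nat_lit 55726) (nat_lit 1443) (nat_lit 55913) (nat_lit 13338),Row.mk (nat_lit 17304) (nat_lit 54791) (nat_lit 59328) (nat_lit 55165)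 (nat_lit 2726) (nat_lit 55352) (nat_lit 49007),Row.mk (nat_lit 17472) (nat_lit 54230) (nat_lit 32259) (nat_lit 54604) (nat_lit 4843) (nat_lit 54791) (nat_lit 93556),Row.mk (nat_lit 17640) (nat_lit 54043) (nat_lit 5940) (nat_lit 54230) (nat_lit 147311) (nat_lit 54604) (nat_lit 1884),Row.mk (nat_lit 17808) (nat_lit 53669) (nat_lit 148203) (nat_lit 54043) (nat_lit 11098) (nat_lit 54230) (nat_lit 26406),Row.mk (nat_lit 17976) (nat_lit 53108) (nat_lit 140328) (nat_lit 53482) (nat_lit 18235) (nat_lit 53669) (nat_lit 65328),Row.mk (nat_lit 18144) (nat_lit 52547) (nat_lit 128042) (nat_lit 52921) (nat_lit 29598) (nat_lit 53108) (nat_lit 113941),Row.mk (nat_lit 18312) (nat_lit 51986) (nat_lit 108878) (nat_lit 52360) (nat_lit 47610) (nat_lit 52547) (nat_lit 174657),Row.mk (nat_lit 18480) (nat_lit 51425) (nat_lit 78982) (nat_lit 51799) (nat_lit 76067) (nat_lit 51986) (nat_lit 250490),Row.mk (nat_lit 18648) (nat_lit 50864) (nat_lit 32347) (nat_lit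 51238) (nat_lit 120905) (nat_lit 51425) (nat_lit 345203),Row.mk (nat_lit 18816) (nat_lit 50677) (nat_lit 151007) (nat_lit 50864) (nat_lit 431150) (nat_lit 51238) (nat_lit 32347),Row.mk (nat_lit 18984) (nat_lit 50116) (nat_lit 148203) (nat_lit 50303) (nat_lit 488037) (nat_lit 50677) (nat_lit 123208),Row.mk (nat_lit 19152) (nat_lit 49555) (nat_lit 144702) (nat_lit 49742) (nat_lit 530832) (nat_lit 50116) (nat_lit 264946),Row.mk (nat_lit 19320) (nat_lit 48994) (nat_lit 140328) (nat_lit 49181) (nat_lit 540206) (nat_lit 49555) (nat_lit 486048),Row.mk (nat_lit 19488) (nat_lit 48433) (nat_lit 134865) (nat_lit 48620) (nat_lit 483159) (nat_lit 48994) (nat_lit 830955),Row.mk (nat_lit 19656) (nat_lit 47685) (nat_lit 128042) (nat_lit 47872) (nat_lit 304655) (nat_lit 48433) (nat_lit 1368989),Row.mk (nat_lit 19824) (nat_lit 46750) (nat_lit 33920) (nat_lit 47498) (nat_lit 85600) (nat_lit 47685) (nat_lit 2122690),Row.mk (nat_lit 19992) (nat_lit 46563)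 (nat_lit 108878) (nat_lit 46750) (nat_lit 2102950) (nat_lit 47498) (nat_lit 580585),Row.mk (nat_lit 20160) (nat_lit 45628) (nat_lit 95585) (nat_lit 45815) (nat_lit 1718401) (nat_lit 46563) (nat_lit 1665617),Row.mk (nat_lit 20328) (nat_lit 44506) (nat_lit 78982) (nat_lit 44693) (nat_lit 729608) (nat_lit 45628) (nat_lit 3529296),Row.mk (nat_lit 20496) (nat_lit 44319) (nat_lit 58246) (nat_lit 44506) (nat_lit 4358521) (nat_lit 45441) (nat_lit 993096),Row.mk (nat_lit 20664) (nat_lit 43010) (nat_lit 32347) (nat_lit 43197) (nat_lit 2683620) (nat_lit 44319) (nat_lit 4032768),Row.mk (nat_lit 20832) (nat_lit 43010) (nat_lit 7657318) (nat_lit 44132) (nat_lit 763636) (nat_lit 0) (nat_lit 0),Row.mk (nat_lit 21000) (nat_lit 41327) (nat_lit 4145888) (nat_lit 42823) (nat_lit 6331280) (nat_lit 43010) (nat_lit 32347),Row.mk (nat_lit 21168) (nat_lit 41140) (nat_lit 10515230) (nat_lit 42636) (nat_lit 2530099) (nat_lit 42823) (nat_lit 72748),Row.mk (nat_lit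 21336) (nat_lit 38896) (nat_lit 2615699) (nat_lit 40953) (nat_lit 13637202) (nat_lit 41140) (nat_lit 123208),Row.mk (nat_lit 21504) (nat_lit 38709) (nat_lit 9942933) (nat_lit 40766) (nat_lit 10316147) (nat_lit 40953) (nat_lit 186231),Row.mk (nat_lit 21672) (nat_lit 38522) (nat_lit 19094471) (nat_lit 40579) (nat_lit 6168230) (nat_lit 40766) (nat_lit 264946),Row.mk (nat_lit 21840) (nat_lit 38335) (nat_lit 30524522) (nat_lit 40392) (nat_lit 987582) (nat_lit 40579) (nat_lit 363258),Row.mk (nat_lit 22008) (nat_lit 31603) (nat_lit 6240975) (nat_lit 38148) (nat_lit 33076482) (nat_lit 38335) (nat_lit 486048),Row.mk (nat_lit 22176) (nat_lit 31416) (nat_lit 16143034) (nat_lit 37961) (nat_lit 32923121) (nat_lit 38148) (nat_lit 639410),Row.mk (nat_lit 22344) (nat_lit 31229) (nat_lit 28510467) (nat_lit 37774) (nat_lit 32731575) (nat_lit 37961) (nat_lit 830955),Row.mk (nat_lit 22512) (nat_lit 31042) (nat_lit 43957093) (nat_lit 37587) (nat_lit 32492340)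 (nat_lit 37774) (nat_lit 1070190),Row.mk (nat_lit 22680) (nat_lit 30855) (nat_lit 63249556) (nat_lit 37400) (nat_lit 32193541) (nat_lit 37587) (nat_lit 1368989),Row.mk (nat_lit 22848) (nat_lit 30668) (nat_lit 87345376) (nat_lit 37213) (nat_lit 31820348) (nat_lit 37400) (nat_lit 1742182),Row.mk (nat_lit 23016) (nat_lit 30481) (nat_lit 117440475) (nat_lit 37026) (nat_lit 31354240) (nat_lit 37213) (nat_lit 2208291),Row.mk (nat_lit 23184) (nat_lit 30294) (nat_lit 155028527) (nat_lit 36839) (nat_lit 30772081) (nat_lit 37026) (nat_lit 2790449),Row.mk (nat_lit 23352) (nat_lit 30107) (nat_lit 201975097) (nat_lit 36652) (nat_lit 30044979) (nat_lit 36839) (nat_lit 3517551),Row.mk (nat_lit 23520) (nat_lit 29920) (nat_lit 260610231) (nat_lit 36465) (nat_lit 29136846) (nat_lit 36652) (nat_lit 4425684),Row.mk (nat_lit 23688) (nat_lit 29733) (nat_lit 333844099) (nat_lit 36278) (nat_lit 28002610) (nat_lit 36465) (nat_lit 5559920),Row.mk (nat_lit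 23856) (nat_lit 29546) (nat_lit 425311433) (nat_lit 36091) (nat_lit 26585977) (nat_lit 36278) (nat_lit 6976554),Row.mk (nat_lit 24024) (nat_lit 29359) (nat_lit 539551927) (nat_lit 35904) (nat_lit 24816636) (nat_lit 36091) (nat_lit 8745895),Row.mk (nat_lit 24192) (nat_lit 29172) (nat_lit 682235548) (nat_lit 35717) (nat_lit 22606771) (nat_lit 35904) (nat_lit 10955759),Row.mk (nat_lit 24360) (nat_lit 28985) (nat_lit 860443948) (nat_lit 35530) (nat_lit 19846704) (nat_lit 35717) (nat_lit 13715826),Row.mk (nat_lit 24528) (nat_lit 28798) (nat_lit 1083021941) (nat_lit 35343) (nat_lit 16399447) (nat_lit 35530) (nat_lit 17163083),Row.mk (nat_lit 24696) (nat_lit 28611) (nat_lit 1361016485) (nat_lit 35156) (nat_lit 12093906) (nat_lit 35343) (nat_lit 21468625),Row.mk (nat_lit 24864) (nat_lit 28424) (nat_lit 1708224964) (nat_lit 34969) (nat_lit 6716389) (nat_lit 35156) (nat_lit 26846142),Row.mk (nat_lit 25032) (nat_lit 28237) (nat_lit 2141879979)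 (nat_lit 34969) (nat_lit 33562531) (nat_lit 0) (nat_lit 0),Row.mk (nat_lit 25200) (nat_lit 28050) (nat_lit 2675116022) (nat_lit 28237) (nat_lit 8388608) (nat_lit 34782) (nat_lit 33562531),Row.mk (nat_lit 25368) (nat_lit 27863) (nat_lit 3341114976) (nat_lit 28050) (nat_lit 18865777) (nat_lit 34595) (nat_lit 33562531),Row.mk (nat_lit 25536) (nat_lit 27676) (nat_lit 4172931604) (nat_lit 27863) (nat_lit 31951508) (nat_lit 34408) (nat_lit 33562531),Row.mk (nat_lit 25704) (nat_lit 27489) (nat_lit 5211850506) (nat_lit 27676) (nat_lit 48295271) (nat_lit 34221) (nat_lit 33562531),Row.mk (nat_lit 25872) (nat_lit 27302) (nat_lit 6509435151) (nat_lit 27489) (nat_lit 68708236) (nat_lit 34034) (nat_lit 33562531),Row.mk (nat_lit 26040) (nat_lit 32912) (nat_lit 8420955) (nat_lit 62084) (nat_lit 8249432185) (nat_lit 0) (nat_lit 0),Row.mk (nat_lit 26208) (nat_lit 32912) (nat_lit 8420955) (nat_lit 62084) (nat_lit 10305430352) (nat_lit 0) (nat_lit 0),Row.mk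 (nat_lit 26376) (nat_lit 32912) (nat_lit 8420955) (nat_lit 62084) (nat_lit 12873322465) (nat_lit 0) (nat_lit 0),Row.mk (nat_lit 26544) (nat_lit 32912) (nat_lit 8420955) (nat_lit 62084) (nat_lit 16080557766) (nat_lit 0) (nat_lit 0),Row.mk (nat_lit 26712) (nat_lit 32912) (nat_lit 8420955) (nat_lit 62084) (nat_lit 20086317287) (nat_lit 0) (nat_lit 0),Row.mk (nat_lit 26880) (nat_lit 32912) (nat_lit 8420955) (nat_lit 62084) (nat_lit 25089414294) (nat_lit 0) (nat_lit 0)],
[Row.mk (nat_lit 6216) (nat_lit 57596) (nat_lit 39619) (nat_lit 57783) (nat_lit 781) (nat_lit 0) (nat_lit 0),Row.mk (nat_lit 6384) (nat_lit 57596) (nat_lit 39619) (nat_lit 57783) (nat_lit 781) (nat_lit 0) (nat_lit 0),Row.mk (nat_lit 6552) (nat_lit 57596) (nat_lit 39619) (nat_lit 57783) (nat_lit 781) (nat_lit 0) (nat_lit 0),Row.mk (nat_lit 6720) (nat_lit 57596) (nat_lit 39619) (nat_lit 57783) (nat_lit 781) (nat_lit 0) (nat_lit 0),Row.mk (nat_lit 6888) (nat_lit 57596) (nat_lit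 39619) (nat_lit 57783) (nat_lit 781) (nat_lit 0) (nat_lit 0),Row.mk (nat_lit 7056) (nat_lit 57596) (nat_lit 39619) (nat_lit 57783) (nat_lit 781) (nat_lit 0) (nat_lit 0),Row.mk (nat_lit 7224) (nat_lit 57596) (nat_lit 39619) (nat_lit 57783) (nat_lit 781) (nat_lit 0) (nat_lit 0),Row.mk (nat_lit 7392) (nat_lit 57596) (nat_lit 39619) (nat_lit 57783) (nat_lit 780) (nat_lit 0) (nat_lit 0),Row.mk (nat_lit 7560) (nat_lit 57596) (nat_lit 39619) (nat_lit 57783) (nat_lit 780) (nat_lit 0) (nat_lit 0),Row.mk (nat_lit 7728) (nat_lit 57222) (nat_lit 1) (nat_lit 57596) (nat_lit 39619) (nat_lit 57783) (nat_lit 780),Row.mk (nat_lit 7896) (nat_lit 57222) (nat_lit 1) (nat_lit 57596) (nat_lit 39619) (nat_lit 57783) (nat_lit 780),Row.mk (nat_lit 8064) (nat_lit 57222) (nat_lit 1) (nat_lit 57596) (nat_lit 39619) (nat_lit 57783) (nat_lit 779),Row.mk (nat_lit 8232) (nat_lit 57222) (nat_lit 2) (nat_lit 57596) (nat_lit 39619) (nat_lit 57783) (nat_lit 779),Row.mk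 (nat_lit 8400) (nat_lit 57222) (nat_lit 2) (nat_lit 57596) (nat_lit 39619) (nat_lit 57783) (nat_lit 779),Row.mk (nat_lit 8568) (nat_lit 57222) (nat_lit 3) (nat_lit 57596) (nat_lit 39619) (nat_lit 57783) (nat_lit 778),Row.mk (nat_lit 8736) (nat_lit 57222) (nat_lit 4) (nat_lit 57596) (nat_lit 39619) (nat_lit 57783) (nat_lit 777),Row.mk (nat_lit 8904) (nat_lit 57222) (nat_lit 5) (nat_lit 57596) (nat_lit 39619) (nat_lit 57783) (nat_lit 776),Row.mk (nat_lit 9072) (nat_lit 57222) (nat_lit 7) (nat_lit 57596) (nat_lit 39619) (nat_lit 57783) (nat_lit 775),Row.mk (nat_lit 9240) (nat_lit 57222) (nat_lit 9) (nat_lit 57596) (nat_lit 39619) (nat_lit 57783) (nat_lit 774),Row.mk (nat_lit 9408) (nat_lit 57222) (nat_lit 11) (nat_lit 57596) (nat_lit 39619) (nat_lit 57783) (nat_lit 772),Row.mk (nat_lit 9576) (nat_lit 57222) (nat_lit 14) (nat_lit 57596) (nat_lit 39619) (nat_lit 57783) (nat_lit 770),Row.mk (nat_lit 9744) (nat_lit 57222) (nat_lit 17) (nat_lit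 57596) (nat_lit 39619) (nat_lit 57783) (nat_lit 767),Row.mk (nat_lit 9912) (nat_lit 57222) (nat_lit 22) (nat_lit 57596) (nat_lit 39619) (nat_lit 57783) (nat_lit 763),Row.mk (nat_lit 10080) (nat_lit 57222) (nat_lit 27) (nat_lit 57596) (nat_lit 39619) (nat_lit 57783) (nat_lit 759),Row.mk (nat_lit 10248) (nat_lit 57222) (nat_lit 34) (nat_lit 57596) (nat_lit 39619) (nat_lit 57783) (nat_lit 753),Row.mk (nat_lit 10416) (nat_lit 57222) (nat_lit 43) (nat_lit 57596) (nat_lit 39619) (nat_lit 57783) (nat_lit 746),Row.mk (nat_lit 10584) (nat_lit 57222) (nat_lit 53) (nat_lit 57596) (nat_lit 39619) (nat_lit 57783) (nat_lit 738),Row.mk (nat_lit 10752) (nat_lit 57222) (nat_lit 67) (nat_lit 57596) (nat_lit 39619) (nat_lit 57783) (nat_lit 727),Row.mk (nat_lit 10920) (nat_lit 57222) (nat_lit 84) (nat_lit 57596) (nat_lit 39619) (nat_lit 57783) (nat_lit 713),Row.mk (nat_lit 11088) (nat_lit 57222) (nat_lit 105) (nat_lit 57596) (nat_lit 39620) (nat_lit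 57783) (nat_lit 696),Row.mk (nat_lit 11256) (nat_lit 57222) (nat_lit 131) (nat_lit 57596) (nat_lit 39620) (nat_lit 57783) (nat_lit 675),Row.mk (nat_lit 11424) (nat_lit 57222) (nat_lit 164) (nat_lit 57596) (nat_lit 39620) (nat_lit 57783) (nat_lit 649),Row.mk (nat_lit 11592) (nat_lit 57222) (nat_lit 204) (nat_lit 57596) (nat_lit 39620) (nat_lit 57783) (nat_lit 616),Row.mk (nat_lit 11760) (nat_lit 57222) (nat_lit 255) (nat_lit 57596) (nat_lit 39620) (nat_lit 57783) (nat_lit 575),Row.mk (nat_lit 11928) (nat_lit 57222) (nat_lit 319) (nat_lit 57596) (nat_lit 39621) (nat_lit 57783) (nat_lit 524),Row.mk (nat_lit 12096) (nat_lit 57222) (nat_lit 399) (nat_lit 57596) (nat_lit 39621) (nat_lit 57783) (nat_lit 460),Row.mk (nat_lit 12264) (nat_lit 57222) (nat_lit 498) (nat_lit 57596) (nat_lit 39621) (nat_lit 57783) (nat_lit 380),Row.mk (nat_lit 12432) (nat_lit 57222) (nat_lit 622) (nat_lit 57596) (nat_lit 39622) (nat_lit 57783) (nat_lit 280),Row.mk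 (nat_lit 12600) (nat_lit 57222) (nat_lit 777) (nat_lit 57596) (nat_lit 39623) (nat_lit 57783) (nat_lit 155),Row.mk (nat_lit 12768) (nat_lit 57222) (nat_lit 971) (nat_lit 57596) (nat_lit 39624) (nat_lit 0) (nat_lit 0),Row.mk (nat_lit 12936) (nat_lit 57035) (nat_lit 243) (nat_lit 57222) (nat_lit 970) (nat_lit 57596) (nat_lit 39430),Row.mk (nat_lit 13104) (nat_lit 57035) (nat_lit 546) (nat_lit 57222) (nat_lit 968) (nat_lit 57596) (nat_lit 39189),Row.mk (nat_lit 13272) (nat_lit 57035) (nat_lit 925) (nat_lit 57222) (nat_lit 966) (nat_lit 57596) (nat_lit 38887),Row.mk (nat_lit 13440) (nat_lit 57035) (nat_lit 1399) (nat_lit 57222) (nat_lit 964) (nat_lit 57596) (nat_lit 38510),Row.mk (nat_lit 13608) (nat_lit 57035) (nat_lit 1990) (nat_lit 57222) (nat_lit 961) (nat_lit 57596) (nat_lit 38040),Row.mk (nat_lit 13776) (nat_lit 57035) (nat_lit 2729) (nat_lit 57222) (nat_lit 958) (nat_lit 57596) (nat_lit 37452),Row.mk (nat_lit 13944) (nat_lit 57035)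 (nat_lit 3651) (nat_lit 57222) (nat_lit 953) (nat_lit 57596) (nat_lit 36718),Row.mk (nat_lit 14112) (nat_lit 57035) (nat_lit 4803) (nat_lit 57222) (nat_lit 948) (nat_lit 57596) (nat_lit 35801),Row.mk (nat_lit 14280) (nat_lit 57035) (nat_lit 6242) (nat_lit 57222) (nat_lit 941) (nat_lit 57596) (nat_lit 34655),Row.mk (nat_lit 14448) (nat_lit 57035) (nat_lit 8040) (nat_lit 57222) (nat_lit 932) (nat_lit 57596) (nat_lit 33225),Row.mk (nat_lit 14616) (nat_lit 57035) (nat_lit 10285) (nat_lit 57222) (nat_lit 921) (nat_lit 57596) (nat_lit 31438),Row.mk (nat_lit 14784) (nat_lit 57035) (nat_lit 13088) (nat_lit 57222) (nat_lit 908) (nat_lit 57596) (nat_lit 29207),Row.mk (nat_lit 14952) (nat_lit 57035) (nat_lit 16590) (nat_lit 57222) (nat_lit 891) (nat_lit 57596) (nat_lit 26420),Row.mk (nat_lit 15120) (nat_lit 57035) (nat_lit 20964) (nat_lit 57222) (nat_lit 870) (nat_lit 57596) (nat_lit 22939),Row.mk (nat_lit 15288) (nat_lit 57035) (nat_lit 26427)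 (nat_lit 57222) (nat_lit 844) (nat_lit 57596) (nat_lit 18592),Row.mk (nat_lit 15456) (nat_lit 57035) (nat_lit 33249) (nat_lit 57222) (nat_lit 811) (nat_lit 57596) (nat_lit 13162),Row.mk (nat_lit 15624) (nat_lit 57035) (nat_lit 41771) (nat_lit 57222) (nat_lit 770) (nat_lit 57596) (nat_lit 6380),Row.mk (nat_lit 15792) (nat_lit 56474) (nat_lit 1711) (nat_lit 56661) (nat_lit 897) (nat_lit 57035) (nat_lit 48434),Row.mk (nat_lit 15960) (nat_lit 56474) (nat_lit 15004) (nat_lit 56661) (nat_lit 817) (nat_lit 57035) (nat_lit 37871),Row.mk (nat_lit 16128) (nat_lit 56474) (nat_lit 31607) (nat_lit 56661) (nat_lit 718) (nat_lit 57035) (nat_lit 24678),Row.mk (nat_lit 16296) (nat_lit 56474) (nat_lit 52343) (nat_lit 56661) (nat_lit 593) (nat_lit 57035) (nat_lit 8200),Row.mk (nat_lit 16464) (nat_lit 55913) (nat_lit 14915) (nat_lit 56100) (nat_lit 546) (nat_lit 56474) (nat_lit 50837),Row.mk (nat_lit 16632) (nat_lit 55913) (nat_lit 47263) (nat_lit 56100)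 (nat_lit 303) (nat_lit 56474) (nat_lit 25181),Row.mk (nat_lit 16800) (nat_lit 55352) (nat_lit 8570) (nat_lit 55913) (nat_lit 72231) (nat_lit 0) (nat_lit 0),Row.mk (nat_lit 16968) (nat_lit 55352) (nat_lit 58556) (nat_lit 55726) (nat_lit 473) (nat_lit 55913) (nat_lit 31830),Row.mk (nat_lit 17136) (nat_lit 54791) (nat_lit 21937) (nat_lit 55165) (nat_lit 1329) (nat_lit 55352) (nat_lit 80156),Row.mk (nat_lit 17304) (nat_lit 54791) (nat_lit 99729) (nat_lit 55165) (nat_lit 2252) (nat_lit 55352) (nat_lit 17133),Row.mk (nat_lit 17472) (nat_lit 54230) (nat_lit 72660) (nat_lit 54604) (nat_lit 4252) (nat_lit 54791) (nat_lit 61800),Row.mk (nat_lit 17640) (nat_lit 53669) (nat_lit 38047) (nat_lit 54043) (nat_lit 7556) (nat_lit 54230) (nat_lit 117588),Row.mk (nat_lit 17808) (nat_lit 53482) (nat_lit 6497) (nat_lit 53669) (nat_lit 182107) (nat_lit 54043) (nat_lit 5157),Row.mk (nat_lit 17976) (nat_lit 53108) (nat_lit 180729) (nat_lit 53482) (nat_lit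 17312) (nat_lit 53669) (nat_lit 33903),Row.mk (nat_lit 18144) (nat_lit 52547) (nat_lit 168443) (nat_lit 52921) (nat_lit 28446) (nat_lit 53108) (nat_lit 82746),Row.mk (nat_lit 18312) (nat_lit 51986) (nat_lit 149279) (nat_lit 52360) (nat_lit 46171) (nat_lit 52547) (nat_lit 143749),Row.mk (nat_lit 18480) (nat_lit 51425) (nat_lit 119383) (nat_lit 51799) (nat_lit 74269) (nat_lit 51986) (nat_lit 219940),Row.mk (nat_lit 18648) (nat_lit 50864) (nat_lit 72748) (nat_lit 51238) (nat_lit 118660) (nat_lit 51425) (nat_lit 315101),Row.mk (nat_lit 18816) (nat_lit 50677) (nat_lit 188604) (nat_lit 50864) (nat_lit 433954) (nat_lit 0) (nat_lit 0),Row.mk (nat_lit 18984) (nat_lit 50116) (nat_lit 185103) (nat_lit 50303) (nat_lit 491538) (nat_lit 50677) (nat_lit 90860),Row.mk (nat_lit 19152) (nat_lit 49555) (nat_lit 180729) (nat_lit 49742) (nat_lit 535205) (nat_lit 50116) (nat_lit 232598),Row.mk (nat_lit 19320) (nat_lit 48994) (nat_lit 175266) (nat_lit 49181)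 (nat_lit 545669) (nat_lit 49555) (nat_lit 453701),Row.mk (nat_lit 19488) (nat_lit 48433) (nat_lit 168443) (nat_lit 48620) (nat_lit 489982) (nat_lit 48994) (nat_lit 798608),Row.mk (nat_lit 19656) (nat_lit 47685) (nat_lit 159922) (nat_lit 47872) (nat_lit 313177) (nat_lit 48433) (nat_lit 1336642),Row.mk (nat_lit 19824) (nat_lit 46750) (nat_lit 74321) (nat_lit 47498) (nat_lit 74957) (nat_lit 47685) (nat_lit 2100985),Row.mk (nat_lit 19992) (nat_lit 46563) (nat_lit 135986) (nat_lit 46750) (nat_lit 2116243) (nat_lit 47498) (nat_lit 548238),Row.mk (nat_lit 20160) (nat_lit 45628) (nat_lit 119383) (nat_lit 45815) (nat_lit 1735004) (nat_lit 46563) (nat_lit 1633270),Row.mk (nat_lit 20328) (nat_lit 44506) (nat_lit 98647) (nat_lit 44693) (nat_lit 750345) (nat_lit 45628) (nat_lit 3496949),Row.mk (nat_lit 20496) (nat_lit 44319) (nat_lit 72748) (nat_lit 44506) (nat_lit 4384420) (nat_lit 45441) (nat_lit 960749),Row.mk (nat_lit 20664) (nat_lit 43010)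 (nat_lit 40401) (nat_lit 43197) (nat_lit 2715968) (nat_lit 44319) (nat_lit 4000420),Row.mk (nat_lit 20832) (nat_lit 43010) (nat_lit 7697719) (nat_lit 44132) (nat_lit 731289) (nat_lit 0) (nat_lit 0),Row.mk (nat_lit 21000) (nat_lit 41327) (nat_lit 4186289) (nat_lit 42823) (nat_lit 6290879) (nat_lit 43010) (nat_lit 40401),Row.mk (nat_lit 21168) (nat_lit 41140) (nat_lit 10555631) (nat_lit 42636) (nat_lit 2479639) (nat_lit 42823) (nat_lit 90860),Row.mk (nat_lit 21336) (nat_lit 38896) (nat_lit 2656100) (nat_lit 40953) (nat_lit 13574179) (nat_lit 41140) (nat_lit 153884),Row.mk (nat_lit 21504) (nat_lit 38709) (nat_lit 9983334) (nat_lit 40766) (nat_lit 10237433) (nat_lit 40953) (nat_lit 232598),Row.mk (nat_lit 21672) (nat_lit 38522) (nat_lit 19134873) (nat_lit 40579) (nat_lit 6069918) (nat_lit 40766) (nat_lit 330911),Row.mk (nat_lit 21840) (nat_lit 38335) (nat_lit 30564924) (nat_lit 40392) (nat_lit 864792) (nat_lit 40579) (nat_lit 453701),Row.mk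 (nat_lit 22008) (nat_lit 31603) (nat_lit 6281376) (nat_lit 38148) (nat_lit 32923121) (nat_lit 38335) (nat_lit 607063),Row.mk (nat_lit 22176) (nat_lit 31416) (nat_lit 16183435) (nat_lit 37961) (nat_lit 32731575) (nat_lit 38148) (nat_lit 798608),Row.mk (nat_lit 22344) (nat_lit 31229) (nat_lit 28550868) (nat_lit 37774) (nat_lit 32492340) (nat_lit 37961) (nat_lit 1037843),Row.mk (nat_lit 22512) (nat_lit 31042) (nat_lit 43997494) (nat_lit 37587) (nat_lit 32193541) (nat_lit 37774) (nat_lit 1336642),Row.mk (nat_lit 22680) (nat_lit 30855) (nat_lit 63289957) (nat_lit 37400) (nat_lit 31820348) (nat_lit 37587) (nat_lit 1709835),Row.mk (nat_lit 22848) (nat_lit 30668) (nat_lit 87385777) (nat_lit 37213) (nat_lit 31354240) (nat_lit 37400) (nat_lit 2175943),Row.mk (nat_lit 23016) (nat_lit 30481) (nat_lit 117480876) (nat_lit 37026) (nat_lit 30772081) (nat_lit 37213) (nat_lit 2758102),Row.mk (nat_lit 23184) (nat_lit 30294) (nat_lit 155068928) (nat_lit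 36839) (nat_lit 30044979) (nat_lit 37026) (nat_lit 3485204),Row.mk (nat_lit 23352) (nat_lit 30107) (nat_lit 202015498) (nat_lit 36652) (nat_lit 29136846) (nat_lit 36839) (nat_lit 4393337),Row.mk (nat_lit 23520) (nat_lit 29920) (nat_lit 260650632) (nat_lit 36465) (nat_lit 28002610) (nat_lit 36652) (nat_lit 5527573),Row.mk (nat_lit 23688) (nat_lit 29733) (nat_lit 333884500) (nat_lit 36278) (nat_lit 26585977) (nat_lit 36465) (nat_lit 6944206),Row.mk (nat_lit 23856) (nat_lit 29546) (nat_lit 425351834) (nat_lit 36091) (nat_lit 24816636) (nat_lit 36278) (nat_lit 8713547),Row.mk (nat_lit 24024) (nat_lit 29359) (nat_lit 539592328) (nat_lit 35904) (nat_lit 22606771) (nat_lit 36091) (nat_lit 10923412),Row.mk (nat_lit 24192) (nat_lit 29172) (nat_lit 682275949) (nat_lit 35717) (nat_lit 19846704) (nat_lit 35904) (nat_lit 13683479),Row.mk (nat_lit 24360) (nat_lit 28985) (nat_lit 860484349) (nat_lit 35530) (nat_lit 16399447) (nat_lit 35717) (nat_lit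 17130736),Row.mk (nat_lit 24528) (nat_lit 28798) (nat_lit 1083062342) (nat_lit 35343) (nat_lit 12093906) (nat_lit 35530) (nat_lit 21436277),Row.mk (nat_lit 24696) (nat_lit 28611) (nat_lit 1361056886) (nat_lit 35156) (nat_lit 6716389) (nat_lit 35343) (nat_lit 26813794),Row.mk (nat_lit 24864) (nat_lit 28424) (nat_lit 1708265365) (nat_lit 35156) (nat_lit 33530184) (nat_lit 0) (nat_lit 0),Row.mk (nat_lit 25032) (nat_lit 28237) (nat_lit 2133531772) (nat_lit 28424) (nat_lit 8388608) (nat_lit 34969) (nat_lit 33530184),Row.mk (nat_lit 25200) (nat_lit 28050) (nat_lit 2664679254) (nat_lit 28237) (nat_lit 18865777) (nat_lit 34782) (nat_lit 33530184),Row.mk (nat_lit 25368) (nat_lit 27863) (nat_lit 3328069646) (nat_lit 28050) (nat_lit 31951508) (nat_lit 34595) (nat_lit 33530184),Row.mk (nat_lit 25536) (nat_lit 27676) (nat_lit 4156628243) (nat_lit 27863) (nat_lit 48295271) (nat_lit 34408) (nat_lit 33530184),Row.mk (nat_lit 25704) (nat_lit 27489)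 (nat_lit 5191477941) (nat_lit 27676) (nat_lit 68708236) (nat_lit 34221) (nat_lit 33530184),Row.mk (nat_lit 25872) (nat_lit 27302) (nat_lit 6483980251) (nat_lit 27489) (nat_lit 94203538) (nat_lit 34034) (nat_lit 33530184),Row.mk (nat_lit 26040) (nat_lit 32912) (nat_lit 8429009) (nat_lit 62084) (nat_lit 8249432185) (nat_lit 0) (nat_lit 0),Row.mk (nat_lit 26208) (nat_lit 32912) (nat_lit 8429009) (nat_lit 62084) (nat_lit 10305430352) (nat_lit 0) (nat_lit 0),Row.mk (nat_lit 26376) (nat_lit 32912) (nat_lit 8429009) (nat_lit 62084) (nat_lit 12873322465) (nat_lit 0) (nat_lit 0),Row.mk (nat_lit 26544) (nat_lit 32912) (nat_lit 8429009) (nat_lit 62084) (nat_lit 16080557766) (nat_lit 0) (nat_lit 0),Row.mk (nat_lit 26712) (nat_lit 32912) (nat_lit 8429009) (nat_lit 62084) (nat_lit 20086317287) (nat_lit 0) (nat_lit 0),Row.mk (nat_lit 26880) (nat_lit 32912) (nat_lit 8429009) (nat_lit 62084) (nat_lit 25089414294) (nat_lit 0) (nat_lit 0),Row.mk (nat_lit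 27048) (nat_lit 32912) (nat_lit 8429009) (nat_lit 62084) (nat_lit 31338161762) (nat_lit 0) (nat_lit 0)],
[Row.mk (nat_lit 6216) (nat_lit 57035) (nat_lit 49240) (nat_lit 57222) (nat_lit 1218) (nat_lit 0) (nat_lit 0),Row.mk (nat_lit 6384) (nat_lit 57035) (nat_lit 49240) (nat_lit 57222) (nat_lit 1218) (nat_lit 0) (nat_lit 0),Row.mk (nat_lit 6552) (nat_lit 57035) (nat_lit 49240) (nat_lit 57222) (nat_lit 1218) (nat_lit 0) (nat_lit 0),Row.mk (nat_lit 6720) (nat_lit 57035) (nat_lit 49240) (nat_lit 57222) (nat_lit 1218) (nat_lit 0) (nat_lit 0),Row.mk (nat_lit 6888) (nat_lit 57035) (nat_lit 49240) (nat_lit 57222) (nat_lit 1218) (nat_lit 0) (nat_lit 0),Row.mk (nat_lit 7056) (nat_lit 57035) (nat_lit 49240) (nat_lit 57222) (nat_lit 1218) (nat_lit 0) (nat_lit 0),Row.mk (nat_lit 7224) (nat_lit 57035) (nat_lit 49240) (nat_lit 57222) (nat_lit 1218) (nat_lit 0) (nat_lit 0),Row.mk (nat_lit 7392) (nat_lit 57035) (nat_lit 49240) (nat_lit 57222) (nat_lit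 1218) (nat_lit 0) (nat_lit 0),Row.mk (nat_lit 7560) (nat_lit 57035) (nat_lit 49240) (nat_lit 57222) (nat_lit 1218) (nat_lit 0) (nat_lit 0),Row.mk (nat_lit 7728) (nat_lit 56661) (nat_lit 1) (nat_lit 57035) (nat_lit 49240) (nat_lit 57222) (nat_lit 1218),Row.mk (nat_lit 7896) (nat_lit 56661) (nat_lit 1) (nat_lit 57035) (nat_lit 49240) (nat_lit 57222) (nat_lit 1217),Row.mk (nat_lit 8064) (nat_lit 56661) (nat_lit 1) (nat_lit 57035) (nat_lit 49240) (nat_lit 57222) (nat_lit 1217),Row.mk (nat_lit 8232) (nat_lit 56661) (nat_lit 2) (nat_lit 57035) (nat_lit 49240) (nat_lit 57222) (nat_lit 1217),Row.mk (nat_lit 8400) (nat_lit 56661) (nat_lit 2) (nat_lit 57035) (nat_lit 49240) (nat_lit 57222) (nat_lit 1216),Row.mk (nat_lit 8568) (nat_lit 56661) (nat_lit 3) (nat_lit 57035) (nat_lit 49240) (nat_lit 57222) (nat_lit 1216),Row.mk (nat_lit 8736) (nat_lit 56661) (nat_lit 4) (nat_lit 57035) (nat_lit 49240) (nat_lit 57222) (nat_lit 1215),Row.mk (nat_lit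 8904) (nat_lit 56661) (nat_lit 5) (nat_lit 57035) (nat_lit 49240) (nat_lit 57222) (nat_lit 1214),Row.mk (nat_lit 9072) (nat_lit 56661) (nat_lit 7) (nat_lit 57035) (nat_lit 49240) (nat_lit 57222) (nat_lit 1213),Row.mk (nat_lit 9240) (nat_lit 56661) (nat_lit 9) (nat_lit 57035) (nat_lit 49240) (nat_lit 57222) (nat_lit 1211),Row.mk (nat_lit 9408) (nat_lit 56661) (nat_lit 11) (nat_lit 57035) (nat_lit 49240) (nat_lit 57222) (nat_lit 1209),Row.mk (nat_lit 9576) (nat_lit 56661) (nat_lit 14) (nat_lit 57035) (nat_lit 49240) (nat_lit 57222) (nat_lit 1207),Row.mk (nat_lit 9744) (nat_lit 56661) (nat_lit 17) (nat_lit 57035) (nat_lit 49240) (nat_lit 57222) (nat_lit 1204),Row.mk (nat_lit 9912) (nat_lit 56661) (nat_lit 22) (nat_lit 57035) (nat_lit 49240) (nat_lit 57222) (nat_lit 1201),Row.mk (nat_lit 10080) (nat_lit 56661) (nat_lit 27) (nat_lit 57035) (nat_lit 49240) (nat_lit 57222) (nat_lit 1196),Row.mk (nat_lit 10248) (nat_lit 56661) (nat_lit 34)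 (nat_lit 57035) (nat_lit 49241) (nat_lit 57222) (nat_lit 1191),Row.mk (nat_lit 10416) (nat_lit 56661) (nat_lit 43) (nat_lit 57035) (nat_lit 49241) (nat_lit 57222) (nat_lit 1184),Row.mk (nat_lit 10584) (nat_lit 56661) (nat_lit 53) (nat_lit 57035) (nat_lit 49241) (nat_lit 57222) (nat_lit 1175),Row.mk (nat_lit 10752) (nat_lit 56661) (nat_lit 67) (nat_lit 57035) (nat_lit 49241) (nat_lit 57222) (nat_lit 1164),Row.mk (nat_lit 10920) (nat_lit 56661) (nat_lit 84) (nat_lit 57035) (nat_lit 49241) (nat_lit 57222) (nat_lit 1151),Row.mk (nat_lit 11088) (nat_lit 56661) (nat_lit 105) (nat_lit 57035) (nat_lit 49241) (nat_lit 57222) (nat_lit 1134),Row.mk (nat_lit 11256) (nat_lit 56661) (nat_lit 131) (nat_lit 57035) (nat_lit 49241) (nat_lit 57222) (nat_lit 1113),Row.mk (nat_lit 11424) (nat_lit 56661) (nat_lit 163) (nat_lit 57035) (nat_lit 49241) (nat_lit 57222) (nat_lit 1087),Row.mk (nat_lit 11592) (nat_lit 56661) (nat_lit 204) (nat_lit 57035) (nat_lit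 49242) (nat_lit 57222) (nat_lit 1054),Row.mk (nat_lit 11760) (nat_lit 56661) (nat_lit 255) (nat_lit 57035) (nat_lit 49242) (nat_lit 57222) (nat_lit 1013),Row.mk (nat_lit 11928) (nat_lit 56661) (nat_lit 319) (nat_lit 57035) (nat_lit 49242) (nat_lit 57222) (nat_lit 961),Row.mk (nat_lit 12096) (nat_lit 56661) (nat_lit 398) (nat_lit 57035) (nat_lit 49243) (nat_lit 57222) (nat_lit 897),Row.mk (nat_lit 12264) (nat_lit 56661) (nat_lit 497) (nat_lit 57035) (nat_lit 49243) (nat_lit 57222) (nat_lit 817),Row.mk (nat_lit 12432) (nat_lit 56661) (nat_lit 621) (nat_lit 57035) (nat_lit 49244) (nat_lit 57222) (nat_lit 718),Row.mk (nat_lit 12600) (nat_lit 56661) (nat_lit 776) (nat_lit 57035) (nat_lit 49245) (nat_lit 57222) (nat_lit 593),Row.mk (nat_lit 12768) (nat_lit 56661) (nat_lit 970) (nat_lit 57035) (nat_lit 49246) (nat_lit 57222) (nat_lit 437),Row.mk (nat_lit 12936) (nat_lit 56661) (nat_lit 1211) (nat_lit 57035) (nat_lit 49248) (nat_lit 57222)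 (nat_lit 243),Row.mk (nat_lit 13104) (nat_lit 56661) (nat_lit 1513) (nat_lit 57035) (nat_lit 49249) (nat_lit 0) (nat_lit 0),Row.mk (nat_lit 13272) (nat_lit 56474) (nat_lit 379) (nat_lit 56661) (nat_lit 1511) (nat_lit 57035) (nat_lit 48948),Row.mk (nat_lit 13440) (nat_lit 56474) (nat_lit 852) (nat_lit 56661) (nat_lit 1508) (nat_lit 57035) (nat_lit 48572),Row.mk (nat_lit 13608) (nat_lit 56474) (nat_lit 1443) (nat_lit 56661) (nat_lit 1504) (nat_lit 57035) (nat_lit 48102),Row.mk (nat_lit 13776) (nat_lit 56474) (nat_lit 2182) (nat_lit 56661) (nat_lit 1500) (nat_lit 57035) (nat_lit 47515),Row.mk (nat_lit 13944) (nat_lit 56474) (nat_lit 3105) (nat_lit 56661) (nat_lit 1494) (nat_lit 57035) (nat_lit 46782),Row.mk (nat_lit 14112) (nat_lit 56474) (nat_lit 4257) (nat_lit 56661) (nat_lit 1487) (nat_lit 57035) (nat_lit 45866),Row.mk (nat_lit 14280) (nat_lit 56474) (nat_lit 5696) (nat_lit 56661) (nat_lit 1479) (nat_lit 57035) (nat_lit 44723),Row.mk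 (nat_lit 14448) (nat_lit 56474) (nat_lit 7493) (nat_lit 56661) (nat_lit 1468) (nat_lit 57035) (nat_lit 43295),Row.mk (nat_lit 14616) (nat_lit 56474) (nat_lit 9738) (nat_lit 56661) (nat_lit 1454) (nat_lit 57035) (nat_lit 41511),Row.mk (nat_lit 14784) (nat_lit 56474) (nat_lit 12542) (nat_lit 56661) (nat_lit 1438) (nat_lit 57035) (nat_lit 39283),Row.mk (nat_lit 14952) (nat_lit 56474) (nat_lit 16044) (nat_lit 56661) (nat_lit 1416) (nat_lit 57035) (nat_lit 36500),Row.mk (nat_lit 15120) (nat_lit 56474) (nat_lit 20417) (nat_lit 56661) (nat_lit 1390) (nat_lit 57035) (nat_lit 33025),Row.mk (nat_lit 15288) (nat_lit 56474) (nat_lit 25880) (nat_lit 56661) (nat_lit 1357) (nat_lit 57035) (nat_lit 28684),Row.mk (nat_lit 15456) (nat_lit 56474) (nat_lit 32703) (nat_lit 56661) (nat_lit 1316) (nat_lit 57035) (nat_lit 23262),Row.mk (nat_lit 15624) (nat_lit 56474) (nat_lit 41224) (nat_lit 56661) (nat_lit 1265) (nat_lit 57035) (nat_lit 16491),Row.mk (nat_lit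 15792) (nat_lit 56474) (nat_lit 51867) (nat_lit 56661) (nat_lit 1201) (nat_lit 57035) (nat_lit 8033),Row.mk (nat_lit 15960) (nat_lit 55913) (nat_lit 1758) (nat_lit 56100) (nat_lit 1400) (nat_lit 56474) (nat_lit 60593),Row.mk (nat_lit 16128) (nat_lit 55913) (nat_lit 18361) (nat_lit 56100) (nat_lit 1276) (nat_lit 56474) (nat_lit 47425),Row.mk (nat_lit 16296) (nat_lit 55913) (nat_lit 39097) (nat_lit 56100) (nat_lit 1120) (nat_lit 56474) (nat_lit 30978),Row.mk (nat_lit 16464) (nat_lit 55913) (nat_lit 64996) (nat_lit 56100) (nat_lit 925) (nat_lit 56474) (nat_lit 10436),Row.mk (nat_lit 16632) (nat_lit 55352) (nat_lit 18155) (nat_lit 55539) (nat_lit 852) (nat_lit 55913) (nat_lit 63798),Row.mk (nat_lit 16800) (nat_lit 55352) (nat_lit 58556) (nat_lit 55539) (nat_lit 473) (nat_lit 55913) (nat_lit 31830),Row.mk (nat_lit 16968) (nat_lit 54791) (nat_lit 10113) (nat_lit 55352) (nat_lit 90806) (nat_lit 0) (nat_lit 0),Row.mk (nat_lit 17136) (nat_lit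 54791) (nat_lit 72397) (nat_lit 55165) (nat_lit 738) (nat_lit 55352) (nat_lit 40346),Row.mk (nat_lit 17304) (nat_lit 54230) (nat_lit 26247) (nat_lit 54604) (nat_lit 2074) (nat_lit 54791) (nat_lit 100852),Row.mk (nat_lit 17472) (nat_lit 54230) (nat_lit 123120) (nat_lit 54604) (nat_lit 3513) (nat_lit 54791) (nat_lit 22137),Row.mk (nat_lit 17640) (nat_lit 53669) (nat_lit 88506) (nat_lit 54043) (nat_lit 6633) (nat_lit 54230) (nat_lit 78109),Row.mk (nat_lit 17808) (nat_lit 53108) (nat_lit 44017) (nat_lit 53482) (nat_lit 11786) (nat_lit 53669) (nat_lit 148016),Row.mk (nat_lit 17976) (nat_lit 52921) (nat_lit 6675) (nat_lit 53108) (nat_lit 224513) (nat_lit 53482) (nat_lit 10815),Row.mk (nat_lit 18144) (nat_lit 52547) (nat_lit 218903) (nat_lit 52921) (nat_lit 27007) (nat_lit 53108) (nat_lit 43784),Row.mk (nat_lit 18312) (nat_lit 51986) (nat_lit 199739) (nat_lit 52360) (nat_lit 44374) (nat_lit 52547) (nat_lit 105145),Row.mk (nat_lit 18480)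 (nat_lit 51425) (nat_lit 169843) (nat_lit 51799) (nat_lit 72024) (nat_lit 51986) (nat_lit 181784),Row.mk (nat_lit 18648) (nat_lit 50864) (nat_lit 123208) (nat_lit 51238) (nat_lit 115856) (nat_lit 51425) (nat_lit 277503),Row.mk (nat_lit 18816) (nat_lit 50303) (nat_lit 50459) (nat_lit 50677) (nat_lit 185103) (nat_lit 50864) (nat_lit 397055),Row.mk (nat_lit 18984) (nat_lit 50116) (nat_lit 231189) (nat_lit 50303) (nat_lit 495912) (nat_lit 50677) (nat_lit 50459),Row.mk (nat_lit 19152) (nat_lit 49555) (nat_lit 225726) (nat_lit 49742) (nat_lit 540668) (nat_lit 50116) (nat_lit 192197),Row.mk (nat_lit 19320) (nat_lit 48994) (nat_lit 218903) (nat_lit 49181) (nat_lit 552491) (nat_lit 49555) (nat_lit 413300),Row.mk (nat_lit 19488) (nat_lit 48433) (nat_lit 210382) (nat_lit 48620) (nat_lit 498503) (nat_lit 48994) (nat_lit 758207),Row.mk (nat_lit 19656) (nat_lit 47685) (nat_lit 199739) (nat_lit 47872) (nat_lit 323820) (nat_lit 48433) (nat_lit 1296241),Row.mk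 (nat_lit 19824) (nat_lit 46750) (nat_lit 124781) (nat_lit 47498) (nat_lit 61664) (nat_lit 47685) (nat_lit 2073877),Row.mk (nat_lit 19992) (nat_lit 46563) (nat_lit 169843) (nat_lit 46750) (nat_lit 2132846) (nat_lit 47498) (nat_lit 507837),Row.mk (nat_lit 20160) (nat_lit 45628) (nat_lit 149107) (nat_lit 45815) (nat_lit 1755740) (nat_lit 46563) (nat_lit 1592869),Row.mk (nat_lit 20328) (nat_lit 44506) (nat_lit 123208) (nat_lit 44693) (nat_lit 776244) (nat_lit 45628) (nat_lit 3456548),Row.mk (nat_lit 20496) (nat_lit 44319) (nat_lit 90860) (nat_lit 44506) (nat_lit 4416767) (nat_lit 45441) (nat_lit 920348),Row.mk (nat_lit 20664) (nat_lit 43010) (nat_lit 50459) (nat_lit 43197) (nat_lit 2756369) (nat_lit 44319) (nat_lit 3960019),Row.mk (nat_lit 20832) (nat_lit 43010) (nat_lit 7748179) (nat_lit 44132) (nat_lit 690888) (nat_lit 0) (nat_lit 0),Row.mk (nat_lit 21000) (nat_lit 41327) (nat_lit 4236749) (nat_lit 42823) (nat_lit 6240419) (nat_lit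 43010) (nat_lit 50459),Row.mk (nat_lit 21168) (nat_lit 41140) (nat_lit 10606091) (nat_lit 42636) (nat_lit 2416616) (nat_lit 42823) (nat_lit 113483),Row.mk (nat_lit 21336) (nat_lit 38896) (nat_lit 2706560) (nat_lit 40953) (nat_lit 13495464) (nat_lit 41140) (nat_lit 192197),Row.mk (nat_lit 21504) (nat_lit 38709) (nat_lit 10033794) (nat_lit 40766) (nat_lit 10139120) (nat_lit 40953) (nat_lit 290510),Row.mk (nat_lit 21672) (nat_lit 38522) (nat_lit 19185332) (nat_lit 40579) (nat_lit 5947128) (nat_lit 40766) (nat_lit 413300),Row.mk (nat_lit 21840) (nat_lit 38335) (nat_lit 30615383) (nat_lit 40392) (nat_lit 711430) (nat_lit 40579) (nat_lit 566661),Row.mk (nat_lit 22008) (nat_lit 31603) (nat_lit 6331836) (nat_lit 38148) (nat_lit 32731575) (nat_lit 38335) (nat_lit 758207),Row.mk (nat_lit 22176) (nat_lit 31416) (nat_lit 16233895) (nat_lit 37961) (nat_lit 32492340) (nat_lit 38148) (nat_lit 997442),Row.mk (nat_lit 22344) (nat_lit 31229) (nat_lit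 28601328) (nat_lit 37774) (nat_lit 32193541) (nat_lit 37961) (nat_lit 1296241),Row.mk (nat_lit 22512) (nat_lit 31042) (nat_lit 44047954) (nat_lit 37587) (nat_lit 31820348) (nat_lit 37774) (nat_lit 1669434),Row.mk (nat_lit 22680) (nat_lit 30855) (nat_lit 63340417) (nat_lit 37400) (nat_lit 31354240) (nat_lit 37587) (nat_lit 2135542),Row.mk (nat_lit 22848) (nat_lit 30668) (nat_lit 87436237) (nat_lit 37213) (nat_lit 30772081) (nat_lit 37400) (nat_lit 2717701),Row.mk (nat_lit 23016) (nat_lit 30481) (nat_lit 117531336) (nat_lit 37026) (nat_lit 30044979) (nat_lit 37213) (nat_lit 3444803),Row.mk (nat_lit 23184) (nat_lit 30294) (nat_lit 155119388) (nat_lit 36839) (nat_lit 29136846) (nat_lit 37026) (nat_lit 4352936),Row.mk (nat_lit 23352) (nat_lit 30107) (nat_lit 202065958) (nat_lit 36652) (nat_lit 28002610) (nat_lit 36839) (nat_lit 5487172),Row.mk (nat_lit 23520) (nat_lit 29920) (nat_lit 260701092) (nat_lit 36465) (nat_lit 26585977) (nat_lit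 36652) (nat_lit 6903805),Row.mk (nat_lit 23688) (nat_lit 29733) (nat_lit 333934960) (nat_lit 36278) (nat_lit 24816636) (nat_lit 36465) (nat_lit 8673146),Row.mk (nat_lit 23856) (nat_lit 29546) (nat_lit 425402294) (nat_lit 36091) (nat_lit 22606771) (nat_lit 36278) (nat_lit 10883011),Row.mk (nat_lit 24024) (nat_lit 29359) (nat_lit 539642788) (nat_lit 35904) (nat_lit 19846704) (nat_lit 36091) (nat_lit 13643078),Row.mk (nat_lit 24192) (nat_lit 29172) (nat_lit 682326409) (nat_lit 35717) (nat_lit 16399447) (nat_lit 35904) (nat_lit 17090335),Row.mk (nat_lit 24360) (nat_lit 28985) (nat_lit 860534809) (nat_lit 35530) (nat_lit 12093906) (nat_lit 35717) (nat_lit 21395876),Row.mk (nat_lit 24528) (nat_lit 28798) (nat_lit 1083112802) (nat_lit 35343) (nat_lit 6716389) (nat_lit 35530) (nat_lit 26773393),Row.mk (nat_lit 24696) (nat_lit 28611) (nat_lit 1361107346) (nat_lit 35343) (nat_lit 33489782) (nat_lit 0) (nat_lit 0),Row.mk (nat_lit 24864) (nat_lit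 28424) (nat_lit 1699927217) (nat_lit 28611) (nat_lit 8388608) (nat_lit 35156) (nat_lit 33489782),Row.mk (nat_lit 25032) (nat_lit 28237) (nat_lit 2123105062) (nat_lit 28424) (nat_lit 18865777) (nat_lit 34969) (nat_lit 33489782),Row.mk (nat_lit 25200) (nat_lit 28050) (nat_lit 2651643983) (nat_lit 28237) (nat_lit 31951508) (nat_lit 34782) (nat_lit 33489782),Row.mk (nat_lit 25368) (nat_lit 27863) (nat_lit 3311776343) (nat_lit 28050) (nat_lit 48295271) (nat_lit 34595) (nat_lit 33489782),Row.mk (nat_lit 25536) (nat_lit 27676) (nat_lit 4136265737) (nat_lit 27863) (nat_lit 68708236) (nat_lit 34408) (nat_lit 33489782),Row.mk (nat_lit 25704) (nat_lit 27489) (nat_lit 5166033100) (nat_lit 27676) (nat_lit 94203538) (nat_lit 34221) (nat_lit 33489782),Row.mk (nat_lit 25872) (nat_lit 27302) (nat_lit 6452187694) (nat_lit 27489) (nat_lit 126046554) (nat_lit 34034) (nat_lit 33489782),Row.mk (nat_lit 26040) (nat_lit 32912) (nat_lit 8439067) (nat_lit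 62084) (nat_lit 8249432185) (nat_lit 0) (nat_lit 0),Row.mk (nat_lit 26208) (nat_lit 32912) (nat_lit 8439067) (nat_lit 62084) (nat_lit 10305430352) (nat_lit 0) (nat_lit 0),Row.mk (nat_lit 26376) (nat_lit 32912) (nat_lit 8439067) (nat_lit 62084) (nat_lit 12873322465) (nat_lit 0) (nat_lit 0),Row.mk (nat_lit 26544) (nat_lit 32912) (nat_lit 8439067) (nat_lit 62084) (nat_lit 16080557766) (nat_lit 0) (nat_lit 0),Row.mk (nat_lit 26712) (nat_lit 32912) (nat_lit 8439067) (nat_lit 62084) (nat_lit 20086317287) (nat_lit 0) (nat_lit 0),Row.mk (nat_lit 26880) (nat_lit 32912) (nat_lit 8439067) (nat_lit 62084) (nat_lit 25089414294) (nat_lit 0) (nat_lit 0),Row.mk (nat_lit 27048) (nat_lit 32912) (nat_lit 8439067) (nat_lit 62084) (nat_lit 31338161762) (nat_lit 0) (nat_lit 0),Row.mk (nat_lit 27216) (nat_lit 32912) (nat_lit 8439067) (nat_lit 62084) (nat_lit 39142696606) (nat_lit 0) (nat_lit 0)],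
[Row.mk (nat_lit 6216) (nat_lit 56474) (nat_lit 61121) (nat_lit 56661) (nat_lit 1901) (nat_lit 0) (nat_lit 0),Row.mk (nat_lit 6384) (nat_lit 56474) (nat_lit 61121) (nat_lit 56661) (nat_lit 1901) (nat_lit 0) (nat_lit 0),Row.mk (nat_lit 6552) (nat_lit 56474) (nat_lit 61121) (nat_lit 56661) (nat_lit 1901) (nat_lit 0) (nat_lit 0),Row.mk (nat_lit 6720) (nat_lit 56474) (nat_lit 61121) (nat_lit 56661) (nat_lit 1901) (nat_lit 0) (nat_lit 0),Row.mk (nat_lit 6888) (nat_lit 56474) (nat_lit 61121) (nat_lit 56661) (nat_lit 1901) (nat_lit 0) (nat_lit 0),Row.mk (nat_lit 7056) (nat_lit 56474) (nat_lit 61121) (nat_lit 56661) (nat_lit 1901) (nat_lit 0) (nat_lit 0),Row.mk (nat_lit 7224) (nat_lit 56474) (nat_lit 61121) (nat_lit 56661) (nat_lit 1901) (nat_lit 0) (nat_lit 0),Row.mk (nat_lit 7392) (nat_lit 56474) (nat_lit 61121) (nat_lit 56661) (nat_lit 1901) (nat_lit 0) (nat_lit 0),Row.mk (nat_lit 7560) (nat_lit 56474) (nat_lit 61121) (nat_lit 56661) (nat_lit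 1900) (nat_lit 0) (nat_lit 0),Row.mk (nat_lit 7728) (nat_lit 56100) (nat_lit 1) (nat_lit 56474) (nat_lit 61121) (nat_lit 56661) (nat_lit 1900),Row.mk (nat_lit 7896) (nat_lit 56100) (nat_lit 1) (nat_lit 56474) (nat_lit 61121) (nat_lit 56661) (nat_lit 1900),Row.mk (nat_lit 8064) (nat_lit 56100) (nat_lit 1) (nat_lit 56474) (nat_lit 61121) (nat_lit 56661) (nat_lit 1900),Row.mk (nat_lit 8232) (nat_lit 56100) (nat_lit 2) (nat_lit 56474) (nat_lit 61121) (nat_lit 56661) (nat_lit 1899),Row.mk (nat_lit 8400) (nat_lit 56100) (nat_lit 2) (nat_lit 56474) (nat_lit 61121) (nat_lit 56661) (nat_lit 1899),Row.mk (nat_lit 8568) (nat_lit 56100) (nat_lit 3) (nat_lit 56474) (nat_lit 61121) (nat_lit 56661) (nat_lit 1898),Row.mk (nat_lit 8736) (nat_lit 56100) (nat_lit 4) (nat_lit 56474) (nat_lit 61121) (nat_lit 56661) (nat_lit 1897),Row.mk (nat_lit 8904) (nat_lit 56100) (nat_lit 5) (nat_lit 56474) (nat_lit 61121) (nat_lit 56661) (nat_lit 1897),Row.mk (nat_lit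 9072) (nat_lit 56100) (nat_lit 7) (nat_lit 56474) (nat_lit 61121) (nat_lit 56661) (nat_lit 1895),Row.mk (nat_lit 9240) (nat_lit 56100) (nat_lit 9) (nat_lit 56474) (nat_lit 61121) (nat_lit 56661) (nat_lit 1894),Row.mk (nat_lit 9408) (nat_lit 56100) (nat_lit 11) (nat_lit 56474) (nat_lit 61121) (nat_lit 56661) (nat_lit 1892),Row.mk (nat_lit 9576) (nat_lit 56100) (nat_lit 14) (nat_lit 56474) (nat_lit 61121) (nat_lit 56661) (nat_lit 1890),Row.mk (nat_lit 9744) (nat_lit 56100) (nat_lit 17) (nat_lit 56474) (nat_lit 61121) (nat_lit 56661) (nat_lit 1887),Row.mk (nat_lit 9912) (nat_lit 56100) (nat_lit 22) (nat_lit 56474) (nat_lit 61121) (nat_lit 56661) (nat_lit 1883),Row.mk (nat_lit 10080) (nat_lit 56100) (nat_lit 27) (nat_lit 56474) (nat_lit 61121) (nat_lit 56661) (nat_lit 1879),Row.mk (nat_lit 10248) (nat_lit 56100) (nat_lit 34) (nat_lit 56474) (nat_lit 61121) (nat_lit 56661) (nat_lit 1873),Row.mk (nat_lit 10416) (nat_lit 56100) (nat_lit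 43) (nat_lit 56474) (nat_lit 61121) (nat_lit 56661) (nat_lit 1866),Row.mk (nat_lit 10584) (nat_lit 56100) (nat_lit 53) (nat_lit 56474) (nat_lit 61121) (nat_lit 56661) (nat_lit 1858),Row.mk (nat_lit 10752) (nat_lit 56100) (nat_lit 67) (nat_lit 56474) (nat_lit 61122) (nat_lit 56661) (nat_lit 1847),Row.mk (nat_lit 10920) (nat_lit 56100) (nat_lit 83) (nat_lit 56474) (nat_lit 61122) (nat_lit 56661) (nat_lit 1834),Row.mk (nat_lit 11088) (nat_lit 56100) (nat_lit 104) (nat_lit 56474) (nat_lit 61122) (nat_lit 56661) (nat_lit 1817),Row.mk (nat_lit 11256) (nat_lit 56100) (nat_lit 130) (nat_lit 56474) (nat_lit 61122) (nat_lit 56661) (nat_lit 1796),Row.mk (nat_lit 11424) (nat_lit 56100) (nat_lit 163) (nat_lit 56474) (nat_lit 61122) (nat_lit 56661) (nat_lit 1769),Row.mk (nat_lit 11592) (nat_lit 56100) (nat_lit 204) (nat_lit 56474) (nat_lit 61123) (nat_lit 56661) (nat_lit 1736),Row.mk (nat_lit 11760) (nat_lit 56100) (nat_lit 255) (nat_lit 56474)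 (nat_lit 61123) (nat_lit 56661) (nat_lit 1695),Row.mk (nat_lit 11928) (nat_lit 56100) (nat_lit 318) (nat_lit 56474) (nat_lit 61123) (nat_lit 56661) (nat_lit 1644),Row.mk (nat_lit 12096) (nat_lit 56100) (nat_lit 398) (nat_lit 56474) (nat_lit 61124) (nat_lit 56661) (nat_lit 1580),Row.mk (nat_lit 12264) (nat_lit 56100) (nat_lit 497) (nat_lit 56474) (nat_lit 61125) (nat_lit 56661) (nat_lit 1500),Row.mk (nat_lit 12432) (nat_lit 56100) (nat_lit 621) (nat_lit 56474) (nat_lit 61126) (nat_lit 56661) (nat_lit 1400),Row.mk (nat_lit 12600) (nat_lit 56100) (nat_lit 775) (nat_lit 56474) (nat_lit 61127) (nat_lit 56661) (nat_lit 1276),Row.mk (nat_lit 12768) (nat_lit 56100) (nat_lit 968) (nat_lit 56474) (nat_lit 61128) (nat_lit 56661) (nat_lit 1120),Row.mk (nat_lit 12936) (nat_lit 56100) (nat_lit 1209) (nat_lit 56474) (nat_lit 61130) (nat_lit 56661) (nat_lit 925),Row.mk (nat_lit 13104) (nat_lit 56100) (nat_lit 1511) (nat_lit 56474) (nat_lit 61132)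 (nat_lit 56661) (nat_lit 682),Row.mk (nat_lit 13272) (nat_lit 56100) (nat_lit 1887) (nat_lit 56474) (nat_lit 61135) (nat_lit 56661) (nat_lit 379),Row.mk (nat_lit 13440) (nat_lit 56100) (nat_lit 2357) (nat_lit 56474) (nat_lit 61139) (nat_lit 0) (nat_lit 0),Row.mk (nat_lit 13608) (nat_lit 55913) (nat_lit 591) (nat_lit 56100) (nat_lit 2352) (nat_lit 56474) (nat_lit 60670),Row.mk (nat_lit 13776) (nat_lit 55913) (nat_lit 1329) (nat_lit 56100) (nat_lit 2347) (nat_lit 56474) (nat_lit 60084),Row.mk (nat_lit 13944) (nat_lit 55913) (nat_lit 2252) (nat_lit 56100) (nat_lit 2340) (nat_lit 56474) (nat_lit 59352),Row.mk (nat_lit 14112) (nat_lit 55913) (nat_lit 3404) (nat_lit 56100) (nat_lit 2331) (nat_lit 56474) (nat_lit 58438),Row.mk (nat_lit 14280) (nat_lit 55913) (nat_lit 4843) (nat_lit 56100) (nat_lit 2321) (nat_lit 56474) (nat_lit 57297),Row.mk (nat_lit 14448) (nat_lit 55913) (nat_lit 6641) (nat_lit 56100) (nat_lit 2307) (nat_lit 56474) (nat_lit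 55871),Row.mk (nat_lit 14616) (nat_lit 55913) (nat_lit 8886) (nat_lit 56100) (nat_lit 2290) (nat_lit 56474) (nat_lit 54091),Row.mk (nat_lit 14784) (nat_lit 55913) (nat_lit 11689) (nat_lit 56100) (nat_lit 2269) (nat_lit 56474) (nat_lit 51867),Row.mk (nat_lit 14952) (nat_lit 55913) (nat_lit 15191) (nat_lit 56100) (nat_lit 2243) (nat_lit 56474) (nat_lit 49090),Row.mk (nat_lit 15120) (nat_lit 55913) (nat_lit 19565) (nat_lit 56100) (nat_lit 2210) (nat_lit 56474) (nat_lit 45621),Row.mk (nat_lit 15288) (nat_lit 55913) (nat_lit 25028) (nat_lit 56100) (nat_lit 2169) (nat_lit 56474) (nat_lit 41288),Row.mk (nat_lit 15456) (nat_lit 55913) (nat_lit 31850) (nat_lit 56100) (nat_lit 2118) (nat_lit 56474) (nat_lit 35877),Row.mk (nat_lit 15624) (nat_lit 55913) (nat_lit 40372) (nat_lit 56100) (nat_lit 2054) (nat_lit 56474) (nat_lit 29118),Row.mk (nat_lit 15792) (nat_lit 55913) (nat_lit 51015) (nat_lit 56100) (nat_lit 1974) (nat_lit 56474) (nat_lit 20676),Row.mk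 (nat_lit 15960) (nat_lit 55913) (nat_lit 64308) (nat_lit 56100) (nat_lit 1874) (nat_lit 56474) (nat_lit 10133),Row.mk (nat_lit 16128) (nat_lit 55352) (nat_lit 1605) (nat_lit 55539) (nat_lit 2185) (nat_lit 55913) (nat_lit 75835),Row.mk (nat_lit 16296) (nat_lit 55352) (nat_lit 22341) (nat_lit 55539) (nat_lit 1990) (nat_lit 55913) (nat_lit 59427),Row.mk (nat_lit 16464) (nat_lit 55352) (nat_lit 48240) (nat_lit 55539) (nat_lit 1747) (nat_lit 55913) (nat_lit 38934),Row.mk (nat_lit 16632) (nat_lit 55352) (nat_lit 80587) (nat_lit 55539) (nat_lit 1443) (nat_lit 55913) (nat_lit 13338),Row.mk (nat_lit 16800) (nat_lit 54791) (nat_lit 21937) (nat_lit 54978) (nat_lit 1329) (nat_lit 55352) (nat_lit 80156),Row.mk (nat_lit 16968) (nat_lit 54791) (nat_lit 72397) (nat_lit 54978) (nat_lit 738) (nat_lit 55352) (nat_lit 40346),Row.mk (nat_lit 17136) (nat_lit 54230) (nat_lit 11708) (nat_lit 54791) (nat_lit 114338) (nat_lit 0) (nat_lit 0),Row.mk (nat_lit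 17304) (nat_lit 54230) (nat_lit 89270) (nat_lit 54604) (nat_lit 1152) (nat_lit 54791) (nat_lit 51314),Row.mk (nat_lit 17472) (nat_lit 53669) (nat_lit 30985) (nat_lit 54043) (nat_lit 3236) (nat_lit 54230) (nat_lit 127114),Row.mk (nat_lit 17640) (nat_lit 53669) (nat_lit 151530) (nat_lit 54043) (nat_lit 5481) (nat_lit 54230) (nat_lit 28801),Row.mk (nat_lit 17808) (nat_lit 53108) (nat_lit 107041) (nat_lit 53482) (nat_lit 10347) (nat_lit 53669) (nat_lit 98995),Row.mk (nat_lit 17976) (nat_lit 52547) (nat_lit 49514) (nat_lit 52921) (nat_lit 18386) (nat_lit 53108) (nat_lit 186666),Row.mk (nat_lit 18144) (nat_lit 52360) (nat_lit 6092) (nat_lit 52547) (nat_lit 275834) (nat_lit 52921) (nat_lit 20331),Row.mk (nat_lit 18312) (nat_lit 51986) (nat_lit 262762) (nat_lit 52360) (nat_lit 42129) (nat_lit 52547) (nat_lit 56930),Row.mk (nat_lit 18480) (nat_lit 51425) (nat_lit 232866) (nat_lit 51799) (nat_lit 69221) (nat_lit 51986) (nat_lit 134127),Row.mk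 (nat_lit 18648) (nat_lit 50864) (nat_lit 186231) (nat_lit 51238) (nat_lit 112354) (nat_lit 51425) (nat_lit 230545),Row.mk (nat_lit 18816) (nat_lit 50303) (nat_lit 113483) (nat_lit 50677) (nat_lit 180729) (nat_lit 50864) (nat_lit 350969),Row.mk (nat_lit 18984) (nat_lit 50116) (nat_lit 288749) (nat_lit 50303) (nat_lit 501375) (nat_lit 0) (nat_lit 0),Row.mk (nat_lit 19152) (nat_lit 49555) (nat_lit 281927) (nat_lit 49742) (nat_lit 547491) (nat_lit 50116) (nat_lit 141737),Row.mk (nat_lit 19320) (nat_lit 48994) (nat_lit 273405) (nat_lit 49181) (nat_lit 561013) (nat_lit 49555) (nat_lit 362840),Row.mk (nat_lit 19488) (nat_lit 48433) (nat_lit 262762) (nat_lit 48620) (nat_lit 509147) (nat_lit 48994) (nat_lit 707747),Row.mk (nat_lit 19656) (nat_lit 47685) (nat_lit 249469) (nat_lit 47872) (nat_lit 337113) (nat_lit 48433) (nat_lit 1245781),Row.mk (nat_lit 19824) (nat_lit 46750) (nat_lit 187804) (nat_lit 47498) (nat_lit 45062) (nat_lit 47685) (nat_lit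 2040020),Row.mk (nat_lit 19992) (nat_lit 46563) (nat_lit 212130) (nat_lit 46750) (nat_lit 2153582) (nat_lit 47498) (nat_lit 457377),Row.mk (nat_lit 20160) (nat_lit 45628) (nat_lit 186231) (nat_lit 45815) (nat_lit 1781639) (nat_lit 46563) (nat_lit 1542409),Row.mk (nat_lit 20328) (nat_lit 44506) (nat_lit 153884) (nat_lit 44693) (nat_lit 808591) (nat_lit 45628) (nat_lit 3406088),Row.mk (nat_lit 20496) (nat_lit 44319) (nat_lit 113483) (nat_lit 44506) (nat_lit 4457168) (nat_lit 45441) (nat_lit 869888),Row.mk (nat_lit 20664) (nat_lit 43010) (nat_lit 63023) (nat_lit 43197) (nat_lit 2806829) (nat_lit 44319) (nat_lit 3909559),Row.mk (nat_lit 20832) (nat_lit 43010) (nat_lit 7811203) (nat_lit 44132) (nat_lit 640428) (nat_lit 0) (nat_lit 0),Row.mk (nat_lit 21000) (nat_lit 41327) (nat_lit 4299772) (nat_lit 42823) (nat_lit 6177396) (nat_lit 43010) (nat_lit 63023),Row.mk (nat_lit 21168) (nat_lit 41140) (nat_lit 10669114) (nat_lit 42636) (nat_lit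 2337901) (nat_lit 42823) (nat_lit 141737),Row.mk (nat_lit 21336) (nat_lit 38896) (nat_lit 2769583) (nat_lit 40953) (nat_lit 13397152) (nat_lit 41140) (nat_lit 240050),Row.mk (nat_lit 21504) (nat_lit 38709) (nat_lit 10096817) (nat_lit 40766) (nat_lit 10016330) (nat_lit 40953) (nat_lit 362840),Row.mk (nat_lit 21672) (nat_lit 38522) (nat_lit 19248356) (nat_lit 40579) (nat_lit 5793766) (nat_lit 40766) (nat_lit 516202),Row.mk (nat_lit 21840) (nat_lit 38335) (nat_lit 30678407) (nat_lit 40392) (nat_lit 519885) (nat_lit 40579) (nat_lit 707747),Row.mk (nat_lit 22008) (nat_lit 31603) (nat_lit 6394859) (nat_lit 38148) (nat_lit 32492340) (nat_lit 38335) (nat_lit 946982),Row.mk (nat_lit 22176) (nat_lit 31416) (nat_lit 16296918) (nat_lit 37961) (nat_lit 32193541) (nat_lit 38148) (nat_lit 1245781),Row.mk (nat_lit 22344) (nat_lit 31229) (nat_lit 28664351) (nat_lit 37774) (nat_lit 31820348) (nat_lit 37961) (nat_lit 1618974),Row.mk (nat_lit 22512)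 (nat_lit 31042) (nat_lit 44110977) (nat_lit 37587) (nat_lit 31354240) (nat_lit 37774) (nat_lit 2085082),Row.mk (nat_lit 22680) (nat_lit 30855) (nat_lit 63403440) (nat_lit 37400) (nat_lit 30772081) (nat_lit 37587) (nat_lit 2667241),Row.mk (nat_lit 22848) (nat_lit 30668) (nat_lit 87499260) (nat_lit 37213) (nat_lit 30044979) (nat_lit 37400) (nat_lit 3394343),Row.mk (nat_lit 23016) (nat_lit 30481) (nat_lit 117594359) (nat_lit 37026) (nat_lit 29136846) (nat_lit 37213) (nat_lit 4302476),Row.mk (nat_lit 23184) (nat_lit 30294) (nat_lit 155182411) (nat_lit 36839) (nat_lit 28002610) (nat_lit 37026) (nat_lit 5436712),Row.mk (nat_lit 23352) (nat_lit 30107) (nat_lit 202128982) (nat_lit 36652) (nat_lit 26585977) (nat_lit 36839) (nat_lit 6853345),Row.mk (nat_lit 23520) (nat_lit 29920) (nat_lit 260764116) (nat_lit 36465) (nat_lit 24816636) (nat_lit 36652) (nat_lit 8622686),Row.mk (nat_lit 23688) (nat_lit 29733) (nat_lit 333997983) (nat_lit 36278)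 (nat_lit 22606771) (nat_lit 36465) (nat_lit 10832551),Row.mk (nat_lit 23856) (nat_lit 29546) (nat_lit 425465318) (nat_lit 36091) (nat_lit 19846704) (nat_lit 36278) (nat_lit 13592618),Row.mk (nat_lit 24024) (nat_lit 29359) (nat_lit 539705811) (nat_lit 35904) (nat_lit 16399447) (nat_lit 36091) (nat_lit 17039875),Row.mk (nat_lit 24192) (nat_lit 29172) (nat_lit 682389432) (nat_lit 35717) (nat_lit 12093906) (nat_lit 35904) (nat_lit 21345416),Row.mk (nat_lit 24360) (nat_lit 28985) (nat_lit 860597833) (nat_lit 35530) (nat_lit 6716389) (nat_lit 35717) (nat_lit 26722933),Row.mk (nat_lit 24528) (nat_lit 28798) (nat_lit 1083175826) (nat_lit 35530) (nat_lit 33439323) (nat_lit 0) (nat_lit 0),Row.mk (nat_lit 24696) (nat_lit 28611) (nat_lit 1352781761) (nat_lit 28798) (nat_lit 8388608) (nat_lit 35343) (nat_lit 33439323),Row.mk (nat_lit 24864) (nat_lit 28424) (nat_lit 1689513071) (nat_lit 28611) (nat_lit 18865777) (nat_lit 35156) (nat_lit 33439323),Row.mk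 (nat_lit 25032) (nat_lit 28237) (nat_lit 2110082354) (nat_lit 28424) (nat_lit 31951508) (nat_lit 34969) (nat_lit 33439323),Row.mk (nat_lit 25200) (nat_lit 28050) (nat_lit 2635363243) (nat_lit 28237) (nat_lit 48295271) (nat_lit 34782) (nat_lit 33439323),Row.mk (nat_lit 25368) (nat_lit 27863) (nat_lit 3291426401) (nat_lit 28050) (nat_lit 68708236) (nat_lit 34595) (nat_lit 33439323),Row.mk (nat_lit 25536) (nat_lit 27676) (nat_lit 4110833459) (nat_lit 27863) (nat_lit 94203538) (nat_lit 34408) (nat_lit 33439323),Row.mk (nat_lit 25704) (nat_lit 27489) (nat_lit 5134253107) (nat_lit 27676) (nat_lit 126046554) (nat_lit 34221) (nat_lit 33439323),Row.mk (nat_lit 25872) (nat_lit 27302) (nat_lit 6412479558) (nat_lit 27489) (nat_lit 165817713) (nat_lit 34034) (nat_lit 33439323),Row.mk (nat_lit 26040) (nat_lit 32912) (nat_lit 8451631) (nat_lit 62084) (nat_lit 8249432185) (nat_lit 0) (nat_lit 0),Row.mk (nat_lit 26208) (nat_lit 32912) (nat_lit 8451631)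 (nat_lit 62084) (nat_lit 10305430352) (nat_lit 0) (nat_lit 0),Row.mk (nat_lit 26376) (nat_lit 32912) (nat_lit 8451631) (nat_lit 62084) (nat_lit 12873322465) (nat_lit 0) (nat_lit 0),Row.mk (nat_lit 26544) (nat_lit 32912) (nat_lit 8451631) (nat_lit 62084) (nat_lit 16080557766) (nat_lit 0) (nat_lit 0),Row.mk (nat_lit 26712) (nat_lit 32912) (nat_lit 8451631) (nat_lit 62084) (nat_lit 20086317287) (nat_lit 0) (nat_lit 0),Row.mk (nat_lit 26880) (nat_lit 32912) (nat_lit 8451631) (nat_lit 62084) (nat_lit 25089414294) (nat_lit 0) (nat_lit 0),Row.mk (nat_lit 27048) (nat_lit 32912) (nat_lit 8451631) (nat_lit 62084) (nat_lit 31338161762) (nat_lit 0) (nat_lit 0),Row.mk (nat_lit 27216) (nat_lit 32912) (nat_lit 8451631) (nat_lit 62084) (nat_lit 39142696606) (nat_lit 0) (nat_lit 0)],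
[Row.mk (nat_lit 6216) (nat_lit 55913) (nat_lit 75747) (nat_lit 56100) (nat_lit 2966) (nat_lit 0) (nat_lit 0),Row.mk (nat_lit 6384) (nat_lit 55913) (nat_lit 75747) (nat_lit 56100) (nat_lit 2966) (nat_lit 0) (nat_lit 0),Row.mk (nat_lit 6552) (nat_lit 55913) (nat_lit 75747) (nat_lit 56100) (nat_lit 2966) (nat_lit 0) (nat_lit 0),Row.mk (nat_lit 6720) (nat_lit 55913) (nat_lit 75747) (nat_lit 56100) (nat_lit 2966) (nat_lit 0) (nat_lit 0),Row.mk (nat_lit 6888) (nat_lit 55913) (nat_lit 75747) (nat_lit 56100) (nat_lit 2966) (nat_lit 0) (nat_lit 0),Row.mk (nat_lit 7056) (nat_lit 55913) (nat_lit 75747) (nat_lit 56100) (nat_lit 2966) (nat_lit 0) (nat_lit 0),Row.mk (nat_lit 7224) (nat_lit 55913) (nat_lit 75747) (nat_lit 56100) (nat_lit 2966) (nat_lit 0) (nat_lit 0),Row.mk (nat_lit 7392) (nat_lit 55913) (nat_lit 75747) (nat_lit 56100) (nat_lit 2965) (nat_lit 0) (nat_lit 0),Row.mk (nat_lit 7560) (nat_lit 55913) (nat_lit 75747) (nat_lit 56100) (nat_lit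 2965) (nat_lit 0) (nat_lit 0),Row.mk (nat_lit 7728) (nat_lit 55539) (nat_lit 1) (nat_lit 55913) (nat_lit 75747) (nat_lit 56100) (nat_lit 2965),Row.mk (nat_lit 7896) (nat_lit 55539) (nat_lit 1) (nat_lit 55913) (nat_lit 75747) (nat_lit 56100) (nat_lit 2965),Row.mk (nat_lit 8064) (nat_lit 55539) (nat_lit 1) (nat_lit 55913) (nat_lit 75747) (nat_lit 56100) (nat_lit 2965),Row.mk (nat_lit 8232) (nat_lit 55539) (nat_lit 2) (nat_lit 55913) (nat_lit 75747) (nat_lit 56100) (nat_lit 2964),Row.mk (nat_lit 8400) (nat_lit 55539) (nat_lit 2) (nat_lit 55913) (nat_lit 75747) (nat_lit 56100) (nat_lit 2964),Row.mk (nat_lit 8568) (nat_lit 55539) (nat_lit 3) (nat_lit 55913) (nat_lit 75747) (nat_lit 56100) (nat_lit 2963),Row.mk (nat_lit 8736) (nat_lit 55539) (nat_lit 4) (nat_lit 55913) (nat_lit 75747) (nat_lit 56100) (nat_lit 2962),Row.mk (nat_lit 8904) (nat_lit 55539) (nat_lit 5) (nat_lit 55913) (nat_lit 75747) (nat_lit 56100) (nat_lit 2961),Row.mk (nat_lit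 9072) (nat_lit 55539) (nat_lit 7) (nat_lit 55913) (nat_lit 75747) (nat_lit 56100) (nat_lit 2960),Row.mk (nat_lit 9240) (nat_lit 55539) (nat_lit 9) (nat_lit 55913) (nat_lit 75747) (nat_lit 56100) (nat_lit 2959),Row.mk (nat_lit 9408) (nat_lit 55539) (nat_lit 11) (nat_lit 55913) (nat_lit 75748) (nat_lit 56100) (nat_lit 2957),Row.mk (nat_lit 9576) (nat_lit 55539) (nat_lit 14) (nat_lit 55913) (nat_lit 75748) (nat_lit 56100) (nat_lit 2955),Row.mk (nat_lit 9744) (nat_lit 55539) (nat_lit 17) (nat_lit 55913) (nat_lit 75748) (nat_lit 56100) (nat_lit 2952),Row.mk (nat_lit 9912) (nat_lit 55539) (nat_lit 22) (nat_lit 55913) (nat_lit 75748) (nat_lit 56100) (nat_lit 2948),Row.mk (nat_lit 10080) (nat_lit 55539) (nat_lit 27) (nat_lit 55913) (nat_lit 75748) (nat_lit 56100) (nat_lit 2944),Row.mk (nat_lit 10248) (nat_lit 55539) (nat_lit 34) (nat_lit 55913) (nat_lit 75748) (nat_lit 56100) (nat_lit 2938),Row.mk (nat_lit 10416) (nat_lit 55539) (nat_lit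 43) (nat_lit 55913) (nat_lit 75748) (nat_lit 56100) (nat_lit 2931),Row.mk (nat_lit 10584) (nat_lit 55539) (nat_lit 53) (nat_lit 55913) (nat_lit 75748) (nat_lit 56100) (nat_lit 2923),Row.mk (nat_lit 10752) (nat_lit 55539) (nat_lit 67) (nat_lit 55913) (nat_lit 75748) (nat_lit 56100) (nat_lit 2912),Row.mk (nat_lit 10920) (nat_lit 55539) (nat_lit 83) (nat_lit 55913) (nat_lit 75748) (nat_lit 56100) (nat_lit 2898),Row.mk (nat_lit 11088) (nat_lit 55539) (nat_lit 104) (nat_lit 55913) (nat_lit 75748) (nat_lit 56100) (nat_lit 2882),Row.mk (nat_lit 11256) (nat_lit 55539) (nat_lit 130) (nat_lit 55913) (nat_lit 75749) (nat_lit 56100) (nat_lit 2860),Row.mk (nat_lit 11424) (nat_lit 55539) (nat_lit 163) (nat_lit 55913) (nat_lit 75749) (nat_lit 56100) (nat_lit 2834),Row.mk (nat_lit 11592) (nat_lit 55539) (nat_lit 203) (nat_lit 55913) (nat_lit 75749) (nat_lit 56100) (nat_lit 2801),Row.mk (nat_lit 11760) (nat_lit 55539) (nat_lit 254) (nat_lit 55913)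 (nat_lit 75750) (nat_lit 56100) (nat_lit 2760),Row.mk (nat_lit 11928) (nat_lit 55539) (nat_lit 318) (nat_lit 55913) (nat_lit 75750) (nat_lit 56100) (nat_lit 2709),Row.mk (nat_lit 12096) (nat_lit 55539) (nat_lit 397) (nat_lit 55913) (nat_lit 75751) (nat_lit 56100) (nat_lit 2645),Row.mk (nat_lit 12264) (nat_lit 55539) (nat_lit 496) (nat_lit 55913) (nat_lit 75752) (nat_lit 56100) (nat_lit 2565),Row.mk (nat_lit 12432) (nat_lit 55539) (nat_lit 619) (nat_lit 55913) (nat_lit 75753) (nat_lit 56100) (nat_lit 2465),Row.mk (nat_lit 12600) (nat_lit 55539) (nat_lit 774) (nat_lit 55913) (nat_lit 75755) (nat_lit 56100) (nat_lit 2340),Row.mk (nat_lit 12768) (nat_lit 55539) (nat_lit 966) (nat_lit 55913) (nat_lit 75757) (nat_lit 56100) (nat_lit 2185),Row.mk (nat_lit 12936) (nat_lit 55539) (nat_lit 1207) (nat_lit 55913) (nat_lit 75759) (nat_lit 56100) (nat_lit 1990),Row.mk (nat_lit 13104) (nat_lit 55539) (nat_lit 1508) (nat_lit 55913) (nat_lit 75762)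 (nat_lit 56100) (nat_lit 1747),Row.mk (nat_lit 13272) (nat_lit 55539) (nat_lit 1883) (nat_lit 55913) (nat_lit 75765) (nat_lit 56100) (nat_lit 1443),Row.mk (nat_lit 13440) (nat_lit 55539) (nat_lit 2352) (nat_lit 55913) (nat_lit 75770) (nat_lit 56100) (nat_lit 1064),Row.mk (nat_lit 13608) (nat_lit 55539) (nat_lit 2938) (nat_lit 55913) (nat_lit 75775) (nat_lit 56100) (nat_lit 591),Row.mk (nat_lit 13776) (nat_lit 55539) (nat_lit 3670) (nat_lit 55913) (nat_lit 75782) (nat_lit 0) (nat_lit 0),Row.mk (nat_lit 13944) (nat_lit 55352) (nat_lit 922) (nat_lit 55539) (nat_lit 3661) (nat_lit 55913) (nat_lit 75052),Row.mk (nat_lit 14112) (nat_lit 55352) (nat_lit 2074) (nat_lit 55539) (nat_lit 3651) (nat_lit 55913) (nat_lit 74140),Row.mk (nat_lit 14280) (nat_lit 55352) (nat_lit 3513) (nat_lit 55539) (nat_lit 3637) (nat_lit 55913) (nat_lit 73002),Row.mk (nat_lit 14448) (nat_lit 55352) (nat_lit 5311) (nat_lit 55539) (nat_lit 3620) (nat_lit 55913) (nat_lit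 71580),Row.mk (nat_lit 14616) (nat_lit 55352) (nat_lit 7556) (nat_lit 55539) (nat_lit 3599) (nat_lit 55913) (nat_lit 69803),Row.mk (nat_lit 14784) (nat_lit 55352) (nat_lit 10359) (nat_lit 55539) (nat_lit 3573) (nat_lit 55913) (nat_lit 67585),Row.mk (nat_lit 14952) (nat_lit 55352) (nat_lit 13861) (nat_lit 55539) (nat_lit 3540) (nat_lit 55913) (nat_lit 64814),Row.mk (nat_lit 15120) (nat_lit 55352) (nat_lit 18235) (nat_lit 55539) (nat_lit 3499) (nat_lit 55913) (nat_lit 61353),Row.mk (nat_lit 15288) (nat_lit 55352) (nat_lit 23698) (nat_lit 55539) (nat_lit 3448) (nat_lit 55913) (nat_lit 57031),Row.mk (nat_lit 15456) (nat_lit 55352) (nat_lit 30520) (nat_lit 55539) (nat_lit 3384) (nat_lit 55913) (nat_lit 51632),Row.mk (nat_lit 15624) (nat_lit 55352) (nat_lit 39042) (nat_lit 55539) (nat_lit 3304) (nat_lit 55913) (nat_lit 44889),Row.mk (nat_lit 15792) (nat_lit 55352) (nat_lit 49685) (nat_lit 55539) (nat_lit 3204) (nat_lit 55913) (nat_lit 36467),Row.mk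 (nat_lit 15960) (nat_lit 55352) (nat_lit 62978) (nat_lit 55539) (nat_lit 3079) (nat_lit 55913) (nat_lit 25949),Row.mk (nat_lit 16128) (nat_lit 55352) (nat_lit 79581) (nat_lit 55539) (nat_lit 2923) (nat_lit 55913) (nat_lit 12812),Row.mk (nat_lit 16296) (nat_lit 54791) (nat_lit 1082) (nat_lit 54978) (nat_lit 3408) (nat_lit 55352) (nat_lit 94959),Row.mk (nat_lit 16464) (nat_lit 54791) (nat_lit 26981) (nat_lit 54978) (nat_lit 3105) (nat_lit 55352) (nat_lit 74527),Row.mk (nat_lit 16632) (nat_lit 54791) (nat_lit 59328) (nat_lit 54978) (nat_lit 2726) (nat_lit 55352) (nat_lit 49007),Row.mk (nat_lit 16800) (nat_lit 54791) (nat_lit 99729) (nat_lit 54978) (nat_lit 2252) (nat_lit 55352) (nat_lit 17133),Row.mk (nat_lit 16968) (nat_lit 54230) (nat_lit 26247) (nat_lit 54417) (nat_lit 2074) (nat_lit 54791) (nat_lit 100852),Row.mk (nat_lit 17136) (nat_lit 54230) (nat_lit 89270) (nat_lit 54417) (nat_lit 1152) (nat_lit 54791) (nat_lit 51314),Row.mk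 (nat_lit 17304) (nat_lit 53669) (nat_lit 13184) (nat_lit 54230) (nat_lit 144244) (nat_lit 0) (nat_lit 0),Row.mk (nat_lit 17472) (nat_lit 53669) (nat_lit 109699) (nat_lit 54043) (nat_lit 1797) (nat_lit 54230) (nat_lit 65530),Row.mk (nat_lit 17640) (nat_lit 53108) (nat_lit 35895) (nat_lit 53482) (nat_lit 5048) (nat_lit 53669) (nat_lit 160560),Row.mk (nat_lit 17808) (nat_lit 53108) (nat_lit 185755) (nat_lit 53482) (nat_lit 8550) (nat_lit 53669) (nat_lit 37770),Row.mk (nat_lit 17976) (nat_lit 52547) (nat_lit 128229) (nat_lit 52921) (nat_lit 16142) (nat_lit 53108) (nat_lit 125888),Row.mk (nat_lit 18144) (nat_lit 51986) (nat_lit 53321) (nat_lit 52360) (nat_lit 28682) (nat_lit 52547) (nat_lit 235946),Row.mk (nat_lit 18312) (nat_lit 51799) (nat_lit 4108) (nat_lit 51986) (nat_lit 337368) (nat_lit 52360) (nat_lit 36036),Row.mk (nat_lit 18480) (nat_lit 51425) (nat_lit 311581) (nat_lit 51799) (nat_lit 65719) (nat_lit 51986) (nat_lit 74606),Row.mk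 (nat_lit 18648) (nat_lit 50864) (nat_lit 264946) (nat_lit 51238) (nat_lit 107980) (nat_lit 51425) (nat_lit 171896),Row.mk (nat_lit 18816) (nat_lit 50303) (nat_lit 192197) (nat_lit 50677) (nat_lit 175266) (nat_lit 50864) (nat_lit 293408),Row.mk (nat_lit 18984) (nat_lit 49742) (nat_lit 78714) (nat_lit 50116) (nat_lit 281927) (nat_lit 50303) (nat_lit 445174),Row.mk (nat_lit 19152) (nat_lit 49555) (nat_lit 352120) (nat_lit 49742) (nat_lit 556012) (nat_lit 50116) (nat_lit 78714),Row.mk (nat_lit 19320) (nat_lit 48994) (nat_lit 341477) (nat_lit 49181) (nat_lit 571656) (nat_lit 49555) (nat_lit 299817),Row.mk (nat_lit 19488) (nat_lit 48433) (nat_lit 328184) (nat_lit 48620) (nat_lit 522440) (nat_lit 48994) (nat_lit 644723),Row.mk (nat_lit 19656) (nat_lit 47685) (nat_lit 311581) (nat_lit 47872) (nat_lit 353715) (nat_lit 48433) (nat_lit 1182758),Row.mk (nat_lit 19824) (nat_lit 46750) (nat_lit 266519) (nat_lit 47498) (nat_lit 24326) (nat_lit 47685)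 (nat_lit 1997733),Row.mk (nat_lit 19992) (nat_lit 46563) (nat_lit 264946) (nat_lit 46750) (nat_lit 2179481) (nat_lit 47498) (nat_lit 394353),Row.mk (nat_lit 20160) (nat_lit 45628) (nat_lit 232598) (nat_lit 45815) (nat_lit 1813987) (nat_lit 46563) (nat_lit 1479385),Row.mk (nat_lit 20328) (nat_lit 44506) (nat_lit 192197) (nat_lit 44693) (nat_lit 848992) (nat_lit 45628) (nat_lit 3343065),Row.mk (nat_lit 20496) (nat_lit 44319) (nat_lit 141737) (nat_lit 44506) (nat_lit 4507628) (nat_lit 45441) (nat_lit 806865),Row.mk (nat_lit 20664) (nat_lit 43010) (nat_lit 78714) (nat_lit 43197) (nat_lit 2869852) (nat_lit 44319) (nat_lit 3846536),Row.mk (nat_lit 20832) (nat_lit 43010) (nat_lit 7889917) (nat_lit 44132) (nat_lit 577404) (nat_lit 0) (nat_lit 0),Row.mk (nat_lit 21000) (nat_lit 41327) (nat_lit 4378487) (nat_lit 42823) (nat_lit 6098681) (nat_lit 43010) (nat_lit 78714),Row.mk (nat_lit 21168) (nat_lit 41140) (nat_lit 10747829) (nat_lit 42636)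 (nat_lit 2239589) (nat_lit 42823) (nat_lit 177027),Row.mk (nat_lit 21336) (nat_lit 38896) (nat_lit 2848298) (nat_lit 40953) (nat_lit 13274362) (nat_lit 41140) (nat_lit 299817),Row.mk (nat_lit 21504) (nat_lit 38709) (nat_lit 10175532) (nat_lit 40766) (nat_lit 9862969) (nat_lit 40953) (nat_lit 453178),Row.mk (nat_lit 21672) (nat_lit 38522) (nat_lit 19327070) (nat_lit 40579) (nat_lit 5602221) (nat_lit 40766) (nat_lit 644723),Row.mk (nat_lit 21840) (nat_lit 38335) (nat_lit 30757121) (nat_lit 40392) (nat_lit 280650) (nat_lit 40579) (nat_lit 883959),Row.mk (nat_lit 22008) (nat_lit 31603) (nat_lit 6473574) (nat_lit 38148) (nat_lit 32193541) (nat_lit 38335) (nat_lit 1182758),Row.mk (nat_lit 22176) (nat_lit 31416) (nat_lit 16375633) (nat_lit 37961) (nat_lit 31820348) (nat_lit 38148) (nat_lit 1555950),Row.mk (nat_lit 22344) (nat_lit 31229) (nat_lit 28743066) (nat_lit 37774) (nat_lit 31354240) (nat_lit 37961) (nat_lit 2022059),Row.mk (nat_lit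 22512) (nat_lit 31042) (nat_lit 44189692) (nat_lit 37587) (nat_lit 30772081) (nat_lit 37774) (nat_lit 2604218),Row.mk (nat_lit 22680) (nat_lit 30855) (nat_lit 63482154) (nat_lit 37400) (nat_lit 30044979) (nat_lit 37587) (nat_lit 3331320),Row.mk (nat_lit 22848) (nat_lit 30668) (nat_lit 87577975) (nat_lit 37213) (nat_lit 29136846) (nat_lit 37400) (nat_lit 4239453),Row.mk (nat_lit 23016) (nat_lit 30481) (nat_lit 117673074) (nat_lit 37026) (nat_lit 28002610) (nat_lit 37213) (nat_lit 5373689),Row.mk (nat_lit 23184) (nat_lit 30294) (nat_lit 155261126) (nat_lit 36839) (nat_lit 26585977) (nat_lit 37026) (nat_lit 6790322),Row.mk (nat_lit 23352) (nat_lit 30107) (nat_lit 202207696) (nat_lit 36652) (nat_lit 24816636) (nat_lit 36839) (nat_lit 8559663),Row.mk (nat_lit 23520) (nat_lit 29920) (nat_lit 260842830) (nat_lit 36465) (nat_lit 22606771) (nat_lit 36652) (nat_lit 10769527),Row.mk (nat_lit 23688) (nat_lit 29733) (nat_lit 334076698) (nat_lit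 36278) (nat_lit 19846704) (nat_lit 36465) (nat_lit 13529595),Row.mk (nat_lit 23856) (nat_lit 29546) (nat_lit 425544032) (nat_lit 36091) (nat_lit 16399447) (nat_lit 36278) (nat_lit 16976852),Row.mk (nat_lit 24024) (nat_lit 29359) (nat_lit 539784526) (nat_lit 35904) (nat_lit 12093906) (nat_lit 36091) (nat_lit 21282393),Row.mk (nat_lit 24192) (nat_lit 29172) (nat_lit 682468147) (nat_lit 35717) (nat_lit 6716389) (nat_lit 35904) (nat_lit 26659910),Row.mk (nat_lit 24360) (nat_lit 28985) (nat_lit 860676547) (nat_lit 35717) (nat_lit 33376299) (nat_lit 0) (nat_lit 0),Row.mk (nat_lit 24528) (nat_lit 28798) (nat_lit 1074865932) (nat_lit 28985) (nat_lit 8388608) (nat_lit 35530) (nat_lit 33376299),Row.mk (nat_lit 24696) (nat_lit 28611) (nat_lit 1342383307) (nat_lit 28798) (nat_lit 18865777) (nat_lit 35343) (nat_lit 33376299),Row.mk (nat_lit 24864) (nat_lit 28424) (nat_lit 1676506055) (nat_lit 28611) (nat_lit 31951508) (nat_lit 35156) (nat_lit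 33376299),Row.mk (nat_lit 25032) (nat_lit 28237) (nat_lit 2093817306) (nat_lit 28424) (nat_lit 48295271) (nat_lit 34969) (nat_lit 33376299),Row.mk (nat_lit 25200) (nat_lit 28050) (nat_lit 2615028992) (nat_lit 28237) (nat_lit 68708236) (nat_lit 34782) (nat_lit 33376299),Row.mk (nat_lit 25368) (nat_lit 27863) (nat_lit 3266009814) (nat_lit 28050) (nat_lit 94203538) (nat_lit 34595) (nat_lit 33376299),Row.mk (nat_lit 25536) (nat_lit 27676) (nat_lit 4079069157) (nat_lit 27863) (nat_lit 126046554) (nat_lit 34408) (nat_lit 33376299),Row.mk (nat_lit 25704) (nat_lit 27489) (nat_lit 5094560662) (nat_lit 27676) (nat_lit 165817713) (nat_lit 34221) (nat_lit 33376299),Row.mk (nat_lit 25872) (nat_lit 27302) (nat_lit 6362885054) (nat_lit 27489) (nat_lit 215490932) (nat_lit 34034) (nat_lit 33376299),Row.mk (nat_lit 26040) (nat_lit 32912) (nat_lit 8467322) (nat_lit 62084) (nat_lit 8249432185) (nat_lit 0) (nat_lit 0),Row.mk (nat_lit 26208) (nat_lit 32912)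 (nat_lit 8467322) (nat_lit 62084) (nat_lit 10305430352) (nat_lit 0) (nat_lit 0),Row.mk (nat_lit 26376) (nat_lit 32912) (nat_lit 8467322) (nat_lit 62084) (nat_lit 12873322465) (nat_lit 0) (nat_lit 0),Row.mk (nat_lit 26544) (nat_lit 32912) (nat_lit 8467322) (nat_lit 62084) (nat_lit 16080557766) (nat_lit 0) (nat_lit 0),Row.mk (nat_lit 26712) (nat_lit 32912) (nat_lit 8467322) (nat_lit 62084) (nat_lit 20086317287) (nat_lit 0) (nat_lit 0),Row.mk (nat_lit 26880) (nat_lit 32912) (nat_lit 8467322) (nat_lit 62084) (nat_lit 25089414294) (nat_lit 0) (nat_lit 0),Row.mk (nat_lit 27048) (nat_lit 32912) (nat_lit 8467322) (nat_lit 62084) (nat_lit 31338161762) (nat_lit 0) (nat_lit 0),Row.mk (nat_lit 27216) (nat_lit 32912) (nat_lit 8467322) (nat_lit 62084) (nat_lit 39142696606) (nat_lit 0) (nat_lit 0),Row.mk (nat_lit 27384) (nat_lit 32912) (nat_lit 8467322) (nat_lit 62084) (nat_lit 48890372351) (nat_lit 0) (nat_lit 0)],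
[Row.mk (nat_lit 6216) (nat_lit 55352) (nat_lit 93684) (nat_lit 55539) (nat_lit 4627) (nat_lit 0) (nat_lit 0),Row.mk (nat_lit 6384) (nat_lit 55352) (nat_lit 93684) (nat_lit 55539) (nat_lit 4627) (nat_lit 0) (nat_lit 0),Row.mk (nat_lit 6552) (nat_lit 55352) (nat_lit 93684) (nat_lit 55539) (nat_lit 4627) (nat_lit 0) (nat_lit 0),Row.mk (nat_lit 6720) (nat_lit 55352) (nat_lit 93684) (nat_lit 55539) (nat_lit 4627) (nat_lit 0) (nat_lit 0),Row.mk (nat_lit 6888) (nat_lit 55352) (nat_lit 93684) (nat_lit 55539) (nat_lit 4627) (nat_lit 0) (nat_lit 0),Row.mk (nat_lit 7056) (nat_lit 55352) (nat_lit 93684) (nat_lit 55539) (nat_lit 4627) (nat_lit 0) (nat_lit 0),Row.mk (nat_lit 7224) (nat_lit 55352) (nat_lit 93684) (nat_lit 55539) (nat_lit 4627) (nat_lit 0) (nat_lit 0),Row.mk (nat_lit 7392) (nat_lit 55352) (nat_lit 93684) (nat_lit 55539) (nat_lit 4627) (nat_lit 0) (nat_lit 0),Row.mk (nat_lit 7560) (nat_lit 55352) (nat_lit 93684) (nat_lit 55539) (nat_lit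 4626) (nat_lit 0) (nat_lit 0),Row.mk (nat_lit 7728) (nat_lit 54978) (nat_lit 1) (nat_lit 55352) (nat_lit 93684) (nat_lit 55539) (nat_lit 4626),Row.mk (nat_lit 7896) (nat_lit 54978) (nat_lit 1) (nat_lit 55352) (nat_lit 93684) (nat_lit 55539) (nat_lit 4626),Row.mk (nat_lit 8064) (nat_lit 54978) (nat_lit 1) (nat_lit 55352) (nat_lit 93684) (nat_lit 55539) (nat_lit 4626),Row.mk (nat_lit 8232) (nat_lit 54978) (nat_lit 2) (nat_lit 55352) (nat_lit 93684) (nat_lit 55539) (nat_lit 4625),Row.mk (nat_lit 8400) (nat_lit 54978) (nat_lit 2) (nat_lit 55352) (nat_lit 93684) (nat_lit 55539) (nat_lit 4625),Row.mk (nat_lit 8568) (nat_lit 54978) (nat_lit 3) (nat_lit 55352) (nat_lit 93684) (nat_lit 55539) (nat_lit 4624),Row.mk (nat_lit 8736) (nat_lit 54978) (nat_lit 4) (nat_lit 55352) (nat_lit 93684) (nat_lit 55539) (nat_lit 4623),Row.mk (nat_lit 8904) (nat_lit 54978) (nat_lit 5) (nat_lit 55352) (nat_lit 93684) (nat_lit 55539) (nat_lit 4623),Row.mk (nat_lit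 9072) (nat_lit 54978) (nat_lit 7) (nat_lit 55352) (nat_lit 93684) (nat_lit 55539) (nat_lit 4621),Row.mk (nat_lit 9240) (nat_lit 54978) (nat_lit 9) (nat_lit 55352) (nat_lit 93684) (nat_lit 55539) (nat_lit 4620),Row.mk (nat_lit 9408) (nat_lit 54978) (nat_lit 11) (nat_lit 55352) (nat_lit 93684) (nat_lit 55539) (nat_lit 4618),Row.mk (nat_lit 9576) (nat_lit 54978) (nat_lit 14) (nat_lit 55352) (nat_lit 93684) (nat_lit 55539) (nat_lit 4616),Row.mk (nat_lit 9744) (nat_lit 54978) (nat_lit 17) (nat_lit 55352) (nat_lit 93684) (nat_lit 55539) (nat_lit 4613),Row.mk (nat_lit 9912) (nat_lit 54978) (nat_lit 22) (nat_lit 55352) (nat_lit 93685) (nat_lit 55539) (nat_lit 4609),Row.mk (nat_lit 10080) (nat_lit 54978) (nat_lit 27) (nat_lit 55352) (nat_lit 93685) (nat_lit 55539) (nat_lit 4605),Row.mk (nat_lit 10248) (nat_lit 54978) (nat_lit 34) (nat_lit 55352) (nat_lit 93685) (nat_lit 55539) (nat_lit 4599),Row.mk (nat_lit 10416) (nat_lit 54978) (nat_lit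 42) (nat_lit 55352) (nat_lit 93685) (nat_lit 55539) (nat_lit 4592),Row.mk (nat_lit 10584) (nat_lit 54978) (nat_lit 53) (nat_lit 55352) (nat_lit 93685) (nat_lit 55539) (nat_lit 4584),Row.mk (nat_lit 10752) (nat_lit 54978) (nat_lit 66) (nat_lit 55352) (nat_lit 93685) (nat_lit 55539) (nat_lit 4573),Row.mk (nat_lit 10920) (nat_lit 54978) (nat_lit 83) (nat_lit 55352) (nat_lit 93685) (nat_lit 55539) (nat_lit 4560),Row.mk (nat_lit 11088) (nat_lit 54978) (nat_lit 104) (nat_lit 55352) (nat_lit 93686) (nat_lit 55539) (nat_lit 4543),Row.mk (nat_lit 11256) (nat_lit 54978) (nat_lit 130) (nat_lit 55352) (nat_lit 93686) (nat_lit 55539) (nat_lit 4522),Row.mk (nat_lit 11424) (nat_lit 54978) (nat_lit 162) (nat_lit 55352) (nat_lit 93686) (nat_lit 55539) (nat_lit 4495),Row.mk (nat_lit 11592) (nat_lit 54978) (nat_lit 203) (nat_lit 55352) (nat_lit 93687) (nat_lit 55539) (nat_lit 4462),Row.mk (nat_lit 11760) (nat_lit 54978) (nat_lit 254) (nat_lit 55352)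 (nat_lit 93687) (nat_lit 55539) (nat_lit 4421),Row.mk (nat_lit 11928) (nat_lit 54978) (nat_lit 317) (nat_lit 55352) (nat_lit 93688) (nat_lit 55539) (nat_lit 4370),Row.mk (nat_lit 12096) (nat_lit 54978) (nat_lit 396) (nat_lit 55352) (nat_lit 93689) (nat_lit 55539) (nat_lit 4306),Row.mk (nat_lit 12264) (nat_lit 54978) (nat_lit 495) (nat_lit 55352) (nat_lit 93690) (nat_lit 55539) (nat_lit 4226),Row.mk (nat_lit 12432) (nat_lit 54978) (nat_lit 618) (nat_lit 55352) (nat_lit 93692) (nat_lit 55539) (nat_lit 4126),Row.mk (nat_lit 12600) (nat_lit 54978) (nat_lit 772) (nat_lit 55352) (nat_lit 93693) (nat_lit 55539) (nat_lit 4002),Row.mk (nat_lit 12768) (nat_lit 54978) (nat_lit 964) (nat_lit 55352) (nat_lit 93696) (nat_lit 55539) (nat_lit 3846),Row.mk (nat_lit 12936) (nat_lit 54978) (nat_lit 1204) (nat_lit 55352) (nat_lit 93699) (nat_lit 55539) (nat_lit 3651),Row.mk (nat_lit 13104) (nat_lit 54978) (nat_lit 1504) (nat_lit 55352) (nat_lit 93702)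 (nat_lit 55539) (nat_lit 3408),Row.mk (nat_lit 13272) (nat_lit 54978) (nat_lit 1879) (nat_lit 55352) (nat_lit 93707) (nat_lit 55539) (nat_lit 3105),Row.mk (nat_lit 13440) (nat_lit 54978) (nat_lit 2347) (nat_lit 55352) (nat_lit 93712) (nat_lit 55539) (nat_lit 2726),Row.mk (nat_lit 13608) (nat_lit 54978) (nat_lit 2931) (nat_lit 55352) (nat_lit 93719) (nat_lit 55539) (nat_lit 2252),Row.mk (nat_lit 13776) (nat_lit 54978) (nat_lit 3661) (nat_lit 55352) (nat_lit 93728) (nat_lit 55539) (nat_lit 1661),Row.mk (nat_lit 13944) (nat_lit 54978) (nat_lit 4573) (nat_lit 55352) (nat_lit 93739) (nat_lit 55539) (nat_lit 922),Row.mk (nat_lit 14112) (nat_lit 54978) (nat_lit 5712) (nat_lit 55352) (nat_lit 93752) (nat_lit 0) (nat_lit 0),Row.mk (nat_lit 14280) (nat_lit 54791) (nat_lit 1439) (nat_lit 54978) (nat_lit 5695) (nat_lit 55352) (nat_lit 92617),Row.mk (nat_lit 14448) (nat_lit 54791) (nat_lit 3236) (nat_lit 54978) (nat_lit 5674) (nat_lit 55352) (nat_lit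 91199),Row.mk (nat_lit 14616) (nat_lit 54791) (nat_lit 5481) (nat_lit 54978) (nat_lit 5647) (nat_lit 55352) (nat_lit 89428),Row.mk (nat_lit 14784) (nat_lit 54791) (nat_lit 8285) (nat_lit 54978) (nat_lit 5615) (nat_lit 55352) (nat_lit 87216),Row.mk (nat_lit 14952) (nat_lit 54791) (nat_lit 11786) (nat_lit 54978) (nat_lit 5574) (nat_lit 55352) (nat_lit 84453),Row.mk (nat_lit 15120) (nat_lit 54791) (nat_lit 16160) (nat_lit 54978) (nat_lit 5522) (nat_lit 55352) (nat_lit 81002),Row.mk (nat_lit 15288) (nat_lit 54791) (nat_lit 21623) (nat_lit 54978) (nat_lit 5458) (nat_lit 55352) (nat_lit 76693),Row.mk (nat_lit 15456) (nat_lit 54791) (nat_lit 28446) (nat_lit 54978) (nat_lit 5378) (nat_lit 55352) (nat_lit 71310),Row.mk (nat_lit 15624) (nat_lit 54791) (nat_lit 36967) (nat_lit 54978) (nat_lit 5278) (nat_lit 55352) (nat_lit 64587),Row.mk (nat_lit 15792) (nat_lit 54791) (nat_lit 47610) (nat_lit 54978) (nat_lit 5154) (nat_lit 55352) (nat_lit 56190),Row.mk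 (nat_lit 15960) (nat_lit 54791) (nat_lit 60903) (nat_lit 54978) (nat_lit 4998) (nat_lit 55352) (nat_lit 45703),Row.mk (nat_lit 16128) (nat_lit 54791) (nat_lit 77506) (nat_lit 54978) (nat_lit 4803) (nat_lit 55352) (nat_lit 32605),Row.mk (nat_lit 16296) (nat_lit 54791) (nat_lit 98242) (nat_lit 54978) (nat_lit 4560) (nat_lit 55352) (nat_lit 16245),Row.mk (nat_lit 16464) (nat_lit 54417) (nat_lit 5229) (nat_lit 54791) (nat_lit 118911) (nat_lit 54978) (nat_lit 69),Row.mk (nat_lit 16632) (nat_lit 54230) (nat_lit 32259) (nat_lit 54417) (nat_lit 4843) (nat_lit 54791) (nat_lit 93556),Row.mk (nat_lit 16800) (nat_lit 54230) (nat_lit 72660) (nat_lit 54417) (nat_lit 4252) (nat_lit 54791) (nat_lit 61800),Row.mk (nat_lit 16968) (nat_lit 54230) (nat_lit 123120) (nat_lit 54417) (nat_lit 3513) (nat_lit 54791) (nat_lit 22137),Row.mk (nat_lit 17136) (nat_lit 53669) (nat_lit 30985) (nat_lit 53856) (nat_lit 3236) (nat_lit 54230) (nat_lit 127114),Row.mk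 (nat_lit 17304) (nat_lit 53669) (nat_lit 109699) (nat_lit 53856) (nat_lit 1797) (nat_lit 54230) (nat_lit 65530),Row.mk (nat_lit 17472) (nat_lit 53108) (nat_lit 14222) (nat_lit 53669) (nat_lit 182402) (nat_lit 0) (nat_lit 0),Row.mk (nat_lit 17640) (nat_lit 53108) (nat_lit 134208) (nat_lit 53482) (nat_lit 2803) (nat_lit 53669) (nat_lit 84090),Row.mk (nat_lit 17808) (nat_lit 52547) (nat_lit 40459) (nat_lit 52921) (nat_lit 7875) (nat_lit 53108) (nat_lit 203339),Row.mk (nat_lit 17976) (nat_lit 52547) (nat_lit 226541) (nat_lit 52921) (nat_lit 13338) (nat_lit 53108) (nat_lit 49977),Row.mk (nat_lit 18144) (nat_lit 51986) (nat_lit 151633) (nat_lit 52360) (nat_lit 25180) (nat_lit 52547) (nat_lit 160733),Row.mk (nat_lit 18312) (nat_lit 51425) (nat_lit 53303) (nat_lit 51799) (nat_lit 44743) (nat_lit 51986) (nat_lit 299064),Row.mk (nat_lit 18480) (nat_lit 51425) (nat_lit 409894) (nat_lit 51799) (nat_lit 61345) (nat_lit 51986) (nat_lit 265),Row.mk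 (nat_lit 18648) (nat_lit 50864) (nat_lit 363258) (nat_lit 51238) (nat_lit 102518) (nat_lit 51425) (nat_lit 98644),Row.mk (nat_lit 18816) (nat_lit 50303) (nat_lit 290510) (nat_lit 50677) (nat_lit 168443) (nat_lit 50864) (nat_lit 221516),Row.mk (nat_lit 18984) (nat_lit 49742) (nat_lit 177027) (nat_lit 50116) (nat_lit 273405) (nat_lit 50303) (nat_lit 374981),Row.mk (nat_lit 19152) (nat_lit 49555) (nat_lit 439789) (nat_lit 49742) (nat_lit 566655) (nat_lit 0) (nat_lit 0),Row.mk (nat_lit 19320) (nat_lit 48994) (nat_lit 426496) (nat_lit 49181) (nat_lit 584949) (nat_lit 49555) (nat_lit 221102),Row.mk (nat_lit 19488) (nat_lit 48433) (nat_lit 409894) (nat_lit 48620) (nat_lit 539042) (nat_lit 48994) (nat_lit 566009),Row.mk (nat_lit 19656) (nat_lit 47685) (nat_lit 389157) (nat_lit 47872) (nat_lit 374452) (nat_lit 48433) (nat_lit 1104043),Row.mk (nat_lit 19824) (nat_lit 46750) (nat_lit 363258) (nat_lit 46937) (nat_lit 1573) (nat_lit 47685) (nat_lit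 1943345),Row.mk (nat_lit 19992) (nat_lit 46563) (nat_lit 330911) (nat_lit 46750) (nat_lit 2211829) (nat_lit 47498) (nat_lit 315639),Row.mk (nat_lit 20160) (nat_lit 45628) (nat_lit 290510) (nat_lit 45815) (nat_lit 1854388) (nat_lit 46563) (nat_lit 1400671),Row.mk (nat_lit 20328) (nat_lit 44506) (nat_lit 240050) (nat_lit 44693) (nat_lit 899452) (nat_lit 45628) (nat_lit 3264350),Row.mk (nat_lit 20496) (nat_lit 44319) (nat_lit 177027) (nat_lit 44506) (nat_lit 4570651) (nat_lit 45441) (nat_lit 728150),Row.mk (nat_lit 20664) (nat_lit 43010) (nat_lit 98312) (nat_lit 43197) (nat_lit 2948566) (nat_lit 44319) (nat_lit 3767822),Row.mk (nat_lit 20832) (nat_lit 43010) (nat_lit 7988230) (nat_lit 44132) (nat_lit 498690) (nat_lit 0) (nat_lit 0),Row.mk (nat_lit 21000) (nat_lit 41327) (nat_lit 4476799) (nat_lit 42823) (nat_lit 6000369) (nat_lit 43010) (nat_lit 98312),Row.mk (nat_lit 21168) (nat_lit 41140) (nat_lit 10846141) (nat_lit 42636) (nat_lit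 2116799) (nat_lit 42823) (nat_lit 221102),Row.mk (nat_lit 21336) (nat_lit 38896) (nat_lit 2946610) (nat_lit 40953) (nat_lit 13121000) (nat_lit 41140) (nat_lit 374464),Row.mk (nat_lit 21504) (nat_lit 38709) (nat_lit 10273844) (nat_lit 40766) (nat_lit 9671423) (nat_lit 40953) (nat_lit 566009),Row.mk (nat_lit 21672) (nat_lit 38522) (nat_lit 19425383) (nat_lit 40579) (nat_lit 5362986) (nat_lit 40766) (nat_lit 805244),Row.mk (nat_lit 21840) (nat_lit 38335) (nat_lit 30837285) (nat_lit 38522) (nat_lit 18148) (nat_lit 40579) (nat_lit 1085894),Row.mk (nat_lit 22008) (nat_lit 31603) (nat_lit 6571886) (nat_lit 38148) (nat_lit 31820348) (nat_lit 38335) (nat_lit 1477236),Row.mk (nat_lit 22176) (nat_lit 31416) (nat_lit 16473945) (nat_lit 37961) (nat_lit 31354240) (nat_lit 38148) (nat_lit 1943345),Row.mk (nat_lit 22344) (nat_lit 31229) (nat_lit 28841378) (nat_lit 37774) (nat_lit 30772081) (nat_lit 37961) (nat_lit 2525503),Row.mk (nat_lit 22512)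 (nat_lit 31042) (nat_lit 44288004) (nat_lit 37587) (nat_lit 30044979) (nat_lit 37774) (nat_lit 3252605),Row.mk (nat_lit 22680) (nat_lit 30855) (nat_lit 63580467) (nat_lit 37400) (nat_lit 29136846) (nat_lit 37587) (nat_lit 4160738),Row.mk (nat_lit 22848) (nat_lit 30668) (nat_lit 87676287) (nat_lit 37213) (nat_lit 28002610) (nat_lit 37400) (nat_lit 5294974),Row.mk (nat_lit 23016) (nat_lit 30481) (nat_lit 117771386) (nat_lit 37026) (nat_lit 26585977) (nat_lit 37213) (nat_lit 6711608),Row.mk (nat_lit 23184) (nat_lit 30294) (nat_lit 155359438) (nat_lit 36839) (nat_lit 24816636) (nat_lit 37026) (nat_lit 8480949),Row.mk (nat_lit 23352) (nat_lit 30107) (nat_lit 202306009) (nat_lit 36652) (nat_lit 22606771) (nat_lit 36839) (nat_lit 10690813),Row.mk (nat_lit 23520) (nat_lit 29920) (nat_lit 260941143) (nat_lit 36465) (nat_lit 19846704) (nat_lit 36652) (nat_lit 13450880),Row.mk (nat_lit 23688) (nat_lit 29733) (nat_lit 334175010) (nat_lit 36278)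 (nat_lit 16399447) (nat_lit 36465) (nat_lit 16898137),Row.mk (nat_lit 23856) (nat_lit 29546) (nat_lit 425642345) (nat_lit 36091) (nat_lit 12093906) (nat_lit 36278) (nat_lit 21203679),Row.mk (nat_lit 24024) (nat_lit 29359) (nat_lit 539882838) (nat_lit 35904) (nat_lit 6716389) (nat_lit 36091) (nat_lit 26581196),Row.mk (nat_lit 24192) (nat_lit 29172) (nat_lit 682566459) (nat_lit 35904) (nat_lit 33297585) (nat_lit 0) (nat_lit 0),Row.mk (nat_lit 24360) (nat_lit 28985) (nat_lit 852386252) (nat_lit 29172) (nat_lit 8388608) (nat_lit 35717) (nat_lit 33297585),Row.mk (nat_lit 24528) (nat_lit 28798) (nat_lit 1064487076) (nat_lit 28985) (nat_lit 18865777) (nat_lit 35530) (nat_lit 33297585),Row.mk (nat_lit 24696) (nat_lit 28611) (nat_lit 1329395888) (nat_lit 28798) (nat_lit 31951508) (nat_lit 35343) (nat_lit 33297585),Row.mk (nat_lit 24864) (nat_lit 28424) (nat_lit 1660260604) (nat_lit 28611) (nat_lit 48295271) (nat_lit 35156) (nat_lit 33297585),Row.mk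 (nat_lit 25032) (nat_lit 28237) (nat_lit 2073502653) (nat_lit 28424) (nat_lit 68708236) (nat_lit 34969) (nat_lit 33297585),Row.mk (nat_lit 25200) (nat_lit 28050) (nat_lit 2589632003) (nat_lit 28237) (nat_lit 94203538) (nat_lit 34782) (nat_lit 33297585),Row.mk (nat_lit 25368) (nat_lit 27863) (nat_lit 3234265110) (nat_lit 28050) (nat_lit 126046554) (nat_lit 34595) (nat_lit 33297585),Row.mk (nat_lit 25536) (nat_lit 27676) (nat_lit 4039396310) (nat_lit 27863) (nat_lit 165817713) (nat_lit 34408) (nat_lit 33297585),Row.mk (nat_lit 25704) (nat_lit 27489) (nat_lit 5044985756) (nat_lit 27676) (nat_lit 215490932) (nat_lit 34221) (nat_lit 33297585),Row.mk (nat_lit 25872) (nat_lit 27302) (nat_lit 6300942715) (nat_lit 27489) (nat_lit 277531584) (nat_lit 34034) (nat_lit 33297585),Row.mk (nat_lit 26040) (nat_lit 32912) (nat_lit 8486920) (nat_lit 62084) (nat_lit 8249432185) (nat_lit 0) (nat_lit 0),Row.mk (nat_lit 26208) (nat_lit 32912) (nat_lit 8486920)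 (nat_lit 62084) (nat_lit 10305430352) (nat_lit 0) (nat_lit 0),Row.mk (nat_lit 26376) (nat_lit 32912) (nat_lit 8486920) (nat_lit 62084) (nat_lit 12873322465) (nat_lit 0) (nat_lit 0),Row.mk (nat_lit 26544) (nat_lit 32912) (nat_lit 8486920) (nat_lit 62084) (nat_lit 16080557766) (nat_lit 0) (nat_lit 0),Row.mk (nat_lit 26712) (nat_lit 32912) (nat_lit 8486920) (nat_lit 62084) (nat_lit 20086317287) (nat_lit 0) (nat_lit 0),Row.mk (nat_lit 26880) (nat_lit 32912) (nat_lit 8486920) (nat_lit 62084) (nat_lit 25089414294) (nat_lit 0) (nat_lit 0),Row.mk (nat_lit 27048) (nat_lit 32912) (nat_lit 8486920) (nat_lit 62084) (nat_lit 31338161762) (nat_lit 0) (nat_lit 0),Row.mk (nat_lit 27216) (nat_lit 32912) (nat_lit 8486920) (nat_lit 62084) (nat_lit 39142696606) (nat_lit 0) (nat_lit 0),Row.mk (nat_lit 27384) (nat_lit 32912) (nat_lit 8486920) (nat_lit 62084) (nat_lit 48890372351) (nat_lit 0) (nat_lit 0),Row.mk (nat_lit 27552) (nat_lit 32912) (nat_lit 8486920)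 (nat_lit 62084) (nat_lit 61064984206) (nat_lit 0) (nat_lit 0)],
[Row.mk (nat_lit 6216) (nat_lit 54791) (nat_lit 115570) (nat_lit 54978) (nat_lit 7218) (nat_lit 0) (nat_lit 0),Row.mk (nat_lit 6384) (nat_lit 54791) (nat_lit 115570) (nat_lit 54978) (nat_lit 7218) (nat_lit 0) (nat_lit 0),Row.mk (nat_lit 6552) (nat_lit 54791) (nat_lit 115570) (nat_lit 54978) (nat_lit 7218) (nat_lit 0) (nat_lit 0),Row.mk (nat_lit 6720) (nat_lit 54791) (nat_lit 115570) (nat_lit 54978) (nat_lit 7218) (nat_lit 0) (nat_lit 0),Row.mk (nat_lit 6888) (nat_lit 54791) (nat_lit 115570) (nat_lit 54978) (nat_lit 7218) (nat_lit 0) (nat_lit 0),Row.mk (nat_lit 7056) (nat_lit 54791) (nat_lit 115570) (nat_lit 54978) (nat_lit 7218) (nat_lit 0) (nat_lit 0),Row.mk (nat_lit 7224) (nat_lit 54791) (nat_lit 115570) (nat_lit 54978) (nat_lit 7218) (nat_lit 0) (nat_lit 0),Row.mk (nat_lit 7392) (nat_lit 54791) (nat_lit 115570) (nat_lit 54978) (nat_lit 7218) (nat_lit 0) (nat_lit 0),Row.mk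 (nat_lit 7560) (nat_lit 54791) (nat_lit 115570) (nat_lit 54978) (nat_lit 7218) (nat_lit 0) (nat_lit 0),Row.mk (nat_lit 7728) (nat_lit 54417) (nat_lit 1) (nat_lit 54791) (nat_lit 115570) (nat_lit 54978) (nat_lit 7218),Row.mk (nat_lit 7896) (nat_lit 54417) (nat_lit 1) (nat_lit 54791) (nat_lit 115570) (nat_lit 54978) (nat_lit 7217),Row.mk (nat_lit 8064) (nat_lit 54417) (nat_lit 1) (nat_lit 54791) (nat_lit 115570) (nat_lit 54978) (nat_lit 7217),Row.mk (nat_lit 8232) (nat_lit 54417) (nat_lit 2) (nat_lit 54791) (nat_lit 115570) (nat_lit 54978) (nat_lit 7217),Row.mk (nat_lit 8400) (nat_lit 54417) (nat_lit 2) (nat_lit 54791) (nat_lit 115571) (nat_lit 54978) (nat_lit 7216),Row.mk (nat_lit 8568) (nat_lit 54417) (nat_lit 3) (nat_lit 54791) (nat_lit 115571) (nat_lit 54978) (nat_lit 7216),Row.mk (nat_lit 8736) (nat_lit 54417) (nat_lit 4) (nat_lit 54791) (nat_lit 115571) (nat_lit 54978) (nat_lit 7215),Row.mk (nat_lit 8904) (nat_lit 54417) (nat_lit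 5) (nat_lit 54791) (nat_lit 115571) (nat_lit 54978) (nat_lit 7214),Row.mk (nat_lit 9072) (nat_lit 54417) (nat_lit 7) (nat_lit 54791) (nat_lit 115571) (nat_lit 54978) (nat_lit 7213),Row.mk (nat_lit 9240) (nat_lit 54417) (nat_lit 9) (nat_lit 54791) (nat_lit 115571) (nat_lit 54978) (nat_lit 7211),Row.mk (nat_lit 9408) (nat_lit 54417) (nat_lit 11) (nat_lit 54791) (nat_lit 115571) (nat_lit 54978) (nat_lit 7209),Row.mk (nat_lit 9576) (nat_lit 54417) (nat_lit 14) (nat_lit 54791) (nat_lit 115571) (nat_lit 54978) (nat_lit 7207),Row.mk (nat_lit 9744) (nat_lit 54417) (nat_lit 17) (nat_lit 54791) (nat_lit 115571) (nat_lit 54978) (nat_lit 7204),Row.mk (nat_lit 9912) (nat_lit 54417) (nat_lit 21) (nat_lit 54791) (nat_lit 115571) (nat_lit 54978) (nat_lit 7201),Row.mk (nat_lit 10080) (nat_lit 54417) (nat_lit 27) (nat_lit 54791) (nat_lit 115571) (nat_lit 54978) (nat_lit 7196),Row.mk (nat_lit 10248) (nat_lit 54417) (nat_lit 34) (nat_lit 54791) (nat_lit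 115571) (nat_lit 54978) (nat_lit 7191),Row.mk (nat_lit 10416) (nat_lit 54417) (nat_lit 42) (nat_lit 54791) (nat_lit 115571) (nat_lit 54978) (nat_lit 7184),Row.mk (nat_lit 10584) (nat_lit 54417) (nat_lit 53) (nat_lit 54791) (nat_lit 115571) (nat_lit 54978) (nat_lit 7175),Row.mk (nat_lit 10752) (nat_lit 54417) (nat_lit 66) (nat_lit 54791) (nat_lit 115571) (nat_lit 54978) (nat_lit 7164),Row.mk (nat_lit 10920) (nat_lit 54417) (nat_lit 83) (nat_lit 54791) (nat_lit 115572) (nat_lit 54978) (nat_lit 7151),Row.mk (nat_lit 11088) (nat_lit 54417) (nat_lit 104) (nat_lit 54791) (nat_lit 115572) (nat_lit 54978) (nat_lit 7134),Row.mk (nat_lit 11256) (nat_lit 54417) (nat_lit 130) (nat_lit 54791) (nat_lit 115572) (nat_lit 54978) (nat_lit 7113),Row.mk (nat_lit 11424) (nat_lit 54417) (nat_lit 162) (nat_lit 54791) (nat_lit 115573) (nat_lit 54978) (nat_lit 7087),Row.mk (nat_lit 11592) (nat_lit 54417) (nat_lit 202) (nat_lit 54791) (nat_lit 115573) (nat_lit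 54978) (nat_lit 7054),Row.mk (nat_lit 11760) (nat_lit 54417) (nat_lit 253) (nat_lit 54791) (nat_lit 115574) (nat_lit 54978) (nat_lit 7013),Row.mk (nat_lit 11928) (nat_lit 54417) (nat_lit 316) (nat_lit 54791) (nat_lit 115575) (nat_lit 54978) (nat_lit 6961),Row.mk (nat_lit 12096) (nat_lit 54417) (nat_lit 395) (nat_lit 54791) (nat_lit 115576) (nat_lit 54978) (nat_lit 6897),Row.mk (nat_lit 12264) (nat_lit 54417) (nat_lit 493) (nat_lit 54791) (nat_lit 115578) (nat_lit 54978) (nat_lit 6817),Row.mk (nat_lit 12432) (nat_lit 54417) (nat_lit 616) (nat_lit 54791) (nat_lit 115580) (nat_lit 54978) (nat_lit 6718),Row.mk (nat_lit 12600) (nat_lit 54417) (nat_lit 770) (nat_lit 54791) (nat_lit 115582) (nat_lit 54978) (nat_lit 6593),Row.mk (nat_lit 12768) (nat_lit 54417) (nat_lit 961) (nat_lit 54791) (nat_lit 115585) (nat_lit 54978) (nat_lit 6437),Row.mk (nat_lit 12936) (nat_lit 54417) (nat_lit 1201) (nat_lit 54791) (nat_lit 115588) (nat_lit 54978)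 (nat_lit 6242),Row.mk (nat_lit 13104) (nat_lit 54417) (nat_lit 1500) (nat_lit 54791) (nat_lit 115593) (nat_lit 54978) (nat_lit 5999),Row.mk (nat_lit 13272) (nat_lit 54417) (nat_lit 1873) (nat_lit 54791) (nat_lit 115598) (nat_lit 54978) (nat_lit 5696),Row.mk (nat_lit 13440) (nat_lit 54417) (nat_lit 2340) (nat_lit 54791) (nat_lit 115605) (nat_lit 54978) (nat_lit 5317),Row.mk (nat_lit 13608) (nat_lit 54417) (nat_lit 2923) (nat_lit 54791) (nat_lit 115614) (nat_lit 54978) (nat_lit 4843),Row.mk (nat_lit 13776) (nat_lit 54417) (nat_lit 3651) (nat_lit 54791) (nat_lit 115625) (nat_lit 54978) (nat_lit 4252),Row.mk (nat_lit 13944) (nat_lit 54417) (nat_lit 4560) (nat_lit 54791) (nat_lit 115638) (nat_lit 54978) (nat_lit 3513),Row.mk (nat_lit 14112) (nat_lit 54417) (nat_lit 5695) (nat_lit 54791) (nat_lit 115655) (nat_lit 54978) (nat_lit 2591),Row.mk (nat_lit 14280) (nat_lit 54417) (nat_lit 7113) (nat_lit 54791) (nat_lit 115676) (nat_lit 54978)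 (nat_lit 1439),Row.mk (nat_lit 14448) (nat_lit 54417) (nat_lit 8884) (nat_lit 54791) (nat_lit 115702) (nat_lit 0) (nat_lit 0),Row.mk (nat_lit 14616) (nat_lit 54230) (nat_lit 2244) (nat_lit 54417) (nat_lit 8851) (nat_lit 54791) (nat_lit 113938),Row.mk (nat_lit 14784) (nat_lit 54230) (nat_lit 5048) (nat_lit 54417) (nat_lit 8810) (nat_lit 54791) (nat_lit 111734),Row.mk (nat_lit 14952) (nat_lit 54230) (nat_lit 8550) (nat_lit 54417) (nat_lit 8759) (nat_lit 54791) (nat_lit 108982),Row.mk (nat_lit 15120) (nat_lit 54230) (nat_lit 12924) (nat_lit 54417) (nat_lit 8695) (nat_lit 54791) (nat_lit 105544),Row.mk (nat_lit 15288) (nat_lit 54230) (nat_lit 18386) (nat_lit 54417) (nat_lit 8615) (nat_lit 54791) (nat_lit 101250),Row.mk (nat_lit 15456) (nat_lit 54230) (nat_lit 25209) (nat_lit 54417) (nat_lit 8515) (nat_lit 54791) (nat_lit 95887),Row.mk (nat_lit 15624) (nat_lit 54230) (nat_lit 33731) (nat_lit 54417) (nat_lit 8390) (nat_lit 54791) (nat_lit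 89189),Row.mk (nat_lit 15792) (nat_lit 54230) (nat_lit 44374) (nat_lit 54417) (nat_lit 8234) (nat_lit 54791) (nat_lit 80823),Row.mk (nat_lit 15960) (nat_lit 54230) (nat_lit 57667) (nat_lit 54417) (nat_lit 8040) (nat_lit 54791) (nat_lit 70375),Row.mk (nat_lit 16128) (nat_lit 54230) (nat_lit 74269) (nat_lit 54417) (nat_lit 7797) (nat_lit 54791) (nat_lit 57325),Row.mk (nat_lit 16296) (nat_lit 54230) (nat_lit 95006) (nat_lit 54417) (nat_lit 7493) (nat_lit 54791) (nat_lit 41026),Row.mk (nat_lit 16464) (nat_lit 54230) (nat_lit 120905) (nat_lit 54417) (nat_lit 7114) (nat_lit 54791) (nat_lit 20669),Row.mk (nat_lit 16632) (nat_lit 53856) (nat_lit 5940) (nat_lit 54230) (nat_lit 147311) (nat_lit 54417) (nat_lit 1884),Row.mk (nat_lit 16800) (nat_lit 53669) (nat_lit 38047) (nat_lit 53856) (nat_lit 7556) (nat_lit 54230) (nat_lit 117588),Row.mk (nat_lit 16968) (nat_lit 53669) (nat_lit 88506) (nat_lit 53856) (nat_lit 6633) (nat_lit 54230) (nat_lit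 78109),Row.mk (nat_lit 17136) (nat_lit 53669) (nat_lit 151530) (nat_lit 53856) (nat_lit 5481) (nat_lit 54230) (nat_lit 28801),Row.mk (nat_lit 17304) (nat_lit 53108) (nat_lit 35895) (nat_lit 53295) (nat_lit 5048) (nat_lit 53669) (nat_lit 160560),Row.mk (nat_lit 17472) (nat_lit 53108) (nat_lit 134208) (nat_lit 53295) (nat_lit 2803) (nat_lit 53669) (nat_lit 84090),Row.mk (nat_lit 17640) (nat_lit 52547) (nat_lit 14261) (nat_lit 53108) (nat_lit 231318) (nat_lit 0) (nat_lit 0),Row.mk (nat_lit 17808) (nat_lit 52547) (nat_lit 163249) (nat_lit 52921) (nat_lit 4373) (nat_lit 53108) (nat_lit 108528),Row.mk (nat_lit 17976) (nat_lit 51986) (nat_lit 43709) (nat_lit 52360) (nat_lit 12285) (nat_lit 52547) (nat_lit 258339),Row.mk (nat_lit 18144) (nat_lit 51986) (nat_lit 274423) (nat_lit 52360) (nat_lit 20806) (nat_lit 52547) (nat_lit 66794),Row.mk (nat_lit 18312) (nat_lit 51425) (nat_lit 176093) (nat_lit 51799) (nat_lit 39280) (nat_lit 51986) (nat_lit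 206214),Row.mk (nat_lit 18480) (nat_lit 50864) (nat_lit 45838) (nat_lit 51238) (nat_lit 69796) (nat_lit 51425) (nat_lit 380347),Row.mk (nat_lit 18648) (nat_lit 50864) (nat_lit 486048) (nat_lit 51238) (nat_lit 95695) (nat_lit 51425) (nat_lit 7154),Row.mk (nat_lit 18816) (nat_lit 50303) (nat_lit 413300) (nat_lit 50677) (nat_lit 159922) (nat_lit 50864) (nat_lit 131725),Row.mk (nat_lit 18984) (nat_lit 49742) (nat_lit 299817) (nat_lit 50116) (nat_lit 262762) (nat_lit 50303) (nat_lit 287312),Row.mk (nat_lit 19152) (nat_lit 49181) (nat_lit 122789) (nat_lit 49555) (nat_lit 426496) (nat_lit 49742) (nat_lit 481636),Row.mk (nat_lit 19320) (nat_lit 48994) (nat_lit 532683) (nat_lit 49181) (nat_lit 601552) (nat_lit 49555) (nat_lit 122789),Row.mk (nat_lit 19488) (nat_lit 48433) (nat_lit 511947) (nat_lit 48620) (nat_lit 559778) (nat_lit 48994) (nat_lit 467696),Row.mk (nat_lit 19656) (nat_lit 47685) (nat_lit 486048) (nat_lit 47872) (nat_lit 400351)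 (nat_lit 48433) (nat_lit 1005731),Row.mk (nat_lit 19824) (nat_lit 46750) (nat_lit 453701) (nat_lit 46937) (nat_lit 33920) (nat_lit 47685) (nat_lit 1845032),Row.mk (nat_lit 19992) (nat_lit 46563) (nat_lit 413300) (nat_lit 46750) (nat_lit 2252230) (nat_lit 47498) (nat_lit 217326),Row.mk (nat_lit 20160) (nat_lit 45628) (nat_lit 362840) (nat_lit 45815) (nat_lit 1904848) (nat_lit 46563) (nat_lit 1302358),Row.mk (nat_lit 20328) (nat_lit 44506) (nat_lit 299817) (nat_lit 44693) (nat_lit 962475) (nat_lit 45628) (nat_lit 3166038),Row.mk (nat_lit 20496) (nat_lit 44319) (nat_lit 221102) (nat_lit 44506) (nat_lit 4649366) (nat_lit 45441) (nat_lit 629838),Row.mk (nat_lit 20664) (nat_lit 43010) (nat_lit 122789) (nat_lit 43197) (nat_lit 3046879) (nat_lit 44319) (nat_lit 3669509),Row.mk (nat_lit 20832) (nat_lit 43010) (nat_lit 8111020) (nat_lit 44132) (nat_lit 400377) (nat_lit 0) (nat_lit 0),Row.mk (nat_lit 21000) (nat_lit 41327) (nat_lit 4599589)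 (nat_lit 42823) (nat_lit 5877579) (nat_lit 43010) (nat_lit 122789),Row.mk (nat_lit 21168) (nat_lit 41140) (nat_lit 10968931) (nat_lit 42636) (nat_lit 1963437) (nat_lit 42823) (nat_lit 276151),Row.mk (nat_lit 21336) (nat_lit 38896) (nat_lit 3069400) (nat_lit 40953) (nat_lit 12929455) (nat_lit 41140) (nat_lit 467696),Row.mk (nat_lit 21504) (nat_lit 38709) (nat_lit 10396634) (nat_lit 40766) (nat_lit 9432188) (nat_lit 40953) (nat_lit 706932),Row.mk (nat_lit 21672) (nat_lit 38522) (nat_lit 19548173) (nat_lit 40579) (nat_lit 5064187) (nat_lit 40766) (nat_lit 1005731),Row.mk (nat_lit 21840) (nat_lit 38335) (nat_lit 30586882) (nat_lit 38522) (nat_lit 391341) (nat_lit 40579) (nat_lit 987582),Row.mk (nat_lit 22008) (nat_lit 31603) (nat_lit 6694676) (nat_lit 38148) (nat_lit 31354240) (nat_lit 38335) (nat_lit 1845032),Row.mk (nat_lit 22176) (nat_lit 31416) (nat_lit 16596735) (nat_lit 37961) (nat_lit 30772081) (nat_lit 38148) (nat_lit 2427191),Row.mk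 (nat_lit 22344) (nat_lit 31229) (nat_lit 28964168) (nat_lit 37774) (nat_lit 30044979) (nat_lit 37961) (nat_lit 3154293),Row.mk (nat_lit 22512) (nat_lit 31042) (nat_lit 44410794) (nat_lit 37587) (nat_lit 29136846) (nat_lit 37774) (nat_lit 4062425),Row.mk (nat_lit 22680) (nat_lit 30855) (nat_lit 63703257) (nat_lit 37400) (nat_lit 28002610) (nat_lit 37587) (nat_lit 5196662),Row.mk (nat_lit 22848) (nat_lit 30668) (nat_lit 87799077) (nat_lit 37213) (nat_lit 26585977) (nat_lit 37400) (nat_lit 6613295),Row.mk (nat_lit 23016) (nat_lit 30481) (nat_lit 117894176) (nat_lit 37026) (nat_lit 24816636) (nat_lit 37213) (nat_lit 8382636),Row.mk (nat_lit 23184) (nat_lit 30294) (nat_lit 155482228) (nat_lit 36839) (nat_lit 22606771) (nat_lit 37026) (nat_lit 10592500),Row.mk (nat_lit 23352) (nat_lit 30107) (nat_lit 202428799) (nat_lit 36652) (nat_lit 19846704) (nat_lit 36839) (nat_lit 13352567),Row.mk (nat_lit 23520) (nat_lit 29920) (nat_lit 261063933)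 (nat_lit 36465) (nat_lit 16399447) (nat_lit 36652) (nat_lit 16799825),Row.mk (nat_lit 23688) (nat_lit 29733) (nat_lit 334297800) (nat_lit 36278) (nat_lit 12093906) (nat_lit 36465) (nat_lit 21105366),Row.mk (nat_lit 23856) (nat_lit 29546) (nat_lit 425765135) (nat_lit 36091) (nat_lit 6716389) (nat_lit 36278) (nat_lit 26482883),Row.mk (nat_lit 24024) (nat_lit 29359) (nat_lit 540005628) (nat_lit 36091) (nat_lit 33199272) (nat_lit 0) (nat_lit 0),Row.mk (nat_lit 24192) (nat_lit 29172) (nat_lit 674300641) (nat_lit 29359) (nat_lit 8388608) (nat_lit 35904) (nat_lit 33199272),Row.mk (nat_lit 24360) (nat_lit 28985) (nat_lit 842031873) (nat_lit 29172) (nat_lit 18865777) (nat_lit 35717) (nat_lit 33199272),Row.mk (nat_lit 24528) (nat_lit 28798) (nat_lit 1051524134) (nat_lit 28985) (nat_lit 31951508) (nat_lit 35530) (nat_lit 33199272),Row.mk (nat_lit 24696) (nat_lit 28611) (nat_lit 1313174915) (nat_lit 28798) (nat_lit 48295271) (nat_lit 35343) (nat_lit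 33199272),Row.mk (nat_lit 24864) (nat_lit 28424) (nat_lit 1639970429) (nat_lit 28611) (nat_lit 68708236) (nat_lit 35156) (nat_lit 33199272),Row.mk (nat_lit 25032) (nat_lit 28237) (nat_lit 2048130142) (nat_lit 28424) (nat_lit 94203538) (nat_lit 34969) (nat_lit 33199272),Row.mk (nat_lit 25200) (nat_lit 28050) (nat_lit 2557911777) (nat_lit 28237) (nat_lit 126046554) (nat_lit 34782) (nat_lit 33199272),Row.mk (nat_lit 25368) (nat_lit 27863) (nat_lit 3194616741) (nat_lit 28050) (nat_lit 165817713) (nat_lit 34595) (nat_lit 33199272),Row.mk (nat_lit 25536) (nat_lit 27676) (nat_lit 3989845882) (nat_lit 27863) (nat_lit 215490932) (nat_lit 34408) (nat_lit 33199272),Row.mk (nat_lit 25704) (nat_lit 27489) (nat_lit 4983067894) (nat_lit 27676) (nat_lit 277531584) (nat_lit 34221) (nat_lit 33199272),Row.mk (nat_lit 25872) (nat_lit 27302) (nat_lit 6223578228) (nat_lit 27489) (nat_lit 355018861) (nat_lit 34034) (nat_lit 33199272),Row.mk (nat_lit 26040)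 (nat_lit 32912) (nat_lit 8511397) (nat_lit 62084) (nat_lit 8249432185) (nat_lit 0) (nat_lit 0),Row.mk (nat_lit 26208) (nat_lit 32912) (nat_lit 8511397) (nat_lit 62084) (nat_lit 10305430352) (nat_lit 0) (nat_lit 0),Row.mk (nat_lit 26376) (nat_lit 32912) (nat_lit 8511397) (nat_lit 62084) (nat_lit 12873322465) (nat_lit 0) (nat_lit 0),Row.mk (nat_lit 26544) (nat_lit 32912) (nat_lit 8511397) (nat_lit 62084) (nat_lit 16080557766) (nat_lit 0) (nat_lit 0),Row.mk (nat_lit 26712) (nat_lit 32912) (nat_lit 8511397) (nat_lit 62084) (nat_lit 20086317287) (nat_lit 0) (nat_lit 0),Row.mk (nat_lit 26880) (nat_lit 32912) (nat_lit 8511397) (nat_lit 62084) (nat_lit 25089414294) (nat_lit 0) (nat_lit 0),Row.mk (nat_lit 27048) (nat_lit 32912) (nat_lit 8511397) (nat_lit 62084) (nat_lit 31338161762) (nat_lit 0) (nat_lit 0),Row.mk (nat_lit 27216) (nat_lit 32912) (nat_lit 8511397) (nat_lit 62084) (nat_lit 39142696606) (nat_lit 0) (nat_lit 0),Row.mk (nat_lit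 27384) (nat_lit 32912) (nat_lit 8511397) (nat_lit 62084) (nat_lit 48890372351) (nat_lit 0) (nat_lit 0),Row.mk (nat_lit 27552) (nat_lit 32912) (nat_lit 8511397) (nat_lit 62084) (nat_lit 61064984206) (nat_lit 0) (nat_lit 0),Row.mk (nat_lit 27720) (nat_lit 32912) (nat_lit 8511397) (nat_lit 62084) (nat_lit 76270780715) (nat_lit 0) (nat_lit 0)],
[Row.mk (nat_lit 6216) (nat_lit 54230) (nat_lit 142100) (nat_lit 54417) (nat_lit 11261) (nat_lit 0) (nat_lit 0),Row.mk (nat_lit 6384) (nat_lit 54230) (nat_lit 142100) (nat_lit 54417) (nat_lit 11261) (nat_lit 0) (nat_lit 0),Row.mk (nat_lit 6552) (nat_lit 54230) (nat_lit 142100) (nat_lit 54417) (nat_lit 11261) (nat_lit 0) (nat_lit 0),Row.mk (nat_lit 6720) (nat_lit 54230) (nat_lit 142100) (nat_lit 54417) (nat_lit 11260) (nat_lit 0) (nat_lit 0),Row.mk (nat_lit 6888) (nat_lit 54230) (nat_lit 142100) (nat_lit 54417) (nat_lit 11260) (nat_lit 0) (nat_lit 0),Row.mk (nat_lit 7056) (nat_lit 54230) (nat_lit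 142100) (nat_lit 54417) (nat_lit 11260) (nat_lit 0) (nat_lit 0),Row.mk (nat_lit 7224) (nat_lit 54230) (nat_lit 142100) (nat_lit 54417) (nat_lit 11260) (nat_lit 0) (nat_lit 0),Row.mk (nat_lit 7392) (nat_lit 54230) (nat_lit 142100) (nat_lit 54417) (nat_lit 11260) (nat_lit 0) (nat_lit 0),Row.mk (nat_lit 7560) (nat_lit 54230) (nat_lit 142100) (nat_lit 54417) (nat_lit 11260) (nat_lit 0) (nat_lit 0),Row.mk (nat_lit 7728) (nat_lit 53856) (nat_lit 1) (nat_lit 54230) (nat_lit 142100) (nat_lit 54417) (nat_lit 11260),Row.mk (nat_lit 7896) (nat_lit 53856) (nat_lit 1) (nat_lit 54230) (nat_lit 142100) (nat_lit 54417) (nat_lit 11260),Row.mk (nat_lit 8064) (nat_lit 53856) (nat_lit 1) (nat_lit 54230) (nat_lit 142100) (nat_lit 54417) (nat_lit 11259),Row.mk (nat_lit 8232) (nat_lit 53856) (nat_lit 2) (nat_lit 54230) (nat_lit 142100) (nat_lit 54417) (nat_lit 11259),Row.mk (nat_lit 8400) (nat_lit 53856) (nat_lit 2) (nat_lit 54230) (nat_lit 142100) (nat_lit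 54417) (nat_lit 11258),Row.mk (nat_lit 8568) (nat_lit 53856) (nat_lit 3) (nat_lit 54230) (nat_lit 142100) (nat_lit 54417) (nat_lit 11258),Row.mk (nat_lit 8736) (nat_lit 53856) (nat_lit 4) (nat_lit 54230) (nat_lit 142100) (nat_lit 54417) (nat_lit 11257),Row.mk (nat_lit 8904) (nat_lit 53856) (nat_lit 5) (nat_lit 54230) (nat_lit 142100) (nat_lit 54417) (nat_lit 11256),Row.mk (nat_lit 9072) (nat_lit 53856) (nat_lit 7) (nat_lit 54230) (nat_lit 142100) (nat_lit 54417) (nat_lit 11255),Row.mk (nat_lit 9240) (nat_lit 53856) (nat_lit 8) (nat_lit 54230) (nat_lit 142100) (nat_lit 54417) (nat_lit 11253),Row.mk (nat_lit 9408) (nat_lit 53856) (nat_lit 11) (nat_lit 54230) (nat_lit 142100) (nat_lit 54417) (nat_lit 11252),Row.mk (nat_lit 9576) (nat_lit 53856) (nat_lit 14) (nat_lit 54230) (nat_lit 142100) (nat_lit 54417) (nat_lit 11249),Row.mk (nat_lit 9744) (nat_lit 53856) (nat_lit 17) (nat_lit 54230) (nat_lit 142100) (nat_lit 54417) (nat_lit 11246),Row.mk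 (nat_lit 9912) (nat_lit 53856) (nat_lit 21) (nat_lit 54230) (nat_lit 142100) (nat_lit 54417) (nat_lit 11243),Row.mk (nat_lit 10080) (nat_lit 53856) (nat_lit 27) (nat_lit 54230) (nat_lit 142100) (nat_lit 54417) (nat_lit 11238),Row.mk (nat_lit 10248) (nat_lit 53856) (nat_lit 34) (nat_lit 54230) (nat_lit 142101) (nat_lit 54417) (nat_lit 11233),Row.mk (nat_lit 10416) (nat_lit 53856) (nat_lit 42) (nat_lit 54230) (nat_lit 142101) (nat_lit 54417) (nat_lit 11226),Row.mk (nat_lit 10584) (nat_lit 53856) (nat_lit 53) (nat_lit 54230) (nat_lit 142101) (nat_lit 54417) (nat_lit 11217),Row.mk (nat_lit 10752) (nat_lit 53856) (nat_lit 66) (nat_lit 54230) (nat_lit 142101) (nat_lit 54417) (nat_lit 11207),Row.mk (nat_lit 10920) (nat_lit 53856) (nat_lit 83) (nat_lit 54230) (nat_lit 142102) (nat_lit 54417) (nat_lit 11193),Row.mk (nat_lit 11088) (nat_lit 53856) (nat_lit 103) (nat_lit 54230) (nat_lit 142102) (nat_lit 54417) (nat_lit 11176),Row.mk (nat_lit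 11256) (nat_lit 53856) (nat_lit 129) (nat_lit 54230) (nat_lit 142102) (nat_lit 54417) (nat_lit 11155),Row.mk (nat_lit 11424) (nat_lit 53856) (nat_lit 161) (nat_lit 54230) (nat_lit 142103) (nat_lit 54417) (nat_lit 11129),Row.mk (nat_lit 11592) (nat_lit 53856) (nat_lit 202) (nat_lit 54230) (nat_lit 142104) (nat_lit 54417) (nat_lit 11096),Row.mk (nat_lit 11760) (nat_lit 53856) (nat_lit 252) (nat_lit 54230) (nat_lit 142105) (nat_lit 54417) (nat_lit 11055),Row.mk (nat_lit 11928) (nat_lit 53856) (nat_lit 315) (nat_lit 54230) (nat_lit 142106) (nat_lit 54417) (nat_lit 11004),Row.mk (nat_lit 12096) (nat_lit 53856) (nat_lit 393) (nat_lit 54230) (nat_lit 142107) (nat_lit 54417) (nat_lit 10940),Row.mk (nat_lit 12264) (nat_lit 53856) (nat_lit 491) (nat_lit 54230) (nat_lit 142109) (nat_lit 54417) (nat_lit 10860),Row.mk (nat_lit 12432) (nat_lit 53856) (nat_lit 614) (nat_lit 54230) (nat_lit 142111) (nat_lit 54417) (nat_lit 10760),Row.mk (nat_lit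 12600) (nat_lit 53856) (nat_lit 767) (nat_lit 54230) (nat_lit 142114) (nat_lit 54417) (nat_lit 10635),Row.mk (nat_lit 12768) (nat_lit 53856) (nat_lit 958) (nat_lit 54230) (nat_lit 142118) (nat_lit 54417) (nat_lit 10479),Row.mk (nat_lit 12936) (nat_lit 53856) (nat_lit 1196) (nat_lit 54230) (nat_lit 142122) (nat_lit 54417) (nat_lit 10285),Row.mk (nat_lit 13104) (nat_lit 53856) (nat_lit 1494) (nat_lit 54230) (nat_lit 142128) (nat_lit 54417) (nat_lit 10042),Row.mk (nat_lit 13272) (nat_lit 53856) (nat_lit 1866) (nat_lit 54230) (nat_lit 142135) (nat_lit 54417) (nat_lit 9738),Row.mk (nat_lit 13440) (nat_lit 53856) (nat_lit 2331) (nat_lit 54230) (nat_lit 142143) (nat_lit 54417) (nat_lit 9359),Row.mk (nat_lit 13608) (nat_lit 53856) (nat_lit 2912) (nat_lit 54230) (nat_lit 142154) (nat_lit 54417) (nat_lit 8886),Row.mk (nat_lit 13776) (nat_lit 53856) (nat_lit 3637) (nat_lit 54230) (nat_lit 142168) (nat_lit 54417) (nat_lit 8294),Row.mk (nat_lit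 13944) (nat_lit 53856) (nat_lit 4543) (nat_lit 54230) (nat_lit 142185) (nat_lit 54417) (nat_lit 7556),Row.mk (nat_lit 14112) (nat_lit 53856) (nat_lit 5674) (nat_lit 54230) (nat_lit 142206) (nat_lit 54417) (nat_lit 6633),Row.mk (nat_lit 14280) (nat_lit 53856) (nat_lit 7087) (nat_lit 54230) (nat_lit 142232) (nat_lit 54417) (nat_lit 5481),Row.mk (nat_lit 14448) (nat_lit 53856) (nat_lit 8851) (nat_lit 54230) (nat_lit 142265) (nat_lit 54417) (nat_lit 4042),Row.mk (nat_lit 14616) (nat_lit 53856) (nat_lit 11055) (nat_lit 54230) (nat_lit 142306) (nat_lit 54417) (nat_lit 2244),Row.mk (nat_lit 14784) (nat_lit 53856) (nat_lit 13807) (nat_lit 54230) (nat_lit 142357) (nat_lit 0) (nat_lit 0),Row.mk (nat_lit 14952) (nat_lit 53669) (nat_lit 3501) (nat_lit 53856) (nat_lit 13743) (nat_lit 54230) (nat_lit 139617),Row.mk (nat_lit 15120) (nat_lit 53669) (nat_lit 7875) (nat_lit 53856) (nat_lit 13663) (nat_lit 54230) (nat_lit 136195),Row.mk (nat_lit 15288)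 (nat_lit 53669) (nat_lit 13338) (nat_lit 53856) (nat_lit 13564) (nat_lit 54230) (nat_lit 131922),Row.mk (nat_lit 15456) (nat_lit 53669) (nat_lit 20161) (nat_lit 53856) (nat_lit 13439) (nat_lit 54230) (nat_lit 126584),Row.mk (nat_lit 15624) (nat_lit 53669) (nat_lit 28682) (nat_lit 53856) (nat_lit 13283) (nat_lit 54230) (nat_lit 119917),Row.mk (nat_lit 15792) (nat_lit 53669) (nat_lit 39325) (nat_lit 53856) (nat_lit 13088) (nat_lit 54230) (nat_lit 111590),Row.mk (nat_lit 15960) (nat_lit 53669) (nat_lit 52618) (nat_lit 53856) (nat_lit 12845) (nat_lit 54230) (nat_lit 101190),Row.mk (nat_lit 16128) (nat_lit 53669) (nat_lit 69221) (nat_lit 53856) (nat_lit 12542) (nat_lit 54230) (nat_lit 88200),Row.mk (nat_lit 16296) (nat_lit 53669) (nat_lit 89957) (nat_lit 53856) (nat_lit 12163) (nat_lit 54230) (nat_lit 71977),Row.mk (nat_lit 16464) (nat_lit 53669) (nat_lit 115856) (nat_lit 53856) (nat_lit 11689) (nat_lit 54230) (nat_lit 51714),Row.mk (nat_lit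 16632) (nat_lit 53669) (nat_lit 148203) (nat_lit 53856) (nat_lit 11098) (nat_lit 54230) (nat_lit 26406),Row.mk (nat_lit 16800) (nat_lit 53295) (nat_lit 6497) (nat_lit 53669) (nat_lit 182107) (nat_lit 53856) (nat_lit 5157),Row.mk (nat_lit 16968) (nat_lit 53108) (nat_lit 44017) (nat_lit 53295) (nat_lit 11786) (nat_lit 53669) (nat_lit 148016),Row.mk (nat_lit 17136) (nat_lit 53108) (nat_lit 107041) (nat_lit 53295) (nat_lit 10347) (nat_lit 53669) (nat_lit 98995),Row.mk (nat_lit 17304) (nat_lit 53108) (nat_lit 185755) (nat_lit 53295) (nat_lit 8550) (nat_lit 53669) (nat_lit 37770),Row.mk (nat_lit 17472) (nat_lit 52547) (nat_lit 40459) (nat_lit 52734) (nat_lit 7875) (nat_lit 53108) (nat_lit 203339),Row.mk (nat_lit 17640) (nat_lit 52547) (nat_lit 163249) (nat_lit 52734) (nat_lit 4373) (nat_lit 53108) (nat_lit 108528),Row.mk (nat_lit 17808) (nat_lit 51986) (nat_lit 12349) (nat_lit 52547) (nat_lit 294374) (nat_lit 0) (nat_lit 0),Row.mk (nat_lit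 17976) (nat_lit 51986) (nat_lit 197071) (nat_lit 52360) (nat_lit 6822) (nat_lit 52547) (nat_lit 141012),Row.mk (nat_lit 18144) (nat_lit 51425) (nat_lit 43949) (nat_lit 51799) (nat_lit 19164) (nat_lit 51986) (nat_lit 329482),Row.mk (nat_lit 18312) (nat_lit 51425) (nat_lit 329455) (nat_lit 51799) (nat_lit 32457) (nat_lit 51986) (nat_lit 90247),Row.mk (nat_lit 18480) (nat_lit 50864) (nat_lit 199200) (nat_lit 51238) (nat_lit 61274) (nat_lit 51425) (nat_lit 266078),Row.mk (nat_lit 18648) (nat_lit 50303) (nat_lit 24904) (nat_lit 50677) (nat_lit 108878) (nat_lit 50864) (nat_lit 485687),Row.mk (nat_lit 18816) (nat_lit 50303) (nat_lit 566661) (nat_lit 50677) (nat_lit 149279) (nat_lit 50864) (nat_lit 19578),Row.mk (nat_lit 18984) (nat_lit 49742) (nat_lit 453178) (nat_lit 50116) (nat_lit 249469) (nat_lit 50303) (nat_lit 177815),Row.mk (nat_lit 19152) (nat_lit 49181) (nat_lit 276151) (nat_lit 49555) (nat_lit 409894) (nat_lit 49742) (nat_lit 375448),Row.mk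 (nat_lit 19320) (nat_lit 48994) (nat_lit 665309) (nat_lit 49181) (nat_lit 622288) (nat_lit 0) (nat_lit 0),Row.mk (nat_lit 19488) (nat_lit 48433) (nat_lit 639410) (nat_lit 48620) (nat_lit 585678) (nat_lit 48994) (nat_lit 344906),Row.mk (nat_lit 19656) (nat_lit 47685) (nat_lit 607063) (nat_lit 47872) (nat_lit 432698) (nat_lit 48433) (nat_lit 882941),Row.mk (nat_lit 19824) (nat_lit 46750) (nat_lit 566661) (nat_lit 46937) (nat_lit 74321) (nat_lit 47685) (nat_lit 1722242),Row.mk (nat_lit 19992) (nat_lit 46563) (nat_lit 516202) (nat_lit 46750) (nat_lit 2302690) (nat_lit 47498) (nat_lit 94536),Row.mk (nat_lit 20160) (nat_lit 45628) (nat_lit 453178) (nat_lit 45815) (nat_lit 1967871) (nat_lit 46563) (nat_lit 1179568),Row.mk (nat_lit 20328) (nat_lit 44506) (nat_lit 374464) (nat_lit 44693) (nat_lit 1041190) (nat_lit 45628) (nat_lit 3043248),Row.mk (nat_lit 20496) (nat_lit 44319) (nat_lit 276151) (nat_lit 44506) (nat_lit 4747679) (nat_lit 45441)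 (nat_lit 507048),Row.mk (nat_lit 20664) (nat_lit 43010) (nat_lit 153361) (nat_lit 43197) (nat_lit 3169669) (nat_lit 44319) (nat_lit 3546719),Row.mk (nat_lit 20832) (nat_lit 43010) (nat_lit 8264381) (nat_lit 44132) (nat_lit 277587) (nat_lit 0) (nat_lit 0),Row.mk (nat_lit 21000) (nat_lit 41327) (nat_lit 4752951) (nat_lit 42823) (nat_lit 5724217) (nat_lit 43010) (nat_lit 153361),Row.mk (nat_lit 21168) (nat_lit 41140) (nat_lit 11122293) (nat_lit 42636) (nat_lit 1771892) (nat_lit 42823) (nat_lit 344906),Row.mk (nat_lit 21336) (nat_lit 38896) (nat_lit 3222762) (nat_lit 40953) (nat_lit 12690220) (nat_lit 41140) (nat_lit 584142),Row.mk (nat_lit 21504) (nat_lit 38709) (nat_lit 10549996) (nat_lit 40766) (nat_lit 9133389) (nat_lit 40953) (nat_lit 882941),Row.mk (nat_lit 21672) (nat_lit 38522) (nat_lit 19701535) (nat_lit 40579) (nat_lit 4690994) (nat_lit 40766) (nat_lit 1256133),Row.mk (nat_lit 21840) (nat_lit 38335) (nat_lit 30274135) (nat_lit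 38522) (nat_lit 857450) (nat_lit 40579) (nat_lit 864792),Row.mk (nat_lit 22008) (nat_lit 31603) (nat_lit 6848038) (nat_lit 38148) (nat_lit 30772081) (nat_lit 38335) (nat_lit 2304401),Row.mk (nat_lit 22176) (nat_lit 31416) (nat_lit 16750097) (nat_lit 37961) (nat_lit 30044979) (nat_lit 38148) (nat_lit 3031503),Row.mk (nat_lit 22344) (nat_lit 31229) (nat_lit 29117530) (nat_lit 37774) (nat_lit 29136846) (nat_lit 37961) (nat_lit 3939636),Row.mk (nat_lit 22512) (nat_lit 31042) (nat_lit 44564156) (nat_lit 37587) (nat_lit 28002610) (nat_lit 37774) (nat_lit 5073872),Row.mk (nat_lit 22680) (nat_lit 30855) (nat_lit 63856619) (nat_lit 37400) (nat_lit 26585977) (nat_lit 37587) (nat_lit 6490505),Row.mk (nat_lit 22848) (nat_lit 30668) (nat_lit 87952439) (nat_lit 37213) (nat_lit 24816636) (nat_lit 37400) (nat_lit 8259846),Row.mk (nat_lit 23016) (nat_lit 30481) (nat_lit 118047538) (nat_lit 37026) (nat_lit 22606771) (nat_lit 37213) (nat_lit 10469710),Row.mk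 (nat_lit 23184) (nat_lit 30294) (nat_lit 155635590) (nat_lit 36839) (nat_lit 19846704) (nat_lit 37026) (nat_lit 13229777),Row.mk (nat_lit 23352) (nat_lit 30107) (nat_lit 202582160) (nat_lit 36652) (nat_lit 16399447) (nat_lit 36839) (nat_lit 16677035),Row.mk (nat_lit 23520) (nat_lit 29920) (nat_lit 261217294) (nat_lit 36465) (nat_lit 12093906) (nat_lit 36652) (nat_lit 20982576),Row.mk (nat_lit 23688) (nat_lit 29733) (nat_lit 334451162) (nat_lit 36278) (nat_lit 6716389) (nat_lit 36465) (nat_lit 26360093),Row.mk (nat_lit 23856) (nat_lit 29546) (nat_lit 425918496) (nat_lit 36278) (nat_lit 33076482) (nat_lit 0) (nat_lit 0),Row.mk (nat_lit 24024) (nat_lit 29359) (nat_lit 531770382) (nat_lit 29546) (nat_lit 8388608) (nat_lit 36091) (nat_lit 33076482),Row.mk (nat_lit 24192) (nat_lit 29172) (nat_lit 663976834) (nat_lit 29359) (nat_lit 18865777) (nat_lit 35904) (nat_lit 33076482),Row.mk (nat_lit 24360) (nat_lit 28985) (nat_lit 829099503) (nat_lit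 29172) (nat_lit 31951508) (nat_lit 35717) (nat_lit 33076482),Row.mk (nat_lit 24528) (nat_lit 28798) (nat_lit 1035333733) (nat_lit 28985) (nat_lit 48295271) (nat_lit 35530) (nat_lit 33076482),Row.mk (nat_lit 24696) (nat_lit 28611) (nat_lit 1292915312) (nat_lit 28798) (nat_lit 68708236) (nat_lit 35343) (nat_lit 33076482),Row.mk (nat_lit 24864) (nat_lit 28424) (nat_lit 1614628489) (nat_lit 28611) (nat_lit 94203538) (nat_lit 35156) (nat_lit 33076482),Row.mk (nat_lit 25032) (nat_lit 28237) (nat_lit 2016440487) (nat_lit 28424) (nat_lit 126046554) (nat_lit 34969) (nat_lit 33076482),Row.mk (nat_lit 25200) (nat_lit 28050) (nat_lit 2518293979) (nat_lit 28237) (nat_lit 165817713) (nat_lit 34782) (nat_lit 33076482),Row.mk (nat_lit 25368) (nat_lit 27863) (nat_lit 3145096884) (nat_lit 28050) (nat_lit 215490932) (nat_lit 34595) (nat_lit 33076482),Row.mk (nat_lit 25536) (nat_lit 27676) (nat_lit 3927958592) (nat_lit 27863) (nat_lit 277531584) (nat_lit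 34408) (nat_lit 33076482),Row.mk (nat_lit 25704) (nat_lit 27489) (nat_lit 4905733979) (nat_lit 27676) (nat_lit 355018861) (nat_lit 34221) (nat_lit 33076482),Row.mk (nat_lit 25872) (nat_lit 27302) (nat_lit 6126951849) (nat_lit 27489) (nat_lit 451798601) (nat_lit 34034) (nat_lit 33076482),Row.mk (nat_lit 26040) (nat_lit 32912) (nat_lit 8541969) (nat_lit 62084) (nat_lit 8249432185) (nat_lit 0) (nat_lit 0),Row.mk (nat_lit 26208) (nat_lit 32912) (nat_lit 8541969) (nat_lit 62084) (nat_lit 10305430352) (nat_lit 0) (nat_lit 0),Row.mk (nat_lit 26376) (nat_lit 32912) (nat_lit 8541969) (nat_lit 62084) (nat_lit 12873322465) (nat_lit 0) (nat_lit 0),Row.mk (nat_lit 26544) (nat_lit 32912) (nat_lit 8541969) (nat_lit 62084) (nat_lit 16080557766) (nat_lit 0) (nat_lit 0),Row.mk (nat_lit 26712) (nat_lit 32912) (nat_lit 8541969) (nat_lit 62084) (nat_lit 20086317287) (nat_lit 0) (nat_lit 0),Row.mk (nat_lit 26880) (nat_lit 32912) (nat_lit 8541969) (nat_lit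 62084) (nat_lit 25089414294) (nat_lit 0) (nat_lit 0),Row.mk (nat_lit 27048) (nat_lit 32912) (nat_lit 8541969) (nat_lit 62084) (nat_lit 31338161762) (nat_lit 0) (nat_lit 0),Row.mk (nat_lit 27216) (nat_lit 32912) (nat_lit 8541969) (nat_lit 62084) (nat_lit 39142696606) (nat_lit 0) (nat_lit 0),Row.mk (nat_lit 27384) (nat_lit 32912) (nat_lit 8541969) (nat_lit 62084) (nat_lit 48890372351) (nat_lit 0) (nat_lit 0),Row.mk (nat_lit 27552) (nat_lit 32912) (nat_lit 8541969) (nat_lit 62084) (nat_lit 61064984206) (nat_lit 0) (nat_lit 0),Row.mk (nat_lit 27720) (nat_lit 32912) (nat_lit 8541969) (nat_lit 62084) (nat_lit 76270780715) (nat_lit 0) (nat_lit 0),Row.mk (nat_lit 27888) (nat_lit 32912) (nat_lit 8541969) (nat_lit 62084) (nat_lit 95262453733) (nat_lit 0) (nat_lit 0)],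
[Row.mk (nat_lit 6216) (nat_lit 53669) (nat_lit 173978) (nat_lit 53856) (nat_lit 17566) (nat_lit 0) (nat_lit 0),Row.mk (nat_lit 6384) (nat_lit 53669) (nat_lit 173978) (nat_lit 53856) (nat_lit 17566) (nat_lit 0) (nat_lit 0),Row.mk (nat_lit 6552) (nat_lit 53669) (nat_lit 173978) (nat_lit 53856) (nat_lit 17566) (nat_lit 0) (nat_lit 0),Row.mk (nat_lit 6720) (nat_lit 53669) (nat_lit 173978) (nat_lit 53856) (nat_lit 17566) (nat_lit 0) (nat_lit 0),Row.mk (nat_lit 6888) (nat_lit 53669) (nat_lit 173978) (nat_lit 53856) (nat_lit 17566) (nat_lit 0) (nat_lit 0),Row.mk (nat_lit 7056) (nat_lit 53669) (nat_lit 173978) (nat_lit 53856) (nat_lit 17566) (nat_lit 0) (nat_lit 0),Row.mk (nat_lit 7224) (nat_lit 53669) (nat_lit 173978) (nat_lit 53856) (nat_lit 17566) (nat_lit 0) (nat_lit 0),Row.mk (nat_lit 7392) (nat_lit 53669) (nat_lit 173978) (nat_lit 53856) (nat_lit 17566) (nat_lit 0) (nat_lit 0),Row.mk (nat_lit 7560) (nat_lit 53669) (nat_lit 173978)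 (nat_lit 53856) (nat_lit 17566) (nat_lit 0) (nat_lit 0),Row.mk (nat_lit 7728) (nat_lit 53295) (nat_lit 1) (nat_lit 53669) (nat_lit 173978) (nat_lit 53856) (nat_lit 17565),Row.mk (nat_lit 7896) (nat_lit 53295) (nat_lit 1) (nat_lit 53669) (nat_lit 173978) (nat_lit 53856) (nat_lit 17565),Row.mk (nat_lit 8064) (nat_lit 53295) (nat_lit 1) (nat_lit 53669) (nat_lit 173978) (nat_lit 53856) (nat_lit 17565),Row.mk (nat_lit 8232) (nat_lit 53295) (nat_lit 2) (nat_lit 53669) (nat_lit 173978) (nat_lit 53856) (nat_lit 17564),Row.mk (nat_lit 8400) (nat_lit 53295) (nat_lit 2) (nat_lit 53669) (nat_lit 173978) (nat_lit 53856) (nat_lit 17564),Row.mk (nat_lit 8568) (nat_lit 53295) (nat_lit 3) (nat_lit 53669) (nat_lit 173978) (nat_lit 53856) (nat_lit 17563),Row.mk (nat_lit 8736) (nat_lit 53295) (nat_lit 4) (nat_lit 53669) (nat_lit 173978) (nat_lit 53856) (nat_lit 17563),Row.mk (nat_lit 8904) (nat_lit 53295) (nat_lit 5) (nat_lit 53669) (nat_lit 173978)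 (nat_lit 53856) (nat_lit 17562),Row.mk (nat_lit 9072) (nat_lit 53295) (nat_lit 7) (nat_lit 53669) (nat_lit 173978) (nat_lit 53856) (nat_lit 17561),Row.mk (nat_lit 9240) (nat_lit 53295) (nat_lit 8) (nat_lit 53669) (nat_lit 173978) (nat_lit 53856) (nat_lit 17559),Row.mk (nat_lit 9408) (nat_lit 53295) (nat_lit 11) (nat_lit 53669) (nat_lit 173978) (nat_lit 53856) (nat_lit 17557),Row.mk (nat_lit 9576) (nat_lit 53295) (nat_lit 13) (nat_lit 53669) (nat_lit 173978) (nat_lit 53856) (nat_lit 17555),Row.mk (nat_lit 9744) (nat_lit 53295) (nat_lit 17) (nat_lit 53669) (nat_lit 173978) (nat_lit 53856) (nat_lit 17552),Row.mk (nat_lit 9912) (nat_lit 53295) (nat_lit 21) (nat_lit 53669) (nat_lit 173978) (nat_lit 53856) (nat_lit 17549),Row.mk (nat_lit 10080) (nat_lit 53295) (nat_lit 27) (nat_lit 53669) (nat_lit 173978) (nat_lit 53856) (nat_lit 17544),Row.mk (nat_lit 10248) (nat_lit 53295) (nat_lit 33) (nat_lit 53669) (nat_lit 173979) (nat_lit 53856)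 (nat_lit 17539),Row.mk (nat_lit 10416) (nat_lit 53295) (nat_lit 42) (nat_lit 53669) (nat_lit 173979) (nat_lit 53856) (nat_lit 17532),Row.mk (nat_lit 10584) (nat_lit 53295) (nat_lit 52) (nat_lit 53669) (nat_lit 173979) (nat_lit 53856) (nat_lit 17523),Row.mk (nat_lit 10752) (nat_lit 53295) (nat_lit 66) (nat_lit 53669) (nat_lit 173979) (nat_lit 53856) (nat_lit 17512),Row.mk (nat_lit 10920) (nat_lit 53295) (nat_lit 82) (nat_lit 53669) (nat_lit 173980) (nat_lit 53856) (nat_lit 17499),Row.mk (nat_lit 11088) (nat_lit 53295) (nat_lit 103) (nat_lit 53669) (nat_lit 173980) (nat_lit 53856) (nat_lit 17482),Row.mk (nat_lit 11256) (nat_lit 53295) (nat_lit 128) (nat_lit 53669) (nat_lit 173981) (nat_lit 53856) (nat_lit 17461),Row.mk (nat_lit 11424) (nat_lit 53295) (nat_lit 161) (nat_lit 53669) (nat_lit 173981) (nat_lit 53856) (nat_lit 17434),Row.mk (nat_lit 11592) (nat_lit 53295) (nat_lit 201) (nat_lit 53669) (nat_lit 173982) (nat_lit 53856) (nat_lit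 17402),Row.mk (nat_lit 11760) (nat_lit 53295) (nat_lit 251) (nat_lit 53669) (nat_lit 173984) (nat_lit 53856) (nat_lit 17361),Row.mk (nat_lit 11928) (nat_lit 53295) (nat_lit 313) (nat_lit 53669) (nat_lit 173985) (nat_lit 53856) (nat_lit 17309),Row.mk (nat_lit 12096) (nat_lit 53295) (nat_lit 391) (nat_lit 53669) (nat_lit 173987) (nat_lit 53856) (nat_lit 17245),Row.mk (nat_lit 12264) (nat_lit 53295) (nat_lit 489) (nat_lit 53669) (nat_lit 173989) (nat_lit 53856) (nat_lit 17165),Row.mk (nat_lit 12432) (nat_lit 53295) (nat_lit 611) (nat_lit 53669) (nat_lit 173992) (nat_lit 53856) (nat_lit 17065),Row.mk (nat_lit 12600) (nat_lit 53295) (nat_lit 763) (nat_lit 53669) (nat_lit 173996) (nat_lit 53856) (nat_lit 16941),Row.mk (nat_lit 12768) (nat_lit 53295) (nat_lit 953) (nat_lit 53669) (nat_lit 174000) (nat_lit 53856) (nat_lit 16785),Row.mk (nat_lit 12936) (nat_lit 53295) (nat_lit 1191) (nat_lit 53669) (nat_lit 174006) (nat_lit 53856) (nat_lit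 16590),Row.mk (nat_lit 13104) (nat_lit 53295) (nat_lit 1487) (nat_lit 53669) (nat_lit 174012) (nat_lit 53856) (nat_lit 16347),Row.mk (nat_lit 13272) (nat_lit 53295) (nat_lit 1858) (nat_lit 53669) (nat_lit 174021) (nat_lit 53856) (nat_lit 16044),Row.mk (nat_lit 13440) (nat_lit 53295) (nat_lit 2321) (nat_lit 53669) (nat_lit 174032) (nat_lit 53856) (nat_lit 15665),Row.mk (nat_lit 13608) (nat_lit 53295) (nat_lit 2898) (nat_lit 53669) (nat_lit 174045) (nat_lit 53856) (nat_lit 15191),Row.mk (nat_lit 13776) (nat_lit 53295) (nat_lit 3620) (nat_lit 53669) (nat_lit 174062) (nat_lit 53856) (nat_lit 14600),Row.mk (nat_lit 13944) (nat_lit 53295) (nat_lit 4522) (nat_lit 53669) (nat_lit 174083) (nat_lit 53856) (nat_lit 13861),Row.mk (nat_lit 14112) (nat_lit 53295) (nat_lit 5647) (nat_lit 53669) (nat_lit 174110) (nat_lit 53856) (nat_lit 12939),Row.mk (nat_lit 14280) (nat_lit 53295) (nat_lit 7054) (nat_lit 53669) (nat_lit 174143) (nat_lit 53856) (nat_lit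 11786),Row.mk (nat_lit 14448) (nat_lit 53295) (nat_lit 8810) (nat_lit 53669) (nat_lit 174184) (nat_lit 53856) (nat_lit 10347),Row.mk (nat_lit 14616) (nat_lit 53295) (nat_lit 11004) (nat_lit 53669) (nat_lit 174235) (nat_lit 53856) (nat_lit 8550),Row.mk (nat_lit 14784) (nat_lit 53295) (nat_lit 13743) (nat_lit 53669) (nat_lit 174299) (nat_lit 53856) (nat_lit 6305),Row.mk (nat_lit 14952) (nat_lit 53295) (nat_lit 17165) (nat_lit 53669) (nat_lit 174379) (nat_lit 53856) (nat_lit 3501),Row.mk (nat_lit 15120) (nat_lit 53295) (nat_lit 21439) (nat_lit 53669) (nat_lit 174479) (nat_lit 0) (nat_lit 0),Row.mk (nat_lit 15288) (nat_lit 53108) (nat_lit 5462) (nat_lit 53295) (nat_lit 21314) (nat_lit 53669) (nat_lit 170230),Row.mk (nat_lit 15456) (nat_lit 53108) (nat_lit 12285) (nat_lit 53295) (nat_lit 21159) (nat_lit 53669) (nat_lit 164923),Row.mk (nat_lit 15624) (nat_lit 53108) (nat_lit 20806) (nat_lit 53295) (nat_lit 20964) (nat_lit 53669) (nat_lit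 158295),Row.mk (nat_lit 15792) (nat_lit 53108) (nat_lit 31450) (nat_lit 53295) (nat_lit 20721) (nat_lit 53669) (nat_lit 150016),Row.mk (nat_lit 15960) (nat_lit 53108) (nat_lit 44743) (nat_lit 53295) (nat_lit 20417) (nat_lit 53669) (nat_lit 139677),Row.mk (nat_lit 16128) (nat_lit 53108) (nat_lit 61345) (nat_lit 53295) (nat_lit 20038) (nat_lit 53669) (nat_lit 126763),Row.mk (nat_lit 16296) (nat_lit 53108) (nat_lit 82081) (nat_lit 53295) (nat_lit 19565) (nat_lit 53669) (nat_lit 110634),Row.mk (nat_lit 16464) (nat_lit 53108) (nat_lit 107980) (nat_lit 53295) (nat_lit 18973) (nat_lit 53669) (nat_lit 90489),Row.mk (nat_lit 16632) (nat_lit 53108) (nat_lit 140328) (nat_lit 53295) (nat_lit 18235) (nat_lit 53669) (nat_lit 65328),Row.mk (nat_lit 16800) (nat_lit 53108) (nat_lit 180729) (nat_lit 53295) (nat_lit 17312) (nat_lit 53669) (nat_lit 33903),Row.mk (nat_lit 16968) (nat_lit 52734) (nat_lit 6675) (nat_lit 53108) (nat_lit 224513) (nat_lit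 53295) (nat_lit 10815),Row.mk (nat_lit 17136) (nat_lit 52547) (nat_lit 49514) (nat_lit 52734) (nat_lit 18386) (nat_lit 53108) (nat_lit 186666),Row.mk (nat_lit 17304) (nat_lit 52547) (nat_lit 128229) (nat_lit 52734) (nat_lit 16142) (nat_lit 53108) (nat_lit 125888),Row.mk (nat_lit 17472) (nat_lit 52547) (nat_lit 226541) (nat_lit 52734) (nat_lit 13338) (nat_lit 53108) (nat_lit 49977),Row.mk (nat_lit 17640) (nat_lit 51986) (nat_lit 43709) (nat_lit 52173) (nat_lit 12285) (nat_lit 52547) (nat_lit 258339),Row.mk (nat_lit 17808) (nat_lit 51986) (nat_lit 197071) (nat_lit 52173) (nat_lit 6822) (nat_lit 52547) (nat_lit 141012),Row.mk (nat_lit 17976) (nat_lit 51425) (nat_lit 6902) (nat_lit 51986) (nat_lit 376187) (nat_lit 0) (nat_lit 0),Row.mk (nat_lit 18144) (nat_lit 51425) (nat_lit 235494) (nat_lit 51799) (nat_lit 10643) (nat_lit 51986) (nat_lit 184642),Row.mk (nat_lit 18312) (nat_lit 50864) (nat_lit 38289) (nat_lit 51238) (nat_lit 29895) (nat_lit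 51425) (nat_lit 422159),Row.mk (nat_lit 18480) (nat_lit 50864) (nat_lit 390745) (nat_lit 51238) (nat_lit 50631) (nat_lit 51425) (nat_lit 123360),Row.mk (nat_lit 18648) (nat_lit 50303) (nat_lit 216449) (nat_lit 50677) (nat_lit 95585) (nat_lit 50864) (nat_lit 345618),Row.mk (nat_lit 18816) (nat_lit 50116) (nat_lit 150488) (nat_lit 50303) (nat_lit 607718) (nat_lit 50677) (nat_lit 15496),Row.mk (nat_lit 18984) (nat_lit 49742) (nat_lit 644723) (nat_lit 50116) (nat_lit 232866) (nat_lit 50303) (nat_lit 41056),Row.mk (nat_lit 19152) (nat_lit 49181) (nat_lit 467696) (nat_lit 49555) (nat_lit 389157) (nat_lit 49742) (nat_lit 242823),Row.mk (nat_lit 19320) (nat_lit 48620) (nat_lit 191545) (nat_lit 48994) (nat_lit 639410) (nat_lit 49181) (nat_lit 494825),Row.mk (nat_lit 19488) (nat_lit 48433) (nat_lit 798608) (nat_lit 48620) (nat_lit 618025) (nat_lit 48994) (nat_lit 191545),Row.mk (nat_lit 19656) (nat_lit 47685) (nat_lit 758207) (nat_lit 47872)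 (nat_lit 473099) (nat_lit 48433) (nat_lit 729579),Row.mk (nat_lit 19824) (nat_lit 46750) (nat_lit 707747) (nat_lit 46937) (nat_lit 124781) (nat_lit 47685) (nat_lit 1568880),Row.mk (nat_lit 19992) (nat_lit 45815) (nat_lit 73470) (nat_lit 46563) (nat_lit 571253) (nat_lit 46750) (nat_lit 2306888),Row.mk (nat_lit 20160) (nat_lit 45628) (nat_lit 566009) (nat_lit 45815) (nat_lit 2046585) (nat_lit 46563) (nat_lit 1026207),Row.mk (nat_lit 20328) (nat_lit 44506) (nat_lit 467696) (nat_lit 44693) (nat_lit 1139502) (nat_lit 45628) (nat_lit 2889886),Row.mk (nat_lit 20496) (nat_lit 44319) (nat_lit 344906) (nat_lit 44506) (nat_lit 4870469) (nat_lit 45441) (nat_lit 353686),Row.mk (nat_lit 20664) (nat_lit 43010) (nat_lit 191545) (nat_lit 43197) (nat_lit 3323031) (nat_lit 44319) (nat_lit 3393357),Row.mk (nat_lit 20832) (nat_lit 43010) (nat_lit 8455926) (nat_lit 44132) (nat_lit 124226) (nat_lit 0) (nat_lit 0),Row.mk (nat_lit 21000) (nat_lit 41327) (nat_lit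 4944496) (nat_lit 42823) (nat_lit 5532672) (nat_lit 43010) (nat_lit 191545),Row.mk (nat_lit 21168) (nat_lit 41140) (nat_lit 11313838) (nat_lit 42636) (nat_lit 1532657) (nat_lit 42823) (nat_lit 430780),Row.mk (nat_lit 21336) (nat_lit 38896) (nat_lit 3414307) (nat_lit 40953) (nat_lit 12391421) (nat_lit 41140) (nat_lit 729579),Row.mk (nat_lit 21504) (nat_lit 38709) (nat_lit 10741541) (nat_lit 40766) (nat_lit 8760197) (nat_lit 40953) (nat_lit 1102772),Row.mk (nat_lit 21672) (nat_lit 38522) (nat_lit 19893080) (nat_lit 40579) (nat_lit 4224885) (nat_lit 40766) (nat_lit 1568880),Row.mk (nat_lit 21840) (nat_lit 38335) (nat_lit 29883522) (nat_lit 38522) (nat_lit 1439608) (nat_lit 40579) (nat_lit 711430),Row.mk (nat_lit 22008) (nat_lit 31603) (nat_lit 7039583) (nat_lit 38148) (nat_lit 30044979) (nat_lit 38335) (nat_lit 2878141),Row.mk (nat_lit 22176) (nat_lit 31416) (nat_lit 16941642) (nat_lit 37961) (nat_lit 29136846) (nat_lit 38148) (nat_lit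 3786274),Row.mk (nat_lit 22344) (nat_lit 31229) (nat_lit 29309075) (nat_lit 37774) (nat_lit 28002610) (nat_lit 37961) (nat_lit 4920510),Row.mk (nat_lit 22512) (nat_lit 31042) (nat_lit 44755701) (nat_lit 37587) (nat_lit 26585977) (nat_lit 37774) (nat_lit 6337143),Row.mk (nat_lit 22680) (nat_lit 30855) (nat_lit 64048164) (nat_lit 37400) (nat_lit 24816636) (nat_lit 37587) (nat_lit 8106484),Row.mk (nat_lit 22848) (nat_lit 30668) (nat_lit 88143984) (nat_lit 37213) (nat_lit 22606771) (nat_lit 37400) (nat_lit 10316349),Row.mk (nat_lit 23016) (nat_lit 30481) (nat_lit 118239083) (nat_lit 37026) (nat_lit 19846704) (nat_lit 37213) (nat_lit 13076416),Row.mk (nat_lit 23184) (nat_lit 30294) (nat_lit 155827135) (nat_lit 36839) (nat_lit 16399447) (nat_lit 37026) (nat_lit 16523673),Row.mk (nat_lit 23352) (nat_lit 30107) (nat_lit 202773706) (nat_lit 36652) (nat_lit 12093906) (nat_lit 36839) (nat_lit 20829214),Row.mk (nat_lit 23520) (nat_lit 29920)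 (nat_lit 261408839) (nat_lit 36465) (nat_lit 6716389) (nat_lit 36652) (nat_lit 26206731),Row.mk (nat_lit 23688) (nat_lit 29733) (nat_lit 334642707) (nat_lit 36465) (nat_lit 32923121) (nat_lit 0) (nat_lit 0),Row.mk (nat_lit 23856) (nat_lit 29546) (nat_lit 417721433) (nat_lit 29733) (nat_lit 8388608) (nat_lit 36278) (nat_lit 32923121),Row.mk (nat_lit 24024) (nat_lit 29359) (nat_lit 521484758) (nat_lit 29546) (nat_lit 18865777) (nat_lit 36091) (nat_lit 32923121),Row.mk (nat_lit 24192) (nat_lit 29172) (nat_lit 651082648) (nat_lit 29359) (nat_lit 31951508) (nat_lit 35904) (nat_lit 32923121),Row.mk (nat_lit 24360) (nat_lit 28985) (nat_lit 812947285) (nat_lit 29172) (nat_lit 48295271) (nat_lit 35717) (nat_lit 32923121),Row.mk (nat_lit 24528) (nat_lit 28798) (nat_lit 1015112313) (nat_lit 28985) (nat_lit 68708236) (nat_lit 35530) (nat_lit 32923121),Row.mk (nat_lit 24696) (nat_lit 28611) (nat_lit 1267611555) (nat_lit 28798) (nat_lit 94203538)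 (nat_lit 35343) (nat_lit 32923121),Row.mk (nat_lit 24864) (nat_lit 28424) (nat_lit 1582977018) (nat_lit 28611) (nat_lit 126046554) (nat_lit 35156) (nat_lit 32923121),Row.mk (nat_lit 25032) (nat_lit 28237) (nat_lit 1976860873) (nat_lit 28424) (nat_lit 165817713) (nat_lit 34969) (nat_lit 32923121),Row.mk (nat_lit 25200) (nat_lit 28050) (nat_lit 2468812306) (nat_lit 28237) (nat_lit 215490932) (nat_lit 34782) (nat_lit 32923121),Row.mk (nat_lit 25368) (nat_lit 27863) (nat_lit 3083247777) (nat_lit 28050) (nat_lit 277531584) (nat_lit 34595) (nat_lit 32923121),Row.mk (nat_lit 25536) (nat_lit 27676) (nat_lit 3850662859) (nat_lit 27863) (nat_lit 355018861) (nat_lit 34408) (nat_lit 32923121),Row.mk (nat_lit 25704) (nat_lit 27489) (nat_lit 4809145784) (nat_lit 27676) (nat_lit 451798601) (nat_lit 34221) (nat_lit 32923121),Row.mk (nat_lit 25872) (nat_lit 27302) (nat_lit 6006267834) (nat_lit 27489) (nat_lit 572674162) (nat_lit 34034) (nat_lit 32923121),Row.mk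 (nat_lit 26040) (nat_lit 32912) (nat_lit 8580153) (nat_lit 62084) (nat_lit 8249432185) (nat_lit 0) (nat_lit 0),Row.mk (nat_lit 26208) (nat_lit 32912) (nat_lit 8580153) (nat_lit 62084) (nat_lit 10305430352) (nat_lit 0) (nat_lit 0),Row.mk (nat_lit 26376) (nat_lit 32912) (nat_lit 8580153) (nat_lit 62084) (nat_lit 12873322465) (nat_lit 0) (nat_lit 0),Row.mk (nat_lit 26544) (nat_lit 32912) (nat_lit 8580153) (nat_lit 62084) (nat_lit 16080557766) (nat_lit 0) (nat_lit 0),Row.mk (nat_lit 26712) (nat_lit 32912) (nat_lit 8580153) (nat_lit 62084) (nat_lit 20086317287) (nat_lit 0) (nat_lit 0),Row.mk (nat_lit 26880) (nat_lit 32912) (nat_lit 8580153) (nat_lit 62084) (nat_lit 25089414294) (nat_lit 0) (nat_lit 0),Row.mk (nat_lit 27048) (nat_lit 32912) (nat_lit 8580153) (nat_lit 62084) (nat_lit 31338161762) (nat_lit 0) (nat_lit 0),Row.mk (nat_lit 27216) (nat_lit 32912) (nat_lit 8580153) (nat_lit 62084) (nat_lit 39142696606) (nat_lit 0) (nat_lit 0),Row.mk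 (nat_lit 27384) (nat_lit 32912) (nat_lit 8580153) (nat_lit 62084) (nat_lit 48890372351) (nat_lit 0) (nat_lit 0),Row.mk (nat_lit 27552) (nat_lit 32912) (nat_lit 8580153) (nat_lit 62084) (nat_lit 61064984206) (nat_lit 0) (nat_lit 0),Row.mk (nat_lit 27720) (nat_lit 32912) (nat_lit 8580153) (nat_lit 62084) (nat_lit 76270780715) (nat_lit 0) (nat_lit 0),Row.mk (nat_lit 27888) (nat_lit 32912) (nat_lit 8580153) (nat_lit 62084) (nat_lit 95262453733) (nat_lit 0) (nat_lit 0),Row.mk (nat_lit 28056) (nat_lit 32912) (nat_lit 8580153) (nat_lit 62084) (nat_lit 118982595181) (nat_lit 0) (nat_lit 0)],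
[Row.mk (nat_lit 6216) (nat_lit 53108) (nat_lit 211831) (nat_lit 53295) (nat_lit 27403) (nat_lit 0) (nat_lit 0),Row.mk (nat_lit 6384) (nat_lit 53108) (nat_lit 211831) (nat_lit 53295) (nat_lit 27403) (nat_lit 0) (nat_lit 0),Row.mk (nat_lit 6552) (nat_lit 53108) (nat_lit 211831) (nat_lit 53295) (nat_lit 27403) (nat_lit 0) (nat_lit 0),Row.mk (nat_lit 6720) (nat_lit 53108) (nat_lit 211831) (nat_lit 53295) (nat_lit 27403) (nat_lit 0) (nat_lit 0),Row.mk (nat_lit 6888) (nat_lit 53108) (nat_lit 211831) (nat_lit 53295) (nat_lit 27402) (nat_lit 0) (nat_lit 0),Row.mk (nat_lit 7056) (nat_lit 53108) (nat_lit 211831) (nat_lit 53295) (nat_lit 27402) (nat_lit 0) (nat_lit 0),Row.mk (nat_lit 7224) (nat_lit 53108) (nat_lit 211831) (nat_lit 53295) (nat_lit 27402) (nat_lit 0) (nat_lit 0),Row.mk (nat_lit 7392) (nat_lit 53108) (nat_lit 211831) (nat_lit 53295) (nat_lit 27402) (nat_lit 0) (nat_lit 0),Row.mk (nat_lit 7560) (nat_lit 53108) (nat_lit 211831)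 (nat_lit 53295) (nat_lit 27402) (nat_lit 0) (nat_lit 0),Row.mk (nat_lit 7728) (nat_lit 52734) (nat_lit 1) (nat_lit 53108) (nat_lit 211831) (nat_lit 53295) (nat_lit 27402),Row.mk (nat_lit 7896) (nat_lit 52734) (nat_lit 1) (nat_lit 53108) (nat_lit 211831) (nat_lit 53295) (nat_lit 27402),Row.mk (nat_lit 8064) (nat_lit 52734) (nat_lit 1) (nat_lit 53108) (nat_lit 211831) (nat_lit 53295) (nat_lit 27401),Row.mk (nat_lit 8232) (nat_lit 52734) (nat_lit 2) (nat_lit 53108) (nat_lit 211831) (nat_lit 53295) (nat_lit 27401),Row.mk (nat_lit 8400) (nat_lit 52734) (nat_lit 2) (nat_lit 53108) (nat_lit 211831) (nat_lit 53295) (nat_lit 27400),Row.mk (nat_lit 8568) (nat_lit 52734) (nat_lit 3) (nat_lit 53108) (nat_lit 211832) (nat_lit 53295) (nat_lit 27400),Row.mk (nat_lit 8736) (nat_lit 52734) (nat_lit 4) (nat_lit 53108) (nat_lit 211832) (nat_lit 53295) (nat_lit 27399),Row.mk (nat_lit 8904) (nat_lit 52734) (nat_lit 5) (nat_lit 53108) (nat_lit 211832)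 (nat_lit 53295) (nat_lit 27398),Row.mk (nat_lit 9072) (nat_lit 52734) (nat_lit 7) (nat_lit 53108) (nat_lit 211832) (nat_lit 53295) (nat_lit 27397),Row.mk (nat_lit 9240) (nat_lit 52734) (nat_lit 8) (nat_lit 53108) (nat_lit 211832) (nat_lit 53295) (nat_lit 27395),Row.mk (nat_lit 9408) (nat_lit 52734) (nat_lit 11) (nat_lit 53108) (nat_lit 211832) (nat_lit 53295) (nat_lit 27394),Row.mk (nat_lit 9576) (nat_lit 52734) (nat_lit 13) (nat_lit 53108) (nat_lit 211832) (nat_lit 53295) (nat_lit 27391),Row.mk (nat_lit 9744) (nat_lit 52734) (nat_lit 17) (nat_lit 53108) (nat_lit 211832) (nat_lit 53295) (nat_lit 27389),Row.mk (nat_lit 9912) (nat_lit 52734) (nat_lit 21) (nat_lit 53108) (nat_lit 211832) (nat_lit 53295) (nat_lit 27385),Row.mk (nat_lit 10080) (nat_lit 52734) (nat_lit 27) (nat_lit 53108) (nat_lit 211832) (nat_lit 53295) (nat_lit 27381),Row.mk (nat_lit 10248) (nat_lit 52734) (nat_lit 33) (nat_lit 53108) (nat_lit 211832) (nat_lit 53295)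 (nat_lit 27375),Row.mk (nat_lit 10416) (nat_lit 52734) (nat_lit 42) (nat_lit 53108) (nat_lit 211833) (nat_lit 53295) (nat_lit 27368),Row.mk (nat_lit 10584) (nat_lit 52734) (nat_lit 52) (nat_lit 53108) (nat_lit 211833) (nat_lit 53295) (nat_lit 27359),Row.mk (nat_lit 10752) (nat_lit 52734) (nat_lit 65) (nat_lit 53108) (nat_lit 211833) (nat_lit 53295) (nat_lit 27349),Row.mk (nat_lit 10920) (nat_lit 52734) (nat_lit 82) (nat_lit 53108) (nat_lit 211834) (nat_lit 53295) (nat_lit 27335),Row.mk (nat_lit 11088) (nat_lit 52734) (nat_lit 102) (nat_lit 53108) (nat_lit 211834) (nat_lit 53295) (nat_lit 27318),Row.mk (nat_lit 11256) (nat_lit 52734) (nat_lit 128) (nat_lit 53108) (nat_lit 211835) (nat_lit 53295) (nat_lit 27297),Row.mk (nat_lit 11424) (nat_lit 52734) (nat_lit 160) (nat_lit 53108) (nat_lit 211836) (nat_lit 53295) (nat_lit 27271),Row.mk (nat_lit 11592) (nat_lit 52734) (nat_lit 200) (nat_lit 53108) (nat_lit 211837) (nat_lit 53295) (nat_lit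 27238),Row.mk (nat_lit 11760) (nat_lit 52734) (nat_lit 249) (nat_lit 53108) (nat_lit 211839) (nat_lit 53295) (nat_lit 27197),Row.mk (nat_lit 11928) (nat_lit 52734) (nat_lit 312) (nat_lit 53108) (nat_lit 211841) (nat_lit 53295) (nat_lit 27146),Row.mk (nat_lit 12096) (nat_lit 52734) (nat_lit 389) (nat_lit 53108) (nat_lit 211843) (nat_lit 53295) (nat_lit 27082),Row.mk (nat_lit 12264) (nat_lit 52734) (nat_lit 486) (nat_lit 53108) (nat_lit 211846) (nat_lit 53295) (nat_lit 27002),Row.mk (nat_lit 12432) (nat_lit 52734) (nat_lit 607) (nat_lit 53108) (nat_lit 211849) (nat_lit 53295) (nat_lit 26902),Row.mk (nat_lit 12600) (nat_lit 52734) (nat_lit 759) (nat_lit 53108) (nat_lit 211854) (nat_lit 53295) (nat_lit 26777),Row.mk (nat_lit 12768) (nat_lit 52734) (nat_lit 948) (nat_lit 53108) (nat_lit 211859) (nat_lit 53295) (nat_lit 26621),Row.mk (nat_lit 12936) (nat_lit 52734) (nat_lit 1184) (nat_lit 53108) (nat_lit 211866) (nat_lit 53295) (nat_lit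 26427),Row.mk (nat_lit 13104) (nat_lit 52734) (nat_lit 1479) (nat_lit 53108) (nat_lit 211875) (nat_lit 53295) (nat_lit 26184),Row.mk (nat_lit 13272) (nat_lit 52734) (nat_lit 1847) (nat_lit 53108) (nat_lit 211886) (nat_lit 53295) (nat_lit 25880),Row.mk (nat_lit 13440) (nat_lit 52734) (nat_lit 2307) (nat_lit 53108) (nat_lit 211899) (nat_lit 53295) (nat_lit 25501),Row.mk (nat_lit 13608) (nat_lit 52734) (nat_lit 2882) (nat_lit 53108) (nat_lit 211916) (nat_lit 53295) (nat_lit 25028),Row.mk (nat_lit 13776) (nat_lit 52734) (nat_lit 3599) (nat_lit 53108) (nat_lit 211937) (nat_lit 53295) (nat_lit 24436),Row.mk (nat_lit 13944) (nat_lit 52734) (nat_lit 4495) (nat_lit 53108) (nat_lit 211963) (nat_lit 53295) (nat_lit 23698),Row.mk (nat_lit 14112) (nat_lit 52734) (nat_lit 5615) (nat_lit 53108) (nat_lit 211996) (nat_lit 53295) (nat_lit 22775),Row.mk (nat_lit 14280) (nat_lit 52734) (nat_lit 7013) (nat_lit 53108) (nat_lit 212037) (nat_lit 53295) (nat_lit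 21623),Row.mk (nat_lit 14448) (nat_lit 52734) (nat_lit 8759) (nat_lit 53108) (nat_lit 212089) (nat_lit 53295) (nat_lit 20184),Row.mk (nat_lit 14616) (nat_lit 52734) (nat_lit 10940) (nat_lit 53108) (nat_lit 212153) (nat_lit 53295) (nat_lit 18386),Row.mk (nat_lit 14784) (nat_lit 52734) (nat_lit 13663) (nat_lit 53108) (nat_lit 212233) (nat_lit 53295) (nat_lit 16142),Row.mk (nat_lit 14952) (nat_lit 52734) (nat_lit 17065) (nat_lit 53108) (nat_lit 212332) (nat_lit 53295) (nat_lit 13338),Row.mk (nat_lit 15120) (nat_lit 52734) (nat_lit 21314) (nat_lit 53108) (nat_lit 212457) (nat_lit 53295) (nat_lit 9836),Row.mk (nat_lit 15288) (nat_lit 52734) (nat_lit 26621) (nat_lit 53108) (nat_lit 212613) (nat_lit 53295) (nat_lit 5462),Row.mk (nat_lit 15456) (nat_lit 52734) (nat_lit 33249) (nat_lit 53108) (nat_lit 212807) (nat_lit 0) (nat_lit 0),Row.mk (nat_lit 15624) (nat_lit 52547) (nat_lit 8521) (nat_lit 52734) (nat_lit 33006) (nat_lit 53108) (nat_lit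 206228),Row.mk (nat_lit 15792) (nat_lit 52547) (nat_lit 19164) (nat_lit 52734) (nat_lit 32703) (nat_lit 53108) (nat_lit 198010),Row.mk (nat_lit 15960) (nat_lit 52547) (nat_lit 32457) (nat_lit 52734) (nat_lit 32324) (nat_lit 53108) (nat_lit 187746),Row.mk (nat_lit 16128) (nat_lit 52547) (nat_lit 49060) (nat_lit 52734) (nat_lit 31850) (nat_lit 53108) (nat_lit 174926),Row.mk (nat_lit 16296) (nat_lit 52547) (nat_lit 69796) (nat_lit 52734) (nat_lit 31259) (nat_lit 53108) (nat_lit 158915),Row.mk (nat_lit 16464) (nat_lit 52547) (nat_lit 95695) (nat_lit 52734) (nat_lit 30520) (nat_lit 53108) (nat_lit 138917),Row.mk (nat_lit 16632) (nat_lit 52547) (nat_lit 128042) (nat_lit 52734) (nat_lit 29598) (nat_lit 53108) (nat_lit 113941),Row.mk (nat_lit 16800) (nat_lit 52547) (nat_lit 168443) (nat_lit 52734) (nat_lit 28446) (nat_lit 53108) (nat_lit 82746),Row.mk (nat_lit 16968) (nat_lit 52547) (nat_lit 218903) (nat_lit 52734) (nat_lit 27007) (nat_lit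 53108) (nat_lit 43784),Row.mk (nat_lit 17136) (nat_lit 52173) (nat_lit 6092) (nat_lit 52547) (nat_lit 275834) (nat_lit 52734) (nat_lit 20331),Row.mk (nat_lit 17304) (nat_lit 51986) (nat_lit 53321) (nat_lit 52173) (nat_lit 28682) (nat_lit 52547) (nat_lit 235946),Row.mk (nat_lit 17472) (nat_lit 51986) (nat_lit 151633) (nat_lit 52173) (nat_lit 25180) (nat_lit 52547) (nat_lit 160733),Row.mk (nat_lit 17640) (nat_lit 51986) (nat_lit 274423) (nat_lit 52173) (nat_lit 20806) (nat_lit 52547) (nat_lit 66794),Row.mk (nat_lit 17808) (nat_lit 51425) (nat_lit 43949) (nat_lit 51612) (nat_lit 19164) (nat_lit 51986) (nat_lit 329482),Row.mk (nat_lit 17976) (nat_lit 51425) (nat_lit 235494) (nat_lit 51612) (nat_lit 10643) (nat_lit 51986) (nat_lit 184642),Row.mk (nat_lit 18144) (nat_lit 51425) (nat_lit 474729) (nat_lit 51986) (nat_lit 3740) (nat_lit 0) (nat_lit 0),Row.mk (nat_lit 18312) (nat_lit 50864) (nat_lit 277524) (nat_lit 51238) (nat_lit 16602) (nat_lit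 51425) (nat_lit 243907),Row.mk (nat_lit 18480) (nat_lit 50303) (nat_lit 21923) (nat_lit 50677) (nat_lit 46635) (nat_lit 50864) (nat_lit 543869),Row.mk (nat_lit 18648) (nat_lit 50303) (nat_lit 455684) (nat_lit 50677) (nat_lit 78982) (nat_lit 50864) (nat_lit 170676),Row.mk (nat_lit 18816) (nat_lit 49742) (nat_lit 219880) (nat_lit 50116) (nat_lit 149107) (nat_lit 50303) (nat_lit 452406),Row.mk (nat_lit 18984) (nat_lit 49555) (nat_lit 162057) (nat_lit 49742) (nat_lit 721901) (nat_lit 50116) (nat_lit 82378),Row.mk (nat_lit 19152) (nat_lit 49181) (nat_lit 706932) (nat_lit 49555) (nat_lit 363258) (nat_lit 49742) (nat_lit 77177),Row.mk (nat_lit 19320) (nat_lit 48620) (nat_lit 430780) (nat_lit 48994) (nat_lit 607063) (nat_lit 49181) (nat_lit 335627),Row.mk (nat_lit 19488) (nat_lit 48433) (nat_lit 997442) (nat_lit 48620) (nat_lit 658426) (nat_lit 0) (nat_lit 0),Row.mk (nat_lit 19656) (nat_lit 47685) (nat_lit 946982) (nat_lit 47872) (nat_lit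 523559) (nat_lit 48433) (nat_lit 538034),Row.mk (nat_lit 19824) (nat_lit 46750) (nat_lit 883959) (nat_lit 46937) (nat_lit 187804) (nat_lit 47685) (nat_lit 1377335),Row.mk (nat_lit 19992) (nat_lit 45815) (nat_lit 312706) (nat_lit 46563) (nat_lit 492538) (nat_lit 46750) (nat_lit 2194057),Row.mk (nat_lit 20160) (nat_lit 45628) (nat_lit 706932) (nat_lit 45815) (nat_lit 2144898) (nat_lit 46563) (nat_lit 834662),Row.mk (nat_lit 20328) (nat_lit 44506) (nat_lit 584142) (nat_lit 44693) (nat_lit 1262292) (nat_lit 45628) (nat_lit 2698341),Row.mk (nat_lit 20496) (nat_lit 44319) (nat_lit 430780) (nat_lit 44506) (nat_lit 5023830) (nat_lit 45441) (nat_lit 162141),Row.mk (nat_lit 20664) (nat_lit 43010) (nat_lit 239235) (nat_lit 43197) (nat_lit 3514576) (nat_lit 44319) (nat_lit 3201812),Row.mk (nat_lit 20832) (nat_lit 41514) (nat_lit 84079) (nat_lit 43010) (nat_lit 8543763) (nat_lit 0) (nat_lit 0),Row.mk (nat_lit 21000) (nat_lit 41327) (nat_lit 5183731)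 (nat_lit 42823) (nat_lit 5293437) (nat_lit 43010) (nat_lit 239235),Row.mk (nat_lit 21168) (nat_lit 41140) (nat_lit 11553073) (nat_lit 42636) (nat_lit 1233858) (nat_lit 42823) (nat_lit 538034),Row.mk (nat_lit 21336) (nat_lit 38896) (nat_lit 3653542) (nat_lit 40953) (nat_lit 12018228) (nat_lit 41140) (nat_lit 911226),Row.mk (nat_lit 21504) (nat_lit 38709) (nat_lit 10980776) (nat_lit 40766) (nat_lit 8294088) (nat_lit 40953) (nat_lit 1377335),Row.mk (nat_lit 21672) (nat_lit 38522) (nat_lit 20132315) (nat_lit 40579) (nat_lit 3642727) (nat_lit 40766) (nat_lit 1959494),Row.mk (nat_lit 21840) (nat_lit 38335) (nat_lit 29395655) (nat_lit 38522) (nat_lit 2166710) (nat_lit 40579) (nat_lit 519885),Row.mk (nat_lit 22008) (nat_lit 31603) (nat_lit 7278818) (nat_lit 38148) (nat_lit 29136846) (nat_lit 38335) (nat_lit 3594729),Row.mk (nat_lit 22176) (nat_lit 31416) (nat_lit 17180877) (nat_lit 37961) (nat_lit 28002610) (nat_lit 38148) (nat_lit 4728965),Row.mk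 (nat_lit 22344) (nat_lit 31229) (nat_lit 29548311) (nat_lit 37774) (nat_lit 26585977) (nat_lit 37961) (nat_lit 6145598),Row.mk (nat_lit 22512) (nat_lit 31042) (nat_lit 44994936) (nat_lit 37587) (nat_lit 24816636) (nat_lit 37774) (nat_lit 7914939),Row.mk (nat_lit 22680) (nat_lit 30855) (nat_lit 64287399) (nat_lit 37400) (nat_lit 22606771) (nat_lit 37587) (nat_lit 10124804),Row.mk (nat_lit 22848) (nat_lit 30668) (nat_lit 88383220) (nat_lit 37213) (nat_lit 19846704) (nat_lit 37400) (nat_lit 12884871),Row.mk (nat_lit 23016) (nat_lit 30481) (nat_lit 118478318) (nat_lit 37026) (nat_lit 16399447) (nat_lit 37213) (nat_lit 16332128),Row.mk (nat_lit 23184) (nat_lit 30294) (nat_lit 156066370) (nat_lit 36839) (nat_lit 12093906) (nat_lit 37026) (nat_lit 20637669),Row.mk (nat_lit 23352) (nat_lit 30107) (nat_lit 203012941) (nat_lit 36652) (nat_lit 6716389) (nat_lit 36839) (nat_lit 26015186),Row.mk (nat_lit 23520) (nat_lit 29920) (nat_lit 261648075)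 (nat_lit 36652) (nat_lit 32731575) (nat_lit 0) (nat_lit 0),Row.mk (nat_lit 23688) (nat_lit 29733) (nat_lit 326493334) (nat_lit 29920) (nat_lit 8388608) (nat_lit 36465) (nat_lit 32731575),Row.mk (nat_lit 23856) (nat_lit 29546) (nat_lit 407483500) (nat_lit 29733) (nat_lit 18865777) (nat_lit 36278) (nat_lit 32731575),Row.mk (nat_lit 24024) (nat_lit 29359) (nat_lit 508638262) (nat_lit 29546) (nat_lit 31951508) (nat_lit 36091) (nat_lit 32731575),Row.mk (nat_lit 24192) (nat_lit 29172) (nat_lit 634978120) (nat_lit 29359) (nat_lit 48295271) (nat_lit 35904) (nat_lit 32731575),Row.mk (nat_lit 24360) (nat_lit 28985) (nat_lit 792773555) (nat_lit 29172) (nat_lit 68708236) (nat_lit 35717) (nat_lit 32731575),Row.mk (nat_lit 24528) (nat_lit 28798) (nat_lit 989856247) (nat_lit 28985) (nat_lit 94203538) (nat_lit 35530) (nat_lit 32731575),Row.mk (nat_lit 24696) (nat_lit 28611) (nat_lit 1236007774) (nat_lit 28798) (nat_lit 126046554) (nat_lit 35343)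 (nat_lit 32731575),Row.mk (nat_lit 24864) (nat_lit 28424) (nat_lit 1543445094) (nat_lit 28611) (nat_lit 165817713) (nat_lit 35156) (nat_lit 32731575),Row.mk (nat_lit 25032) (nat_lit 28237) (nat_lit 1927426889) (nat_lit 28424) (nat_lit 215490932) (nat_lit 34969) (nat_lit 32731575),Row.mk (nat_lit 25200) (nat_lit 28050) (nat_lit 2407010889) (nat_lit 28237) (nat_lit 277531584) (nat_lit 34782) (nat_lit 32731575),Row.mk (nat_lit 25368) (nat_lit 27863) (nat_lit 3005999735) (nat_lit 28050) (nat_lit 355018861) (nat_lit 34595) (nat_lit 32731575),Row.mk (nat_lit 25536) (nat_lit 27676) (nat_lit 3754122354) (nat_lit 27863) (nat_lit 451798601) (nat_lit 34408) (nat_lit 32731575),Row.mk (nat_lit 25704) (nat_lit 27489) (nat_lit 4688509458) (nat_lit 27676) (nat_lit 572674162) (nat_lit 34221) (nat_lit 32731575),Row.mk (nat_lit 25872) (nat_lit 27302) (nat_lit 5855536410) (nat_lit 27489) (nat_lit 723644821) (nat_lit 34034) (nat_lit 32731575),Row.mk (nat_lit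 26040) (nat_lit 32912) (nat_lit 8627843) (nat_lit 62084) (nat_lit 8249432185) (nat_lit 0) (nat_lit 0),Row.mk (nat_lit 26208) (nat_lit 32912) (nat_lit 8627843) (nat_lit 62084) (nat_lit 10305430352) (nat_lit 0) (nat_lit 0),Row.mk (nat_lit 26376) (nat_lit 32912) (nat_lit 8627843) (nat_lit 62084) (nat_lit 12873322465) (nat_lit 0) (nat_lit 0),Row.mk (nat_lit 26544) (nat_lit 32912) (nat_lit 8627843) (nat_lit 62084) (nat_lit 16080557766) (nat_lit 0) (nat_lit 0),Row.mk (nat_lit 26712) (nat_lit 32912) (nat_lit 8627843) (nat_lit 62084) (nat_lit 20086317287) (nat_lit 0) (nat_lit 0),Row.mk (nat_lit 26880) (nat_lit 32912) (nat_lit 8627843) (nat_lit 62084) (nat_lit 25089414294) (nat_lit 0) (nat_lit 0),Row.mk (nat_lit 27048) (nat_lit 32912) (nat_lit 8627843) (nat_lit 62084) (nat_lit 31338161762) (nat_lit 0) (nat_lit 0),Row.mk (nat_lit 27216) (nat_lit 32912) (nat_lit 8627843) (nat_lit 62084) (nat_lit 39142696606) (nat_lit 0) (nat_lit 0),Row.mk (nat_lit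 27384) (nat_lit 32912) (nat_lit 8627843) (nat_lit 62084) (nat_lit 48890372351) (nat_lit 0) (nat_lit 0),Row.mk (nat_lit 27552) (nat_lit 32912) (nat_lit 8627843) (nat_lit 62084) (nat_lit 61064984206) (nat_lit 0) (nat_lit 0),Row.mk (nat_lit 27720) (nat_lit 32912) (nat_lit 8627843) (nat_lit 62084) (nat_lit 76270780715) (nat_lit 0) (nat_lit 0),Row.mk (nat_lit 27888) (nat_lit 32912) (nat_lit 8627843) (nat_lit 62084) (nat_lit 95262453733) (nat_lit 0) (nat_lit 0),Row.mk (nat_lit 28056) (nat_lit 32912) (nat_lit 8627843) (nat_lit 62084) (nat_lit 118982595181) (nat_lit 0) (nat_lit 0),Row.mk (nat_lit 28224) (nat_lit 32912) (nat_lit 8627843) (nat_lit 62084) (nat_lit 148608479629) (nat_lit 0) (nat_lit 0)],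
[Row.mk (nat_lit 6048) (nat_lit 52547) (nat_lit 256051) (nat_lit 52734) (nat_lit 42747) (nat_lit 0) (nat_lit 0),Row.mk (nat_lit 6216) (nat_lit 52547) (nat_lit 256051) (nat_lit 52734) (nat_lit 42747) (nat_lit 0) (nat_lit 0),Row.mk (nat_lit 6384) (nat_lit 52547) (nat_lit 256051) (nat_lit 52734) (nat_lit 42747) (nat_lit 0) (nat_lit 0),Row.mk (nat_lit 6552) (nat_lit 52547) (nat_lit 256051) (nat_lit 52734) (nat_lit 42747) (nat_lit 0) (nat_lit 0),Row.mk (nat_lit 6720) (nat_lit 52547) (nat_lit 256051) (nat_lit 52734) (nat_lit 42747) (nat_lit 0) (nat_lit 0),Row.mk (nat_lit 6888) (nat_lit 52547) (nat_lit 256051) (nat_lit 52734) (nat_lit 42747) (nat_lit 0) (nat_lit 0),Row.mk (nat_lit 7056) (nat_lit 52547) (nat_lit 256051) (nat_lit 52734) (nat_lit 42747) (nat_lit 0) (nat_lit 0),Row.mk (nat_lit 7224) (nat_lit 52547) (nat_lit 256051) (nat_lit 52734) (nat_lit 42747) (nat_lit 0) (nat_lit 0),Row.mk (nat_lit 7392) (nat_lit 52547) (nat_lit 256051)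 (nat_lit 52734) (nat_lit 42746) (nat_lit 0) (nat_lit 0),Row.mk (nat_lit 7560) (nat_lit 52547) (nat_lit 256051) (nat_lit 52734) (nat_lit 42746) (nat_lit 0) (nat_lit 0),Row.mk (nat_lit 7728) (nat_lit 52173) (nat_lit 1) (nat_lit 52547) (nat_lit 256051) (nat_lit 52734) (nat_lit 42746),Row.mk (nat_lit 7896) (nat_lit 52173) (nat_lit 1) (nat_lit 52547) (nat_lit 256051) (nat_lit 52734) (nat_lit 42746),Row.mk (nat_lit 8064) (nat_lit 52173) (nat_lit 1) (nat_lit 52547) (nat_lit 256051) (nat_lit 52734) (nat_lit 42745),Row.mk (nat_lit 8232) (nat_lit 52173) (nat_lit 2) (nat_lit 52547) (nat_lit 256051) (nat_lit 52734) (nat_lit 42745),Row.mk (nat_lit 8400) (nat_lit 52173) (nat_lit 2) (nat_lit 52547) (nat_lit 256051) (nat_lit 52734) (nat_lit 42745),Row.mk (nat_lit 8568) (nat_lit 52173) (nat_lit 3) (nat_lit 52547) (nat_lit 256051) (nat_lit 52734) (nat_lit 42744),Row.mk (nat_lit 8736) (nat_lit 52173) (nat_lit 4) (nat_lit 52547) (nat_lit 256051) (nat_lit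 52734) (nat_lit 42743),Row.mk (nat_lit 8904) (nat_lit 52173) (nat_lit 5) (nat_lit 52547) (nat_lit 256051) (nat_lit 52734) (nat_lit 42742),Row.mk (nat_lit 9072) (nat_lit 52173) (nat_lit 7) (nat_lit 52547) (nat_lit 256051) (nat_lit 52734) (nat_lit 42741),Row.mk (nat_lit 9240) (nat_lit 52173) (nat_lit 8) (nat_lit 52547) (nat_lit 256051) (nat_lit 52734) (nat_lit 42740),Row.mk (nat_lit 9408) (nat_lit 52173) (nat_lit 11) (nat_lit 52547) (nat_lit 256051) (nat_lit 52734) (nat_lit 42738),Row.mk (nat_lit 9576) (nat_lit 52173) (nat_lit 13) (nat_lit 52547) (nat_lit 256051) (nat_lit 52734) (nat_lit 42736),Row.mk (nat_lit 9744) (nat_lit 52173) (nat_lit 17) (nat_lit 52547) (nat_lit 256052) (nat_lit 52734) (nat_lit 42733),Row.mk (nat_lit 9912) (nat_lit 52173) (nat_lit 21) (nat_lit 52547) (nat_lit 256052) (nat_lit 52734) (nat_lit 42729),Row.mk (nat_lit 10080) (nat_lit 52173) (nat_lit 26) (nat_lit 52547) (nat_lit 256052) (nat_lit 52734) (nat_lit 42725),Row.mk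 (nat_lit 10248) (nat_lit 52173) (nat_lit 33) (nat_lit 52547) (nat_lit 256052) (nat_lit 52734) (nat_lit 42719),Row.mk (nat_lit 10416) (nat_lit 52173) (nat_lit 41) (nat_lit 52547) (nat_lit 256053) (nat_lit 52734) (nat_lit 42712),Row.mk (nat_lit 10584) (nat_lit 52173) (nat_lit 52) (nat_lit 52547) (nat_lit 256053) (nat_lit 52734) (nat_lit 42704),Row.mk (nat_lit 10752) (nat_lit 52173) (nat_lit 65) (nat_lit 52547) (nat_lit 256053) (nat_lit 52734) (nat_lit 42693),Row.mk (nat_lit 10920) (nat_lit 52173) (nat_lit 81) (nat_lit 52547) (nat_lit 256054) (nat_lit 52734) (nat_lit 42679),Row.mk (nat_lit 11088) (nat_lit 52173) (nat_lit 101) (nat_lit 52547) (nat_lit 256055) (nat_lit 52734) (nat_lit 42662),Row.mk (nat_lit 11256) (nat_lit 52173) (nat_lit 127) (nat_lit 52547) (nat_lit 256056) (nat_lit 52734) (nat_lit 42641),Row.mk (nat_lit 11424) (nat_lit 52173) (nat_lit 158) (nat_lit 52547) (nat_lit 256057) (nat_lit 52734) (nat_lit 42615),Row.mk (nat_lit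 11592) (nat_lit 52173) (nat_lit 198) (nat_lit 52547) (nat_lit 256058) (nat_lit 52734) (nat_lit 42582),Row.mk (nat_lit 11760) (nat_lit 52173) (nat_lit 247) (nat_lit 52547) (nat_lit 256060) (nat_lit 52734) (nat_lit 42541),Row.mk (nat_lit 11928) (nat_lit 52173) (nat_lit 309) (nat_lit 52547) (nat_lit 256062) (nat_lit 52734) (nat_lit 42490),Row.mk (nat_lit 12096) (nat_lit 52173) (nat_lit 386) (nat_lit 52547) (nat_lit 256065) (nat_lit 52734) (nat_lit 42426),Row.mk (nat_lit 12264) (nat_lit 52173) (nat_lit 483) (nat_lit 52547) (nat_lit 256069) (nat_lit 52734) (nat_lit 42346),Row.mk (nat_lit 12432) (nat_lit 52173) (nat_lit 603) (nat_lit 52547) (nat_lit 256073) (nat_lit 52734) (nat_lit 42246),Row.mk (nat_lit 12600) (nat_lit 52173) (nat_lit 753) (nat_lit 52547) (nat_lit 256079) (nat_lit 52734) (nat_lit 42121),Row.mk (nat_lit 12768) (nat_lit 52173) (nat_lit 941) (nat_lit 52547) (nat_lit 256086) (nat_lit 52734) (nat_lit 41966),Row.mk (nat_lit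 12936) (nat_lit 52173) (nat_lit 1175) (nat_lit 52547) (nat_lit 256094) (nat_lit 52734) (nat_lit 41771),Row.mk (nat_lit 13104) (nat_lit 52173) (nat_lit 1468) (nat_lit 52547) (nat_lit 256105) (nat_lit 52734) (nat_lit 41528),Row.mk (nat_lit 13272) (nat_lit 52173) (nat_lit 1834) (nat_lit 52547) (nat_lit 256119) (nat_lit 52734) (nat_lit 41224),Row.mk (nat_lit 13440) (nat_lit 52173) (nat_lit 2290) (nat_lit 52547) (nat_lit 256136) (nat_lit 52734) (nat_lit 40845),Row.mk (nat_lit 13608) (nat_lit 52173) (nat_lit 2860) (nat_lit 52547) (nat_lit 256157) (nat_lit 52734) (nat_lit 40372),Row.mk (nat_lit 13776) (nat_lit 52173) (nat_lit 3573) (nat_lit 52547) (nat_lit 256183) (nat_lit 52734) (nat_lit 39780),Row.mk (nat_lit 13944) (nat_lit 52173) (nat_lit 4462) (nat_lit 52547) (nat_lit 256216) (nat_lit 52734) (nat_lit 39042),Row.mk (nat_lit 14112) (nat_lit 52173) (nat_lit 5574) (nat_lit 52547) (nat_lit 256257) (nat_lit 52734) (nat_lit 38119),Row.mk (nat_lit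 14280) (nat_lit 52173) (nat_lit 6961) (nat_lit 52547) (nat_lit 256308) (nat_lit 52734) (nat_lit 36967),Row.mk (nat_lit 14448) (nat_lit 52173) (nat_lit 8695) (nat_lit 52547) (nat_lit 256372) (nat_lit 52734) (nat_lit 35528),Row.mk (nat_lit 14616) (nat_lit 52173) (nat_lit 10860) (nat_lit 52547) (nat_lit 256452) (nat_lit 52734) (nat_lit 33731),Row.mk (nat_lit 14784) (nat_lit 52173) (nat_lit 13564) (nat_lit 52547) (nat_lit 256552) (nat_lit 52734) (nat_lit 31486),Row.mk (nat_lit 14952) (nat_lit 52173) (nat_lit 16941) (nat_lit 52547) (nat_lit 256677) (nat_lit 52734) (nat_lit 28682),Row.mk (nat_lit 15120) (nat_lit 52173) (nat_lit 21159) (nat_lit 52547) (nat_lit 256832) (nat_lit 52734) (nat_lit 25180),Row.mk (nat_lit 15288) (nat_lit 52173) (nat_lit 26427) (nat_lit 52547) (nat_lit 257027) (nat_lit 52734) (nat_lit 20806),Row.mk (nat_lit 15456) (nat_lit 52173) (nat_lit 33006) (nat_lit 52547) (nat_lit 257270) (nat_lit 52734) (nat_lit 15344),Row.mk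 (nat_lit 15624) (nat_lit 52173) (nat_lit 41224) (nat_lit 52547) (nat_lit 257574) (nat_lit 52734) (nat_lit 8521),Row.mk (nat_lit 15792) (nat_lit 52173) (nat_lit 51488) (nat_lit 52547) (nat_lit 257953) (nat_lit 0) (nat_lit 0),Row.mk (nat_lit 15960) (nat_lit 51986) (nat_lit 13292) (nat_lit 52173) (nat_lit 51015) (nat_lit 52547) (nat_lit 247783),Row.mk (nat_lit 16128) (nat_lit 51986) (nat_lit 29895) (nat_lit 52173) (nat_lit 50424) (nat_lit 52547) (nat_lit 235082),Row.mk (nat_lit 16296) (nat_lit 51986) (nat_lit 50631) (nat_lit 52173) (nat_lit 49685) (nat_lit 52547) (nat_lit 219218),Row.mk (nat_lit 16464) (nat_lit 51986) (nat_lit 76530) (nat_lit 52173) (nat_lit 48762) (nat_lit 52547) (nat_lit 199404),Row.mk (nat_lit 16632) (nat_lit 51986) (nat_lit 108878) (nat_lit 52173) (nat_lit 47610) (nat_lit 52547) (nat_lit 174657),Row.mk (nat_lit 16800) (nat_lit 51986) (nat_lit 149279) (nat_lit 52173) (nat_lit 46171) (nat_lit 52547) (nat_lit 143749),Row.mk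 (nat_lit 16968) (nat_lit 51986) (nat_lit 199739) (nat_lit 52173) (nat_lit 44374) (nat_lit 52547) (nat_lit 105145),Row.mk (nat_lit 17136) (nat_lit 51986) (nat_lit 262762) (nat_lit 52173) (nat_lit 42129) (nat_lit 52547) (nat_lit 56930),Row.mk (nat_lit 17304) (nat_lit 51612) (nat_lit 4108) (nat_lit 51986) (nat_lit 337368) (nat_lit 52173) (nat_lit 36036),Row.mk (nat_lit 17472) (nat_lit 51425) (nat_lit 53303) (nat_lit 51612) (nat_lit 44743) (nat_lit 51986) (nat_lit 299064),Row.mk (nat_lit 17640) (nat_lit 51425) (nat_lit 176093) (nat_lit 51612) (nat_lit 39280) (nat_lit 51986) (nat_lit 206214),Row.mk (nat_lit 17808) (nat_lit 51425) (nat_lit 329455) (nat_lit 51612) (nat_lit 32457) (nat_lit 51986) (nat_lit 90247),Row.mk (nat_lit 17976) (nat_lit 50864) (nat_lit 38289) (nat_lit 51051) (nat_lit 29895) (nat_lit 51425) (nat_lit 422159),Row.mk (nat_lit 18144) (nat_lit 50864) (nat_lit 277524) (nat_lit 51051) (nat_lit 16602) (nat_lit 51425) (nat_lit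 243907),Row.mk (nat_lit 18312) (nat_lit 50864) (nat_lit 576323) (nat_lit 51425) (nat_lit 21274) (nat_lit 0) (nat_lit 0),Row.mk (nat_lit 18480) (nat_lit 50303) (nat_lit 320722) (nat_lit 50677) (nat_lit 25899) (nat_lit 50864) (nat_lit 325370),Row.mk (nat_lit 18648) (nat_lit 50116) (nat_lit 59729) (nat_lit 50303) (nat_lit 694754) (nat_lit 50677) (nat_lit 10423),Row.mk (nat_lit 18816) (nat_lit 49742) (nat_lit 518679) (nat_lit 50116) (nat_lit 123208) (nat_lit 50303) (nat_lit 239069),Row.mk (nat_lit 18984) (nat_lit 49181) (nat_lit 195910) (nat_lit 49555) (nat_lit 232598) (nat_lit 49742) (nat_lit 597391),Row.mk (nat_lit 19152) (nat_lit 48994) (nat_lit 162005) (nat_lit 49181) (nat_lit 843725) (nat_lit 49555) (nat_lit 201200),Row.mk (nat_lit 19320) (nat_lit 48620) (nat_lit 729579) (nat_lit 48994) (nat_lit 566661) (nat_lit 49181) (nat_lit 136793),Row.mk (nat_lit 19488) (nat_lit 47872) (nat_lit 298799) (nat_lit 48433) (nat_lit 946982) (nat_lit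 48620) (nat_lit 469651),Row.mk (nat_lit 19656) (nat_lit 47685) (nat_lit 1182758) (nat_lit 47872) (nat_lit 586582) (nat_lit 48433) (nat_lit 298799),Row.mk (nat_lit 19824) (nat_lit 46750) (nat_lit 1104043) (nat_lit 46937) (nat_lit 266519) (nat_lit 47685) (nat_lit 1138100),Row.mk (nat_lit 19992) (nat_lit 45815) (nat_lit 611505) (nat_lit 46563) (nat_lit 394225) (nat_lit 46750) (nat_lit 2053135),Row.mk (nat_lit 20160) (nat_lit 45628) (nat_lit 882941) (nat_lit 45815) (nat_lit 2267688) (nat_lit 46563) (nat_lit 595426),Row.mk (nat_lit 20328) (nat_lit 44506) (nat_lit 729579) (nat_lit 44693) (nat_lit 1415654) (nat_lit 45628) (nat_lit 2459106),Row.mk (nat_lit 20496) (nat_lit 43197) (nat_lit 96288) (nat_lit 44319) (nat_lit 441745) (nat_lit 44506) (nat_lit 5138281),Row.mk (nat_lit 20664) (nat_lit 43010) (nat_lit 298799) (nat_lit 43197) (nat_lit 3753811) (nat_lit 44319) (nat_lit 2962577),Row.mk (nat_lit 20832) (nat_lit 41514) (nat_lit 382878) (nat_lit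 43010) (nat_lit 8304528) (nat_lit 0) (nat_lit 0),Row.mk (nat_lit 21000) (nat_lit 41327) (nat_lit 5482530) (nat_lit 42823) (nat_lit 4994638) (nat_lit 43010) (nat_lit 298799),Row.mk (nat_lit 21168) (nat_lit 41140) (nat_lit 11851872) (nat_lit 42636) (nat_lit 860665) (nat_lit 42823) (nat_lit 671991),Row.mk (nat_lit 21336) (nat_lit 38896) (nat_lit 3952341) (nat_lit 40953) (nat_lit 11552119) (nat_lit 41140) (nat_lit 1138100),Row.mk (nat_lit 21504) (nat_lit 38709) (nat_lit 11279575) (nat_lit 40766) (nat_lit 7711929) (nat_lit 40953) (nat_lit 1720259),Row.mk (nat_lit 21672) (nat_lit 38522) (nat_lit 20431114) (nat_lit 40579) (nat_lit 2915625) (nat_lit 40766) (nat_lit 2447361),Row.mk (nat_lit 21840) (nat_lit 38335) (nat_lit 28786321) (nat_lit 38522) (nat_lit 3074843) (nat_lit 40579) (nat_lit 280650),Row.mk (nat_lit 22008) (nat_lit 31603) (nat_lit 7577617) (nat_lit 38148) (nat_lit 28002610) (nat_lit 38335) (nat_lit 4489730),Row.mk (nat_lit 22176)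 (nat_lit 31416) (nat_lit 17479676) (nat_lit 37961) (nat_lit 26585977) (nat_lit 38148) (nat_lit 5906363),Row.mk (nat_lit 22344) (nat_lit 31229) (nat_lit 29847110) (nat_lit 37774) (nat_lit 24816636) (nat_lit 37961) (nat_lit 7675704),Row.mk (nat_lit 22512) (nat_lit 31042) (nat_lit 45293735) (nat_lit 37587) (nat_lit 22606771) (nat_lit 37774) (nat_lit 9885568),Row.mk (nat_lit 22680) (nat_lit 30855) (nat_lit 64586198) (nat_lit 37400) (nat_lit 19846704) (nat_lit 37587) (nat_lit 12645635),Row.mk (nat_lit 22848) (nat_lit 30668) (nat_lit 88682019) (nat_lit 37213) (nat_lit 16399447) (nat_lit 37400) (nat_lit 16092893),Row.mk (nat_lit 23016) (nat_lit 30481) (nat_lit 118777117) (nat_lit 37026) (nat_lit 12093906) (nat_lit 37213) (nat_lit 20398434),Row.mk (nat_lit 23184) (nat_lit 30294) (nat_lit 156365169) (nat_lit 36839) (nat_lit 6716389) (nat_lit 37026) (nat_lit 25775951),Row.mk (nat_lit 23352) (nat_lit 30107) (nat_lit 203311740) (nat_lit 36839)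 (nat_lit 32492340) (nat_lit 0) (nat_lit 0),Row.mk (nat_lit 23520) (nat_lit 29920) (nat_lit 253558266) (nat_lit 30107) (nat_lit 8388608) (nat_lit 36652) (nat_lit 32492340),Row.mk (nat_lit 23688) (nat_lit 29733) (nat_lit 316314964) (nat_lit 29920) (nat_lit 18865777) (nat_lit 36465) (nat_lit 32492340),Row.mk (nat_lit 23856) (nat_lit 29546) (nat_lit 394696567) (nat_lit 29733) (nat_lit 31951508) (nat_lit 36278) (nat_lit 32492340),Row.mk (nat_lit 24024) (nat_lit 29359) (nat_lit 492593298) (nat_lit 29546) (nat_lit 48295271) (nat_lit 36091) (nat_lit 32492340),Row.mk (nat_lit 24192) (nat_lit 29172) (nat_lit 614863954) (nat_lit 29359) (nat_lit 68708236) (nat_lit 35904) (nat_lit 32492340),Row.mk (nat_lit 24360) (nat_lit 28985) (nat_lit 767577053) (nat_lit 29172) (nat_lit 94203538) (nat_lit 35717) (nat_lit 32492340),Row.mk (nat_lit 24528) (nat_lit 28798) (nat_lit 958312029) (nat_lit 28985) (nat_lit 126046554) (nat_lit 35530) (nat_lit 32492340),Row.mk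 (nat_lit 24696) (nat_lit 28611) (nat_lit 1196535414) (nat_lit 28798) (nat_lit 165817713) (nat_lit 35343) (nat_lit 32492340),Row.mk (nat_lit 24864) (nat_lit 28424) (nat_lit 1494070674) (nat_lit 28611) (nat_lit 215490932) (nat_lit 35156) (nat_lit 32492340),Row.mk (nat_lit 25032) (nat_lit 28237) (nat_lit 1865685037) (nat_lit 28424) (nat_lit 277531584) (nat_lit 34969) (nat_lit 32492340),Row.mk (nat_lit 25200) (nat_lit 28050) (nat_lit 2329822411) (nat_lit 28237) (nat_lit 355018861) (nat_lit 34782) (nat_lit 32492340),Row.mk (nat_lit 25368) (nat_lit 27863) (nat_lit 2909518794) (nat_lit 28050) (nat_lit 451798601) (nat_lit 34595) (nat_lit 32492340),Row.mk (nat_lit 25536) (nat_lit 27676) (nat_lit 3633545593) (nat_lit 27863) (nat_lit 572674162) (nat_lit 34408) (nat_lit 32492340),Row.mk (nat_lit 25704) (nat_lit 27489) (nat_lit 4537837598) (nat_lit 27676) (nat_lit 723644821) (nat_lit 34221) (nat_lit 32492340),Row.mk (nat_lit 25872) (nat_lit 27302)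 (nat_lit 5667276497) (nat_lit 27489) (nat_lit 912203533) (nat_lit 34034) (nat_lit 32492340),Row.mk (nat_lit 26040) (nat_lit 32912) (nat_lit 8687407) (nat_lit 62084) (nat_lit 8249432185) (nat_lit 0) (nat_lit 0),Row.mk (nat_lit 26208) (nat_lit 32912) (nat_lit 8687407) (nat_lit 62084) (nat_lit 10305430352) (nat_lit 0) (nat_lit 0),Row.mk (nat_lit 26376) (nat_lit 32912) (nat_lit 8687407) (nat_lit 62084) (nat_lit 12873322465) (nat_lit 0) (nat_lit 0),Row.mk (nat_lit 26544) (nat_lit 32912) (nat_lit 8687407) (nat_lit 62084) (nat_lit 16080557766) (nat_lit 0) (nat_lit 0),Row.mk (nat_lit 26712) (nat_lit 32912) (nat_lit 8687407) (nat_lit 62084) (nat_lit 20086317287) (nat_lit 0) (nat_lit 0),Row.mk (nat_lit 26880) (nat_lit 32912) (nat_lit 8687407) (nat_lit 62084) (nat_lit 25089414294) (nat_lit 0) (nat_lit 0),Row.mk (nat_lit 27048) (nat_lit 32912) (nat_lit 8687407) (nat_lit 62084) (nat_lit 31338161762) (nat_lit 0) (nat_lit 0),Row.mk (nat_lit 27216)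 (nat_lit 32912) (nat_lit 8687407) (nat_lit 62084) (nat_lit 39142696606) (nat_lit 0) (nat_lit 0),Row.mk (nat_lit 27384) (nat_lit 32912) (nat_lit 8687407) (nat_lit 62084) (nat_lit 48890372351) (nat_lit 0) (nat_lit 0),Row.mk (nat_lit 27552) (nat_lit 32912) (nat_lit 8687407) (nat_lit 62084) (nat_lit 61064984206) (nat_lit 0) (nat_lit 0),Row.mk (nat_lit 27720) (nat_lit 32912) (nat_lit 8687407) (nat_lit 62084) (nat_lit 76270780715) (nat_lit 0) (nat_lit 0),Row.mk (nat_lit 27888) (nat_lit 32912) (nat_lit 8687407) (nat_lit 62084) (nat_lit 95262453733) (nat_lit 0) (nat_lit 0),Row.mk (nat_lit 28056) (nat_lit 32912) (nat_lit 8687407) (nat_lit 62084) (nat_lit 118982595181) (nat_lit 0) (nat_lit 0),Row.mk (nat_lit 28224) (nat_lit 32912) (nat_lit 8687407) (nat_lit 62084) (nat_lit 148608479629) (nat_lit 0) (nat_lit 0),Row.mk (nat_lit 28392) (nat_lit 32912) (nat_lit 8687407) (nat_lit 62084) (nat_lit 185610494615) (nat_lit 0) (nat_lit 0)],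
[Row.mk (nat_lit 6048) (nat_lit 51986) (nat_lit 306509) (nat_lit 52173) (nat_lit 66683) (nat_lit 0) (nat_lit 0),Row.mk (nat_lit 6216) (nat_lit 51986) (nat_lit 306509) (nat_lit 52173) (nat_lit 66683) (nat_lit 0) (nat_lit 0),Row.mk (nat_lit 6384) (nat_lit 51986) (nat_lit 306509) (nat_lit 52173) (nat_lit 66683) (nat_lit 0) (nat_lit 0),Row.mk (nat_lit 6552) (nat_lit 51986) (nat_lit 306509) (nat_lit 52173) (nat_lit 66683) (nat_lit 0) (nat_lit 0),Row.mk (nat_lit 6720) (nat_lit 51986) (nat_lit 306509) (nat_lit 52173) (nat_lit 66683) (nat_lit 0) (nat_lit 0),Row.mk (nat_lit 6888) (nat_lit 51986) (nat_lit 306509) (nat_lit 52173) (nat_lit 66683) (nat_lit 0) (nat_lit 0),Row.mk (nat_lit 7056) (nat_lit 51986) (nat_lit 306509) (nat_lit 52173) (nat_lit 66683) (nat_lit 0) (nat_lit 0),Row.mk (nat_lit 7224) (nat_lit 51986) (nat_lit 306509) (nat_lit 52173) (nat_lit 66683) (nat_lit 0) (nat_lit 0),Row.mk (nat_lit 7392) (nat_lit 51986) (nat_lit 306509)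 (nat_lit 52173) (nat_lit 66682) (nat_lit 0) (nat_lit 0),Row.mk (nat_lit 7560) (nat_lit 51986) (nat_lit 306509) (nat_lit 52173) (nat_lit 66682) (nat_lit 0) (nat_lit 0),Row.mk (nat_lit 7728) (nat_lit 51612) (nat_lit 1) (nat_lit 51986) (nat_lit 306509) (nat_lit 52173) (nat_lit 66682),Row.mk (nat_lit 7896) (nat_lit 51612) (nat_lit 1) (nat_lit 51986) (nat_lit 306509) (nat_lit 52173) (nat_lit 66682),Row.mk (nat_lit 8064) (nat_lit 51612) (nat_lit 1) (nat_lit 51986) (nat_lit 306509) (nat_lit 52173) (nat_lit 66682),Row.mk (nat_lit 8232) (nat_lit 51612) (nat_lit 2) (nat_lit 51986) (nat_lit 306509) (nat_lit 52173) (nat_lit 66681),Row.mk (nat_lit 8400) (nat_lit 51612) (nat_lit 2) (nat_lit 51986) (nat_lit 306509) (nat_lit 52173) (nat_lit 66681),Row.mk (nat_lit 8568) (nat_lit 51612) (nat_lit 3) (nat_lit 51986) (nat_lit 306509) (nat_lit 52173) (nat_lit 66680),Row.mk (nat_lit 8736) (nat_lit 51612) (nat_lit 4) (nat_lit 51986) (nat_lit 306509) (nat_lit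 52173) (nat_lit 66679),Row.mk (nat_lit 8904) (nat_lit 51612) (nat_lit 5) (nat_lit 51986) (nat_lit 306509) (nat_lit 52173) (nat_lit 66678),Row.mk (nat_lit 9072) (nat_lit 51612) (nat_lit 7) (nat_lit 51986) (nat_lit 306509) (nat_lit 52173) (nat_lit 66677),Row.mk (nat_lit 9240) (nat_lit 51612) (nat_lit 8) (nat_lit 51986) (nat_lit 306509) (nat_lit 52173) (nat_lit 66676),Row.mk (nat_lit 9408) (nat_lit 51612) (nat_lit 10) (nat_lit 51986) (nat_lit 306509) (nat_lit 52173) (nat_lit 66674),Row.mk (nat_lit 9576) (nat_lit 51612) (nat_lit 13) (nat_lit 51986) (nat_lit 306509) (nat_lit 52173) (nat_lit 66672),Row.mk (nat_lit 9744) (nat_lit 51612) (nat_lit 17) (nat_lit 51986) (nat_lit 306509) (nat_lit 52173) (nat_lit 66669),Row.mk (nat_lit 9912) (nat_lit 51612) (nat_lit 21) (nat_lit 51986) (nat_lit 306510) (nat_lit 52173) (nat_lit 66665),Row.mk (nat_lit 10080) (nat_lit 51612) (nat_lit 26) (nat_lit 51986) (nat_lit 306510) (nat_lit 52173) (nat_lit 66661),Row.mk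 (nat_lit 10248) (nat_lit 51612) (nat_lit 33) (nat_lit 51986) (nat_lit 306510) (nat_lit 52173) (nat_lit 66655),Row.mk (nat_lit 10416) (nat_lit 51612) (nat_lit 41) (nat_lit 51986) (nat_lit 306511) (nat_lit 52173) (nat_lit 66648),Row.mk (nat_lit 10584) (nat_lit 51612) (nat_lit 51) (nat_lit 51986) (nat_lit 306511) (nat_lit 52173) (nat_lit 66640),Row.mk (nat_lit 10752) (nat_lit 51612) (nat_lit 64) (nat_lit 51986) (nat_lit 306512) (nat_lit 52173) (nat_lit 66629),Row.mk (nat_lit 10920) (nat_lit 51612) (nat_lit 80) (nat_lit 51986) (nat_lit 306512) (nat_lit 52173) (nat_lit 66615),Row.mk (nat_lit 11088) (nat_lit 51612) (nat_lit 100) (nat_lit 51986) (nat_lit 306513) (nat_lit 52173) (nat_lit 66599),Row.mk (nat_lit 11256) (nat_lit 51612) (nat_lit 126) (nat_lit 51986) (nat_lit 306514) (nat_lit 52173) (nat_lit 66577),Row.mk (nat_lit 11424) (nat_lit 51612) (nat_lit 157) (nat_lit 51986) (nat_lit 306516) (nat_lit 52173) (nat_lit 66551),Row.mk (nat_lit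 11592) (nat_lit 51612) (nat_lit 196) (nat_lit 51986) (nat_lit 306518) (nat_lit 52173) (nat_lit 66518),Row.mk (nat_lit 11760) (nat_lit 51612) (nat_lit 245) (nat_lit 51986) (nat_lit 306520) (nat_lit 52173) (nat_lit 66477),Row.mk (nat_lit 11928) (nat_lit 51612) (nat_lit 306) (nat_lit 51986) (nat_lit 306523) (nat_lit 52173) (nat_lit 66426),Row.mk (nat_lit 12096) (nat_lit 51612) (nat_lit 383) (nat_lit 51986) (nat_lit 306526) (nat_lit 52173) (nat_lit 66362),Row.mk (nat_lit 12264) (nat_lit 51612) (nat_lit 478) (nat_lit 51986) (nat_lit 306531) (nat_lit 52173) (nat_lit 66282),Row.mk (nat_lit 12432) (nat_lit 51612) (nat_lit 597) (nat_lit 51986) (nat_lit 306536) (nat_lit 52173) (nat_lit 66182),Row.mk (nat_lit 12600) (nat_lit 51612) (nat_lit 746) (nat_lit 51986) (nat_lit 306543) (nat_lit 52173) (nat_lit 66057),Row.mk (nat_lit 12768) (nat_lit 51612) (nat_lit 932) (nat_lit 51986) (nat_lit 306552) (nat_lit 52173) (nat_lit 65902),Row.mk (nat_lit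 12936) (nat_lit 51612) (nat_lit 1164) (nat_lit 51986) (nat_lit 306563) (nat_lit 52173) (nat_lit 65707),Row.mk (nat_lit 13104) (nat_lit 51612) (nat_lit 1454) (nat_lit 51986) (nat_lit 306576) (nat_lit 52173) (nat_lit 65464),Row.mk (nat_lit 13272) (nat_lit 51612) (nat_lit 1817) (nat_lit 51986) (nat_lit 306593) (nat_lit 52173) (nat_lit 65160),Row.mk (nat_lit 13440) (nat_lit 51612) (nat_lit 2269) (nat_lit 51986) (nat_lit 306614) (nat_lit 52173) (nat_lit 64781),Row.mk (nat_lit 13608) (nat_lit 51612) (nat_lit 2834) (nat_lit 51986) (nat_lit 306641) (nat_lit 52173) (nat_lit 64308),Row.mk (nat_lit 13776) (nat_lit 51612) (nat_lit 3540) (nat_lit 51986) (nat_lit 306673) (nat_lit 52173) (nat_lit 63717),Row.mk (nat_lit 13944) (nat_lit 51612) (nat_lit 4421) (nat_lit 51986) (nat_lit 306715) (nat_lit 52173) (nat_lit 62978),Row.mk (nat_lit 14112) (nat_lit 51612) (nat_lit 5522) (nat_lit 51986) (nat_lit 306766) (nat_lit 52173) (nat_lit 62055),Row.mk (nat_lit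 14280) (nat_lit 51612) (nat_lit 6897) (nat_lit 51986) (nat_lit 306830) (nat_lit 52173) (nat_lit 60903),Row.mk (nat_lit 14448) (nat_lit 51612) (nat_lit 8615) (nat_lit 51986) (nat_lit 306910) (nat_lit 52173) (nat_lit 59464),Row.mk (nat_lit 14616) (nat_lit 51612) (nat_lit 10760) (nat_lit 51986) (nat_lit 307010) (nat_lit 52173) (nat_lit 57667),Row.mk (nat_lit 14784) (nat_lit 51612) (nat_lit 13439) (nat_lit 51986) (nat_lit 307134) (nat_lit 52173) (nat_lit 55422),Row.mk (nat_lit 14952) (nat_lit 51612) (nat_lit 16785) (nat_lit 51986) (nat_lit 307290) (nat_lit 52173) (nat_lit 52618),Row.mk (nat_lit 15120) (nat_lit 51612) (nat_lit 20964) (nat_lit 51986) (nat_lit 307485) (nat_lit 52173) (nat_lit 49116),Row.mk (nat_lit 15288) (nat_lit 51612) (nat_lit 26184) (nat_lit 51986) (nat_lit 307728) (nat_lit 52173) (nat_lit 44743),Row.mk (nat_lit 15456) (nat_lit 51612) (nat_lit 32703) (nat_lit 51986) (nat_lit 308031) (nat_lit 52173) (nat_lit 39280),Row.mk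 (nat_lit 15624) (nat_lit 51612) (nat_lit 40845) (nat_lit 51986) (nat_lit 308410) (nat_lit 52173) (nat_lit 32457),Row.mk (nat_lit 15792) (nat_lit 51612) (nat_lit 51015) (nat_lit 51986) (nat_lit 308884) (nat_lit 52173) (nat_lit 23936),Row.mk (nat_lit 15960) (nat_lit 51612) (nat_lit 63717) (nat_lit 51986) (nat_lit 309475) (nat_lit 52173) (nat_lit 13292),Row.mk (nat_lit 16128) (nat_lit 51612) (nat_lit 79581) (nat_lit 51986) (nat_lit 310214) (nat_lit 0) (nat_lit 0),Row.mk (nat_lit 16296) (nat_lit 51425) (nat_lit 20736) (nat_lit 51612) (nat_lit 78658) (nat_lit 51986) (nat_lit 294534),Row.mk (nat_lit 16464) (nat_lit 51425) (nat_lit 46635) (nat_lit 51612) (nat_lit 77506) (nat_lit 51986) (nat_lit 274950),Row.mk (nat_lit 16632) (nat_lit 51425) (nat_lit 78982) (nat_lit 51612) (nat_lit 76067) (nat_lit 51986) (nat_lit 250490),Row.mk (nat_lit 16800) (nat_lit 51425) (nat_lit 119383) (nat_lit 51612) (nat_lit 74269) (nat_lit 51986) (nat_lit 219940),Row.mk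 (nat_lit 16968) (nat_lit 51425) (nat_lit 169843) (nat_lit 51612) (nat_lit 72024) (nat_lit 51986) (nat_lit 181784),Row.mk (nat_lit 17136) (nat_lit 51425) (nat_lit 232866) (nat_lit 51612) (nat_lit 69221) (nat_lit 51986) (nat_lit 134127),Row.mk (nat_lit 17304) (nat_lit 51425) (nat_lit 311581) (nat_lit 51612) (nat_lit 65719) (nat_lit 51986) (nat_lit 74606),Row.mk (nat_lit 17472) (nat_lit 51425) (nat_lit 409894) (nat_lit 51612) (nat_lit 61345) (nat_lit 51986) (nat_lit 265),Row.mk (nat_lit 17640) (nat_lit 50864) (nat_lit 45838) (nat_lit 51051) (nat_lit 69796) (nat_lit 51425) (nat_lit 380347),Row.mk (nat_lit 17808) (nat_lit 50864) (nat_lit 199200) (nat_lit 51051) (nat_lit 61274) (nat_lit 51425) (nat_lit 266078),Row.mk (nat_lit 17976) (nat_lit 50864) (nat_lit 390745) (nat_lit 51051) (nat_lit 50631) (nat_lit 51425) (nat_lit 123360),Row.mk (nat_lit 18144) (nat_lit 50303) (nat_lit 21923) (nat_lit 50490) (nat_lit 46635) (nat_lit 50864) (nat_lit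 543869),Row.mk (nat_lit 18312) (nat_lit 50303) (nat_lit 320722) (nat_lit 50490) (nat_lit 25899) (nat_lit 50864) (nat_lit 325370),Row.mk (nat_lit 18480) (nat_lit 50303) (nat_lit 693915) (nat_lit 50864) (nat_lit 52470) (nat_lit 0) (nat_lit 0),Row.mk (nat_lit 18648) (nat_lit 49742) (nat_lit 360173) (nat_lit 50116) (nat_lit 40401) (nat_lit 50303) (nat_lit 438726),Row.mk (nat_lit 18816) (nat_lit 49555) (nat_lit 34199) (nat_lit 49742) (nat_lit 857672) (nat_lit 50116) (nat_lit 63479),Row.mk (nat_lit 18984) (nat_lit 49181) (nat_lit 569103) (nat_lit 49555) (nat_lit 192197) (nat_lit 49742) (nat_lit 338993),Row.mk (nat_lit 19152) (nat_lit 48620) (nat_lit 121897) (nat_lit 48994) (nat_lit 362840) (nat_lit 49181) (nat_lit 796587),Row.mk (nat_lit 19320) (nat_lit 48433) (nat_lit 139317) (nat_lit 48620) (nat_lit 963454) (nat_lit 48994) (nat_lit 404656),Row.mk (nat_lit 19488) (nat_lit 47872) (nat_lit 671991) (nat_lit 48433) (nat_lit 883959) (nat_lit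 48620) (nat_lit 233875),Row.mk (nat_lit 19656) (nat_lit 47685) (nat_lit 1477236) (nat_lit 47872) (nat_lit 665297) (nat_lit 0) (nat_lit 0),Row.mk (nat_lit 19824) (nat_lit 46750) (nat_lit 1378923) (nat_lit 46937) (nat_lit 364831) (nat_lit 47685) (nat_lit 839301),Row.mk (nat_lit 19992) (nat_lit 45815) (nat_lit 984697) (nat_lit 46563) (nat_lit 271435) (nat_lit 46750) (nat_lit 1877126),Row.mk (nat_lit 20160) (nat_lit 45628) (nat_lit 1102772) (nat_lit 45815) (nat_lit 2421050) (nat_lit 46563) (nat_lit 296627),Row.mk (nat_lit 20328) (nat_lit 44506) (nat_lit 911226) (nat_lit 44693) (nat_lit 1607199) (nat_lit 45628) (nat_lit 2160307),Row.mk (nat_lit 20496) (nat_lit 43197) (nat_lit 469481) (nat_lit 44319) (nat_lit 202510) (nat_lit 44506) (nat_lit 5078718),Row.mk (nat_lit 20664) (nat_lit 43010) (nat_lit 373192) (nat_lit 43197) (nat_lit 4052610) (nat_lit 44319) (nat_lit 2663778),Row.mk (nat_lit 20832) (nat_lit 41514) (nat_lit 756071) (nat_lit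 43010) (nat_lit 8005729) (nat_lit 0) (nat_lit 0),Row.mk (nat_lit 21000) (nat_lit 41327) (nat_lit 5855723) (nat_lit 42823) (nat_lit 4621445) (nat_lit 43010) (nat_lit 373192),Row.mk (nat_lit 21168) (nat_lit 41140) (nat_lit 12225065) (nat_lit 42636) (nat_lit 394556) (nat_lit 42823) (nat_lit 839301),Row.mk (nat_lit 21336) (nat_lit 38896) (nat_lit 4325534) (nat_lit 40953) (nat_lit 10969961) (nat_lit 41140) (nat_lit 1421460),Row.mk (nat_lit 21504) (nat_lit 38709) (nat_lit 11652768) (nat_lit 40766) (nat_lit 6984827) (nat_lit 40953) (nat_lit 2148562),Row.mk (nat_lit 21672) (nat_lit 38522) (nat_lit 20804307) (nat_lit 40579) (nat_lit 2007492) (nat_lit 40766) (nat_lit 3056694),Row.mk (nat_lit 21840) (nat_lit 31790) (nat_lit 22667) (nat_lit 38335) (nat_lit 28002610) (nat_lit 38522) (nat_lit 4190931),Row.mk (nat_lit 22008) (nat_lit 31603) (nat_lit 7950810) (nat_lit 38148) (nat_lit 26585977) (nat_lit 38335) (nat_lit 5607564),Row.mk (nat_lit 22176)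 (nat_lit 31416) (nat_lit 17852869) (nat_lit 37961) (nat_lit 24816636) (nat_lit 38148) (nat_lit 7376905),Row.mk (nat_lit 22344) (nat_lit 31229) (nat_lit 30220302) (nat_lit 37774) (nat_lit 22606771) (nat_lit 37961) (nat_lit 9586769),Row.mk (nat_lit 22512) (nat_lit 31042) (nat_lit 45666928) (nat_lit 37587) (nat_lit 19846704) (nat_lit 37774) (nat_lit 12346836),Row.mk (nat_lit 22680) (nat_lit 30855) (nat_lit 64959391) (nat_lit 37400) (nat_lit 16399447) (nat_lit 37587) (nat_lit 15794094),Row.mk (nat_lit 22848) (nat_lit 30668) (nat_lit 89055211) (nat_lit 37213) (nat_lit 12093906) (nat_lit 37400) (nat_lit 20099635),Row.mk (nat_lit 23016) (nat_lit 30481) (nat_lit 119150310) (nat_lit 37026) (nat_lit 6716389) (nat_lit 37213) (nat_lit 25477152),Row.mk (nat_lit 23184) (nat_lit 30294) (nat_lit 156738362) (nat_lit 37026) (nat_lit 32193541) (nat_lit 0) (nat_lit 0),Row.mk (nat_lit 23352) (nat_lit 30107) (nat_lit 195296325) (nat_lit 30294) (nat_lit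 8388608) (nat_lit 36839) (nat_lit 32193541),Row.mk (nat_lit 23520) (nat_lit 29920) (nat_lit 243454289) (nat_lit 30107) (nat_lit 18865777) (nat_lit 36652) (nat_lit 32193541),Row.mk (nat_lit 23688) (nat_lit 29733) (nat_lit 303602426) (nat_lit 29920) (nat_lit 31951508) (nat_lit 36465) (nat_lit 32193541),Row.mk (nat_lit 23856) (nat_lit 29546) (nat_lit 378725997) (nat_lit 29733) (nat_lit 48295271) (nat_lit 36278) (nat_lit 32193541),Row.mk (nat_lit 24024) (nat_lit 29359) (nat_lit 472553526) (nat_lit 29546) (nat_lit 68708236) (nat_lit 36091) (nat_lit 32193541),Row.mk (nat_lit 24192) (nat_lit 29172) (nat_lit 589741845) (nat_lit 29359) (nat_lit 94203538) (nat_lit 35904) (nat_lit 32193541),Row.mk (nat_lit 24360) (nat_lit 28985) (nat_lit 736107229) (nat_lit 29172) (nat_lit 126046554) (nat_lit 35717) (nat_lit 32193541),Row.mk (nat_lit 24528) (nat_lit 28798) (nat_lit 918914063) (nat_lit 28985) (nat_lit 165817713) (nat_lit 35530) (nat_lit 32193541),Row.mk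 (nat_lit 24696) (nat_lit 28611) (nat_lit 1147235388) (nat_lit 28798) (nat_lit 215490932) (nat_lit 35343) (nat_lit 32193541),Row.mk (nat_lit 24864) (nat_lit 28424) (nat_lit 1432403215) (nat_lit 28611) (nat_lit 277531584) (nat_lit 35156) (nat_lit 32193541),Row.mk (nat_lit 25032) (nat_lit 28237) (nat_lit 1788570952) (nat_lit 28424) (nat_lit 355018861) (nat_lit 34969) (nat_lit 32193541),Row.mk (nat_lit 25200) (nat_lit 28050) (nat_lit 2233415863) (nat_lit 28237) (nat_lit 451798601) (nat_lit 34782) (nat_lit 32193541),Row.mk (nat_lit 25368) (nat_lit 27863) (nat_lit 2789016426) (nat_lit 28050) (nat_lit 572674162) (nat_lit 34595) (nat_lit 32193541),Row.mk (nat_lit 25536) (nat_lit 27676) (nat_lit 3482948126) (nat_lit 27863) (nat_lit 723644821) (nat_lit 34408) (nat_lit 32193541),Row.mk (nat_lit 25704) (nat_lit 27489) (nat_lit 4349652079) (nat_lit 27676) (nat_lit 912203533) (nat_lit 34221) (nat_lit 32193541),Row.mk (nat_lit 25872) (nat_lit 27302)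 (nat_lit 5432144408) (nat_lit 27489) (nat_lit 1147708815) (nat_lit 34034) (nat_lit 32193541),Row.mk (nat_lit 26040) (nat_lit 32912) (nat_lit 8761800) (nat_lit 62084) (nat_lit 8249432185) (nat_lit 0) (nat_lit 0),Row.mk (nat_lit 26208) (nat_lit 32912) (nat_lit 8761800) (nat_lit 62084) (nat_lit 10305430352) (nat_lit 0) (nat_lit 0),Row.mk (nat_lit 26376) (nat_lit 32912) (nat_lit 8761800) (nat_lit 62084) (nat_lit 12873322465) (nat_lit 0) (nat_lit 0),Row.mk (nat_lit 26544) (nat_lit 32912) (nat_lit 8761800) (nat_lit 62084) (nat_lit 16080557766) (nat_lit 0) (nat_lit 0),Row.mk (nat_lit 26712) (nat_lit 32912) (nat_lit 8761800) (nat_lit 62084) (nat_lit 20086317287) (nat_lit 0) (nat_lit 0),Row.mk (nat_lit 26880) (nat_lit 32912) (nat_lit 8761800) (nat_lit 62084) (nat_lit 25089414294) (nat_lit 0) (nat_lit 0),Row.mk (nat_lit 27048) (nat_lit 32912) (nat_lit 8761800) (nat_lit 62084) (nat_lit 31338161762) (nat_lit 0) (nat_lit 0),Row.mk (nat_lit 27216)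 (nat_lit 32912) (nat_lit 8761800) (nat_lit 62084) (nat_lit 39142696606) (nat_lit 0) (nat_lit 0),Row.mk (nat_lit 27384) (nat_lit 32912) (nat_lit 8761800) (nat_lit 62084) (nat_lit 48890372351) (nat_lit 0) (nat_lit 0),Row.mk (nat_lit 27552) (nat_lit 32912) (nat_lit 8761800) (nat_lit 62084) (nat_lit 61064984206) (nat_lit 0) (nat_lit 0),Row.mk (nat_lit 27720) (nat_lit 32912) (nat_lit 8761800) (nat_lit 62084) (nat_lit 76270780715) (nat_lit 0) (nat_lit 0),Row.mk (nat_lit 27888) (nat_lit 32912) (nat_lit 8761800) (nat_lit 62084) (nat_lit 95262453733) (nat_lit 0) (nat_lit 0),Row.mk (nat_lit 28056) (nat_lit 32912) (nat_lit 8761800) (nat_lit 62084) (nat_lit 118982595181) (nat_lit 0) (nat_lit 0),Row.mk (nat_lit 28224) (nat_lit 32912) (nat_lit 8761800) (nat_lit 62084) (nat_lit 148608479629) (nat_lit 0) (nat_lit 0),Row.mk (nat_lit 28392) (nat_lit 32912) (nat_lit 8761800) (nat_lit 62084) (nat_lit 185610494615) (nat_lit 0) (nat_lit 0),Row.mk (nat_lit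 28560) (nat_lit 32912) (nat_lit 8761800) (nat_lit 62084) (nat_lit 231825118704) (nat_lit 0) (nat_lit 0)],
[Row.mk (nat_lit 6048) (nat_lit 51425) (nat_lit 362086) (nat_lit 51612) (nat_lit 104022) (nat_lit 0) (nat_lit 0),Row.mk (nat_lit 6216) (nat_lit 51425) (nat_lit 362086) (nat_lit 51612) (nat_lit 104022) (nat_lit 0) (nat_lit 0),Row.mk (nat_lit 6384) (nat_lit 51425) (nat_lit 362086) (nat_lit 51612) (nat_lit 104022) (nat_lit 0) (nat_lit 0),Row.mk (nat_lit 6552) (nat_lit 51425) (nat_lit 362086) (nat_lit 51612) (nat_lit 104022) (nat_lit 0) (nat_lit 0),Row.mk (nat_lit 6720) (nat_lit 51425) (nat_lit 362086) (nat_lit 51612) (nat_lit 104022) (nat_lit 0) (nat_lit 0),Row.mk (nat_lit 6888) (nat_lit 51425) (nat_lit 362086) (nat_lit 51612) (nat_lit 104022) (nat_lit 0) (nat_lit 0),Row.mk (nat_lit 7056) (nat_lit 51425) (nat_lit 362086) (nat_lit 51612) (nat_lit 104022) (nat_lit 0) (nat_lit 0),Row.mk (nat_lit 7224) (nat_lit 51425) (nat_lit 362086)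 (nat_lit 51612) (nat_lit 104022) (nat_lit 0) (nat_lit 0),Row.mk (nat_lit 7392) (nat_lit 51425) (nat_lit 362086) (nat_lit 51612) (nat_lit 104021) (nat_lit 0) (nat_lit 0),Row.mk (nat_lit 7560) (nat_lit 51425) (nat_lit 362086) (nat_lit 51612) (nat_lit 104021) (nat_lit 0) (nat_lit 0),Row.mk (nat_lit 7728) (nat_lit 51051) (nat_lit 1) (nat_lit 51425) (nat_lit 362086) (nat_lit 51612) (nat_lit 104021),Row.mk (nat_lit 7896) (nat_lit 51051) (nat_lit 1) (nat_lit 51425) (nat_lit 362086) (nat_lit 51612) (nat_lit 104021),Row.mk (nat_lit 8064) (nat_lit 51051) (nat_lit 1) (nat_lit 51425) (nat_lit 362086) (nat_lit 51612) (nat_lit 104020),Row.mk (nat_lit 8232) (nat_lit 51051) (nat_lit 2) (nat_lit 51425) (nat_lit 362086) (nat_lit 51612) (nat_lit 104020),Row.mk (nat_lit 8400) (nat_lit 51051) (nat_lit 2) (nat_lit 51425) (nat_lit 362086) (nat_lit 51612) (nat_lit 104020),Row.mk (nat_lit 8568) (nat_lit 51051) (nat_lit 3) (nat_lit 51425) (nat_lit 362086)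 (nat_lit 51612) (nat_lit 104019),Row.mk (nat_lit 8736) (nat_lit 51051) (nat_lit 4) (nat_lit 51425) (nat_lit 362086) (nat_lit 51612) (nat_lit 104018),Row.mk (nat_lit 8904) (nat_lit 51051) (nat_lit 5) (nat_lit 51425) (nat_lit 362086) (nat_lit 51612) (nat_lit 104017),Row.mk (nat_lit 9072) (nat_lit 51051) (nat_lit 6) (nat_lit 51425) (nat_lit 362086) (nat_lit 51612) (nat_lit 104016),Row.mk (nat_lit 9240) (nat_lit 51051) (nat_lit 8) (nat_lit 51425) (nat_lit 362086) (nat_lit 51612) (nat_lit 104015),Row.mk (nat_lit 9408) (nat_lit 51051) (nat_lit 10) (nat_lit 51425) (nat_lit 362086) (nat_lit 51612) (nat_lit 104013),Row.mk (nat_lit 9576) (nat_lit 51051) (nat_lit 13) (nat_lit 51425) (nat_lit 362087) (nat_lit 51612) (nat_lit 104011),Row.mk (nat_lit 9744) (nat_lit 51051) (nat_lit 16) (nat_lit 51425) (nat_lit 362087) (nat_lit 51612) (nat_lit 104008),Row.mk (nat_lit 9912) (nat_lit 51051) (nat_lit 21) (nat_lit 51425) (nat_lit 362087) (nat_lit 51612)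 (nat_lit 104004),Row.mk (nat_lit 10080) (nat_lit 51051) (nat_lit 26) (nat_lit 51425) (nat_lit 362087) (nat_lit 51612) (nat_lit 104000),Row.mk (nat_lit 10248) (nat_lit 51051) (nat_lit 32) (nat_lit 51425) (nat_lit 362088) (nat_lit 51612) (nat_lit 103994),Row.mk (nat_lit 10416) (nat_lit 51051) (nat_lit 41) (nat_lit 51425) (nat_lit 362088) (nat_lit 51612) (nat_lit 103987),Row.mk (nat_lit 10584) (nat_lit 51051) (nat_lit 51) (nat_lit 51425) (nat_lit 362089) (nat_lit 51612) (nat_lit 103979),Row.mk (nat_lit 10752) (nat_lit 51051) (nat_lit 63) (nat_lit 51425) (nat_lit 362089) (nat_lit 51612) (nat_lit 103968),Row.mk (nat_lit 10920) (nat_lit 51051) (nat_lit 79) (nat_lit 51425) (nat_lit 362090) (nat_lit 51612) (nat_lit 103954),Row.mk (nat_lit 11088) (nat_lit 51051) (nat_lit 99) (nat_lit 51425) (nat_lit 362092) (nat_lit 51612) (nat_lit 103937),Row.mk (nat_lit 11256) (nat_lit 51051) (nat_lit 124) (nat_lit 51425) (nat_lit 362093) (nat_lit 51612)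 (nat_lit 103916),Row.mk (nat_lit 11424) (nat_lit 51051) (nat_lit 155) (nat_lit 51425) (nat_lit 362095) (nat_lit 51612) (nat_lit 103890),Row.mk (nat_lit 11592) (nat_lit 51051) (nat_lit 194) (nat_lit 51425) (nat_lit 362097) (nat_lit 51612) (nat_lit 103857),Row.mk (nat_lit 11760) (nat_lit 51051) (nat_lit 242) (nat_lit 51425) (nat_lit 362100) (nat_lit 51612) (nat_lit 103816),Row.mk (nat_lit 11928) (nat_lit 51051) (nat_lit 303) (nat_lit 51425) (nat_lit 362104) (nat_lit 51612) (nat_lit 103765),Row.mk (nat_lit 12096) (nat_lit 51051) (nat_lit 378) (nat_lit 51425) (nat_lit 362108) (nat_lit 51612) (nat_lit 103701),Row.mk (nat_lit 12264) (nat_lit 51051) (nat_lit 473) (nat_lit 51425) (nat_lit 362114) (nat_lit 51612) (nat_lit 103621),Row.mk (nat_lit 12432) (nat_lit 51051) (nat_lit 590) (nat_lit 51425) (nat_lit 362121) (nat_lit 51612) (nat_lit 103521),Row.mk (nat_lit 12600) (nat_lit 51051) (nat_lit 738) (nat_lit 51425) (nat_lit 362129) (nat_lit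 51612) (nat_lit 103396),Row.mk (nat_lit 12768) (nat_lit 51051) (nat_lit 921) (nat_lit 51425) (nat_lit 362140) (nat_lit 51612) (nat_lit 103240),Row.mk (nat_lit 12936) (nat_lit 51051) (nat_lit 1151) (nat_lit 51425) (nat_lit 362153) (nat_lit 51612) (nat_lit 103046),Row.mk (nat_lit 13104) (nat_lit 51051) (nat_lit 1438) (nat_lit 51425) (nat_lit 362170) (nat_lit 51612) (nat_lit 102803),Row.mk (nat_lit 13272) (nat_lit 51051) (nat_lit 1796) (nat_lit 51425) (nat_lit 362191) (nat_lit 51612) (nat_lit 102499),Row.mk (nat_lit 13440) (nat_lit 51051) (nat_lit 2243) (nat_lit 51425) (nat_lit 362218) (nat_lit 51612) (nat_lit 102120),Row.mk (nat_lit 13608) (nat_lit 51051) (nat_lit 2801) (nat_lit 51425) (nat_lit 362251) (nat_lit 51612) (nat_lit 101647),Row.mk (nat_lit 13776) (nat_lit 51051) (nat_lit 3499) (nat_lit 51425) (nat_lit 362292) (nat_lit 51612) (nat_lit 101055),Row.mk (nat_lit 13944) (nat_lit 51051) (nat_lit 4370) (nat_lit 51425) (nat_lit 362343)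 (nat_lit 51612) (nat_lit 100317),Row.mk (nat_lit 14112) (nat_lit 51051) (nat_lit 5458) (nat_lit 51425) (nat_lit 362407) (nat_lit 51612) (nat_lit 99394),Row.mk (nat_lit 14280) (nat_lit 51051) (nat_lit 6817) (nat_lit 51425) (nat_lit 362487) (nat_lit 51612) (nat_lit 98242),Row.mk (nat_lit 14448) (nat_lit 51051) (nat_lit 8515) (nat_lit 51425) (nat_lit 362587) (nat_lit 51612) (nat_lit 96803),Row.mk (nat_lit 14616) (nat_lit 51051) (nat_lit 10635) (nat_lit 51425) (nat_lit 362711) (nat_lit 51612) (nat_lit 95006),Row.mk (nat_lit 14784) (nat_lit 51051) (nat_lit 13283) (nat_lit 51425) (nat_lit 362867) (nat_lit 51612) (nat_lit 92761),Row.mk (nat_lit 14952) (nat_lit 51051) (nat_lit 16590) (nat_lit 51425) (nat_lit 363062) (nat_lit 51612) (nat_lit 89957),Row.mk (nat_lit 15120) (nat_lit 51051) (nat_lit 20721) (nat_lit 51425) (nat_lit 363305) (nat_lit 51612) (nat_lit 86455),Row.mk (nat_lit 15288) (nat_lit 51051) (nat_lit 25880) (nat_lit 51425) (nat_lit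 363608) (nat_lit 51612) (nat_lit 82081),Row.mk (nat_lit 15456) (nat_lit 51051) (nat_lit 32324) (nat_lit 51425) (nat_lit 363987) (nat_lit 51612) (nat_lit 76619),Row.mk (nat_lit 15624) (nat_lit 51051) (nat_lit 40372) (nat_lit 51425) (nat_lit 364461) (nat_lit 51612) (nat_lit 69796),Row.mk (nat_lit 15792) (nat_lit 51051) (nat_lit 50424) (nat_lit 51425) (nat_lit 365052) (nat_lit 51612) (nat_lit 61274),Row.mk (nat_lit 15960) (nat_lit 51051) (nat_lit 62978) (nat_lit 51425) (nat_lit 365791) (nat_lit 51612) (nat_lit 50631),Row.mk (nat_lit 16128) (nat_lit 51051) (nat_lit 78658) (nat_lit 51425) (nat_lit 366713) (nat_lit 51612) (nat_lit 37338),Row.mk (nat_lit 16296) (nat_lit 51051) (nat_lit 98242) (nat_lit 51425) (nat_lit 367866) (nat_lit 51612) (nat_lit 20736),Row.mk (nat_lit 16464) (nat_lit 51051) (nat_lit 122702) (nat_lit 51425) (nat_lit 369305) (nat_lit 0) (nat_lit 0),Row.mk (nat_lit 16632) (nat_lit 50864) (nat_lit 32347) (nat_lit 51051)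 (nat_lit 120905) (nat_lit 51425) (nat_lit 345203),Row.mk (nat_lit 16800) (nat_lit 50864) (nat_lit 72748) (nat_lit 51051) (nat_lit 118660) (nat_lit 51425) (nat_lit 315101),Row.mk (nat_lit 16968) (nat_lit 50864) (nat_lit 123208) (nat_lit 51051) (nat_lit 115856) (nat_lit 51425) (nat_lit 277503),Row.mk (nat_lit 17136) (nat_lit 50864) (nat_lit 186231) (nat_lit 51051) (nat_lit 112354) (nat_lit 51425) (nat_lit 230545),Row.mk (nat_lit 17304) (nat_lit 50864) (nat_lit 264946) (nat_lit 51051) (nat_lit 107980) (nat_lit 51425) (nat_lit 171896),Row.mk (nat_lit 17472) (nat_lit 50864) (nat_lit 363258) (nat_lit 51051) (nat_lit 102518) (nat_lit 51425) (nat_lit 98644),Row.mk (nat_lit 17640) (nat_lit 50864) (nat_lit 486048) (nat_lit 51051) (nat_lit 95695) (nat_lit 51425) (nat_lit 7154),Row.mk (nat_lit 17808) (nat_lit 50303) (nat_lit 24904) (nat_lit 50490) (nat_lit 108878) (nat_lit 50864) (nat_lit 485687),Row.mk (nat_lit 17976) (nat_lit 50303) (nat_lit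 216449) (nat_lit 50490) (nat_lit 95585) (nat_lit 50864) (nat_lit 345618),Row.mk (nat_lit 18144) (nat_lit 50303) (nat_lit 455684) (nat_lit 50490) (nat_lit 78982) (nat_lit 50864) (nat_lit 170676),Row.mk (nat_lit 18312) (nat_lit 49929) (nat_lit 59729) (nat_lit 50303) (nat_lit 694754) (nat_lit 50490) (nat_lit 10423),Row.mk (nat_lit 18480) (nat_lit 49742) (nat_lit 360173) (nat_lit 49929) (nat_lit 40401) (nat_lit 50303) (nat_lit 438726),Row.mk (nat_lit 18648) (nat_lit 49742) (nat_lit 826282) (nat_lit 50303) (nat_lit 105935) (nat_lit 0) (nat_lit 0),Row.mk (nat_lit 18816) (nat_lit 49181) (nat_lit 386824) (nat_lit 49555) (nat_lit 63023) (nat_lit 49742) (nat_lit 598419),Row.mk (nat_lit 18984) (nat_lit 49181) (nat_lit 1035212) (nat_lit 49555) (nat_lit 141737) (nat_lit 49742) (nat_lit 16260),Row.mk (nat_lit 19152) (nat_lit 48620) (nat_lit 588006) (nat_lit 48994) (nat_lit 299817) (nat_lit 49181) (nat_lit 486418),Row.mk (nat_lit 19320) (nat_lit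 48433) (nat_lit 526711) (nat_lit 48620) (nat_lit 1042169) (nat_lit 48994) (nat_lit 31463),Row.mk (nat_lit 19488) (nat_lit 47685) (nat_lit 75691) (nat_lit 47872) (nat_lit 1062409) (nat_lit 48433) (nat_lit 744641),Row.mk (nat_lit 19656) (nat_lit 46937) (nat_lit 466108) (nat_lit 47685) (nat_lit 1378923) (nat_lit 47872) (nat_lit 390417),Row.mk (nat_lit 19824) (nat_lit 46750) (nat_lit 1722242) (nat_lit 46937) (nat_lit 487621) (nat_lit 47685) (nat_lit 466108),Row.mk (nat_lit 19992) (nat_lit 45815) (nat_lit 1450806) (nat_lit 46563) (nat_lit 118074) (nat_lit 46750) (nat_lit 1657295),Row.mk (nat_lit 20160) (nat_lit 44693) (nat_lit 95627) (nat_lit 45628) (nat_lit 1281707) (nat_lit 45815) (nat_lit 2536030),Row.mk (nat_lit 20328) (nat_lit 44506) (nat_lit 1138100) (nat_lit 44693) (nat_lit 1846435) (nat_lit 45628) (nat_lit 1787114),Row.mk (nat_lit 20496) (nat_lit 43197) (nat_lit 839301) (nat_lit 43384) (nat_lit 96288) (nat_lit 44506) (nat_lit 4908035),Row.mk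 (nat_lit 20664) (nat_lit 43010) (nat_lit 466108) (nat_lit 43197) (nat_lit 4425803) (nat_lit 44319) (nat_lit 2290585),Row.mk (nat_lit 20832) (nat_lit 41514) (nat_lit 1222180) (nat_lit 43010) (nat_lit 7632536) (nat_lit 0) (nat_lit 0),Row.mk (nat_lit 21000) (nat_lit 41327) (nat_lit 6321832) (nat_lit 42823) (nat_lit 4155336) (nat_lit 43010) (nat_lit 466108),Row.mk (nat_lit 21168) (nat_lit 41140) (nat_lit 12503572) (nat_lit 41327) (nat_lit 187601) (nat_lit 42823) (nat_lit 860665),Row.mk (nat_lit 21336) (nat_lit 38896) (nat_lit 4791643) (nat_lit 40953) (nat_lit 10242859) (nat_lit 41140) (nat_lit 1775369),Row.mk (nat_lit 21504) (nat_lit 38709) (nat_lit 12118877) (nat_lit 40766) (nat_lit 6076694) (nat_lit 40953) (nat_lit 2683502),Row.mk (nat_lit 21672) (nat_lit 38522) (nat_lit 21270415) (nat_lit 40579) (nat_lit 873256) (nat_lit 40766) (nat_lit 3817738),Row.mk (nat_lit 21840) (nat_lit 31790) (nat_lit 488776) (nat_lit 38335) (nat_lit 26585977)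 (nat_lit 38522) (nat_lit 5234371),Row.mk (nat_lit 22008) (nat_lit 31603) (nat_lit 8416919) (nat_lit 38148) (nat_lit 24816636) (nat_lit 38335) (nat_lit 7003712),Row.mk (nat_lit 22176) (nat_lit 31416) (nat_lit 18318978) (nat_lit 37961) (nat_lit 22606771) (nat_lit 38148) (nat_lit 9213577),Row.mk (nat_lit 22344) (nat_lit 31229) (nat_lit 30686411) (nat_lit 37774) (nat_lit 19846704) (nat_lit 37961) (nat_lit 11973644),Row.mk (nat_lit 22512) (nat_lit 31042) (nat_lit 46133037) (nat_lit 37587) (nat_lit 16399447) (nat_lit 37774) (nat_lit 15420901),Row.mk (nat_lit 22680) (nat_lit 30855) (nat_lit 65425499) (nat_lit 37400) (nat_lit 12093906) (nat_lit 37587) (nat_lit 19726442),Row.mk (nat_lit 22848) (nat_lit 30668) (nat_lit 89521320) (nat_lit 37213) (nat_lit 6716389) (nat_lit 37400) (nat_lit 25103959),Row.mk (nat_lit 23016) (nat_lit 30481) (nat_lit 119616419) (nat_lit 37213) (nat_lit 31820348) (nat_lit 0) (nat_lit 0),Row.mk (nat_lit 23184) (nat_lit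 30294) (nat_lit 148815863) (nat_lit 30481) (nat_lit 8388608) (nat_lit 37026) (nat_lit 31820348),Row.mk (nat_lit 23352) (nat_lit 30107) (nat_lit 185285264) (nat_lit 30294) (nat_lit 18865777) (nat_lit 36839) (nat_lit 31820348),Row.mk (nat_lit 23520) (nat_lit 29920) (nat_lit 230834667) (nat_lit 30107) (nat_lit 31951508) (nat_lit 36652) (nat_lit 31820348),Row.mk (nat_lit 23688) (nat_lit 29733) (nat_lit 287724772) (nat_lit 29920) (nat_lit 48295271) (nat_lit 36465) (nat_lit 31820348),Row.mk (nat_lit 23856) (nat_lit 29546) (nat_lit 358779140) (nat_lit 29733) (nat_lit 68708236) (nat_lit 36278) (nat_lit 31820348),Row.mk (nat_lit 24024) (nat_lit 29359) (nat_lit 447524333) (nat_lit 29546) (nat_lit 94203538) (nat_lit 36091) (nat_lit 31820348),Row.mk (nat_lit 24192) (nat_lit 29172) (nat_lit 558364937) (nat_lit 29359) (nat_lit 126046554) (nat_lit 35904) (nat_lit 31820348),Row.mk (nat_lit 24360) (nat_lit 28985) (nat_lit 696802178) (nat_lit 29172)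 (nat_lit 165817713) (nat_lit 35717) (nat_lit 31820348),Row.mk (nat_lit 24528) (nat_lit 28798) (nat_lit 869706953) (nat_lit 28985) (nat_lit 215490932) (nat_lit 35530) (nat_lit 31820348),Row.mk (nat_lit 24696) (nat_lit 28611) (nat_lit 1085660845) (nat_lit 28798) (nat_lit 277531584) (nat_lit 35343) (nat_lit 31820348),Row.mk (nat_lit 24864) (nat_lit 28424) (nat_lit 1355382047) (nat_lit 28611) (nat_lit 355018861) (nat_lit 35156) (nat_lit 31820348),Row.mk (nat_lit 25032) (nat_lit 28237) (nat_lit 1692257321) (nat_lit 28424) (nat_lit 451798601) (nat_lit 34969) (nat_lit 31820348),Row.mk (nat_lit 25200) (nat_lit 28050) (nat_lit 2113006411) (nat_lit 28237) (nat_lit 572674162) (nat_lit 34782) (nat_lit 31820348),Row.mk (nat_lit 25368) (nat_lit 27863) (nat_lit 2638511876) (nat_lit 28050) (nat_lit 723644821) (nat_lit 34595) (nat_lit 31820348),Row.mk (nat_lit 25536) (nat_lit 27676) (nat_lit 3294855523) (nat_lit 27863) (nat_lit 912203533) (nat_lit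 34408) (nat_lit 31820348),Row.mk (nat_lit 25704) (nat_lit 27489) (nat_lit 4114612906) (nat_lit 27676) (nat_lit 1147708815) (nat_lit 34221) (nat_lit 31820348),Row.mk (nat_lit 25872) (nat_lit 27302) (nat_lit 5138470101) (nat_lit 27489) (nat_lit 1441849230) (nat_lit 34034) (nat_lit 31820348),Row.mk (nat_lit 26040) (nat_lit 32912) (nat_lit 8854716) (nat_lit 62084) (nat_lit 8249432185) (nat_lit 0) (nat_lit 0),Row.mk (nat_lit 26208) (nat_lit 32912) (nat_lit 8854716) (nat_lit 62084) (nat_lit 10305430352) (nat_lit 0) (nat_lit 0),Row.mk (nat_lit 26376) (nat_lit 32912) (nat_lit 8854716) (nat_lit 62084) (nat_lit 12873322465) (nat_lit 0) (nat_lit 0),Row.mk (nat_lit 26544) (nat_lit 32912) (nat_lit 8854716) (nat_lit 62084) (nat_lit 16080557766) (nat_lit 0) (nat_lit 0),Row.mk (nat_lit 26712) (nat_lit 32912) (nat_lit 8854716) (nat_lit 62084) (nat_lit 20086317287) (nat_lit 0) (nat_lit 0),Row.mk (nat_lit 26880) (nat_lit 32912) (nat_lit 8854716) (nat_lit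 62084) (nat_lit 25089414294) (nat_lit 0) (nat_lit 0),Row.mk (nat_lit 27048) (nat_lit 32912) (nat_lit 8854716) (nat_lit 62084) (nat_lit 31338161762) (nat_lit 0) (nat_lit 0),Row.mk (nat_lit 27216) (nat_lit 32912) (nat_lit 8854716) (nat_lit 62084) (nat_lit 39142696606) (nat_lit 0) (nat_lit 0),Row.mk (nat_lit 27384) (nat_lit 32912) (nat_lit 8854716) (nat_lit 62084) (nat_lit 48890372351) (nat_lit 0) (nat_lit 0),Row.mk (nat_lit 27552) (nat_lit 32912) (nat_lit 8854716) (nat_lit 62084) (nat_lit 61064984206) (nat_lit 0) (nat_lit 0),Row.mk (nat_lit 27720) (nat_lit 32912) (nat_lit 8854716) (nat_lit 62084) (nat_lit 76270780715) (nat_lit 0) (nat_lit 0),Row.mk (nat_lit 27888) (nat_lit 32912) (nat_lit 8854716) (nat_lit 62084) (nat_lit 95262453733) (nat_lit 0) (nat_lit 0),Row.mk (nat_lit 28056) (nat_lit 32912) (nat_lit 8854716) (nat_lit 62084) (nat_lit 118982595181) (nat_lit 0) (nat_lit 0),Row.mk (nat_lit 28224) (nat_lit 32912) (nat_lit 8854716)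 (nat_lit 62084) (nat_lit 148608479629) (nat_lit 0) (nat_lit 0),Row.mk (nat_lit 28392) (nat_lit 32912) (nat_lit 8854716) (nat_lit 62084) (nat_lit 185610494615) (nat_lit 0) (nat_lit 0),Row.mk (nat_lit 28560) (nat_lit 32912) (nat_lit 8854716) (nat_lit 62084) (nat_lit 231825118704) (nat_lit 0) (nat_lit 0),Row.mk (nat_lit 28728) (nat_lit 32912) (nat_lit 8854716) (nat_lit 62084) (nat_lit 289546069319) (nat_lit 0) (nat_lit 0)],
[Row.mk (nat_lit 6048) (nat_lit 50864) (nat_lit 419889) (nat_lit 51051) (nat_lit 162268) (nat_lit 0) (nat_lit 0),Row.mk (nat_lit 6216) (nat_lit 50864) (nat_lit 419889) (nat_lit 51051) (nat_lit 162268) (nat_lit 0) (nat_lit 0),Row.mk (nat_lit 6384) (nat_lit 50864) (nat_lit 419889) (nat_lit 51051) (nat_lit 162268) (nat_lit 0) (nat_lit 0),Row.mk (nat_lit 6552) (nat_lit 50864) (nat_lit 419889) (nat_lit 51051) (nat_lit 162268) (nat_lit 0) (nat_lit 0),Row.mk (nat_lit 6720) (nat_lit 50864) (nat_lit 419889) (nat_lit 51051)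 (nat_lit 162268) (nat_lit 0) (nat_lit 0),Row.mk (nat_lit 6888) (nat_lit 50864) (nat_lit 419889) (nat_lit 51051) (nat_lit 162268) (nat_lit 0) (nat_lit 0),Row.mk (nat_lit 7056) (nat_lit 50864) (nat_lit 419889) (nat_lit 51051) (nat_lit 162268) (nat_lit 0) (nat_lit 0),Row.mk (nat_lit 7224) (nat_lit 50864) (nat_lit 419889) (nat_lit 51051) (nat_lit 162268) (nat_lit 0) (nat_lit 0),Row.mk (nat_lit 7392) (nat_lit 50864) (nat_lit 419889) (nat_lit 51051) (nat_lit 162268) (nat_lit 0) (nat_lit 0),Row.mk (nat_lit 7560) (nat_lit 50864) (nat_lit 419889) (nat_lit 51051) (nat_lit 162268) (nat_lit 0) (nat_lit 0),Row.mk (nat_lit 7728) (nat_lit 50490) (nat_lit 1) (nat_lit 50864) (nat_lit 419889) (nat_lit 51051) (nat_lit 162267),Row.mk (nat_lit 7896) (nat_lit 50490) (nat_lit 1) (nat_lit 50864) (nat_lit 419889) (nat_lit 51051) (nat_lit 162267),Row.mk (nat_lit 8064) (nat_lit 50490) (nat_lit 1) (nat_lit 50864) (nat_lit 419889) (nat_lit 51051) (nat_lit 162267),Row.mk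 (nat_lit 8232) (nat_lit 50490) (nat_lit 2) (nat_lit 50864) (nat_lit 419889) (nat_lit 51051) (nat_lit 162267),Row.mk (nat_lit 8400) (nat_lit 50490) (nat_lit 2) (nat_lit 50864) (nat_lit 419889) (nat_lit 51051) (nat_lit 162266),Row.mk (nat_lit 8568) (nat_lit 50490) (nat_lit 3) (nat_lit 50864) (nat_lit 419889) (nat_lit 51051) (nat_lit 162265),Row.mk (nat_lit 8736) (nat_lit 50490) (nat_lit 4) (nat_lit 50864) (nat_lit 419889) (nat_lit 51051) (nat_lit 162265),Row.mk (nat_lit 8904) (nat_lit 50490) (nat_lit 5) (nat_lit 50864) (nat_lit 419890) (nat_lit 51051) (nat_lit 162264),Row.mk (nat_lit 9072) (nat_lit 50490) (nat_lit 6) (nat_lit 50864) (nat_lit 419890) (nat_lit 51051) (nat_lit 162263),Row.mk (nat_lit 9240) (nat_lit 50490) (nat_lit 8) (nat_lit 50864) (nat_lit 419890) (nat_lit 51051) (nat_lit 162261),Row.mk (nat_lit 9408) (nat_lit 50490) (nat_lit 10) (nat_lit 50864) (nat_lit 419890) (nat_lit 51051) (nat_lit 162259),Row.mk (nat_lit 9576)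 (nat_lit 50490) (nat_lit 13) (nat_lit 50864) (nat_lit 419890) (nat_lit 51051) (nat_lit 162257),Row.mk (nat_lit 9744) (nat_lit 50490) (nat_lit 16) (nat_lit 50864) (nat_lit 419890) (nat_lit 51051) (nat_lit 162254),Row.mk (nat_lit 9912) (nat_lit 50490) (nat_lit 20) (nat_lit 50864) (nat_lit 419891) (nat_lit 51051) (nat_lit 162251),Row.mk (nat_lit 10080) (nat_lit 50490) (nat_lit 25) (nat_lit 50864) (nat_lit 419891) (nat_lit 51051) (nat_lit 162246),Row.mk (nat_lit 10248) (nat_lit 50490) (nat_lit 32) (nat_lit 50864) (nat_lit 419892) (nat_lit 51051) (nat_lit 162241),Row.mk (nat_lit 10416) (nat_lit 50490) (nat_lit 40) (nat_lit 50864) (nat_lit 419892) (nat_lit 51051) (nat_lit 162234),Row.mk (nat_lit 10584) (nat_lit 50490) (nat_lit 50) (nat_lit 50864) (nat_lit 419893) (nat_lit 51051) (nat_lit 162225),Row.mk (nat_lit 10752) (nat_lit 50490) (nat_lit 63) (nat_lit 50864) (nat_lit 419894) (nat_lit 51051) (nat_lit 162214),Row.mk (nat_lit 10920) (nat_lit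 50490) (nat_lit 78) (nat_lit 50864) (nat_lit 419895) (nat_lit 51051) (nat_lit 162201),Row.mk (nat_lit 11088) (nat_lit 50490) (nat_lit 98) (nat_lit 50864) (nat_lit 419896) (nat_lit 51051) (nat_lit 162184),Row.mk (nat_lit 11256) (nat_lit 50490) (nat_lit 122) (nat_lit 50864) (nat_lit 419898) (nat_lit 51051) (nat_lit 162163),Row.mk (nat_lit 11424) (nat_lit 50490) (nat_lit 153) (nat_lit 50864) (nat_lit 419901) (nat_lit 51051) (nat_lit 162136),Row.mk (nat_lit 11592) (nat_lit 50490) (nat_lit 191) (nat_lit 50864) (nat_lit 419903) (nat_lit 51051) (nat_lit 162104),Row.mk (nat_lit 11760) (nat_lit 50490) (nat_lit 239) (nat_lit 50864) (nat_lit 419907) (nat_lit 51051) (nat_lit 162063),Row.mk (nat_lit 11928) (nat_lit 50490) (nat_lit 298) (nat_lit 50864) (nat_lit 419911) (nat_lit 51051) (nat_lit 162011),Row.mk (nat_lit 12096) (nat_lit 50490) (nat_lit 373) (nat_lit 50864) (nat_lit 419917) (nat_lit 51051) (nat_lit 161947),Row.mk (nat_lit 12264) (nat_lit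 50490) (nat_lit 466) (nat_lit 50864) (nat_lit 419924) (nat_lit 51051) (nat_lit 161867),Row.mk (nat_lit 12432) (nat_lit 50490) (nat_lit 582) (nat_lit 50864) (nat_lit 419933) (nat_lit 51051) (nat_lit 161767),Row.mk (nat_lit 12600) (nat_lit 50490) (nat_lit 727) (nat_lit 50864) (nat_lit 419943) (nat_lit 51051) (nat_lit 161643),Row.mk (nat_lit 12768) (nat_lit 50490) (nat_lit 908) (nat_lit 50864) (nat_lit 419957) (nat_lit 51051) (nat_lit 161487),Row.mk (nat_lit 12936) (nat_lit 50490) (nat_lit 1134) (nat_lit 50864) (nat_lit 419974) (nat_lit 51051) (nat_lit 161292),Row.mk (nat_lit 13104) (nat_lit 50490) (nat_lit 1416) (nat_lit 50864) (nat_lit 419995) (nat_lit 51051) (nat_lit 161049),Row.mk (nat_lit 13272) (nat_lit 50490) (nat_lit 1769) (nat_lit 50864) (nat_lit 420021) (nat_lit 51051) (nat_lit 160746),Row.mk (nat_lit 13440) (nat_lit 50490) (nat_lit 2210) (nat_lit 50864) (nat_lit 420054) (nat_lit 51051) (nat_lit 160367),Row.mk (nat_lit 13608)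 (nat_lit 50490) (nat_lit 2760) (nat_lit 50864) (nat_lit 420095) (nat_lit 51051) (nat_lit 159893),Row.mk (nat_lit 13776) (nat_lit 50490) (nat_lit 3448) (nat_lit 50864) (nat_lit 420146) (nat_lit 51051) (nat_lit 159302),Row.mk (nat_lit 13944) (nat_lit 50490) (nat_lit 4306) (nat_lit 50864) (nat_lit 420210) (nat_lit 51051) (nat_lit 158563),Row.mk (nat_lit 14112) (nat_lit 50490) (nat_lit 5378) (nat_lit 50864) (nat_lit 420290) (nat_lit 51051) (nat_lit 157641),Row.mk (nat_lit 14280) (nat_lit 50490) (nat_lit 6718) (nat_lit 50864) (nat_lit 420390) (nat_lit 51051) (nat_lit 156488),Row.mk (nat_lit 14448) (nat_lit 50490) (nat_lit 8390) (nat_lit 50864) (nat_lit 420515) (nat_lit 51051) (nat_lit 155049),Row.mk (nat_lit 14616) (nat_lit 50490) (nat_lit 10479) (nat_lit 50864) (nat_lit 420671) (nat_lit 51051) (nat_lit 153252),Row.mk (nat_lit 14784) (nat_lit 50490) (nat_lit 13088) (nat_lit 50864) (nat_lit 420865) (nat_lit 51051) (nat_lit 151007),Row.mk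 (nat_lit 14952) (nat_lit 50490) (nat_lit 16347) (nat_lit 50864) (nat_lit 421108) (nat_lit 51051) (nat_lit 148203),Row.mk (nat_lit 15120) (nat_lit 50490) (nat_lit 20417) (nat_lit 50864) (nat_lit 421412) (nat_lit 51051) (nat_lit 144702),Row.mk (nat_lit 15288) (nat_lit 50490) (nat_lit 25501) (nat_lit 50864) (nat_lit 421791) (nat_lit 51051) (nat_lit 140328),Row.mk (nat_lit 15456) (nat_lit 50490) (nat_lit 31850) (nat_lit 50864) (nat_lit 422264) (nat_lit 51051) (nat_lit 134865),Row.mk (nat_lit 15624) (nat_lit 50490) (nat_lit 39780) (nat_lit 50864) (nat_lit 422856) (nat_lit 51051) (nat_lit 128042),Row.mk (nat_lit 15792) (nat_lit 50490) (nat_lit 49685) (nat_lit 50864) (nat_lit 423594) (nat_lit 51051) (nat_lit 119521),Row.mk (nat_lit 15960) (nat_lit 50490) (nat_lit 62055) (nat_lit 50864) (nat_lit 424517) (nat_lit 51051) (nat_lit 108878),Row.mk (nat_lit 16128) (nat_lit 50490) (nat_lit 77506) (nat_lit 50864) (nat_lit 425669) (nat_lit 51051)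 (nat_lit 95585),Row.mk (nat_lit 16296) (nat_lit 50490) (nat_lit 96803) (nat_lit 50864) (nat_lit 427108) (nat_lit 51051) (nat_lit 78982),Row.mk (nat_lit 16464) (nat_lit 50490) (nat_lit 120905) (nat_lit 50864) (nat_lit 428906) (nat_lit 51051) (nat_lit 58246),Row.mk (nat_lit 16632) (nat_lit 50490) (nat_lit 151007) (nat_lit 50864) (nat_lit 431150) (nat_lit 51051) (nat_lit 32347),Row.mk (nat_lit 16800) (nat_lit 50490) (nat_lit 188604) (nat_lit 50864) (nat_lit 433954) (nat_lit 0) (nat_lit 0),Row.mk (nat_lit 16968) (nat_lit 50303) (nat_lit 50459) (nat_lit 50490) (nat_lit 185103) (nat_lit 50864) (nat_lit 397055),Row.mk (nat_lit 17136) (nat_lit 50303) (nat_lit 113483) (nat_lit 50490) (nat_lit 180729) (nat_lit 50864) (nat_lit 350969),Row.mk (nat_lit 17304) (nat_lit 50303) (nat_lit 192197) (nat_lit 50490) (nat_lit 175266) (nat_lit 50864) (nat_lit 293408),Row.mk (nat_lit 17472) (nat_lit 50303) (nat_lit 290510) (nat_lit 50490) (nat_lit 168443)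 (nat_lit 50864) (nat_lit 221516),Row.mk (nat_lit 17640) (nat_lit 50303) (nat_lit 413300) (nat_lit 50490) (nat_lit 159922) (nat_lit 50864) (nat_lit 131725),Row.mk (nat_lit 17808) (nat_lit 50303) (nat_lit 566661) (nat_lit 50490) (nat_lit 149279) (nat_lit 50864) (nat_lit 19578),Row.mk (nat_lit 17976) (nat_lit 49929) (nat_lit 150488) (nat_lit 50303) (nat_lit 607718) (nat_lit 50490) (nat_lit 15496),Row.mk (nat_lit 18144) (nat_lit 49742) (nat_lit 219880) (nat_lit 49929) (nat_lit 149107) (nat_lit 50303) (nat_lit 452406),Row.mk (nat_lit 18312) (nat_lit 49742) (nat_lit 518679) (nat_lit 49929) (nat_lit 123208) (nat_lit 50303) (nat_lit 239069),Row.mk (nat_lit 18480) (nat_lit 49368) (nat_lit 34199) (nat_lit 49742) (nat_lit 857672) (nat_lit 49929) (nat_lit 63479),Row.mk (nat_lit 18648) (nat_lit 49181) (nat_lit 386824) (nat_lit 49368) (nat_lit 63023) (nat_lit 49742) (nat_lit 598419),Row.mk (nat_lit 18816) (nat_lit 49181) (nat_lit 968983) (nat_lit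 49742) (nat_lit 195333) (nat_lit 0) (nat_lit 0),Row.mk (nat_lit 18984) (nat_lit 48620) (nat_lit 384822) (nat_lit 48994) (nat_lit 98312) (nat_lit 49181) (nat_lit 826125),Row.mk (nat_lit 19152) (nat_lit 48620) (nat_lit 1170165) (nat_lit 48994) (nat_lit 221102) (nat_lit 49181) (nat_lit 99023),Row.mk (nat_lit 19320) (nat_lit 47872) (nat_lit 542860) (nat_lit 48433) (nat_lit 467696) (nat_lit 48620) (nat_lit 705837),Row.mk (nat_lit 19488) (nat_lit 47685) (nat_lit 535060) (nat_lit 47872) (nat_lit 1185198) (nat_lit 48433) (nat_lit 278532),Row.mk (nat_lit 19656) (nat_lit 46937) (nat_lit 1048267) (nat_lit 47685) (nat_lit 1256133) (nat_lit 47872) (nat_lit 47098),Row.mk (nat_lit 19824) (nat_lit 46750) (nat_lit 2151039) (nat_lit 46937) (nat_lit 640983) (nat_lit 0) (nat_lit 0),Row.mk (nat_lit 19992) (nat_lit 45815) (nat_lit 1959494) (nat_lit 46002) (nat_lit 73470) (nat_lit 46750) (nat_lit 1309260),Row.mk (nat_lit 20160) (nat_lit 44693) (nat_lit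 677786) (nat_lit 45628) (nat_lit 1042472) (nat_lit 45815) (nat_lit 2309156),Row.mk (nat_lit 20328) (nat_lit 44506) (nat_lit 1421460) (nat_lit 44693) (nat_lit 2145234) (nat_lit 45628) (nat_lit 1321005),Row.mk (nat_lit 20496) (nat_lit 43197) (nat_lit 1048267) (nat_lit 43384) (nat_lit 469481) (nat_lit 44506) (nat_lit 4441927),Row.mk (nat_lit 20664) (nat_lit 43010) (nat_lit 582158) (nat_lit 43197) (nat_lit 4891911) (nat_lit 44319) (nat_lit 1824477),Row.mk (nat_lit 20832) (nat_lit 41514) (nat_lit 1804338) (nat_lit 43010) (nat_lit 7166427) (nat_lit 0) (nat_lit 0),Row.mk (nat_lit 21000) (nat_lit 41327) (nat_lit 6903990) (nat_lit 42823) (nat_lit 3573178) (nat_lit 43010) (nat_lit 582158),Row.mk (nat_lit 21168) (nat_lit 41140) (nat_lit 12358629) (nat_lit 41327) (nat_lit 914703) (nat_lit 42823) (nat_lit 394556),Row.mk (nat_lit 21336) (nat_lit 38896) (nat_lit 5373801) (nat_lit 40953) (nat_lit 9334726) (nat_lit 41140) (nat_lit 2217393),Row.mk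 (nat_lit 21504) (nat_lit 38709) (nat_lit 12701035) (nat_lit 40766) (nat_lit 4942458) (nat_lit 40953) (nat_lit 3351629),Row.mk (nat_lit 21672) (nat_lit 38522) (nat_lit 21309196) (nat_lit 38709) (nat_lit 543377) (nat_lit 40766) (nat_lit 4224885),Row.mk (nat_lit 21840) (nat_lit 31790) (nat_lit 1070934) (nat_lit 38335) (nat_lit 24816636) (nat_lit 38522) (nat_lit 6537604),Row.mk (nat_lit 22008) (nat_lit 31603) (nat_lit 8999077) (nat_lit 38148) (nat_lit 22606771) (nat_lit 38335) (nat_lit 8747468),Row.mk (nat_lit 22176) (nat_lit 31416) (nat_lit 18901136) (nat_lit 37961) (nat_lit 19846704) (nat_lit 38148) (nat_lit 11507535),Row.mk (nat_lit 22344) (nat_lit 31229) (nat_lit 31268570) (nat_lit 37774) (nat_lit 16399447) (nat_lit 37961) (nat_lit 14954792),Row.mk (nat_lit 22512) (nat_lit 31042) (nat_lit 46715195) (nat_lit 37587) (nat_lit 12093906) (nat_lit 37774) (nat_lit 19260333),Row.mk (nat_lit 22680) (nat_lit 30855) (nat_lit 66007658) (nat_lit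 37400) (nat_lit 6716389) (nat_lit 37587) (nat_lit 24637851),Row.mk (nat_lit 22848) (nat_lit 30668) (nat_lit 90103479) (nat_lit 37400) (nat_lit 31354240) (nat_lit 0) (nat_lit 0),Row.mk (nat_lit 23016) (nat_lit 30481) (nat_lit 111809969) (nat_lit 30668) (nat_lit 8388608) (nat_lit 37213) (nat_lit 31354240),Row.mk (nat_lit 23184) (nat_lit 30294) (nat_lit 138920852) (nat_lit 30481) (nat_lit 18865777) (nat_lit 37026) (nat_lit 31354240),Row.mk (nat_lit 23352) (nat_lit 30107) (nat_lit 172781691) (nat_lit 30294) (nat_lit 31951508) (nat_lit 36839) (nat_lit 31354240),Row.mk (nat_lit 23520) (nat_lit 29920) (nat_lit 215073063) (nat_lit 30107) (nat_lit 48295271) (nat_lit 36652) (nat_lit 31354240),Row.mk (nat_lit 23688) (nat_lit 29733) (nat_lit 267893965) (nat_lit 29920) (nat_lit 68708236) (nat_lit 36465) (nat_lit 31354240),Row.mk (nat_lit 23856) (nat_lit 29546) (nat_lit 333865998) (nat_lit 29733) (nat_lit 94203538) (nat_lit 36278) (nat_lit 31354240),Row.mk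 (nat_lit 24024) (nat_lit 29359) (nat_lit 416263475) (nat_lit 29546) (nat_lit 126046554) (nat_lit 36091) (nat_lit 31354240),Row.mk (nat_lit 24192) (nat_lit 29172) (nat_lit 519175936) (nat_lit 29359) (nat_lit 165817713) (nat_lit 35904) (nat_lit 31354240),Row.mk (nat_lit 24360) (nat_lit 28985) (nat_lit 647711118) (nat_lit 29172) (nat_lit 215490932) (nat_lit 35717) (nat_lit 31354240),Row.mk (nat_lit 24528) (nat_lit 28798) (nat_lit 808248460) (nat_lit 28985) (nat_lit 277531584) (nat_lit 35530) (nat_lit 31354240),Row.mk (nat_lit 24696) (nat_lit 28611) (nat_lit 1008755726) (nat_lit 28798) (nat_lit 355018861) (nat_lit 35343) (nat_lit 31354240),Row.mk (nat_lit 24864) (nat_lit 28424) (nat_lit 1259184465) (nat_lit 28611) (nat_lit 451798601) (nat_lit 35156) (nat_lit 31354240),Row.mk (nat_lit 25032) (nat_lit 28237) (nat_lit 1571963919) (nat_lit 28424) (nat_lit 572674162) (nat_lit 34969) (nat_lit 31354240),Row.mk (nat_lit 25200) (nat_lit 28050)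 (nat_lit 1962617911) (nat_lit 28237) (nat_lit 723644821) (nat_lit 34782) (nat_lit 31354240),Row.mk (nat_lit 25368) (nat_lit 27863) (nat_lit 2450535323) (nat_lit 28050) (nat_lit 912203533) (nat_lit 34595) (nat_lit 31354240),Row.mk (nat_lit 25536) (nat_lit 27676) (nat_lit 3059932400) (nat_lit 27863) (nat_lit 1147708815) (nat_lit 34408) (nat_lit 31354240),Row.mk (nat_lit 25704) (nat_lit 27489) (nat_lit 3821054648) (nat_lit 27676) (nat_lit 1441849230) (nat_lit 34221) (nat_lit 31354240),Row.mk (nat_lit 25872) (nat_lit 27302) (nat_lit 4771677976) (nat_lit 27489) (nat_lit 1809223514) (nat_lit 34034) (nat_lit 31354240),Row.mk (nat_lit 26040) (nat_lit 32912) (nat_lit 8970766) (nat_lit 62084) (nat_lit 8249432185) (nat_lit 0) (nat_lit 0),Row.mk (nat_lit 26208) (nat_lit 32912) (nat_lit 8970766) (nat_lit 62084) (nat_lit 10305430352) (nat_lit 0) (nat_lit 0),Row.mk (nat_lit 26376) (nat_lit 32912) (nat_lit 8970766) (nat_lit 62084) (nat_lit 12873322465)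 (nat_lit 0) (nat_lit 0),Row.mk (nat_lit 26544) (nat_lit 32912) (nat_lit 8970766) (nat_lit 62084) (nat_lit 16080557766) (nat_lit 0) (nat_lit 0),Row.mk (nat_lit 26712) (nat_lit 32912) (nat_lit 8970766) (nat_lit 62084) (nat_lit 20086317287) (nat_lit 0) (nat_lit 0),Row.mk (nat_lit 26880) (nat_lit 32912) (nat_lit 8970766) (nat_lit 62084) (nat_lit 25089414294) (nat_lit 0) (nat_lit 0),Row.mk (nat_lit 27048) (nat_lit 32912) (nat_lit 8970766) (nat_lit 62084) (nat_lit 31338161762) (nat_lit 0) (nat_lit 0),Row.mk (nat_lit 27216) (nat_lit 32912) (nat_lit 8970766) (nat_lit 62084) (nat_lit 39142696606) (nat_lit 0) (nat_lit 0),Row.mk (nat_lit 27384) (nat_lit 32912) (nat_lit 8970766) (nat_lit 62084) (nat_lit 48890372351) (nat_lit 0) (nat_lit 0),Row.mk (nat_lit 27552) (nat_lit 32912) (nat_lit 8970766) (nat_lit 62084) (nat_lit 61064984206) (nat_lit 0) (nat_lit 0),Row.mk (nat_lit 27720) (nat_lit 32912) (nat_lit 8970766) (nat_lit 62084) (nat_lit 76270780715)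 (nat_lit 0) (nat_lit 0),Row.mk (nat_lit 27888) (nat_lit 32912) (nat_lit 8970766) (nat_lit 62084) (nat_lit 95262453733) (nat_lit 0) (nat_lit 0),Row.mk (nat_lit 28056) (nat_lit 32912) (nat_lit 8970766) (nat_lit 62084) (nat_lit 118982595181) (nat_lit 0) (nat_lit 0),Row.mk (nat_lit 28224) (nat_lit 32912) (nat_lit 8970766) (nat_lit 62084) (nat_lit 148608479629) (nat_lit 0) (nat_lit 0),Row.mk (nat_lit 28392) (nat_lit 32912) (nat_lit 8970766) (nat_lit 62084) (nat_lit 185610494615) (nat_lit 0) (nat_lit 0),Row.mk (nat_lit 28560) (nat_lit 32912) (nat_lit 8970766) (nat_lit 62084) (nat_lit 231825118704) (nat_lit 0) (nat_lit 0),Row.mk (nat_lit 28728) (nat_lit 32912) (nat_lit 8970766) (nat_lit 62084) (nat_lit 289546069319) (nat_lit 0) (nat_lit 0),Row.mk (nat_lit 28896) (nat_lit 32912) (nat_lit 8970766) (nat_lit 62084) (nat_lit 361638144187) (nat_lit 0) (nat_lit 0)],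
[Row.mk (nat_lit 6048) (nat_lit 50303) (nat_lit 473972) (nat_lit 50490) (nat_lit 253129) (nat_lit 0) (nat_lit 0),Row.mk (nat_lit 6216) (nat_lit 50303) (nat_lit 473972) (nat_lit 50490) (nat_lit 253129) (nat_lit 0) (nat_lit 0),Row.mk (nat_lit 6384) (nat_lit 50303) (nat_lit 473972) (nat_lit 50490) (nat_lit 253129) (nat_lit 0) (nat_lit 0),Row.mk (nat_lit 6552) (nat_lit 50303) (nat_lit 473972) (nat_lit 50490) (nat_lit 253129) (nat_lit 0) (nat_lit 0),Row.mk (nat_lit 6720) (nat_lit 50303) (nat_lit 473972) (nat_lit 50490) (nat_lit 253129) (nat_lit 0) (nat_lit 0),Row.mk (nat_lit 6888) (nat_lit 50303) (nat_lit 473972) (nat_lit 50490) (nat_lit 253129) (nat_lit 0) (nat_lit 0),Row.mk (nat_lit 7056) (nat_lit 50303) (nat_lit 473972) (nat_lit 50490) (nat_lit 253129) (nat_lit 0) (nat_lit 0),Row.mk (nat_lit 7224) (nat_lit 50303) (nat_lit 473972) (nat_lit 50490) (nat_lit 253129) (nat_lit 0) (nat_lit 0),Row.mk (nat_lit 7392) (nat_lit 50303) (nat_lit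 473972) (nat_lit 50490) (nat_lit 253129) (nat_lit 0) (nat_lit 0),Row.mk (nat_lit 7560) (nat_lit 50303) (nat_lit 473972) (nat_lit 50490) (nat_lit 253129) (nat_lit 0) (nat_lit 0),Row.mk (nat_lit 7728) (nat_lit 49929) (nat_lit 1) (nat_lit 50303) (nat_lit 473972) (nat_lit 50490) (nat_lit 253128),Row.mk (nat_lit 7896) (nat_lit 49929) (nat_lit 1) (nat_lit 50303) (nat_lit 473972) (nat_lit 50490) (nat_lit 253128),Row.mk (nat_lit 8064) (nat_lit 49929) (nat_lit 1) (nat_lit 50303) (nat_lit 473972) (nat_lit 50490) (nat_lit 253128),Row.mk (nat_lit 8232) (nat_lit 49929) (nat_lit 2) (nat_lit 50303) (nat_lit 473972) (nat_lit 50490) (nat_lit 253128),Row.mk (nat_lit 8400) (nat_lit 49929) (nat_lit 2) (nat_lit 50303) (nat_lit 473972) (nat_lit 50490) (nat_lit 253127),Row.mk (nat_lit 8568) (nat_lit 49929) (nat_lit 3) (nat_lit 50303) (nat_lit 473972) (nat_lit 50490) (nat_lit 253126),Row.mk (nat_lit 8736) (nat_lit 49929) (nat_lit 4) (nat_lit 50303) (nat_lit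 473972) (nat_lit 50490) (nat_lit 253126),Row.mk (nat_lit 8904) (nat_lit 49929) (nat_lit 5) (nat_lit 50303) (nat_lit 473972) (nat_lit 50490) (nat_lit 253125),Row.mk (nat_lit 9072) (nat_lit 49929) (nat_lit 6) (nat_lit 50303) (nat_lit 473972) (nat_lit 50490) (nat_lit 253124),Row.mk (nat_lit 9240) (nat_lit 49929) (nat_lit 8) (nat_lit 50303) (nat_lit 473972) (nat_lit 50490) (nat_lit 253122),Row.mk (nat_lit 9408) (nat_lit 49929) (nat_lit 10) (nat_lit 50303) (nat_lit 473973) (nat_lit 50490) (nat_lit 253120),Row.mk (nat_lit 9576) (nat_lit 49929) (nat_lit 13) (nat_lit 50303) (nat_lit 473973) (nat_lit 50490) (nat_lit 253118),Row.mk (nat_lit 9744) (nat_lit 49929) (nat_lit 16) (nat_lit 50303) (nat_lit 473973) (nat_lit 50490) (nat_lit 253115),Row.mk (nat_lit 9912) (nat_lit 49929) (nat_lit 20) (nat_lit 50303) (nat_lit 473974) (nat_lit 50490) (nat_lit 253112),Row.mk (nat_lit 10080) (nat_lit 49929) (nat_lit 25) (nat_lit 50303) (nat_lit 473974) (nat_lit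 50490) (nat_lit 253107),Row.mk (nat_lit 10248) (nat_lit 49929) (nat_lit 31) (nat_lit 50303) (nat_lit 473975) (nat_lit 50490) (nat_lit 253102),Row.mk (nat_lit 10416) (nat_lit 49929) (nat_lit 39) (nat_lit 50303) (nat_lit 473975) (nat_lit 50490) (nat_lit 253095),Row.mk (nat_lit 10584) (nat_lit 49929) (nat_lit 49) (nat_lit 50303) (nat_lit 473976) (nat_lit 50490) (nat_lit 253086),Row.mk (nat_lit 10752) (nat_lit 49929) (nat_lit 61) (nat_lit 50303) (nat_lit 473977) (nat_lit 50490) (nat_lit 253075),Row.mk (nat_lit 10920) (nat_lit 49929) (nat_lit 77) (nat_lit 50303) (nat_lit 473979) (nat_lit 50490) (nat_lit 253062),Row.mk (nat_lit 11088) (nat_lit 49929) (nat_lit 96) (nat_lit 50303) (nat_lit 473981) (nat_lit 50490) (nat_lit 253045),Row.mk (nat_lit 11256) (nat_lit 49929) (nat_lit 120) (nat_lit 50303) (nat_lit 473983) (nat_lit 50490) (nat_lit 253024),Row.mk (nat_lit 11424) (nat_lit 49929) (nat_lit 150) (nat_lit 50303) (nat_lit 473986) (nat_lit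 50490) (nat_lit 252997),Row.mk (nat_lit 11592) (nat_lit 49929) (nat_lit 188) (nat_lit 50303) (nat_lit 473989) (nat_lit 50490) (nat_lit 252965),Row.mk (nat_lit 11760) (nat_lit 49929) (nat_lit 234) (nat_lit 50303) (nat_lit 473994) (nat_lit 50490) (nat_lit 252924),Row.mk (nat_lit 11928) (nat_lit 49929) (nat_lit 293) (nat_lit 50303) (nat_lit 473999) (nat_lit 50490) (nat_lit 252872),Row.mk (nat_lit 12096) (nat_lit 49929) (nat_lit 366) (nat_lit 50303) (nat_lit 474006) (nat_lit 50490) (nat_lit 252808),Row.mk (nat_lit 12264) (nat_lit 49929) (nat_lit 457) (nat_lit 50303) (nat_lit 474015) (nat_lit 50490) (nat_lit 252728),Row.mk (nat_lit 12432) (nat_lit 49929) (nat_lit 571) (nat_lit 50303) (nat_lit 474026) (nat_lit 50490) (nat_lit 252628),Row.mk (nat_lit 12600) (nat_lit 49929) (nat_lit 713) (nat_lit 50303) (nat_lit 474039) (nat_lit 50490) (nat_lit 252504),Row.mk (nat_lit 12768) (nat_lit 49929) (nat_lit 891) (nat_lit 50303) (nat_lit 474056) (nat_lit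 50490) (nat_lit 252348),Row.mk (nat_lit 12936) (nat_lit 49929) (nat_lit 1113) (nat_lit 50303) (nat_lit 474077) (nat_lit 50490) (nat_lit 252153),Row.mk (nat_lit 13104) (nat_lit 49929) (nat_lit 1390) (nat_lit 50303) (nat_lit 474104) (nat_lit 50490) (nat_lit 251910),Row.mk (nat_lit 13272) (nat_lit 49929) (nat_lit 1736) (nat_lit 50303) (nat_lit 474136) (nat_lit 50490) (nat_lit 251607),Row.mk (nat_lit 13440) (nat_lit 49929) (nat_lit 2169) (nat_lit 50303) (nat_lit 474177) (nat_lit 50490) (nat_lit 251228),Row.mk (nat_lit 13608) (nat_lit 49929) (nat_lit 2709) (nat_lit 50303) (nat_lit 474229) (nat_lit 50490) (nat_lit 250754),Row.mk (nat_lit 13776) (nat_lit 49929) (nat_lit 3384) (nat_lit 50303) (nat_lit 474293) (nat_lit 50490) (nat_lit 250163),Row.mk (nat_lit 13944) (nat_lit 49929) (nat_lit 4226) (nat_lit 50303) (nat_lit 474373) (nat_lit 50490) (nat_lit 249424),Row.mk (nat_lit 14112) (nat_lit 49929) (nat_lit 5278) (nat_lit 50303) (nat_lit 474473)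 (nat_lit 50490) (nat_lit 248502),Row.mk (nat_lit 14280) (nat_lit 49929) (nat_lit 6593) (nat_lit 50303) (nat_lit 474597) (nat_lit 50490) (nat_lit 247349),Row.mk (nat_lit 14448) (nat_lit 49929) (nat_lit 8234) (nat_lit 50303) (nat_lit 474753) (nat_lit 50490) (nat_lit 245910),Row.mk (nat_lit 14616) (nat_lit 49929) (nat_lit 10285) (nat_lit 50303) (nat_lit 474948) (nat_lit 50490) (nat_lit 244113),Row.mk (nat_lit 14784) (nat_lit 49929) (nat_lit 12845) (nat_lit 50303) (nat_lit 475191) (nat_lit 50490) (nat_lit 241868),Row.mk (nat_lit 14952) (nat_lit 49929) (nat_lit 16044) (nat_lit 50303) (nat_lit 475494) (nat_lit 50490) (nat_lit 239064),Row.mk (nat_lit 15120) (nat_lit 49929) (nat_lit 20038) (nat_lit 50303) (nat_lit 475873) (nat_lit 50490) (nat_lit 235563),Row.mk (nat_lit 15288) (nat_lit 49929) (nat_lit 25028) (nat_lit 50303) (nat_lit 476347) (nat_lit 50490) (nat_lit 231189),Row.mk (nat_lit 15456) (nat_lit 49929) (nat_lit 31259) (nat_lit 50303)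 (nat_lit 476938) (nat_lit 50490) (nat_lit 225726),Row.mk (nat_lit 15624) (nat_lit 49929) (nat_lit 39042) (nat_lit 50303) (nat_lit 477677) (nat_lit 50490) (nat_lit 218903),Row.mk (nat_lit 15792) (nat_lit 49929) (nat_lit 48762) (nat_lit 50303) (nat_lit 478599) (nat_lit 50490) (nat_lit 210382),Row.mk (nat_lit 15960) (nat_lit 49929) (nat_lit 60903) (nat_lit 50303) (nat_lit 479752) (nat_lit 50490) (nat_lit 199739),Row.mk (nat_lit 16128) (nat_lit 49929) (nat_lit 76067) (nat_lit 50303) (nat_lit 481191) (nat_lit 50490) (nat_lit 186446),Row.mk (nat_lit 16296) (nat_lit 49929) (nat_lit 95006) (nat_lit 50303) (nat_lit 482988) (nat_lit 50490) (nat_lit 169843),Row.mk (nat_lit 16464) (nat_lit 49929) (nat_lit 118660) (nat_lit 50303) (nat_lit 485233) (nat_lit 50490) (nat_lit 149107),Row.mk (nat_lit 16632) (nat_lit 49929) (nat_lit 148203) (nat_lit 50303) (nat_lit 488037) (nat_lit 50490) (nat_lit 123208),Row.mk (nat_lit 16800) (nat_lit 49929) (nat_lit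 185103) (nat_lit 50303) (nat_lit 491538) (nat_lit 50490) (nat_lit 90860),Row.mk (nat_lit 16968) (nat_lit 49929) (nat_lit 231189) (nat_lit 50303) (nat_lit 495912) (nat_lit 50490) (nat_lit 50459),Row.mk (nat_lit 17136) (nat_lit 49929) (nat_lit 288749) (nat_lit 50303) (nat_lit 501375) (nat_lit 0) (nat_lit 0),Row.mk (nat_lit 17304) (nat_lit 49742) (nat_lit 78714) (nat_lit 49929) (nat_lit 281927) (nat_lit 50303) (nat_lit 445174),Row.mk (nat_lit 17472) (nat_lit 49742) (nat_lit 177027) (nat_lit 49929) (nat_lit 273405) (nat_lit 50303) (nat_lit 374981),Row.mk (nat_lit 17640) (nat_lit 49742) (nat_lit 299817) (nat_lit 49929) (nat_lit 262762) (nat_lit 50303) (nat_lit 287312),Row.mk (nat_lit 17808) (nat_lit 49742) (nat_lit 453178) (nat_lit 49929) (nat_lit 249469) (nat_lit 50303) (nat_lit 177815),Row.mk (nat_lit 17976) (nat_lit 49742) (nat_lit 644723) (nat_lit 49929) (nat_lit 232866) (nat_lit 50303) (nat_lit 41056),Row.mk (nat_lit 18144) (nat_lit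 49368) (nat_lit 162057) (nat_lit 49742) (nat_lit 721901) (nat_lit 49929) (nat_lit 82378),Row.mk (nat_lit 18312) (nat_lit 49181) (nat_lit 195910) (nat_lit 49368) (nat_lit 232598) (nat_lit 49742) (nat_lit 597391),Row.mk (nat_lit 18480) (nat_lit 49181) (nat_lit 569103) (nat_lit 49368) (nat_lit 192197) (nat_lit 49742) (nat_lit 338993),Row.mk (nat_lit 18648) (nat_lit 49181) (nat_lit 1035212) (nat_lit 49368) (nat_lit 141737) (nat_lit 49742) (nat_lit 16260),Row.mk (nat_lit 18816) (nat_lit 48620) (nat_lit 384822) (nat_lit 48807) (nat_lit 98312) (nat_lit 49181) (nat_lit 826125),Row.mk (nat_lit 18984) (nat_lit 48620) (nat_lit 1111924) (nat_lit 49181) (nat_lit 342279) (nat_lit 0) (nat_lit 0),Row.mk (nat_lit 19152) (nat_lit 47872) (nat_lit 327271) (nat_lit 48433) (nat_lit 153361) (nat_lit 48620) (nat_lit 1154601),Row.mk (nat_lit 19320) (nat_lit 47872) (nat_lit 1269962) (nat_lit 48433) (nat_lit 344906) (nat_lit 48620) (nat_lit 246468),Row.mk (nat_lit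 19488) (nat_lit 46937) (nat_lit 379221) (nat_lit 47685) (nat_lit 729579) (nat_lit 47872) (nat_lit 1034935),Row.mk (nat_lit 19656) (nat_lit 46750) (nat_lit 476732) (nat_lit 46937) (nat_lit 1298637) (nat_lit 47685) (nat_lit 721073),Row.mk (nat_lit 19824) (nat_lit 46002) (nat_lit 727102) (nat_lit 46750) (nat_lit 1959494) (nat_lit 46937) (nat_lit 250369),Row.mk (nat_lit 19992) (nat_lit 45815) (nat_lit 2447361) (nat_lit 46002) (nat_lit 312706) (nat_lit 46750) (nat_lit 727102),Row.mk (nat_lit 20160) (nat_lit 44693) (nat_lit 1404888) (nat_lit 45628) (nat_lit 743673) (nat_lit 45815) (nat_lit 2025797),Row.mk (nat_lit 20328) (nat_lit 44506) (nat_lit 1775369) (nat_lit 44693) (nat_lit 2518426) (nat_lit 45628) (nat_lit 738847),Row.mk (nat_lit 20496) (nat_lit 43197) (nat_lit 1309260) (nat_lit 43384) (nat_lit 935590) (nat_lit 44506) (nat_lit 3859768),Row.mk (nat_lit 20664) (nat_lit 43010) (nat_lit 727102) (nat_lit 43197) (nat_lit 5474070) (nat_lit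 44319) (nat_lit 1242318),Row.mk (nat_lit 20832) (nat_lit 41514) (nat_lit 2531440) (nat_lit 43010) (nat_lit 6584269) (nat_lit 0) (nat_lit 0),Row.mk (nat_lit 21000) (nat_lit 41327) (nat_lit 7631092) (nat_lit 42823) (nat_lit 2846076) (nat_lit 43010) (nat_lit 727102),Row.mk (nat_lit 21168) (nat_lit 39083) (nat_lit 234309) (nat_lit 41140) (nat_lit 11943288) (nat_lit 41327) (nat_lit 1635234),Row.mk (nat_lit 21336) (nat_lit 38896) (nat_lit 6100903) (nat_lit 40953) (nat_lit 8200490) (nat_lit 41140) (nat_lit 2769470),Row.mk (nat_lit 21504) (nat_lit 38709) (nat_lit 13428137) (nat_lit 40766) (nat_lit 3525825) (nat_lit 40953) (nat_lit 4186104),Row.mk (nat_lit 21672) (nat_lit 38522) (nat_lit 20266957) (nat_lit 38709) (nat_lit 2312718) (nat_lit 40766) (nat_lit 3642727),Row.mk (nat_lit 21840) (nat_lit 31790) (nat_lit 1798036) (nat_lit 38335) (nat_lit 22606771) (nat_lit 38522) (nat_lit 8165309),Row.mk (nat_lit 22008) (nat_lit 31603) (nat_lit 9726179)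 (nat_lit 38148) (nat_lit 19846704) (nat_lit 38335) (nat_lit 10925376),Row.mk (nat_lit 22176) (nat_lit 31416) (nat_lit 19628238) (nat_lit 37961) (nat_lit 16399447) (nat_lit 38148) (nat_lit 14372634),Row.mk (nat_lit 22344) (nat_lit 31229) (nat_lit 31995672) (nat_lit 37774) (nat_lit 12093906) (nat_lit 37961) (nat_lit 18678175),Row.mk (nat_lit 22512) (nat_lit 31042) (nat_lit 47442297) (nat_lit 37587) (nat_lit 6716389) (nat_lit 37774) (nat_lit 24055692),Row.mk (nat_lit 22680) (nat_lit 30855) (nat_lit 66734760) (nat_lit 37587) (nat_lit 30772081) (nat_lit 0) (nat_lit 0),Row.mk (nat_lit 22848) (nat_lit 30668) (nat_lit 82441973) (nat_lit 30855) (nat_lit 8388608) (nat_lit 37400) (nat_lit 30772081),Row.mk (nat_lit 23016) (nat_lit 30481) (nat_lit 102059902) (nat_lit 30668) (nat_lit 18865777) (nat_lit 37213) (nat_lit 30772081),Row.mk (nat_lit 23184) (nat_lit 30294) (nat_lit 126562223) (nat_lit 30481) (nat_lit 31951508) (nat_lit 37026) (nat_lit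 30772081),Row.mk (nat_lit 23352) (nat_lit 30107) (nat_lit 157165031) (nat_lit 30294) (nat_lit 48295271) (nat_lit 36839) (nat_lit 30772081),Row.mk (nat_lit 23520) (nat_lit 29920) (nat_lit 195387199) (nat_lit 30107) (nat_lit 68708236) (nat_lit 36652) (nat_lit 30772081),Row.mk (nat_lit 23688) (nat_lit 29733) (nat_lit 243125765) (nat_lit 29920) (nat_lit 94203538) (nat_lit 36465) (nat_lit 30772081),Row.mk (nat_lit 23856) (nat_lit 29546) (nat_lit 302750083) (nat_lit 29733) (nat_lit 126046554) (nat_lit 36278) (nat_lit 30772081),Row.mk (nat_lit 24024) (nat_lit 29359) (nat_lit 377219418) (nat_lit 29546) (nat_lit 165817713) (nat_lit 36091) (nat_lit 30772081),Row.mk (nat_lit 24192) (nat_lit 29172) (nat_lit 470229820) (nat_lit 29359) (nat_lit 215490932) (nat_lit 35904) (nat_lit 30772081),Row.mk (nat_lit 24360) (nat_lit 28985) (nat_lit 586397569) (nat_lit 29172) (nat_lit 277531584) (nat_lit 35717) (nat_lit 30772081),Row.mk (nat_lit 24528) (nat_lit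 28798) (nat_lit 731488284) (nat_lit 28985) (nat_lit 355018861) (nat_lit 35530) (nat_lit 30772081),Row.mk (nat_lit 24696) (nat_lit 28611) (nat_lit 912703088) (nat_lit 28798) (nat_lit 451798601) (nat_lit 35343) (nat_lit 30772081),Row.mk (nat_lit 24864) (nat_lit 28424) (nat_lit 1139036006) (nat_lit 28611) (nat_lit 572674162) (nat_lit 35156) (nat_lit 30772081),Row.mk (nat_lit 25032) (nat_lit 28237) (nat_lit 1421720361) (nat_lit 28424) (nat_lit 723644821) (nat_lit 34969) (nat_lit 30772081),Row.mk (nat_lit 25200) (nat_lit 28050) (nat_lit 1774786301) (nat_lit 28237) (nat_lit 912203533) (nat_lit 34782) (nat_lit 30772081),Row.mk (nat_lit 25368) (nat_lit 27863) (nat_lit 2215757143) (nat_lit 28050) (nat_lit 1147708815) (nat_lit 34595) (nat_lit 30772081),Row.mk (nat_lit 25536) (nat_lit 27676) (nat_lit 2766519086) (nat_lit 27863) (nat_lit 1441849230) (nat_lit 34408) (nat_lit 30772081),Row.mk (nat_lit 25704) (nat_lit 27489) (nat_lit 3454407467)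 (nat_lit 27676) (nat_lit 1809223514) (nat_lit 34221) (nat_lit 30772081),Row.mk (nat_lit 25872) (nat_lit 27302) (nat_lit 4313563460) (nat_lit 27489) (nat_lit 2268065132) (nat_lit 34034) (nat_lit 30772081),Row.mk (nat_lit 26040) (nat_lit 32912) (nat_lit 9115710) (nat_lit 62084) (nat_lit 8249432185) (nat_lit 0) (nat_lit 0),Row.mk (nat_lit 26208) (nat_lit 32912) (nat_lit 9115710) (nat_lit 62084) (nat_lit 10305430352) (nat_lit 0) (nat_lit 0),Row.mk (nat_lit 26376) (nat_lit 32912) (nat_lit 9115710) (nat_lit 62084) (nat_lit 12873322465) (nat_lit 0) (nat_lit 0),Row.mk (nat_lit 26544) (nat_lit 32912) (nat_lit 9115710) (nat_lit 62084) (nat_lit 16080557766) (nat_lit 0) (nat_lit 0),Row.mk (nat_lit 26712) (nat_lit 32912) (nat_lit 9115710) (nat_lit 62084) (nat_lit 20086317287) (nat_lit 0) (nat_lit 0),Row.mk (nat_lit 26880) (nat_lit 32912) (nat_lit 9115710) (nat_lit 62084) (nat_lit 25089414294) (nat_lit 0) (nat_lit 0),Row.mk (nat_lit 27048) (nat_lit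 32912) (nat_lit 9115710) (nat_lit 62084) (nat_lit 31338161762) (nat_lit 0) (nat_lit 0),Row.mk (nat_lit 27216) (nat_lit 32912) (nat_lit 9115710) (nat_lit 62084) (nat_lit 39142696606) (nat_lit 0) (nat_lit 0),Row.mk (nat_lit 27384) (nat_lit 32912) (nat_lit 9115710) (nat_lit 62084) (nat_lit 48890372351) (nat_lit 0) (nat_lit 0),Row.mk (nat_lit 27552) (nat_lit 32912) (nat_lit 9115710) (nat_lit 62084) (nat_lit 61064984206) (nat_lit 0) (nat_lit 0),Row.mk (nat_lit 27720) (nat_lit 32912) (nat_lit 9115710) (nat_lit 62084) (nat_lit 76270780715) (nat_lit 0) (nat_lit 0),Row.mk (nat_lit 27888) (nat_lit 32912) (nat_lit 9115710) (nat_lit 62084) (nat_lit 95262453733) (nat_lit 0) (nat_lit 0),Row.mk (nat_lit 28056) (nat_lit 32912) (nat_lit 9115710) (nat_lit 62084) (nat_lit 118982595181) (nat_lit 0) (nat_lit 0),Row.mk (nat_lit 28224) (nat_lit 32912) (nat_lit 9115710) (nat_lit 62084) (nat_lit 148608479629) (nat_lit 0) (nat_lit 0),Row.mk (nat_lit 28392)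 (nat_lit 32912) (nat_lit 9115710) (nat_lit 62084) (nat_lit 185610494615) (nat_lit 0) (nat_lit 0),Row.mk (nat_lit 28560) (nat_lit 32912) (nat_lit 9115710) (nat_lit 62084) (nat_lit 231825118704) (nat_lit 0) (nat_lit 0),Row.mk (nat_lit 28728) (nat_lit 32912) (nat_lit 9115710) (nat_lit 62084) (nat_lit 289546069319) (nat_lit 0) (nat_lit 0),Row.mk (nat_lit 28896) (nat_lit 32912) (nat_lit 9115710) (nat_lit 62084) (nat_lit 361638144187) (nat_lit 0) (nat_lit 0),Row.mk (nat_lit 29064) (nat_lit 32912) (nat_lit 9115710) (nat_lit 62084) (nat_lit 451679406563) (nat_lit 0) (nat_lit 0)],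
[Row.mk (nat_lit 6048) (nat_lit 49742) (nat_lit 513265) (nat_lit 49929) (nat_lit 394867) (nat_lit 0) (nat_lit 0),Row.mk (nat_lit 6216) (nat_lit 49742) (nat_lit 513265) (nat_lit 49929) (nat_lit 394867) (nat_lit 0) (nat_lit 0),Row.mk (nat_lit 6384) (nat_lit 49742) (nat_lit 513265) (nat_lit 49929) (nat_lit 394867) (nat_lit 0) (nat_lit 0),Row.mk (nat_lit 6552) (nat_lit 49742) (nat_lit 513265) (nat_lit 49929) (nat_lit 394867) (nat_lit 0) (nat_lit 0),Row.mk (nat_lit 6720) (nat_lit 49742) (nat_lit 513265) (nat_lit 49929) (nat_lit 394867) (nat_lit 0) (nat_lit 0),Row.mk (nat_lit 6888) (nat_lit 49742) (nat_lit 513265) (nat_lit 49929) (nat_lit 394867) (nat_lit 0) (nat_lit 0),Row.mk (nat_lit 7056) (nat_lit 49742) (nat_lit 513265) (nat_lit 49929) (nat_lit 394867) (nat_lit 0) (nat_lit 0),Row.mk (nat_lit 7224) (nat_lit 49742) (nat_lit 513265) (nat_lit 49929) (nat_lit 394867) (nat_lit 0) (nat_lit 0),Row.mk (nat_lit 7392) (nat_lit 49742) (nat_lit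 513265) (nat_lit 49929) (nat_lit 394867) (nat_lit 0) (nat_lit 0),Row.mk (nat_lit 7560) (nat_lit 49742) (nat_lit 513265) (nat_lit 49929) (nat_lit 394866) (nat_lit 0) (nat_lit 0),Row.mk (nat_lit 7728) (nat_lit 49368) (nat_lit 1) (nat_lit 49742) (nat_lit 513265) (nat_lit 49929) (nat_lit 394866),Row.mk (nat_lit 7896) (nat_lit 49368) (nat_lit 1) (nat_lit 49742) (nat_lit 513265) (nat_lit 49929) (nat_lit 394866),Row.mk (nat_lit 8064) (nat_lit 49368) (nat_lit 1) (nat_lit 49742) (nat_lit 513265) (nat_lit 49929) (nat_lit 394866),Row.mk (nat_lit 8232) (nat_lit 49368) (nat_lit 2) (nat_lit 49742) (nat_lit 513265) (nat_lit 49929) (nat_lit 394865),Row.mk (nat_lit 8400) (nat_lit 49368) (nat_lit 2) (nat_lit 49742) (nat_lit 513265) (nat_lit 49929) (nat_lit 394865),Row.mk (nat_lit 8568) (nat_lit 49368) (nat_lit 3) (nat_lit 49742) (nat_lit 513265) (nat_lit 49929) (nat_lit 394864),Row.mk (nat_lit 8736) (nat_lit 49368) (nat_lit 4) (nat_lit 49742) (nat_lit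 513265) (nat_lit 49929) (nat_lit 394863),Row.mk (nat_lit 8904) (nat_lit 49368) (nat_lit 5) (nat_lit 49742) (nat_lit 513265) (nat_lit 49929) (nat_lit 394863),Row.mk (nat_lit 9072) (nat_lit 49368) (nat_lit 6) (nat_lit 49742) (nat_lit 513265) (nat_lit 49929) (nat_lit 394861),Row.mk (nat_lit 9240) (nat_lit 49368) (nat_lit 8) (nat_lit 49742) (nat_lit 513266) (nat_lit 49929) (nat_lit 394860),Row.mk (nat_lit 9408) (nat_lit 49368) (nat_lit 10) (nat_lit 49742) (nat_lit 513266) (nat_lit 49929) (nat_lit 394858),Row.mk (nat_lit 9576) (nat_lit 49368) (nat_lit 12) (nat_lit 49742) (nat_lit 513266) (nat_lit 49929) (nat_lit 394856),Row.mk (nat_lit 9744) (nat_lit 49368) (nat_lit 15) (nat_lit 49742) (nat_lit 513267) (nat_lit 49929) (nat_lit 394853),Row.mk (nat_lit 9912) (nat_lit 49368) (nat_lit 19) (nat_lit 49742) (nat_lit 513267) (nat_lit 49929) (nat_lit 394849),Row.mk (nat_lit 10080) (nat_lit 49368) (nat_lit 24) (nat_lit 49742) (nat_lit 513268) (nat_lit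 49929) (nat_lit 394845),Row.mk (nat_lit 10248) (nat_lit 49368) (nat_lit 31) (nat_lit 49742) (nat_lit 513268) (nat_lit 49929) (nat_lit 394839),Row.mk (nat_lit 10416) (nat_lit 49368) (nat_lit 38) (nat_lit 49742) (nat_lit 513269) (nat_lit 49929) (nat_lit 394832),Row.mk (nat_lit 10584) (nat_lit 49368) (nat_lit 48) (nat_lit 49742) (nat_lit 513271) (nat_lit 49929) (nat_lit 394824),Row.mk (nat_lit 10752) (nat_lit 49368) (nat_lit 60) (nat_lit 49742) (nat_lit 513272) (nat_lit 49929) (nat_lit 394813),Row.mk (nat_lit 10920) (nat_lit 49368) (nat_lit 75) (nat_lit 49742) (nat_lit 513274) (nat_lit 49929) (nat_lit 394799),Row.mk (nat_lit 11088) (nat_lit 49368) (nat_lit 94) (nat_lit 49742) (nat_lit 513276) (nat_lit 49929) (nat_lit 394783),Row.mk (nat_lit 11256) (nat_lit 49368) (nat_lit 117) (nat_lit 49742) (nat_lit 513279) (nat_lit 49929) (nat_lit 394762),Row.mk (nat_lit 11424) (nat_lit 49368) (nat_lit 146) (nat_lit 49742) (nat_lit 513283) (nat_lit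 49929) (nat_lit 394735),Row.mk (nat_lit 11592) (nat_lit 49368) (nat_lit 183) (nat_lit 49742) (nat_lit 513287) (nat_lit 49929) (nat_lit 394702),Row.mk (nat_lit 11760) (nat_lit 49368) (nat_lit 229) (nat_lit 49742) (nat_lit 513292) (nat_lit 49929) (nat_lit 394661),Row.mk (nat_lit 11928) (nat_lit 49368) (nat_lit 286) (nat_lit 49742) (nat_lit 513299) (nat_lit 49929) (nat_lit 394610),Row.mk (nat_lit 12096) (nat_lit 49368) (nat_lit 357) (nat_lit 49742) (nat_lit 513308) (nat_lit 49929) (nat_lit 394546),Row.mk (nat_lit 12264) (nat_lit 49368) (nat_lit 446) (nat_lit 49742) (nat_lit 513319) (nat_lit 49929) (nat_lit 394466),Row.mk (nat_lit 12432) (nat_lit 49368) (nat_lit 557) (nat_lit 49742) (nat_lit 513332) (nat_lit 49929) (nat_lit 394366),Row.mk (nat_lit 12600) (nat_lit 49368) (nat_lit 696) (nat_lit 49742) (nat_lit 513349) (nat_lit 49929) (nat_lit 394241),Row.mk (nat_lit 12768) (nat_lit 49368) (nat_lit 870) (nat_lit 49742) (nat_lit 513370) (nat_lit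 49929) (nat_lit 394086),Row.mk (nat_lit 12936) (nat_lit 49368) (nat_lit 1087) (nat_lit 49742) (nat_lit 513397) (nat_lit 49929) (nat_lit 393891),Row.mk (nat_lit 13104) (nat_lit 49368) (nat_lit 1357) (nat_lit 49742) (nat_lit 513430) (nat_lit 49929) (nat_lit 393648),Row.mk (nat_lit 13272) (nat_lit 49368) (nat_lit 1695) (nat_lit 49742) (nat_lit 513471) (nat_lit 49929) (nat_lit 393345),Row.mk (nat_lit 13440) (nat_lit 49368) (nat_lit 2118) (nat_lit 49742) (nat_lit 513522) (nat_lit 49929) (nat_lit 392965),Row.mk (nat_lit 13608) (nat_lit 49368) (nat_lit 2645) (nat_lit 49742) (nat_lit 513586) (nat_lit 49929) (nat_lit 392492),Row.mk (nat_lit 13776) (nat_lit 49368) (nat_lit 3304) (nat_lit 49742) (nat_lit 513666) (nat_lit 49929) (nat_lit 391901),Row.mk (nat_lit 13944) (nat_lit 49368) (nat_lit 4126) (nat_lit 49742) (nat_lit 513766) (nat_lit 49929) (nat_lit 391162),Row.mk (nat_lit 14112) (nat_lit 49368) (nat_lit 5154) (nat_lit 49742) (nat_lit 513890)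 (nat_lit 49929) (nat_lit 390239),Row.mk (nat_lit 14280) (nat_lit 49368) (nat_lit 6437) (nat_lit 49742) (nat_lit 514046) (nat_lit 49929) (nat_lit 389087),Row.mk (nat_lit 14448) (nat_lit 49368) (nat_lit 8040) (nat_lit 49742) (nat_lit 514241) (nat_lit 49929) (nat_lit 387648),Row.mk (nat_lit 14616) (nat_lit 49368) (nat_lit 10042) (nat_lit 49742) (nat_lit 514484) (nat_lit 49929) (nat_lit 385851),Row.mk (nat_lit 14784) (nat_lit 49368) (nat_lit 12542) (nat_lit 49742) (nat_lit 514787) (nat_lit 49929) (nat_lit 383606),Row.mk (nat_lit 14952) (nat_lit 49368) (nat_lit 15665) (nat_lit 49742) (nat_lit 515166) (nat_lit 49929) (nat_lit 380802),Row.mk (nat_lit 15120) (nat_lit 49368) (nat_lit 19565) (nat_lit 49742) (nat_lit 515640) (nat_lit 49929) (nat_lit 377300),Row.mk (nat_lit 15288) (nat_lit 49368) (nat_lit 24436) (nat_lit 49742) (nat_lit 516231) (nat_lit 49929) (nat_lit 372927),Row.mk (nat_lit 15456) (nat_lit 49368) (nat_lit 30520) (nat_lit 49742)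 (nat_lit 516970) (nat_lit 49929) (nat_lit 367464),Row.mk (nat_lit 15624) (nat_lit 49368) (nat_lit 38119) (nat_lit 49742) (nat_lit 517892) (nat_lit 49929) (nat_lit 360641),Row.mk (nat_lit 15792) (nat_lit 49368) (nat_lit 47610) (nat_lit 49742) (nat_lit 519045) (nat_lit 49929) (nat_lit 352120),Row.mk (nat_lit 15960) (nat_lit 49368) (nat_lit 59464) (nat_lit 49742) (nat_lit 520484) (nat_lit 49929) (nat_lit 341477),Row.mk (nat_lit 16128) (nat_lit 49368) (nat_lit 74269) (nat_lit 49742) (nat_lit 522281) (nat_lit 49929) (nat_lit 328184),Row.mk (nat_lit 16296) (nat_lit 49368) (nat_lit 92761) (nat_lit 49742) (nat_lit 524526) (nat_lit 49929) (nat_lit 311581),Row.mk (nat_lit 16464) (nat_lit 49368) (nat_lit 115856) (nat_lit 49742) (nat_lit 527330) (nat_lit 49929) (nat_lit 290845),Row.mk (nat_lit 16632) (nat_lit 49368) (nat_lit 144702) (nat_lit 49742) (nat_lit 530832) (nat_lit 49929) (nat_lit 264946),Row.mk (nat_lit 16800) (nat_lit 49368) (nat_lit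 180729) (nat_lit 49742) (nat_lit 535205) (nat_lit 49929) (nat_lit 232598),Row.mk (nat_lit 16968) (nat_lit 49368) (nat_lit 225726) (nat_lit 49742) (nat_lit 540668) (nat_lit 49929) (nat_lit 192197),Row.mk (nat_lit 17136) (nat_lit 49368) (nat_lit 281927) (nat_lit 49742) (nat_lit 547491) (nat_lit 49929) (nat_lit 141737),Row.mk (nat_lit 17304) (nat_lit 49368) (nat_lit 352120) (nat_lit 49742) (nat_lit 556012) (nat_lit 49929) (nat_lit 78714),Row.mk (nat_lit 17472) (nat_lit 49368) (nat_lit 439789) (nat_lit 49742) (nat_lit 566655) (nat_lit 0) (nat_lit 0),Row.mk (nat_lit 17640) (nat_lit 49181) (nat_lit 122789) (nat_lit 49368) (nat_lit 426496) (nat_lit 49742) (nat_lit 481636),Row.mk (nat_lit 17808) (nat_lit 49181) (nat_lit 276151) (nat_lit 49368) (nat_lit 409894) (nat_lit 49742) (nat_lit 375448),Row.mk (nat_lit 17976) (nat_lit 49181) (nat_lit 467696) (nat_lit 49368) (nat_lit 389157) (nat_lit 49742) (nat_lit 242823),Row.mk (nat_lit 18144) (nat_lit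 49181) (nat_lit 706932) (nat_lit 49368) (nat_lit 363258) (nat_lit 49742) (nat_lit 77177),Row.mk (nat_lit 18312) (nat_lit 48807) (nat_lit 162005) (nat_lit 49181) (nat_lit 843725) (nat_lit 49368) (nat_lit 201200),Row.mk (nat_lit 18480) (nat_lit 48620) (nat_lit 121897) (nat_lit 48807) (nat_lit 362840) (nat_lit 49181) (nat_lit 796587),Row.mk (nat_lit 18648) (nat_lit 48620) (nat_lit 588006) (nat_lit 48807) (nat_lit 299817) (nat_lit 49181) (nat_lit 486418),Row.mk (nat_lit 18816) (nat_lit 48620) (nat_lit 1170165) (nat_lit 48807) (nat_lit 221102) (nat_lit 49181) (nat_lit 99023),Row.mk (nat_lit 18984) (nat_lit 47872) (nat_lit 327271) (nat_lit 48059) (nat_lit 153361) (nat_lit 48620) (nat_lit 1154601),Row.mk (nat_lit 19152) (nat_lit 47872) (nat_lit 1235404) (nat_lit 48620) (nat_lit 580861) (nat_lit 0) (nat_lit 0),Row.mk (nat_lit 19320) (nat_lit 46937) (nat_lit 169519) (nat_lit 47685) (nat_lit 239235) (nat_lit 47872) (nat_lit 1633614),Row.mk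 (nat_lit 19488) (nat_lit 46937) (nat_lit 1287353) (nat_lit 47685) (nat_lit 538034) (nat_lit 47872) (nat_lit 499378),Row.mk (nat_lit 19656) (nat_lit 46002) (nat_lit 7529) (nat_lit 46750) (nat_lit 1138100) (nat_lit 46937) (nat_lit 1531844),Row.mk (nat_lit 19824) (nat_lit 45815) (nat_lit 296627) (nat_lit 46002) (nat_lit 1338607) (nat_lit 46750) (nat_lit 1482762),Row.mk (nat_lit 19992) (nat_lit 45815) (nat_lit 3056694) (nat_lit 46002) (nat_lit 611505) (nat_lit 0) (nat_lit 0),Row.mk (nat_lit 20160) (nat_lit 44693) (nat_lit 2313021) (nat_lit 45628) (nat_lit 370480) (nat_lit 45815) (nat_lit 1671887),Row.mk (nat_lit 20328) (nat_lit 44506) (nat_lit 2217393) (nat_lit 44693) (nat_lit 2984535) (nat_lit 45628) (nat_lit 11745),Row.mk (nat_lit 20496) (nat_lit 43197) (nat_lit 1635234) (nat_lit 43384) (nat_lit 1517748) (nat_lit 44506) (nat_lit 3132666),Row.mk (nat_lit 20664) (nat_lit 43010) (nat_lit 908132) (nat_lit 43197) (nat_lit 6201172) (nat_lit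 44319) (nat_lit 515216),Row.mk (nat_lit 20832) (nat_lit 41514) (nat_lit 3439573) (nat_lit 43010) (nat_lit 5857167) (nat_lit 0) (nat_lit 0),Row.mk (nat_lit 21000) (nat_lit 41327) (nat_lit 8539225) (nat_lit 42823) (nat_lit 1937943) (nat_lit 43010) (nat_lit 908132),Row.mk (nat_lit 21168) (nat_lit 39083) (nat_lit 1142442) (nat_lit 41140) (nat_lit 10809052) (nat_lit 41327) (nat_lit 2042368),Row.mk (nat_lit 21336) (nat_lit 38896) (nat_lit 7009036) (nat_lit 40953) (nat_lit 6783856) (nat_lit 41140) (nat_lit 3459002),Row.mk (nat_lit 21504) (nat_lit 38709) (nat_lit 14336270) (nat_lit 40766) (nat_lit 1756484) (nat_lit 40953) (nat_lit 5228343),Row.mk (nat_lit 21672) (nat_lit 38522) (nat_lit 18965226) (nat_lit 38709) (nat_lit 4522582) (nat_lit 40766) (nat_lit 2915625),Row.mk (nat_lit 21840) (nat_lit 31790) (nat_lit 2706169) (nat_lit 38335) (nat_lit 19846704) (nat_lit 38522) (nat_lit 10198274),Row.mk (nat_lit 22008) (nat_lit 31603) (nat_lit 10634312)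 (nat_lit 38148) (nat_lit 16399447) (nat_lit 38335) (nat_lit 13645532),Row.mk (nat_lit 22176) (nat_lit 31416) (nat_lit 20536371) (nat_lit 37961) (nat_lit 12093906) (nat_lit 38148) (nat_lit 17951073),Row.mk (nat_lit 22344) (nat_lit 31229) (nat_lit 32903804) (nat_lit 37774) (nat_lit 6716389) (nat_lit 37961) (nat_lit 23328590),Row.mk (nat_lit 22512) (nat_lit 31042) (nat_lit 48350430) (nat_lit 37774) (nat_lit 30044979) (nat_lit 0) (nat_lit 0),Row.mk (nat_lit 22680) (nat_lit 30855) (nat_lit 59254285) (nat_lit 31042) (nat_lit 8388608) (nat_lit 37587) (nat_lit 30044979),Row.mk (nat_lit 22848) (nat_lit 30668) (nat_lit 72872936) (nat_lit 30855) (nat_lit 18865777) (nat_lit 37400) (nat_lit 30044979),Row.mk (nat_lit 23016) (nat_lit 30481) (nat_lit 89882304) (nat_lit 30668) (nat_lit 31951508) (nat_lit 37213) (nat_lit 30044979),Row.mk (nat_lit 23184) (nat_lit 30294) (nat_lit 111126593) (nat_lit 30481) (nat_lit 48295271) (nat_lit 37026) (nat_lit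 30044979),Row.mk (nat_lit 23352) (nat_lit 30107) (nat_lit 137660198) (nat_lit 30294) (nat_lit 68708236) (nat_lit 36839) (nat_lit 30044979),Row.mk (nat_lit 23520) (nat_lit 29920) (nat_lit 170800031) (nat_lit 30107) (nat_lit 94203538) (nat_lit 36652) (nat_lit 30044979),Row.mk (nat_lit 23688) (nat_lit 29733) (nat_lit 212190882) (nat_lit 29920) (nat_lit 126046554) (nat_lit 36465) (nat_lit 30044979),Row.mk (nat_lit 23856) (nat_lit 29546) (nat_lit 263887057) (nat_lit 29733) (nat_lit 165817713) (nat_lit 36278) (nat_lit 30044979),Row.mk (nat_lit 24024) (nat_lit 29359) (nat_lit 328454332) (nat_lit 29546) (nat_lit 215490932) (nat_lit 36091) (nat_lit 30044979),Row.mk (nat_lit 24192) (nat_lit 29172) (nat_lit 409097301) (nat_lit 29359) (nat_lit 277531584) (nat_lit 35904) (nat_lit 30044979),Row.mk (nat_lit 24360) (nat_lit 28985) (nat_lit 509818424) (nat_lit 29172) (nat_lit 355018861) (nat_lit 35717) (nat_lit 30044979),Row.mk (nat_lit 24528) (nat_lit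 28798) (nat_lit 635616677) (nat_lit 28985) (nat_lit 451798601) (nat_lit 35530) (nat_lit 30044979),Row.mk (nat_lit 24696) (nat_lit 28611) (nat_lit 792735660) (nat_lit 28798) (nat_lit 572674162) (nat_lit 35343) (nat_lit 30044979),Row.mk (nat_lit 24864) (nat_lit 28424) (nat_lit 988973480) (nat_lit 28611) (nat_lit 723644821) (nat_lit 35156) (nat_lit 30044979),Row.mk (nat_lit 25032) (nat_lit 28237) (nat_lit 1234069783) (nat_lit 28424) (nat_lit 912203533) (nat_lit 34969) (nat_lit 30044979),Row.mk (nat_lit 25200) (nat_lit 28050) (nat_lit 1540189152) (nat_lit 28237) (nat_lit 1147708815) (nat_lit 34782) (nat_lit 30044979),Row.mk (nat_lit 25368) (nat_lit 27863) (nat_lit 1922524860) (nat_lit 28050) (nat_lit 1441849230) (nat_lit 34595) (nat_lit 30044979),Row.mk (nat_lit 25536) (nat_lit 27676) (nat_lit 2400052935) (nat_lit 27863) (nat_lit 1809223514) (nat_lit 34408) (nat_lit 30044979),Row.mk (nat_lit 25704) (nat_lit 27489) (nat_lit 2996473982)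 (nat_lit 27676) (nat_lit 2268065132) (nat_lit 34221) (nat_lit 30044979),Row.mk (nat_lit 25872) (nat_lit 27302) (nat_lit 3741389481) (nat_lit 27489) (nat_lit 2841147243) (nat_lit 34034) (nat_lit 30044979),Row.mk (nat_lit 26040) (nat_lit 32912) (nat_lit 9296740) (nat_lit 62084) (nat_lit 8249432185) (nat_lit 0) (nat_lit 0),Row.mk (nat_lit 26208) (nat_lit 32912) (nat_lit 9296740) (nat_lit 62084) (nat_lit 10305430352) (nat_lit 0) (nat_lit 0),Row.mk (nat_lit 26376) (nat_lit 32912) (nat_lit 9296740) (nat_lit 62084) (nat_lit 12873322465) (nat_lit 0) (nat_lit 0),Row.mk (nat_lit 26544) (nat_lit 32912) (nat_lit 9296740) (nat_lit 62084) (nat_lit 16080557766) (nat_lit 0) (nat_lit 0),Row.mk (nat_lit 26712) (nat_lit 32912) (nat_lit 9296740) (nat_lit 62084) (nat_lit 20086317287) (nat_lit 0) (nat_lit 0),Row.mk (nat_lit 26880) (nat_lit 32912) (nat_lit 9296740) (nat_lit 62084) (nat_lit 25089414294) (nat_lit 0) (nat_lit 0),Row.mk (nat_lit 27048) (nat_lit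 32912) (nat_lit 9296740) (nat_lit 62084) (nat_lit 31338161762) (nat_lit 0) (nat_lit 0),Row.mk (nat_lit 27216) (nat_lit 32912) (nat_lit 9296740) (nat_lit 62084) (nat_lit 39142696606) (nat_lit 0) (nat_lit 0),Row.mk (nat_lit 27384) (nat_lit 32912) (nat_lit 9296740) (nat_lit 62084) (nat_lit 48890372351) (nat_lit 0) (nat_lit 0),Row.mk (nat_lit 27552) (nat_lit 32912) (nat_lit 9296740) (nat_lit 62084) (nat_lit 61064984206) (nat_lit 0) (nat_lit 0),Row.mk (nat_lit 27720) (nat_lit 32912) (nat_lit 9296740) (nat_lit 62084) (nat_lit 76270780715) (nat_lit 0) (nat_lit 0),Row.mk (nat_lit 27888) (nat_lit 32912) (nat_lit 9296740) (nat_lit 62084) (nat_lit 95262453733) (nat_lit 0) (nat_lit 0),Row.mk (nat_lit 28056) (nat_lit 32912) (nat_lit 9296740) (nat_lit 62084) (nat_lit 118982595181) (nat_lit 0) (nat_lit 0),Row.mk (nat_lit 28224) (nat_lit 32912) (nat_lit 9296740) (nat_lit 62084) (nat_lit 148608479629) (nat_lit 0) (nat_lit 0),Row.mk (nat_lit 28392)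 (nat_lit 32912) (nat_lit 9296740) (nat_lit 62084) (nat_lit 185610494615) (nat_lit 0) (nat_lit 0),Row.mk (nat_lit 28560) (nat_lit 32912) (nat_lit 9296740) (nat_lit 62084) (nat_lit 231825118704) (nat_lit 0) (nat_lit 0),Row.mk (nat_lit 28728) (nat_lit 32912) (nat_lit 9296740) (nat_lit 62084) (nat_lit 289546069319) (nat_lit 0) (nat_lit 0),Row.mk (nat_lit 28896) (nat_lit 32912) (nat_lit 9296740) (nat_lit 62084) (nat_lit 361638144187) (nat_lit 0) (nat_lit 0),Row.mk (nat_lit 29064) (nat_lit 32912) (nat_lit 9296740) (nat_lit 62084) (nat_lit 451679406563) (nat_lit 0) (nat_lit 0),Row.mk (nat_lit 29232) (nat_lit 32912) (nat_lit 9296740) (nat_lit 62084) (nat_lit 564138771133) (nat_lit 0) (nat_lit 0)],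
[Row.mk (nat_lit 6048) (nat_lit 49181) (nat_lit 518265) (nat_lit 49368) (nat_lit 615970) (nat_lit 0) (nat_lit 0),Row.mk (nat_lit 6216) (nat_lit 49181) (nat_lit 518265) (nat_lit 49368) (nat_lit 615970) (nat_lit 0) (nat_lit 0),Row.mk (nat_lit 6384) (nat_lit 49181) (nat_lit 518265) (nat_lit 49368) (nat_lit 615970) (nat_lit 0) (nat_lit 0),Row.mk (nat_lit 6552) (nat_lit 49181) (nat_lit 518265) (nat_lit 49368) (nat_lit 615970) (nat_lit 0) (nat_lit 0),Row.mk (nat_lit 6720) (nat_lit 49181) (nat_lit 518265) (nat_lit 49368) (nat_lit 615969) (nat_lit 0) (nat_lit 0),Row.mk (nat_lit 6888) (nat_lit 49181) (nat_lit 518265) (nat_lit 49368) (nat_lit 615969) (nat_lit 0) (nat_lit 0),Row.mk (nat_lit 7056) (nat_lit 49181) (nat_lit 518265) (nat_lit 49368) (nat_lit 615969) (nat_lit 0) (nat_lit 0),Row.mk (nat_lit 7224) (nat_lit 49181) (nat_lit 518265) (nat_lit 49368) (nat_lit 615969) (nat_lit 0) (nat_lit 0),Row.mk (nat_lit 7392) (nat_lit 49181) (nat_lit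 518265) (nat_lit 49368) (nat_lit 615969) (nat_lit 0) (nat_lit 0),Row.mk (nat_lit 7560) (nat_lit 49181) (nat_lit 518265) (nat_lit 49368) (nat_lit 615969) (nat_lit 0) (nat_lit 0),Row.mk (nat_lit 7728) (nat_lit 48807) (nat_lit 1) (nat_lit 49181) (nat_lit 518265) (nat_lit 49368) (nat_lit 615969),Row.mk (nat_lit 7896) (nat_lit 48807) (nat_lit 1) (nat_lit 49181) (nat_lit 518266) (nat_lit 49368) (nat_lit 615968),Row.mk (nat_lit 8064) (nat_lit 48807) (nat_lit 1) (nat_lit 49181) (nat_lit 518266) (nat_lit 49368) (nat_lit 615968),Row.mk (nat_lit 8232) (nat_lit 48807) (nat_lit 2) (nat_lit 49181) (nat_lit 518266) (nat_lit 49368) (nat_lit 615968),Row.mk (nat_lit 8400) (nat_lit 48807) (nat_lit 2) (nat_lit 49181) (nat_lit 518266) (nat_lit 49368) (nat_lit 615967),Row.mk (nat_lit 8568) (nat_lit 48807) (nat_lit 3) (nat_lit 49181) (nat_lit 518266) (nat_lit 49368) (nat_lit 615967),Row.mk (nat_lit 8736) (nat_lit 48807) (nat_lit 4) (nat_lit 49181) (nat_lit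 518266) (nat_lit 49368) (nat_lit 615966),Row.mk (nat_lit 8904) (nat_lit 48807) (nat_lit 5) (nat_lit 49181) (nat_lit 518266) (nat_lit 49368) (nat_lit 615965),Row.mk (nat_lit 9072) (nat_lit 48807) (nat_lit 6) (nat_lit 49181) (nat_lit 518266) (nat_lit 49368) (nat_lit 615964),Row.mk (nat_lit 9240) (nat_lit 48807) (nat_lit 7) (nat_lit 49181) (nat_lit 518267) (nat_lit 49368) (nat_lit 615962),Row.mk (nat_lit 9408) (nat_lit 48807) (nat_lit 9) (nat_lit 49181) (nat_lit 518267) (nat_lit 49368) (nat_lit 615961),Row.mk (nat_lit 9576) (nat_lit 48807) (nat_lit 12) (nat_lit 49181) (nat_lit 518267) (nat_lit 49368) (nat_lit 615958),Row.mk (nat_lit 9744) (nat_lit 48807) (nat_lit 15) (nat_lit 49181) (nat_lit 518268) (nat_lit 49368) (nat_lit 615955),Row.mk (nat_lit 9912) (nat_lit 48807) (nat_lit 19) (nat_lit 49181) (nat_lit 518268) (nat_lit 49368) (nat_lit 615952),Row.mk (nat_lit 10080) (nat_lit 48807) (nat_lit 24) (nat_lit 49181) (nat_lit 518269) (nat_lit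 49368) (nat_lit 615947),Row.mk (nat_lit 10248) (nat_lit 48807) (nat_lit 30) (nat_lit 49181) (nat_lit 518270) (nat_lit 49368) (nat_lit 615942),Row.mk (nat_lit 10416) (nat_lit 48807) (nat_lit 37) (nat_lit 49181) (nat_lit 518271) (nat_lit 49368) (nat_lit 615935),Row.mk (nat_lit 10584) (nat_lit 48807) (nat_lit 46) (nat_lit 49181) (nat_lit 518273) (nat_lit 49368) (nat_lit 615926),Row.mk (nat_lit 10752) (nat_lit 48807) (nat_lit 58) (nat_lit 49181) (nat_lit 518274) (nat_lit 49368) (nat_lit 615916),Row.mk (nat_lit 10920) (nat_lit 48807) (nat_lit 73) (nat_lit 49181) (nat_lit 518277) (nat_lit 49368) (nat_lit 615902),Row.mk (nat_lit 11088) (nat_lit 48807) (nat_lit 91) (nat_lit 49181) (nat_lit 518280) (nat_lit 49368) (nat_lit 615885),Row.mk (nat_lit 11256) (nat_lit 48807) (nat_lit 114) (nat_lit 49181) (nat_lit 518283) (nat_lit 49368) (nat_lit 615864),Row.mk (nat_lit 11424) (nat_lit 48807) (nat_lit 142) (nat_lit 49181) (nat_lit 518288) (nat_lit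 49368) (nat_lit 615838),Row.mk (nat_lit 11592) (nat_lit 48807) (nat_lit 178) (nat_lit 49181) (nat_lit 518293) (nat_lit 49368) (nat_lit 615805),Row.mk (nat_lit 11760) (nat_lit 48807) (nat_lit 222) (nat_lit 49181) (nat_lit 518300) (nat_lit 49368) (nat_lit 615764),Row.mk (nat_lit 11928) (nat_lit 48807) (nat_lit 277) (nat_lit 49181) (nat_lit 518309) (nat_lit 49368) (nat_lit 615713),Row.mk (nat_lit 12096) (nat_lit 48807) (nat_lit 346) (nat_lit 49181) (nat_lit 518320) (nat_lit 49368) (nat_lit 615649),Row.mk (nat_lit 12264) (nat_lit 48807) (nat_lit 433) (nat_lit 49181) (nat_lit 518333) (nat_lit 49368) (nat_lit 615569),Row.mk (nat_lit 12432) (nat_lit 48807) (nat_lit 541) (nat_lit 49181) (nat_lit 518350) (nat_lit 49368) (nat_lit 615469),Row.mk (nat_lit 12600) (nat_lit 48807) (nat_lit 675) (nat_lit 49181) (nat_lit 518371) (nat_lit 49368) (nat_lit 615344),Row.mk (nat_lit 12768) (nat_lit 48807) (nat_lit 844) (nat_lit 49181) (nat_lit 518397) (nat_lit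 49368) (nat_lit 615188),Row.mk (nat_lit 12936) (nat_lit 48807) (nat_lit 1054) (nat_lit 49181) (nat_lit 518430) (nat_lit 49368) (nat_lit 614994),Row.mk (nat_lit 13104) (nat_lit 48807) (nat_lit 1316) (nat_lit 49181) (nat_lit 518471) (nat_lit 49368) (nat_lit 614751),Row.mk (nat_lit 13272) (nat_lit 48807) (nat_lit 1644) (nat_lit 49181) (nat_lit 518522) (nat_lit 49368) (nat_lit 614447),Row.mk (nat_lit 13440) (nat_lit 48807) (nat_lit 2054) (nat_lit 49181) (nat_lit 518586) (nat_lit 49368) (nat_lit 614068),Row.mk (nat_lit 13608) (nat_lit 48807) (nat_lit 2565) (nat_lit 49181) (nat_lit 518666) (nat_lit 49368) (nat_lit 613594),Row.mk (nat_lit 13776) (nat_lit 48807) (nat_lit 3204) (nat_lit 49181) (nat_lit 518766) (nat_lit 49368) (nat_lit 613003),Row.mk (nat_lit 13944) (nat_lit 48807) (nat_lit 4002) (nat_lit 49181) (nat_lit 518891) (nat_lit 49368) (nat_lit 612264),Row.mk (nat_lit 14112) (nat_lit 48807) (nat_lit 4998) (nat_lit 49181) (nat_lit 519047)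 (nat_lit 49368) (nat_lit 611342),Row.mk (nat_lit 14280) (nat_lit 48807) (nat_lit 6242) (nat_lit 49181) (nat_lit 519241) (nat_lit 49368) (nat_lit 610190),Row.mk (nat_lit 14448) (nat_lit 48807) (nat_lit 7797) (nat_lit 49181) (nat_lit 519484) (nat_lit 49368) (nat_lit 608751),Row.mk (nat_lit 14616) (nat_lit 48807) (nat_lit 9738) (nat_lit 49181) (nat_lit 519788) (nat_lit 49368) (nat_lit 606953),Row.mk (nat_lit 14784) (nat_lit 48807) (nat_lit 12163) (nat_lit 49181) (nat_lit 520167) (nat_lit 49368) (nat_lit 604708),Row.mk (nat_lit 14952) (nat_lit 48807) (nat_lit 15191) (nat_lit 49181) (nat_lit 520641) (nat_lit 49368) (nat_lit 601905),Row.mk (nat_lit 15120) (nat_lit 48807) (nat_lit 18973) (nat_lit 49181) (nat_lit 521232) (nat_lit 49368) (nat_lit 598403),Row.mk (nat_lit 15288) (nat_lit 48807) (nat_lit 23698) (nat_lit 49181) (nat_lit 521971) (nat_lit 49368) (nat_lit 594029),Row.mk (nat_lit 15456) (nat_lit 48807) (nat_lit 29598) (nat_lit 49181)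 (nat_lit 522893) (nat_lit 49368) (nat_lit 588566),Row.mk (nat_lit 15624) (nat_lit 48807) (nat_lit 36967) (nat_lit 49181) (nat_lit 524045) (nat_lit 49368) (nat_lit 581744),Row.mk (nat_lit 15792) (nat_lit 48807) (nat_lit 46171) (nat_lit 49181) (nat_lit 525484) (nat_lit 49368) (nat_lit 573222),Row.mk (nat_lit 15960) (nat_lit 48807) (nat_lit 57667) (nat_lit 49181) (nat_lit 527282) (nat_lit 49368) (nat_lit 562579),Row.mk (nat_lit 16128) (nat_lit 48807) (nat_lit 72024) (nat_lit 49181) (nat_lit 529527) (nat_lit 49368) (nat_lit 549286),Row.mk (nat_lit 16296) (nat_lit 48807) (nat_lit 89957) (nat_lit 49181) (nat_lit 532330) (nat_lit 49368) (nat_lit 532683),Row.mk (nat_lit 16464) (nat_lit 48807) (nat_lit 112354) (nat_lit 49181) (nat_lit 535832) (nat_lit 49368) (nat_lit 511947),Row.mk (nat_lit 16632) (nat_lit 48807) (nat_lit 140328) (nat_lit 49181) (nat_lit 540206) (nat_lit 49368) (nat_lit 486048),Row.mk (nat_lit 16800) (nat_lit 48807) (nat_lit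 175266) (nat_lit 49181) (nat_lit 545669) (nat_lit 49368) (nat_lit 453701),Row.mk (nat_lit 16968) (nat_lit 48807) (nat_lit 218903) (nat_lit 49181) (nat_lit 552491) (nat_lit 49368) (nat_lit 413300),Row.mk (nat_lit 17136) (nat_lit 48807) (nat_lit 273405) (nat_lit 49181) (nat_lit 561013) (nat_lit 49368) (nat_lit 362840),Row.mk (nat_lit 17304) (nat_lit 48807) (nat_lit 341477) (nat_lit 49181) (nat_lit 571656) (nat_lit 49368) (nat_lit 299817),Row.mk (nat_lit 17472) (nat_lit 48807) (nat_lit 426496) (nat_lit 49181) (nat_lit 584949) (nat_lit 49368) (nat_lit 221102),Row.mk (nat_lit 17640) (nat_lit 48807) (nat_lit 532683) (nat_lit 49181) (nat_lit 601552) (nat_lit 49368) (nat_lit 122789),Row.mk (nat_lit 17808) (nat_lit 48807) (nat_lit 665309) (nat_lit 49181) (nat_lit 622288) (nat_lit 0) (nat_lit 0),Row.mk (nat_lit 17976) (nat_lit 48620) (nat_lit 191545) (nat_lit 48807) (nat_lit 639410) (nat_lit 49181) (nat_lit 494825),Row.mk (nat_lit 18144) (nat_lit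 48620) (nat_lit 430780) (nat_lit 48807) (nat_lit 607063) (nat_lit 49181) (nat_lit 335627),Row.mk (nat_lit 18312) (nat_lit 48620) (nat_lit 729579) (nat_lit 48807) (nat_lit 566661) (nat_lit 49181) (nat_lit 136793),Row.mk (nat_lit 18480) (nat_lit 48059) (nat_lit 139317) (nat_lit 48620) (nat_lit 963454) (nat_lit 48807) (nat_lit 404656),Row.mk (nat_lit 18648) (nat_lit 48059) (nat_lit 526711) (nat_lit 48620) (nat_lit 1042169) (nat_lit 48807) (nat_lit 31463),Row.mk (nat_lit 18816) (nat_lit 47872) (nat_lit 542860) (nat_lit 48059) (nat_lit 467696) (nat_lit 48620) (nat_lit 705837),Row.mk (nat_lit 18984) (nat_lit 47872) (nat_lit 1269962) (nat_lit 48059) (nat_lit 344906) (nat_lit 48620) (nat_lit 246468),Row.mk (nat_lit 19152) (nat_lit 46937) (nat_lit 169519) (nat_lit 47124) (nat_lit 239235) (nat_lit 47872) (nat_lit 1633614),Row.mk (nat_lit 19320) (nat_lit 46937) (nat_lit 1303755) (nat_lit 47872) (nat_lit 964716) (nat_lit 0) (nat_lit 0),Row.mk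 (nat_lit 19488) (nat_lit 46750) (nat_lit 211725) (nat_lit 46937) (nat_lit 2209864) (nat_lit 47685) (nat_lit 129279),Row.mk (nat_lit 19656) (nat_lit 46002) (nat_lit 1141765) (nat_lit 46750) (nat_lit 839301) (nat_lit 46937) (nat_lit 922510),Row.mk (nat_lit 19824) (nat_lit 45815) (nat_lit 1057671) (nat_lit 46002) (nat_lit 1711799) (nat_lit 46750) (nat_lit 574629),Row.mk (nat_lit 19992) (nat_lit 44880) (nat_lit 1134236) (nat_lit 45815) (nat_lit 2683502) (nat_lit 46002) (nat_lit 76564),Row.mk (nat_lit 20160) (nat_lit 44693) (nat_lit 3351629) (nat_lit 44880) (nat_lit 95627) (nat_lit 45815) (nat_lit 1134236),Row.mk (nat_lit 20328) (nat_lit 43384) (nat_lit 1119566) (nat_lit 44506) (nat_lit 1649904) (nat_lit 44693) (nat_lit 2670306),Row.mk (nat_lit 20496) (nat_lit 43197) (nat_lit 2042368) (nat_lit 43384) (nat_lit 2244850) (nat_lit 44506) (nat_lit 2224533),Row.mk (nat_lit 20664) (nat_lit 41514) (nat_lit 490742) (nat_lit 43010) (nat_lit 643493)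 (nat_lit 43197) (nat_lit 6716389),Row.mk (nat_lit 20832) (nat_lit 41514) (nat_lit 4573809) (nat_lit 43010) (nat_lit 4949034) (nat_lit 0) (nat_lit 0),Row.mk (nat_lit 21000) (nat_lit 41327) (nat_lit 9673461) (nat_lit 42823) (nat_lit 803707) (nat_lit 43010) (nat_lit 1134236),Row.mk (nat_lit 21168) (nat_lit 39083) (nat_lit 2276678) (nat_lit 41140) (nat_lit 9392419) (nat_lit 41327) (nat_lit 2550869),Row.mk (nat_lit 21336) (nat_lit 38896) (nat_lit 8143272) (nat_lit 40953) (nat_lit 5014515) (nat_lit 41140) (nat_lit 4320210),Row.mk (nat_lit 21504) (nat_lit 38709) (nat_lit 15017126) (nat_lit 38896) (nat_lit 453380) (nat_lit 40953) (nat_lit 6076694),Row.mk (nat_lit 21672) (nat_lit 38522) (nat_lit 17339395) (nat_lit 38709) (nat_lit 7282649) (nat_lit 40766) (nat_lit 2007492),Row.mk (nat_lit 21840) (nat_lit 31790) (nat_lit 3840405) (nat_lit 38335) (nat_lit 16399447) (nat_lit 38522) (nat_lit 12737399),Row.mk (nat_lit 22008) (nat_lit 31603) (nat_lit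 11768548) (nat_lit 38148) (nat_lit 12093906) (nat_lit 38335) (nat_lit 17042940),Row.mk (nat_lit 22176) (nat_lit 31416) (nat_lit 21670607) (nat_lit 37961) (nat_lit 6716389) (nat_lit 38148) (nat_lit 22420457),Row.mk (nat_lit 22344) (nat_lit 31229) (nat_lit 34038041) (nat_lit 37961) (nat_lit 29136846) (nat_lit 0) (nat_lit 0),Row.mk (nat_lit 22512) (nat_lit 31042) (nat_lit 41096058) (nat_lit 31229) (nat_lit 8388608) (nat_lit 37774) (nat_lit 29136846),Row.mk (nat_lit 22680) (nat_lit 30855) (nat_lit 49911352) (nat_lit 31042) (nat_lit 18865777) (nat_lit 37587) (nat_lit 29136846),Row.mk (nat_lit 22848) (nat_lit 30668) (nat_lit 60921441) (nat_lit 30855) (nat_lit 31951508) (nat_lit 37400) (nat_lit 29136846),Row.mk (nat_lit 23016) (nat_lit 30481) (nat_lit 74672777) (nat_lit 30668) (nat_lit 48295271) (nat_lit 37213) (nat_lit 29136846),Row.mk (nat_lit 23184) (nat_lit 30294) (nat_lit 91847864) (nat_lit 30481) (nat_lit 68708236) (nat_lit 37026)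 (nat_lit 29136846),Row.mk (nat_lit 23352) (nat_lit 30107) (nat_lit 113299133) (nat_lit 30294) (nat_lit 94203538) (nat_lit 36839) (nat_lit 29136846),Row.mk (nat_lit 23520) (nat_lit 29920) (nat_lit 140091250) (nat_lit 30107) (nat_lit 126046554) (nat_lit 36652) (nat_lit 29136846),Row.mk (nat_lit 23688) (nat_lit 29733) (nat_lit 173553959) (nat_lit 29920) (nat_lit 165817713) (nat_lit 36465) (nat_lit 29136846),Row.mk (nat_lit 23856) (nat_lit 29546) (nat_lit 215348074) (nat_lit 29733) (nat_lit 215490932) (nat_lit 36278) (nat_lit 29136846),Row.mk (nat_lit 24024) (nat_lit 29359) (nat_lit 267547916) (nat_lit 29546) (nat_lit 277531584) (nat_lit 36091) (nat_lit 29136846),Row.mk (nat_lit 24192) (nat_lit 29172) (nat_lit 332744260) (nat_lit 29359) (nat_lit 355018861) (nat_lit 35904) (nat_lit 29136846),Row.mk (nat_lit 24360) (nat_lit 28985) (nat_lit 414172920) (nat_lit 29172) (nat_lit 451798601) (nat_lit 35717) (nat_lit 29136846),Row.mk (nat_lit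 24528) (nat_lit 28798) (nat_lit 515875352) (nat_lit 28985) (nat_lit 572674162) (nat_lit 35530) (nat_lit 29136846),Row.mk (nat_lit 24696) (nat_lit 28611) (nat_lit 642899237) (nat_lit 28798) (nat_lit 723644821) (nat_lit 35343) (nat_lit 29136846),Row.mk (nat_lit 24864) (nat_lit 28424) (nat_lit 801549004) (nat_lit 28611) (nat_lit 912203533) (nat_lit 35156) (nat_lit 29136846),Row.mk (nat_lit 25032) (nat_lit 28237) (nat_lit 999698737) (nat_lit 28424) (nat_lit 1147708815) (nat_lit 34969) (nat_lit 29136846),Row.mk (nat_lit 25200) (nat_lit 28050) (nat_lit 1247182972) (nat_lit 28237) (nat_lit 1441849230) (nat_lit 34782) (nat_lit 29136846),Row.mk (nat_lit 25368) (nat_lit 27863) (nat_lit 1556284812) (nat_lit 28050) (nat_lit 1809223514) (nat_lit 34595) (nat_lit 29136846),Row.mk (nat_lit 25536) (nat_lit 27676) (nat_lit 1942345554) (nat_lit 27863) (nat_lit 2268065132) (nat_lit 34408) (nat_lit 29136846),Row.mk (nat_lit 25704) (nat_lit 27489) (nat_lit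 2424526106) (nat_lit 27676) (nat_lit 2841147243) (nat_lit 34221) (nat_lit 29136846),Row.mk (nat_lit 25872) (nat_lit 27302) (nat_lit 3026757985) (nat_lit 27489) (nat_lit 3556912976) (nat_lit 34034) (nat_lit 29136846),Row.mk (nat_lit 26040) (nat_lit 32912) (nat_lit 9522844) (nat_lit 62084) (nat_lit 8249432185) (nat_lit 0) (nat_lit 0),Row.mk (nat_lit 26208) (nat_lit 32912) (nat_lit 9522844) (nat_lit 62084) (nat_lit 10305430352) (nat_lit 0) (nat_lit 0),Row.mk (nat_lit 26376) (nat_lit 32912) (nat_lit 9522844) (nat_lit 62084) (nat_lit 12873322465) (nat_lit 0) (nat_lit 0),Row.mk (nat_lit 26544) (nat_lit 32912) (nat_lit 9522844) (nat_lit 62084) (nat_lit 16080557766) (nat_lit 0) (nat_lit 0),Row.mk (nat_lit 26712) (nat_lit 32912) (nat_lit 9522844) (nat_lit 62084) (nat_lit 20086317287) (nat_lit 0) (nat_lit 0),Row.mk (nat_lit 26880) (nat_lit 32912) (nat_lit 9522844) (nat_lit 62084) (nat_lit 25089414294) (nat_lit 0) (nat_lit 0),Row.mk (nat_lit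 27048) (nat_lit 32912) (nat_lit 9522844) (nat_lit 62084) (nat_lit 31338161762) (nat_lit 0) (nat_lit 0),Row.mk (nat_lit 27216) (nat_lit 32912) (nat_lit 9522844) (nat_lit 62084) (nat_lit 39142696606) (nat_lit 0) (nat_lit 0),Row.mk (nat_lit 27384) (nat_lit 32912) (nat_lit 9522844) (nat_lit 62084) (nat_lit 48890372351) (nat_lit 0) (nat_lit 0),Row.mk (nat_lit 27552) (nat_lit 32912) (nat_lit 9522844) (nat_lit 62084) (nat_lit 61064984206) (nat_lit 0) (nat_lit 0),Row.mk (nat_lit 27720) (nat_lit 32912) (nat_lit 9522844) (nat_lit 62084) (nat_lit 76270780715) (nat_lit 0) (nat_lit 0),Row.mk (nat_lit 27888) (nat_lit 32912) (nat_lit 9522844) (nat_lit 62084) (nat_lit 95262453733) (nat_lit 0) (nat_lit 0),Row.mk (nat_lit 28056) (nat_lit 32912) (nat_lit 9522844) (nat_lit 62084) (nat_lit 118982595181) (nat_lit 0) (nat_lit 0),Row.mk (nat_lit 28224) (nat_lit 32912) (nat_lit 9522844) (nat_lit 62084) (nat_lit 148608479629) (nat_lit 0) (nat_lit 0),Row.mk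 (nat_lit 28392) (nat_lit 32912) (nat_lit 9522844) (nat_lit 62084) (nat_lit 185610494615) (nat_lit 0) (nat_lit 0),Row.mk (nat_lit 28560) (nat_lit 32912) (nat_lit 9522844) (nat_lit 62084) (nat_lit 231825118704) (nat_lit 0) (nat_lit 0),Row.mk (nat_lit 28728) (nat_lit 32912) (nat_lit 9522844) (nat_lit 62084) (nat_lit 289546069319) (nat_lit 0) (nat_lit 0),Row.mk (nat_lit 28896) (nat_lit 32912) (nat_lit 9522844) (nat_lit 62084) (nat_lit 361638144187) (nat_lit 0) (nat_lit 0),Row.mk (nat_lit 29064) (nat_lit 32912) (nat_lit 9522844) (nat_lit 62084) (nat_lit 451679406563) (nat_lit 0) (nat_lit 0),Row.mk (nat_lit 29232) (nat_lit 32912) (nat_lit 9522844) (nat_lit 62084) (nat_lit 564138771133) (nat_lit 0) (nat_lit 0),Row.mk (nat_lit 29400) (nat_lit 32912) (nat_lit 9522844) (nat_lit 62084) (nat_lit 704597804532) (nat_lit 0) (nat_lit 0)],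
[Row.mk (nat_lit 6048) (nat_lit 48620) (nat_lit 455756) (nat_lit 48807) (nat_lit 960876) (nat_lit 0) (nat_lit 0),Row.mk (nat_lit 6216) (nat_lit 48620) (nat_lit 455756) (nat_lit 48807) (nat_lit 960876) (nat_lit 0) (nat_lit 0),Row.mk (nat_lit 6384) (nat_lit 48620) (nat_lit 455756) (nat_lit 48807) (nat_lit 960876) (nat_lit 0) (nat_lit 0),Row.mk (nat_lit 6552) (nat_lit 48620) (nat_lit 455756) (nat_lit 48807) (nat_lit 960876) (nat_lit 0) (nat_lit 0),Row.mk (nat_lit 6720) (nat_lit 48620) (nat_lit 455756) (nat_lit 48807) (nat_lit 960876) (nat_lit 0) (nat_lit 0),Row.mk (nat_lit 6888) (nat_lit 48620) (nat_lit 455756) (nat_lit 48807) (nat_lit 960876) (nat_lit 0) (nat_lit 0),Row.mk (nat_lit 7056) (nat_lit 48620) (nat_lit 455756) (nat_lit 48807) (nat_lit 960876) (nat_lit 0) (nat_lit 0),Row.mk (nat_lit 7224) (nat_lit 48620) (nat_lit 455756) (nat_lit 48807) (nat_lit 960876) (nat_lit 0) (nat_lit 0),Row.mk (nat_lit 7392) (nat_lit 48620) (nat_lit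 455756) (nat_lit 48807) (nat_lit 960876) (nat_lit 0) (nat_lit 0),Row.mk (nat_lit 7560) (nat_lit 48620) (nat_lit 455756) (nat_lit 48807) (nat_lit 960876) (nat_lit 0) (nat_lit 0),Row.mk (nat_lit 7728) (nat_lit 48059) (nat_lit 1) (nat_lit 48620) (nat_lit 455756) (nat_lit 48807) (nat_lit 960876),Row.mk (nat_lit 7896) (nat_lit 48059) (nat_lit 1) (nat_lit 48620) (nat_lit 455756) (nat_lit 48807) (nat_lit 960875),Row.mk (nat_lit 8064) (nat_lit 48059) (nat_lit 1) (nat_lit 48620) (nat_lit 455756) (nat_lit 48807) (nat_lit 960875),Row.mk (nat_lit 8232) (nat_lit 48059) (nat_lit 2) (nat_lit 48620) (nat_lit 455756) (nat_lit 48807) (nat_lit 960875),Row.mk (nat_lit 8400) (nat_lit 48059) (nat_lit 2) (nat_lit 48620) (nat_lit 455756) (nat_lit 48807) (nat_lit 960874),Row.mk (nat_lit 8568) (nat_lit 48059) (nat_lit 3) (nat_lit 48620) (nat_lit 455757) (nat_lit 48807) (nat_lit 960874),Row.mk (nat_lit 8736) (nat_lit 48059) (nat_lit 3) (nat_lit 48620) (nat_lit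 455757) (nat_lit 48807) (nat_lit 960873),Row.mk (nat_lit 8904) (nat_lit 48059) (nat_lit 4) (nat_lit 48620) (nat_lit 455757) (nat_lit 48807) (nat_lit 960872),Row.mk (nat_lit 9072) (nat_lit 48059) (nat_lit 6) (nat_lit 48620) (nat_lit 455757) (nat_lit 48807) (nat_lit 960871),Row.mk (nat_lit 9240) (nat_lit 48059) (nat_lit 7) (nat_lit 48620) (nat_lit 455757) (nat_lit 48807) (nat_lit 960869),Row.mk (nat_lit 9408) (nat_lit 48059) (nat_lit 9) (nat_lit 48620) (nat_lit 455758) (nat_lit 48807) (nat_lit 960867),Row.mk (nat_lit 9576) (nat_lit 48059) (nat_lit 11) (nat_lit 48620) (nat_lit 455758) (nat_lit 48807) (nat_lit 960865),Row.mk (nat_lit 9744) (nat_lit 48059) (nat_lit 14) (nat_lit 48620) (nat_lit 455759) (nat_lit 48807) (nat_lit 960862),Row.mk (nat_lit 9912) (nat_lit 48059) (nat_lit 18) (nat_lit 48620) (nat_lit 455760) (nat_lit 48807) (nat_lit 960859),Row.mk (nat_lit 10080) (nat_lit 48059) (nat_lit 23) (nat_lit 48620) (nat_lit 455761) (nat_lit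 48807) (nat_lit 960854),Row.mk (nat_lit 10248) (nat_lit 48059) (nat_lit 28) (nat_lit 48620) (nat_lit 455762) (nat_lit 48807) (nat_lit 960849),Row.mk (nat_lit 10416) (nat_lit 48059) (nat_lit 36) (nat_lit 48620) (nat_lit 455763) (nat_lit 48807) (nat_lit 960842),Row.mk (nat_lit 10584) (nat_lit 48059) (nat_lit 45) (nat_lit 48620) (nat_lit 455765) (nat_lit 48807) (nat_lit 960833),Row.mk (nat_lit 10752) (nat_lit 48059) (nat_lit 56) (nat_lit 48620) (nat_lit 455767) (nat_lit 48807) (nat_lit 960822),Row.mk (nat_lit 10920) (nat_lit 48059) (nat_lit 70) (nat_lit 48620) (nat_lit 455770) (nat_lit 48807) (nat_lit 960809),Row.mk (nat_lit 11088) (nat_lit 48059) (nat_lit 87) (nat_lit 48620) (nat_lit 455774) (nat_lit 48807) (nat_lit 960792),Row.mk (nat_lit 11256) (nat_lit 48059) (nat_lit 109) (nat_lit 48620) (nat_lit 455778) (nat_lit 48807) (nat_lit 960771),Row.mk (nat_lit 11424) (nat_lit 48059) (nat_lit 137) (nat_lit 48620) (nat_lit 455784) (nat_lit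 48807) (nat_lit 960745),Row.mk (nat_lit 11592) (nat_lit 48059) (nat_lit 171) (nat_lit 48620) (nat_lit 455791) (nat_lit 48807) (nat_lit 960712),Row.mk (nat_lit 11760) (nat_lit 48059) (nat_lit 213) (nat_lit 48620) (nat_lit 455799) (nat_lit 48807) (nat_lit 960671),Row.mk (nat_lit 11928) (nat_lit 48059) (nat_lit 266) (nat_lit 48620) (nat_lit 455810) (nat_lit 48807) (nat_lit 960619),Row.mk (nat_lit 12096) (nat_lit 48059) (nat_lit 333) (nat_lit 48620) (nat_lit 455824) (nat_lit 48807) (nat_lit 960555),Row.mk (nat_lit 12264) (nat_lit 48059) (nat_lit 416) (nat_lit 48620) (nat_lit 455841) (nat_lit 48807) (nat_lit 960475),Row.mk (nat_lit 12432) (nat_lit 48059) (nat_lit 520) (nat_lit 48620) (nat_lit 455862) (nat_lit 48807) (nat_lit 960376),Row.mk (nat_lit 12600) (nat_lit 48059) (nat_lit 649) (nat_lit 48620) (nat_lit 455888) (nat_lit 48807) (nat_lit 960251),Row.mk (nat_lit 12768) (nat_lit 48059) (nat_lit 811) (nat_lit 48620) (nat_lit 455921) (nat_lit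 48807) (nat_lit 960095),Row.mk (nat_lit 12936) (nat_lit 48059) (nat_lit 1013) (nat_lit 48620) (nat_lit 455962) (nat_lit 48807) (nat_lit 959900),Row.mk (nat_lit 13104) (nat_lit 48059) (nat_lit 1265) (nat_lit 48620) (nat_lit 456013) (nat_lit 48807) (nat_lit 959657),Row.mk (nat_lit 13272) (nat_lit 48059) (nat_lit 1580) (nat_lit 48620) (nat_lit 456077) (nat_lit 48807) (nat_lit 959354),Row.mk (nat_lit 13440) (nat_lit 48059) (nat_lit 1974) (nat_lit 48620) (nat_lit 456157) (nat_lit 48807) (nat_lit 958975),Row.mk (nat_lit 13608) (nat_lit 48059) (nat_lit 2465) (nat_lit 48620) (nat_lit 456257) (nat_lit 48807) (nat_lit 958501),Row.mk (nat_lit 13776) (nat_lit 48059) (nat_lit 3079) (nat_lit 48620) (nat_lit 456382) (nat_lit 48807) (nat_lit 957910),Row.mk (nat_lit 13944) (nat_lit 48059) (nat_lit 3846) (nat_lit 48620) (nat_lit 456537) (nat_lit 48807) (nat_lit 957171),Row.mk (nat_lit 14112) (nat_lit 48059) (nat_lit 4803) (nat_lit 48620) (nat_lit 456732)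 (nat_lit 48807) (nat_lit 956249),Row.mk (nat_lit 14280) (nat_lit 48059) (nat_lit 5999) (nat_lit 48620) (nat_lit 456975) (nat_lit 48807) (nat_lit 955097),Row.mk (nat_lit 14448) (nat_lit 48059) (nat_lit 7493) (nat_lit 48620) (nat_lit 457279) (nat_lit 48807) (nat_lit 953658),Row.mk (nat_lit 14616) (nat_lit 48059) (nat_lit 9359) (nat_lit 48620) (nat_lit 457658) (nat_lit 48807) (nat_lit 951860),Row.mk (nat_lit 14784) (nat_lit 48059) (nat_lit 11689) (nat_lit 48620) (nat_lit 458131) (nat_lit 48807) (nat_lit 949615),Row.mk (nat_lit 14952) (nat_lit 48059) (nat_lit 14600) (nat_lit 48620) (nat_lit 458723) (nat_lit 48807) (nat_lit 946812),Row.mk (nat_lit 15120) (nat_lit 48059) (nat_lit 18235) (nat_lit 48620) (nat_lit 459461) (nat_lit 48807) (nat_lit 943310),Row.mk (nat_lit 15288) (nat_lit 48059) (nat_lit 22775) (nat_lit 48620) (nat_lit 460384) (nat_lit 48807) (nat_lit 938936),Row.mk (nat_lit 15456) (nat_lit 48059) (nat_lit 28446) (nat_lit 48620)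 (nat_lit 461536) (nat_lit 48807) (nat_lit 933473),Row.mk (nat_lit 15624) (nat_lit 48059) (nat_lit 35528) (nat_lit 48620) (nat_lit 462975) (nat_lit 48807) (nat_lit 926650),Row.mk (nat_lit 15792) (nat_lit 48059) (nat_lit 44374) (nat_lit 48620) (nat_lit 464772) (nat_lit 48807) (nat_lit 918129),Row.mk (nat_lit 15960) (nat_lit 48059) (nat_lit 55422) (nat_lit 48620) (nat_lit 467017) (nat_lit 48807) (nat_lit 907486),Row.mk (nat_lit 16128) (nat_lit 48059) (nat_lit 69221) (nat_lit 48620) (nat_lit 469821) (nat_lit 48807) (nat_lit 894193),Row.mk (nat_lit 16296) (nat_lit 48059) (nat_lit 86455) (nat_lit 48620) (nat_lit 473323) (nat_lit 48807) (nat_lit 877590),Row.mk (nat_lit 16464) (nat_lit 48059) (nat_lit 107980) (nat_lit 48620) (nat_lit 477697) (nat_lit 48807) (nat_lit 856854),Row.mk (nat_lit 16632) (nat_lit 48059) (nat_lit 134865) (nat_lit 48620) (nat_lit 483159) (nat_lit 48807) (nat_lit 830955),Row.mk (nat_lit 16800) (nat_lit 48059) (nat_lit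 168443) (nat_lit 48620) (nat_lit 489982) (nat_lit 48807) (nat_lit 798608),Row.mk (nat_lit 16968) (nat_lit 48059) (nat_lit 210382) (nat_lit 48620) (nat_lit 498503) (nat_lit 48807) (nat_lit 758207),Row.mk (nat_lit 17136) (nat_lit 48059) (nat_lit 262762) (nat_lit 48620) (nat_lit 509147) (nat_lit 48807) (nat_lit 707747),Row.mk (nat_lit 17304) (nat_lit 48059) (nat_lit 328184) (nat_lit 48620) (nat_lit 522440) (nat_lit 48807) (nat_lit 644723),Row.mk (nat_lit 17472) (nat_lit 48059) (nat_lit 409894) (nat_lit 48620) (nat_lit 539042) (nat_lit 48807) (nat_lit 566009),Row.mk (nat_lit 17640) (nat_lit 48059) (nat_lit 511947) (nat_lit 48620) (nat_lit 559778) (nat_lit 48807) (nat_lit 467696),Row.mk (nat_lit 17808) (nat_lit 48059) (nat_lit 639410) (nat_lit 48620) (nat_lit 585678) (nat_lit 48807) (nat_lit 344906),Row.mk (nat_lit 17976) (nat_lit 48059) (nat_lit 798608) (nat_lit 48620) (nat_lit 618025) (nat_lit 48807) (nat_lit 191545),Row.mk (nat_lit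 18144) (nat_lit 48059) (nat_lit 997442) (nat_lit 48620) (nat_lit 658426) (nat_lit 0) (nat_lit 0),Row.mk (nat_lit 18312) (nat_lit 47872) (nat_lit 298799) (nat_lit 48059) (nat_lit 946982) (nat_lit 48620) (nat_lit 469651),Row.mk (nat_lit 18480) (nat_lit 47872) (nat_lit 671991) (nat_lit 48059) (nat_lit 883959) (nat_lit 48620) (nat_lit 233875),Row.mk (nat_lit 18648) (nat_lit 47124) (nat_lit 75691) (nat_lit 47872) (nat_lit 1062409) (nat_lit 48059) (nat_lit 744641),Row.mk (nat_lit 18816) (nat_lit 47124) (nat_lit 535060) (nat_lit 47872) (nat_lit 1185198) (nat_lit 48059) (nat_lit 278532),Row.mk (nat_lit 18984) (nat_lit 46937) (nat_lit 379221) (nat_lit 47124) (nat_lit 729579) (nat_lit 47872) (nat_lit 1034935),Row.mk (nat_lit 19152) (nat_lit 46937) (nat_lit 1287353) (nat_lit 47124) (nat_lit 538034) (nat_lit 47872) (nat_lit 499378),Row.mk (nat_lit 19320) (nat_lit 46189) (nat_lit 211725) (nat_lit 46937) (nat_lit 2209864) (nat_lit 47124) (nat_lit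 129279),Row.mk (nat_lit 19488) (nat_lit 46002) (nat_lit 1255166) (nat_lit 46937) (nat_lit 1578100) (nat_lit 0) (nat_lit 0),Row.mk (nat_lit 19656) (nat_lit 46002) (nat_lit 2558398) (nat_lit 46750) (nat_lit 466108) (nat_lit 46937) (nat_lit 161467),Row.mk (nat_lit 19824) (nat_lit 44880) (nat_lit 698935) (nat_lit 45815) (nat_lit 1309260) (nat_lit 46002) (nat_lit 1618301),Row.mk (nat_lit 19992) (nat_lit 44693) (nat_lit 738847) (nat_lit 44880) (nat_lit 1812022) (nat_lit 45815) (nat_lit 1625831),Row.mk (nat_lit 20160) (nat_lit 44693) (nat_lit 4186104) (nat_lit 44880) (nat_lit 677786) (nat_lit 0) (nat_lit 0),Row.mk (nat_lit 20328) (nat_lit 43384) (nat_lit 2536200) (nat_lit 44506) (nat_lit 922802) (nat_lit 44693) (nat_lit 2263172),Row.mk (nat_lit 20496) (nat_lit 43197) (nat_lit 2550869) (nat_lit 43384) (nat_lit 3152983) (nat_lit 44506) (nat_lit 1090297),Row.mk (nat_lit 20664) (nat_lit 41514) (nat_lit 1416633) (nat_lit 41701) (nat_lit 490742)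 (nat_lit 43197) (nat_lit 6225646),Row.mk (nat_lit 20832) (nat_lit 41514) (nat_lit 5990443) (nat_lit 43010) (nat_lit 3814798) (nat_lit 0) (nat_lit 0),Row.mk (nat_lit 21000) (nat_lit 41327) (nat_lit 10477169) (nat_lit 41514) (nat_lit 612926) (nat_lit 43010) (nat_lit 803707),Row.mk (nat_lit 21168) (nat_lit 39083) (nat_lit 3693312) (nat_lit 41140) (nat_lit 7623078) (nat_lit 41327) (nat_lit 3185974),Row.mk (nat_lit 21336) (nat_lit 38896) (nat_lit 9559906) (nat_lit 40953) (nat_lit 2804651) (nat_lit 41140) (nat_lit 5395838),Row.mk (nat_lit 21504) (nat_lit 38709) (nat_lit 13673693) (nat_lit 38896) (nat_lit 3213447) (nat_lit 40953) (nat_lit 4942458),Row.mk (nat_lit 21672) (nat_lit 38522) (nat_lit 15308771) (nat_lit 38709) (nat_lit 10729907) (nat_lit 40766) (nat_lit 873256),Row.mk (nat_lit 21840) (nat_lit 31790) (nat_lit 5257039) (nat_lit 38335) (nat_lit 12093906) (nat_lit 38522) (nat_lit 15908704),Row.mk (nat_lit 22008) (nat_lit 31603) (nat_lit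 13185182) (nat_lit 38148) (nat_lit 6716389) (nat_lit 38335) (nat_lit 21286221),Row.mk (nat_lit 22176) (nat_lit 31416) (nat_lit 23087241) (nat_lit 38148) (nat_lit 28002610) (nat_lit 0) (nat_lit 0),Row.mk (nat_lit 22344) (nat_lit 31229) (nat_lit 27066066) (nat_lit 31416) (nat_lit 8388608) (nat_lit 37961) (nat_lit 28002610),Row.mk (nat_lit 22512) (nat_lit 31042) (nat_lit 32035523) (nat_lit 31229) (nat_lit 18865777) (nat_lit 37774) (nat_lit 28002610),Row.mk (nat_lit 22680) (nat_lit 30855) (nat_lit 38242254) (nat_lit 31042) (nat_lit 31951508) (nat_lit 37587) (nat_lit 28002610),Row.mk (nat_lit 22848) (nat_lit 30668) (nat_lit 45994312) (nat_lit 30855) (nat_lit 48295271) (nat_lit 37400) (nat_lit 28002610),Row.mk (nat_lit 23016) (nat_lit 30481) (nat_lit 55676445) (nat_lit 30668) (nat_lit 68708236) (nat_lit 37213) (nat_lit 28002610),Row.mk (nat_lit 23184) (nat_lit 30294) (nat_lit 67769196) (nat_lit 30481) (nat_lit 94203538) (nat_lit 37026)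 (nat_lit 28002610),Row.mk (nat_lit 23352) (nat_lit 30107) (nat_lit 82872750) (nat_lit 30294) (nat_lit 126046554) (nat_lit 36839) (nat_lit 28002610),Row.mk (nat_lit 23520) (nat_lit 29920) (nat_lit 101736724) (nat_lit 30107) (nat_lit 165817713) (nat_lit 36652) (nat_lit 28002610),Row.mk (nat_lit 23688) (nat_lit 29733) (nat_lit 125297373) (nat_lit 29920) (nat_lit 215490932) (nat_lit 36465) (nat_lit 28002610),Row.mk (nat_lit 23856) (nat_lit 29546) (nat_lit 154724056) (nat_lit 29733) (nat_lit 277531584) (nat_lit 36278) (nat_lit 28002610),Row.mk (nat_lit 24024) (nat_lit 29359) (nat_lit 191477272) (nat_lit 29546) (nat_lit 355018861) (nat_lit 36091) (nat_lit 28002610),Row.mk (nat_lit 24192) (nat_lit 29172) (nat_lit 237381153) (nat_lit 29359) (nat_lit 451798601) (nat_lit 35904) (nat_lit 28002610),Row.mk (nat_lit 24360) (nat_lit 28985) (nat_lit 294713993) (nat_lit 29172) (nat_lit 572674162) (nat_lit 35717) (nat_lit 28002610),Row.mk (nat_lit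 24528) (nat_lit 28798) (nat_lit 366321327) (nat_lit 28985) (nat_lit 723644821) (nat_lit 35530) (nat_lit 28002610),Row.mk (nat_lit 24696) (nat_lit 28611) (nat_lit 455757159) (nat_lit 28798) (nat_lit 912203533) (nat_lit 35343) (nat_lit 28002610),Row.mk (nat_lit 24864) (nat_lit 28424) (nat_lit 567460356) (nat_lit 28611) (nat_lit 1147708815) (nat_lit 35156) (nat_lit 28002610),Row.mk (nat_lit 25032) (nat_lit 28237) (nat_lit 706974954) (nat_lit 28424) (nat_lit 1441849230) (nat_lit 34969) (nat_lit 28002610),Row.mk (nat_lit 25200) (nat_lit 28050) (nat_lit 881225322) (nat_lit 28237) (nat_lit 1809223514) (nat_lit 34782) (nat_lit 28002610),Row.mk (nat_lit 25368) (nat_lit 27863) (nat_lit 1098859828) (nat_lit 28050) (nat_lit 2268065132) (nat_lit 34595) (nat_lit 28002610),Row.mk (nat_lit 25536) (nat_lit 27676) (nat_lit 1370680076) (nat_lit 27863) (nat_lit 2841147243) (nat_lit 34408) (nat_lit 28002610),Row.mk (nat_lit 25704) (nat_lit 27489) (nat_lit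 1710177007) (nat_lit 27676) (nat_lit 3556912976) (nat_lit 34221) (nat_lit 28002610),Row.mk (nat_lit 25872) (nat_lit 27302) (nat_lit 2134200485) (nat_lit 27489) (nat_lit 4450887109) (nat_lit 34034) (nat_lit 28002610),Row.mk (nat_lit 26040) (nat_lit 32912) (nat_lit 9805241) (nat_lit 62084) (nat_lit 8249432185) (nat_lit 0) (nat_lit 0),Row.mk (nat_lit 26208) (nat_lit 32912) (nat_lit 9805241) (nat_lit 62084) (nat_lit 10305430352) (nat_lit 0) (nat_lit 0),Row.mk (nat_lit 26376) (nat_lit 32912) (nat_lit 9805241) (nat_lit 62084) (nat_lit 12873322465) (nat_lit 0) (nat_lit 0),Row.mk (nat_lit 26544) (nat_lit 32912) (nat_lit 9805241) (nat_lit 62084) (nat_lit 16080557766) (nat_lit 0) (nat_lit 0),Row.mk (nat_lit 26712) (nat_lit 32912) (nat_lit 9805241) (nat_lit 62084) (nat_lit 20086317287) (nat_lit 0) (nat_lit 0),Row.mk (nat_lit 26880) (nat_lit 32912) (nat_lit 9805241) (nat_lit 62084) (nat_lit 25089414294) (nat_lit 0) (nat_lit 0),Row.mk (nat_lit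 27048) (nat_lit 32912) (nat_lit 9805241) (nat_lit 62084) (nat_lit 31338161762) (nat_lit 0) (nat_lit 0),Row.mk (nat_lit 27216) (nat_lit 32912) (nat_lit 9805241) (nat_lit 62084) (nat_lit 39142696606) (nat_lit 0) (nat_lit 0),Row.mk (nat_lit 27384) (nat_lit 32912) (nat_lit 9805241) (nat_lit 62084) (nat_lit 48890372351) (nat_lit 0) (nat_lit 0),Row.mk (nat_lit 27552) (nat_lit 32912) (nat_lit 9805241) (nat_lit 62084) (nat_lit 61064984206) (nat_lit 0) (nat_lit 0),Row.mk (nat_lit 27720) (nat_lit 32912) (nat_lit 9805241) (nat_lit 62084) (nat_lit 76270780715) (nat_lit 0) (nat_lit 0),Row.mk (nat_lit 27888) (nat_lit 32912) (nat_lit 9805241) (nat_lit 62084) (nat_lit 95262453733) (nat_lit 0) (nat_lit 0),Row.mk (nat_lit 28056) (nat_lit 32912) (nat_lit 9805241) (nat_lit 62084) (nat_lit 118982595181) (nat_lit 0) (nat_lit 0),Row.mk (nat_lit 28224) (nat_lit 32912) (nat_lit 9805241) (nat_lit 62084) (nat_lit 148608479629) (nat_lit 0) (nat_lit 0),Row.mk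 (nat_lit 28392) (nat_lit 32912) (nat_lit 9805241) (nat_lit 62084) (nat_lit 185610494615) (nat_lit 0) (nat_lit 0),Row.mk (nat_lit 28560) (nat_lit 32912) (nat_lit 9805241) (nat_lit 62084) (nat_lit 231825118704) (nat_lit 0) (nat_lit 0),Row.mk (nat_lit 28728) (nat_lit 32912) (nat_lit 9805241) (nat_lit 62084) (nat_lit 289546069319) (nat_lit 0) (nat_lit 0),Row.mk (nat_lit 28896) (nat_lit 32912) (nat_lit 9805241) (nat_lit 62084) (nat_lit 361638144187) (nat_lit 0) (nat_lit 0),Row.mk (nat_lit 29064) (nat_lit 32912) (nat_lit 9805241) (nat_lit 62084) (nat_lit 451679406563) (nat_lit 0) (nat_lit 0),Row.mk (nat_lit 29232) (nat_lit 32912) (nat_lit 9805241) (nat_lit 62084) (nat_lit 564138771133) (nat_lit 0) (nat_lit 0),Row.mk (nat_lit 29400) (nat_lit 32912) (nat_lit 9805241) (nat_lit 62084) (nat_lit 704597804532) (nat_lit 0) (nat_lit 0),Row.mk (nat_lit 29568) (nat_lit 32912) (nat_lit 9805241) (nat_lit 62084) (nat_lit 880027748841) (nat_lit 0) (nat_lit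 0)],
[Row.mk (nat_lit 5880) (nat_lit 47872) (nat_lit 270429) (nat_lit 48059) (nat_lit 1498911) (nat_lit 0) (nat_lit 0),Row.mk (nat_lit 6048) (nat_lit 47872) (nat_lit 270429) (nat_lit 48059) (nat_lit 1498911) (nat_lit 0) (nat_lit 0),Row.mk (nat_lit 6216) (nat_lit 47872) (nat_lit 270429) (nat_lit 48059) (nat_lit 1498911) (nat_lit 0) (nat_lit 0),Row.mk (nat_lit 6384) (nat_lit 47872) (nat_lit 270429) (nat_lit 48059) (nat_lit 1498911) (nat_lit 0) (nat_lit 0),Row.mk (nat_lit 6552) (nat_lit 47872) (nat_lit 270429) (nat_lit 48059) (nat_lit 1498911) (nat_lit 0) (nat_lit 0),Row.mk (nat_lit 6720) (nat_lit 47872) (nat_lit 270429) (nat_lit 48059) (nat_lit 1498911) (nat_lit 0) (nat_lit 0),Row.mk (nat_lit 6888) (nat_lit 47872) (nat_lit 270429) (nat_lit 48059) (nat_lit 1498910) (nat_lit 0) (nat_lit 0),Row.mk (nat_lit 7056) (nat_lit 47872) (nat_lit 270429) (nat_lit 48059) (nat_lit 1498910) (nat_lit 0) (nat_lit 0),Row.mk (nat_lit 7224) (nat_lit 47872)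 (nat_lit 270429) (nat_lit 48059) (nat_lit 1498910) (nat_lit 0) (nat_lit 0),Row.mk (nat_lit 7392) (nat_lit 47872) (nat_lit 270429) (nat_lit 48059) (nat_lit 1498910) (nat_lit 0) (nat_lit 0),Row.mk (nat_lit 7560) (nat_lit 47872) (nat_lit 270429) (nat_lit 48059) (nat_lit 1498910) (nat_lit 0) (nat_lit 0),Row.mk (nat_lit 7728) (nat_lit 47872) (nat_lit 270430) (nat_lit 48059) (nat_lit 1498910) (nat_lit 0) (nat_lit 0),Row.mk (nat_lit 7896) (nat_lit 47124) (nat_lit 1) (nat_lit 47872) (nat_lit 270430) (nat_lit 48059) (nat_lit 1498910),Row.mk (nat_lit 8064) (nat_lit 47124) (nat_lit 1) (nat_lit 47872) (nat_lit 270430) (nat_lit 48059) (nat_lit 1498909),Row.mk (nat_lit 8232) (nat_lit 47124) (nat_lit 1) (nat_lit 47872) (nat_lit 270430) (nat_lit 48059) (nat_lit 1498909),Row.mk (nat_lit 8400) (nat_lit 47124) (nat_lit 2) (nat_lit 47872) (nat_lit 270430) (nat_lit 48059) (nat_lit 1498908),Row.mk (nat_lit 8568) (nat_lit 47124) (nat_lit 2) (nat_lit 47872)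 (nat_lit 270430) (nat_lit 48059) (nat_lit 1498908),Row.mk (nat_lit 8736) (nat_lit 47124) (nat_lit 3) (nat_lit 47872) (nat_lit 270430) (nat_lit 48059) (nat_lit 1498907),Row.mk (nat_lit 8904) (nat_lit 47124) (nat_lit 4) (nat_lit 47872) (nat_lit 270430) (nat_lit 48059) (nat_lit 1498906),Row.mk (nat_lit 9072) (nat_lit 47124) (nat_lit 5) (nat_lit 47872) (nat_lit 270431) (nat_lit 48059) (nat_lit 1498905),Row.mk (nat_lit 9240) (nat_lit 47124) (nat_lit 7) (nat_lit 47872) (nat_lit 270431) (nat_lit 48059) (nat_lit 1498903),Row.mk (nat_lit 9408) (nat_lit 47124) (nat_lit 9) (nat_lit 47872) (nat_lit 270432) (nat_lit 48059) (nat_lit 1498902),Row.mk (nat_lit 9576) (nat_lit 47124) (nat_lit 11) (nat_lit 47872) (nat_lit 270432) (nat_lit 48059) (nat_lit 1498899),Row.mk (nat_lit 9744) (nat_lit 47124) (nat_lit 14) (nat_lit 47872) (nat_lit 270433) (nat_lit 48059) (nat_lit 1498896),Row.mk (nat_lit 9912) (nat_lit 47124) (nat_lit 17) (nat_lit 47872) (nat_lit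 270434) (nat_lit 48059) (nat_lit 1498893),Row.mk (nat_lit 10080) (nat_lit 47124) (nat_lit 21) (nat_lit 47872) (nat_lit 270435) (nat_lit 48059) (nat_lit 1498888),Row.mk (nat_lit 10248) (nat_lit 47124) (nat_lit 27) (nat_lit 47872) (nat_lit 270437) (nat_lit 48059) (nat_lit 1498883),Row.mk (nat_lit 10416) (nat_lit 47124) (nat_lit 34) (nat_lit 47872) (nat_lit 270438) (nat_lit 48059) (nat_lit 1498876),Row.mk (nat_lit 10584) (nat_lit 47124) (nat_lit 42) (nat_lit 47872) (nat_lit 270441) (nat_lit 48059) (nat_lit 1498867),Row.mk (nat_lit 10752) (nat_lit 47124) (nat_lit 53) (nat_lit 47872) (nat_lit 270444) (nat_lit 48059) (nat_lit 1498857),Row.mk (nat_lit 10920) (nat_lit 47124) (nat_lit 66) (nat_lit 47872) (nat_lit 270447) (nat_lit 48059) (nat_lit 1498843),Row.mk (nat_lit 11088) (nat_lit 47124) (nat_lit 83) (nat_lit 47872) (nat_lit 270452) (nat_lit 48059) (nat_lit 1498826),Row.mk (nat_lit 11256) (nat_lit 47124) (nat_lit 104) (nat_lit 47872)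 (nat_lit 270457) (nat_lit 48059) (nat_lit 1498805),Row.mk (nat_lit 11424) (nat_lit 47124) (nat_lit 130) (nat_lit 47872) (nat_lit 270464) (nat_lit 48059) (nat_lit 1498779),Row.mk (nat_lit 11592) (nat_lit 47124) (nat_lit 162) (nat_lit 47872) (nat_lit 270473) (nat_lit 48059) (nat_lit 1498746),Row.mk (nat_lit 11760) (nat_lit 47124) (nat_lit 202) (nat_lit 47872) (nat_lit 270483) (nat_lit 48059) (nat_lit 1498705),Row.mk (nat_lit 11928) (nat_lit 47124) (nat_lit 253) (nat_lit 47872) (nat_lit 270497) (nat_lit 48059) (nat_lit 1498654),Row.mk (nat_lit 12096) (nat_lit 47124) (nat_lit 316) (nat_lit 47872) (nat_lit 270514) (nat_lit 48059) (nat_lit 1498590),Row.mk (nat_lit 12264) (nat_lit 47124) (nat_lit 395) (nat_lit 47872) (nat_lit 270535) (nat_lit 48059) (nat_lit 1498510),Row.mk (nat_lit 12432) (nat_lit 47124) (nat_lit 493) (nat_lit 47872) (nat_lit 270561) (nat_lit 48059) (nat_lit 1498410),Row.mk (nat_lit 12600) (nat_lit 47124) (nat_lit 616)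 (nat_lit 47872) (nat_lit 270594) (nat_lit 48059) (nat_lit 1498285),Row.mk (nat_lit 12768) (nat_lit 47124) (nat_lit 770) (nat_lit 47872) (nat_lit 270635) (nat_lit 48059) (nat_lit 1498129),Row.mk (nat_lit 12936) (nat_lit 47124) (nat_lit 961) (nat_lit 47872) (nat_lit 270686) (nat_lit 48059) (nat_lit 1497935),Row.mk (nat_lit 13104) (nat_lit 47124) (nat_lit 1201) (nat_lit 47872) (nat_lit 270750) (nat_lit 48059) (nat_lit 1497692),Row.mk (nat_lit 13272) (nat_lit 47124) (nat_lit 1500) (nat_lit 47872) (nat_lit 270830) (nat_lit 48059) (nat_lit 1497388),Row.mk (nat_lit 13440) (nat_lit 47124) (nat_lit 1874) (nat_lit 47872) (nat_lit 270930) (nat_lit 48059) (nat_lit 1497009),Row.mk (nat_lit 13608) (nat_lit 47124) (nat_lit 2340) (nat_lit 47872) (nat_lit 271055) (nat_lit 48059) (nat_lit 1496536),Row.mk (nat_lit 13776) (nat_lit 47124) (nat_lit 2923) (nat_lit 47872) (nat_lit 271211) (nat_lit 48059) (nat_lit 1495944),Row.mk (nat_lit 13944) (nat_lit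 47124) (nat_lit 3651) (nat_lit 47872) (nat_lit 271405) (nat_lit 48059) (nat_lit 1495206),Row.mk (nat_lit 14112) (nat_lit 47124) (nat_lit 4560) (nat_lit 47872) (nat_lit 271648) (nat_lit 48059) (nat_lit 1494283),Row.mk (nat_lit 14280) (nat_lit 47124) (nat_lit 5696) (nat_lit 47872) (nat_lit 271952) (nat_lit 48059) (nat_lit 1493131),Row.mk (nat_lit 14448) (nat_lit 47124) (nat_lit 7114) (nat_lit 47872) (nat_lit 272331) (nat_lit 48059) (nat_lit 1491692),Row.mk (nat_lit 14616) (nat_lit 47124) (nat_lit 8886) (nat_lit 47872) (nat_lit 272804) (nat_lit 48059) (nat_lit 1489894),Row.mk (nat_lit 14784) (nat_lit 47124) (nat_lit 11098) (nat_lit 47872) (nat_lit 273396) (nat_lit 48059) (nat_lit 1487650),Row.mk (nat_lit 14952) (nat_lit 47124) (nat_lit 13861) (nat_lit 47872) (nat_lit 274134) (nat_lit 48059) (nat_lit 1484846),Row.mk (nat_lit 15120) (nat_lit 47124) (nat_lit 17312) (nat_lit 47872) (nat_lit 275057) (nat_lit 48059) (nat_lit 1481344),Row.mk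 (nat_lit 15288) (nat_lit 47124) (nat_lit 21623) (nat_lit 47872) (nat_lit 276209) (nat_lit 48059) (nat_lit 1476970),Row.mk (nat_lit 15456) (nat_lit 47124) (nat_lit 27007) (nat_lit 47872) (nat_lit 277648) (nat_lit 48059) (nat_lit 1471507),Row.mk (nat_lit 15624) (nat_lit 47124) (nat_lit 33731) (nat_lit 47872) (nat_lit 279446) (nat_lit 48059) (nat_lit 1464685),Row.mk (nat_lit 15792) (nat_lit 47124) (nat_lit 42129) (nat_lit 47872) (nat_lit 281691) (nat_lit 48059) (nat_lit 1456163),Row.mk (nat_lit 15960) (nat_lit 47124) (nat_lit 52618) (nat_lit 47872) (nat_lit 284494) (nat_lit 48059) (nat_lit 1445520),Row.mk (nat_lit 16128) (nat_lit 47124) (nat_lit 65719) (nat_lit 47872) (nat_lit 287996) (nat_lit 48059) (nat_lit 1432227),Row.mk (nat_lit 16296) (nat_lit 47124) (nat_lit 82081) (nat_lit 47872) (nat_lit 292370) (nat_lit 48059) (nat_lit 1415625),Row.mk (nat_lit 16464) (nat_lit 47124) (nat_lit 102518) (nat_lit 47872) (nat_lit 297833) (nat_lit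 48059) (nat_lit 1394888),Row.mk (nat_lit 16632) (nat_lit 47124) (nat_lit 128042) (nat_lit 47872) (nat_lit 304655) (nat_lit 48059) (nat_lit 1368989),Row.mk (nat_lit 16800) (nat_lit 47124) (nat_lit 159922) (nat_lit 47872) (nat_lit 313177) (nat_lit 48059) (nat_lit 1336642),Row.mk (nat_lit 16968) (nat_lit 47124) (nat_lit 199739) (nat_lit 47872) (nat_lit 323820) (nat_lit 48059) (nat_lit 1296241),Row.mk (nat_lit 17136) (nat_lit 47124) (nat_lit 249469) (nat_lit 47872) (nat_lit 337113) (nat_lit 48059) (nat_lit 1245781),Row.mk (nat_lit 17304) (nat_lit 47124) (nat_lit 311581) (nat_lit 47872) (nat_lit 353715) (nat_lit 48059) (nat_lit 1182758),Row.mk (nat_lit 17472) (nat_lit 47124) (nat_lit 389157) (nat_lit 47872) (nat_lit 374452) (nat_lit 48059) (nat_lit 1104043),Row.mk (nat_lit 17640) (nat_lit 47124) (nat_lit 486048) (nat_lit 47872) (nat_lit 400351) (nat_lit 48059) (nat_lit 1005731),Row.mk (nat_lit 17808) (nat_lit 47124) (nat_lit 607063) (nat_lit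 47872) (nat_lit 432698) (nat_lit 48059) (nat_lit 882941),Row.mk (nat_lit 17976) (nat_lit 47124) (nat_lit 758207) (nat_lit 47872) (nat_lit 473099) (nat_lit 48059) (nat_lit 729579),Row.mk (nat_lit 18144) (nat_lit 47124) (nat_lit 946982) (nat_lit 47872) (nat_lit 523559) (nat_lit 48059) (nat_lit 538034),Row.mk (nat_lit 18312) (nat_lit 47124) (nat_lit 1182758) (nat_lit 47872) (nat_lit 586582) (nat_lit 48059) (nat_lit 298799),Row.mk (nat_lit 18480) (nat_lit 47124) (nat_lit 1477236) (nat_lit 47872) (nat_lit 665297) (nat_lit 0) (nat_lit 0),Row.mk (nat_lit 18648) (nat_lit 46937) (nat_lit 466108) (nat_lit 47124) (nat_lit 1378923) (nat_lit 47872) (nat_lit 390417),Row.mk (nat_lit 18816) (nat_lit 46937) (nat_lit 1048267) (nat_lit 47124) (nat_lit 1256133) (nat_lit 47872) (nat_lit 47098),Row.mk (nat_lit 18984) (nat_lit 46189) (nat_lit 476732) (nat_lit 46937) (nat_lit 1298637) (nat_lit 47124) (nat_lit 721073),Row.mk (nat_lit 19152) (nat_lit 46002)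 (nat_lit 7529) (nat_lit 46189) (nat_lit 1138100) (nat_lit 46937) (nat_lit 1531844),Row.mk (nat_lit 19320) (nat_lit 46002) (nat_lit 1141765) (nat_lit 46189) (nat_lit 839301) (nat_lit 46937) (nat_lit 922510),Row.mk (nat_lit 19488) (nat_lit 46002) (nat_lit 2558398) (nat_lit 46189) (nat_lit 466108) (nat_lit 46937) (nat_lit 161467),Row.mk (nat_lit 19656) (nat_lit 44880) (nat_lit 985514) (nat_lit 46002) (nat_lit 2553168) (nat_lit 0) (nat_lit 0),Row.mk (nat_lit 19824) (nat_lit 44880) (nat_lit 2468276) (nat_lit 45815) (nat_lit 727102) (nat_lit 46002) (nat_lit 783827),Row.mk (nat_lit 19992) (nat_lit 44693) (nat_lit 1781086) (nat_lit 44880) (nat_lit 2539124) (nat_lit 45815) (nat_lit 209197),Row.mk (nat_lit 20160) (nat_lit 43384) (nat_lit 14669) (nat_lit 43571) (nat_lit 1754671) (nat_lit 44693) (nat_lit 3447257),Row.mk (nat_lit 20328) (nat_lit 43384) (nat_lit 4305541) (nat_lit 44506) (nat_lit 14669) (nat_lit 44693) (nat_lit 1754671),Row.mk (nat_lit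 20496) (nat_lit 41701) (nat_lit 407585) (nat_lit 43197) (nat_lit 2778388) (nat_lit 43384) (nat_lit 3960883),Row.mk (nat_lit 20664) (nat_lit 41514) (nat_lit 1769341) (nat_lit 41701) (nat_lit 1907376) (nat_lit 43197) (nat_lit 4809012),Row.mk (nat_lit 20832) (nat_lit 41514) (nat_lit 7759784) (nat_lit 43010) (nat_lit 2398164) (nat_lit 0) (nat_lit 0),Row.mk (nat_lit 21000) (nat_lit 39270) (nat_lit 765529) (nat_lit 41327) (nat_lit 9711639) (nat_lit 41514) (nat_lit 1769341),Row.mk (nat_lit 21168) (nat_lit 39083) (nat_lit 5462653) (nat_lit 41140) (nat_lit 5413213) (nat_lit 41327) (nat_lit 3979205),Row.mk (nat_lit 21336) (nat_lit 38896) (nat_lit 11329247) (nat_lit 40953) (nat_lit 44584) (nat_lit 41140) (nat_lit 6739272),Row.mk (nat_lit 21504) (nat_lit 38709) (nat_lit 11995776) (nat_lit 38896) (nat_lit 6660704) (nat_lit 40953) (nat_lit 3525825),Row.mk (nat_lit 21672) (nat_lit 31977) (nat_lit 678665) (nat_lit 38522) (nat_lit 12093906) (nat_lit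 38709) (nat_lit 14492070),Row.mk (nat_lit 21840) (nat_lit 31790) (nat_lit 7026380) (nat_lit 38335) (nat_lit 6716389) (nat_lit 38522) (nat_lit 19869588),Row.mk (nat_lit 22008) (nat_lit 31603) (nat_lit 14954523) (nat_lit 38335) (nat_lit 26585977) (nat_lit 0) (nat_lit 0),Row.mk (nat_lit 22176) (nat_lit 31416) (nat_lit 16467974) (nat_lit 31603) (nat_lit 8388608) (nat_lit 38148) (nat_lit 26585977),Row.mk (nat_lit 22344) (nat_lit 31229) (nat_lit 18358238) (nat_lit 31416) (nat_lit 18865777) (nat_lit 37961) (nat_lit 26585977),Row.mk (nat_lit 22512) (nat_lit 31042) (nat_lit 20719132) (nat_lit 31229) (nat_lit 31951508) (nat_lit 37774) (nat_lit 26585977),Row.mk (nat_lit 22680) (nat_lit 30855) (nat_lit 23667832) (nat_lit 31042) (nat_lit 48295271) (nat_lit 37587) (nat_lit 26585977),Row.mk (nat_lit 22848) (nat_lit 30668) (nat_lit 27350687) (nat_lit 30855) (nat_lit 68708236) (nat_lit 37400) (nat_lit 26585977),Row.mk (nat_lit 23016) (nat_lit 30481)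 (nat_lit 31950485) (nat_lit 30668) (nat_lit 94203538) (nat_lit 37213) (nat_lit 26585977),Row.mk (nat_lit 23184) (nat_lit 30294) (nat_lit 37695520) (nat_lit 30481) (nat_lit 126046554) (nat_lit 37026) (nat_lit 26585977),Row.mk (nat_lit 23352) (nat_lit 30107) (nat_lit 44870931) (nat_lit 30294) (nat_lit 165817713) (nat_lit 36839) (nat_lit 26585977),Row.mk (nat_lit 23520) (nat_lit 29920) (nat_lit 53832847) (nat_lit 30107) (nat_lit 215490932) (nat_lit 36652) (nat_lit 26585977),Row.mk (nat_lit 23688) (nat_lit 29733) (nat_lit 65026063) (nat_lit 29920) (nat_lit 277531584) (nat_lit 36465) (nat_lit 26585977),Row.mk (nat_lit 23856) (nat_lit 29546) (nat_lit 79006120) (nat_lit 29733) (nat_lit 355018861) (nat_lit 36278) (nat_lit 26585977),Row.mk (nat_lit 24024) (nat_lit 29359) (nat_lit 96466873) (nat_lit 29546) (nat_lit 451798601) (nat_lit 36091) (nat_lit 26585977),Row.mk (nat_lit 24192) (nat_lit 29172) (nat_lit 118274933) (nat_lit 29359) (nat_lit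 572674162) (nat_lit 35904) (nat_lit 26585977),Row.mk (nat_lit 24360) (nat_lit 28985) (nat_lit 145512675) (nat_lit 29172) (nat_lit 723644821) (nat_lit 35717) (nat_lit 26585977),Row.mk (nat_lit 24528) (nat_lit 28798) (nat_lit 179531956) (nat_lit 28985) (nat_lit 912203533) (nat_lit 35530) (nat_lit 26585977),Row.mk (nat_lit 24696) (nat_lit 28611) (nat_lit 222021218) (nat_lit 28798) (nat_lit 1147708815) (nat_lit 35343) (nat_lit 26585977),Row.mk (nat_lit 24864) (nat_lit 28424) (nat_lit 275089281) (nat_lit 28611) (nat_lit 1441849230) (nat_lit 35156) (nat_lit 26585977),Row.mk (nat_lit 25032) (nat_lit 28237) (nat_lit 341370012) (nat_lit 28424) (nat_lit 1809223514) (nat_lit 34969) (nat_lit 26585977),Row.mk (nat_lit 25200) (nat_lit 28050) (nat_lit 424153045) (nat_lit 28237) (nat_lit 2268065132) (nat_lit 34782) (nat_lit 26585977),Row.mk (nat_lit 25368) (nat_lit 27863) (nat_lit 527547057) (nat_lit 28050) (nat_lit 2841147243) (nat_lit 34595) (nat_lit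 26585977),Row.mk (nat_lit 25536) (nat_lit 27676) (nat_lit 656683684) (nat_lit 27863) (nat_lit 3556912976) (nat_lit 34408) (nat_lit 26585977),Row.mk (nat_lit 25704) (nat_lit 27489) (nat_lit 817972216) (nat_lit 27676) (nat_lit 4450887109) (nat_lit 34221) (nat_lit 26585977),Row.mk (nat_lit 25872) (nat_lit 27302) (nat_lit 1019417700) (nat_lit 27489) (nat_lit 5567439235) (nat_lit 34034) (nat_lit 26585977),Row.mk (nat_lit 26040) (nat_lit 32912) (nat_lit 10157949) (nat_lit 62084) (nat_lit 8249432185) (nat_lit 0) (nat_lit 0),Row.mk (nat_lit 26208) (nat_lit 32912) (nat_lit 10157949) (nat_lit 62084) (nat_lit 10305430352) (nat_lit 0) (nat_lit 0),Row.mk (nat_lit 26376) (nat_lit 32912) (nat_lit 10157949) (nat_lit 62084) (nat_lit 12873322465) (nat_lit 0) (nat_lit 0),Row.mk (nat_lit 26544) (nat_lit 32912) (nat_lit 10157949) (nat_lit 62084) (nat_lit 16080557766) (nat_lit 0) (nat_lit 0),Row.mk (nat_lit 26712) (nat_lit 32912) (nat_lit 10157949) (nat_lit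 62084) (nat_lit 20086317287) (nat_lit 0) (nat_lit 0),Row.mk (nat_lit 26880) (nat_lit 32912) (nat_lit 10157949) (nat_lit 62084) (nat_lit 25089414294) (nat_lit 0) (nat_lit 0),Row.mk (nat_lit 27048) (nat_lit 32912) (nat_lit 10157949) (nat_lit 62084) (nat_lit 31338161762) (nat_lit 0) (nat_lit 0),Row.mk (nat_lit 27216) (nat_lit 32912) (nat_lit 10157949) (nat_lit 62084) (nat_lit 39142696606) (nat_lit 0) (nat_lit 0),Row.mk (nat_lit 27384) (nat_lit 32912) (nat_lit 10157949) (nat_lit 62084) (nat_lit 48890372351) (nat_lit 0) (nat_lit 0),Row.mk (nat_lit 27552) (nat_lit 32912) (nat_lit 10157949) (nat_lit 62084) (nat_lit 61064984206) (nat_lit 0) (nat_lit 0),Row.mk (nat_lit 27720) (nat_lit 32912) (nat_lit 10157949) (nat_lit 62084) (nat_lit 76270780715) (nat_lit 0) (nat_lit 0),Row.mk (nat_lit 27888) (nat_lit 32912) (nat_lit 10157949) (nat_lit 62084) (nat_lit 95262453733) (nat_lit 0) (nat_lit 0),Row.mk (nat_lit 28056) (nat_lit 32912) (nat_lit 10157949)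 (nat_lit 62084) (nat_lit 118982595181) (nat_lit 0) (nat_lit 0),Row.mk (nat_lit 28224) (nat_lit 32912) (nat_lit 10157949) (nat_lit 62084) (nat_lit 148608479629) (nat_lit 0) (nat_lit 0),Row.mk (nat_lit 28392) (nat_lit 32912) (nat_lit 10157949) (nat_lit 62084) (nat_lit 185610494615) (nat_lit 0) (nat_lit 0),Row.mk (nat_lit 28560) (nat_lit 32912) (nat_lit 10157949) (nat_lit 62084) (nat_lit 231825118704) (nat_lit 0) (nat_lit 0),Row.mk (nat_lit 28728) (nat_lit 32912) (nat_lit 10157949) (nat_lit 62084) (nat_lit 289546069319) (nat_lit 0) (nat_lit 0),Row.mk (nat_lit 28896) (nat_lit 32912) (nat_lit 10157949) (nat_lit 62084) (nat_lit 361638144187) (nat_lit 0) (nat_lit 0),Row.mk (nat_lit 29064) (nat_lit 32912) (nat_lit 10157949) (nat_lit 62084) (nat_lit 451679406563) (nat_lit 0) (nat_lit 0),Row.mk (nat_lit 29232) (nat_lit 32912) (nat_lit 10157949) (nat_lit 62084) (nat_lit 564138771133) (nat_lit 0) (nat_lit 0),Row.mk (nat_lit 29400) (nat_lit 32912)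 (nat_lit 10157949) (nat_lit 62084) (nat_lit 704597804532) (nat_lit 0) (nat_lit 0),Row.mk (nat_lit 29568) (nat_lit 32912) (nat_lit 10157949) (nat_lit 62084) (nat_lit 880027748841) (nat_lit 0) (nat_lit 0)],
[Row.mk (nat_lit 5880) (nat_lit 47124) (nat_lit 2107101) (nat_lit 47311) (nat_lit 102762) (nat_lit 0) (nat_lit 0),Row.mk (nat_lit 6048) (nat_lit 47124) (nat_lit 2107101) (nat_lit 47311) (nat_lit 102762) (nat_lit 0) (nat_lit 0),Row.mk (nat_lit 6216) (nat_lit 47124) (nat_lit 2107101) (nat_lit 47311) (nat_lit 102762) (nat_lit 0) (nat_lit 0),Row.mk (nat_lit 6384) (nat_lit 47124) (nat_lit 2107101) (nat_lit 47311) (nat_lit 102762) (nat_lit 0) (nat_lit 0),Row.mk (nat_lit 6552) (nat_lit 47124) (nat_lit 2107101) (nat_lit 47311) (nat_lit 102762) (nat_lit 0) (nat_lit 0),Row.mk (nat_lit 6720) (nat_lit 47124) (nat_lit 2107101) (nat_lit 47311) (nat_lit 102762) (nat_lit 0) (nat_lit 0),Row.mk (nat_lit 6888) (nat_lit 47124) (nat_lit 2107101) (nat_lit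 47311) (nat_lit 102762) (nat_lit 0) (nat_lit 0),Row.mk (nat_lit 7056) (nat_lit 47124) (nat_lit 2107101) (nat_lit 47311) (nat_lit 102762) (nat_lit 0) (nat_lit 0),Row.mk (nat_lit 7224) (nat_lit 47124) (nat_lit 2107101) (nat_lit 47311) (nat_lit 102762) (nat_lit 0) (nat_lit 0),Row.mk (nat_lit 7392) (nat_lit 47124) (nat_lit 2107101) (nat_lit 47311) (nat_lit 102762) (nat_lit 0) (nat_lit 0),Row.mk (nat_lit 7560) (nat_lit 47124) (nat_lit 2107101) (nat_lit 47311) (nat_lit 102762) (nat_lit 0) (nat_lit 0),Row.mk (nat_lit 7728) (nat_lit 47124) (nat_lit 2107101) (nat_lit 47311) (nat_lit 102762) (nat_lit 0) (nat_lit 0),Row.mk (nat_lit 7896) (nat_lit 46376) (nat_lit 1) (nat_lit 47124) (nat_lit 2107101) (nat_lit 47311) (nat_lit 102761),Row.mk (nat_lit 8064) (nat_lit 46376) (nat_lit 1) (nat_lit 47124) (nat_lit 2107101) (nat_lit 47311) (nat_lit 102761),Row.mk (nat_lit 8232) (nat_lit 46376) (nat_lit 1) (nat_lit 47124) (nat_lit 2107101) (nat_lit 47311)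 (nat_lit 102761),Row.mk (nat_lit 8400) (nat_lit 46376) (nat_lit 2) (nat_lit 47124) (nat_lit 2107102) (nat_lit 47311) (nat_lit 102760),Row.mk (nat_lit 8568) (nat_lit 46376) (nat_lit 2) (nat_lit 47124) (nat_lit 2107102) (nat_lit 47311) (nat_lit 102759),Row.mk (nat_lit 8736) (nat_lit 46376) (nat_lit 3) (nat_lit 47124) (nat_lit 2107102) (nat_lit 47311) (nat_lit 102759),Row.mk (nat_lit 8904) (nat_lit 46376) (nat_lit 4) (nat_lit 47124) (nat_lit 2107102) (nat_lit 47311) (nat_lit 102758),Row.mk (nat_lit 9072) (nat_lit 46376) (nat_lit 5) (nat_lit 47124) (nat_lit 2107103) (nat_lit 47311) (nat_lit 102757),Row.mk (nat_lit 9240) (nat_lit 46376) (nat_lit 6) (nat_lit 47124) (nat_lit 2107103) (nat_lit 47311) (nat_lit 102755),Row.mk (nat_lit 9408) (nat_lit 46376) (nat_lit 8) (nat_lit 47124) (nat_lit 2107104) (nat_lit 47311) (nat_lit 102753),Row.mk (nat_lit 9576) (nat_lit 46376) (nat_lit 10) (nat_lit 47124) (nat_lit 2107105) (nat_lit 47311) (nat_lit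 102751),Row.mk (nat_lit 9744) (nat_lit 46376) (nat_lit 13) (nat_lit 47124) (nat_lit 2107105) (nat_lit 47311) (nat_lit 102748),Row.mk (nat_lit 9912) (nat_lit 46376) (nat_lit 16) (nat_lit 47124) (nat_lit 2107107) (nat_lit 47311) (nat_lit 102745),Row.mk (nat_lit 10080) (nat_lit 46376) (nat_lit 20) (nat_lit 47124) (nat_lit 2107108) (nat_lit 47311) (nat_lit 102740),Row.mk (nat_lit 10248) (nat_lit 46376) (nat_lit 25) (nat_lit 47124) (nat_lit 2107110) (nat_lit 47311) (nat_lit 102735),Row.mk (nat_lit 10416) (nat_lit 46376) (nat_lit 31) (nat_lit 47124) (nat_lit 2107112) (nat_lit 47311) (nat_lit 102728),Row.mk (nat_lit 10584) (nat_lit 46376) (nat_lit 39) (nat_lit 47124) (nat_lit 2107115) (nat_lit 47311) (nat_lit 102719),Row.mk (nat_lit 10752) (nat_lit 46376) (nat_lit 49) (nat_lit 47124) (nat_lit 2107119) (nat_lit 47311) (nat_lit 102708),Row.mk (nat_lit 10920) (nat_lit 46376) (nat_lit 62) (nat_lit 47124) (nat_lit 2107123) (nat_lit 47311) (nat_lit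 102695),Row.mk (nat_lit 11088) (nat_lit 46376) (nat_lit 77) (nat_lit 47124) (nat_lit 2107129) (nat_lit 47311) (nat_lit 102678),Row.mk (nat_lit 11256) (nat_lit 46376) (nat_lit 97) (nat_lit 47124) (nat_lit 2107136) (nat_lit 47311) (nat_lit 102657),Row.mk (nat_lit 11424) (nat_lit 46376) (nat_lit 121) (nat_lit 47124) (nat_lit 2107144) (nat_lit 47311) (nat_lit 102631),Row.mk (nat_lit 11592) (nat_lit 46376) (nat_lit 151) (nat_lit 47124) (nat_lit 2107155) (nat_lit 47311) (nat_lit 102598),Row.mk (nat_lit 11760) (nat_lit 46376) (nat_lit 189) (nat_lit 47124) (nat_lit 2107169) (nat_lit 47311) (nat_lit 102557),Row.mk (nat_lit 11928) (nat_lit 46376) (nat_lit 236) (nat_lit 47124) (nat_lit 2107185) (nat_lit 47311) (nat_lit 102505),Row.mk (nat_lit 12096) (nat_lit 46376) (nat_lit 295) (nat_lit 47124) (nat_lit 2107206) (nat_lit 47311) (nat_lit 102441),Row.mk (nat_lit 12264) (nat_lit 46376) (nat_lit 369) (nat_lit 47124) (nat_lit 2107233) (nat_lit 47311)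 (nat_lit 102361),Row.mk (nat_lit 12432) (nat_lit 46376) (nat_lit 460) (nat_lit 47124) (nat_lit 2107266) (nat_lit 47311) (nat_lit 102262),Row.mk (nat_lit 12600) (nat_lit 46376) (nat_lit 575) (nat_lit 47124) (nat_lit 2107307) (nat_lit 47311) (nat_lit 102137),Row.mk (nat_lit 12768) (nat_lit 46376) (nat_lit 718) (nat_lit 47124) (nat_lit 2107358) (nat_lit 47311) (nat_lit 101981),Row.mk (nat_lit 12936) (nat_lit 46376) (nat_lit 897) (nat_lit 47124) (nat_lit 2107422) (nat_lit 47311) (nat_lit 101786),Row.mk (nat_lit 13104) (nat_lit 46376) (nat_lit 1121) (nat_lit 47124) (nat_lit 2107502) (nat_lit 47311) (nat_lit 101543),Row.mk (nat_lit 13272) (nat_lit 46376) (nat_lit 1400) (nat_lit 47124) (nat_lit 2107602) (nat_lit 47311) (nat_lit 101240),Row.mk (nat_lit 13440) (nat_lit 46376) (nat_lit 1749) (nat_lit 47124) (nat_lit 2107726) (nat_lit 47311) (nat_lit 100861),Row.mk (nat_lit 13608) (nat_lit 46376) (nat_lit 2185) (nat_lit 47124) (nat_lit 2107882)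 (nat_lit 47311) (nat_lit 100387),Row.mk (nat_lit 13776) (nat_lit 46376) (nat_lit 2729) (nat_lit 47124) (nat_lit 2108077) (nat_lit 47311) (nat_lit 99796),Row.mk (nat_lit 13944) (nat_lit 46376) (nat_lit 3408) (nat_lit 47124) (nat_lit 2108320) (nat_lit 47311) (nat_lit 99057),Row.mk (nat_lit 14112) (nat_lit 46376) (nat_lit 4257) (nat_lit 47124) (nat_lit 2108623) (nat_lit 47311) (nat_lit 98135),Row.mk (nat_lit 14280) (nat_lit 46376) (nat_lit 5317) (nat_lit 47124) (nat_lit 2109003) (nat_lit 47311) (nat_lit 96983),Row.mk (nat_lit 14448) (nat_lit 46376) (nat_lit 6641) (nat_lit 47124) (nat_lit 2109476) (nat_lit 47311) (nat_lit 95543),Row.mk (nat_lit 14616) (nat_lit 46376) (nat_lit 8294) (nat_lit 47124) (nat_lit 2110067) (nat_lit 47311) (nat_lit 93746),Row.mk (nat_lit 14784) (nat_lit 46376) (nat_lit 10359) (nat_lit 47124) (nat_lit 2110806) (nat_lit 47311) (nat_lit 91501),Row.mk (nat_lit 14952) (nat_lit 46376) (nat_lit 12939) (nat_lit 47124)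 (nat_lit 2111729) (nat_lit 47311) (nat_lit 88697),Row.mk (nat_lit 15120) (nat_lit 46376) (nat_lit 16160) (nat_lit 47124) (nat_lit 2112881) (nat_lit 47311) (nat_lit 85196),Row.mk (nat_lit 15288) (nat_lit 46376) (nat_lit 20184) (nat_lit 47124) (nat_lit 2114320) (nat_lit 47311) (nat_lit 80822),Row.mk (nat_lit 15456) (nat_lit 46376) (nat_lit 25209) (nat_lit 47124) (nat_lit 2116117) (nat_lit 47311) (nat_lit 75359),Row.mk (nat_lit 15624) (nat_lit 46376) (nat_lit 31486) (nat_lit 47124) (nat_lit 2118362) (nat_lit 47311) (nat_lit 68536),Row.mk (nat_lit 15792) (nat_lit 46376) (nat_lit 39325) (nat_lit 47124) (nat_lit 2121166) (nat_lit 47311) (nat_lit 60015),Row.mk (nat_lit 15960) (nat_lit 46376) (nat_lit 49116) (nat_lit 47124) (nat_lit 2124668) (nat_lit 47311) (nat_lit 49372),Row.mk (nat_lit 16128) (nat_lit 46376) (nat_lit 61345) (nat_lit 47124) (nat_lit 2129041) (nat_lit 47311) (nat_lit 36079),Row.mk (nat_lit 16296) (nat_lit 46376) (nat_lit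 76619) (nat_lit 47124) (nat_lit 2134504) (nat_lit 47311) (nat_lit 19476),Row.mk (nat_lit 16464) (nat_lit 46189) (nat_lit 1573) (nat_lit 46376) (nat_lit 94122) (nat_lit 47124) (nat_lit 2140067),Row.mk (nat_lit 16632) (nat_lit 46189) (nat_lit 33920) (nat_lit 46376) (nat_lit 85600) (nat_lit 47124) (nat_lit 2122690),Row.mk (nat_lit 16800) (nat_lit 46189) (nat_lit 74321) (nat_lit 46376) (nat_lit 74957) (nat_lit 47124) (nat_lit 2100985),Row.mk (nat_lit 16968) (nat_lit 46189) (nat_lit 124781) (nat_lit 46376) (nat_lit 61664) (nat_lit 47124) (nat_lit 2073877),Row.mk (nat_lit 17136) (nat_lit 46189) (nat_lit 187804) (nat_lit 46376) (nat_lit 45062) (nat_lit 47124) (nat_lit 2040020),Row.mk (nat_lit 17304) (nat_lit 46189) (nat_lit 266519) (nat_lit 46376) (nat_lit 24326) (nat_lit 47124) (nat_lit 1997733),Row.mk (nat_lit 17472) (nat_lit 46189) (nat_lit 363258) (nat_lit 46937) (nat_lit 1573) (nat_lit 47124) (nat_lit 1943345),Row.mk (nat_lit 17640)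 (nat_lit 46189) (nat_lit 453701) (nat_lit 46937) (nat_lit 33920) (nat_lit 47124) (nat_lit 1845032),Row.mk (nat_lit 17808) (nat_lit 46189) (nat_lit 566661) (nat_lit 46937) (nat_lit 74321) (nat_lit 47124) (nat_lit 1722242),Row.mk (nat_lit 17976) (nat_lit 46189) (nat_lit 707747) (nat_lit 46937) (nat_lit 124781) (nat_lit 47124) (nat_lit 1568880),Row.mk (nat_lit 18144) (nat_lit 46189) (nat_lit 883959) (nat_lit 46937) (nat_lit 187804) (nat_lit 47124) (nat_lit 1377335),Row.mk (nat_lit 18312) (nat_lit 46189) (nat_lit 1104043) (nat_lit 46937) (nat_lit 266519) (nat_lit 47124) (nat_lit 1138100),Row.mk (nat_lit 18480) (nat_lit 46189) (nat_lit 1378923) (nat_lit 46937) (nat_lit 364831) (nat_lit 47124) (nat_lit 839301),Row.mk (nat_lit 18648) (nat_lit 46189) (nat_lit 1722242) (nat_lit 46937) (nat_lit 487621) (nat_lit 47124) (nat_lit 466108),Row.mk (nat_lit 18816) (nat_lit 46189) (nat_lit 2151039) (nat_lit 46937) (nat_lit 640983) (nat_lit 0) (nat_lit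 0),Row.mk (nat_lit 18984) (nat_lit 46002) (nat_lit 727102) (nat_lit 46189) (nat_lit 1959494) (nat_lit 46937) (nat_lit 250369),Row.mk (nat_lit 19152) (nat_lit 45067) (nat_lit 296627) (nat_lit 46002) (nat_lit 1338607) (nat_lit 46189) (nat_lit 1482762),Row.mk (nat_lit 19320) (nat_lit 45067) (nat_lit 1057671) (nat_lit 46002) (nat_lit 1711799) (nat_lit 46189) (nat_lit 574629),Row.mk (nat_lit 19488) (nat_lit 44880) (nat_lit 698935) (nat_lit 45067) (nat_lit 1309260) (nat_lit 46002) (nat_lit 1618301),Row.mk (nat_lit 19656) (nat_lit 44880) (nat_lit 2468276) (nat_lit 45067) (nat_lit 727102) (nat_lit 46002) (nat_lit 783827),Row.mk (nat_lit 19824) (nat_lit 43571) (nat_lit 322750) (nat_lit 44880) (nat_lit 4096978) (nat_lit 0) (nat_lit 0),Row.mk (nat_lit 19992) (nat_lit 43571) (nat_lit 1948581) (nat_lit 44693) (nat_lit 1134236) (nat_lit 44880) (nat_lit 1887113),Row.mk (nat_lit 20160) (nat_lit 43384) (nat_lit 1090297) (nat_lit 43571) (nat_lit 2888907)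 (nat_lit 44693) (nat_lit 1677916),Row.mk (nat_lit 20328) (nat_lit 43384) (nat_lit 5395838) (nat_lit 43571) (nat_lit 1119566) (nat_lit 0) (nat_lit 0),Row.mk (nat_lit 20496) (nat_lit 41701) (nat_lit 2617449) (nat_lit 43197) (nat_lit 1361755) (nat_lit 43384) (nat_lit 3608176),Row.mk (nat_lit 20664) (nat_lit 41514) (nat_lit 2209864) (nat_lit 41701) (nat_lit 3676717) (nat_lit 43197) (nat_lit 3039671),Row.mk (nat_lit 20832) (nat_lit 41514) (nat_lit 9969648) (nat_lit 43010) (nat_lit 628823) (nat_lit 0) (nat_lit 0),Row.mk (nat_lit 21000) (nat_lit 39270) (nat_lit 2975394) (nat_lit 41327) (nat_lit 7501774) (nat_lit 41514) (nat_lit 2209864),Row.mk (nat_lit 21168) (nat_lit 39083) (nat_lit 7672517) (nat_lit 41140) (nat_lit 2653146) (nat_lit 41327) (nat_lit 4969931),Row.mk (nat_lit 21336) (nat_lit 38896) (nat_lit 10136438) (nat_lit 39083) (nat_lit 3402673) (nat_lit 41140) (nat_lit 5014515),Row.mk (nat_lit 21504) (nat_lit 38709) (nat_lit 9900099)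 (nat_lit 38896) (nat_lit 10966245) (nat_lit 40953) (nat_lit 1756484),Row.mk (nat_lit 21672) (nat_lit 31977) (nat_lit 2888529) (nat_lit 38522) (nat_lit 6716389) (nat_lit 38709) (nat_lit 18100247),Row.mk (nat_lit 21840) (nat_lit 31790) (nat_lit 9236244) (nat_lit 38522) (nat_lit 24816636) (nat_lit 0) (nat_lit 0),Row.mk (nat_lit 22008) (nat_lit 31603) (nat_lit 8775779) (nat_lit 31790) (nat_lit 8388608) (nat_lit 38335) (nat_lit 24816636),Row.mk (nat_lit 22176) (nat_lit 31416) (nat_lit 8200669) (nat_lit 31603) (nat_lit 18865777) (nat_lit 38148) (nat_lit 24816636),Row.mk (nat_lit 22344) (nat_lit 31229) (nat_lit 7482371) (nat_lit 31416) (nat_lit 31951508) (nat_lit 37961) (nat_lit 24816636),Row.mk (nat_lit 22512) (nat_lit 31042) (nat_lit 6585234) (nat_lit 31229) (nat_lit 48295271) (nat_lit 37774) (nat_lit 24816636),Row.mk (nat_lit 22680) (nat_lit 30855) (nat_lit 5464731) (nat_lit 31042) (nat_lit 68708236) (nat_lit 37587) (nat_lit 24816636),Row.mk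 (nat_lit 22848) (nat_lit 30668) (nat_lit 4065250) (nat_lit 30855) (nat_lit 94203538) (nat_lit 37400) (nat_lit 24816636),Row.mk (nat_lit 23016) (nat_lit 30481) (nat_lit 2317332) (nat_lit 30668) (nat_lit 126046554) (nat_lit 37213) (nat_lit 24816636),Row.mk (nat_lit 23184) (nat_lit 30294) (nat_lit 134225) (nat_lit 30481) (nat_lit 165817713) (nat_lit 37026) (nat_lit 24816636),Row.mk (nat_lit 23352) (nat_lit 30294) (nat_lit 212898510) (nat_lit 36839) (nat_lit 22740997) (nat_lit 37026) (nat_lit 2075638),Row.mk (nat_lit 23520) (nat_lit 30107) (nat_lit 271533643) (nat_lit 36652) (nat_lit 20014349) (nat_lit 36839) (nat_lit 4802286),Row.mk (nat_lit 23688) (nat_lit 29920) (nat_lit 344767511) (nat_lit 36465) (nat_lit 16608831) (nat_lit 36652) (nat_lit 8207804),Row.mk (nat_lit 23856) (nat_lit 29733) (nat_lit 436234845) (nat_lit 36278) (nat_lit 12355422) (nat_lit 36465) (nat_lit 12461214),Row.mk (nat_lit 24024) (nat_lit 29546) (nat_lit 550475339)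 (nat_lit 36091) (nat_lit 7043016) (nat_lit 36278) (nat_lit 17773619),Row.mk (nat_lit 24192) (nat_lit 29359) (nat_lit 693158960) (nat_lit 35904) (nat_lit 407949) (nat_lit 36091) (nat_lit 24408686),Row.mk (nat_lit 24360) (nat_lit 29172) (nat_lit 863488271) (nat_lit 29359) (nat_lit 7879089) (nat_lit 35904) (nat_lit 24816636),Row.mk (nat_lit 24528) (nat_lit 28985) (nat_lit 1075715953) (nat_lit 29172) (nat_lit 18229400) (nat_lit 35717) (nat_lit 24816636),Row.mk (nat_lit 24696) (nat_lit 28798) (nat_lit 1340783208) (nat_lit 28985) (nat_lit 31156689) (nat_lit 35530) (nat_lit 24816636),Row.mk (nat_lit 24864) (nat_lit 28611) (nat_lit 1671845815) (nat_lit 28798) (nat_lit 47302561) (nat_lit 35343) (nat_lit 24816636),Row.mk (nat_lit 25032) (nat_lit 28424) (nat_lit 2085335025) (nat_lit 28611) (nat_lit 67468365) (nat_lit 35156) (nat_lit 24816636),Row.mk (nat_lit 25200) (nat_lit 28237) (nat_lit 2601773073) (nat_lit 28424) (nat_lit 92654969) (nat_lit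 34969) (nat_lit 24816636),Row.mk (nat_lit 25368) (nat_lit 28050) (nat_lit 3246791736) (nat_lit 28237) (nat_lit 124112429) (nat_lit 34782) (nat_lit 24816636),Row.mk (nat_lit 25536) (nat_lit 27863) (nat_lit 4052404486) (nat_lit 28050) (nat_lit 163402038) (nat_lit 34595) (nat_lit 24816636),Row.mk (nat_lit 25704) (nat_lit 27676) (nat_lit 5058595377) (nat_lit 27863) (nat_lit 212473812) (nat_lit 34408) (nat_lit 24816636),Row.mk (nat_lit 25872) (nat_lit 27489) (nat_lit 6315303526) (nat_lit 27676) (nat_lit 273763273) (nat_lit 34221) (nat_lit 24816636),Row.mk (nat_lit 26040) (nat_lit 27302) (nat_lit 7884901688) (nat_lit 27489) (nat_lit 350312332) (nat_lit 34034) (nat_lit 24816636),Row.mk (nat_lit 26208) (nat_lit 32912) (nat_lit 10598472) (nat_lit 62084) (nat_lit 10305430352) (nat_lit 0) (nat_lit 0),Row.mk (nat_lit 26376) (nat_lit 32912) (nat_lit 10598472) (nat_lit 62084) (nat_lit 12873322465) (nat_lit 0) (nat_lit 0),Row.mk (nat_lit 26544)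 (nat_lit 32912) (nat_lit 10598472) (nat_lit 62084) (nat_lit 16080557766) (nat_lit 0) (nat_lit 0),Row.mk (nat_lit 26712) (nat_lit 32912) (nat_lit 10598472) (nat_lit 62084) (nat_lit 20086317287) (nat_lit 0) (nat_lit 0),Row.mk (nat_lit 26880) (nat_lit 32912) (nat_lit 10598472) (nat_lit 62084) (nat_lit 25089414294) (nat_lit 0) (nat_lit 0),Row.mk (nat_lit 27048) (nat_lit 32912) (nat_lit 10598472) (nat_lit 62084) (nat_lit 31338161762) (nat_lit 0) (nat_lit 0),Row.mk (nat_lit 27216) (nat_lit 32912) (nat_lit 10598472) (nat_lit 62084) (nat_lit 39142696606) (nat_lit 0) (nat_lit 0),Row.mk (nat_lit 27384) (nat_lit 32912) (nat_lit 10598472) (nat_lit 62084) (nat_lit 48890372351) (nat_lit 0) (nat_lit 0),Row.mk (nat_lit 27552) (nat_lit 32912) (nat_lit 10598472) (nat_lit 62084) (nat_lit 61064984206) (nat_lit 0) (nat_lit 0),Row.mk (nat_lit 27720) (nat_lit 32912) (nat_lit 10598472) (nat_lit 62084) (nat_lit 76270780715) (nat_lit 0) (nat_lit 0),Row.mk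 (nat_lit 27888) (nat_lit 32912) (nat_lit 10598472) (nat_lit 62084) (nat_lit 95262453733) (nat_lit 0) (nat_lit 0),Row.mk (nat_lit 28056) (nat_lit 32912) (nat_lit 10598472) (nat_lit 62084) (nat_lit 118982595181) (nat_lit 0) (nat_lit 0),Row.mk (nat_lit 28224) (nat_lit 32912) (nat_lit 10598472) (nat_lit 62084) (nat_lit 148608479629) (nat_lit 0) (nat_lit 0),Row.mk (nat_lit 28392) (nat_lit 32912) (nat_lit 10598472) (nat_lit 62084) (nat_lit 185610494615) (nat_lit 0) (nat_lit 0),Row.mk (nat_lit 28560) (nat_lit 32912) (nat_lit 10598472) (nat_lit 62084) (nat_lit 231825118704) (nat_lit 0) (nat_lit 0),Row.mk (nat_lit 28728) (nat_lit 32912) (nat_lit 10598472) (nat_lit 62084) (nat_lit 289546069319) (nat_lit 0) (nat_lit 0),Row.mk (nat_lit 28896) (nat_lit 32912) (nat_lit 10598472) (nat_lit 62084) (nat_lit 361638144187) (nat_lit 0) (nat_lit 0),Row.mk (nat_lit 29064) (nat_lit 32912) (nat_lit 10598472) (nat_lit 62084) (nat_lit 451679406563) (nat_lit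 0) (nat_lit 0),Row.mk (nat_lit 29232) (nat_lit 32912) (nat_lit 10598472) (nat_lit 62084) (nat_lit 564138771133) (nat_lit 0) (nat_lit 0),Row.mk (nat_lit 29400) (nat_lit 32912) (nat_lit 10598472) (nat_lit 62084) (nat_lit 704597804532) (nat_lit 0) (nat_lit 0),Row.mk (nat_lit 29568) (nat_lit 32912) (nat_lit 10598472) (nat_lit 62084) (nat_lit 880027748841) (nat_lit 0) (nat_lit 0),Row.mk (nat_lit 29736) (nat_lit 32912) (nat_lit 10598472) (nat_lit 62084) (nat_lit 1099135517246) (nat_lit 0) (nat_lit 0)],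
[Row.mk (nat_lit 5712) (nat_lit 46189) (nat_lit 2049560) (nat_lit 46376) (nat_lit 710507) (nat_lit 0) (nat_lit 0),Row.mk (nat_lit 5880) (nat_lit 46189) (nat_lit 2049560) (nat_lit 46376) (nat_lit 710506) (nat_lit 0) (nat_lit 0),Row.mk (nat_lit 6048) (nat_lit 46189) (nat_lit 2049560) (nat_lit 46376) (nat_lit 710506) (nat_lit 0) (nat_lit 0),Row.mk (nat_lit 6216) (nat_lit 46189) (nat_lit 2049560) (nat_lit 46376) (nat_lit 710506) (nat_lit 0) (nat_lit 0),Row.mk (nat_lit 6384) (nat_lit 46189) (nat_lit 2049560) (nat_lit 46376) (nat_lit 710506) (nat_lit 0) (nat_lit 0),Row.mk (nat_lit 6552) (nat_lit 46189) (nat_lit 2049560) (nat_lit 46376) (nat_lit 710506) (nat_lit 0) (nat_lit 0),Row.mk (nat_lit 6720) (nat_lit 46189) (nat_lit 2049560) (nat_lit 46376) (nat_lit 710506) (nat_lit 0) (nat_lit 0),Row.mk (nat_lit 6888) (nat_lit 46189) (nat_lit 2049560) (nat_lit 46376) (nat_lit 710506) (nat_lit 0) (nat_lit 0),Row.mk (nat_lit 7056) (nat_lit 46189) (nat_lit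 2049560) (nat_lit 46376) (nat_lit 710506) (nat_lit 0) (nat_lit 0),Row.mk (nat_lit 7224) (nat_lit 46189) (nat_lit 2049560) (nat_lit 46376) (nat_lit 710506) (nat_lit 0) (nat_lit 0),Row.mk (nat_lit 7392) (nat_lit 46189) (nat_lit 2049560) (nat_lit 46376) (nat_lit 710506) (nat_lit 0) (nat_lit 0),Row.mk (nat_lit 7560) (nat_lit 46189) (nat_lit 2049560) (nat_lit 46376) (nat_lit 710506) (nat_lit 0) (nat_lit 0),Row.mk (nat_lit 7728) (nat_lit 46189) (nat_lit 2049560) (nat_lit 46376) (nat_lit 710506) (nat_lit 0) (nat_lit 0),Row.mk (nat_lit 7896) (nat_lit 45254) (nat_lit 1) (nat_lit 46189) (nat_lit 2049560) (nat_lit 46376) (nat_lit 710505),Row.mk (nat_lit 8064) (nat_lit 45254) (nat_lit 1) (nat_lit 46189) (nat_lit 2049560) (nat_lit 46376) (nat_lit 710505),Row.mk (nat_lit 8232) (nat_lit 45254) (nat_lit 1) (nat_lit 46189) (nat_lit 2049560) (nat_lit 46376) (nat_lit 710505),Row.mk (nat_lit 8400) (nat_lit 45254) (nat_lit 2) (nat_lit 46189) (nat_lit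 2049561) (nat_lit 46376) (nat_lit 710504),Row.mk (nat_lit 8568) (nat_lit 45254) (nat_lit 2) (nat_lit 46189) (nat_lit 2049561) (nat_lit 46376) (nat_lit 710504),Row.mk (nat_lit 8736) (nat_lit 45254) (nat_lit 3) (nat_lit 46189) (nat_lit 2049561) (nat_lit 46376) (nat_lit 710503),Row.mk (nat_lit 8904) (nat_lit 45254) (nat_lit 3) (nat_lit 46189) (nat_lit 2049562) (nat_lit 46376) (nat_lit 710502),Row.mk (nat_lit 9072) (nat_lit 45254) (nat_lit 4) (nat_lit 46189) (nat_lit 2049562) (nat_lit 46376) (nat_lit 710501),Row.mk (nat_lit 9240) (nat_lit 45254) (nat_lit 6) (nat_lit 46189) (nat_lit 2049563) (nat_lit 46376) (nat_lit 710499),Row.mk (nat_lit 9408) (nat_lit 45254) (nat_lit 7) (nat_lit 46189) (nat_lit 2049563) (nat_lit 46376) (nat_lit 710497),Row.mk (nat_lit 9576) (nat_lit 45254) (nat_lit 9) (nat_lit 46189) (nat_lit 2049564) (nat_lit 46376) (nat_lit 710495),Row.mk (nat_lit 9744) (nat_lit 45254) (nat_lit 11) (nat_lit 46189) (nat_lit 2049565)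 (nat_lit 46376) (nat_lit 710492),Row.mk (nat_lit 9912) (nat_lit 45254) (nat_lit 14) (nat_lit 46189) (nat_lit 2049567) (nat_lit 46376) (nat_lit 710489),Row.mk (nat_lit 10080) (nat_lit 45254) (nat_lit 18) (nat_lit 46189) (nat_lit 2049569) (nat_lit 46376) (nat_lit 710484),Row.mk (nat_lit 10248) (nat_lit 45254) (nat_lit 23) (nat_lit 46189) (nat_lit 2049571) (nat_lit 46376) (nat_lit 710479),Row.mk (nat_lit 10416) (nat_lit 45254) (nat_lit 29) (nat_lit 46189) (nat_lit 2049574) (nat_lit 46376) (nat_lit 710472),Row.mk (nat_lit 10584) (nat_lit 45254) (nat_lit 36) (nat_lit 46189) (nat_lit 2049577) (nat_lit 46376) (nat_lit 710463),Row.mk (nat_lit 10752) (nat_lit 45254) (nat_lit 45) (nat_lit 46189) (nat_lit 2049582) (nat_lit 46376) (nat_lit 710452),Row.mk (nat_lit 10920) (nat_lit 45254) (nat_lit 56) (nat_lit 46189) (nat_lit 2049587) (nat_lit 46376) (nat_lit 710439),Row.mk (nat_lit 11088) (nat_lit 45254) (nat_lit 70) (nat_lit 46189) (nat_lit 2049594)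 (nat_lit 46376) (nat_lit 710422),Row.mk (nat_lit 11256) (nat_lit 45254) (nat_lit 88) (nat_lit 46189) (nat_lit 2049603) (nat_lit 46376) (nat_lit 710401),Row.mk (nat_lit 11424) (nat_lit 45254) (nat_lit 110) (nat_lit 46189) (nat_lit 2049614) (nat_lit 46376) (nat_lit 710375),Row.mk (nat_lit 11592) (nat_lit 45254) (nat_lit 138) (nat_lit 46189) (nat_lit 2049627) (nat_lit 46376) (nat_lit 710342),Row.mk (nat_lit 11760) (nat_lit 45254) (nat_lit 172) (nat_lit 46189) (nat_lit 2049644) (nat_lit 46376) (nat_lit 710301),Row.mk (nat_lit 11928) (nat_lit 45254) (nat_lit 215) (nat_lit 46189) (nat_lit 2049665) (nat_lit 46376) (nat_lit 710249),Row.mk (nat_lit 12096) (nat_lit 45254) (nat_lit 269) (nat_lit 46189) (nat_lit 2049692) (nat_lit 46376) (nat_lit 710185),Row.mk (nat_lit 12264) (nat_lit 45254) (nat_lit 336) (nat_lit 46189) (nat_lit 2049724) (nat_lit 46376) (nat_lit 710105),Row.mk (nat_lit 12432) (nat_lit 45254) (nat_lit 419) (nat_lit 46189) (nat_lit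 2049765) (nat_lit 46376) (nat_lit 710006),Row.mk (nat_lit 12600) (nat_lit 45254) (nat_lit 524) (nat_lit 46189) (nat_lit 2049817) (nat_lit 46376) (nat_lit 709881),Row.mk (nat_lit 12768) (nat_lit 45254) (nat_lit 654) (nat_lit 46189) (nat_lit 2049881) (nat_lit 46376) (nat_lit 709725),Row.mk (nat_lit 12936) (nat_lit 45254) (nat_lit 817) (nat_lit 46189) (nat_lit 2049961) (nat_lit 46376) (nat_lit 709530),Row.mk (nat_lit 13104) (nat_lit 45254) (nat_lit 1021) (nat_lit 46189) (nat_lit 2050061) (nat_lit 46376) (nat_lit 709287),Row.mk (nat_lit 13272) (nat_lit 45254) (nat_lit 1276) (nat_lit 46189) (nat_lit 2050185) (nat_lit 46376) (nat_lit 708984),Row.mk (nat_lit 13440) (nat_lit 45254) (nat_lit 1593) (nat_lit 46189) (nat_lit 2050341) (nat_lit 46376) (nat_lit 708605),Row.mk (nat_lit 13608) (nat_lit 45254) (nat_lit 1990) (nat_lit 46189) (nat_lit 2050536) (nat_lit 46376) (nat_lit 708131),Row.mk (nat_lit 13776) (nat_lit 45254) (nat_lit 2486) (nat_lit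 46189) (nat_lit 2050779) (nat_lit 46376) (nat_lit 707540),Row.mk (nat_lit 13944) (nat_lit 45254) (nat_lit 3105) (nat_lit 46189) (nat_lit 2051082) (nat_lit 46376) (nat_lit 706801),Row.mk (nat_lit 14112) (nat_lit 45254) (nat_lit 3878) (nat_lit 46189) (nat_lit 2051461) (nat_lit 46376) (nat_lit 705879),Row.mk (nat_lit 14280) (nat_lit 45254) (nat_lit 4843) (nat_lit 46189) (nat_lit 2051935) (nat_lit 46376) (nat_lit 704727),Row.mk (nat_lit 14448) (nat_lit 45254) (nat_lit 6049) (nat_lit 46189) (nat_lit 2052526) (nat_lit 46376) (nat_lit 703288),Row.mk (nat_lit 14616) (nat_lit 45254) (nat_lit 7556) (nat_lit 46189) (nat_lit 2053265) (nat_lit 46376) (nat_lit 701490),Row.mk (nat_lit 14784) (nat_lit 45254) (nat_lit 9437) (nat_lit 46189) (nat_lit 2054187) (nat_lit 46376) (nat_lit 699245),Row.mk (nat_lit 14952) (nat_lit 45254) (nat_lit 11786) (nat_lit 46189) (nat_lit 2055340) (nat_lit 46376) (nat_lit 696442),Row.mk (nat_lit 15120) (nat_lit 45254)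 (nat_lit 14721) (nat_lit 46189) (nat_lit 2056779) (nat_lit 46376) (nat_lit 692940),Row.mk (nat_lit 15288) (nat_lit 45254) (nat_lit 18386) (nat_lit 46189) (nat_lit 2058576) (nat_lit 46376) (nat_lit 688566),Row.mk (nat_lit 15456) (nat_lit 45254) (nat_lit 22964) (nat_lit 46189) (nat_lit 2060821) (nat_lit 46376) (nat_lit 683103),Row.mk (nat_lit 15624) (nat_lit 45254) (nat_lit 28682) (nat_lit 46189) (nat_lit 2063625) (nat_lit 46376) (nat_lit 676281),Row.mk (nat_lit 15792) (nat_lit 45254) (nat_lit 35823) (nat_lit 46189) (nat_lit 2067126) (nat_lit 46376) (nat_lit 667759),Row.mk (nat_lit 15960) (nat_lit 45254) (nat_lit 44743) (nat_lit 46189) (nat_lit 2071500) (nat_lit 46376) (nat_lit 657116),Row.mk (nat_lit 16128) (nat_lit 45254) (nat_lit 55882) (nat_lit 46189) (nat_lit 2076963) (nat_lit 46376) (nat_lit 643823),Row.mk (nat_lit 16296) (nat_lit 45254) (nat_lit 69796) (nat_lit 46189) (nat_lit 2083786) (nat_lit 46376) (nat_lit 627220),Row.mk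 (nat_lit 16464) (nat_lit 45254) (nat_lit 87174) (nat_lit 46189) (nat_lit 2092307) (nat_lit 46376) (nat_lit 606484),Row.mk (nat_lit 16632) (nat_lit 45254) (nat_lit 108878) (nat_lit 46189) (nat_lit 2102950) (nat_lit 46376) (nat_lit 580585),Row.mk (nat_lit 16800) (nat_lit 45254) (nat_lit 135986) (nat_lit 46189) (nat_lit 2116243) (nat_lit 46376) (nat_lit 548238),Row.mk (nat_lit 16968) (nat_lit 45254) (nat_lit 169843) (nat_lit 46189) (nat_lit 2132846) (nat_lit 46376) (nat_lit 507837),Row.mk (nat_lit 17136) (nat_lit 45254) (nat_lit 212130) (nat_lit 46189) (nat_lit 2153582) (nat_lit 46376) (nat_lit 457377),Row.mk (nat_lit 17304) (nat_lit 45254) (nat_lit 264946) (nat_lit 46189) (nat_lit 2179481) (nat_lit 46376) (nat_lit 394353),Row.mk (nat_lit 17472) (nat_lit 45254) (nat_lit 330911) (nat_lit 46189) (nat_lit 2211829) (nat_lit 46376) (nat_lit 315639),Row.mk (nat_lit 17640) (nat_lit 45254) (nat_lit 413300) (nat_lit 46189) (nat_lit 2252230) (nat_lit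 46376) (nat_lit 217326),Row.mk (nat_lit 17808) (nat_lit 45254) (nat_lit 516202) (nat_lit 46189) (nat_lit 2302690) (nat_lit 46376) (nat_lit 94536),Row.mk (nat_lit 17976) (nat_lit 45067) (nat_lit 73470) (nat_lit 45254) (nat_lit 571253) (nat_lit 46189) (nat_lit 2306888),Row.mk (nat_lit 18144) (nat_lit 45067) (nat_lit 312706) (nat_lit 45254) (nat_lit 492538) (nat_lit 46189) (nat_lit 2194057),Row.mk (nat_lit 18312) (nat_lit 45067) (nat_lit 611505) (nat_lit 45254) (nat_lit 394225) (nat_lit 46189) (nat_lit 2053135),Row.mk (nat_lit 18480) (nat_lit 45067) (nat_lit 984697) (nat_lit 45254) (nat_lit 271435) (nat_lit 46189) (nat_lit 1877126),Row.mk (nat_lit 18648) (nat_lit 45067) (nat_lit 1450806) (nat_lit 45254) (nat_lit 118074) (nat_lit 46189) (nat_lit 1657295),Row.mk (nat_lit 18816) (nat_lit 45067) (nat_lit 1959494) (nat_lit 46002) (nat_lit 73470) (nat_lit 46189) (nat_lit 1309260),Row.mk (nat_lit 18984) (nat_lit 45067) (nat_lit 2447361) (nat_lit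 46002) (nat_lit 312706) (nat_lit 46189) (nat_lit 727102),Row.mk (nat_lit 19152) (nat_lit 45067) (nat_lit 3056694) (nat_lit 46002) (nat_lit 611505) (nat_lit 0) (nat_lit 0),Row.mk (nat_lit 19320) (nat_lit 44880) (nat_lit 1134236) (nat_lit 45067) (nat_lit 2683502) (nat_lit 46002) (nat_lit 76564),Row.mk (nat_lit 19488) (nat_lit 43758) (nat_lit 738847) (nat_lit 44880) (nat_lit 1812022) (nat_lit 45067) (nat_lit 1625831),Row.mk (nat_lit 19656) (nat_lit 43758) (nat_lit 1781086) (nat_lit 44880) (nat_lit 2539124) (nat_lit 45067) (nat_lit 209197),Row.mk (nat_lit 19824) (nat_lit 43571) (nat_lit 1948581) (nat_lit 43758) (nat_lit 1134236) (nat_lit 44880) (nat_lit 1887113),Row.mk (nat_lit 19992) (nat_lit 43571) (nat_lit 4708648) (nat_lit 44880) (nat_lit 811485) (nat_lit 0) (nat_lit 0),Row.mk (nat_lit 20160) (nat_lit 41888) (nat_lit 664390) (nat_lit 43384) (nat_lit 1769341) (nat_lit 43571) (nat_lit 3773593),Row.mk (nat_lit 20328) (nat_lit 41888)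 (nat_lit 2760067) (nat_lit 43384) (nat_lit 3979205) (nat_lit 43571) (nat_lit 326335),Row.mk (nat_lit 20496) (nat_lit 41701) (nat_lit 4969931) (nat_lit 41888) (nat_lit 407585) (nat_lit 43384) (nat_lit 2760067),Row.mk (nat_lit 20664) (nat_lit 41514) (nat_lit 2760067) (nat_lit 41701) (nat_lit 5886581) (nat_lit 43197) (nat_lit 829807),Row.mk (nat_lit 20832) (nat_lit 39457) (nat_lit 1974681) (nat_lit 41514) (nat_lit 9173993) (nat_lit 0) (nat_lit 0),Row.mk (nat_lit 21000) (nat_lit 39270) (nat_lit 5735461) (nat_lit 41327) (nat_lit 4741707) (nat_lit 41514) (nat_lit 2760067),Row.mk (nat_lit 21168) (nat_lit 39083) (nat_lit 9638474) (nat_lit 39270) (nat_lit 794110) (nat_lit 41327) (nat_lit 5413213),Row.mk (nat_lit 21336) (nat_lit 38896) (nat_lit 8590964) (nat_lit 39083) (nat_lit 7708214) (nat_lit 41140) (nat_lit 2804651),Row.mk (nat_lit 21504) (nat_lit 32164) (nat_lit 566260) (nat_lit 38709) (nat_lit 6716389) (nat_lit 38896) (nat_lit 15890382),Row.mk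 (nat_lit 21672) (nat_lit 31977) (nat_lit 5648596) (nat_lit 38709) (nat_lit 22606771) (nat_lit 0) (nat_lit 0),Row.mk (nat_lit 21840) (nat_lit 31790) (nat_lit 3607703) (nat_lit 31977) (nat_lit 8388608) (nat_lit 38522) (nat_lit 22606771),Row.mk (nat_lit 22008) (nat_lit 31603) (nat_lit 1058677) (nat_lit 31790) (nat_lit 18865777) (nat_lit 38335) (nat_lit 22606771),Row.mk (nat_lit 22176) (nat_lit 31603) (nat_lit 29826513) (nat_lit 38148) (nat_lit 20905382) (nat_lit 38335) (nat_lit 1701389),Row.mk (nat_lit 22344) (nat_lit 31416) (nat_lit 42193946) (nat_lit 37961) (nat_lit 17721710) (nat_lit 38148) (nat_lit 4885061),Row.mk (nat_lit 22512) (nat_lit 31229) (nat_lit 57640572) (nat_lit 37774) (nat_lit 13745380) (nat_lit 37961) (nat_lit 8861391),Row.mk (nat_lit 22680) (nat_lit 31042) (nat_lit 76933035) (nat_lit 37587) (nat_lit 8779040) (nat_lit 37774) (nat_lit 13827731),Row.mk (nat_lit 22848) (nat_lit 30855) (nat_lit 101028855) (nat_lit 37400)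 (nat_lit 2576202) (nat_lit 37587) (nat_lit 20030569),Row.mk (nat_lit 23016) (nat_lit 30668) (nat_lit 125952960) (nat_lit 30855) (nat_lit 5170993) (nat_lit 37400) (nat_lit 22606771),Row.mk (nat_lit 23184) (nat_lit 30481) (nat_lit 153864952) (nat_lit 30668) (nat_lit 14847054) (nat_lit 37213) (nat_lit 22606771),Row.mk (nat_lit 23352) (nat_lit 30294) (nat_lit 188726356) (nat_lit 30481) (nat_lit 26932220) (nat_lit 37026) (nat_lit 22606771),Row.mk (nat_lit 23520) (nat_lit 30107) (nat_lit 232267408) (nat_lit 30294) (nat_lit 42026302) (nat_lit 36839) (nat_lit 22606771),Row.mk (nat_lit 23688) (nat_lit 29920) (nat_lit 286649133) (nat_lit 30107) (nat_lit 60878445) (nat_lit 36652) (nat_lit 22606771),Row.mk (nat_lit 23856) (nat_lit 29733) (nat_lit 354570595) (nat_lit 29920) (nat_lit 84424317) (nat_lit 36465) (nat_lit 22606771),Row.mk (nat_lit 24024) (nat_lit 29546) (nat_lit 439402862) (nat_lit 29733) (nat_lit 113832544) (nat_lit 36278) (nat_lit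 22606771),Row.mk (nat_lit 24192) (nat_lit 29359) (nat_lit 545356317) (nat_lit 29546) (nat_lit 150562710) (nat_lit 36091) (nat_lit 22606771),Row.mk (nat_lit 24360) (nat_lit 29172) (nat_lit 677689627) (nat_lit 29359) (nat_lit 196437800) (nat_lit 35904) (nat_lit 22606771),Row.mk (nat_lit 24528) (nat_lit 28985) (nat_lit 842970738) (nat_lit 29172) (nat_lit 253734682) (nat_lit 35717) (nat_lit 22606771),Row.mk (nat_lit 24696) (nat_lit 28798) (nat_lit 1049402859) (nat_lit 28985) (nat_lit 325297105) (nat_lit 35530) (nat_lit 22606771),Row.mk (nat_lit 24864) (nat_lit 28611) (nat_lit 1307231599) (nat_lit 28798) (nat_lit 414676844) (nat_lit 35343) (nat_lit 22606771),Row.mk (nat_lit 25032) (nat_lit 28424) (nat_lit 1629253474) (nat_lit 28611) (nat_lit 526309983) (nat_lit 35156) (nat_lit 22606771),Row.mk (nat_lit 25200) (nat_lit 28237) (nat_lit 2031451028) (nat_lit 28424) (nat_lit 665737080) (nat_lit 34969) (nat_lit 22606771),Row.mk (nat_lit 25368)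 (nat_lit 28050) (nat_lit 2533786071) (nat_lit 28237) (nat_lit 839878162) (nat_lit 34782) (nat_lit 22606771),Row.mk (nat_lit 25536) (nat_lit 27863) (nat_lit 3161190421) (nat_lit 28050) (nat_lit 1057376171) (nat_lit 34595) (nat_lit 22606771),Row.mk (nat_lit 25704) (nat_lit 27676) (nat_lit 3944803318) (nat_lit 27863) (nat_lit 1329025938) (nat_lit 34408) (nat_lit 22606771),Row.mk (nat_lit 25872) (nat_lit 27489) (nat_lit 4923516924) (nat_lit 27676) (nat_lit 1668309943) (nat_lit 34221) (nat_lit 22606771),Row.mk (nat_lit 26040) (nat_lit 27302) (nat_lit 6145906607) (nat_lit 27489) (nat_lit 2092067481) (nat_lit 34034) (nat_lit 22606771),Row.mk (nat_lit 26208) (nat_lit 32912) (nat_lit 11148675) (nat_lit 62084) (nat_lit 10305430352) (nat_lit 0) (nat_lit 0),Row.mk (nat_lit 26376) (nat_lit 32912) (nat_lit 11148675) (nat_lit 62084) (nat_lit 12873322465) (nat_lit 0) (nat_lit 0),Row.mk (nat_lit 26544) (nat_lit 32912) (nat_lit 11148675) (nat_lit 62084)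 (nat_lit 16080557766) (nat_lit 0) (nat_lit 0),Row.mk (nat_lit 26712) (nat_lit 32912) (nat_lit 11148675) (nat_lit 62084) (nat_lit 20086317287) (nat_lit 0) (nat_lit 0),Row.mk (nat_lit 26880) (nat_lit 32912) (nat_lit 11148675) (nat_lit 62084) (nat_lit 25089414294) (nat_lit 0) (nat_lit 0),Row.mk (nat_lit 27048) (nat_lit 32912) (nat_lit 11148675) (nat_lit 62084) (nat_lit 31338161762) (nat_lit 0) (nat_lit 0),Row.mk (nat_lit 27216) (nat_lit 32912) (nat_lit 11148675) (nat_lit 62084) (nat_lit 39142696606) (nat_lit 0) (nat_lit 0),Row.mk (nat_lit 27384) (nat_lit 32912) (nat_lit 11148675) (nat_lit 62084) (nat_lit 48890372351) (nat_lit 0) (nat_lit 0),Row.mk (nat_lit 27552) (nat_lit 32912) (nat_lit 11148675) (nat_lit 62084) (nat_lit 61064984206) (nat_lit 0) (nat_lit 0),Row.mk (nat_lit 27720) (nat_lit 32912) (nat_lit 11148675) (nat_lit 62084) (nat_lit 76270780715) (nat_lit 0) (nat_lit 0),Row.mk (nat_lit 27888) (nat_lit 32912) (nat_lit 11148675)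 (nat_lit 62084) (nat_lit 95262453733) (nat_lit 0) (nat_lit 0),Row.mk (nat_lit 28056) (nat_lit 32912) (nat_lit 11148675) (nat_lit 62084) (nat_lit 118982595181) (nat_lit 0) (nat_lit 0),Row.mk (nat_lit 28224) (nat_lit 32912) (nat_lit 11148675) (nat_lit 62084) (nat_lit 148608479629) (nat_lit 0) (nat_lit 0),Row.mk (nat_lit 28392) (nat_lit 32912) (nat_lit 11148675) (nat_lit 62084) (nat_lit 185610494615) (nat_lit 0) (nat_lit 0),Row.mk (nat_lit 28560) (nat_lit 32912) (nat_lit 11148675) (nat_lit 62084) (nat_lit 231825118704) (nat_lit 0) (nat_lit 0),Row.mk (nat_lit 28728) (nat_lit 32912) (nat_lit 11148675) (nat_lit 62084) (nat_lit 289546069319) (nat_lit 0) (nat_lit 0),Row.mk (nat_lit 28896) (nat_lit 32912) (nat_lit 11148675) (nat_lit 62084) (nat_lit 361638144187) (nat_lit 0) (nat_lit 0),Row.mk (nat_lit 29064) (nat_lit 32912) (nat_lit 11148675) (nat_lit 62084) (nat_lit 451679406563) (nat_lit 0) (nat_lit 0),Row.mk (nat_lit 29232) (nat_lit 32912)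 (nat_lit 11148675) (nat_lit 62084) (nat_lit 564138771133) (nat_lit 0) (nat_lit 0),Row.mk (nat_lit 29400) (nat_lit 32912) (nat_lit 11148675) (nat_lit 62084) (nat_lit 704597804532) (nat_lit 0) (nat_lit 0),Row.mk (nat_lit 29568) (nat_lit 32912) (nat_lit 11148675) (nat_lit 62084) (nat_lit 880027748841) (nat_lit 0) (nat_lit 0),Row.mk (nat_lit 29736) (nat_lit 32912) (nat_lit 11148675) (nat_lit 62084) (nat_lit 1099135517246) (nat_lit 0) (nat_lit 0),Row.mk (nat_lit 29904) (nat_lit 32912) (nat_lit 11148675) (nat_lit 62084) (nat_lit 1372795834270) (nat_lit 0) (nat_lit 0)],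
[Row.mk (nat_lit 5544) (nat_lit 45067) (nat_lit 1651718) (nat_lit 45254) (nat_lit 1795539) (nat_lit 0) (nat_lit 0),Row.mk (nat_lit 5712) (nat_lit 45067) (nat_lit 1651718) (nat_lit 45254) (nat_lit 1795539) (nat_lit 0) (nat_lit 0),Row.mk (nat_lit 5880) (nat_lit 45067) (nat_lit 1651718) (nat_lit 45254) (nat_lit 1795539) (nat_lit 0) (nat_lit 0),Row.mk (nat_lit 6048) (nat_lit 45067) (nat_lit 1651718) (nat_lit 45254) (nat_lit 1795538) (nat_lit 0) (nat_lit 0),Row.mk (nat_lit 6216) (nat_lit 45067) (nat_lit 1651718) (nat_lit 45254) (nat_lit 1795538) (nat_lit 0) (nat_lit 0),Row.mk (nat_lit 6384) (nat_lit 45067) (nat_lit 1651718) (nat_lit 45254) (nat_lit 1795538) (nat_lit 0) (nat_lit 0),Row.mk (nat_lit 6552) (nat_lit 45067) (nat_lit 1651718) (nat_lit 45254) (nat_lit 1795538) (nat_lit 0) (nat_lit 0),Row.mk (nat_lit 6720) (nat_lit 45067) (nat_lit 1651718) (nat_lit 45254) (nat_lit 1795538) (nat_lit 0) (nat_lit 0),Row.mk (nat_lit 6888) (nat_lit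 45067) (nat_lit 1651718) (nat_lit 45254) (nat_lit 1795538) (nat_lit 0) (nat_lit 0),Row.mk (nat_lit 7056) (nat_lit 45067) (nat_lit 1651718) (nat_lit 45254) (nat_lit 1795538) (nat_lit 0) (nat_lit 0),Row.mk (nat_lit 7224) (nat_lit 45067) (nat_lit 1651718) (nat_lit 45254) (nat_lit 1795538) (nat_lit 0) (nat_lit 0),Row.mk (nat_lit 7392) (nat_lit 45067) (nat_lit 1651718) (nat_lit 45254) (nat_lit 1795538) (nat_lit 0) (nat_lit 0),Row.mk (nat_lit 7560) (nat_lit 45067) (nat_lit 1651718) (nat_lit 45254) (nat_lit 1795538) (nat_lit 0) (nat_lit 0),Row.mk (nat_lit 7728) (nat_lit 45067) (nat_lit 1651718) (nat_lit 45254) (nat_lit 1795538) (nat_lit 0) (nat_lit 0),Row.mk (nat_lit 7896) (nat_lit 45067) (nat_lit 1651718) (nat_lit 45254) (nat_lit 1795537) (nat_lit 0) (nat_lit 0),Row.mk (nat_lit 8064) (nat_lit 43945) (nat_lit 1) (nat_lit 45067) (nat_lit 1651719) (nat_lit 45254) (nat_lit 1795537),Row.mk (nat_lit 8232) (nat_lit 43945) (nat_lit 1) (nat_lit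 45067) (nat_lit 1651719) (nat_lit 45254) (nat_lit 1795537),Row.mk (nat_lit 8400) (nat_lit 43945) (nat_lit 1) (nat_lit 45067) (nat_lit 1651719) (nat_lit 45254) (nat_lit 1795536),Row.mk (nat_lit 8568) (nat_lit 43945) (nat_lit 2) (nat_lit 45067) (nat_lit 1651719) (nat_lit 45254) (nat_lit 1795536),Row.mk (nat_lit 8736) (nat_lit 43945) (nat_lit 2) (nat_lit 45067) (nat_lit 1651720) (nat_lit 45254) (nat_lit 1795535),Row.mk (nat_lit 8904) (nat_lit 43945) (nat_lit 3) (nat_lit 45067) (nat_lit 1651720) (nat_lit 45254) (nat_lit 1795534),Row.mk (nat_lit 9072) (nat_lit 43945) (nat_lit 4) (nat_lit 45067) (nat_lit 1651721) (nat_lit 45254) (nat_lit 1795533),Row.mk (nat_lit 9240) (nat_lit 43945) (nat_lit 5) (nat_lit 45067) (nat_lit 1651721) (nat_lit 45254) (nat_lit 1795531),Row.mk (nat_lit 9408) (nat_lit 43945) (nat_lit 6) (nat_lit 45067) (nat_lit 1651722) (nat_lit 45254) (nat_lit 1795529),Row.mk (nat_lit 9576) (nat_lit 43945) (nat_lit 8) (nat_lit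 45067) (nat_lit 1651724) (nat_lit 45254) (nat_lit 1795527),Row.mk (nat_lit 9744) (nat_lit 43945) (nat_lit 10) (nat_lit 45067) (nat_lit 1651725) (nat_lit 45254) (nat_lit 1795524),Row.mk (nat_lit 9912) (nat_lit 43945) (nat_lit 13) (nat_lit 45067) (nat_lit 1651727) (nat_lit 45254) (nat_lit 1795521),Row.mk (nat_lit 10080) (nat_lit 43945) (nat_lit 16) (nat_lit 45067) (nat_lit 1651729) (nat_lit 45254) (nat_lit 1795516),Row.mk (nat_lit 10248) (nat_lit 43945) (nat_lit 20) (nat_lit 45067) (nat_lit 1651732) (nat_lit 45254) (nat_lit 1795511),Row.mk (nat_lit 10416) (nat_lit 43945) (nat_lit 25) (nat_lit 45067) (nat_lit 1651736) (nat_lit 45254) (nat_lit 1795504),Row.mk (nat_lit 10584) (nat_lit 43945) (nat_lit 31) (nat_lit 45067) (nat_lit 1651740) (nat_lit 45254) (nat_lit 1795495),Row.mk (nat_lit 10752) (nat_lit 43945) (nat_lit 39) (nat_lit 45067) (nat_lit 1651746) (nat_lit 45254) (nat_lit 1795484),Row.mk (nat_lit 10920) (nat_lit 43945) (nat_lit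 49) (nat_lit 45067) (nat_lit 1651752) (nat_lit 45254) (nat_lit 1795471),Row.mk (nat_lit 11088) (nat_lit 43945) (nat_lit 62) (nat_lit 45067) (nat_lit 1651761) (nat_lit 45254) (nat_lit 1795454),Row.mk (nat_lit 11256) (nat_lit 43945) (nat_lit 77) (nat_lit 45067) (nat_lit 1651772) (nat_lit 45254) (nat_lit 1795433),Row.mk (nat_lit 11424) (nat_lit 43945) (nat_lit 97) (nat_lit 45067) (nat_lit 1651785) (nat_lit 45254) (nat_lit 1795407),Row.mk (nat_lit 11592) (nat_lit 43945) (nat_lit 121) (nat_lit 45067) (nat_lit 1651802) (nat_lit 45254) (nat_lit 1795374),Row.mk (nat_lit 11760) (nat_lit 43945) (nat_lit 151) (nat_lit 45067) (nat_lit 1651823) (nat_lit 45254) (nat_lit 1795333),Row.mk (nat_lit 11928) (nat_lit 43945) (nat_lit 189) (nat_lit 45067) (nat_lit 1651850) (nat_lit 45254) (nat_lit 1795281),Row.mk (nat_lit 12096) (nat_lit 43945) (nat_lit 236) (nat_lit 45067) (nat_lit 1651883) (nat_lit 45254) (nat_lit 1795217),Row.mk (nat_lit 12264) (nat_lit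 43945) (nat_lit 295) (nat_lit 45067) (nat_lit 1651924) (nat_lit 45254) (nat_lit 1795137),Row.mk (nat_lit 12432) (nat_lit 43945) (nat_lit 368) (nat_lit 45067) (nat_lit 1651975) (nat_lit 45254) (nat_lit 1795038),Row.mk (nat_lit 12600) (nat_lit 43945) (nat_lit 460) (nat_lit 45067) (nat_lit 1652039) (nat_lit 45254) (nat_lit 1794913),Row.mk (nat_lit 12768) (nat_lit 43945) (nat_lit 574) (nat_lit 45067) (nat_lit 1652119) (nat_lit 45254) (nat_lit 1794757),Row.mk (nat_lit 12936) (nat_lit 43945) (nat_lit 718) (nat_lit 45067) (nat_lit 1652219) (nat_lit 45254) (nat_lit 1794562),Row.mk (nat_lit 13104) (nat_lit 43945) (nat_lit 896) (nat_lit 45067) (nat_lit 1652343) (nat_lit 45254) (nat_lit 1794319),Row.mk (nat_lit 13272) (nat_lit 43945) (nat_lit 1120) (nat_lit 45067) (nat_lit 1652499) (nat_lit 45254) (nat_lit 1794016),Row.mk (nat_lit 13440) (nat_lit 43945) (nat_lit 1399) (nat_lit 45067) (nat_lit 1652694) (nat_lit 45254) (nat_lit 1793637),Row.mk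 (nat_lit 13608) (nat_lit 43945) (nat_lit 1747) (nat_lit 45067) (nat_lit 1652937) (nat_lit 45254) (nat_lit 1793163),Row.mk (nat_lit 13776) (nat_lit 43945) (nat_lit 2182) (nat_lit 45067) (nat_lit 1653240) (nat_lit 45254) (nat_lit 1792572),Row.mk (nat_lit 13944) (nat_lit 43945) (nat_lit 2726) (nat_lit 45067) (nat_lit 1653619) (nat_lit 45254) (nat_lit 1791833),Row.mk (nat_lit 14112) (nat_lit 43945) (nat_lit 3404) (nat_lit 45067) (nat_lit 1654093) (nat_lit 45254) (nat_lit 1790911),Row.mk (nat_lit 14280) (nat_lit 43945) (nat_lit 4252) (nat_lit 45067) (nat_lit 1654684) (nat_lit 45254) (nat_lit 1789759),Row.mk (nat_lit 14448) (nat_lit 43945) (nat_lit 5311) (nat_lit 45067) (nat_lit 1655423) (nat_lit 45254) (nat_lit 1788320),Row.mk (nat_lit 14616) (nat_lit 43945) (nat_lit 6633) (nat_lit 45067) (nat_lit 1656345) (nat_lit 45254) (nat_lit 1786522),Row.mk (nat_lit 14784) (nat_lit 43945) (nat_lit 8285) (nat_lit 45067) (nat_lit 1657498) (nat_lit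 45254) (nat_lit 1784277),Row.mk (nat_lit 14952) (nat_lit 43945) (nat_lit 10347) (nat_lit 45067) (nat_lit 1658937) (nat_lit 45254) (nat_lit 1781474),Row.mk (nat_lit 15120) (nat_lit 43945) (nat_lit 12924) (nat_lit 45067) (nat_lit 1660734) (nat_lit 45254) (nat_lit 1777972),Row.mk (nat_lit 15288) (nat_lit 43945) (nat_lit 16142) (nat_lit 45067) (nat_lit 1662979) (nat_lit 45254) (nat_lit 1773598),Row.mk (nat_lit 15456) (nat_lit 43945) (nat_lit 20161) (nat_lit 45067) (nat_lit 1665783) (nat_lit 45254) (nat_lit 1768135),Row.mk (nat_lit 15624) (nat_lit 43945) (nat_lit 25180) (nat_lit 45067) (nat_lit 1669285) (nat_lit 45254) (nat_lit 1761313),Row.mk (nat_lit 15792) (nat_lit 43945) (nat_lit 31450) (nat_lit 45067) (nat_lit 1673658) (nat_lit 45254) (nat_lit 1752791),Row.mk (nat_lit 15960) (nat_lit 43945) (nat_lit 39280) (nat_lit 45067) (nat_lit 1679121) (nat_lit 45254) (nat_lit 1742148),Row.mk (nat_lit 16128) (nat_lit 43945) (nat_lit 49060) (nat_lit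 45067) (nat_lit 1685944) (nat_lit 45254) (nat_lit 1728855),Row.mk (nat_lit 16296) (nat_lit 43945) (nat_lit 61274) (nat_lit 45067) (nat_lit 1694465) (nat_lit 45254) (nat_lit 1712252),Row.mk (nat_lit 16464) (nat_lit 43945) (nat_lit 76530) (nat_lit 45067) (nat_lit 1705108) (nat_lit 45254) (nat_lit 1691516),Row.mk (nat_lit 16632) (nat_lit 43945) (nat_lit 95585) (nat_lit 45067) (nat_lit 1718401) (nat_lit 45254) (nat_lit 1665617),Row.mk (nat_lit 16800) (nat_lit 43945) (nat_lit 119383) (nat_lit 45067) (nat_lit 1735004) (nat_lit 45254) (nat_lit 1633270),Row.mk (nat_lit 16968) (nat_lit 43945) (nat_lit 149107) (nat_lit 45067) (nat_lit 1755740) (nat_lit 45254) (nat_lit 1592869),Row.mk (nat_lit 17136) (nat_lit 43945) (nat_lit 186231) (nat_lit 45067) (nat_lit 1781639) (nat_lit 45254) (nat_lit 1542409),Row.mk (nat_lit 17304) (nat_lit 43945) (nat_lit 232598) (nat_lit 45067) (nat_lit 1813987) (nat_lit 45254) (nat_lit 1479385),Row.mk (nat_lit 17472)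 (nat_lit 43945) (nat_lit 290510) (nat_lit 45067) (nat_lit 1854388) (nat_lit 45254) (nat_lit 1400671),Row.mk (nat_lit 17640) (nat_lit 43945) (nat_lit 362840) (nat_lit 45067) (nat_lit 1904848) (nat_lit 45254) (nat_lit 1302358),Row.mk (nat_lit 17808) (nat_lit 43945) (nat_lit 453178) (nat_lit 45067) (nat_lit 1967871) (nat_lit 45254) (nat_lit 1179568),Row.mk (nat_lit 17976) (nat_lit 43945) (nat_lit 566009) (nat_lit 45067) (nat_lit 2046585) (nat_lit 45254) (nat_lit 1026207),Row.mk (nat_lit 18144) (nat_lit 43945) (nat_lit 706932) (nat_lit 45067) (nat_lit 2144898) (nat_lit 45254) (nat_lit 834662),Row.mk (nat_lit 18312) (nat_lit 43945) (nat_lit 882941) (nat_lit 45067) (nat_lit 2267688) (nat_lit 45254) (nat_lit 595426),Row.mk (nat_lit 18480) (nat_lit 43945) (nat_lit 1102772) (nat_lit 45067) (nat_lit 2421050) (nat_lit 45254) (nat_lit 296627),Row.mk (nat_lit 18648) (nat_lit 43758) (nat_lit 95627) (nat_lit 43945) (nat_lit 1281707) (nat_lit 45067)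 (nat_lit 2536030),Row.mk (nat_lit 18816) (nat_lit 43758) (nat_lit 677786) (nat_lit 43945) (nat_lit 1042472) (nat_lit 45067) (nat_lit 2309156),Row.mk (nat_lit 18984) (nat_lit 43758) (nat_lit 1404888) (nat_lit 43945) (nat_lit 743673) (nat_lit 45067) (nat_lit 2025797),Row.mk (nat_lit 19152) (nat_lit 43758) (nat_lit 2313021) (nat_lit 43945) (nat_lit 370480) (nat_lit 45067) (nat_lit 1671887),Row.mk (nat_lit 19320) (nat_lit 43758) (nat_lit 3351629) (nat_lit 44880) (nat_lit 95627) (nat_lit 45067) (nat_lit 1134236),Row.mk (nat_lit 19488) (nat_lit 43758) (nat_lit 4186104) (nat_lit 44880) (nat_lit 677786) (nat_lit 0) (nat_lit 0),Row.mk (nat_lit 19656) (nat_lit 42075) (nat_lit 14669) (nat_lit 43571) (nat_lit 1754671) (nat_lit 43758) (nat_lit 3447257),Row.mk (nat_lit 19824) (nat_lit 42075) (nat_lit 1090297) (nat_lit 43571) (nat_lit 2888907) (nat_lit 43758) (nat_lit 1677916),Row.mk (nat_lit 19992) (nat_lit 41888) (nat_lit 664390) (nat_lit 42075)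 (nat_lit 1769341) (nat_lit 43571) (nat_lit 3773593),Row.mk (nat_lit 20160) (nat_lit 41888) (nat_lit 4111647) (nat_lit 43571) (nat_lit 2782867) (nat_lit 0) (nat_lit 0),Row.mk (nat_lit 20328) (nat_lit 41701) (nat_lit 829807) (nat_lit 41888) (nat_lit 5377517) (nat_lit 43384) (nat_lit 1545474),Row.mk (nat_lit 20496) (nat_lit 41701) (nat_lit 6207324) (nat_lit 41888) (nat_lit 2617449) (nat_lit 0) (nat_lit 0),Row.mk (nat_lit 20664) (nat_lit 39457) (nat_lit 2410847) (nat_lit 41514) (nat_lit 1036409) (nat_lit 41701) (nat_lit 6716389),Row.mk (nat_lit 20832) (nat_lit 39457) (nat_lit 5421938) (nat_lit 41514) (nat_lit 6413926) (nat_lit 0) (nat_lit 0),Row.mk (nat_lit 21000) (nat_lit 39270) (nat_lit 9182718) (nat_lit 41327) (nat_lit 1294450) (nat_lit 41514) (nat_lit 3447257),Row.mk (nat_lit 21168) (nat_lit 39083) (nat_lit 8780190) (nat_lit 39270) (nat_lit 5099651) (nat_lit 41327) (nat_lit 2653146),Row.mk (nat_lit 21336) (nat_lit 38896) (nat_lit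 6660704) (nat_lit 39083) (nat_lit 13085731) (nat_lit 41140) (nat_lit 44584),Row.mk (nat_lit 21504) (nat_lit 32164) (nat_lit 4013518) (nat_lit 38896) (nat_lit 19846704) (nat_lit 0) (nat_lit 0),Row.mk (nat_lit 21672) (nat_lit 31977) (nat_lit 707245) (nat_lit 32164) (nat_lit 8388608) (nat_lit 38709) (nat_lit 19846704),Row.mk (nat_lit 21840) (nat_lit 31977) (nat_lit 15443568) (nat_lit 38522) (nat_lit 17106693) (nat_lit 38709) (nat_lit 2740011),Row.mk (nat_lit 22008) (nat_lit 31790) (nat_lit 23371711) (nat_lit 38335) (nat_lit 12977239) (nat_lit 38522) (nat_lit 6869465),Row.mk (nat_lit 22176) (nat_lit 31603) (nat_lit 33273771) (nat_lit 38148) (nat_lit 7819650) (nat_lit 38335) (nat_lit 12027053),Row.mk (nat_lit 22344) (nat_lit 31416) (nat_lit 45641204) (nat_lit 37961) (nat_lit 1377947) (nat_lit 38148) (nat_lit 18468757),Row.mk (nat_lit 22512) (nat_lit 31229) (nat_lit 54420244) (nat_lit 31416) (nat_lit 6667584) (nat_lit 37961) (nat_lit 19846704),Row.mk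 (nat_lit 22680) (nat_lit 31042) (nat_lit 63664031) (nat_lit 31229) (nat_lit 16716260) (nat_lit 37774) (nat_lit 19846704),Row.mk (nat_lit 22848) (nat_lit 30855) (nat_lit 75209298) (nat_lit 31042) (nat_lit 29266814) (nat_lit 37587) (nat_lit 19846704),Row.mk (nat_lit 23016) (nat_lit 30668) (nat_lit 89629058) (nat_lit 30855) (nat_lit 44942153) (nat_lit 37400) (nat_lit 19846704),Row.mk (nat_lit 23184) (nat_lit 30481) (nat_lit 107638990) (nat_lit 30668) (nat_lit 64520273) (nat_lit 37213) (nat_lit 19846704),Row.mk (nat_lit 23352) (nat_lit 30294) (nat_lit 130132961) (nat_lit 30481) (nat_lit 88972872) (nat_lit 37026) (nat_lit 19846704),Row.mk (nat_lit 23520) (nat_lit 30107) (nat_lit 158227388) (nat_lit 30294) (nat_lit 119513579) (nat_lit 36839) (nat_lit 19846704),Row.mk (nat_lit 23688) (nat_lit 29920) (nat_lit 193316650) (nat_lit 30107) (nat_lit 157658185) (nat_lit 36652) (nat_lit 19846704),Row.mk (nat_lit 23856) (nat_lit 29733) (nat_lit 237142291)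 (nat_lit 29920) (nat_lit 205299878) (nat_lit 36465) (nat_lit 19846704),Row.mk (nat_lit 24024) (nat_lit 29546) (nat_lit 291879460) (nat_lit 29733) (nat_lit 264803203) (nat_lit 36278) (nat_lit 19846704),Row.mk (nat_lit 24192) (nat_lit 29359) (nat_lit 360244863) (nat_lit 29546) (nat_lit 339121421) (nat_lit 36091) (nat_lit 19846704),Row.mk (nat_lit 24360) (nat_lit 29172) (nat_lit 445631602) (nat_lit 29359) (nat_lit 431943082) (nat_lit 35904) (nat_lit 19846704),Row.mk (nat_lit 24528) (nat_lit 28985) (nat_lit 552277580) (nat_lit 29172) (nat_lit 547875098) (nat_lit 35717) (nat_lit 19846704),Row.mk (nat_lit 24696) (nat_lit 28798) (nat_lit 685475833) (nat_lit 28985) (nat_lit 692671388) (nat_lit 35530) (nat_lit 19846704),Row.mk (nat_lit 24864) (nat_lit 28611) (nat_lit 851837238) (nat_lit 28798) (nat_lit 873518462) (nat_lit 35343) (nat_lit 19846704),Row.mk (nat_lit 25032) (nat_lit 28424) (nat_lit 1059618620) (nat_lit 28611) (nat_lit 1099392095)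 (nat_lit 35156) (nat_lit 19846704),Row.mk (nat_lit 25200) (nat_lit 28237) (nat_lit 1319132553) (nat_lit 28424) (nat_lit 1381502813) (nat_lit 34969) (nat_lit 19846704),Row.mk (nat_lit 25368) (nat_lit 28050) (nat_lit 1643259195) (nat_lit 28237) (nat_lit 1733852294) (nat_lit 34782) (nat_lit 19846704),Row.mk (nat_lit 25536) (nat_lit 27863) (nat_lit 2048085552) (nat_lit 28050) (nat_lit 2173928297) (nat_lit 34595) (nat_lit 19846704),Row.mk (nat_lit 25704) (nat_lit 27676) (nat_lit 2553703906) (nat_lit 27863) (nat_lit 2723572607) (nat_lit 34408) (nat_lit 19846704),Row.mk (nat_lit 25872) (nat_lit 27489) (nat_lit 3185209032) (nat_lit 27676) (nat_lit 3410065092) (nat_lit 34221) (nat_lit 19846704),Row.mk (nat_lit 26040) (nat_lit 27302) (nat_lit 3973943701) (nat_lit 27489) (nat_lit 4267477644) (nat_lit 34034) (nat_lit 19846704),Row.mk (nat_lit 26208) (nat_lit 32912) (nat_lit 11835865) (nat_lit 62084) (nat_lit 10305430352) (nat_lit 0) (nat_lit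 0),Row.mk (nat_lit 26376) (nat_lit 32912) (nat_lit 11835865) (nat_lit 62084) (nat_lit 12873322465) (nat_lit 0) (nat_lit 0),Row.mk (nat_lit 26544) (nat_lit 32912) (nat_lit 11835865) (nat_lit 62084) (nat_lit 16080557766) (nat_lit 0) (nat_lit 0),Row.mk (nat_lit 26712) (nat_lit 32912) (nat_lit 11835865) (nat_lit 62084) (nat_lit 20086317287) (nat_lit 0) (nat_lit 0),Row.mk (nat_lit 26880) (nat_lit 32912) (nat_lit 11835865) (nat_lit 62084) (nat_lit 25089414294) (nat_lit 0) (nat_lit 0),Row.mk (nat_lit 27048) (nat_lit 32912) (nat_lit 11835865) (nat_lit 62084) (nat_lit 31338161762) (nat_lit 0) (nat_lit 0),Row.mk (nat_lit 27216) (nat_lit 32912) (nat_lit 11835865) (nat_lit 62084) (nat_lit 39142696606) (nat_lit 0) (nat_lit 0),Row.mk (nat_lit 27384) (nat_lit 32912) (nat_lit 11835865) (nat_lit 62084) (nat_lit 48890372351) (nat_lit 0) (nat_lit 0),Row.mk (nat_lit 27552) (nat_lit 32912) (nat_lit 11835865) (nat_lit 62084) (nat_lit 61064984206) (nat_lit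 0) (nat_lit 0),Row.mk (nat_lit 27720) (nat_lit 32912) (nat_lit 11835865) (nat_lit 62084) (nat_lit 76270780715) (nat_lit 0) (nat_lit 0),Row.mk (nat_lit 27888) (nat_lit 32912) (nat_lit 11835865) (nat_lit 62084) (nat_lit 95262453733) (nat_lit 0) (nat_lit 0),Row.mk (nat_lit 28056) (nat_lit 32912) (nat_lit 11835865) (nat_lit 62084) (nat_lit 118982595181) (nat_lit 0) (nat_lit 0),Row.mk (nat_lit 28224) (nat_lit 32912) (nat_lit 11835865) (nat_lit 62084) (nat_lit 148608479629) (nat_lit 0) (nat_lit 0),Row.mk (nat_lit 28392) (nat_lit 32912) (nat_lit 11835865) (nat_lit 62084) (nat_lit 185610494615) (nat_lit 0) (nat_lit 0),Row.mk (nat_lit 28560) (nat_lit 32912) (nat_lit 11835865) (nat_lit 62084) (nat_lit 231825118704) (nat_lit 0) (nat_lit 0),Row.mk (nat_lit 28728) (nat_lit 32912) (nat_lit 11835865) (nat_lit 62084) (nat_lit 289546069319) (nat_lit 0) (nat_lit 0),Row.mk (nat_lit 28896) (nat_lit 32912) (nat_lit 11835865) (nat_lit 62084) (nat_lit 361638144187)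 (nat_lit 0) (nat_lit 0),Row.mk (nat_lit 29064) (nat_lit 32912) (nat_lit 11835865) (nat_lit 62084) (nat_lit 451679406563) (nat_lit 0) (nat_lit 0),Row.mk (nat_lit 29232) (nat_lit 32912) (nat_lit 11835865) (nat_lit 62084) (nat_lit 564138771133) (nat_lit 0) (nat_lit 0),Row.mk (nat_lit 29400) (nat_lit 32912) (nat_lit 11835865) (nat_lit 62084) (nat_lit 704597804532) (nat_lit 0) (nat_lit 0),Row.mk (nat_lit 29568) (nat_lit 32912) (nat_lit 11835865) (nat_lit 62084) (nat_lit 880027748841) (nat_lit 0) (nat_lit 0),Row.mk (nat_lit 29736) (nat_lit 32912) (nat_lit 11835865) (nat_lit 62084) (nat_lit 1099135517246) (nat_lit 0) (nat_lit 0),Row.mk (nat_lit 29904) (nat_lit 32912) (nat_lit 11835865) (nat_lit 62084) (nat_lit 1372795834270) (nat_lit 0) (nat_lit 0),Row.mk (nat_lit 30072) (nat_lit 32912) (nat_lit 11835865) (nat_lit 62084) (nat_lit 1714590968505) (nat_lit 0) (nat_lit 0)],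
[Row.mk (nat_lit 5376) (nat_lit 43758) (nat_lit 646322) (nat_lit 43945) (nat_lit 3659218) (nat_lit 0) (nat_lit 0),Row.mk (nat_lit 5544) (nat_lit 43758) (nat_lit 646322) (nat_lit 43945) (nat_lit 3659218) (nat_lit 0) (nat_lit 0),Row.mk (nat_lit 5712) (nat_lit 43758) (nat_lit 646322) (nat_lit 43945) (nat_lit 3659218) (nat_lit 0) (nat_lit 0),Row.mk (nat_lit 5880) (nat_lit 43758) (nat_lit 646322) (nat_lit 43945) (nat_lit 3659218) (nat_lit 0) (nat_lit 0),Row.mk (nat_lit 6048) (nat_lit 43758) (nat_lit 646322) (nat_lit 43945) (nat_lit 3659218) (nat_lit 0) (nat_lit 0),Row.mk (nat_lit 6216) (nat_lit 43758) (nat_lit 646322) (nat_lit 43945) (nat_lit 3659218) (nat_lit 0) (nat_lit 0),Row.mk (nat_lit 6384) (nat_lit 43758) (nat_lit 646322) (nat_lit 43945) (nat_lit 3659218) (nat_lit 0) (nat_lit 0),Row.mk (nat_lit 6552) (nat_lit 43758) (nat_lit 646322) (nat_lit 43945) (nat_lit 3659218) (nat_lit 0) (nat_lit 0),Row.mk (nat_lit 6720) (nat_lit 43758) (nat_lit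 646322) (nat_lit 43945) (nat_lit 3659218) (nat_lit 0) (nat_lit 0),Row.mk (nat_lit 6888) (nat_lit 43758) (nat_lit 646322) (nat_lit 43945) (nat_lit 3659218) (nat_lit 0) (nat_lit 0),Row.mk (nat_lit 7056) (nat_lit 43758) (nat_lit 646322) (nat_lit 43945) (nat_lit 3659218) (nat_lit 0) (nat_lit 0),Row.mk (nat_lit 7224) (nat_lit 43758) (nat_lit 646323) (nat_lit 43945) (nat_lit 3659217) (nat_lit 0) (nat_lit 0),Row.mk (nat_lit 7392) (nat_lit 43758) (nat_lit 646323) (nat_lit 43945) (nat_lit 3659217) (nat_lit 0) (nat_lit 0),Row.mk (nat_lit 7560) (nat_lit 43758) (nat_lit 646323) (nat_lit 43945) (nat_lit 3659217) (nat_lit 0) (nat_lit 0),Row.mk (nat_lit 7728) (nat_lit 43758) (nat_lit 646323) (nat_lit 43945) (nat_lit 3659217) (nat_lit 0) (nat_lit 0),Row.mk (nat_lit 7896) (nat_lit 43758) (nat_lit 646323) (nat_lit 43945) (nat_lit 3659217) (nat_lit 0) (nat_lit 0),Row.mk (nat_lit 8064) (nat_lit 43758) (nat_lit 646323) (nat_lit 43945) (nat_lit 3659216)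 (nat_lit 0) (nat_lit 0),Row.mk (nat_lit 8232) (nat_lit 42262) (nat_lit 1) (nat_lit 43758) (nat_lit 646323) (nat_lit 43945) (nat_lit 3659216),Row.mk (nat_lit 8400) (nat_lit 42262) (nat_lit 1) (nat_lit 43758) (nat_lit 646324) (nat_lit 43945) (nat_lit 3659216),Row.mk (nat_lit 8568) (nat_lit 42262) (nat_lit 1) (nat_lit 43758) (nat_lit 646324) (nat_lit 43945) (nat_lit 3659215),Row.mk (nat_lit 8736) (nat_lit 42262) (nat_lit 2) (nat_lit 43758) (nat_lit 646325) (nat_lit 43945) (nat_lit 3659214),Row.mk (nat_lit 8904) (nat_lit 42262) (nat_lit 2) (nat_lit 43758) (nat_lit 646325) (nat_lit 43945) (nat_lit 3659213),Row.mk (nat_lit 9072) (nat_lit 42262) (nat_lit 3) (nat_lit 43758) (nat_lit 646326) (nat_lit 43945) (nat_lit 3659212),Row.mk (nat_lit 9240) (nat_lit 42262) (nat_lit 4) (nat_lit 43758) (nat_lit 646327) (nat_lit 43945) (nat_lit 3659211),Row.mk (nat_lit 9408) (nat_lit 42262) (nat_lit 5) (nat_lit 43758) (nat_lit 646328) (nat_lit 43945) (nat_lit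 3659209),Row.mk (nat_lit 9576) (nat_lit 42262) (nat_lit 6) (nat_lit 43758) (nat_lit 646330) (nat_lit 43945) (nat_lit 3659207),Row.mk (nat_lit 9744) (nat_lit 42262) (nat_lit 8) (nat_lit 43758) (nat_lit 646331) (nat_lit 43945) (nat_lit 3659204),Row.mk (nat_lit 9912) (nat_lit 42262) (nat_lit 10) (nat_lit 43758) (nat_lit 646334) (nat_lit 43945) (nat_lit 3659200),Row.mk (nat_lit 10080) (nat_lit 42262) (nat_lit 13) (nat_lit 43758) (nat_lit 646337) (nat_lit 43945) (nat_lit 3659196),Row.mk (nat_lit 10248) (nat_lit 42262) (nat_lit 16) (nat_lit 43758) (nat_lit 646340) (nat_lit 43945) (nat_lit 3659190),Row.mk (nat_lit 10416) (nat_lit 42262) (nat_lit 21) (nat_lit 43758) (nat_lit 646345) (nat_lit 43945) (nat_lit 3659183),Row.mk (nat_lit 10584) (nat_lit 42262) (nat_lit 26) (nat_lit 43758) (nat_lit 646350) (nat_lit 43945) (nat_lit 3659175),Row.mk (nat_lit 10752) (nat_lit 42262) (nat_lit 32) (nat_lit 43758) (nat_lit 646357) (nat_lit 43945) (nat_lit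 3659164),Row.mk (nat_lit 10920) (nat_lit 42262) (nat_lit 41) (nat_lit 43758) (nat_lit 646366) (nat_lit 43945) (nat_lit 3659150),Row.mk (nat_lit 11088) (nat_lit 42262) (nat_lit 51) (nat_lit 43758) (nat_lit 646376) (nat_lit 43945) (nat_lit 3659133),Row.mk (nat_lit 11256) (nat_lit 42262) (nat_lit 64) (nat_lit 43758) (nat_lit 646390) (nat_lit 43945) (nat_lit 3659112),Row.mk (nat_lit 11424) (nat_lit 42262) (nat_lit 80) (nat_lit 43758) (nat_lit 646407) (nat_lit 43945) (nat_lit 3659086),Row.mk (nat_lit 11592) (nat_lit 42262) (nat_lit 100) (nat_lit 43758) (nat_lit 646428) (nat_lit 43945) (nat_lit 3659053),Row.mk (nat_lit 11760) (nat_lit 42262) (nat_lit 125) (nat_lit 43758) (nat_lit 646454) (nat_lit 43945) (nat_lit 3659012),Row.mk (nat_lit 11928) (nat_lit 42262) (nat_lit 156) (nat_lit 43758) (nat_lit 646487) (nat_lit 43945) (nat_lit 3658961),Row.mk (nat_lit 12096) (nat_lit 42262) (nat_lit 195) (nat_lit 43758) (nat_lit 646528) (nat_lit 43945)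 (nat_lit 3658897),Row.mk (nat_lit 12264) (nat_lit 42262) (nat_lit 243) (nat_lit 43758) (nat_lit 646579) (nat_lit 43945) (nat_lit 3658817),Row.mk (nat_lit 12432) (nat_lit 42262) (nat_lit 304) (nat_lit 43758) (nat_lit 646643) (nat_lit 43945) (nat_lit 3658717),Row.mk (nat_lit 12600) (nat_lit 42262) (nat_lit 380) (nat_lit 43758) (nat_lit 646723) (nat_lit 43945) (nat_lit 3658592),Row.mk (nat_lit 12768) (nat_lit 42262) (nat_lit 475) (nat_lit 43758) (nat_lit 646823) (nat_lit 43945) (nat_lit 3658436),Row.mk (nat_lit 12936) (nat_lit 42262) (nat_lit 593) (nat_lit 43758) (nat_lit 646948) (nat_lit 43945) (nat_lit 3658242),Row.mk (nat_lit 13104) (nat_lit 42262) (nat_lit 741) (nat_lit 43758) (nat_lit 647104) (nat_lit 43945) (nat_lit 3657999),Row.mk (nat_lit 13272) (nat_lit 42262) (nat_lit 925) (nat_lit 43758) (nat_lit 647298) (nat_lit 43945) (nat_lit 3657695),Row.mk (nat_lit 13440) (nat_lit 42262) (nat_lit 1156) (nat_lit 43758) (nat_lit 647541)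 (nat_lit 43945) (nat_lit 3657316),Row.mk (nat_lit 13608) (nat_lit 42262) (nat_lit 1443) (nat_lit 43758) (nat_lit 647845) (nat_lit 43945) (nat_lit 3656843),Row.mk (nat_lit 13776) (nat_lit 42262) (nat_lit 1803) (nat_lit 43758) (nat_lit 648224) (nat_lit 43945) (nat_lit 3656251),Row.mk (nat_lit 13944) (nat_lit 42262) (nat_lit 2252) (nat_lit 43758) (nat_lit 648697) (nat_lit 43945) (nat_lit 3655513),Row.mk (nat_lit 14112) (nat_lit 42262) (nat_lit 2813) (nat_lit 43758) (nat_lit 649289) (nat_lit 43945) (nat_lit 3654590),Row.mk (nat_lit 14280) (nat_lit 42262) (nat_lit 3513) (nat_lit 43758) (nat_lit 650027) (nat_lit 43945) (nat_lit 3653438),Row.mk (nat_lit 14448) (nat_lit 42262) (nat_lit 4388) (nat_lit 43758) (nat_lit 650950) (nat_lit 43945) (nat_lit 3651999),Row.mk (nat_lit 14616) (nat_lit 42262) (nat_lit 5481) (nat_lit 43758) (nat_lit 652102) (nat_lit 43945) (nat_lit 3650202),Row.mk (nat_lit 14784) (nat_lit 42262) (nat_lit 6846) (nat_lit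 43758) (nat_lit 653541) (nat_lit 43945) (nat_lit 3647957),Row.mk (nat_lit 14952) (nat_lit 42262) (nat_lit 8550) (nat_lit 43758) (nat_lit 655339) (nat_lit 43945) (nat_lit 3645153),Row.mk (nat_lit 15120) (nat_lit 42262) (nat_lit 10679) (nat_lit 43758) (nat_lit 657583) (nat_lit 43945) (nat_lit 3641651),Row.mk (nat_lit 15288) (nat_lit 42262) (nat_lit 13338) (nat_lit 43758) (nat_lit 660387) (nat_lit 43945) (nat_lit 3637277),Row.mk (nat_lit 15456) (nat_lit 42262) (nat_lit 16659) (nat_lit 43758) (nat_lit 663889) (nat_lit 43945) (nat_lit 3631815),Row.mk (nat_lit 15624) (nat_lit 42262) (nat_lit 20806) (nat_lit 43758) (nat_lit 668263) (nat_lit 43945) (nat_lit 3624992),Row.mk (nat_lit 15792) (nat_lit 42262) (nat_lit 25987) (nat_lit 43758) (nat_lit 673726) (nat_lit 43945) (nat_lit 3616470),Row.mk (nat_lit 15960) (nat_lit 42262) (nat_lit 32457) (nat_lit 43758) (nat_lit 680548) (nat_lit 43945) (nat_lit 3605827),Row.mk (nat_lit 16128) (nat_lit 42262)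 (nat_lit 40538) (nat_lit 43758) (nat_lit 689070) (nat_lit 43945) (nat_lit 3592534),Row.mk (nat_lit 16296) (nat_lit 42262) (nat_lit 50631) (nat_lit 43758) (nat_lit 699713) (nat_lit 43945) (nat_lit 3575932),Row.mk (nat_lit 16464) (nat_lit 42262) (nat_lit 63237) (nat_lit 43758) (nat_lit 713006) (nat_lit 43945) (nat_lit 3555195),Row.mk (nat_lit 16632) (nat_lit 42262) (nat_lit 78982) (nat_lit 43758) (nat_lit 729608) (nat_lit 43945) (nat_lit 3529296),Row.mk (nat_lit 16800) (nat_lit 42262) (nat_lit 98647) (nat_lit 43758) (nat_lit 750345) (nat_lit 43945) (nat_lit 3496949),Row.mk (nat_lit 16968) (nat_lit 42262) (nat_lit 123208) (nat_lit 43758) (nat_lit 776244) (nat_lit 43945) (nat_lit 3456548),Row.mk (nat_lit 17136) (nat_lit 42262) (nat_lit 153884) (nat_lit 43758) (nat_lit 808591) (nat_lit 43945) (nat_lit 3406088),Row.mk (nat_lit 17304) (nat_lit 42262) (nat_lit 192197) (nat_lit 43758) (nat_lit 848992) (nat_lit 43945) (nat_lit 3343065),Row.mk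 (nat_lit 17472) (nat_lit 42262) (nat_lit 240050) (nat_lit 43758) (nat_lit 899452) (nat_lit 43945) (nat_lit 3264350),Row.mk (nat_lit 17640) (nat_lit 42262) (nat_lit 299817) (nat_lit 43758) (nat_lit 962475) (nat_lit 43945) (nat_lit 3166038),Row.mk (nat_lit 17808) (nat_lit 42262) (nat_lit 374464) (nat_lit 43758) (nat_lit 1041190) (nat_lit 43945) (nat_lit 3043248),Row.mk (nat_lit 17976) (nat_lit 42262) (nat_lit 467696) (nat_lit 43758) (nat_lit 1139502) (nat_lit 43945) (nat_lit 2889886),Row.mk (nat_lit 18144) (nat_lit 42262) (nat_lit 584142) (nat_lit 43758) (nat_lit 1262292) (nat_lit 43945) (nat_lit 2698341),Row.mk (nat_lit 18312) (nat_lit 42262) (nat_lit 729579) (nat_lit 43758) (nat_lit 1415654) (nat_lit 43945) (nat_lit 2459106),Row.mk (nat_lit 18480) (nat_lit 42262) (nat_lit 911226) (nat_lit 43758) (nat_lit 1607199) (nat_lit 43945) (nat_lit 2160307),Row.mk (nat_lit 18648) (nat_lit 42262) (nat_lit 1138100) (nat_lit 43758) (nat_lit 1846435)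 (nat_lit 43945) (nat_lit 1787114),Row.mk (nat_lit 18816) (nat_lit 42262) (nat_lit 1421460) (nat_lit 43758) (nat_lit 2145234) (nat_lit 43945) (nat_lit 1321005),Row.mk (nat_lit 18984) (nat_lit 42262) (nat_lit 1775369) (nat_lit 43758) (nat_lit 2518426) (nat_lit 43945) (nat_lit 738847),Row.mk (nat_lit 19152) (nat_lit 42262) (nat_lit 2217393) (nat_lit 43758) (nat_lit 2984535) (nat_lit 43945) (nat_lit 11745),Row.mk (nat_lit 19320) (nat_lit 42075) (nat_lit 1119566) (nat_lit 42262) (nat_lit 1649904) (nat_lit 43758) (nat_lit 2670306),Row.mk (nat_lit 19488) (nat_lit 42075) (nat_lit 2536200) (nat_lit 42262) (nat_lit 922802) (nat_lit 43758) (nat_lit 2263172),Row.mk (nat_lit 19656) (nat_lit 42075) (nat_lit 4305541) (nat_lit 42262) (nat_lit 14669) (nat_lit 43758) (nat_lit 1754671),Row.mk (nat_lit 19824) (nat_lit 42075) (nat_lit 5395838) (nat_lit 43571) (nat_lit 1119566) (nat_lit 0) (nat_lit 0),Row.mk (nat_lit 19992) (nat_lit 41888) (nat_lit 2760067)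 (nat_lit 42075) (nat_lit 3979205) (nat_lit 43571) (nat_lit 326335),Row.mk (nat_lit 20160) (nat_lit 39831) (nat_lit 829807) (nat_lit 41888) (nat_lit 5377517) (nat_lit 42075) (nat_lit 1545474),Row.mk (nat_lit 20328) (nat_lit 39644) (nat_lit 2375281) (nat_lit 41888) (nat_lit 6235801) (nat_lit 0) (nat_lit 0),Row.mk (nat_lit 20496) (nat_lit 39644) (nat_lit 4305541) (nat_lit 41701) (nat_lit 3447257) (nat_lit 41888) (nat_lit 1930259),Row.mk (nat_lit 20664) (nat_lit 39457) (nat_lit 4305541) (nat_lit 39644) (nat_lit 2410847) (nat_lit 41701) (nat_lit 4305541),Row.mk (nat_lit 20832) (nat_lit 39457) (nat_lit 9727480) (nat_lit 41514) (nat_lit 2966669) (nat_lit 0) (nat_lit 0),Row.mk (nat_lit 21000) (nat_lit 39270) (nat_lit 10477169) (nat_lit 39457) (nat_lit 3011090) (nat_lit 41514) (nat_lit 1294450),Row.mk (nat_lit 21168) (nat_lit 32538) (nat_lit 991825) (nat_lit 39083) (nat_lit 6716389) (nat_lit 39270) (nat_lit 9683058),Row.mk (nat_lit 21336)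 (nat_lit 32351) (nat_lit 4249856) (nat_lit 39083) (nat_lit 16399447) (nat_lit 0) (nat_lit 0),Row.mk (nat_lit 21504) (nat_lit 32351) (nat_lit 8319059) (nat_lit 38896) (nat_lit 16343762) (nat_lit 39083) (nat_lit 55684),Row.mk (nat_lit 21672) (nat_lit 32164) (nat_lit 13401395) (nat_lit 38709) (nat_lit 12024357) (nat_lit 38896) (nat_lit 4375089),Row.mk (nat_lit 21840) (nat_lit 31977) (nat_lit 19749110) (nat_lit 38522) (nat_lit 6629524) (nat_lit 38709) (nat_lit 9769923),Row.mk (nat_lit 22008) (nat_lit 31790) (nat_lit 27568761) (nat_lit 31977) (nat_lit 108491) (nat_lit 38522) (nat_lit 16399447),Row.mk (nat_lit 22176) (nat_lit 31603) (nat_lit 29055200) (nat_lit 31790) (nat_lit 8524111) (nat_lit 38335) (nat_lit 16399447),Row.mk (nat_lit 22344) (nat_lit 31416) (nat_lit 30911727) (nat_lit 31603) (nat_lit 19035018) (nat_lit 38148) (nat_lit 16399447),Row.mk (nat_lit 22512) (nat_lit 31229) (nat_lit 33230484) (nat_lit 31416) (nat_lit 32162886)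 (nat_lit 37961) (nat_lit 16399447),Row.mk (nat_lit 22680) (nat_lit 31042) (nat_lit 36126556) (nat_lit 31229) (nat_lit 48559277) (nat_lit 37774) (nat_lit 16399447),Row.mk (nat_lit 22848) (nat_lit 30855) (nat_lit 39743680) (nat_lit 31042) (nat_lit 69037973) (nat_lit 37587) (nat_lit 16399447),Row.mk (nat_lit 23016) (nat_lit 30668) (nat_lit 44261381) (nat_lit 30855) (nat_lit 94615371) (nat_lit 37400) (nat_lit 16399447),Row.mk (nat_lit 23184) (nat_lit 30481) (nat_lit 49903880) (nat_lit 30668) (nat_lit 126560924) (nat_lit 37213) (nat_lit 16399447),Row.mk (nat_lit 23352) (nat_lit 30294) (nat_lit 56951225) (nat_lit 30481) (nat_lit 166460149) (nat_lit 37026) (nat_lit 16399447),Row.mk (nat_lit 23520) (nat_lit 30107) (nat_lit 65753189) (nat_lit 30294) (nat_lit 216293319) (nat_lit 36839) (nat_lit 16399447),Row.mk (nat_lit 23688) (nat_lit 29920) (nat_lit 76746630) (nat_lit 30107) (nat_lit 278533746) (nat_lit 36652) (nat_lit 16399447),Row.mk (nat_lit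 23856) (nat_lit 29733) (nat_lit 90477173) (nat_lit 29920) (nat_lit 356270538) (nat_lit 36465) (nat_lit 16399447),Row.mk (nat_lit 24024) (nat_lit 29546) (nat_lit 107626289) (nat_lit 29733) (nat_lit 453361915) (nat_lit 36278) (nat_lit 16399447),Row.mk (nat_lit 24192) (nat_lit 29359) (nat_lit 129045122) (nat_lit 29546) (nat_lit 574626703) (nat_lit 36091) (nat_lit 16399447),Row.mk (nat_lit 24360) (nat_lit 29172) (nat_lit 155796728) (nat_lit 29359) (nat_lit 726083498) (nat_lit 35904) (nat_lit 16399447),Row.mk (nat_lit 24528) (nat_lit 28985) (nat_lit 189208837) (nat_lit 29172) (nat_lit 915249381) (nat_lit 35717) (nat_lit 16399447),Row.mk (nat_lit 24696) (nat_lit 28798) (nat_lit 230939757) (nat_lit 28985) (nat_lit 1151513006) (nat_lit 35530) (nat_lit 16399447),Row.mk (nat_lit 24864) (nat_lit 28611) (nat_lit 283060668) (nat_lit 28798) (nat_lit 1446600574) (nat_lit 35343) (nat_lit 16399447),Row.mk (nat_lit 25032) (nat_lit 28424) (nat_lit 348158429)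 (nat_lit 28611) (nat_lit 1815157827) (nat_lit 35156) (nat_lit 16399447),Row.mk (nat_lit 25200) (nat_lit 28237) (nat_lit 429463961) (nat_lit 28424) (nat_lit 2275476946) (nat_lit 34969) (nat_lit 16399447),Row.mk (nat_lit 25368) (nat_lit 28050) (nat_lit 531012611) (nat_lit 28237) (nat_lit 2850404420) (nat_lit 34782) (nat_lit 16399447),Row.mk (nat_lit 25536) (nat_lit 27863) (nat_lit 657844424) (nat_lit 28050) (nat_lit 3568474966) (nat_lit 34595) (nat_lit 16399447),Row.mk (nat_lit 25704) (nat_lit 27676) (nat_lit 816254298) (nat_lit 27863) (nat_lit 4465327756) (nat_lit 34408) (nat_lit 16399447),Row.mk (nat_lit 25872) (nat_lit 27489) (nat_lit 1014104410) (nat_lit 27676) (nat_lit 5585475255) (nat_lit 34221) (nat_lit 16399447),Row.mk (nat_lit 26040) (nat_lit 27302) (nat_lit 1261214428) (nat_lit 27489) (nat_lit 6984512458) (nat_lit 34034) (nat_lit 16399447),Row.mk (nat_lit 26208) (nat_lit 32912) (nat_lit 12694149) (nat_lit 62084) (nat_lit 10305430352)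 (nat_lit 0) (nat_lit 0),Row.mk (nat_lit 26376) (nat_lit 32912) (nat_lit 12694149) (nat_lit 62084) (nat_lit 12873322465) (nat_lit 0) (nat_lit 0),Row.mk (nat_lit 26544) (nat_lit 32912) (nat_lit 12694149) (nat_lit 62084) (nat_lit 16080557766) (nat_lit 0) (nat_lit 0),Row.mk (nat_lit 26712) (nat_lit 32912) (nat_lit 12694149) (nat_lit 62084) (nat_lit 20086317287) (nat_lit 0) (nat_lit 0),Row.mk (nat_lit 26880) (nat_lit 32912) (nat_lit 12694149) (nat_lit 62084) (nat_lit 25089414294) (nat_lit 0) (nat_lit 0),Row.mk (nat_lit 27048) (nat_lit 32912) (nat_lit 12694149) (nat_lit 62084) (nat_lit 31338161762) (nat_lit 0) (nat_lit 0),Row.mk (nat_lit 27216) (nat_lit 32912) (nat_lit 12694149) (nat_lit 62084) (nat_lit 39142696606) (nat_lit 0) (nat_lit 0),Row.mk (nat_lit 27384) (nat_lit 32912) (nat_lit 12694149) (nat_lit 62084) (nat_lit 48890372351) (nat_lit 0) (nat_lit 0),Row.mk (nat_lit 27552) (nat_lit 32912) (nat_lit 12694149) (nat_lit 62084) (nat_lit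 61064984206) (nat_lit 0) (nat_lit 0),Row.mk (nat_lit 27720) (nat_lit 32912) (nat_lit 12694149) (nat_lit 62084) (nat_lit 76270780715) (nat_lit 0) (nat_lit 0),Row.mk (nat_lit 27888) (nat_lit 32912) (nat_lit 12694149) (nat_lit 62084) (nat_lit 95262453733) (nat_lit 0) (nat_lit 0),Row.mk (nat_lit 28056) (nat_lit 32912) (nat_lit 12694149) (nat_lit 62084) (nat_lit 118982595181) (nat_lit 0) (nat_lit 0),Row.mk (nat_lit 28224) (nat_lit 32912) (nat_lit 12694149) (nat_lit 62084) (nat_lit 148608479629) (nat_lit 0) (nat_lit 0),Row.mk (nat_lit 28392) (nat_lit 32912) (nat_lit 12694149) (nat_lit 62084) (nat_lit 185610494615) (nat_lit 0) (nat_lit 0),Row.mk (nat_lit 28560) (nat_lit 32912) (nat_lit 12694149) (nat_lit 62084) (nat_lit 231825118704) (nat_lit 0) (nat_lit 0),Row.mk (nat_lit 28728) (nat_lit 32912) (nat_lit 12694149) (nat_lit 62084) (nat_lit 289546069319) (nat_lit 0) (nat_lit 0),Row.mk (nat_lit 28896) (nat_lit 32912) (nat_lit 12694149) (nat_lit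 62084) (nat_lit 361638144187) (nat_lit 0) (nat_lit 0),Row.mk (nat_lit 29064) (nat_lit 32912) (nat_lit 12694149) (nat_lit 62084) (nat_lit 451679406563) (nat_lit 0) (nat_lit 0),Row.mk (nat_lit 29232) (nat_lit 32912) (nat_lit 12694149) (nat_lit 62084) (nat_lit 564138771133) (nat_lit 0) (nat_lit 0),Row.mk (nat_lit 29400) (nat_lit 32912) (nat_lit 12694149) (nat_lit 62084) (nat_lit 704597804532) (nat_lit 0) (nat_lit 0),Row.mk (nat_lit 29568) (nat_lit 32912) (nat_lit 12694149) (nat_lit 62084) (nat_lit 880027748841) (nat_lit 0) (nat_lit 0),Row.mk (nat_lit 29736) (nat_lit 32912) (nat_lit 12694149) (nat_lit 62084) (nat_lit 1099135517246) (nat_lit 0) (nat_lit 0),Row.mk (nat_lit 29904) (nat_lit 32912) (nat_lit 12694149) (nat_lit 62084) (nat_lit 1372795834270) (nat_lit 0) (nat_lit 0),Row.mk (nat_lit 30072) (nat_lit 32912) (nat_lit 12694149) (nat_lit 62084) (nat_lit 1714590968505) (nat_lit 0) (nat_lit 0),Row.mk (nat_lit 30240) (nat_lit 32912) (nat_lit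 12694149) (nat_lit 62084) (nat_lit 2141484845766) (nat_lit 0) (nat_lit 0)],
[Row.mk (nat_lit 4704) (nat_lit 42262) (nat_lit 4254498) (nat_lit 42449) (nat_lit 1123018) (nat_lit 0) (nat_lit 0),Row.mk (nat_lit 4872) (nat_lit 42262) (nat_lit 4254498) (nat_lit 42449) (nat_lit 1123018) (nat_lit 0) (nat_lit 0),Row.mk (nat_lit 5040) (nat_lit 42262) (nat_lit 4254498) (nat_lit 42449) (nat_lit 1123018) (nat_lit 0) (nat_lit 0),Row.mk (nat_lit 5208) (nat_lit 42262) (nat_lit 4254498) (nat_lit 42449) (nat_lit 1123018) (nat_lit 0) (nat_lit 0),Row.mk (nat_lit 5376) (nat_lit 42262) (nat_lit 4254498) (nat_lit 42449) (nat_lit 1123018) (nat_lit 0) (nat_lit 0),Row.mk (nat_lit 5544) (nat_lit 42262) (nat_lit 4254498) (nat_lit 42449) (nat_lit 1123018) (nat_lit 0) (nat_lit 0),Row.mk (nat_lit 5712) (nat_lit 42262) (nat_lit 4254498) (nat_lit 42449) (nat_lit 1123018) (nat_lit 0) (nat_lit 0),Row.mk (nat_lit 5880) (nat_lit 42262) (nat_lit 4254498) (nat_lit 42449)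 (nat_lit 1123018) (nat_lit 0) (nat_lit 0),Row.mk (nat_lit 6048) (nat_lit 42262) (nat_lit 4254498) (nat_lit 42449) (nat_lit 1123018) (nat_lit 0) (nat_lit 0),Row.mk (nat_lit 6216) (nat_lit 42262) (nat_lit 4254498) (nat_lit 42449) (nat_lit 1123018) (nat_lit 0) (nat_lit 0),Row.mk (nat_lit 6384) (nat_lit 42262) (nat_lit 4254498) (nat_lit 42449) (nat_lit 1123018) (nat_lit 0) (nat_lit 0),Row.mk (nat_lit 6552) (nat_lit 42262) (nat_lit 4254498) (nat_lit 42449) (nat_lit 1123018) (nat_lit 0) (nat_lit 0),Row.mk (nat_lit 6720) (nat_lit 42262) (nat_lit 4254499) (nat_lit 42449) (nat_lit 1123018) (nat_lit 0) (nat_lit 0),Row.mk (nat_lit 6888) (nat_lit 42262) (nat_lit 4254499) (nat_lit 42449) (nat_lit 1123017) (nat_lit 0) (nat_lit 0),Row.mk (nat_lit 7056) (nat_lit 42262) (nat_lit 4254499) (nat_lit 42449) (nat_lit 1123017) (nat_lit 0) (nat_lit 0),Row.mk (nat_lit 7224) (nat_lit 42262) (nat_lit 4254499) (nat_lit 42449) (nat_lit 1123017) (nat_lit 0) (nat_lit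 0),Row.mk (nat_lit 7392) (nat_lit 42262) (nat_lit 4254499) (nat_lit 42449) (nat_lit 1123017) (nat_lit 0) (nat_lit 0),Row.mk (nat_lit 7560) (nat_lit 42262) (nat_lit 4254499) (nat_lit 42449) (nat_lit 1123017) (nat_lit 0) (nat_lit 0),Row.mk (nat_lit 7728) (nat_lit 42262) (nat_lit 4254499) (nat_lit 42449) (nat_lit 1123017) (nat_lit 0) (nat_lit 0),Row.mk (nat_lit 7896) (nat_lit 42262) (nat_lit 4254499) (nat_lit 42449) (nat_lit 1123017) (nat_lit 0) (nat_lit 0),Row.mk (nat_lit 8064) (nat_lit 42262) (nat_lit 4254500) (nat_lit 42449) (nat_lit 1123016) (nat_lit 0) (nat_lit 0),Row.mk (nat_lit 8232) (nat_lit 42262) (nat_lit 4254500) (nat_lit 42449) (nat_lit 1123016) (nat_lit 0) (nat_lit 0),Row.mk (nat_lit 8400) (nat_lit 40205) (nat_lit 1) (nat_lit 42262) (nat_lit 4254500) (nat_lit 42449) (nat_lit 1123015),Row.mk (nat_lit 8568) (nat_lit 40205) (nat_lit 1) (nat_lit 42262) (nat_lit 4254501) (nat_lit 42449) (nat_lit 1123015),Row.mk (nat_lit 8736)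 (nat_lit 40205) (nat_lit 1) (nat_lit 42262) (nat_lit 4254501) (nat_lit 42449) (nat_lit 1123014),Row.mk (nat_lit 8904) (nat_lit 40205) (nat_lit 2) (nat_lit 42262) (nat_lit 4254502) (nat_lit 42449) (nat_lit 1123013),Row.mk (nat_lit 9072) (nat_lit 40205) (nat_lit 2) (nat_lit 42262) (nat_lit 4254503) (nat_lit 42449) (nat_lit 1123012),Row.mk (nat_lit 9240) (nat_lit 40205) (nat_lit 3) (nat_lit 42262) (nat_lit 4254504) (nat_lit 42449) (nat_lit 1123010),Row.mk (nat_lit 9408) (nat_lit 40205) (nat_lit 4) (nat_lit 42262) (nat_lit 4254506) (nat_lit 42449) (nat_lit 1123009),Row.mk (nat_lit 9576) (nat_lit 40205) (nat_lit 5) (nat_lit 42262) (nat_lit 4254507) (nat_lit 42449) (nat_lit 1123006),Row.mk (nat_lit 9744) (nat_lit 40205) (nat_lit 6) (nat_lit 42262) (nat_lit 4254510) (nat_lit 42449) (nat_lit 1123004),Row.mk (nat_lit 9912) (nat_lit 40205) (nat_lit 8) (nat_lit 42262) (nat_lit 4254513) (nat_lit 42449) (nat_lit 1123000),Row.mk (nat_lit 10080)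 (nat_lit 40205) (nat_lit 9) (nat_lit 42262) (nat_lit 4254516) (nat_lit 42449) (nat_lit 1122996),Row.mk (nat_lit 10248) (nat_lit 40205) (nat_lit 12) (nat_lit 42262) (nat_lit 4254521) (nat_lit 42449) (nat_lit 1122990),Row.mk (nat_lit 10416) (nat_lit 40205) (nat_lit 15) (nat_lit 42262) (nat_lit 4254526) (nat_lit 42449) (nat_lit 1122983),Row.mk (nat_lit 10584) (nat_lit 40205) (nat_lit 19) (nat_lit 42262) (nat_lit 4254533) (nat_lit 42449) (nat_lit 1122974),Row.mk (nat_lit 10752) (nat_lit 40205) (nat_lit 24) (nat_lit 42262) (nat_lit 4254542) (nat_lit 42449) (nat_lit 1122964),Row.mk (nat_lit 10920) (nat_lit 40205) (nat_lit 30) (nat_lit 42262) (nat_lit 4254553) (nat_lit 42449) (nat_lit 1122950),Row.mk (nat_lit 11088) (nat_lit 40205) (nat_lit 37) (nat_lit 42262) (nat_lit 4254566) (nat_lit 42449) (nat_lit 1122933),Row.mk (nat_lit 11256) (nat_lit 40205) (nat_lit 47) (nat_lit 42262) (nat_lit 4254583) (nat_lit 42449) (nat_lit 1122912),Row.mk (nat_lit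 11424) (nat_lit 40205) (nat_lit 59) (nat_lit 42262) (nat_lit 4254604) (nat_lit 42449) (nat_lit 1122886),Row.mk (nat_lit 11592) (nat_lit 40205) (nat_lit 73) (nat_lit 42262) (nat_lit 4254630) (nat_lit 42449) (nat_lit 1122853),Row.mk (nat_lit 11760) (nat_lit 40205) (nat_lit 92) (nat_lit 42262) (nat_lit 4254663) (nat_lit 42449) (nat_lit 1122812),Row.mk (nat_lit 11928) (nat_lit 40205) (nat_lit 115) (nat_lit 42262) (nat_lit 4254704) (nat_lit 42449) (nat_lit 1122761),Row.mk (nat_lit 12096) (nat_lit 40205) (nat_lit 143) (nat_lit 42262) (nat_lit 4254755) (nat_lit 42449) (nat_lit 1122697),Row.mk (nat_lit 12264) (nat_lit 40205) (nat_lit 179) (nat_lit 42262) (nat_lit 4254819) (nat_lit 42449) (nat_lit 1122617),Row.mk (nat_lit 12432) (nat_lit 40205) (nat_lit 224) (nat_lit 42262) (nat_lit 4254899) (nat_lit 42449) (nat_lit 1122517),Row.mk (nat_lit 12600) (nat_lit 40205) (nat_lit 280) (nat_lit 42262) (nat_lit 4254999) (nat_lit 42449) (nat_lit 1122392),Row.mk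 (nat_lit 12768) (nat_lit 40205) (nat_lit 350) (nat_lit 42262) (nat_lit 4255124) (nat_lit 42449) (nat_lit 1122236),Row.mk (nat_lit 12936) (nat_lit 40205) (nat_lit 437) (nat_lit 42262) (nat_lit 4255280) (nat_lit 42449) (nat_lit 1122042),Row.mk (nat_lit 13104) (nat_lit 40205) (nat_lit 546) (nat_lit 42262) (nat_lit 4255474) (nat_lit 42449) (nat_lit 1121799),Row.mk (nat_lit 13272) (nat_lit 40205) (nat_lit 682) (nat_lit 42262) (nat_lit 4255717) (nat_lit 42449) (nat_lit 1121495),Row.mk (nat_lit 13440) (nat_lit 40205) (nat_lit 852) (nat_lit 42262) (nat_lit 4256021) (nat_lit 42449) (nat_lit 1121116),Row.mk (nat_lit 13608) (nat_lit 40205) (nat_lit 1064) (nat_lit 42262) (nat_lit 4256400) (nat_lit 42449) (nat_lit 1120643),Row.mk (nat_lit 13776) (nat_lit 40205) (nat_lit 1329) (nat_lit 42262) (nat_lit 4256874) (nat_lit 42449) (nat_lit 1120051),Row.mk (nat_lit 13944) (nat_lit 40205) (nat_lit 1661) (nat_lit 42262) (nat_lit 4257465) (nat_lit 42449)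 (nat_lit 1119313),Row.mk (nat_lit 14112) (nat_lit 40205) (nat_lit 2074) (nat_lit 42262) (nat_lit 4258204) (nat_lit 42449) (nat_lit 1118390),Row.mk (nat_lit 14280) (nat_lit 40205) (nat_lit 2591) (nat_lit 42262) (nat_lit 4259126) (nat_lit 42449) (nat_lit 1117238),Row.mk (nat_lit 14448) (nat_lit 40205) (nat_lit 3236) (nat_lit 42262) (nat_lit 4260278) (nat_lit 42449) (nat_lit 1115799),Row.mk (nat_lit 14616) (nat_lit 40205) (nat_lit 4042) (nat_lit 42262) (nat_lit 4261717) (nat_lit 42449) (nat_lit 1114001),Row.mk (nat_lit 14784) (nat_lit 40205) (nat_lit 5048) (nat_lit 42262) (nat_lit 4263515) (nat_lit 42449) (nat_lit 1111757),Row.mk (nat_lit 14952) (nat_lit 40205) (nat_lit 6305) (nat_lit 42262) (nat_lit 4265760) (nat_lit 42449) (nat_lit 1108953),Row.mk (nat_lit 15120) (nat_lit 40205) (nat_lit 7875) (nat_lit 42262) (nat_lit 4268563) (nat_lit 42449) (nat_lit 1105451),Row.mk (nat_lit 15288) (nat_lit 40205) (nat_lit 9836) (nat_lit 42262) (nat_lit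 4272065) (nat_lit 42449) (nat_lit 1101077),Row.mk (nat_lit 15456) (nat_lit 40205) (nat_lit 12285) (nat_lit 42262) (nat_lit 4276439) (nat_lit 42449) (nat_lit 1095614),Row.mk (nat_lit 15624) (nat_lit 40205) (nat_lit 15344) (nat_lit 42262) (nat_lit 4281902) (nat_lit 42449) (nat_lit 1088792),Row.mk (nat_lit 15792) (nat_lit 40205) (nat_lit 19164) (nat_lit 42262) (nat_lit 4288724) (nat_lit 42449) (nat_lit 1080270),Row.mk (nat_lit 15960) (nat_lit 40205) (nat_lit 23936) (nat_lit 42262) (nat_lit 4297246) (nat_lit 42449) (nat_lit 1069627),Row.mk (nat_lit 16128) (nat_lit 40205) (nat_lit 29895) (nat_lit 42262) (nat_lit 4307889) (nat_lit 42449) (nat_lit 1056334),Row.mk (nat_lit 16296) (nat_lit 40205) (nat_lit 37338) (nat_lit 42262) (nat_lit 4321182) (nat_lit 42449) (nat_lit 1039732),Row.mk (nat_lit 16464) (nat_lit 40205) (nat_lit 46635) (nat_lit 42262) (nat_lit 4337785) (nat_lit 42449) (nat_lit 1018995),Row.mk (nat_lit 16632) (nat_lit 40205) (nat_lit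 58246) (nat_lit 42262) (nat_lit 4358521) (nat_lit 42449) (nat_lit 993096),Row.mk (nat_lit 16800) (nat_lit 40205) (nat_lit 72748) (nat_lit 42262) (nat_lit 4384420) (nat_lit 42449) (nat_lit 960749),Row.mk (nat_lit 16968) (nat_lit 40205) (nat_lit 90860) (nat_lit 42262) (nat_lit 4416767) (nat_lit 42449) (nat_lit 920348),Row.mk (nat_lit 17136) (nat_lit 40205) (nat_lit 113483) (nat_lit 42262) (nat_lit 4457168) (nat_lit 42449) (nat_lit 869888),Row.mk (nat_lit 17304) (nat_lit 40205) (nat_lit 141737) (nat_lit 42262) (nat_lit 4507628) (nat_lit 42449) (nat_lit 806865),Row.mk (nat_lit 17472) (nat_lit 40205) (nat_lit 177027) (nat_lit 42262) (nat_lit 4570651) (nat_lit 42449) (nat_lit 728150),Row.mk (nat_lit 17640) (nat_lit 40205) (nat_lit 221102) (nat_lit 42262) (nat_lit 4649366) (nat_lit 42449) (nat_lit 629838),Row.mk (nat_lit 17808) (nat_lit 40205) (nat_lit 276151) (nat_lit 42262) (nat_lit 4747679) (nat_lit 42449) (nat_lit 507048),Row.mk (nat_lit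 17976) (nat_lit 40205) (nat_lit 344906) (nat_lit 42262) (nat_lit 4870469) (nat_lit 42449) (nat_lit 353686),Row.mk (nat_lit 18144) (nat_lit 40205) (nat_lit 430780) (nat_lit 42262) (nat_lit 5023830) (nat_lit 42449) (nat_lit 162141),Row.mk (nat_lit 18312) (nat_lit 40018) (nat_lit 96288) (nat_lit 40205) (nat_lit 441745) (nat_lit 42262) (nat_lit 5138281),Row.mk (nat_lit 18480) (nat_lit 40018) (nat_lit 469481) (nat_lit 40205) (nat_lit 202510) (nat_lit 42262) (nat_lit 5078718),Row.mk (nat_lit 18648) (nat_lit 40018) (nat_lit 839301) (nat_lit 42075) (nat_lit 96288) (nat_lit 42262) (nat_lit 4908035),Row.mk (nat_lit 18816) (nat_lit 40018) (nat_lit 1048267) (nat_lit 42075) (nat_lit 469481) (nat_lit 42262) (nat_lit 4441927),Row.mk (nat_lit 18984) (nat_lit 40018) (nat_lit 1309260) (nat_lit 42075) (nat_lit 935590) (nat_lit 42262) (nat_lit 3859768),Row.mk (nat_lit 19152) (nat_lit 40018) (nat_lit 1635234) (nat_lit 42075) (nat_lit 1517748) (nat_lit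 42262) (nat_lit 3132666),Row.mk (nat_lit 19320) (nat_lit 40018) (nat_lit 2042368) (nat_lit 42075) (nat_lit 2244850) (nat_lit 42262) (nat_lit 2224533),Row.mk (nat_lit 19488) (nat_lit 40018) (nat_lit 2550869) (nat_lit 42075) (nat_lit 3152983) (nat_lit 42262) (nat_lit 1090297),Row.mk (nat_lit 19656) (nat_lit 39831) (nat_lit 407585) (nat_lit 40018) (nat_lit 2778388) (nat_lit 42075) (nat_lit 3960883),Row.mk (nat_lit 19824) (nat_lit 39831) (nat_lit 2617449) (nat_lit 40018) (nat_lit 1361755) (nat_lit 42075) (nat_lit 3608176),Row.mk (nat_lit 19992) (nat_lit 39831) (nat_lit 4969931) (nat_lit 41888) (nat_lit 407585) (nat_lit 42075) (nat_lit 2760067),Row.mk (nat_lit 20160) (nat_lit 39831) (nat_lit 6207324) (nat_lit 41888) (nat_lit 2617449) (nat_lit 0) (nat_lit 0),Row.mk (nat_lit 20328) (nat_lit 39644) (nat_lit 4305541) (nat_lit 39831) (nat_lit 3447257) (nat_lit 41888) (nat_lit 1930259),Row.mk (nat_lit 20496) (nat_lit 39644) (nat_lit 9683058)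 (nat_lit 41888) (nat_lit 1071975) (nat_lit 0) (nat_lit 0),Row.mk (nat_lit 20664) (nat_lit 39457) (nat_lit 5377517) (nat_lit 39644) (nat_lit 6716389) (nat_lit 0) (nat_lit 0),Row.mk (nat_lit 20832) (nat_lit 32912) (nat_lit 1672218) (nat_lit 39457) (nat_lit 12093906) (nat_lit 0) (nat_lit 0),Row.mk (nat_lit 21000) (nat_lit 32725) (nat_lit 3760779) (nat_lit 39270) (nat_lit 6716389) (nat_lit 39457) (nat_lit 5377517),Row.mk (nat_lit 21168) (nat_lit 32538) (nat_lit 6369342) (nat_lit 39270) (nat_lit 12093906) (nat_lit 0) (nat_lit 0),Row.mk (nat_lit 21336) (nat_lit 32351) (nat_lit 1238765) (nat_lit 32538) (nat_lit 8388608) (nat_lit 39083) (nat_lit 12093906),Row.mk (nat_lit 21504) (nat_lit 32351) (nat_lit 13696576) (nat_lit 38896) (nat_lit 7955154) (nat_lit 39083) (nat_lit 4138751),Row.mk (nat_lit 21672) (nat_lit 32164) (nat_lit 18778912) (nat_lit 38709) (nat_lit 1547188) (nat_lit 38896) (nat_lit 10546717),Row.mk (nat_lit 21840) (nat_lit 31977)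 (nat_lit 18670420) (nat_lit 32164) (nat_lit 6456206) (nat_lit 38709) (nat_lit 12093906),Row.mk (nat_lit 22008) (nat_lit 31790) (nat_lit 16602515) (nat_lit 31977) (nat_lit 16452254) (nat_lit 38522) (nat_lit 12093906),Row.mk (nat_lit 22176) (nat_lit 31603) (nat_lit 14019752) (nat_lit 31790) (nat_lit 28937077) (nat_lit 38335) (nat_lit 12093906),Row.mk (nat_lit 22344) (nat_lit 31416) (nat_lit 10793943) (nat_lit 31603) (nat_lit 44530319) (nat_lit 38148) (nat_lit 12093906),Row.mk (nat_lit 22512) (nat_lit 31229) (nat_lit 6764985) (nat_lit 31416) (nat_lit 64005902) (nat_lit 37961) (nat_lit 12093906),Row.mk (nat_lit 22680) (nat_lit 31042) (nat_lit 1732914) (nat_lit 31229) (nat_lit 88330436) (nat_lit 37774) (nat_lit 12093906),Row.mk (nat_lit 22848) (nat_lit 31042) (nat_lit 114159171) (nat_lit 37587) (nat_lit 8449303) (nat_lit 37774) (nat_lit 3644602),Row.mk (nat_lit 23016) (nat_lit 30855) (nat_lit 144254270) (nat_lit 37400) (nat_lit 2164368)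 (nat_lit 37587) (nat_lit 9929537),Row.mk (nat_lit 23184) (nat_lit 30668) (nat_lit 176156958) (nat_lit 30855) (nat_lit 5685364) (nat_lit 37400) (nat_lit 12093906),Row.mk (nat_lit 23352) (nat_lit 30481) (nat_lit 213299402) (nat_lit 30668) (nat_lit 15489490) (nat_lit 37213) (nat_lit 12093906),Row.mk (nat_lit 23520) (nat_lit 30294) (nat_lit 259689418) (nat_lit 30481) (nat_lit 27734608) (nat_lit 37026) (nat_lit 12093906),Row.mk (nat_lit 23688) (nat_lit 30107) (nat_lit 317629429) (nat_lit 30294) (nat_lit 43028464) (nat_lit 36839) (nat_lit 12093906),Row.mk (nat_lit 23856) (nat_lit 29920) (nat_lit 389995106) (nat_lit 30107) (nat_lit 62130122) (nat_lit 36652) (nat_lit 12093906),Row.mk (nat_lit 24024) (nat_lit 29733) (nat_lit 480378090) (nat_lit 29920) (nat_lit 85987631) (nat_lit 36465) (nat_lit 12093906),Row.mk (nat_lit 24192) (nat_lit 29546) (nat_lit 593264257) (nat_lit 29733) (nat_lit 115785085) (nat_lit 36278) (nat_lit 12093906),Row.mk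 (nat_lit 24360) (nat_lit 29359) (nat_lit 734256356) (nat_lit 29546) (nat_lit 153001386) (nat_lit 36091) (nat_lit 12093906),Row.mk (nat_lit 24528) (nat_lit 29172) (nat_lit 910352087) (nat_lit 29359) (nat_lit 199483649) (nat_lit 35904) (nat_lit 12093906),Row.mk (nat_lit 24696) (nat_lit 28985) (nat_lit 1130291406) (nat_lit 29172) (nat_lit 257538873) (nat_lit 35717) (nat_lit 12093906),Row.mk (nat_lit 24864) (nat_lit 28798) (nat_lit 1404990311) (nat_lit 28985) (nat_lit 330048448) (nat_lit 35530) (nat_lit 12093906),Row.mk (nat_lit 25032) (nat_lit 28611) (nat_lit 1748082615) (nat_lit 28798) (nat_lit 420611157) (nat_lit 35343) (nat_lit 12093906),Row.mk (nat_lit 25200) (nat_lit 28424) (nat_lit 2176596627) (nat_lit 28611) (nat_lit 533721797) (nat_lit 35156) (nat_lit 12093906),Row.mk (nat_lit 25368) (nat_lit 28237) (nat_lit 2711800291) (nat_lit 28424) (nat_lit 674994257) (nat_lit 34969) (nat_lit 12093906),Row.mk (nat_lit 25536) (nat_lit 28050)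 (nat_lit 3380256755) (nat_lit 28237) (nat_lit 851440152) (nat_lit 34782) (nat_lit 12093906),Row.mk (nat_lit 25704) (nat_lit 27863) (nat_lit 4215142753) (nat_lit 28050) (nat_lit 1071816818) (nat_lit 34595) (nat_lit 12093906),Row.mk (nat_lit 25872) (nat_lit 27676) (nat_lit 5257895225) (nat_lit 27863) (nat_lit 1347061958) (nat_lit 34408) (nat_lit 12093906),Row.mk (nat_lit 26040) (nat_lit 27489) (nat_lit 6560267906) (nat_lit 27676) (nat_lit 1690836497) (nat_lit 34221) (nat_lit 12093906),Row.mk (nat_lit 26208) (nat_lit 27302) (nat_lit 8186899967) (nat_lit 27489) (nat_lit 2120202603) (nat_lit 34034) (nat_lit 12093906),Row.mk (nat_lit 26376) (nat_lit 32912) (nat_lit 13766125) (nat_lit 62084) (nat_lit 12873322465) (nat_lit 0) (nat_lit 0),Row.mk (nat_lit 26544) (nat_lit 32912) (nat_lit 13766125) (nat_lit 62084) (nat_lit 16080557766) (nat_lit 0) (nat_lit 0),Row.mk (nat_lit 26712) (nat_lit 32912) (nat_lit 13766125) (nat_lit 62084) (nat_lit 20086317287)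 (nat_lit 0) (nat_lit 0),Row.mk (nat_lit 26880) (nat_lit 32912) (nat_lit 13766125) (nat_lit 62084) (nat_lit 25089414294) (nat_lit 0) (nat_lit 0),Row.mk (nat_lit 27048) (nat_lit 32912) (nat_lit 13766125) (nat_lit 62084) (nat_lit 31338161762) (nat_lit 0) (nat_lit 0),Row.mk (nat_lit 27216) (nat_lit 32912) (nat_lit 13766125) (nat_lit 62084) (nat_lit 39142696606) (nat_lit 0) (nat_lit 0),Row.mk (nat_lit 27384) (nat_lit 32912) (nat_lit 13766125) (nat_lit 62084) (nat_lit 48890372351) (nat_lit 0) (nat_lit 0),Row.mk (nat_lit 27552) (nat_lit 32912) (nat_lit 13766125) (nat_lit 62084) (nat_lit 61064984206) (nat_lit 0) (nat_lit 0),Row.mk (nat_lit 27720) (nat_lit 32912) (nat_lit 13766125) (nat_lit 62084) (nat_lit 76270780715) (nat_lit 0) (nat_lit 0),Row.mk (nat_lit 27888) (nat_lit 32912) (nat_lit 13766125) (nat_lit 62084) (nat_lit 95262453733) (nat_lit 0) (nat_lit 0),Row.mk (nat_lit 28056) (nat_lit 32912) (nat_lit 13766125) (nat_lit 62084) (nat_lit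 118982595181) (nat_lit 0) (nat_lit 0),Row.mk (nat_lit 28224) (nat_lit 32912) (nat_lit 13766125) (nat_lit 62084) (nat_lit 148608479629) (nat_lit 0) (nat_lit 0),Row.mk (nat_lit 28392) (nat_lit 32912) (nat_lit 13766125) (nat_lit 62084) (nat_lit 185610494615) (nat_lit 0) (nat_lit 0),Row.mk (nat_lit 28560) (nat_lit 32912) (nat_lit 13766125) (nat_lit 62084) (nat_lit 231825118704) (nat_lit 0) (nat_lit 0),Row.mk (nat_lit 28728) (nat_lit 32912) (nat_lit 13766125) (nat_lit 62084) (nat_lit 289546069319) (nat_lit 0) (nat_lit 0),Row.mk (nat_lit 28896) (nat_lit 32912) (nat_lit 13766125) (nat_lit 62084) (nat_lit 361638144187) (nat_lit 0) (nat_lit 0),Row.mk (nat_lit 29064) (nat_lit 32912) (nat_lit 13766125) (nat_lit 62084) (nat_lit 451679406563) (nat_lit 0) (nat_lit 0),Row.mk (nat_lit 29232) (nat_lit 32912) (nat_lit 13766125) (nat_lit 62084) (nat_lit 564138771133) (nat_lit 0) (nat_lit 0),Row.mk (nat_lit 29400) (nat_lit 32912) (nat_lit 13766125) (nat_lit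 62084) (nat_lit 704597804532) (nat_lit 0) (nat_lit 0),Row.mk (nat_lit 29568) (nat_lit 32912) (nat_lit 13766125) (nat_lit 62084) (nat_lit 880027748841) (nat_lit 0) (nat_lit 0),Row.mk (nat_lit 29736) (nat_lit 32912) (nat_lit 13766125) (nat_lit 62084) (nat_lit 1099135517246) (nat_lit 0) (nat_lit 0),Row.mk (nat_lit 29904) (nat_lit 32912) (nat_lit 13766125) (nat_lit 62084) (nat_lit 1372795834270) (nat_lit 0) (nat_lit 0),Row.mk (nat_lit 30072) (nat_lit 32912) (nat_lit 13766125) (nat_lit 62084) (nat_lit 1714590968505) (nat_lit 0) (nat_lit 0),Row.mk (nat_lit 30240) (nat_lit 32912) (nat_lit 13766125) (nat_lit 62084) (nat_lit 2141484845766) (nat_lit 0) (nat_lit 0),Row.mk (nat_lit 30408) (nat_lit 32912) (nat_lit 13766125) (nat_lit 62084) (nat_lit 2674665000160) (nat_lit 0) (nat_lit 0)],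
[Row.mk (nat_lit 2688) (nat_lit 40018) (nat_lit 2553699) (nat_lit 40205) (nat_lit 4162689) (nat_lit 0) (nat_lit 0),Row.mk (nat_lit 2856) (nat_lit 40018) (nat_lit 2553699) (nat_lit 40205) (nat_lit 4162689) (nat_lit 0) (nat_lit 0),Row.mk (nat_lit 3024) (nat_lit 40018) (nat_lit 2553699) (nat_lit 40205) (nat_lit 4162689) (nat_lit 0) (nat_lit 0),Row.mk (nat_lit 3192) (nat_lit 40018) (nat_lit 2553699) (nat_lit 40205) (nat_lit 4162689) (nat_lit 0) (nat_lit 0),Row.mk (nat_lit 3360) (nat_lit 40018) (nat_lit 2553699) (nat_lit 40205) (nat_lit 4162689) (nat_lit 0) (nat_lit 0),Row.mk (nat_lit 3528) (nat_lit 40018) (nat_lit 2553699) (nat_lit 40205) (nat_lit 4162689) (nat_lit 0) (nat_lit 0),Row.mk (nat_lit 3696) (nat_lit 40018) (nat_lit 2553699) (nat_lit 40205) (nat_lit 4162689) (nat_lit 0) (nat_lit 0),Row.mk (nat_lit 3864) (nat_lit 40018) (nat_lit 2553699) (nat_lit 40205) (nat_lit 4162689) (nat_lit 0) (nat_lit 0),Row.mk (nat_lit 4032) (nat_lit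 40018) (nat_lit 2553699) (nat_lit 40205) (nat_lit 4162689) (nat_lit 0) (nat_lit 0),Row.mk (nat_lit 4200) (nat_lit 40018) (nat_lit 2553699) (nat_lit 40205) (nat_lit 4162689) (nat_lit 0) (nat_lit 0),Row.mk (nat_lit 4368) (nat_lit 40018) (nat_lit 2553699) (nat_lit 40205) (nat_lit 4162689) (nat_lit 0) (nat_lit 0),Row.mk (nat_lit 4536) (nat_lit 40018) (nat_lit 2553699) (nat_lit 40205) (nat_lit 4162689) (nat_lit 0) (nat_lit 0),Row.mk (nat_lit 4704) (nat_lit 40018) (nat_lit 2553699) (nat_lit 40205) (nat_lit 4162689) (nat_lit 0) (nat_lit 0),Row.mk (nat_lit 4872) (nat_lit 40018) (nat_lit 2553699) (nat_lit 40205) (nat_lit 4162689) (nat_lit 0) (nat_lit 0),Row.mk (nat_lit 5040) (nat_lit 40018) (nat_lit 2553699) (nat_lit 40205) (nat_lit 4162689) (nat_lit 0) (nat_lit 0),Row.mk (nat_lit 5208) (nat_lit 40018) (nat_lit 2553699) (nat_lit 40205) (nat_lit 4162689) (nat_lit 0) (nat_lit 0),Row.mk (nat_lit 5376) (nat_lit 40018) (nat_lit 2553699) (nat_lit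 40205) (nat_lit 4162689) (nat_lit 0) (nat_lit 0),Row.mk (nat_lit 5544) (nat_lit 40018) (nat_lit 2553699) (nat_lit 40205) (nat_lit 4162689) (nat_lit 0) (nat_lit 0),Row.mk (nat_lit 5712) (nat_lit 40018) (nat_lit 2553699) (nat_lit 40205) (nat_lit 4162689) (nat_lit 0) (nat_lit 0),Row.mk (nat_lit 5880) (nat_lit 40018) (nat_lit 2553699) (nat_lit 40205) (nat_lit 4162689) (nat_lit 0) (nat_lit 0),Row.mk (nat_lit 6048) (nat_lit 40018) (nat_lit 2553699) (nat_lit 40205) (nat_lit 4162689) (nat_lit 0) (nat_lit 0),Row.mk (nat_lit 6216) (nat_lit 40018) (nat_lit 2553699) (nat_lit 40205) (nat_lit 4162689) (nat_lit 0) (nat_lit 0),Row.mk (nat_lit 6384) (nat_lit 40018) (nat_lit 2553699) (nat_lit 40205) (nat_lit 4162689) (nat_lit 0) (nat_lit 0),Row.mk (nat_lit 6552) (nat_lit 40018) (nat_lit 2553699) (nat_lit 40205) (nat_lit 4162689) (nat_lit 0) (nat_lit 0),Row.mk (nat_lit 6720) (nat_lit 40018) (nat_lit 2553699) (nat_lit 40205) (nat_lit 4162689) (nat_lit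 0) (nat_lit 0),Row.mk (nat_lit 6888) (nat_lit 40018) (nat_lit 2553699) (nat_lit 40205) (nat_lit 4162689) (nat_lit 0) (nat_lit 0),Row.mk (nat_lit 7056) (nat_lit 40018) (nat_lit 2553699) (nat_lit 40205) (nat_lit 4162689) (nat_lit 0) (nat_lit 0),Row.mk (nat_lit 7224) (nat_lit 40018) (nat_lit 2553699) (nat_lit 40205) (nat_lit 4162689) (nat_lit 0) (nat_lit 0),Row.mk (nat_lit 7392) (nat_lit 40018) (nat_lit 2553699) (nat_lit 40205) (nat_lit 4162689) (nat_lit 0) (nat_lit 0),Row.mk (nat_lit 7560) (nat_lit 40018) (nat_lit 2553699) (nat_lit 40205) (nat_lit 4162689) (nat_lit 0) (nat_lit 0),Row.mk (nat_lit 7728) (nat_lit 40018) (nat_lit 2553700) (nat_lit 40205) (nat_lit 4162688) (nat_lit 0) (nat_lit 0),Row.mk (nat_lit 7896) (nat_lit 40018) (nat_lit 2553700) (nat_lit 40205) (nat_lit 4162688) (nat_lit 0) (nat_lit 0),Row.mk (nat_lit 8064) (nat_lit 40018) (nat_lit 2553700) (nat_lit 40205) (nat_lit 4162688) (nat_lit 0) (nat_lit 0),Row.mk (nat_lit 8232)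 (nat_lit 40018) (nat_lit 2553701) (nat_lit 40205) (nat_lit 4162688) (nat_lit 0) (nat_lit 0),Row.mk (nat_lit 8400) (nat_lit 40018) (nat_lit 2553701) (nat_lit 40205) (nat_lit 4162687) (nat_lit 0) (nat_lit 0),Row.mk (nat_lit 8568) (nat_lit 40018) (nat_lit 2553702) (nat_lit 40205) (nat_lit 4162686) (nat_lit 0) (nat_lit 0),Row.mk (nat_lit 8736) (nat_lit 40018) (nat_lit 2553702) (nat_lit 40205) (nat_lit 4162686) (nat_lit 0) (nat_lit 0),Row.mk (nat_lit 8904) (nat_lit 33473) (nat_lit 1) (nat_lit 40018) (nat_lit 2553703) (nat_lit 40205) (nat_lit 4162685),Row.mk (nat_lit 9072) (nat_lit 33473) (nat_lit 1) (nat_lit 40018) (nat_lit 2553705) (nat_lit 40205) (nat_lit 4162684),Row.mk (nat_lit 9240) (nat_lit 33473) (nat_lit 1) (nat_lit 40018) (nat_lit 2553706) (nat_lit 40205) (nat_lit 4162682),Row.mk (nat_lit 9408) (nat_lit 33473) (nat_lit 2) (nat_lit 40018) (nat_lit 2553708) (nat_lit 40205) (nat_lit 4162680),Row.mk (nat_lit 9576) (nat_lit 33473)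 (nat_lit 2) (nat_lit 40018) (nat_lit 2553710) (nat_lit 40205) (nat_lit 4162678),Row.mk (nat_lit 9744) (nat_lit 33473) (nat_lit 3) (nat_lit 40018) (nat_lit 2553713) (nat_lit 40205) (nat_lit 4162675),Row.mk (nat_lit 9912) (nat_lit 33473) (nat_lit 4) (nat_lit 40018) (nat_lit 2553717) (nat_lit 40205) (nat_lit 4162672),Row.mk (nat_lit 10080) (nat_lit 33473) (nat_lit 5) (nat_lit 40018) (nat_lit 2553721) (nat_lit 40205) (nat_lit 4162667),Row.mk (nat_lit 10248) (nat_lit 33473) (nat_lit 6) (nat_lit 40018) (nat_lit 2553727) (nat_lit 40205) (nat_lit 4162662),Row.mk (nat_lit 10416) (nat_lit 33473) (nat_lit 8) (nat_lit 40018) (nat_lit 2553733) (nat_lit 40205) (nat_lit 4162655),Row.mk (nat_lit 10584) (nat_lit 33473) (nat_lit 10) (nat_lit 40018) (nat_lit 2553742) (nat_lit 40205) (nat_lit 4162646),Row.mk (nat_lit 10752) (nat_lit 33473) (nat_lit 13) (nat_lit 40018) (nat_lit 2553753) (nat_lit 40205) (nat_lit 4162635),Row.mk (nat_lit 10920) (nat_lit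 33473) (nat_lit 16) (nat_lit 40018) (nat_lit 2553766) (nat_lit 40205) (nat_lit 4162622),Row.mk (nat_lit 11088) (nat_lit 33473) (nat_lit 21) (nat_lit 40018) (nat_lit 2553783) (nat_lit 40205) (nat_lit 4162605),Row.mk (nat_lit 11256) (nat_lit 33473) (nat_lit 26) (nat_lit 40018) (nat_lit 2553804) (nat_lit 40205) (nat_lit 4162584),Row.mk (nat_lit 11424) (nat_lit 33473) (nat_lit 32) (nat_lit 40018) (nat_lit 2553831) (nat_lit 40205) (nat_lit 4162557),Row.mk (nat_lit 11592) (nat_lit 33473) (nat_lit 41) (nat_lit 40018) (nat_lit 2553864) (nat_lit 40205) (nat_lit 4162525),Row.mk (nat_lit 11760) (nat_lit 33473) (nat_lit 51) (nat_lit 40018) (nat_lit 2553905) (nat_lit 40205) (nat_lit 4162484),Row.mk (nat_lit 11928) (nat_lit 33473) (nat_lit 64) (nat_lit 40018) (nat_lit 2553956) (nat_lit 40205) (nat_lit 4162432),Row.mk (nat_lit 12096) (nat_lit 33473) (nat_lit 79) (nat_lit 40018) (nat_lit 2554020) (nat_lit 40205) (nat_lit 4162368),Row.mk (nat_lit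 12264) (nat_lit 33473) (nat_lit 99) (nat_lit 40018) (nat_lit 2554100) (nat_lit 40205) (nat_lit 4162288),Row.mk (nat_lit 12432) (nat_lit 33473) (nat_lit 124) (nat_lit 40018) (nat_lit 2554200) (nat_lit 40205) (nat_lit 4162188),Row.mk (nat_lit 12600) (nat_lit 33473) (nat_lit 155) (nat_lit 40018) (nat_lit 2554324) (nat_lit 40205) (nat_lit 4162064),Row.mk (nat_lit 12768) (nat_lit 33473) (nat_lit 194) (nat_lit 40018) (nat_lit 2554480) (nat_lit 40205) (nat_lit 4161908),Row.mk (nat_lit 12936) (nat_lit 33473) (nat_lit 243) (nat_lit 40018) (nat_lit 2554675) (nat_lit 40205) (nat_lit 4161713),Row.mk (nat_lit 13104) (nat_lit 33473) (nat_lit 303) (nat_lit 40018) (nat_lit 2554918) (nat_lit 40205) (nat_lit 4161470),Row.mk (nat_lit 13272) (nat_lit 33473) (nat_lit 379) (nat_lit 40018) (nat_lit 2555221) (nat_lit 40205) (nat_lit 4161167),Row.mk (nat_lit 13440) (nat_lit 33473) (nat_lit 473) (nat_lit 40018) (nat_lit 2555600) (nat_lit 40205) (nat_lit 4160788),Row.mk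 (nat_lit 13608) (nat_lit 33473) (nat_lit 591) (nat_lit 40018) (nat_lit 2556074) (nat_lit 40205) (nat_lit 4160314),Row.mk (nat_lit 13776) (nat_lit 33473) (nat_lit 738) (nat_lit 40018) (nat_lit 2556665) (nat_lit 40205) (nat_lit 4159723),Row.mk (nat_lit 13944) (nat_lit 33473) (nat_lit 922) (nat_lit 40018) (nat_lit 2557404) (nat_lit 40205) (nat_lit 4158984),Row.mk (nat_lit 14112) (nat_lit 33473) (nat_lit 1152) (nat_lit 40018) (nat_lit 2558326) (nat_lit 40205) (nat_lit 4158062),Row.mk (nat_lit 14280) (nat_lit 33473) (nat_lit 1439) (nat_lit 40018) (nat_lit 2559479) (nat_lit 40205) (nat_lit 4156909),Row.mk (nat_lit 14448) (nat_lit 33473) (nat_lit 1797) (nat_lit 40018) (nat_lit 2560918) (nat_lit 40205) (nat_lit 4155470),Row.mk (nat_lit 14616) (nat_lit 33473) (nat_lit 2244) (nat_lit 40018) (nat_lit 2562715) (nat_lit 40205) (nat_lit 4153673),Row.mk (nat_lit 14784) (nat_lit 33473) (nat_lit 2803) (nat_lit 40018) (nat_lit 2564960) (nat_lit 40205)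 (nat_lit 4151428),Row.mk (nat_lit 14952) (nat_lit 33473) (nat_lit 3501) (nat_lit 40018) (nat_lit 2567764) (nat_lit 40205) (nat_lit 4148624),Row.mk (nat_lit 15120) (nat_lit 33473) (nat_lit 4373) (nat_lit 40018) (nat_lit 2571266) (nat_lit 40205) (nat_lit 4145123),Row.mk (nat_lit 15288) (nat_lit 33473) (nat_lit 5462) (nat_lit 40018) (nat_lit 2575639) (nat_lit 40205) (nat_lit 4140749),Row.mk (nat_lit 15456) (nat_lit 33473) (nat_lit 6822) (nat_lit 40018) (nat_lit 2581102) (nat_lit 40205) (nat_lit 4135286),Row.mk (nat_lit 15624) (nat_lit 33473) (nat_lit 8521) (nat_lit 40018) (nat_lit 2587925) (nat_lit 40205) (nat_lit 4128463),Row.mk (nat_lit 15792) (nat_lit 33473) (nat_lit 10643) (nat_lit 40018) (nat_lit 2596446) (nat_lit 40205) (nat_lit 4119942),Row.mk (nat_lit 15960) (nat_lit 33473) (nat_lit 13292) (nat_lit 40018) (nat_lit 2607089) (nat_lit 40205) (nat_lit 4109299),Row.mk (nat_lit 16128) (nat_lit 33473) (nat_lit 16602) (nat_lit 40018)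 (nat_lit 2620382) (nat_lit 40205) (nat_lit 4096006),Row.mk (nat_lit 16296) (nat_lit 33473) (nat_lit 20736) (nat_lit 40018) (nat_lit 2636985) (nat_lit 40205) (nat_lit 4079403),Row.mk (nat_lit 16464) (nat_lit 33473) (nat_lit 25899) (nat_lit 40018) (nat_lit 2657721) (nat_lit 40205) (nat_lit 4058667),Row.mk (nat_lit 16632) (nat_lit 33473) (nat_lit 32347) (nat_lit 40018) (nat_lit 2683620) (nat_lit 40205) (nat_lit 4032768),Row.mk (nat_lit 16800) (nat_lit 33473) (nat_lit 40401) (nat_lit 40018) (nat_lit 2715968) (nat_lit 40205) (nat_lit 4000420),Row.mk (nat_lit 16968) (nat_lit 33473) (nat_lit 50459) (nat_lit 40018) (nat_lit 2756369) (nat_lit 40205) (nat_lit 3960019),Row.mk (nat_lit 17136) (nat_lit 33473) (nat_lit 63023) (nat_lit 40018) (nat_lit 2806829) (nat_lit 40205) (nat_lit 3909559),Row.mk (nat_lit 17304) (nat_lit 33473) (nat_lit 78714) (nat_lit 40018) (nat_lit 2869852) (nat_lit 40205) (nat_lit 3846536),Row.mk (nat_lit 17472) (nat_lit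 33473) (nat_lit 98312) (nat_lit 40018) (nat_lit 2948566) (nat_lit 40205) (nat_lit 3767822),Row.mk (nat_lit 17640) (nat_lit 33473) (nat_lit 122789) (nat_lit 40018) (nat_lit 3046879) (nat_lit 40205) (nat_lit 3669509),Row.mk (nat_lit 17808) (nat_lit 33473) (nat_lit 153361) (nat_lit 40018) (nat_lit 3169669) (nat_lit 40205) (nat_lit 3546719),Row.mk (nat_lit 17976) (nat_lit 33473) (nat_lit 191545) (nat_lit 40018) (nat_lit 3323031) (nat_lit 40205) (nat_lit 3393357),Row.mk (nat_lit 18144) (nat_lit 33473) (nat_lit 239235) (nat_lit 40018) (nat_lit 3514576) (nat_lit 40205) (nat_lit 3201812),Row.mk (nat_lit 18312) (nat_lit 33473) (nat_lit 298799) (nat_lit 40018) (nat_lit 3753811) (nat_lit 40205) (nat_lit 2962577),Row.mk (nat_lit 18480) (nat_lit 33473) (nat_lit 373192) (nat_lit 40018) (nat_lit 4052610) (nat_lit 40205) (nat_lit 2663778),Row.mk (nat_lit 18648) (nat_lit 33473) (nat_lit 466108) (nat_lit 40018) (nat_lit 4425803) (nat_lit 40205) (nat_lit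 2290585),Row.mk (nat_lit 18816) (nat_lit 33473) (nat_lit 582158) (nat_lit 40018) (nat_lit 4891911) (nat_lit 40205) (nat_lit 1824477),Row.mk (nat_lit 18984) (nat_lit 33473) (nat_lit 727102) (nat_lit 40018) (nat_lit 5474070) (nat_lit 40205) (nat_lit 1242318),Row.mk (nat_lit 19152) (nat_lit 33473) (nat_lit 908132) (nat_lit 40018) (nat_lit 6201172) (nat_lit 40205) (nat_lit 515216),Row.mk (nat_lit 19320) (nat_lit 33286) (nat_lit 490742) (nat_lit 33473) (nat_lit 643493) (nat_lit 40018) (nat_lit 6716389),Row.mk (nat_lit 19488) (nat_lit 33286) (nat_lit 1416633) (nat_lit 39831) (nat_lit 490742) (nat_lit 40018) (nat_lit 6225646),Row.mk (nat_lit 19656) (nat_lit 33286) (nat_lit 1769341) (nat_lit 39831) (nat_lit 1907376) (nat_lit 40018) (nat_lit 4809012),Row.mk (nat_lit 19824) (nat_lit 33286) (nat_lit 2209864) (nat_lit 39831) (nat_lit 3676717) (nat_lit 40018) (nat_lit 3039671),Row.mk (nat_lit 19992) (nat_lit 33286) (nat_lit 2760067) (nat_lit 39831)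 (nat_lit 5886581) (nat_lit 40018) (nat_lit 829807),Row.mk (nat_lit 20160) (nat_lit 33099) (nat_lit 2410847) (nat_lit 33286) (nat_lit 1036409) (nat_lit 39831) (nat_lit 6716389),Row.mk (nat_lit 20328) (nat_lit 33099) (nat_lit 4305541) (nat_lit 39644) (nat_lit 2410847) (nat_lit 39831) (nat_lit 4305541),Row.mk (nat_lit 20496) (nat_lit 33099) (nat_lit 5377517) (nat_lit 39644) (nat_lit 6716389) (nat_lit 0) (nat_lit 0),Row.mk (nat_lit 20664) (nat_lit 32912) (nat_lit 6716389) (nat_lit 39644) (nat_lit 6716389) (nat_lit 0) (nat_lit 0),Row.mk (nat_lit 20832) (nat_lit 32912) (nat_lit 8388608) (nat_lit 39457) (nat_lit 6716389) (nat_lit 0) (nat_lit 0),Row.mk (nat_lit 21000) (nat_lit 32725) (nat_lit 10477169) (nat_lit 39457) (nat_lit 6716389) (nat_lit 0) (nat_lit 0),Row.mk (nat_lit 21168) (nat_lit 32538) (nat_lit 4697123) (nat_lit 32725) (nat_lit 8388608) (nat_lit 39270) (nat_lit 6716389),Row.mk (nat_lit 21336) (nat_lit 32538) (nat_lit 16343762)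 (nat_lit 39083) (nat_lit 4697123) (nat_lit 39270) (nat_lit 2019265),Row.mk (nat_lit 21504) (nat_lit 32351) (nat_lit 17890951) (nat_lit 32538) (nat_lit 2522014) (nat_lit 39083) (nat_lit 6716389),Row.mk (nat_lit 21672) (nat_lit 32164) (nat_lit 13956758) (nat_lit 32351) (nat_lit 11538542) (nat_lit 38896) (nat_lit 6716389),Row.mk (nat_lit 21840) (nat_lit 31977) (nat_lit 9043046) (nat_lit 32164) (nat_lit 22799969) (nat_lit 38709) (nat_lit 6716389),Row.mk (nat_lit 22008) (nat_lit 31790) (nat_lit 2905939) (nat_lit 31977) (nat_lit 36865220) (nat_lit 38522) (nat_lit 6716389),Row.mk (nat_lit 22176) (nat_lit 31790) (nat_lit 49673218) (nat_lit 38335) (nat_lit 2905939) (nat_lit 38522) (nat_lit 3810450),Row.mk (nat_lit 22344) (nat_lit 31603) (nat_lit 57281491) (nat_lit 31790) (nat_lit 4759160) (nat_lit 38335) (nat_lit 6716389),Row.mk (nat_lit 22512) (nat_lit 31416) (nat_lit 63154593) (nat_lit 31603) (nat_lit 14332684) (nat_lit 38148) (nat_lit 6716389),Row.mk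 (nat_lit 22680) (nat_lit 31229) (nat_lit 70489955) (nat_lit 31416) (nat_lit 26289784) (nat_lit 37961) (nat_lit 6716389),Row.mk (nat_lit 22848) (nat_lit 31042) (nat_lit 79651645) (nat_lit 31229) (nat_lit 41223914) (nat_lit 37774) (nat_lit 6716389),Row.mk (nat_lit 23016) (nat_lit 30855) (nat_lit 91094375) (nat_lit 31042) (nat_lit 59876283) (nat_lit 37587) (nat_lit 6716389),Row.mk (nat_lit 23184) (nat_lit 30668) (nat_lit 105386070) (nat_lit 30855) (nat_lit 83172641) (nat_lit 37400) (nat_lit 6716389),Row.mk (nat_lit 23352) (nat_lit 30481) (nat_lit 123236051) (nat_lit 30668) (nat_lit 112269230) (nat_lit 37213) (nat_lit 6716389),Row.mk (nat_lit 23520) (nat_lit 30294) (nat_lit 145530247) (nat_lit 30481) (nat_lit 148610168) (nat_lit 37026) (nat_lit 6716389),Row.mk (nat_lit 23688) (nat_lit 30107) (nat_lit 173375159) (nat_lit 30294) (nat_lit 193999123) (nat_lit 36839) (nat_lit 6716389),Row.mk (nat_lit 23856) (nat_lit 29920) (nat_lit 208152784)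 (nat_lit 30107) (nat_lit 250688833) (nat_lit 36652) (nat_lit 6716389),Row.mk (nat_lit 24024) (nat_lit 29733) (nat_lit 251589197) (nat_lit 29920) (nat_lit 321492913) (nat_lit 36465) (nat_lit 6716389),Row.mk (nat_lit 24192) (nat_lit 29546) (nat_lit 305840230) (nat_lit 29733) (nat_lit 409925501) (nat_lit 36278) (nat_lit 6716389),Row.mk (nat_lit 24360) (nat_lit 29359) (nat_lit 373598462) (nat_lit 29546) (nat_lit 520375670) (nat_lit 36091) (nat_lit 6716389),Row.mk (nat_lit 24528) (nat_lit 29172) (nat_lit 458226858) (nat_lit 29359) (nat_lit 658325267) (nat_lit 35904) (nat_lit 6716389),Row.mk (nat_lit 24696) (nat_lit 28985) (nat_lit 563925684) (nat_lit 29172) (nat_lit 830620985) (nat_lit 35717) (nat_lit 6716389),Row.mk (nat_lit 24864) (nat_lit 28798) (nat_lit 695940967) (nat_lit 28985) (nat_lit 1045814180) (nat_lit 35530) (nat_lit 6716389),Row.mk (nat_lit 25032) (nat_lit 28611) (nat_lit 860824872) (nat_lit 28798) (nat_lit 1314585290) (nat_lit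 35343) (nat_lit 6716389),Row.mk (nat_lit 25200) (nat_lit 28424) (nat_lit 1066760890) (nat_lit 28611) (nat_lit 1650273923) (nat_lit 35156) (nat_lit 6716389),Row.mk (nat_lit 25368) (nat_lit 28237) (nat_lit 1323970010) (nat_lit 28424) (nat_lit 2069540927) (nat_lit 34969) (nat_lit 6716389),Row.mk (nat_lit 25536) (nat_lit 28050) (nat_lit 1645217995) (nat_lit 28237) (nat_lit 2593195301) (nat_lit 34782) (nat_lit 6716389),Row.mk (nat_lit 25704) (nat_lit 27863) (nat_lit 2046448980) (nat_lit 28050) (nat_lit 3247226981) (nat_lit 34595) (nat_lit 6716389),Row.mk (nat_lit 25872) (nat_lit 27676) (nat_lit 2547576799) (nat_lit 27863) (nat_lit 4064096772) (nat_lit 34408) (nat_lit 6716389),Row.mk (nat_lit 26040) (nat_lit 27489) (nat_lit 3173473357) (nat_lit 27676) (nat_lit 5084347435) (nat_lit 34221) (nat_lit 6716389),Row.mk (nat_lit 26208) (nat_lit 27302) (nat_lit 3955203059) (nat_lit 27489) (nat_lit 6358615900) (nat_lit 34034) (nat_lit 6716389),Row.mk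 (nat_lit 26376) (nat_lit 32912) (nat_lit 15104997) (nat_lit 62084) (nat_lit 12873322465) (nat_lit 0) (nat_lit 0),Row.mk (nat_lit 26544) (nat_lit 32912) (nat_lit 15104997) (nat_lit 62084) (nat_lit 16080557766) (nat_lit 0) (nat_lit 0),Row.mk (nat_lit 26712) (nat_lit 32912) (nat_lit 15104997) (nat_lit 62084) (nat_lit 20086317287) (nat_lit 0) (nat_lit 0),Row.mk (nat_lit 26880) (nat_lit 32912) (nat_lit 15104997) (nat_lit 62084) (nat_lit 25089414294) (nat_lit 0) (nat_lit 0),Row.mk (nat_lit 27048) (nat_lit 32912) (nat_lit 15104997) (nat_lit 62084) (nat_lit 31338161762) (nat_lit 0) (nat_lit 0),Row.mk (nat_lit 27216) (nat_lit 32912) (nat_lit 15104997) (nat_lit 62084) (nat_lit 39142696606) (nat_lit 0) (nat_lit 0),Row.mk (nat_lit 27384) (nat_lit 32912) (nat_lit 15104997) (nat_lit 62084) (nat_lit 48890372351) (nat_lit 0) (nat_lit 0),Row.mk (nat_lit 27552) (nat_lit 32912) (nat_lit 15104997) (nat_lit 62084) (nat_lit 61064984206) (nat_lit 0) (nat_lit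 0),Row.mk (nat_lit 27720) (nat_lit 32912) (nat_lit 15104997) (nat_lit 62084) (nat_lit 76270780715) (nat_lit 0) (nat_lit 0),Row.mk (nat_lit 27888) (nat_lit 32912) (nat_lit 15104997) (nat_lit 62084) (nat_lit 95262453733) (nat_lit 0) (nat_lit 0),Row.mk (nat_lit 28056) (nat_lit 32912) (nat_lit 15104997) (nat_lit 62084) (nat_lit 118982595181) (nat_lit 0) (nat_lit 0),Row.mk (nat_lit 28224) (nat_lit 32912) (nat_lit 15104997) (nat_lit 62084) (nat_lit 148608479629) (nat_lit 0) (nat_lit 0),Row.mk (nat_lit 28392) (nat_lit 32912) (nat_lit 15104997) (nat_lit 62084) (nat_lit 185610494615) (nat_lit 0) (nat_lit 0),Row.mk (nat_lit 28560) (nat_lit 32912) (nat_lit 15104997) (nat_lit 62084) (nat_lit 231825118704) (nat_lit 0) (nat_lit 0),Row.mk (nat_lit 28728) (nat_lit 32912) (nat_lit 15104997) (nat_lit 62084) (nat_lit 289546069319) (nat_lit 0) (nat_lit 0),Row.mk (nat_lit 28896) (nat_lit 32912) (nat_lit 15104997) (nat_lit 62084) (nat_lit 361638144187)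 (nat_lit 0) (nat_lit 0),Row.mk (nat_lit 29064) (nat_lit 32912) (nat_lit 15104997) (nat_lit 62084) (nat_lit 451679406563) (nat_lit 0) (nat_lit 0),Row.mk (nat_lit 29232) (nat_lit 32912) (nat_lit 15104997) (nat_lit 62084) (nat_lit 564138771133) (nat_lit 0) (nat_lit 0),Row.mk (nat_lit 29400) (nat_lit 32912) (nat_lit 15104997) (nat_lit 62084) (nat_lit 704597804532) (nat_lit 0) (nat_lit 0),Row.mk (nat_lit 29568) (nat_lit 32912) (nat_lit 15104997) (nat_lit 62084) (nat_lit 880027748841) (nat_lit 0) (nat_lit 0),Row.mk (nat_lit 29736) (nat_lit 32912) (nat_lit 15104997) (nat_lit 62084) (nat_lit 1099135517246) (nat_lit 0) (nat_lit 0),Row.mk (nat_lit 29904) (nat_lit 32912) (nat_lit 15104997) (nat_lit 62084) (nat_lit 1372795834270) (nat_lit 0) (nat_lit 0),Row.mk (nat_lit 30072) (nat_lit 32912) (nat_lit 15104997) (nat_lit 62084) (nat_lit 1714590968505) (nat_lit 0) (nat_lit 0),Row.mk (nat_lit 30240) (nat_lit 32912) (nat_lit 15104997) (nat_lit 62084)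 (nat_lit 2141484845766) (nat_lit 0) (nat_lit 0),Row.mk (nat_lit 30408) (nat_lit 32912) (nat_lit 15104997) (nat_lit 62084) (nat_lit 2674665000160) (nat_lit 0) (nat_lit 0)],
[Row.mk (nat_lit 1344) (nat_lit 33473) (nat_lit 7495049) (nat_lit 33660) (nat_lit 893558) (nat_lit 0) (nat_lit 0),Row.mk (nat_lit 1512) (nat_lit 33473) (nat_lit 7495049) (nat_lit 33660) (nat_lit 893558) (nat_lit 0) (nat_lit 0),Row.mk (nat_lit 1680) (nat_lit 33473) (nat_lit 7495049) (nat_lit 33660) (nat_lit 893558) (nat_lit 0) (nat_lit 0),Row.mk (nat_lit 1848) (nat_lit 33473) (nat_lit 7495049) (nat_lit 33660) (nat_lit 893558) (nat_lit 0) (nat_lit 0),Row.mk (nat_lit 2016) (nat_lit 33473) (nat_lit 7495049) (nat_lit 33660) (nat_lit 893558) (nat_lit 0) (nat_lit 0),Row.mk (nat_lit 2184) (nat_lit 33473) (nat_lit 7495049) (nat_lit 33660) (nat_lit 893558) (nat_lit 0) (nat_lit 0),Row.mk (nat_lit 2352) (nat_lit 33473) (nat_lit 7495049) (nat_lit 33660) (nat_lit 893558) (nat_lit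 0) (nat_lit 0),Row.mk (nat_lit 2520) (nat_lit 33473) (nat_lit 7495049) (nat_lit 33660) (nat_lit 893558) (nat_lit 0) (nat_lit 0),Row.mk (nat_lit 2688) (nat_lit 33473) (nat_lit 7495049) (nat_lit 33660) (nat_lit 893558) (nat_lit 0) (nat_lit 0),Row.mk (nat_lit 2856) (nat_lit 33473) (nat_lit 7495049) (nat_lit 33660) (nat_lit 893558) (nat_lit 0) (nat_lit 0),Row.mk (nat_lit 3024) (nat_lit 33473) (nat_lit 7495049) (nat_lit 33660) (nat_lit 893558) (nat_lit 0) (nat_lit 0),Row.mk (nat_lit 3192) (nat_lit 33473) (nat_lit 7495049) (nat_lit 33660) (nat_lit 893558) (nat_lit 0) (nat_lit 0),Row.mk (nat_lit 3360) (nat_lit 33473) (nat_lit 7495049) (nat_lit 33660) (nat_lit 893558) (nat_lit 0) (nat_lit 0),Row.mk (nat_lit 3528) (nat_lit 33473) (nat_lit 7495049) (nat_lit 33660) (nat_lit 893558) (nat_lit 0) (nat_lit 0),Row.mk (nat_lit 3696) (nat_lit 33473) (nat_lit 7495049) (nat_lit 33660) (nat_lit 893558) (nat_lit 0) (nat_lit 0),Row.mk (nat_lit 3864) (nat_lit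 33473) (nat_lit 7495049) (nat_lit 33660) (nat_lit 893558) (nat_lit 0) (nat_lit 0),Row.mk (nat_lit 4032) (nat_lit 33473) (nat_lit 7495049) (nat_lit 33660) (nat_lit 893558) (nat_lit 0) (nat_lit 0),Row.mk (nat_lit 4200) (nat_lit 33473) (nat_lit 7495049) (nat_lit 33660) (nat_lit 893558) (nat_lit 0) (nat_lit 0),Row.mk (nat_lit 4368) (nat_lit 33473) (nat_lit 7495049) (nat_lit 33660) (nat_lit 893558) (nat_lit 0) (nat_lit 0),Row.mk (nat_lit 4536) (nat_lit 33473) (nat_lit 7495049) (nat_lit 33660) (nat_lit 893558) (nat_lit 0) (nat_lit 0),Row.mk (nat_lit 4704) (nat_lit 33473) (nat_lit 7495049) (nat_lit 33660) (nat_lit 893558) (nat_lit 0) (nat_lit 0),Row.mk (nat_lit 4872) (nat_lit 33473) (nat_lit 7495049) (nat_lit 33660) (nat_lit 893558) (nat_lit 0) (nat_lit 0),Row.mk (nat_lit 5040) (nat_lit 33473) (nat_lit 7495049) (nat_lit 33660) (nat_lit 893558) (nat_lit 0) (nat_lit 0),Row.mk (nat_lit 5208) (nat_lit 33473) (nat_lit 7495049) (nat_lit 33660)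 (nat_lit 893558) (nat_lit 0) (nat_lit 0),Row.mk (nat_lit 5376) (nat_lit 33473) (nat_lit 7495049) (nat_lit 33660) (nat_lit 893558) (nat_lit 0) (nat_lit 0),Row.mk (nat_lit 5544) (nat_lit 33473) (nat_lit 7495049) (nat_lit 33660) (nat_lit 893558) (nat_lit 0) (nat_lit 0),Row.mk (nat_lit 5712) (nat_lit 33473) (nat_lit 7495049) (nat_lit 33660) (nat_lit 893558) (nat_lit 0) (nat_lit 0),Row.mk (nat_lit 5880) (nat_lit 33473) (nat_lit 7495050) (nat_lit 33660) (nat_lit 893558) (nat_lit 0) (nat_lit 0),Row.mk (nat_lit 6048) (nat_lit 33473) (nat_lit 7495050) (nat_lit 33660) (nat_lit 893557) (nat_lit 0) (nat_lit 0),Row.mk (nat_lit 6216) (nat_lit 33473) (nat_lit 7495050) (nat_lit 33660) (nat_lit 893557) (nat_lit 0) (nat_lit 0),Row.mk (nat_lit 6384) (nat_lit 33473) (nat_lit 7495050) (nat_lit 33660) (nat_lit 893557) (nat_lit 0) (nat_lit 0),Row.mk (nat_lit 6552) (nat_lit 33473) (nat_lit 7495050) (nat_lit 33660) (nat_lit 893557) (nat_lit 0) (nat_lit 0),Row.mk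 (nat_lit 6720) (nat_lit 33473) (nat_lit 7495050) (nat_lit 33660) (nat_lit 893557) (nat_lit 0) (nat_lit 0),Row.mk (nat_lit 6888) (nat_lit 33473) (nat_lit 7495050) (nat_lit 33660) (nat_lit 893557) (nat_lit 0) (nat_lit 0),Row.mk (nat_lit 7056) (nat_lit 33473) (nat_lit 7495050) (nat_lit 33660) (nat_lit 893557) (nat_lit 0) (nat_lit 0),Row.mk (nat_lit 7224) (nat_lit 33473) (nat_lit 7495050) (nat_lit 33660) (nat_lit 893557) (nat_lit 0) (nat_lit 0),Row.mk (nat_lit 7392) (nat_lit 33473) (nat_lit 7495050) (nat_lit 33660) (nat_lit 893557) (nat_lit 0) (nat_lit 0),Row.mk (nat_lit 7560) (nat_lit 33473) (nat_lit 7495050) (nat_lit 33660) (nat_lit 893557) (nat_lit 0) (nat_lit 0),Row.mk (nat_lit 7728) (nat_lit 33473) (nat_lit 7495051) (nat_lit 33660) (nat_lit 893557) (nat_lit 0) (nat_lit 0),Row.mk (nat_lit 7896) (nat_lit 33473) (nat_lit 7495051) (nat_lit 33660) (nat_lit 893556) (nat_lit 0) (nat_lit 0),Row.mk (nat_lit 8064) (nat_lit 33473) (nat_lit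 7495051) (nat_lit 33660) (nat_lit 893556) (nat_lit 0) (nat_lit 0),Row.mk (nat_lit 8232) (nat_lit 33473) (nat_lit 7495052) (nat_lit 33660) (nat_lit 893556) (nat_lit 0) (nat_lit 0),Row.mk (nat_lit 8400) (nat_lit 33473) (nat_lit 7495052) (nat_lit 33660) (nat_lit 893555) (nat_lit 0) (nat_lit 0),Row.mk (nat_lit 8568) (nat_lit 33473) (nat_lit 7495053) (nat_lit 33660) (nat_lit 893555) (nat_lit 0) (nat_lit 0),Row.mk (nat_lit 8736) (nat_lit 33473) (nat_lit 7495054) (nat_lit 33660) (nat_lit 893554) (nat_lit 0) (nat_lit 0),Row.mk (nat_lit 8904) (nat_lit 33473) (nat_lit 7495055) (nat_lit 33660) (nat_lit 893553) (nat_lit 0) (nat_lit 0),Row.mk (nat_lit 9072) (nat_lit 33473) (nat_lit 7495057) (nat_lit 33660) (nat_lit 893552) (nat_lit 0) (nat_lit 0),Row.mk (nat_lit 9240) (nat_lit 33473) (nat_lit 7495059) (nat_lit 33660) (nat_lit 893550) (nat_lit 0) (nat_lit 0),Row.mk (nat_lit 9408) (nat_lit 33473) (nat_lit 7495061) (nat_lit 33660) (nat_lit 893548)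 (nat_lit 0) (nat_lit 0),Row.mk (nat_lit 9576) (nat_lit 33473) (nat_lit 7495064) (nat_lit 33660) (nat_lit 893546) (nat_lit 0) (nat_lit 0),Row.mk (nat_lit 9744) (nat_lit 33473) (nat_lit 7495067) (nat_lit 33660) (nat_lit 893543) (nat_lit 0) (nat_lit 0),Row.mk (nat_lit 9912) (nat_lit 33473) (nat_lit 7495072) (nat_lit 33660) (nat_lit 893540) (nat_lit 0) (nat_lit 0),Row.mk (nat_lit 10080) (nat_lit 33473) (nat_lit 7495077) (nat_lit 33660) (nat_lit 893535) (nat_lit 0) (nat_lit 0),Row.mk (nat_lit 10248) (nat_lit 33473) (nat_lit 7495084) (nat_lit 33660) (nat_lit 893530) (nat_lit 0) (nat_lit 0),Row.mk (nat_lit 10416) (nat_lit 33473) (nat_lit 7495093) (nat_lit 33660) (nat_lit 893523) (nat_lit 0) (nat_lit 0),Row.mk (nat_lit 10584) (nat_lit 33473) (nat_lit 7495104) (nat_lit 33660) (nat_lit 893514) (nat_lit 0) (nat_lit 0),Row.mk (nat_lit 10752) (nat_lit 33473) (nat_lit 7495117) (nat_lit 33660) (nat_lit 893503) (nat_lit 0) (nat_lit 0),Row.mk (nat_lit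 10920) (nat_lit 33473) (nat_lit 7495134) (nat_lit 33660) (nat_lit 893490) (nat_lit 0) (nat_lit 0),Row.mk (nat_lit 11088) (nat_lit 33473) (nat_lit 7495155) (nat_lit 33660) (nat_lit 893473) (nat_lit 0) (nat_lit 0),Row.mk (nat_lit 11256) (nat_lit 33473) (nat_lit 7495181) (nat_lit 33660) (nat_lit 893452) (nat_lit 0) (nat_lit 0),Row.mk (nat_lit 11424) (nat_lit 33473) (nat_lit 7495214) (nat_lit 33660) (nat_lit 893426) (nat_lit 0) (nat_lit 0),Row.mk (nat_lit 11592) (nat_lit 33473) (nat_lit 7495255) (nat_lit 33660) (nat_lit 893393) (nat_lit 0) (nat_lit 0),Row.mk (nat_lit 11760) (nat_lit 33473) (nat_lit 7495307) (nat_lit 33660) (nat_lit 893352) (nat_lit 0) (nat_lit 0),Row.mk (nat_lit 11928) (nat_lit 33473) (nat_lit 7495371) (nat_lit 33660) (nat_lit 893300) (nat_lit 0) (nat_lit 0),Row.mk (nat_lit 12096) (nat_lit 33473) (nat_lit 7495451) (nat_lit 33660) (nat_lit 893236) (nat_lit 0) (nat_lit 0),Row.mk (nat_lit 12264) (nat_lit 33473) (nat_lit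 7495550) (nat_lit 33660) (nat_lit 893156) (nat_lit 0) (nat_lit 0),Row.mk (nat_lit 12432) (nat_lit 33473) (nat_lit 7495675) (nat_lit 33660) (nat_lit 893057) (nat_lit 0) (nat_lit 0),Row.mk (nat_lit 12600) (nat_lit 33473) (nat_lit 7495831) (nat_lit 33660) (nat_lit 892932) (nat_lit 0) (nat_lit 0),Row.mk (nat_lit 12768) (nat_lit 33473) (nat_lit 7496025) (nat_lit 33660) (nat_lit 892776) (nat_lit 0) (nat_lit 0),Row.mk (nat_lit 12936) (nat_lit 33473) (nat_lit 7496269) (nat_lit 33660) (nat_lit 892582) (nat_lit 0) (nat_lit 0),Row.mk (nat_lit 13104) (nat_lit 33473) (nat_lit 7496572) (nat_lit 33660) (nat_lit 892338) (nat_lit 0) (nat_lit 0),Row.mk (nat_lit 13272) (nat_lit 33473) (nat_lit 7496951) (nat_lit 33660) (nat_lit 892035) (nat_lit 0) (nat_lit 0),Row.mk (nat_lit 13440) (nat_lit 33473) (nat_lit 7497425) (nat_lit 33660) (nat_lit 891656) (nat_lit 0) (nat_lit 0),Row.mk (nat_lit 13608) (nat_lit 33473) (nat_lit 7498016) (nat_lit 33660) (nat_lit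 891182) (nat_lit 0) (nat_lit 0),Row.mk (nat_lit 13776) (nat_lit 33473) (nat_lit 7498755) (nat_lit 33660) (nat_lit 890591) (nat_lit 0) (nat_lit 0),Row.mk (nat_lit 13944) (nat_lit 33473) (nat_lit 7499677) (nat_lit 33660) (nat_lit 889852) (nat_lit 0) (nat_lit 0),Row.mk (nat_lit 14112) (nat_lit 33473) (nat_lit 7500829) (nat_lit 33660) (nat_lit 888930) (nat_lit 0) (nat_lit 0),Row.mk (nat_lit 14280) (nat_lit 33473) (nat_lit 7502268) (nat_lit 33660) (nat_lit 887778) (nat_lit 0) (nat_lit 0),Row.mk (nat_lit 14448) (nat_lit 33473) (nat_lit 7504066) (nat_lit 33660) (nat_lit 886339) (nat_lit 0) (nat_lit 0),Row.mk (nat_lit 14616) (nat_lit 33473) (nat_lit 7506311) (nat_lit 33660) (nat_lit 884541) (nat_lit 0) (nat_lit 0),Row.mk (nat_lit 14784) (nat_lit 33473) (nat_lit 7509114) (nat_lit 33660) (nat_lit 882296) (nat_lit 0) (nat_lit 0),Row.mk (nat_lit 14952) (nat_lit 33473) (nat_lit 7512616) (nat_lit 33660) (nat_lit 879493) (nat_lit 0) (nat_lit 0),Row.mk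 (nat_lit 15120) (nat_lit 33473) (nat_lit 7516990) (nat_lit 33660) (nat_lit 875991) (nat_lit 0) (nat_lit 0),Row.mk (nat_lit 15288) (nat_lit 33473) (nat_lit 7522453) (nat_lit 33660) (nat_lit 871617) (nat_lit 0) (nat_lit 0),Row.mk (nat_lit 15456) (nat_lit 33473) (nat_lit 7529275) (nat_lit 33660) (nat_lit 866154) (nat_lit 0) (nat_lit 0),Row.mk (nat_lit 15624) (nat_lit 33473) (nat_lit 7537797) (nat_lit 33660) (nat_lit 859332) (nat_lit 0) (nat_lit 0),Row.mk (nat_lit 15792) (nat_lit 33473) (nat_lit 7548440) (nat_lit 33660) (nat_lit 850810) (nat_lit 0) (nat_lit 0),Row.mk (nat_lit 15960) (nat_lit 33473) (nat_lit 7561733) (nat_lit 33660) (nat_lit 840167) (nat_lit 0) (nat_lit 0),Row.mk (nat_lit 16128) (nat_lit 33473) (nat_lit 7578336) (nat_lit 33660) (nat_lit 826874) (nat_lit 0) (nat_lit 0),Row.mk (nat_lit 16296) (nat_lit 33473) (nat_lit 7599072) (nat_lit 33660) (nat_lit 810271) (nat_lit 0) (nat_lit 0),Row.mk (nat_lit 16464) (nat_lit 33473)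 (nat_lit 7624971) (nat_lit 33660) (nat_lit 789535) (nat_lit 0) (nat_lit 0),Row.mk (nat_lit 16632) (nat_lit 33473) (nat_lit 7657318) (nat_lit 33660) (nat_lit 763636) (nat_lit 0) (nat_lit 0),Row.mk (nat_lit 16800) (nat_lit 33473) (nat_lit 7697719) (nat_lit 33660) (nat_lit 731289) (nat_lit 0) (nat_lit 0),Row.mk (nat_lit 16968) (nat_lit 33473) (nat_lit 7748179) (nat_lit 33660) (nat_lit 690888) (nat_lit 0) (nat_lit 0),Row.mk (nat_lit 17136) (nat_lit 33473) (nat_lit 7811203) (nat_lit 33660) (nat_lit 640428) (nat_lit 0) (nat_lit 0),Row.mk (nat_lit 17304) (nat_lit 33473) (nat_lit 7889917) (nat_lit 33660) (nat_lit 577404) (nat_lit 0) (nat_lit 0),Row.mk (nat_lit 17472) (nat_lit 33473) (nat_lit 7988230) (nat_lit 33660) (nat_lit 498690) (nat_lit 0) (nat_lit 0),Row.mk (nat_lit 17640) (nat_lit 33473) (nat_lit 8111020) (nat_lit 33660) (nat_lit 400377) (nat_lit 0) (nat_lit 0),Row.mk (nat_lit 17808) (nat_lit 33473) (nat_lit 8264381) (nat_lit 33660)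 (nat_lit 277587) (nat_lit 0) (nat_lit 0),Row.mk (nat_lit 17976) (nat_lit 33473) (nat_lit 8455926) (nat_lit 33660) (nat_lit 124226) (nat_lit 0) (nat_lit 0),Row.mk (nat_lit 18144) (nat_lit 33286) (nat_lit 84079) (nat_lit 33473) (nat_lit 8543763) (nat_lit 0) (nat_lit 0),Row.mk (nat_lit 18312) (nat_lit 33286) (nat_lit 382878) (nat_lit 33473) (nat_lit 8304528) (nat_lit 0) (nat_lit 0),Row.mk (nat_lit 18480) (nat_lit 33286) (nat_lit 756071) (nat_lit 33473) (nat_lit 8005729) (nat_lit 0) (nat_lit 0),Row.mk (nat_lit 18648) (nat_lit 33286) (nat_lit 1222180) (nat_lit 33473) (nat_lit 7632536) (nat_lit 0) (nat_lit 0),Row.mk (nat_lit 18816) (nat_lit 33286) (nat_lit 1804338) (nat_lit 33473) (nat_lit 7166427) (nat_lit 0) (nat_lit 0),Row.mk (nat_lit 18984) (nat_lit 33286) (nat_lit 2531440) (nat_lit 33473) (nat_lit 6584269) (nat_lit 0) (nat_lit 0),Row.mk (nat_lit 19152) (nat_lit 33286) (nat_lit 3439573) (nat_lit 33473) (nat_lit 5857167) (nat_lit 0)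 (nat_lit 0),Row.mk (nat_lit 19320) (nat_lit 33286) (nat_lit 4573809) (nat_lit 33473) (nat_lit 4949034) (nat_lit 0) (nat_lit 0),Row.mk (nat_lit 19488) (nat_lit 33286) (nat_lit 5990443) (nat_lit 33473) (nat_lit 3814798) (nat_lit 0) (nat_lit 0),Row.mk (nat_lit 19656) (nat_lit 33286) (nat_lit 7759784) (nat_lit 33473) (nat_lit 2398164) (nat_lit 0) (nat_lit 0),Row.mk (nat_lit 19824) (nat_lit 33286) (nat_lit 9969648) (nat_lit 33473) (nat_lit 628823) (nat_lit 0) (nat_lit 0),Row.mk (nat_lit 19992) (nat_lit 33099) (nat_lit 1974681) (nat_lit 33286) (nat_lit 9173993) (nat_lit 0) (nat_lit 0),Row.mk (nat_lit 20160) (nat_lit 33099) (nat_lit 5421938) (nat_lit 33286) (nat_lit 6413926) (nat_lit 0) (nat_lit 0),Row.mk (nat_lit 20328) (nat_lit 33099) (nat_lit 9727480) (nat_lit 33286) (nat_lit 2966669) (nat_lit 0) (nat_lit 0),Row.mk (nat_lit 20496) (nat_lit 32912) (nat_lit 1672218) (nat_lit 33099) (nat_lit 12093906) (nat_lit 0) (nat_lit 0),Row.mk (nat_lit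 20664) (nat_lit 32912) (nat_lit 8388608) (nat_lit 33099) (nat_lit 6716389) (nat_lit 0) (nat_lit 0),Row.mk (nat_lit 20832) (nat_lit 32912) (nat_lit 16777216) (nat_lit 0) (nat_lit 0) (nat_lit 0) (nat_lit 0),Row.mk (nat_lit 21000) (nat_lit 32725) (nat_lit 10477169) (nat_lit 32912) (nat_lit 8388608) (nat_lit 0) (nat_lit 0),Row.mk (nat_lit 21168) (nat_lit 32538) (nat_lit 2608562) (nat_lit 32725) (nat_lit 18865777) (nat_lit 0) (nat_lit 0),Row.mk (nat_lit 21336) (nat_lit 32538) (nat_lit 18952325) (nat_lit 32725) (nat_lit 5780045) (nat_lit 0) (nat_lit 0),Row.mk (nat_lit 21504) (nat_lit 32351) (nat_lit 13193827) (nat_lit 32538) (nat_lit 15607745) (nat_lit 0) (nat_lit 0),Row.mk (nat_lit 21672) (nat_lit 32164) (nat_lit 6001603) (nat_lit 32351) (nat_lit 27882305) (nat_lit 0) (nat_lit 0),Row.mk (nat_lit 21840) (nat_lit 32164) (nat_lit 37844620) (nat_lit 32351) (nat_lit 2387004) (nat_lit 0) (nat_lit 0),Row.mk (nat_lit 22008) (nat_lit 31977) (nat_lit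 36789848) (nat_lit 32164) (nat_lit 11369918) (nat_lit 0) (nat_lit 0),Row.mk (nat_lit 22176) (nat_lit 31790) (nat_lit 35472464) (nat_lit 31977) (nat_lit 22589362) (nat_lit 0) (nat_lit 0),Row.mk (nat_lit 22344) (nat_lit 31603) (nat_lit 33827083) (nat_lit 31790) (nat_lit 36602176) (nat_lit 0) (nat_lit 0),Row.mk (nat_lit 22512) (nat_lit 31416) (nat_lit 31772041) (nat_lit 31603) (nat_lit 54103843) (nat_lit 0) (nat_lit 0),Row.mk (nat_lit 22680) (nat_lit 31229) (nat_lit 29205344) (nat_lit 31416) (nat_lit 75963003) (nat_lit 0) (nat_lit 0),Row.mk (nat_lit 22848) (nat_lit 31042) (nat_lit 25999601) (nat_lit 31229) (nat_lit 103264566) (nat_lit 0) (nat_lit 0),Row.mk (nat_lit 23016) (nat_lit 30855) (nat_lit 21995706) (nat_lit 31042) (nat_lit 137363560) (nat_lit 0) (nat_lit 0),Row.mk (nat_lit 23184) (nat_lit 30668) (nat_lit 16994937) (nat_lit 30855) (nat_lit 179952381) (nat_lit 0) (nat_lit 0),Row.mk (nat_lit 23352) (nat_lit 30481) (nat_lit 10749098)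 (nat_lit 30668) (nat_lit 233144791) (nat_lit 0) (nat_lit 0),Row.mk (nat_lit 23520) (nat_lit 30294) (nat_lit 2948195) (nat_lit 30481) (nat_lit 299580828) (nat_lit 0) (nat_lit 0),Row.mk (nat_lit 23688) (nat_lit 30294) (nat_lit 370322479) (nat_lit 30481) (nat_lit 5440412) (nat_lit 0) (nat_lit 0),Row.mk (nat_lit 23856) (nat_lit 30107) (nat_lit 452046674) (nat_lit 30294) (nat_lit 15183551) (nat_lit 0) (nat_lit 0),Row.mk (nat_lit 24024) (nat_lit 29920) (nat_lit 554118221) (nat_lit 30107) (nat_lit 27352497) (nat_lit 0) (nat_lit 0),Row.mk (nat_lit 24192) (nat_lit 29733) (nat_lit 681603122) (nat_lit 29920) (nat_lit 42551217) (nat_lit 0) (nat_lit 0),Row.mk (nat_lit 24360) (nat_lit 29546) (nat_lit 840828688) (nat_lit 29733) (nat_lit 61534052) (nat_lit 0) (nat_lit 0),Row.mk (nat_lit 24528) (nat_lit 29359) (nat_lit 1039697578) (nat_lit 29546) (nat_lit 85243155) (nat_lit 0) (nat_lit 0),Row.mk (nat_lit 24696) (nat_lit 29172) (nat_lit 1288080024)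 (nat_lit 29359) (nat_lit 114855252) (nat_lit 0) (nat_lit 0),Row.mk (nat_lit 24864) (nat_lit 28985) (nat_lit 1598303708) (nat_lit 29172) (nat_lit 151840047) (nat_lit 0) (nat_lit 0),Row.mk (nat_lit 25032) (nat_lit 28798) (nat_lit 1985765606) (nat_lit 28985) (nat_lit 198033164) (nat_lit 0) (nat_lit 0),Row.mk (nat_lit 25200) (nat_lit 28611) (nat_lit 2469696168) (nat_lit 28798) (nat_lit 255727253) (nat_lit 0) (nat_lit 0),Row.mk (nat_lit 25368) (nat_lit 28424) (nat_lit 3074113767) (nat_lit 28611) (nat_lit 327785778) (nat_lit 0) (nat_lit 0),Row.mk (nat_lit 25536) (nat_lit 28237) (nat_lit 3829016766) (nat_lit 28424) (nat_lit 417785138) (nat_lit 0) (nat_lit 0),Row.mk (nat_lit 25704) (nat_lit 28050) (nat_lit 4771872402) (nat_lit 28237) (nat_lit 530192167) (nat_lit 0) (nat_lit 0),Row.mk (nat_lit 25872) (nat_lit 27863) (nat_lit 5949476345) (nat_lit 28050) (nat_lit 670585834) (nat_lit 0) (nat_lit 0),Row.mk (nat_lit 26040) (nat_lit 27676) (nat_lit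 7420275263) (nat_lit 27863) (nat_lit 845934138) (nat_lit 0) (nat_lit 0),Row.mk (nat_lit 26208) (nat_lit 27489) (nat_lit 9257267629) (nat_lit 27676) (nat_lit 1064939939) (nat_lit 0) (nat_lit 0),Row.mk (nat_lit 26376) (nat_lit 27302) (nat_lit 11551626779) (nat_lit 27489) (nat_lit 1338472901) (nat_lit 0) (nat_lit 0),Row.mk (nat_lit 26544) (nat_lit 32912) (nat_lit 16777216) (nat_lit 62084) (nat_lit 16080557766) (nat_lit 0) (nat_lit 0),Row.mk (nat_lit 26712) (nat_lit 32912) (nat_lit 16777216) (nat_lit 62084) (nat_lit 20086317287) (nat_lit 0) (nat_lit 0),Row.mk (nat_lit 26880) (nat_lit 32912) (nat_lit 16777216) (nat_lit 62084) (nat_lit 25089414294) (nat_lit 0) (nat_lit 0),Row.mk (nat_lit 27048) (nat_lit 32912) (nat_lit 16777216) (nat_lit 62084) (nat_lit 31338161762) (nat_lit 0) (nat_lit 0),Row.mk (nat_lit 27216) (nat_lit 32912) (nat_lit 16777216) (nat_lit 62084) (nat_lit 39142696606) (nat_lit 0) (nat_lit 0),Row.mk (nat_lit 27384) (nat_lit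 32912) (nat_lit 16777216) (nat_lit 62084) (nat_lit 48890372351) (nat_lit 0) (nat_lit 0),Row.mk (nat_lit 27552) (nat_lit 32912) (nat_lit 16777216) (nat_lit 62084) (nat_lit 61064984206) (nat_lit 0) (nat_lit 0),Row.mk (nat_lit 27720) (nat_lit 32912) (nat_lit 16777216) (nat_lit 62084) (nat_lit 76270780715) (nat_lit 0) (nat_lit 0),Row.mk (nat_lit 27888) (nat_lit 32912) (nat_lit 16777216) (nat_lit 62084) (nat_lit 95262453733) (nat_lit 0) (nat_lit 0),Row.mk (nat_lit 28056) (nat_lit 32912) (nat_lit 16777216) (nat_lit 62084) (nat_lit 118982595181) (nat_lit 0) (nat_lit 0),Row.mk (nat_lit 28224) (nat_lit 32912) (nat_lit 16777216) (nat_lit 62084) (nat_lit 148608479629) (nat_lit 0) (nat_lit 0),Row.mk (nat_lit 28392) (nat_lit 32912) (nat_lit 16777216) (nat_lit 62084) (nat_lit 185610494615) (nat_lit 0) (nat_lit 0),Row.mk (nat_lit 28560) (nat_lit 32912) (nat_lit 16777216) (nat_lit 62084) (nat_lit 231825118704) (nat_lit 0) (nat_lit 0),Row.mk (nat_lit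 28728) (nat_lit 32912) (nat_lit 16777216) (nat_lit 62084) (nat_lit 289546069319) (nat_lit 0) (nat_lit 0),Row.mk (nat_lit 28896) (nat_lit 32912) (nat_lit 16777216) (nat_lit 62084) (nat_lit 361638144187) (nat_lit 0) (nat_lit 0),Row.mk (nat_lit 29064) (nat_lit 32912) (nat_lit 16777216) (nat_lit 62084) (nat_lit 451679406563) (nat_lit 0) (nat_lit 0),Row.mk (nat_lit 29232) (nat_lit 32912) (nat_lit 16777216) (nat_lit 62084) (nat_lit 564138771133) (nat_lit 0) (nat_lit 0),Row.mk (nat_lit 29400) (nat_lit 32912) (nat_lit 16777216) (nat_lit 62084) (nat_lit 704597804532) (nat_lit 0) (nat_lit 0),Row.mk (nat_lit 29568) (nat_lit 32912) (nat_lit 16777216) (nat_lit 62084) (nat_lit 880027748841) (nat_lit 0) (nat_lit 0),Row.mk (nat_lit 29736) (nat_lit 32912) (nat_lit 16777216) (nat_lit 62084) (nat_lit 1099135517246) (nat_lit 0) (nat_lit 0),Row.mk (nat_lit 29904) (nat_lit 32912) (nat_lit 16777216) (nat_lit 62084) (nat_lit 1372795834270) (nat_lit 0) (nat_lit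 0),Row.mk (nat_lit 30072) (nat_lit 32912) (nat_lit 16777216) (nat_lit 62084) (nat_lit 1714590968505) (nat_lit 0) (nat_lit 0),Row.mk (nat_lit 30240) (nat_lit 32912) (nat_lit 16777216) (nat_lit 62084) (nat_lit 2141484845766) (nat_lit 0) (nat_lit 0),Row.mk (nat_lit 30408) (nat_lit 32912) (nat_lit 16777216) (nat_lit 62084) (nat_lit 2674665000160) (nat_lit 0) (nat_lit 0),Row.mk (nat_lit 30576) (nat_lit 32912) (nat_lit 16777216) (nat_lit 62084) (nat_lit 3340594150663) (nat_lit 0) (nat_lit 0)],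
[Row.mk (nat_lit 2688) (nat_lit 26928) (nat_lit 3983619) (nat_lit 27115) (nat_lit 6493549) (nat_lit 0) (nat_lit 0),Row.mk (nat_lit 2856) (nat_lit 26928) (nat_lit 3983619) (nat_lit 27115) (nat_lit 6493549) (nat_lit 0) (nat_lit 0),Row.mk (nat_lit 3024) (nat_lit 26928) (nat_lit 3983619) (nat_lit 27115) (nat_lit 6493549) (nat_lit 0) (nat_lit 0),Row.mk (nat_lit 3192) (nat_lit 26928) (nat_lit 3983619) (nat_lit 27115) (nat_lit 6493549) (nat_lit 0) (nat_lit 0),Row.mk (nat_lit 3360) (nat_lit 26928) (nat_lit 3983619) (nat_lit 27115) (nat_lit 6493549) (nat_lit 0) (nat_lit 0),Row.mk (nat_lit 3528) (nat_lit 26928) (nat_lit 3983619) (nat_lit 27115) (nat_lit 6493549) (nat_lit 0) (nat_lit 0),Row.mk (nat_lit 3696) (nat_lit 26928) (nat_lit 3983619) (nat_lit 27115) (nat_lit 6493549) (nat_lit 0) (nat_lit 0),Row.mk (nat_lit 3864) (nat_lit 26928) (nat_lit 3983619) (nat_lit 27115) (nat_lit 6493549) (nat_lit 0) (nat_lit 0),Row.mk (nat_lit 4032) (nat_lit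 26928) (nat_lit 3983619) (nat_lit 27115) (nat_lit 6493549) (nat_lit 0) (nat_lit 0),Row.mk (nat_lit 4200) (nat_lit 26928) (nat_lit 3983619) (nat_lit 27115) (nat_lit 6493549) (nat_lit 0) (nat_lit 0),Row.mk (nat_lit 4368) (nat_lit 26928) (nat_lit 3983619) (nat_lit 27115) (nat_lit 6493549) (nat_lit 0) (nat_lit 0),Row.mk (nat_lit 4536) (nat_lit 26928) (nat_lit 3983619) (nat_lit 27115) (nat_lit 6493549) (nat_lit 0) (nat_lit 0),Row.mk (nat_lit 4704) (nat_lit 26928) (nat_lit 3983619) (nat_lit 27115) (nat_lit 6493549) (nat_lit 0) (nat_lit 0),Row.mk (nat_lit 4872) (nat_lit 26928) (nat_lit 3983619) (nat_lit 27115) (nat_lit 6493549) (nat_lit 0) (nat_lit 0),Row.mk (nat_lit 5040) (nat_lit 26928) (nat_lit 3983619) (nat_lit 27115) (nat_lit 6493549) (nat_lit 0) (nat_lit 0),Row.mk (nat_lit 5208) (nat_lit 26928) (nat_lit 3983619) (nat_lit 27115) (nat_lit 6493549) (nat_lit 0) (nat_lit 0),Row.mk (nat_lit 5376) (nat_lit 26928) (nat_lit 3983619) (nat_lit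 27115) (nat_lit 6493549) (nat_lit 0) (nat_lit 0),Row.mk (nat_lit 5544) (nat_lit 26928) (nat_lit 3983619) (nat_lit 27115) (nat_lit 6493549) (nat_lit 0) (nat_lit 0),Row.mk (nat_lit 5712) (nat_lit 26928) (nat_lit 3983619) (nat_lit 27115) (nat_lit 6493549) (nat_lit 0) (nat_lit 0),Row.mk (nat_lit 5880) (nat_lit 26928) (nat_lit 3983619) (nat_lit 27115) (nat_lit 6493549) (nat_lit 0) (nat_lit 0),Row.mk (nat_lit 6048) (nat_lit 26928) (nat_lit 3983619) (nat_lit 27115) (nat_lit 6493549) (nat_lit 0) (nat_lit 0),Row.mk (nat_lit 6216) (nat_lit 26928) (nat_lit 3983619) (nat_lit 27115) (nat_lit 6493549) (nat_lit 0) (nat_lit 0),Row.mk (nat_lit 6384) (nat_lit 26928) (nat_lit 3983619) (nat_lit 27115) (nat_lit 6493549) (nat_lit 0) (nat_lit 0),Row.mk (nat_lit 6552) (nat_lit 26928) (nat_lit 3983619) (nat_lit 27115) (nat_lit 6493549) (nat_lit 0) (nat_lit 0),Row.mk (nat_lit 6720) (nat_lit 26928) (nat_lit 3983619) (nat_lit 27115) (nat_lit 6493549) (nat_lit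 0) (nat_lit 0),Row.mk (nat_lit 6888) (nat_lit 26928) (nat_lit 3983619) (nat_lit 27115) (nat_lit 6493549) (nat_lit 0) (nat_lit 0),Row.mk (nat_lit 7056) (nat_lit 26928) (nat_lit 3983619) (nat_lit 27115) (nat_lit 6493549) (nat_lit 0) (nat_lit 0),Row.mk (nat_lit 7224) (nat_lit 26928) (nat_lit 3983620) (nat_lit 27115) (nat_lit 6493548) (nat_lit 0) (nat_lit 0),Row.mk (nat_lit 7392) (nat_lit 26928) (nat_lit 3983620) (nat_lit 27115) (nat_lit 6493548) (nat_lit 0) (nat_lit 0),Row.mk (nat_lit 7560) (nat_lit 26928) (nat_lit 3983620) (nat_lit 27115) (nat_lit 6493548) (nat_lit 0) (nat_lit 0),Row.mk (nat_lit 7728) (nat_lit 26928) (nat_lit 3983620) (nat_lit 27115) (nat_lit 6493548) (nat_lit 0) (nat_lit 0),Row.mk (nat_lit 7896) (nat_lit 26928) (nat_lit 3983620) (nat_lit 27115) (nat_lit 6493548) (nat_lit 0) (nat_lit 0),Row.mk (nat_lit 8064) (nat_lit 26928) (nat_lit 3983621) (nat_lit 27115) (nat_lit 6493547) (nat_lit 0) (nat_lit 0),Row.mk (nat_lit 8232)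 (nat_lit 26928) (nat_lit 3983621) (nat_lit 27115) (nat_lit 6493547) (nat_lit 0) (nat_lit 0),Row.mk (nat_lit 8400) (nat_lit 26928) (nat_lit 3983622) (nat_lit 27115) (nat_lit 6493546) (nat_lit 0) (nat_lit 0),Row.mk (nat_lit 8568) (nat_lit 26928) (nat_lit 3983623) (nat_lit 27115) (nat_lit 6493545) (nat_lit 0) (nat_lit 0),Row.mk (nat_lit 8736) (nat_lit 26928) (nat_lit 3983624) (nat_lit 27115) (nat_lit 6493544) (nat_lit 0) (nat_lit 0),Row.mk (nat_lit 8904) (nat_lit 26928) (nat_lit 3983625) (nat_lit 27115) (nat_lit 6493543) (nat_lit 33473) (nat_lit 1),Row.mk (nat_lit 9072) (nat_lit 26928) (nat_lit 3983626) (nat_lit 27115) (nat_lit 6493542) (nat_lit 33473) (nat_lit 1),Row.mk (nat_lit 9240) (nat_lit 26928) (nat_lit 3983628) (nat_lit 27115) (nat_lit 6493540) (nat_lit 33473) (nat_lit 1),Row.mk (nat_lit 9408) (nat_lit 26928) (nat_lit 3983630) (nat_lit 27115) (nat_lit 6493538) (nat_lit 33473) (nat_lit 2),Row.mk (nat_lit 9576) (nat_lit 26928)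 (nat_lit 3983633) (nat_lit 27115) (nat_lit 6493535) (nat_lit 33473) (nat_lit 2),Row.mk (nat_lit 9744) (nat_lit 26928) (nat_lit 3983637) (nat_lit 27115) (nat_lit 6493531) (nat_lit 33473) (nat_lit 3),Row.mk (nat_lit 9912) (nat_lit 26928) (nat_lit 3983641) (nat_lit 27115) (nat_lit 6493527) (nat_lit 33473) (nat_lit 4),Row.mk (nat_lit 10080) (nat_lit 26928) (nat_lit 3983647) (nat_lit 27115) (nat_lit 6493521) (nat_lit 33473) (nat_lit 5),Row.mk (nat_lit 10248) (nat_lit 26928) (nat_lit 3983654) (nat_lit 27115) (nat_lit 6493514) (nat_lit 33473) (nat_lit 6),Row.mk (nat_lit 10416) (nat_lit 26928) (nat_lit 3983662) (nat_lit 27115) (nat_lit 6493506) (nat_lit 33473) (nat_lit 8),Row.mk (nat_lit 10584) (nat_lit 26928) (nat_lit 3983673) (nat_lit 27115) (nat_lit 6493495) (nat_lit 33473) (nat_lit 10),Row.mk (nat_lit 10752) (nat_lit 26928) (nat_lit 3983687) (nat_lit 27115) (nat_lit 6493481) (nat_lit 33473) (nat_lit 13),Row.mk (nat_lit 10920) (nat_lit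 26928) (nat_lit 3983704) (nat_lit 27115) (nat_lit 6493465) (nat_lit 33473) (nat_lit 16),Row.mk (nat_lit 11088) (nat_lit 26928) (nat_lit 3983725) (nat_lit 27115) (nat_lit 6493443) (nat_lit 33473) (nat_lit 21),Row.mk (nat_lit 11256) (nat_lit 26928) (nat_lit 3983751) (nat_lit 27115) (nat_lit 6493417) (nat_lit 33473) (nat_lit 26),Row.mk (nat_lit 11424) (nat_lit 26928) (nat_lit 3983784) (nat_lit 27115) (nat_lit 6493384) (nat_lit 33473) (nat_lit 32),Row.mk (nat_lit 11592) (nat_lit 26928) (nat_lit 3983825) (nat_lit 27115) (nat_lit 6493343) (nat_lit 33473) (nat_lit 41),Row.mk (nat_lit 11760) (nat_lit 26928) (nat_lit 3983876) (nat_lit 27115) (nat_lit 6493292) (nat_lit 33473) (nat_lit 51),Row.mk (nat_lit 11928) (nat_lit 26928) (nat_lit 3983940) (nat_lit 27115) (nat_lit 6493228) (nat_lit 33473) (nat_lit 64),Row.mk (nat_lit 12096) (nat_lit 26928) (nat_lit 3984020) (nat_lit 27115) (nat_lit 6493148) (nat_lit 33473) (nat_lit 79),Row.mk (nat_lit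 12264) (nat_lit 26928) (nat_lit 3984120) (nat_lit 27115) (nat_lit 6493048) (nat_lit 33473) (nat_lit 99),Row.mk (nat_lit 12432) (nat_lit 26928) (nat_lit 3984245) (nat_lit 27115) (nat_lit 6492923) (nat_lit 33473) (nat_lit 124),Row.mk (nat_lit 12600) (nat_lit 26928) (nat_lit 3984400) (nat_lit 27115) (nat_lit 6492768) (nat_lit 33473) (nat_lit 155),Row.mk (nat_lit 12768) (nat_lit 26928) (nat_lit 3984595) (nat_lit 27115) (nat_lit 6492573) (nat_lit 33473) (nat_lit 194),Row.mk (nat_lit 12936) (nat_lit 26928) (nat_lit 3984838) (nat_lit 27115) (nat_lit 6492330) (nat_lit 33473) (nat_lit 243),Row.mk (nat_lit 13104) (nat_lit 26928) (nat_lit 3985142) (nat_lit 27115) (nat_lit 6492026) (nat_lit 33473) (nat_lit 303),Row.mk (nat_lit 13272) (nat_lit 26928) (nat_lit 3985521) (nat_lit 27115) (nat_lit 6491647) (nat_lit 33473) (nat_lit 379),Row.mk (nat_lit 13440) (nat_lit 26928) (nat_lit 3985994) (nat_lit 27115) (nat_lit 6491174) (nat_lit 33473) (nat_lit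 473),Row.mk (nat_lit 13608) (nat_lit 26928) (nat_lit 3986586) (nat_lit 27115) (nat_lit 6490582) (nat_lit 33473) (nat_lit 591),Row.mk (nat_lit 13776) (nat_lit 26928) (nat_lit 3987324) (nat_lit 27115) (nat_lit 6489844) (nat_lit 33473) (nat_lit 738),Row.mk (nat_lit 13944) (nat_lit 26928) (nat_lit 3988247) (nat_lit 27115) (nat_lit 6488921) (nat_lit 33473) (nat_lit 922),Row.mk (nat_lit 14112) (nat_lit 26928) (nat_lit 3989399) (nat_lit 27115) (nat_lit 6487769) (nat_lit 33473) (nat_lit 1152),Row.mk (nat_lit 14280) (nat_lit 26928) (nat_lit 3990838) (nat_lit 27115) (nat_lit 6486330) (nat_lit 33473) (nat_lit 1439),Row.mk (nat_lit 14448) (nat_lit 26928) (nat_lit 3992635) (nat_lit 27115) (nat_lit 6484533) (nat_lit 33473) (nat_lit 1797),Row.mk (nat_lit 14616) (nat_lit 26928) (nat_lit 3994880) (nat_lit 27115) (nat_lit 6482288) (nat_lit 33473) (nat_lit 2244),Row.mk (nat_lit 14784) (nat_lit 26928) (nat_lit 3997684) (nat_lit 27115) (nat_lit 6479484)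 (nat_lit 33473) (nat_lit 2803),Row.mk (nat_lit 14952) (nat_lit 26928) (nat_lit 4001186) (nat_lit 27115) (nat_lit 6475982) (nat_lit 33473) (nat_lit 3501),Row.mk (nat_lit 15120) (nat_lit 26928) (nat_lit 4005560) (nat_lit 27115) (nat_lit 6471608) (nat_lit 33473) (nat_lit 4373),Row.mk (nat_lit 15288) (nat_lit 26928) (nat_lit 4011022) (nat_lit 27115) (nat_lit 6466146) (nat_lit 33473) (nat_lit 5462),Row.mk (nat_lit 15456) (nat_lit 26928) (nat_lit 4017845) (nat_lit 27115) (nat_lit 6459323) (nat_lit 33473) (nat_lit 6822),Row.mk (nat_lit 15624) (nat_lit 26928) (nat_lit 4026366) (nat_lit 27115) (nat_lit 6450802) (nat_lit 33473) (nat_lit 8521),Row.mk (nat_lit 15792) (nat_lit 26928) (nat_lit 4037010) (nat_lit 27115) (nat_lit 6440158) (nat_lit 33473) (nat_lit 10643),Row.mk (nat_lit 15960) (nat_lit 26928) (nat_lit 4050303) (nat_lit 27115) (nat_lit 6426865) (nat_lit 33473) (nat_lit 13292),Row.mk (nat_lit 16128) (nat_lit 26928) (nat_lit 4066905)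 (nat_lit 27115) (nat_lit 6410263) (nat_lit 33473) (nat_lit 16602),Row.mk (nat_lit 16296) (nat_lit 26928) (nat_lit 4087641) (nat_lit 27115) (nat_lit 6389527) (nat_lit 33473) (nat_lit 20736),Row.mk (nat_lit 16464) (nat_lit 26928) (nat_lit 4113541) (nat_lit 27115) (nat_lit 6363628) (nat_lit 33473) (nat_lit 25899),Row.mk (nat_lit 16632) (nat_lit 26928) (nat_lit 4145888) (nat_lit 27115) (nat_lit 6331280) (nat_lit 33473) (nat_lit 32347),Row.mk (nat_lit 16800) (nat_lit 26928) (nat_lit 4186289) (nat_lit 27115) (nat_lit 6290879) (nat_lit 33473) (nat_lit 40401),Row.mk (nat_lit 16968) (nat_lit 26928) (nat_lit 4236749) (nat_lit 27115) (nat_lit 6240419) (nat_lit 33473) (nat_lit 50459),Row.mk (nat_lit 17136) (nat_lit 26928) (nat_lit 4299772) (nat_lit 27115) (nat_lit 6177396) (nat_lit 33473) (nat_lit 63023),Row.mk (nat_lit 17304) (nat_lit 26928) (nat_lit 4378487) (nat_lit 27115) (nat_lit 6098681) (nat_lit 33473) (nat_lit 78714),Row.mk (nat_lit 17472)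 (nat_lit 26928) (nat_lit 4476799) (nat_lit 27115) (nat_lit 6000369) (nat_lit 33473) (nat_lit 98312),Row.mk (nat_lit 17640) (nat_lit 26928) (nat_lit 4599589) (nat_lit 27115) (nat_lit 5877579) (nat_lit 33473) (nat_lit 122789),Row.mk (nat_lit 17808) (nat_lit 26928) (nat_lit 4752951) (nat_lit 27115) (nat_lit 5724217) (nat_lit 33473) (nat_lit 153361),Row.mk (nat_lit 17976) (nat_lit 26928) (nat_lit 4944496) (nat_lit 27115) (nat_lit 5532672) (nat_lit 33473) (nat_lit 191545),Row.mk (nat_lit 18144) (nat_lit 26928) (nat_lit 5183731) (nat_lit 27115) (nat_lit 5293437) (nat_lit 33473) (nat_lit 239235),Row.mk (nat_lit 18312) (nat_lit 26928) (nat_lit 5482530) (nat_lit 27115) (nat_lit 4994638) (nat_lit 33473) (nat_lit 298799),Row.mk (nat_lit 18480) (nat_lit 26928) (nat_lit 5855723) (nat_lit 27115) (nat_lit 4621445) (nat_lit 33473) (nat_lit 373192),Row.mk (nat_lit 18648) (nat_lit 26928) (nat_lit 6321832) (nat_lit 27115) (nat_lit 4155336) (nat_lit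 33473) (nat_lit 466108),Row.mk (nat_lit 18816) (nat_lit 26928) (nat_lit 6903990) (nat_lit 27115) (nat_lit 3573178) (nat_lit 33473) (nat_lit 582158),Row.mk (nat_lit 18984) (nat_lit 26928) (nat_lit 7631092) (nat_lit 27115) (nat_lit 2846076) (nat_lit 33473) (nat_lit 727102),Row.mk (nat_lit 19152) (nat_lit 26928) (nat_lit 8539225) (nat_lit 27115) (nat_lit 1937943) (nat_lit 33473) (nat_lit 908132),Row.mk (nat_lit 19320) (nat_lit 26928) (nat_lit 9673461) (nat_lit 27115) (nat_lit 803707) (nat_lit 33473) (nat_lit 1134236),Row.mk (nat_lit 19488) (nat_lit 26928) (nat_lit 10477169) (nat_lit 33286) (nat_lit 612926) (nat_lit 33473) (nat_lit 803707),Row.mk (nat_lit 19656) (nat_lit 26741) (nat_lit 765529) (nat_lit 26928) (nat_lit 9711639) (nat_lit 33286) (nat_lit 1769341),Row.mk (nat_lit 19824) (nat_lit 26741) (nat_lit 2975394) (nat_lit 26928) (nat_lit 7501774) (nat_lit 33286) (nat_lit 2209864),Row.mk (nat_lit 19992) (nat_lit 26741) (nat_lit 5735461)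 (nat_lit 26928) (nat_lit 4741707) (nat_lit 33286) (nat_lit 2760067),Row.mk (nat_lit 20160) (nat_lit 26741) (nat_lit 9182718) (nat_lit 26928) (nat_lit 1294450) (nat_lit 33286) (nat_lit 3447257),Row.mk (nat_lit 20328) (nat_lit 26741) (nat_lit 10477169) (nat_lit 33099) (nat_lit 3011090) (nat_lit 33286) (nat_lit 1294450),Row.mk (nat_lit 20496) (nat_lit 26554) (nat_lit 3760779) (nat_lit 26741) (nat_lit 6716389) (nat_lit 33099) (nat_lit 5377517),Row.mk (nat_lit 20664) (nat_lit 26554) (nat_lit 10477169) (nat_lit 33099) (nat_lit 6716389) (nat_lit 0) (nat_lit 0),Row.mk (nat_lit 20832) (nat_lit 26554) (nat_lit 10477169) (nat_lit 32912) (nat_lit 8388608) (nat_lit 0) (nat_lit 0),Row.mk (nat_lit 21000) (nat_lit 26367) (nat_lit 10477169) (nat_lit 32912) (nat_lit 10477169) (nat_lit 0) (nat_lit 0),Row.mk (nat_lit 21168) (nat_lit 26367) (nat_lit 10477169) (nat_lit 32725) (nat_lit 13085731) (nat_lit 0) (nat_lit 0),Row.mk (nat_lit 21336) (nat_lit 26180)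 (nat_lit 10477169) (nat_lit 32538) (nat_lit 5866593) (nat_lit 32725) (nat_lit 10477169),Row.mk (nat_lit 21504) (nat_lit 25993) (nat_lit 7327234) (nat_lit 26180) (nat_lit 3149934) (nat_lit 32538) (nat_lit 20412965),Row.mk (nat_lit 21672) (nat_lit 25993) (nat_lit 10477169) (nat_lit 32351) (nat_lit 22345366) (nat_lit 32538) (nat_lit 3149934),Row.mk (nat_lit 21840) (nat_lit 25806) (nat_lit 10477169) (nat_lit 32164) (nat_lit 17431654) (nat_lit 32351) (nat_lit 14411361),Row.mk (nat_lit 22008) (nat_lit 25619) (nat_lit 10477169) (nat_lit 31977) (nat_lit 11294547) (nat_lit 32164) (nat_lit 28476612),Row.mk (nat_lit 22176) (nat_lit 25432) (nat_lit 10477169) (nat_lit 31790) (nat_lit 3629447) (nat_lit 31977) (nat_lit 46043770),Row.mk (nat_lit 22344) (nat_lit 25245) (nat_lit 4533092) (nat_lit 25432) (nat_lit 5944076) (nat_lit 31790) (nat_lit 62040651),Row.mk (nat_lit 22512) (nat_lit 25245) (nat_lit 10477169) (nat_lit 31603) (nat_lit 71543201) (nat_lit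 31790) (nat_lit 5944076),Row.mk (nat_lit 22680) (nat_lit 25058) (nat_lit 10477169) (nat_lit 31416) (nat_lit 78878563) (nat_lit 31603) (nat_lit 17901176),Row.mk (nat_lit 22848) (nat_lit 24871) (nat_lit 10477169) (nat_lit 31229) (nat_lit 88040253) (nat_lit 31416) (nat_lit 32835306),Row.mk (nat_lit 23016) (nat_lit 24684) (nat_lit 10477169) (nat_lit 31042) (nat_lit 99482983) (nat_lit 31229) (nat_lit 51487675),Row.mk (nat_lit 23184) (nat_lit 24497) (nat_lit 10477169) (nat_lit 30855) (nat_lit 113774678) (nat_lit 31042) (nat_lit 74784033),Row.mk (nat_lit 23352) (nat_lit 24310) (nat_lit 10477169) (nat_lit 30668) (nat_lit 131624659) (nat_lit 30855) (nat_lit 103880622),Row.mk (nat_lit 23520) (nat_lit 24123) (nat_lit 10477169) (nat_lit 30481) (nat_lit 153918855) (nat_lit 30668) (nat_lit 140221560),Row.mk (nat_lit 23688) (nat_lit 23936) (nat_lit 10477169) (nat_lit 30294) (nat_lit 181763767) (nat_lit 30481) (nat_lit 185610515),Row.mk (nat_lit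 23856) (nat_lit 23749) (nat_lit 10477169) (nat_lit 30107) (nat_lit 216541392) (nat_lit 30294) (nat_lit 242300225),Row.mk (nat_lit 24024) (nat_lit 23562) (nat_lit 10477169) (nat_lit 29920) (nat_lit 259977805) (nat_lit 30107) (nat_lit 313104305),Row.mk (nat_lit 24192) (nat_lit 23375) (nat_lit 10477169) (nat_lit 29733) (nat_lit 314228838) (nat_lit 29920) (nat_lit 401536893),Row.mk (nat_lit 24360) (nat_lit 23188) (nat_lit 10477169) (nat_lit 29546) (nat_lit 381987070) (nat_lit 29733) (nat_lit 511987062),Row.mk (nat_lit 24528) (nat_lit 23001) (nat_lit 10477169) (nat_lit 29359) (nat_lit 466615466) (nat_lit 29546) (nat_lit 649936659),Row.mk (nat_lit 24696) (nat_lit 22814) (nat_lit 10477169) (nat_lit 29172) (nat_lit 572314292) (nat_lit 29359) (nat_lit 822232377),Row.mk (nat_lit 24864) (nat_lit 22627) (nat_lit 10477169) (nat_lit 28985) (nat_lit 704329575) (nat_lit 29172) (nat_lit 1037425572),Row.mk (nat_lit 25032) (nat_lit 22440) (nat_lit 10477169)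 (nat_lit 28798) (nat_lit 869213480) (nat_lit 28985) (nat_lit 1306196682),Row.mk (nat_lit 25200) (nat_lit 22253) (nat_lit 10477169) (nat_lit 28611) (nat_lit 1075149498) (nat_lit 28798) (nat_lit 1641885315),Row.mk (nat_lit 25368) (nat_lit 22066) (nat_lit 10477169) (nat_lit 28424) (nat_lit 1332358618) (nat_lit 28611) (nat_lit 2061152319),Row.mk (nat_lit 25536) (nat_lit 21879) (nat_lit 10477169) (nat_lit 28237) (nat_lit 1653606603) (nat_lit 28424) (nat_lit 2584806693),Row.mk (nat_lit 25704) (nat_lit 21692) (nat_lit 10477169) (nat_lit 28050) (nat_lit 2054837588) (nat_lit 28237) (nat_lit 3238838373),Row.mk (nat_lit 25872) (nat_lit 21505) (nat_lit 10477169) (nat_lit 27863) (nat_lit 2555965407) (nat_lit 28050) (nat_lit 4055708164),Row.mk (nat_lit 26040) (nat_lit 21318) (nat_lit 10477169) (nat_lit 27676) (nat_lit 3181861965) (nat_lit 27863) (nat_lit 5075958827),Row.mk (nat_lit 26208) (nat_lit 21131) (nat_lit 10477169) (nat_lit 27489) (nat_lit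 3963591667) (nat_lit 27676) (nat_lit 6350227292),Row.mk (nat_lit 26376) (nat_lit 20944) (nat_lit 10477169) (nat_lit 27302) (nat_lit 4939953206) (nat_lit 27489) (nat_lit 7941757866),Row.mk (nat_lit 26544) (nat_lit 32912) (nat_lit 18865777) (nat_lit 62084) (nat_lit 16078469205) (nat_lit 0) (nat_lit 0),Row.mk (nat_lit 26712) (nat_lit 32912) (nat_lit 18865777) (nat_lit 62084) (nat_lit 20084228726) (nat_lit 0) (nat_lit 0),Row.mk (nat_lit 26880) (nat_lit 32912) (nat_lit 18865777) (nat_lit 62084) (nat_lit 25087325733) (nat_lit 0) (nat_lit 0),Row.mk (nat_lit 27048) (nat_lit 32912) (nat_lit 18865777) (nat_lit 62084) (nat_lit 31336073201) (nat_lit 0) (nat_lit 0),Row.mk (nat_lit 27216) (nat_lit 32912) (nat_lit 18865777) (nat_lit 62084) (nat_lit 39140608045) (nat_lit 0) (nat_lit 0),Row.mk (nat_lit 27384) (nat_lit 32912) (nat_lit 18865777) (nat_lit 62084) (nat_lit 48888283790) (nat_lit 0) (nat_lit 0),Row.mk (nat_lit 27552) (nat_lit 32912) (nat_lit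 18865777) (nat_lit 62084) (nat_lit 61062895645) (nat_lit 0) (nat_lit 0),Row.mk (nat_lit 27720) (nat_lit 32912) (nat_lit 18865777) (nat_lit 62084) (nat_lit 76268692154) (nat_lit 0) (nat_lit 0),Row.mk (nat_lit 27888) (nat_lit 32912) (nat_lit 18865777) (nat_lit 62084) (nat_lit 95260365172) (nat_lit 0) (nat_lit 0),Row.mk (nat_lit 28056) (nat_lit 32912) (nat_lit 18865777) (nat_lit 62084) (nat_lit 118980506620) (nat_lit 0) (nat_lit 0),Row.mk (nat_lit 28224) (nat_lit 32912) (nat_lit 18865777) (nat_lit 62084) (nat_lit 148606391068) (nat_lit 0) (nat_lit 0),Row.mk (nat_lit 28392) (nat_lit 32912) (nat_lit 18865777) (nat_lit 62084) (nat_lit 185608406054) (nat_lit 0) (nat_lit 0),Row.mk (nat_lit 28560) (nat_lit 32912) (nat_lit 18865777) (nat_lit 62084) (nat_lit 231823030143) (nat_lit 0) (nat_lit 0),Row.mk (nat_lit 28728) (nat_lit 32912) (nat_lit 18865777) (nat_lit 62084) (nat_lit 289543980758) (nat_lit 0) (nat_lit 0),Row.mk (nat_lit 28896) (nat_lit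 32912) (nat_lit 18865777) (nat_lit 62084) (nat_lit 361636055626) (nat_lit 0) (nat_lit 0),Row.mk (nat_lit 29064) (nat_lit 32912) (nat_lit 18865777) (nat_lit 62084) (nat_lit 451677318002) (nat_lit 0) (nat_lit 0),Row.mk (nat_lit 29232) (nat_lit 32912) (nat_lit 18865777) (nat_lit 62084) (nat_lit 564136682572) (nat_lit 0) (nat_lit 0),Row.mk (nat_lit 29400) (nat_lit 32912) (nat_lit 18865777) (nat_lit 62084) (nat_lit 704595715971) (nat_lit 0) (nat_lit 0),Row.mk (nat_lit 29568) (nat_lit 32912) (nat_lit 18865777) (nat_lit 62084) (nat_lit 880025660280) (nat_lit 0) (nat_lit 0),Row.mk (nat_lit 29736) (nat_lit 32912) (nat_lit 18865777) (nat_lit 62084) (nat_lit 1099133428685) (nat_lit 0) (nat_lit 0),Row.mk (nat_lit 29904) (nat_lit 32912) (nat_lit 18865777) (nat_lit 62084) (nat_lit 1372793745709) (nat_lit 0) (nat_lit 0),Row.mk (nat_lit 30072) (nat_lit 32912) (nat_lit 18865777) (nat_lit 62084) (nat_lit 1714588879944) (nat_lit 0) (nat_lit 0),Row.mk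 (nat_lit 30240) (nat_lit 32912) (nat_lit 18865777) (nat_lit 62084) (nat_lit 2141482757205) (nat_lit 0) (nat_lit 0),Row.mk (nat_lit 30408) (nat_lit 32912) (nat_lit 18865777) (nat_lit 62084) (nat_lit 2674662911599) (nat_lit 0) (nat_lit 0),Row.mk (nat_lit 30576) (nat_lit 32912) (nat_lit 18865777) (nat_lit 62084) (nat_lit 3340592062102) (nat_lit 0) (nat_lit 0),Row.mk (nat_lit 30744) (nat_lit 32912) (nat_lit 18865777) (nat_lit 62084) (nat_lit 4172321506336) (nat_lit 0) (nat_lit 0)],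
[Row.mk (nat_lit 4872) (nat_lit 20570) (nat_lit 10352961) (nat_lit 20757) (nat_lit 2732769) (nat_lit 0) (nat_lit 0),Row.mk (nat_lit 5040) (nat_lit 20570) (nat_lit 10352961) (nat_lit 20757) (nat_lit 2732769) (nat_lit 0) (nat_lit 0),Row.mk (nat_lit 5208) (nat_lit 20570) (nat_lit 10352961) (nat_lit 20757) (nat_lit 2732769) (nat_lit 0) (nat_lit 0),Row.mk (nat_lit 5376) (nat_lit 20570) (nat_lit 10352961) (nat_lit 20757) (nat_lit 2732769) (nat_lit 0) (nat_lit 0),Row.mk (nat_lit 5544) (nat_lit 20570) (nat_lit 10352961) (nat_lit 20757) (nat_lit 2732769) (nat_lit 0) (nat_lit 0),Row.mk (nat_lit 5712) (nat_lit 20570) (nat_lit 10352961) (nat_lit 20757) (nat_lit 2732769) (nat_lit 0) (nat_lit 0),Row.mk (nat_lit 5880) (nat_lit 20570) (nat_lit 10352961) (nat_lit 20757) (nat_lit 2732769) (nat_lit 0) (nat_lit 0),Row.mk (nat_lit 6048) (nat_lit 20570) (nat_lit 10352961) (nat_lit 20757) (nat_lit 2732769) (nat_lit 0) (nat_lit 0),Row.mk (nat_lit 6216) (nat_lit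 20570) (nat_lit 10352961) (nat_lit 20757) (nat_lit 2732769) (nat_lit 0) (nat_lit 0),Row.mk (nat_lit 6384) (nat_lit 20570) (nat_lit 10352961) (nat_lit 20757) (nat_lit 2732769) (nat_lit 0) (nat_lit 0),Row.mk (nat_lit 6552) (nat_lit 20570) (nat_lit 10352961) (nat_lit 20757) (nat_lit 2732769) (nat_lit 0) (nat_lit 0),Row.mk (nat_lit 6720) (nat_lit 20570) (nat_lit 10352961) (nat_lit 20757) (nat_lit 2732769) (nat_lit 0) (nat_lit 0),Row.mk (nat_lit 6888) (nat_lit 20570) (nat_lit 10352962) (nat_lit 20757) (nat_lit 2732769) (nat_lit 0) (nat_lit 0),Row.mk (nat_lit 7056) (nat_lit 20570) (nat_lit 10352962) (nat_lit 20757) (nat_lit 2732769) (nat_lit 0) (nat_lit 0),Row.mk (nat_lit 7224) (nat_lit 20570) (nat_lit 10352962) (nat_lit 20757) (nat_lit 2732768) (nat_lit 0) (nat_lit 0),Row.mk (nat_lit 7392) (nat_lit 20570) (nat_lit 10352962) (nat_lit 20757) (nat_lit 2732768) (nat_lit 0) (nat_lit 0),Row.mk (nat_lit 7560) (nat_lit 20570) (nat_lit 10352962)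 (nat_lit 20757) (nat_lit 2732768) (nat_lit 0) (nat_lit 0),Row.mk (nat_lit 7728) (nat_lit 20570) (nat_lit 10352962) (nat_lit 20757) (nat_lit 2732768) (nat_lit 0) (nat_lit 0),Row.mk (nat_lit 7896) (nat_lit 20570) (nat_lit 10352963) (nat_lit 20757) (nat_lit 2732767) (nat_lit 0) (nat_lit 0),Row.mk (nat_lit 8064) (nat_lit 20570) (nat_lit 10352963) (nat_lit 20757) (nat_lit 2732767) (nat_lit 0) (nat_lit 0),Row.mk (nat_lit 8232) (nat_lit 20570) (nat_lit 10352964) (nat_lit 20757) (nat_lit 2732766) (nat_lit 27115) (nat_lit 1),Row.mk (nat_lit 8400) (nat_lit 20570) (nat_lit 10352964) (nat_lit 20757) (nat_lit 2732765) (nat_lit 27115) (nat_lit 1),Row.mk (nat_lit 8568) (nat_lit 20570) (nat_lit 10352965) (nat_lit 20757) (nat_lit 2732765) (nat_lit 27115) (nat_lit 1),Row.mk (nat_lit 8736) (nat_lit 20570) (nat_lit 10352966) (nat_lit 20757) (nat_lit 2732763) (nat_lit 27115) (nat_lit 2),Row.mk (nat_lit 8904) (nat_lit 20570) (nat_lit 10352967) (nat_lit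 20757) (nat_lit 2732762) (nat_lit 27115) (nat_lit 2),Row.mk (nat_lit 9072) (nat_lit 20570) (nat_lit 10352968) (nat_lit 20757) (nat_lit 2732760) (nat_lit 27115) (nat_lit 3),Row.mk (nat_lit 9240) (nat_lit 20570) (nat_lit 10352970) (nat_lit 20757) (nat_lit 2732758) (nat_lit 27115) (nat_lit 4),Row.mk (nat_lit 9408) (nat_lit 20570) (nat_lit 10352973) (nat_lit 20757) (nat_lit 2732755) (nat_lit 27115) (nat_lit 5),Row.mk (nat_lit 9576) (nat_lit 20570) (nat_lit 10352975) (nat_lit 20757) (nat_lit 2732751) (nat_lit 27115) (nat_lit 6),Row.mk (nat_lit 9744) (nat_lit 20570) (nat_lit 10352979) (nat_lit 20757) (nat_lit 2732747) (nat_lit 27115) (nat_lit 8),Row.mk (nat_lit 9912) (nat_lit 20570) (nat_lit 10352983) (nat_lit 20757) (nat_lit 2732741) (nat_lit 27115) (nat_lit 9),Row.mk (nat_lit 10080) (nat_lit 20570) (nat_lit 10352989) (nat_lit 20757) (nat_lit 2732734) (nat_lit 27115) (nat_lit 12),Row.mk (nat_lit 10248) (nat_lit 20570) (nat_lit 10352996)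 (nat_lit 20757) (nat_lit 2732726) (nat_lit 27115) (nat_lit 15),Row.mk (nat_lit 10416) (nat_lit 20570) (nat_lit 10353005) (nat_lit 20757) (nat_lit 2732715) (nat_lit 27115) (nat_lit 19),Row.mk (nat_lit 10584) (nat_lit 20570) (nat_lit 10353015) (nat_lit 20757) (nat_lit 2732701) (nat_lit 27115) (nat_lit 24),Row.mk (nat_lit 10752) (nat_lit 20570) (nat_lit 10353029) (nat_lit 20757) (nat_lit 2732685) (nat_lit 27115) (nat_lit 30),Row.mk (nat_lit 10920) (nat_lit 20570) (nat_lit 10353046) (nat_lit 20757) (nat_lit 2732664) (nat_lit 27115) (nat_lit 37),Row.mk (nat_lit 11088) (nat_lit 20570) (nat_lit 10353067) (nat_lit 20757) (nat_lit 2732637) (nat_lit 27115) (nat_lit 47),Row.mk (nat_lit 11256) (nat_lit 20570) (nat_lit 10353093) (nat_lit 20757) (nat_lit 2732604) (nat_lit 27115) (nat_lit 59),Row.mk (nat_lit 11424) (nat_lit 20570) (nat_lit 10353126) (nat_lit 20757) (nat_lit 2732563) (nat_lit 27115) (nat_lit 73),Row.mk (nat_lit 11592) (nat_lit 20570)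 (nat_lit 10353167) (nat_lit 20757) (nat_lit 2732512) (nat_lit 27115) (nat_lit 92),Row.mk (nat_lit 11760) (nat_lit 20570) (nat_lit 10353218) (nat_lit 20757) (nat_lit 2732448) (nat_lit 27115) (nat_lit 115),Row.mk (nat_lit 11928) (nat_lit 20570) (nat_lit 10353282) (nat_lit 20757) (nat_lit 2732368) (nat_lit 27115) (nat_lit 143),Row.mk (nat_lit 12096) (nat_lit 20570) (nat_lit 10353362) (nat_lit 20757) (nat_lit 2732268) (nat_lit 27115) (nat_lit 179),Row.mk (nat_lit 12264) (nat_lit 20570) (nat_lit 10353462) (nat_lit 20757) (nat_lit 2732143) (nat_lit 27115) (nat_lit 224),Row.mk (nat_lit 12432) (nat_lit 20570) (nat_lit 10353587) (nat_lit 20757) (nat_lit 2731988) (nat_lit 27115) (nat_lit 280),Row.mk (nat_lit 12600) (nat_lit 20570) (nat_lit 10353743) (nat_lit 20757) (nat_lit 2731793) (nat_lit 27115) (nat_lit 350),Row.mk (nat_lit 12768) (nat_lit 20570) (nat_lit 10353937) (nat_lit 20757) (nat_lit 2731550) (nat_lit 27115) (nat_lit 437),Row.mk (nat_lit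 12936) (nat_lit 20570) (nat_lit 10354180) (nat_lit 20757) (nat_lit 2731247) (nat_lit 27115) (nat_lit 546),Row.mk (nat_lit 13104) (nat_lit 20570) (nat_lit 10354484) (nat_lit 20757) (nat_lit 2730867) (nat_lit 27115) (nat_lit 682),Row.mk (nat_lit 13272) (nat_lit 20570) (nat_lit 10354863) (nat_lit 20757) (nat_lit 2730394) (nat_lit 27115) (nat_lit 852),Row.mk (nat_lit 13440) (nat_lit 20570) (nat_lit 10355336) (nat_lit 20757) (nat_lit 2729803) (nat_lit 27115) (nat_lit 1064),Row.mk (nat_lit 13608) (nat_lit 20570) (nat_lit 10355928) (nat_lit 20757) (nat_lit 2729064) (nat_lit 27115) (nat_lit 1329),Row.mk (nat_lit 13776) (nat_lit 20570) (nat_lit 10356666) (nat_lit 20757) (nat_lit 2728141) (nat_lit 27115) (nat_lit 1661),Row.mk (nat_lit 13944) (nat_lit 20570) (nat_lit 10357589) (nat_lit 20757) (nat_lit 2726989) (nat_lit 27115) (nat_lit 2074),Row.mk (nat_lit 14112) (nat_lit 20570) (nat_lit 10358741) (nat_lit 20757) (nat_lit 2725550) (nat_lit 27115)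 (nat_lit 2591),Row.mk (nat_lit 14280) (nat_lit 20570) (nat_lit 10360180) (nat_lit 20757) (nat_lit 2723753) (nat_lit 27115) (nat_lit 3236),Row.mk (nat_lit 14448) (nat_lit 20570) (nat_lit 10361978) (nat_lit 20757) (nat_lit 2721508) (nat_lit 27115) (nat_lit 4042),Row.mk (nat_lit 14616) (nat_lit 20570) (nat_lit 10364222) (nat_lit 20757) (nat_lit 2718704) (nat_lit 27115) (nat_lit 5048),Row.mk (nat_lit 14784) (nat_lit 20570) (nat_lit 10367026) (nat_lit 20757) (nat_lit 2715202) (nat_lit 27115) (nat_lit 6305),Row.mk (nat_lit 14952) (nat_lit 20570) (nat_lit 10370528) (nat_lit 20757) (nat_lit 2710829) (nat_lit 27115) (nat_lit 7875),Row.mk (nat_lit 15120) (nat_lit 20570) (nat_lit 10374902) (nat_lit 20757) (nat_lit 2705366) (nat_lit 27115) (nat_lit 9836),Row.mk (nat_lit 15288) (nat_lit 20570) (nat_lit 10380364) (nat_lit 20757) (nat_lit 2698543) (nat_lit 27115) (nat_lit 12285),Row.mk (nat_lit 15456) (nat_lit 20570) (nat_lit 10387187) (nat_lit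 20757) (nat_lit 2690022) (nat_lit 27115) (nat_lit 15344),Row.mk (nat_lit 15624) (nat_lit 20570) (nat_lit 10395709) (nat_lit 20757) (nat_lit 2679379) (nat_lit 27115) (nat_lit 19164),Row.mk (nat_lit 15792) (nat_lit 20570) (nat_lit 10406352) (nat_lit 20757) (nat_lit 2666086) (nat_lit 27115) (nat_lit 23936),Row.mk (nat_lit 15960) (nat_lit 20570) (nat_lit 10419645) (nat_lit 20757) (nat_lit 2649483) (nat_lit 27115) (nat_lit 29895),Row.mk (nat_lit 16128) (nat_lit 20570) (nat_lit 10436247) (nat_lit 20757) (nat_lit 2628747) (nat_lit 27115) (nat_lit 37338),Row.mk (nat_lit 16296) (nat_lit 20570) (nat_lit 10456984) (nat_lit 20757) (nat_lit 2602848) (nat_lit 27115) (nat_lit 46635),Row.mk (nat_lit 16464) (nat_lit 20570) (nat_lit 10482883) (nat_lit 20757) (nat_lit 2570500) (nat_lit 27115) (nat_lit 58246),Row.mk (nat_lit 16632) (nat_lit 20570) (nat_lit 10515230) (nat_lit 20757) (nat_lit 2530099) (nat_lit 27115) (nat_lit 72748),Row.mk (nat_lit 16800)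 (nat_lit 20570) (nat_lit 10555631) (nat_lit 20757) (nat_lit 2479639) (nat_lit 27115) (nat_lit 90860),Row.mk (nat_lit 16968) (nat_lit 20570) (nat_lit 10606091) (nat_lit 20757) (nat_lit 2416616) (nat_lit 27115) (nat_lit 113483),Row.mk (nat_lit 17136) (nat_lit 20570) (nat_lit 10669114) (nat_lit 20757) (nat_lit 2337901) (nat_lit 27115) (nat_lit 141737),Row.mk (nat_lit 17304) (nat_lit 20570) (nat_lit 10747829) (nat_lit 20757) (nat_lit 2239589) (nat_lit 27115) (nat_lit 177027),Row.mk (nat_lit 17472) (nat_lit 20570) (nat_lit 10846141) (nat_lit 20757) (nat_lit 2116799) (nat_lit 27115) (nat_lit 221102),Row.mk (nat_lit 17640) (nat_lit 20570) (nat_lit 10968931) (nat_lit 20757) (nat_lit 1963437) (nat_lit 27115) (nat_lit 276151),Row.mk (nat_lit 17808) (nat_lit 20570) (nat_lit 11122293) (nat_lit 20757) (nat_lit 1771892) (nat_lit 27115) (nat_lit 344906),Row.mk (nat_lit 17976) (nat_lit 20570) (nat_lit 11313838) (nat_lit 20757) (nat_lit 1532657) (nat_lit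 27115) (nat_lit 430780),Row.mk (nat_lit 18144) (nat_lit 20570) (nat_lit 11553073) (nat_lit 20757) (nat_lit 1233858) (nat_lit 27115) (nat_lit 538034),Row.mk (nat_lit 18312) (nat_lit 20570) (nat_lit 11851872) (nat_lit 20757) (nat_lit 860665) (nat_lit 27115) (nat_lit 671991),Row.mk (nat_lit 18480) (nat_lit 20570) (nat_lit 12225065) (nat_lit 20757) (nat_lit 394556) (nat_lit 27115) (nat_lit 839301),Row.mk (nat_lit 18648) (nat_lit 20570) (nat_lit 12503572) (nat_lit 26928) (nat_lit 187601) (nat_lit 27115) (nat_lit 860665),Row.mk (nat_lit 18816) (nat_lit 20570) (nat_lit 12358629) (nat_lit 26928) (nat_lit 914703) (nat_lit 27115) (nat_lit 394556),Row.mk (nat_lit 18984) (nat_lit 20383) (nat_lit 234309) (nat_lit 20570) (nat_lit 11943288) (nat_lit 26928) (nat_lit 1635234),Row.mk (nat_lit 19152) (nat_lit 20383) (nat_lit 1142442) (nat_lit 20570) (nat_lit 10809052) (nat_lit 26928) (nat_lit 2042368),Row.mk (nat_lit 19320) (nat_lit 20383) (nat_lit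 2276678) (nat_lit 20570) (nat_lit 9392419) (nat_lit 26928) (nat_lit 2550869),Row.mk (nat_lit 19488) (nat_lit 20383) (nat_lit 3693312) (nat_lit 20570) (nat_lit 7623078) (nat_lit 26928) (nat_lit 3185974),Row.mk (nat_lit 19656) (nat_lit 20383) (nat_lit 5462653) (nat_lit 20570) (nat_lit 5413213) (nat_lit 26928) (nat_lit 3979205),Row.mk (nat_lit 19824) (nat_lit 20383) (nat_lit 7672517) (nat_lit 20570) (nat_lit 2653146) (nat_lit 26928) (nat_lit 4969931),Row.mk (nat_lit 19992) (nat_lit 20383) (nat_lit 9638474) (nat_lit 26741) (nat_lit 794110) (nat_lit 26928) (nat_lit 5413213),Row.mk (nat_lit 20160) (nat_lit 20383) (nat_lit 8780190) (nat_lit 26741) (nat_lit 5099651) (nat_lit 26928) (nat_lit 2653146),Row.mk (nat_lit 20328) (nat_lit 20196) (nat_lit 991825) (nat_lit 20383) (nat_lit 6716389) (nat_lit 26741) (nat_lit 9683058),Row.mk (nat_lit 20496) (nat_lit 20196) (nat_lit 6369342) (nat_lit 26741) (nat_lit 12093906) (nat_lit 0) (nat_lit 0),Row.mk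 (nat_lit 20664) (nat_lit 20196) (nat_lit 4697123) (nat_lit 26554) (nat_lit 8388608) (nat_lit 26741) (nat_lit 6716389),Row.mk (nat_lit 20832) (nat_lit 20196) (nat_lit 2608562) (nat_lit 26554) (nat_lit 18865777) (nat_lit 0) (nat_lit 0),Row.mk (nat_lit 21000) (nat_lit 26367) (nat_lit 10477169) (nat_lit 26554) (nat_lit 13085731) (nat_lit 0) (nat_lit 0),Row.mk (nat_lit 21168) (nat_lit 26367) (nat_lit 23562900) (nat_lit 32912) (nat_lit 2608562) (nat_lit 0) (nat_lit 0),Row.mk (nat_lit 21336) (nat_lit 26180) (nat_lit 13085731) (nat_lit 26367) (nat_lit 10477169) (nat_lit 32725) (nat_lit 5866593),Row.mk (nat_lit 21504) (nat_lit 26180) (nat_lit 23562900) (nat_lit 32538) (nat_lit 9935796) (nat_lit 0) (nat_lit 0),Row.mk (nat_lit 21672) (nat_lit 25993) (nat_lit 23562900) (nat_lit 32351) (nat_lit 1932401) (nat_lit 32538) (nat_lit 13085731),Row.mk (nat_lit 21840) (nat_lit 25806) (nat_lit 15499253) (nat_lit 25993) (nat_lit 8063646) (nat_lit 32351)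 (nat_lit 21365847),Row.mk (nat_lit 22008) (nat_lit 25619) (nat_lit 3014431) (nat_lit 25806) (nat_lit 20548469) (nat_lit 32164) (nat_lit 29293990),Row.mk (nat_lit 22176) (nat_lit 25619) (nat_lit 23562900) (nat_lit 31977) (nat_lit 29124749) (nat_lit 32164) (nat_lit 10071300),Row.mk (nat_lit 22344) (nat_lit 25432) (nat_lit 23562900) (nat_lit 31790) (nat_lit 25898940) (nat_lit 31977) (nat_lit 25664542),Row.mk (nat_lit 22512) (nat_lit 25245) (nat_lit 23562900) (nat_lit 31603) (nat_lit 21869982) (nat_lit 31790) (nat_lit 45140125),Row.mk (nat_lit 22680) (nat_lit 25058) (nat_lit 23562900) (nat_lit 31416) (nat_lit 16837911) (nat_lit 31603) (nat_lit 69464659),Row.mk (nat_lit 22848) (nat_lit 24871) (nat_lit 23562900) (nat_lit 31229) (nat_lit 10552976) (nat_lit 31416) (nat_lit 99845415),Row.mk (nat_lit 23016) (nat_lit 24684) (nat_lit 23562900) (nat_lit 31042) (nat_lit 2703243) (nat_lit 31229) (nat_lit 137790246),Row.mk (nat_lit 23184) (nat_lit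 24497) (nat_lit 16462017) (nat_lit 24684) (nat_lit 7100882) (nat_lit 31042) (nat_lit 178081542),Row.mk (nat_lit 23352) (nat_lit 24310) (nat_lit 4216900) (nat_lit 24497) (nat_lit 19346000) (nat_lit 30855) (nat_lit 225028112),Row.mk (nat_lit 23520) (nat_lit 24310) (nat_lit 23562900) (nat_lit 30668) (nat_lit 274794415) (nat_lit 30855) (nat_lit 8868831),Row.mk (nat_lit 23688) (nat_lit 24123) (nat_lit 23562900) (nat_lit 30481) (nat_lit 332734427) (nat_lit 30668) (nat_lit 24162687),Row.mk (nat_lit 23856) (nat_lit 23936) (nat_lit 23562900) (nat_lit 30294) (nat_lit 405100103) (nat_lit 30481) (nat_lit 43264345),Row.mk (nat_lit 24024) (nat_lit 23749) (nat_lit 23562900) (nat_lit 30107) (nat_lit 495483087) (nat_lit 30294) (nat_lit 67121854),Row.mk (nat_lit 24192) (nat_lit 23562) (nat_lit 23562900) (nat_lit 29920) (nat_lit 608369254) (nat_lit 30107) (nat_lit 96919308),Row.mk (nat_lit 24360) (nat_lit 23375) (nat_lit 23562900) (nat_lit 29733) (nat_lit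 749361353) (nat_lit 29920) (nat_lit 134135609),Row.mk (nat_lit 24528) (nat_lit 23188) (nat_lit 23562900) (nat_lit 29546) (nat_lit 925457084) (nat_lit 29733) (nat_lit 180617872),Row.mk (nat_lit 24696) (nat_lit 23001) (nat_lit 23562900) (nat_lit 29359) (nat_lit 1145396404) (nat_lit 29546) (nat_lit 238673096),Row.mk (nat_lit 24864) (nat_lit 22814) (nat_lit 23562900) (nat_lit 29172) (nat_lit 1420095308) (nat_lit 29359) (nat_lit 311182671),Row.mk (nat_lit 25032) (nat_lit 22627) (nat_lit 23562900) (nat_lit 28985) (nat_lit 1763187613) (nat_lit 29172) (nat_lit 401745380),Row.mk (nat_lit 25200) (nat_lit 22440) (nat_lit 23562900) (nat_lit 28798) (nat_lit 2191701624) (nat_lit 28985) (nat_lit 514856020),Row.mk (nat_lit 25368) (nat_lit 22253) (nat_lit 23562900) (nat_lit 28611) (nat_lit 2726905288) (nat_lit 28798) (nat_lit 656128480),Row.mk (nat_lit 25536) (nat_lit 22066) (nat_lit 23562900) (nat_lit 28424) (nat_lit 3395361752) (nat_lit 28611) (nat_lit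 832574375),Row.mk (nat_lit 25704) (nat_lit 21879) (nat_lit 23562900) (nat_lit 28237) (nat_lit 4230247751) (nat_lit 28424) (nat_lit 1052951041),Row.mk (nat_lit 25872) (nat_lit 21692) (nat_lit 23562900) (nat_lit 28050) (nat_lit 5273000222) (nat_lit 28237) (nat_lit 1328196180),Row.mk (nat_lit 26040) (nat_lit 21505) (nat_lit 23562900) (nat_lit 27863) (nat_lit 6575372903) (nat_lit 28050) (nat_lit 1671970720),Row.mk (nat_lit 26208) (nat_lit 21318) (nat_lit 23562900) (nat_lit 27676) (nat_lit 8202004964) (nat_lit 27863) (nat_lit 2101336826),Row.mk (nat_lit 26376) (nat_lit 21131) (nat_lit 23562900) (nat_lit 27489) (nat_lit 10233629168) (nat_lit 27676) (nat_lit 2637604735),Row.mk (nat_lit 26544) (nat_lit 20944) (nat_lit 23562900) (nat_lit 27302) (nat_lit 12771078788) (nat_lit 27489) (nat_lit 3307390417),Row.mk (nat_lit 26712) (nat_lit 32912) (nat_lit 21474339) (nat_lit 62084) (nat_lit 20081620163) (nat_lit 0) (nat_lit 0),Row.mk (nat_lit 26880)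 (nat_lit 32912) (nat_lit 21474339) (nat_lit 62084) (nat_lit 25084717170) (nat_lit 0) (nat_lit 0),Row.mk (nat_lit 27048) (nat_lit 32912) (nat_lit 21474339) (nat_lit 62084) (nat_lit 31333464639) (nat_lit 0) (nat_lit 0),Row.mk (nat_lit 27216) (nat_lit 32912) (nat_lit 21474339) (nat_lit 62084) (nat_lit 39137999483) (nat_lit 0) (nat_lit 0),Row.mk (nat_lit 27384) (nat_lit 32912) (nat_lit 21474339) (nat_lit 62084) (nat_lit 48885675228) (nat_lit 0) (nat_lit 0),Row.mk (nat_lit 27552) (nat_lit 32912) (nat_lit 21474339) (nat_lit 62084) (nat_lit 61060287083) (nat_lit 0) (nat_lit 0),Row.mk (nat_lit 27720) (nat_lit 32912) (nat_lit 21474339) (nat_lit 62084) (nat_lit 76266083592) (nat_lit 0) (nat_lit 0),Row.mk (nat_lit 27888) (nat_lit 32912) (nat_lit 21474339) (nat_lit 62084) (nat_lit 95257756609) (nat_lit 0) (nat_lit 0),Row.mk (nat_lit 28056) (nat_lit 32912) (nat_lit 21474339) (nat_lit 62084) (nat_lit 118977898057) (nat_lit 0) (nat_lit 0),Row.mk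 (nat_lit 28224) (nat_lit 32912) (nat_lit 21474339) (nat_lit 62084) (nat_lit 148603782505) (nat_lit 0) (nat_lit 0),Row.mk (nat_lit 28392) (nat_lit 32912) (nat_lit 21474339) (nat_lit 62084) (nat_lit 185605797492) (nat_lit 0) (nat_lit 0),Row.mk (nat_lit 28560) (nat_lit 32912) (nat_lit 21474339) (nat_lit 62084) (nat_lit 231820421581) (nat_lit 0) (nat_lit 0),Row.mk (nat_lit 28728) (nat_lit 32912) (nat_lit 21474339) (nat_lit 62084) (nat_lit 289541372196) (nat_lit 0) (nat_lit 0),Row.mk (nat_lit 28896) (nat_lit 32912) (nat_lit 21474339) (nat_lit 62084) (nat_lit 361633447064) (nat_lit 0) (nat_lit 0),Row.mk (nat_lit 29064) (nat_lit 32912) (nat_lit 21474339) (nat_lit 62084) (nat_lit 451674709440) (nat_lit 0) (nat_lit 0),Row.mk (nat_lit 29232) (nat_lit 32912) (nat_lit 21474339) (nat_lit 62084) (nat_lit 564134074009) (nat_lit 0) (nat_lit 0),Row.mk (nat_lit 29400) (nat_lit 32912) (nat_lit 21474339) (nat_lit 62084) (nat_lit 704593107409) (nat_lit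 0) (nat_lit 0),Row.mk (nat_lit 29568) (nat_lit 32912) (nat_lit 21474339) (nat_lit 62084) (nat_lit 880023051718) (nat_lit 0) (nat_lit 0),Row.mk (nat_lit 29736) (nat_lit 32912) (nat_lit 21474339) (nat_lit 62084) (nat_lit 1099130820123) (nat_lit 0) (nat_lit 0),Row.mk (nat_lit 29904) (nat_lit 32912) (nat_lit 21474339) (nat_lit 62084) (nat_lit 1372791137147) (nat_lit 0) (nat_lit 0),Row.mk (nat_lit 30072) (nat_lit 32912) (nat_lit 21474339) (nat_lit 62084) (nat_lit 1714586271382) (nat_lit 0) (nat_lit 0),Row.mk (nat_lit 30240) (nat_lit 32912) (nat_lit 21474339) (nat_lit 62084) (nat_lit 2141480148643) (nat_lit 0) (nat_lit 0),Row.mk (nat_lit 30408) (nat_lit 32912) (nat_lit 21474339) (nat_lit 62084) (nat_lit 2674660303036) (nat_lit 0) (nat_lit 0),Row.mk (nat_lit 30576) (nat_lit 32912) (nat_lit 21474339) (nat_lit 62084) (nat_lit 3340589453540) (nat_lit 0) (nat_lit 0),Row.mk (nat_lit 30744) (nat_lit 32912) (nat_lit 21474339) (nat_lit 62084) (nat_lit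 4172318897773) (nat_lit 0) (nat_lit 0)],
[Row.mk (nat_lit 5880) (nat_lit 18326) (nat_lit 2453430) (nat_lit 18513) (nat_lit 13890332) (nat_lit 0) (nat_lit 0),Row.mk (nat_lit 6048) (nat_lit 18326) (nat_lit 2453430) (nat_lit 18513) (nat_lit 13890332) (nat_lit 0) (nat_lit 0),Row.mk (nat_lit 6216) (nat_lit 18326) (nat_lit 2453430) (nat_lit 18513) (nat_lit 13890332) (nat_lit 0) (nat_lit 0),Row.mk (nat_lit 6384) (nat_lit 18326) (nat_lit 2453430) (nat_lit 18513) (nat_lit 13890332) (nat_lit 0) (nat_lit 0),Row.mk (nat_lit 6552) (nat_lit 18326) (nat_lit 2453430) (nat_lit 18513) (nat_lit 13890332) (nat_lit 0) (nat_lit 0),Row.mk (nat_lit 6720) (nat_lit 18326) (nat_lit 2453430) (nat_lit 18513) (nat_lit 13890331) (nat_lit 0) (nat_lit 0),Row.mk (nat_lit 6888) (nat_lit 18326) (nat_lit 2453430) (nat_lit 18513) (nat_lit 13890331) (nat_lit 0) (nat_lit 0),Row.mk (nat_lit 7056) (nat_lit 18326) (nat_lit 2453430) (nat_lit 18513) (nat_lit 13890331) (nat_lit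 0) (nat_lit 0),Row.mk (nat_lit 7224) (nat_lit 18326) (nat_lit 2453430) (nat_lit 18513) (nat_lit 13890331) (nat_lit 0) (nat_lit 0),Row.mk (nat_lit 7392) (nat_lit 18326) (nat_lit 2453431) (nat_lit 18513) (nat_lit 13890331) (nat_lit 0) (nat_lit 0),Row.mk (nat_lit 7560) (nat_lit 18326) (nat_lit 2453431) (nat_lit 18513) (nat_lit 13890330) (nat_lit 0) (nat_lit 0),Row.mk (nat_lit 7728) (nat_lit 18326) (nat_lit 2453431) (nat_lit 18513) (nat_lit 13890330) (nat_lit 0) (nat_lit 0),Row.mk (nat_lit 7896) (nat_lit 18326) (nat_lit 2453431) (nat_lit 18513) (nat_lit 13890330) (nat_lit 20570) (nat_lit 1),Row.mk (nat_lit 8064) (nat_lit 18326) (nat_lit 2453432) (nat_lit 18513) (nat_lit 13890329) (nat_lit 20570) (nat_lit 1),Row.mk (nat_lit 8232) (nat_lit 18326) (nat_lit 2453432) (nat_lit 18513) (nat_lit 13890328) (nat_lit 20570) (nat_lit 1),Row.mk (nat_lit 8400) (nat_lit 18326) (nat_lit 2453433) (nat_lit 18513) (nat_lit 13890327) (nat_lit 20570) (nat_lit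 2),Row.mk (nat_lit 8568) (nat_lit 18326) (nat_lit 2453434) (nat_lit 18513) (nat_lit 13890326) (nat_lit 20570) (nat_lit 2),Row.mk (nat_lit 8736) (nat_lit 18326) (nat_lit 2453435) (nat_lit 18513) (nat_lit 13890325) (nat_lit 20570) (nat_lit 3),Row.mk (nat_lit 8904) (nat_lit 18326) (nat_lit 2453436) (nat_lit 18513) (nat_lit 13890323) (nat_lit 20570) (nat_lit 4),Row.mk (nat_lit 9072) (nat_lit 18326) (nat_lit 2453437) (nat_lit 18513) (nat_lit 13890321) (nat_lit 20570) (nat_lit 5),Row.mk (nat_lit 9240) (nat_lit 18326) (nat_lit 2453439) (nat_lit 18513) (nat_lit 13890318) (nat_lit 20570) (nat_lit 6),Row.mk (nat_lit 9408) (nat_lit 18326) (nat_lit 2453441) (nat_lit 18513) (nat_lit 13890314) (nat_lit 20570) (nat_lit 8),Row.mk (nat_lit 9576) (nat_lit 18326) (nat_lit 2453444) (nat_lit 18513) (nat_lit 13890310) (nat_lit 20570) (nat_lit 10),Row.mk (nat_lit 9744) (nat_lit 18326) (nat_lit 2453448) (nat_lit 18513) (nat_lit 13890304) (nat_lit 20570)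 (nat_lit 13),Row.mk (nat_lit 9912) (nat_lit 18326) (nat_lit 2453452) (nat_lit 18513) (nat_lit 13890297) (nat_lit 20570) (nat_lit 16),Row.mk (nat_lit 10080) (nat_lit 18326) (nat_lit 2453458) (nat_lit 18513) (nat_lit 13890289) (nat_lit 20570) (nat_lit 21),Row.mk (nat_lit 10248) (nat_lit 18326) (nat_lit 2453465) (nat_lit 18513) (nat_lit 13890278) (nat_lit 20570) (nat_lit 26),Row.mk (nat_lit 10416) (nat_lit 18326) (nat_lit 2453473) (nat_lit 18513) (nat_lit 13890264) (nat_lit 20570) (nat_lit 32),Row.mk (nat_lit 10584) (nat_lit 18326) (nat_lit 2453484) (nat_lit 18513) (nat_lit 13890247) (nat_lit 20570) (nat_lit 41),Row.mk (nat_lit 10752) (nat_lit 18326) (nat_lit 2453498) (nat_lit 18513) (nat_lit 13890226) (nat_lit 20570) (nat_lit 51),Row.mk (nat_lit 10920) (nat_lit 18326) (nat_lit 2453514) (nat_lit 18513) (nat_lit 13890200) (nat_lit 20570) (nat_lit 64),Row.mk (nat_lit 11088) (nat_lit 18326) (nat_lit 2453535) (nat_lit 18513) (nat_lit 13890167)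 (nat_lit 20570) (nat_lit 80),Row.mk (nat_lit 11256) (nat_lit 18326) (nat_lit 2453562) (nat_lit 18513) (nat_lit 13890126) (nat_lit 20570) (nat_lit 100),Row.mk (nat_lit 11424) (nat_lit 18326) (nat_lit 2453595) (nat_lit 18513) (nat_lit 13890075) (nat_lit 20570) (nat_lit 125),Row.mk (nat_lit 11592) (nat_lit 18326) (nat_lit 2453636) (nat_lit 18513) (nat_lit 13890011) (nat_lit 20570) (nat_lit 156),Row.mk (nat_lit 11760) (nat_lit 18326) (nat_lit 2453687) (nat_lit 18513) (nat_lit 13889931) (nat_lit 20570) (nat_lit 195),Row.mk (nat_lit 11928) (nat_lit 18326) (nat_lit 2453751) (nat_lit 18513) (nat_lit 13889831) (nat_lit 20570) (nat_lit 243),Row.mk (nat_lit 12096) (nat_lit 18326) (nat_lit 2453831) (nat_lit 18513) (nat_lit 13889706) (nat_lit 20570) (nat_lit 304),Row.mk (nat_lit 12264) (nat_lit 18326) (nat_lit 2453931) (nat_lit 18513) (nat_lit 13889550) (nat_lit 20570) (nat_lit 380),Row.mk (nat_lit 12432) (nat_lit 18326) (nat_lit 2454056) (nat_lit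 18513) (nat_lit 13889356) (nat_lit 20570) (nat_lit 475),Row.mk (nat_lit 12600) (nat_lit 18326) (nat_lit 2454211) (nat_lit 18513) (nat_lit 13889113) (nat_lit 20570) (nat_lit 593),Row.mk (nat_lit 12768) (nat_lit 18326) (nat_lit 2454406) (nat_lit 18513) (nat_lit 13888809) (nat_lit 20570) (nat_lit 741),Row.mk (nat_lit 12936) (nat_lit 18326) (nat_lit 2454649) (nat_lit 18513) (nat_lit 13888430) (nat_lit 20570) (nat_lit 925),Row.mk (nat_lit 13104) (nat_lit 18326) (nat_lit 2454952) (nat_lit 18513) (nat_lit 13887957) (nat_lit 20570) (nat_lit 1156),Row.mk (nat_lit 13272) (nat_lit 18326) (nat_lit 2455332) (nat_lit 18513) (nat_lit 13887365) (nat_lit 20570) (nat_lit 1443),Row.mk (nat_lit 13440) (nat_lit 18326) (nat_lit 2455805) (nat_lit 18513) (nat_lit 13886627) (nat_lit 20570) (nat_lit 1803),Row.mk (nat_lit 13608) (nat_lit 18326) (nat_lit 2456396) (nat_lit 18513) (nat_lit 13885704) (nat_lit 20570) (nat_lit 2252),Row.mk (nat_lit 13776) (nat_lit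 18326) (nat_lit 2457135) (nat_lit 18513) (nat_lit 13884552) (nat_lit 20570) (nat_lit 2813),Row.mk (nat_lit 13944) (nat_lit 18326) (nat_lit 2458058) (nat_lit 18513) (nat_lit 13883113) (nat_lit 20570) (nat_lit 3513),Row.mk (nat_lit 14112) (nat_lit 18326) (nat_lit 2459210) (nat_lit 18513) (nat_lit 13881316) (nat_lit 20570) (nat_lit 4388),Row.mk (nat_lit 14280) (nat_lit 18326) (nat_lit 2460649) (nat_lit 18513) (nat_lit 13879071) (nat_lit 20570) (nat_lit 5481),Row.mk (nat_lit 14448) (nat_lit 18326) (nat_lit 2462446) (nat_lit 18513) (nat_lit 13876267) (nat_lit 20570) (nat_lit 6846),Row.mk (nat_lit 14616) (nat_lit 18326) (nat_lit 2464691) (nat_lit 18513) (nat_lit 13872765) (nat_lit 20570) (nat_lit 8550),Row.mk (nat_lit 14784) (nat_lit 18326) (nat_lit 2467495) (nat_lit 18513) (nat_lit 13868391) (nat_lit 20570) (nat_lit 10679),Row.mk (nat_lit 14952) (nat_lit 18326) (nat_lit 2470997) (nat_lit 18513) (nat_lit 13862929) (nat_lit 20570) (nat_lit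 13338),Row.mk (nat_lit 15120) (nat_lit 18326) (nat_lit 2475370) (nat_lit 18513) (nat_lit 13856106) (nat_lit 20570) (nat_lit 16659),Row.mk (nat_lit 15288) (nat_lit 18326) (nat_lit 2480833) (nat_lit 18513) (nat_lit 13847584) (nat_lit 20570) (nat_lit 20806),Row.mk (nat_lit 15456) (nat_lit 18326) (nat_lit 2487656) (nat_lit 18513) (nat_lit 13836941) (nat_lit 20570) (nat_lit 25987),Row.mk (nat_lit 15624) (nat_lit 18326) (nat_lit 2496177) (nat_lit 18513) (nat_lit 13823648) (nat_lit 20570) (nat_lit 32457),Row.mk (nat_lit 15792) (nat_lit 18326) (nat_lit 2506820) (nat_lit 18513) (nat_lit 13807046) (nat_lit 20570) (nat_lit 40538),Row.mk (nat_lit 15960) (nat_lit 18326) (nat_lit 2520113) (nat_lit 18513) (nat_lit 13786309) (nat_lit 20570) (nat_lit 50631),Row.mk (nat_lit 16128) (nat_lit 18326) (nat_lit 2536716) (nat_lit 18513) (nat_lit 13760410) (nat_lit 20570) (nat_lit 63237),Row.mk (nat_lit 16296) (nat_lit 18326) (nat_lit 2557452) (nat_lit 18513)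 (nat_lit 13728063) (nat_lit 20570) (nat_lit 78982),Row.mk (nat_lit 16464) (nat_lit 18326) (nat_lit 2583351) (nat_lit 18513) (nat_lit 13687662) (nat_lit 20570) (nat_lit 98647),Row.mk (nat_lit 16632) (nat_lit 18326) (nat_lit 2615699) (nat_lit 18513) (nat_lit 13637202) (nat_lit 20570) (nat_lit 123208),Row.mk (nat_lit 16800) (nat_lit 18326) (nat_lit 2656100) (nat_lit 18513) (nat_lit 13574179) (nat_lit 20570) (nat_lit 153884),Row.mk (nat_lit 16968) (nat_lit 18326) (nat_lit 2706560) (nat_lit 18513) (nat_lit 13495464) (nat_lit 20570) (nat_lit 192197),Row.mk (nat_lit 17136) (nat_lit 18326) (nat_lit 2769583) (nat_lit 18513) (nat_lit 13397152) (nat_lit 20570) (nat_lit 240050),Row.mk (nat_lit 17304) (nat_lit 18326) (nat_lit 2848298) (nat_lit 18513) (nat_lit 13274362) (nat_lit 20570) (nat_lit 299817),Row.mk (nat_lit 17472) (nat_lit 18326) (nat_lit 2946610) (nat_lit 18513) (nat_lit 13121000) (nat_lit 20570) (nat_lit 374464),Row.mk (nat_lit 17640)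 (nat_lit 18326) (nat_lit 3069400) (nat_lit 18513) (nat_lit 12929455) (nat_lit 20570) (nat_lit 467696),Row.mk (nat_lit 17808) (nat_lit 18326) (nat_lit 3222762) (nat_lit 18513) (nat_lit 12690220) (nat_lit 20570) (nat_lit 584142),Row.mk (nat_lit 17976) (nat_lit 18326) (nat_lit 3414307) (nat_lit 18513) (nat_lit 12391421) (nat_lit 20570) (nat_lit 729579),Row.mk (nat_lit 18144) (nat_lit 18326) (nat_lit 3653542) (nat_lit 18513) (nat_lit 12018228) (nat_lit 20570) (nat_lit 911226),Row.mk (nat_lit 18312) (nat_lit 18326) (nat_lit 3952341) (nat_lit 18513) (nat_lit 11552119) (nat_lit 20570) (nat_lit 1138100),Row.mk (nat_lit 18480) (nat_lit 18326) (nat_lit 4325534) (nat_lit 18513) (nat_lit 10969961) (nat_lit 20570) (nat_lit 1421460),Row.mk (nat_lit 18648) (nat_lit 18326) (nat_lit 4791643) (nat_lit 18513) (nat_lit 10242859) (nat_lit 20570) (nat_lit 1775369),Row.mk (nat_lit 18816) (nat_lit 18326) (nat_lit 5373801) (nat_lit 18513) (nat_lit 9334726)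 (nat_lit 20570) (nat_lit 2217393),Row.mk (nat_lit 18984) (nat_lit 18326) (nat_lit 6100903) (nat_lit 18513) (nat_lit 8200490) (nat_lit 20570) (nat_lit 2769470),Row.mk (nat_lit 19152) (nat_lit 18326) (nat_lit 7009036) (nat_lit 18513) (nat_lit 6783856) (nat_lit 20570) (nat_lit 3459002),Row.mk (nat_lit 19320) (nat_lit 18326) (nat_lit 8143272) (nat_lit 18513) (nat_lit 5014515) (nat_lit 20570) (nat_lit 4320210),Row.mk (nat_lit 19488) (nat_lit 18326) (nat_lit 9559906) (nat_lit 18513) (nat_lit 2804651) (nat_lit 20570) (nat_lit 5395838),Row.mk (nat_lit 19656) (nat_lit 18326) (nat_lit 11329247) (nat_lit 18513) (nat_lit 44584) (nat_lit 20570) (nat_lit 6739272),Row.mk (nat_lit 19824) (nat_lit 18326) (nat_lit 10136438) (nat_lit 20383) (nat_lit 3402673) (nat_lit 20570) (nat_lit 5014515),Row.mk (nat_lit 19992) (nat_lit 18326) (nat_lit 8590964) (nat_lit 20383) (nat_lit 7708214) (nat_lit 20570) (nat_lit 2804651),Row.mk (nat_lit 20160) (nat_lit 18326)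 (nat_lit 6660704) (nat_lit 20383) (nat_lit 13085731) (nat_lit 20570) (nat_lit 44584),Row.mk (nat_lit 20328) (nat_lit 18139) (nat_lit 4249856) (nat_lit 20383) (nat_lit 16399447) (nat_lit 0) (nat_lit 0),Row.mk (nat_lit 20496) (nat_lit 18139) (nat_lit 1238765) (nat_lit 20196) (nat_lit 8388608) (nat_lit 20383) (nat_lit 12093906),Row.mk (nat_lit 20664) (nat_lit 20196) (nat_lit 16343762) (nat_lit 20383) (nat_lit 4697123) (nat_lit 26741) (nat_lit 2019265),Row.mk (nat_lit 20832) (nat_lit 20196) (nat_lit 18952325) (nat_lit 26554) (nat_lit 5780045) (nat_lit 0) (nat_lit 0),Row.mk (nat_lit 21000) (nat_lit 20009) (nat_lit 10477169) (nat_lit 20196) (nat_lit 5866593) (nat_lit 26554) (nat_lit 10477169),Row.mk (nat_lit 21168) (nat_lit 20009) (nat_lit 13085731) (nat_lit 26367) (nat_lit 10477169) (nat_lit 26554) (nat_lit 5866593),Row.mk (nat_lit 21336) (nat_lit 19822) (nat_lit 9016528) (nat_lit 26367) (nat_lit 23670996) (nat_lit 0) (nat_lit 0),Row.mk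 (nat_lit 21504) (nat_lit 19822) (nat_lit 3934192) (nat_lit 26180) (nat_lit 25495301) (nat_lit 26367) (nat_lit 7327234),Row.mk (nat_lit 21672) (nat_lit 25993) (nat_lit 16343762) (nat_lit 26180) (nat_lit 23562900) (nat_lit 32538) (nat_lit 1932401),Row.mk (nat_lit 21840) (nat_lit 25993) (nat_lit 39906663) (nat_lit 32351) (nat_lit 8280116) (nat_lit 0) (nat_lit 0),Row.mk (nat_lit 22008) (nat_lit 25806) (nat_lit 39771159) (nat_lit 25993) (nat_lit 135503) (nat_lit 32351) (nat_lit 16208258),Row.mk (nat_lit 22176) (nat_lit 25619) (nat_lit 29260253) (nat_lit 25806) (nat_lit 10646410) (nat_lit 32164) (nat_lit 26110318),Row.mk (nat_lit 22344) (nat_lit 25432) (nat_lit 16132384) (nat_lit 25619) (nat_lit 23774278) (nat_lit 31977) (nat_lit 38477751),Row.mk (nat_lit 22512) (nat_lit 25432) (nat_lit 39906663) (nat_lit 31790) (nat_lit 53712998) (nat_lit 31977) (nat_lit 211377),Row.mk (nat_lit 22680) (nat_lit 25245) (nat_lit 39906663) (nat_lit 31603)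 (nat_lit 56609070) (nat_lit 31790) (nat_lit 16607768),Row.mk (nat_lit 22848) (nat_lit 25058) (nat_lit 39906663) (nat_lit 31416) (nat_lit 60226194) (nat_lit 31603) (nat_lit 37086465),Row.mk (nat_lit 23016) (nat_lit 24871) (nat_lit 39906663) (nat_lit 31229) (nat_lit 64743895) (nat_lit 31416) (nat_lit 62663863),Row.mk (nat_lit 23184) (nat_lit 24684) (nat_lit 39906663) (nat_lit 31042) (nat_lit 70386394) (nat_lit 31229) (nat_lit 94609416),Row.mk (nat_lit 23352) (nat_lit 24497) (nat_lit 39906663) (nat_lit 30855) (nat_lit 77433739) (nat_lit 31042) (nat_lit 134508641),Row.mk (nat_lit 23520) (nat_lit 24310) (nat_lit 39906663) (nat_lit 30668) (nat_lit 86235704) (nat_lit 30855) (nat_lit 184341811),Row.mk (nat_lit 23688) (nat_lit 24123) (nat_lit 39906663) (nat_lit 30481) (nat_lit 97229145) (nat_lit 30668) (nat_lit 246582238),Row.mk (nat_lit 23856) (nat_lit 23936) (nat_lit 39906663) (nat_lit 30294) (nat_lit 110959687) (nat_lit 30481) (nat_lit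 324319029),Row.mk (nat_lit 24024) (nat_lit 23749) (nat_lit 39906663) (nat_lit 30107) (nat_lit 128108804) (nat_lit 30294) (nat_lit 421410407),Row.mk (nat_lit 24192) (nat_lit 23562) (nat_lit 39906663) (nat_lit 29920) (nat_lit 149527636) (nat_lit 30107) (nat_lit 542675195),Row.mk (nat_lit 24360) (nat_lit 23375) (nat_lit 39906663) (nat_lit 29733) (nat_lit 176279242) (nat_lit 29920) (nat_lit 694131990),Row.mk (nat_lit 24528) (nat_lit 23188) (nat_lit 39906663) (nat_lit 29546) (nat_lit 209691352) (nat_lit 29733) (nat_lit 883297873),Row.mk (nat_lit 24696) (nat_lit 23001) (nat_lit 39906663) (nat_lit 29359) (nat_lit 251422271) (nat_lit 29546) (nat_lit 1119561498),Row.mk (nat_lit 24864) (nat_lit 22814) (nat_lit 39906663) (nat_lit 29172) (nat_lit 303543182) (nat_lit 29359) (nat_lit 1414649065),Row.mk (nat_lit 25032) (nat_lit 22627) (nat_lit 39906663) (nat_lit 28985) (nat_lit 368640943) (nat_lit 29172) (nat_lit 1783206319),Row.mk (nat_lit 25200)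 (nat_lit 22440) (nat_lit 39906663) (nat_lit 28798) (nat_lit 449946476) (nat_lit 28985) (nat_lit 2243525437),Row.mk (nat_lit 25368) (nat_lit 22253) (nat_lit 39906663) (nat_lit 28611) (nat_lit 551495125) (nat_lit 28798) (nat_lit 2818452912),Row.mk (nat_lit 25536) (nat_lit 22066) (nat_lit 39906663) (nat_lit 28424) (nat_lit 678326938) (nat_lit 28611) (nat_lit 3536523458),Row.mk (nat_lit 25704) (nat_lit 21879) (nat_lit 39906663) (nat_lit 28237) (nat_lit 836736813) (nat_lit 28424) (nat_lit 4433376248),Row.mk (nat_lit 25872) (nat_lit 21692) (nat_lit 39906663) (nat_lit 28050) (nat_lit 1034586925) (nat_lit 28237) (nat_lit 5553523746),Row.mk (nat_lit 26040) (nat_lit 21505) (nat_lit 39906663) (nat_lit 27863) (nat_lit 1281696942) (nat_lit 28050) (nat_lit 6952560950),Row.mk (nat_lit 26208) (nat_lit 21318) (nat_lit 39906663) (nat_lit 27676) (nat_lit 1590331392) (nat_lit 27863) (nat_lit 8699924667),Row.mk (nat_lit 26376) (nat_lit 21131) (nat_lit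 39906663) (nat_lit 27489) (nat_lit 1975808375) (nat_lit 27676) (nat_lit 10882339797),Row.mk (nat_lit 26544) (nat_lit 20944) (nat_lit 39906663) (nat_lit 27302) (nat_lit 2457259827) (nat_lit 27489) (nat_lit 13608123646),Row.mk (nat_lit 26712) (nat_lit 32912) (nat_lit 24732370) (nat_lit 62084) (nat_lit 20078362132) (nat_lit 0) (nat_lit 0),Row.mk (nat_lit 26880) (nat_lit 32912) (nat_lit 24732370) (nat_lit 62084) (nat_lit 25081459139) (nat_lit 0) (nat_lit 0),Row.mk (nat_lit 27048) (nat_lit 32912) (nat_lit 24732370) (nat_lit 62084) (nat_lit 31330206607) (nat_lit 0) (nat_lit 0),Row.mk (nat_lit 27216) (nat_lit 32912) (nat_lit 24732370) (nat_lit 62084) (nat_lit 39134741451) (nat_lit 0) (nat_lit 0),Row.mk (nat_lit 27384) (nat_lit 32912) (nat_lit 24732370) (nat_lit 62084) (nat_lit 48882417197) (nat_lit 0) (nat_lit 0),Row.mk (nat_lit 27552) (nat_lit 32912) (nat_lit 24732370) (nat_lit 62084) (nat_lit 61057029052) (nat_lit 0) (nat_lit 0),Row.mk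 (nat_lit 27720) (nat_lit 32912) (nat_lit 24732370) (nat_lit 62084) (nat_lit 76262825560) (nat_lit 0) (nat_lit 0),Row.mk (nat_lit 27888) (nat_lit 32912) (nat_lit 24732370) (nat_lit 62084) (nat_lit 95254498578) (nat_lit 0) (nat_lit 0),Row.mk (nat_lit 28056) (nat_lit 32912) (nat_lit 24732370) (nat_lit 62084) (nat_lit 118974640026) (nat_lit 0) (nat_lit 0),Row.mk (nat_lit 28224) (nat_lit 32912) (nat_lit 24732370) (nat_lit 62084) (nat_lit 148600524474) (nat_lit 0) (nat_lit 0),Row.mk (nat_lit 28392) (nat_lit 32912) (nat_lit 24732370) (nat_lit 62084) (nat_lit 185602539461) (nat_lit 0) (nat_lit 0),Row.mk (nat_lit 28560) (nat_lit 32912) (nat_lit 24732370) (nat_lit 62084) (nat_lit 231817163550) (nat_lit 0) (nat_lit 0),Row.mk (nat_lit 28728) (nat_lit 32912) (nat_lit 24732370) (nat_lit 62084) (nat_lit 289538114164) (nat_lit 0) (nat_lit 0),Row.mk (nat_lit 28896) (nat_lit 32912) (nat_lit 24732370) (nat_lit 62084) (nat_lit 361630189033) (nat_lit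 0) (nat_lit 0),Row.mk (nat_lit 29064) (nat_lit 32912) (nat_lit 24732370) (nat_lit 62084) (nat_lit 451671451408) (nat_lit 0) (nat_lit 0),Row.mk (nat_lit 29232) (nat_lit 32912) (nat_lit 24732370) (nat_lit 62084) (nat_lit 564130815978) (nat_lit 0) (nat_lit 0),Row.mk (nat_lit 29400) (nat_lit 32912) (nat_lit 24732370) (nat_lit 62084) (nat_lit 704589849377) (nat_lit 0) (nat_lit 0),Row.mk (nat_lit 29568) (nat_lit 32912) (nat_lit 24732370) (nat_lit 62084) (nat_lit 880019793686) (nat_lit 0) (nat_lit 0),Row.mk (nat_lit 29736) (nat_lit 32912) (nat_lit 24732370) (nat_lit 62084) (nat_lit 1099127562091) (nat_lit 0) (nat_lit 0),Row.mk (nat_lit 29904) (nat_lit 32912) (nat_lit 24732370) (nat_lit 62084) (nat_lit 1372787879115) (nat_lit 0) (nat_lit 0),Row.mk (nat_lit 30072) (nat_lit 32912) (nat_lit 24732370) (nat_lit 62084) (nat_lit 1714583013351) (nat_lit 0) (nat_lit 0),Row.mk (nat_lit 30240) (nat_lit 32912) (nat_lit 24732370) (nat_lit 62084) (nat_lit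 2141476890611) (nat_lit 0) (nat_lit 0),Row.mk (nat_lit 30408) (nat_lit 32912) (nat_lit 24732370) (nat_lit 62084) (nat_lit 2674657045005) (nat_lit 0) (nat_lit 0),Row.mk (nat_lit 30576) (nat_lit 32912) (nat_lit 24732370) (nat_lit 62084) (nat_lit 3340586195508) (nat_lit 0) (nat_lit 0),Row.mk (nat_lit 30744) (nat_lit 32912) (nat_lit 24732370) (nat_lit 62084) (nat_lit 4172315639742) (nat_lit 0) (nat_lit 0)],
[Row.mk (nat_lit 6216) (nat_lit 16830) (nat_lit 9780664) (nat_lit 17017) (nat_lit 10632300) (nat_lit 0) (nat_lit 0),Row.mk (nat_lit 6384) (nat_lit 16830) (nat_lit 9780664) (nat_lit 17017) (nat_lit 10632300) (nat_lit 0) (nat_lit 0),Row.mk (nat_lit 6552) (nat_lit 16830) (nat_lit 9780664) (nat_lit 17017) (nat_lit 10632300) (nat_lit 0) (nat_lit 0),Row.mk (nat_lit 6720) (nat_lit 16830) (nat_lit 9780664) (nat_lit 17017) (nat_lit 10632300) (nat_lit 0) (nat_lit 0),Row.mk (nat_lit 6888) (nat_lit 16830) (nat_lit 9780664) (nat_lit 17017) (nat_lit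 10632300) (nat_lit 0) (nat_lit 0),Row.mk (nat_lit 7056) (nat_lit 16830) (nat_lit 9780664) (nat_lit 17017) (nat_lit 10632300) (nat_lit 0) (nat_lit 0),Row.mk (nat_lit 7224) (nat_lit 16830) (nat_lit 9780665) (nat_lit 17017) (nat_lit 10632299) (nat_lit 0) (nat_lit 0),Row.mk (nat_lit 7392) (nat_lit 16830) (nat_lit 9780665) (nat_lit 17017) (nat_lit 10632299) (nat_lit 0) (nat_lit 0),Row.mk (nat_lit 7560) (nat_lit 16830) (nat_lit 9780665) (nat_lit 17017) (nat_lit 10632299) (nat_lit 18513) (nat_lit 1),Row.mk (nat_lit 7728) (nat_lit 16830) (nat_lit 9780665) (nat_lit 17017) (nat_lit 10632298) (nat_lit 18513) (nat_lit 1),Row.mk (nat_lit 7896) (nat_lit 16830) (nat_lit 9780665) (nat_lit 17017) (nat_lit 10632298) (nat_lit 18513) (nat_lit 1),Row.mk (nat_lit 8064) (nat_lit 16830) (nat_lit 9780666) (nat_lit 17017) (nat_lit 10632297) (nat_lit 18513) (nat_lit 2),Row.mk (nat_lit 8232) (nat_lit 16830) (nat_lit 9780666) (nat_lit 17017) (nat_lit 10632296)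 (nat_lit 18513) (nat_lit 2),Row.mk (nat_lit 8400) (nat_lit 16830) (nat_lit 9780667) (nat_lit 17017) (nat_lit 10632295) (nat_lit 18513) (nat_lit 3),Row.mk (nat_lit 8568) (nat_lit 16830) (nat_lit 9780668) (nat_lit 17017) (nat_lit 10632293) (nat_lit 18513) (nat_lit 4),Row.mk (nat_lit 8736) (nat_lit 16830) (nat_lit 9780669) (nat_lit 17017) (nat_lit 10632291) (nat_lit 18513) (nat_lit 5),Row.mk (nat_lit 8904) (nat_lit 16830) (nat_lit 9780670) (nat_lit 17017) (nat_lit 10632289) (nat_lit 18513) (nat_lit 6),Row.mk (nat_lit 9072) (nat_lit 16830) (nat_lit 9780671) (nat_lit 17017) (nat_lit 10632286) (nat_lit 18513) (nat_lit 8),Row.mk (nat_lit 9240) (nat_lit 16830) (nat_lit 9780673) (nat_lit 17017) (nat_lit 10632283) (nat_lit 18513) (nat_lit 10),Row.mk (nat_lit 9408) (nat_lit 16830) (nat_lit 9780675) (nat_lit 17017) (nat_lit 10632278) (nat_lit 18513) (nat_lit 13),Row.mk (nat_lit 9576) (nat_lit 16830) (nat_lit 9780678) (nat_lit 17017) (nat_lit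 10632273) (nat_lit 18513) (nat_lit 16),Row.mk (nat_lit 9744) (nat_lit 16830) (nat_lit 9780682) (nat_lit 17017) (nat_lit 10632266) (nat_lit 18513) (nat_lit 20),Row.mk (nat_lit 9912) (nat_lit 16830) (nat_lit 9780686) (nat_lit 17017) (nat_lit 10632257) (nat_lit 18513) (nat_lit 25),Row.mk (nat_lit 10080) (nat_lit 16830) (nat_lit 9780692) (nat_lit 17017) (nat_lit 10632246) (nat_lit 18513) (nat_lit 31),Row.mk (nat_lit 10248) (nat_lit 16830) (nat_lit 9780699) (nat_lit 17017) (nat_lit 10632233) (nat_lit 18513) (nat_lit 39),Row.mk (nat_lit 10416) (nat_lit 16830) (nat_lit 9780707) (nat_lit 17017) (nat_lit 10632216) (nat_lit 18513) (nat_lit 49),Row.mk (nat_lit 10584) (nat_lit 16830) (nat_lit 9780718) (nat_lit 17017) (nat_lit 10632195) (nat_lit 18513) (nat_lit 62),Row.mk (nat_lit 10752) (nat_lit 16830) (nat_lit 9780732) (nat_lit 17017) (nat_lit 10632169) (nat_lit 18513) (nat_lit 77),Row.mk (nat_lit 10920) (nat_lit 16830) (nat_lit 9780749) (nat_lit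 17017) (nat_lit 10632136) (nat_lit 18513) (nat_lit 97),Row.mk (nat_lit 11088) (nat_lit 16830) (nat_lit 9780770) (nat_lit 17017) (nat_lit 10632095) (nat_lit 18513) (nat_lit 121),Row.mk (nat_lit 11256) (nat_lit 16830) (nat_lit 9780796) (nat_lit 17017) (nat_lit 10632043) (nat_lit 18513) (nat_lit 151),Row.mk (nat_lit 11424) (nat_lit 16830) (nat_lit 9780829) (nat_lit 17017) (nat_lit 10631979) (nat_lit 18513) (nat_lit 189),Row.mk (nat_lit 11592) (nat_lit 16830) (nat_lit 9780870) (nat_lit 17017) (nat_lit 10631899) (nat_lit 18513) (nat_lit 236),Row.mk (nat_lit 11760) (nat_lit 16830) (nat_lit 9780921) (nat_lit 17017) (nat_lit 10631800) (nat_lit 18513) (nat_lit 295),Row.mk (nat_lit 11928) (nat_lit 16830) (nat_lit 9780985) (nat_lit 17017) (nat_lit 10631675) (nat_lit 18513) (nat_lit 368),Row.mk (nat_lit 12096) (nat_lit 16830) (nat_lit 9781065) (nat_lit 17017) (nat_lit 10631519) (nat_lit 18513) (nat_lit 460),Row.mk (nat_lit 12264) (nat_lit 16830)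 (nat_lit 9781165) (nat_lit 17017) (nat_lit 10631324) (nat_lit 18513) (nat_lit 574),Row.mk (nat_lit 12432) (nat_lit 16830) (nat_lit 9781290) (nat_lit 17017) (nat_lit 10631081) (nat_lit 18513) (nat_lit 718),Row.mk (nat_lit 12600) (nat_lit 16830) (nat_lit 9781445) (nat_lit 17017) (nat_lit 10630778) (nat_lit 18513) (nat_lit 896),Row.mk (nat_lit 12768) (nat_lit 16830) (nat_lit 9781640) (nat_lit 17017) (nat_lit 10630399) (nat_lit 18513) (nat_lit 1120),Row.mk (nat_lit 12936) (nat_lit 16830) (nat_lit 9781883) (nat_lit 17017) (nat_lit 10629925) (nat_lit 18513) (nat_lit 1399),Row.mk (nat_lit 13104) (nat_lit 16830) (nat_lit 9782187) (nat_lit 17017) (nat_lit 10629334) (nat_lit 18513) (nat_lit 1747),Row.mk (nat_lit 13272) (nat_lit 16830) (nat_lit 9782566) (nat_lit 17017) (nat_lit 10628595) (nat_lit 18513) (nat_lit 2182),Row.mk (nat_lit 13440) (nat_lit 16830) (nat_lit 9783039) (nat_lit 17017) (nat_lit 10627673) (nat_lit 18513) (nat_lit 2726),Row.mk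 (nat_lit 13608) (nat_lit 16830) (nat_lit 9783631) (nat_lit 17017) (nat_lit 10626521) (nat_lit 18513) (nat_lit 3404),Row.mk (nat_lit 13776) (nat_lit 16830) (nat_lit 9784369) (nat_lit 17017) (nat_lit 10625082) (nat_lit 18513) (nat_lit 4252),Row.mk (nat_lit 13944) (nat_lit 16830) (nat_lit 9785292) (nat_lit 17017) (nat_lit 10623284) (nat_lit 18513) (nat_lit 5311),Row.mk (nat_lit 14112) (nat_lit 16830) (nat_lit 9786444) (nat_lit 17017) (nat_lit 10621039) (nat_lit 18513) (nat_lit 6633),Row.mk (nat_lit 14280) (nat_lit 16830) (nat_lit 9787883) (nat_lit 17017) (nat_lit 10618236) (nat_lit 18513) (nat_lit 8285),Row.mk (nat_lit 14448) (nat_lit 16830) (nat_lit 9789680) (nat_lit 17017) (nat_lit 10614734) (nat_lit 18513) (nat_lit 10347),Row.mk (nat_lit 14616) (nat_lit 16830) (nat_lit 9791925) (nat_lit 17017) (nat_lit 10610360) (nat_lit 18513) (nat_lit 12924),Row.mk (nat_lit 14784) (nat_lit 16830) (nat_lit 9794729) (nat_lit 17017) (nat_lit 10604897)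 (nat_lit 18513) (nat_lit 16142),Row.mk (nat_lit 14952) (nat_lit 16830) (nat_lit 9798231) (nat_lit 17017) (nat_lit 10598074) (nat_lit 18513) (nat_lit 20161),Row.mk (nat_lit 15120) (nat_lit 16830) (nat_lit 9802605) (nat_lit 17017) (nat_lit 10589553) (nat_lit 18513) (nat_lit 25180),Row.mk (nat_lit 15288) (nat_lit 16830) (nat_lit 9808067) (nat_lit 17017) (nat_lit 10578910) (nat_lit 18513) (nat_lit 31450),Row.mk (nat_lit 15456) (nat_lit 16830) (nat_lit 9814890) (nat_lit 17017) (nat_lit 10565617) (nat_lit 18513) (nat_lit 39280),Row.mk (nat_lit 15624) (nat_lit 16830) (nat_lit 9823411) (nat_lit 17017) (nat_lit 10549014) (nat_lit 18513) (nat_lit 49060),Row.mk (nat_lit 15792) (nat_lit 16830) (nat_lit 9834055) (nat_lit 17017) (nat_lit 10528278) (nat_lit 18513) (nat_lit 61274),Row.mk (nat_lit 15960) (nat_lit 16830) (nat_lit 9847348) (nat_lit 17017) (nat_lit 10502379) (nat_lit 18513) (nat_lit 76530),Row.mk (nat_lit 16128) (nat_lit 16830) (nat_lit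 9863950) (nat_lit 17017) (nat_lit 10470032) (nat_lit 18513) (nat_lit 95585),Row.mk (nat_lit 16296) (nat_lit 16830) (nat_lit 9884686) (nat_lit 17017) (nat_lit 10429631) (nat_lit 18513) (nat_lit 119383),Row.mk (nat_lit 16464) (nat_lit 16830) (nat_lit 9910586) (nat_lit 17017) (nat_lit 10379171) (nat_lit 18513) (nat_lit 149107),Row.mk (nat_lit 16632) (nat_lit 16830) (nat_lit 9942933) (nat_lit 17017) (nat_lit 10316147) (nat_lit 18513) (nat_lit 186231),Row.mk (nat_lit 16800) (nat_lit 16830) (nat_lit 9983334) (nat_lit 17017) (nat_lit 10237433) (nat_lit 18513) (nat_lit 232598),Row.mk (nat_lit 16968) (nat_lit 16830) (nat_lit 10033794) (nat_lit 17017) (nat_lit 10139120) (nat_lit 18513) (nat_lit 290510),Row.mk (nat_lit 17136) (nat_lit 16830) (nat_lit 10096817) (nat_lit 17017) (nat_lit 10016330) (nat_lit 18513) (nat_lit 362840),Row.mk (nat_lit 17304) (nat_lit 16830) (nat_lit 10175532) (nat_lit 17017) (nat_lit 9862969) (nat_lit 18513) (nat_lit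 453178),Row.mk (nat_lit 17472) (nat_lit 16830) (nat_lit 10273844) (nat_lit 17017) (nat_lit 9671423) (nat_lit 18513) (nat_lit 566009),Row.mk (nat_lit 17640) (nat_lit 16830) (nat_lit 10396634) (nat_lit 17017) (nat_lit 9432188) (nat_lit 18513) (nat_lit 706932),Row.mk (nat_lit 17808) (nat_lit 16830) (nat_lit 10549996) (nat_lit 17017) (nat_lit 9133389) (nat_lit 18513) (nat_lit 882941),Row.mk (nat_lit 17976) (nat_lit 16830) (nat_lit 10741541) (nat_lit 17017) (nat_lit 8760197) (nat_lit 18513) (nat_lit 1102772),Row.mk (nat_lit 18144) (nat_lit 16830) (nat_lit 10980776) (nat_lit 17017) (nat_lit 8294088) (nat_lit 18513) (nat_lit 1377335),Row.mk (nat_lit 18312) (nat_lit 16830) (nat_lit 11279575) (nat_lit 17017) (nat_lit 7711929) (nat_lit 18513) (nat_lit 1720259),Row.mk (nat_lit 18480) (nat_lit 16830) (nat_lit 11652768) (nat_lit 17017) (nat_lit 6984827) (nat_lit 18513) (nat_lit 2148562),Row.mk (nat_lit 18648) (nat_lit 16830) (nat_lit 12118877)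 (nat_lit 17017) (nat_lit 6076694) (nat_lit 18513) (nat_lit 2683502),Row.mk (nat_lit 18816) (nat_lit 16830) (nat_lit 12701035) (nat_lit 17017) (nat_lit 4942458) (nat_lit 18513) (nat_lit 3351629),Row.mk (nat_lit 18984) (nat_lit 16830) (nat_lit 13428137) (nat_lit 17017) (nat_lit 3525825) (nat_lit 18513) (nat_lit 4186104),Row.mk (nat_lit 19152) (nat_lit 16830) (nat_lit 14336270) (nat_lit 17017) (nat_lit 1756484) (nat_lit 18513) (nat_lit 5228343),Row.mk (nat_lit 19320) (nat_lit 16830) (nat_lit 15017126) (nat_lit 18326) (nat_lit 453380) (nat_lit 18513) (nat_lit 6076694),Row.mk (nat_lit 19488) (nat_lit 16830) (nat_lit 13673693) (nat_lit 18326) (nat_lit 3213447) (nat_lit 18513) (nat_lit 4942458),Row.mk (nat_lit 19656) (nat_lit 16830) (nat_lit 11995776) (nat_lit 18326) (nat_lit 6660704) (nat_lit 18513) (nat_lit 3525825),Row.mk (nat_lit 19824) (nat_lit 16830) (nat_lit 9900099) (nat_lit 18326) (nat_lit 10966245) (nat_lit 18513) (nat_lit 1756484),Row.mk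 (nat_lit 19992) (nat_lit 16643) (nat_lit 566260) (nat_lit 16830) (nat_lit 6716389) (nat_lit 18326) (nat_lit 15890382),Row.mk (nat_lit 20160) (nat_lit 16643) (nat_lit 4013518) (nat_lit 18326) (nat_lit 19846704) (nat_lit 0) (nat_lit 0),Row.mk (nat_lit 20328) (nat_lit 18139) (nat_lit 8319059) (nat_lit 18326) (nat_lit 16343762) (nat_lit 20383) (nat_lit 55684),Row.mk (nat_lit 20496) (nat_lit 18139) (nat_lit 13696576) (nat_lit 18326) (nat_lit 7955154) (nat_lit 20383) (nat_lit 4138751),Row.mk (nat_lit 20664) (nat_lit 18139) (nat_lit 17890951) (nat_lit 20196) (nat_lit 2522014) (nat_lit 20383) (nat_lit 6716389),Row.mk (nat_lit 20832) (nat_lit 18139) (nat_lit 13193827) (nat_lit 20196) (nat_lit 15607745) (nat_lit 0) (nat_lit 0),Row.mk (nat_lit 21000) (nat_lit 17952) (nat_lit 7327234) (nat_lit 20009) (nat_lit 3149934) (nat_lit 20196) (nat_lit 20412965),Row.mk (nat_lit 21168) (nat_lit 20009) (nat_lit 23562900) (nat_lit 20196) (nat_lit 9935796)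 (nat_lit 0) (nat_lit 0),Row.mk (nat_lit 21336) (nat_lit 19822) (nat_lit 3934192) (nat_lit 20009) (nat_lit 25495301) (nat_lit 26367) (nat_lit 7327234),Row.mk (nat_lit 21504) (nat_lit 19822) (nat_lit 24347158) (nat_lit 26367) (nat_lit 16478772) (nat_lit 0) (nat_lit 0),Row.mk (nat_lit 21672) (nat_lit 19635) (nat_lit 4913711) (nat_lit 19822) (nat_lit 13085731) (nat_lit 26180) (nat_lit 27908823),Row.mk (nat_lit 21840) (nat_lit 19635) (nat_lit 10071300) (nat_lit 25993) (nat_lit 26685427) (nat_lit 26180) (nat_lit 15499253),Row.mk (nat_lit 22008) (nat_lit 19448) (nat_lit 169241) (nat_lit 25806) (nat_lit 20243724) (nat_lit 25993) (nat_lit 39771159),Row.mk (nat_lit 22176) (nat_lit 25806) (nat_lit 60319628) (nat_lit 32164) (nat_lit 9766555) (nat_lit 0) (nat_lit 0),Row.mk (nat_lit 22344) (nat_lit 25619) (nat_lit 60319628) (nat_lit 31977) (nat_lit 1721023) (nat_lit 32164) (nat_lit 20412965),Row.mk (nat_lit 22512) (nat_lit 25432) (nat_lit 51991975)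 (nat_lit 25619) (nat_lit 8327652) (nat_lit 31977) (nat_lit 37580614),Row.mk (nat_lit 22680) (nat_lit 25245) (nat_lit 39441422) (nat_lit 25432) (nat_lit 20878206) (nat_lit 31790) (nat_lit 56873076),Row.mk (nat_lit 22848) (nat_lit 25058) (nat_lit 23766083) (nat_lit 25245) (nat_lit 36553545) (nat_lit 31603) (nat_lit 80968897),Row.mk (nat_lit 23016) (nat_lit 24871) (nat_lit 4187963) (nat_lit 25058) (nat_lit 56131665) (nat_lit 31416) (nat_lit 111063996),Row.mk (nat_lit 23184) (nat_lit 24871) (nat_lit 60319628) (nat_lit 31229) (nat_lit 132427046) (nat_lit 31416) (nat_lit 16225001),Row.mk (nat_lit 23352) (nat_lit 24684) (nat_lit 60319628) (nat_lit 31042) (nat_lit 154921017) (nat_lit 31229) (nat_lit 40677601),Row.mk (nat_lit 23520) (nat_lit 24497) (nat_lit 60319628) (nat_lit 30855) (nat_lit 183015444) (nat_lit 31042) (nat_lit 71218308),Row.mk (nat_lit 23688) (nat_lit 24310) (nat_lit 60319628) (nat_lit 30668) (nat_lit 218104705) (nat_lit 30855)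 (nat_lit 109362914),Row.mk (nat_lit 23856) (nat_lit 24123) (nat_lit 60319628) (nat_lit 30481) (nat_lit 261930347) (nat_lit 30668) (nat_lit 157004607),Row.mk (nat_lit 24024) (nat_lit 23936) (nat_lit 60319628) (nat_lit 30294) (nat_lit 316667515) (nat_lit 30481) (nat_lit 216507932),Row.mk (nat_lit 24192) (nat_lit 23749) (nat_lit 60319628) (nat_lit 30107) (nat_lit 385032918) (nat_lit 30294) (nat_lit 290826150),Row.mk (nat_lit 24360) (nat_lit 23562) (nat_lit 60319628) (nat_lit 29920) (nat_lit 470419658) (nat_lit 30107) (nat_lit 383647811),Row.mk (nat_lit 24528) (nat_lit 23375) (nat_lit 60319628) (nat_lit 29733) (nat_lit 577065635) (nat_lit 29920) (nat_lit 499579826),Row.mk (nat_lit 24696) (nat_lit 23188) (nat_lit 60319628) (nat_lit 29546) (nat_lit 710263889) (nat_lit 29733) (nat_lit 644376117),Row.mk (nat_lit 24864) (nat_lit 23001) (nat_lit 60319628) (nat_lit 29359) (nat_lit 876625294) (nat_lit 29546) (nat_lit 825223191),Row.mk (nat_lit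 25032) (nat_lit 22814) (nat_lit 60319628) (nat_lit 29172) (nat_lit 1084406675) (nat_lit 29359) (nat_lit 1051096824),Row.mk (nat_lit 25200) (nat_lit 22627) (nat_lit 60319628) (nat_lit 28985) (nat_lit 1343920608) (nat_lit 29172) (nat_lit 1333207542),Row.mk (nat_lit 25368) (nat_lit 22440) (nat_lit 60319628) (nat_lit 28798) (nat_lit 1668047251) (nat_lit 28985) (nat_lit 1685557023),Row.mk (nat_lit 25536) (nat_lit 22253) (nat_lit 60319628) (nat_lit 28611) (nat_lit 2072873607) (nat_lit 28798) (nat_lit 2125633026),Row.mk (nat_lit 25704) (nat_lit 22066) (nat_lit 60319628) (nat_lit 28424) (nat_lit 2578491961) (nat_lit 28611) (nat_lit 2675277336),Row.mk (nat_lit 25872) (nat_lit 21879) (nat_lit 60319628) (nat_lit 28237) (nat_lit 3209997088) (nat_lit 28424) (nat_lit 3361769820),Row.mk (nat_lit 26040) (nat_lit 21692) (nat_lit 60319628) (nat_lit 28050) (nat_lit 3998731756) (nat_lit 28237) (nat_lit 4219182373),Row.mk (nat_lit 26208) (nat_lit 21505)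 (nat_lit 60319628) (nat_lit 27863) (nat_lit 4983842330) (nat_lit 28050) (nat_lit 5290069966),Row.mk (nat_lit 26376) (nat_lit 21318) (nat_lit 60319628) (nat_lit 27676) (nat_lit 6214221672) (nat_lit 27863) (nat_lit 6627582737),Row.mk (nat_lit 26544) (nat_lit 21131) (nat_lit 60319628) (nat_lit 27489) (nat_lit 7750935789) (nat_lit 27676) (nat_lit 8298103922),Row.mk (nat_lit 26712) (nat_lit 20944) (nat_lit 60319628) (nat_lit 27302) (nat_lit 9670254649) (nat_lit 27489) (nat_lit 10384544582),Row.mk (nat_lit 26880) (nat_lit 32912) (nat_lit 28801573) (nat_lit 62084) (nat_lit 25077389936) (nat_lit 0) (nat_lit 0),Row.mk (nat_lit 27048) (nat_lit 32912) (nat_lit 28801573) (nat_lit 62084) (nat_lit 31326137405) (nat_lit 0) (nat_lit 0),Row.mk (nat_lit 27216) (nat_lit 32912) (nat_lit 28801573) (nat_lit 62084) (nat_lit 39130672249) (nat_lit 0) (nat_lit 0),Row.mk (nat_lit 27384) (nat_lit 32912) (nat_lit 28801573) (nat_lit 62084) (nat_lit 48878347994)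 (nat_lit 0) (nat_lit 0),Row.mk (nat_lit 27552) (nat_lit 32912) (nat_lit 28801573) (nat_lit 62084) (nat_lit 61052959849) (nat_lit 0) (nat_lit 0),Row.mk (nat_lit 27720) (nat_lit 32912) (nat_lit 28801573) (nat_lit 62084) (nat_lit 76258756358) (nat_lit 0) (nat_lit 0),Row.mk (nat_lit 27888) (nat_lit 32912) (nat_lit 28801573) (nat_lit 62084) (nat_lit 95250429375) (nat_lit 0) (nat_lit 0),Row.mk (nat_lit 28056) (nat_lit 32912) (nat_lit 28801573) (nat_lit 62084) (nat_lit 118970570823) (nat_lit 0) (nat_lit 0),Row.mk (nat_lit 28224) (nat_lit 32912) (nat_lit 28801573) (nat_lit 62084) (nat_lit 148596455271) (nat_lit 0) (nat_lit 0),Row.mk (nat_lit 28392) (nat_lit 32912) (nat_lit 28801573) (nat_lit 62084) (nat_lit 185598470258) (nat_lit 0) (nat_lit 0),Row.mk (nat_lit 28560) (nat_lit 32912) (nat_lit 28801573) (nat_lit 62084) (nat_lit 231813094347) (nat_lit 0) (nat_lit 0),Row.mk (nat_lit 28728) (nat_lit 32912) (nat_lit 28801573) (nat_lit 62084) (nat_lit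 289534044961) (nat_lit 0) (nat_lit 0),Row.mk (nat_lit 28896) (nat_lit 32912) (nat_lit 28801573) (nat_lit 62084) (nat_lit 361626119830) (nat_lit 0) (nat_lit 0),Row.mk (nat_lit 29064) (nat_lit 32912) (nat_lit 28801573) (nat_lit 62084) (nat_lit 451667382206) (nat_lit 0) (nat_lit 0),Row.mk (nat_lit 29232) (nat_lit 32912) (nat_lit 28801573) (nat_lit 62084) (nat_lit 564126746775) (nat_lit 0) (nat_lit 0),Row.mk (nat_lit 29400) (nat_lit 32912) (nat_lit 28801573) (nat_lit 62084) (nat_lit 704585780174) (nat_lit 0) (nat_lit 0),Row.mk (nat_lit 29568) (nat_lit 32912) (nat_lit 28801573) (nat_lit 62084) (nat_lit 880015724484) (nat_lit 0) (nat_lit 0),Row.mk (nat_lit 29736) (nat_lit 32912) (nat_lit 28801573) (nat_lit 62084) (nat_lit 1099123492888) (nat_lit 0) (nat_lit 0),Row.mk (nat_lit 29904) (nat_lit 32912) (nat_lit 28801573) (nat_lit 62084) (nat_lit 1372783809913) (nat_lit 0) (nat_lit 0),Row.mk (nat_lit 30072) (nat_lit 32912) (nat_lit 28801573)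 (nat_lit 62084) (nat_lit 1714578944148) (nat_lit 0) (nat_lit 0),Row.mk (nat_lit 30240) (nat_lit 32912) (nat_lit 28801573) (nat_lit 62084) (nat_lit 2141472821408) (nat_lit 0) (nat_lit 0),Row.mk (nat_lit 30408) (nat_lit 32912) (nat_lit 28801573) (nat_lit 62084) (nat_lit 2674652975802) (nat_lit 0) (nat_lit 0),Row.mk (nat_lit 30576) (nat_lit 32912) (nat_lit 28801573) (nat_lit 62084) (nat_lit 3340582126306) (nat_lit 0) (nat_lit 0),Row.mk (nat_lit 30744) (nat_lit 32912) (nat_lit 28801573) (nat_lit 62084) (nat_lit 4172311570539) (nat_lit 0) (nat_lit 0),Row.mk (nat_lit 30912) (nat_lit 32912) (nat_lit 28801573) (nat_lit 62084) (nat_lit 5211121581908) (nat_lit 0) (nat_lit 0)],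
[Row.mk (nat_lit 6552) (nat_lit 15521) (nat_lit 18932203) (nat_lit 15708) (nat_lit 6563097) (nat_lit 0) (nat_lit 0),Row.mk (nat_lit 6720) (nat_lit 15521) (nat_lit 18932203) (nat_lit 15708) (nat_lit 6563097) (nat_lit 0) (nat_lit 0),Row.mk (nat_lit 6888) (nat_lit 15521) (nat_lit 18932203) (nat_lit 15708) (nat_lit 6563097) (nat_lit 0) (nat_lit 0),Row.mk (nat_lit 7056) (nat_lit 15521) (nat_lit 18932203) (nat_lit 15708) (nat_lit 6563097) (nat_lit 0) (nat_lit 0),Row.mk (nat_lit 7224) (nat_lit 15521) (nat_lit 18932203) (nat_lit 15708) (nat_lit 6563096) (nat_lit 17017) (nat_lit 1),Row.mk (nat_lit 7392) (nat_lit 15521) (nat_lit 18932203) (nat_lit 15708) (nat_lit 6563096) (nat_lit 17017) (nat_lit 1),Row.mk (nat_lit 7560) (nat_lit 15521) (nat_lit 18932204) (nat_lit 15708) (nat_lit 6563095) (nat_lit 17017) (nat_lit 1),Row.mk (nat_lit 7728) (nat_lit 15521) (nat_lit 18932204) (nat_lit 15708) (nat_lit 6563095) (nat_lit 17017) (nat_lit 2),Row.mk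 (nat_lit 7896) (nat_lit 15521) (nat_lit 18932204) (nat_lit 15708) (nat_lit 6563094) (nat_lit 17017) (nat_lit 2),Row.mk (nat_lit 8064) (nat_lit 15521) (nat_lit 18932204) (nat_lit 15708) (nat_lit 6563093) (nat_lit 17017) (nat_lit 3),Row.mk (nat_lit 8232) (nat_lit 15521) (nat_lit 18932205) (nat_lit 15708) (nat_lit 6563092) (nat_lit 17017) (nat_lit 3),Row.mk (nat_lit 8400) (nat_lit 15521) (nat_lit 18932206) (nat_lit 15708) (nat_lit 6563091) (nat_lit 17017) (nat_lit 4),Row.mk (nat_lit 8568) (nat_lit 15521) (nat_lit 18932206) (nat_lit 15708) (nat_lit 6563089) (nat_lit 17017) (nat_lit 6),Row.mk (nat_lit 8736) (nat_lit 15521) (nat_lit 18932207) (nat_lit 15708) (nat_lit 6563086) (nat_lit 17017) (nat_lit 7),Row.mk (nat_lit 8904) (nat_lit 15521) (nat_lit 18932208) (nat_lit 15708) (nat_lit 6563084) (nat_lit 17017) (nat_lit 9),Row.mk (nat_lit 9072) (nat_lit 15521) (nat_lit 18932210) (nat_lit 15708) (nat_lit 6563080) (nat_lit 17017) (nat_lit 11),Row.mk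 (nat_lit 9240) (nat_lit 15521) (nat_lit 18932212) (nat_lit 15708) (nat_lit 6563076) (nat_lit 17017) (nat_lit 14),Row.mk (nat_lit 9408) (nat_lit 15521) (nat_lit 18932214) (nat_lit 15708) (nat_lit 6563070) (nat_lit 17017) (nat_lit 18),Row.mk (nat_lit 9576) (nat_lit 15521) (nat_lit 18932217) (nat_lit 15708) (nat_lit 6563063) (nat_lit 17017) (nat_lit 23),Row.mk (nat_lit 9744) (nat_lit 15521) (nat_lit 18932220) (nat_lit 15708) (nat_lit 6563054) (nat_lit 17017) (nat_lit 29),Row.mk (nat_lit 9912) (nat_lit 15521) (nat_lit 18932225) (nat_lit 15708) (nat_lit 6563044) (nat_lit 17017) (nat_lit 36),Row.mk (nat_lit 10080) (nat_lit 15521) (nat_lit 18932230) (nat_lit 15708) (nat_lit 6563030) (nat_lit 17017) (nat_lit 45),Row.mk (nat_lit 10248) (nat_lit 15521) (nat_lit 18932237) (nat_lit 15708) (nat_lit 6563013) (nat_lit 17017) (nat_lit 56),Row.mk (nat_lit 10416) (nat_lit 15521) (nat_lit 18932246) (nat_lit 15708) (nat_lit 6562992) (nat_lit 17017) (nat_lit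 70),Row.mk (nat_lit 10584) (nat_lit 15521) (nat_lit 18932257) (nat_lit 15708) (nat_lit 6562966) (nat_lit 17017) (nat_lit 88),Row.mk (nat_lit 10752) (nat_lit 15521) (nat_lit 18932270) (nat_lit 15708) (nat_lit 6562933) (nat_lit 17017) (nat_lit 110),Row.mk (nat_lit 10920) (nat_lit 15521) (nat_lit 18932287) (nat_lit 15708) (nat_lit 6562892) (nat_lit 17017) (nat_lit 138),Row.mk (nat_lit 11088) (nat_lit 15521) (nat_lit 18932308) (nat_lit 15708) (nat_lit 6562841) (nat_lit 17017) (nat_lit 172),Row.mk (nat_lit 11256) (nat_lit 15521) (nat_lit 18932335) (nat_lit 15708) (nat_lit 6562777) (nat_lit 17017) (nat_lit 215),Row.mk (nat_lit 11424) (nat_lit 15521) (nat_lit 18932367) (nat_lit 15708) (nat_lit 6562697) (nat_lit 17017) (nat_lit 269),Row.mk (nat_lit 11592) (nat_lit 15521) (nat_lit 18932408) (nat_lit 15708) (nat_lit 6562597) (nat_lit 17017) (nat_lit 336),Row.mk (nat_lit 11760) (nat_lit 15521) (nat_lit 18932460) (nat_lit 15708) (nat_lit 6562472)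 (nat_lit 17017) (nat_lit 419),Row.mk (nat_lit 11928) (nat_lit 15521) (nat_lit 18932524) (nat_lit 15708) (nat_lit 6562316) (nat_lit 17017) (nat_lit 524),Row.mk (nat_lit 12096) (nat_lit 15521) (nat_lit 18932604) (nat_lit 15708) (nat_lit 6562122) (nat_lit 17017) (nat_lit 654),Row.mk (nat_lit 12264) (nat_lit 15521) (nat_lit 18932704) (nat_lit 15708) (nat_lit 6561879) (nat_lit 17017) (nat_lit 817),Row.mk (nat_lit 12432) (nat_lit 15521) (nat_lit 18932828) (nat_lit 15708) (nat_lit 6561575) (nat_lit 17017) (nat_lit 1021),Row.mk (nat_lit 12600) (nat_lit 15521) (nat_lit 18932984) (nat_lit 15708) (nat_lit 6561196) (nat_lit 17017) (nat_lit 1276),Row.mk (nat_lit 12768) (nat_lit 15521) (nat_lit 18933179) (nat_lit 15708) (nat_lit 6560723) (nat_lit 17017) (nat_lit 1593),Row.mk (nat_lit 12936) (nat_lit 15521) (nat_lit 18933422) (nat_lit 15708) (nat_lit 6560131) (nat_lit 17017) (nat_lit 1990),Row.mk (nat_lit 13104) (nat_lit 15521) (nat_lit 18933725)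 (nat_lit 15708) (nat_lit 6559393) (nat_lit 17017) (nat_lit 2486),Row.mk (nat_lit 13272) (nat_lit 15521) (nat_lit 18934104) (nat_lit 15708) (nat_lit 6558470) (nat_lit 17017) (nat_lit 3105),Row.mk (nat_lit 13440) (nat_lit 15521) (nat_lit 18934578) (nat_lit 15708) (nat_lit 6557318) (nat_lit 17017) (nat_lit 3878),Row.mk (nat_lit 13608) (nat_lit 15521) (nat_lit 18935169) (nat_lit 15708) (nat_lit 6555879) (nat_lit 17017) (nat_lit 4843),Row.mk (nat_lit 13776) (nat_lit 15521) (nat_lit 18935908) (nat_lit 15708) (nat_lit 6554081) (nat_lit 17017) (nat_lit 6049),Row.mk (nat_lit 13944) (nat_lit 15521) (nat_lit 18936830) (nat_lit 15708) (nat_lit 6551837) (nat_lit 17017) (nat_lit 7556),Row.mk (nat_lit 14112) (nat_lit 15521) (nat_lit 18937982) (nat_lit 15708) (nat_lit 6549033) (nat_lit 17017) (nat_lit 9437),Row.mk (nat_lit 14280) (nat_lit 15521) (nat_lit 18939422) (nat_lit 15708) (nat_lit 6545531) (nat_lit 17017) (nat_lit 11786),Row.mk (nat_lit 14448)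 (nat_lit 15521) (nat_lit 18941219) (nat_lit 15708) (nat_lit 6541157) (nat_lit 17017) (nat_lit 14721),Row.mk (nat_lit 14616) (nat_lit 15521) (nat_lit 18943464) (nat_lit 15708) (nat_lit 6535695) (nat_lit 17017) (nat_lit 18386),Row.mk (nat_lit 14784) (nat_lit 15521) (nat_lit 18946268) (nat_lit 15708) (nat_lit 6528872) (nat_lit 17017) (nat_lit 22964),Row.mk (nat_lit 14952) (nat_lit 15521) (nat_lit 18949769) (nat_lit 15708) (nat_lit 6520350) (nat_lit 17017) (nat_lit 28682),Row.mk (nat_lit 15120) (nat_lit 15521) (nat_lit 18954143) (nat_lit 15708) (nat_lit 6509707) (nat_lit 17017) (nat_lit 35823),Row.mk (nat_lit 15288) (nat_lit 15521) (nat_lit 18959606) (nat_lit 15708) (nat_lit 6496414) (nat_lit 17017) (nat_lit 44743),Row.mk (nat_lit 15456) (nat_lit 15521) (nat_lit 18966429) (nat_lit 15708) (nat_lit 6479812) (nat_lit 17017) (nat_lit 55882),Row.mk (nat_lit 15624) (nat_lit 15521) (nat_lit 18974950) (nat_lit 15708) (nat_lit 6459075) (nat_lit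 17017) (nat_lit 69796),Row.mk (nat_lit 15792) (nat_lit 15521) (nat_lit 18985593) (nat_lit 15708) (nat_lit 6433176) (nat_lit 17017) (nat_lit 87174),Row.mk (nat_lit 15960) (nat_lit 15521) (nat_lit 18998886) (nat_lit 15708) (nat_lit 6400829) (nat_lit 17017) (nat_lit 108878),Row.mk (nat_lit 16128) (nat_lit 15521) (nat_lit 19015489) (nat_lit 15708) (nat_lit 6360428) (nat_lit 17017) (nat_lit 135986),Row.mk (nat_lit 16296) (nat_lit 15521) (nat_lit 19036225) (nat_lit 15708) (nat_lit 6309968) (nat_lit 17017) (nat_lit 169843),Row.mk (nat_lit 16464) (nat_lit 15521) (nat_lit 19062124) (nat_lit 15708) (nat_lit 6246945) (nat_lit 17017) (nat_lit 212130),Row.mk (nat_lit 16632) (nat_lit 15521) (nat_lit 19094471) (nat_lit 15708) (nat_lit 6168230) (nat_lit 17017) (nat_lit 264946),Row.mk (nat_lit 16800) (nat_lit 15521) (nat_lit 19134873) (nat_lit 15708) (nat_lit 6069918) (nat_lit 17017) (nat_lit 330911),Row.mk (nat_lit 16968) (nat_lit 15521) (nat_lit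 19185332) (nat_lit 15708) (nat_lit 5947128) (nat_lit 17017) (nat_lit 413300),Row.mk (nat_lit 17136) (nat_lit 15521) (nat_lit 19248356) (nat_lit 15708) (nat_lit 5793766) (nat_lit 17017) (nat_lit 516202),Row.mk (nat_lit 17304) (nat_lit 15521) (nat_lit 19327070) (nat_lit 15708) (nat_lit 5602221) (nat_lit 17017) (nat_lit 644723),Row.mk (nat_lit 17472) (nat_lit 15521) (nat_lit 19425383) (nat_lit 15708) (nat_lit 5362986) (nat_lit 17017) (nat_lit 805244),Row.mk (nat_lit 17640) (nat_lit 15521) (nat_lit 19548173) (nat_lit 15708) (nat_lit 5064187) (nat_lit 17017) (nat_lit 1005731),Row.mk (nat_lit 17808) (nat_lit 15521) (nat_lit 19701535) (nat_lit 15708) (nat_lit 4690994) (nat_lit 17017) (nat_lit 1256133),Row.mk (nat_lit 17976) (nat_lit 15521) (nat_lit 19893080) (nat_lit 15708) (nat_lit 4224885) (nat_lit 17017) (nat_lit 1568880),Row.mk (nat_lit 18144) (nat_lit 15521) (nat_lit 20132315) (nat_lit 15708) (nat_lit 3642727) (nat_lit 17017) (nat_lit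 1959494),Row.mk (nat_lit 18312) (nat_lit 15521) (nat_lit 20431114) (nat_lit 15708) (nat_lit 2915625) (nat_lit 17017) (nat_lit 2447361),Row.mk (nat_lit 18480) (nat_lit 15521) (nat_lit 20804307) (nat_lit 15708) (nat_lit 2007492) (nat_lit 17017) (nat_lit 3056694),Row.mk (nat_lit 18648) (nat_lit 15521) (nat_lit 21270415) (nat_lit 15708) (nat_lit 873256) (nat_lit 17017) (nat_lit 3817738),Row.mk (nat_lit 18816) (nat_lit 15521) (nat_lit 21309196) (nat_lit 16830) (nat_lit 543377) (nat_lit 17017) (nat_lit 4224885),Row.mk (nat_lit 18984) (nat_lit 15521) (nat_lit 20266957) (nat_lit 16830) (nat_lit 2312718) (nat_lit 17017) (nat_lit 3642727),Row.mk (nat_lit 19152) (nat_lit 15521) (nat_lit 18965226) (nat_lit 16830) (nat_lit 4522582) (nat_lit 17017) (nat_lit 2915625),Row.mk (nat_lit 19320) (nat_lit 15521) (nat_lit 17339395) (nat_lit 16830) (nat_lit 7282649) (nat_lit 17017) (nat_lit 2007492),Row.mk (nat_lit 19488) (nat_lit 15521) (nat_lit 15308771)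 (nat_lit 16830) (nat_lit 10729907) (nat_lit 17017) (nat_lit 873256),Row.mk (nat_lit 19656) (nat_lit 15334) (nat_lit 678665) (nat_lit 15521) (nat_lit 12093906) (nat_lit 16830) (nat_lit 14492070),Row.mk (nat_lit 19824) (nat_lit 15334) (nat_lit 2888529) (nat_lit 15521) (nat_lit 6716389) (nat_lit 16830) (nat_lit 18100247),Row.mk (nat_lit 19992) (nat_lit 15334) (nat_lit 5648596) (nat_lit 16830) (nat_lit 22606771) (nat_lit 0) (nat_lit 0),Row.mk (nat_lit 20160) (nat_lit 15334) (nat_lit 707245) (nat_lit 16643) (nat_lit 8388608) (nat_lit 16830) (nat_lit 19846704),Row.mk (nat_lit 20328) (nat_lit 16643) (nat_lit 13401395) (nat_lit 16830) (nat_lit 12024357) (nat_lit 18326) (nat_lit 4375089),Row.mk (nat_lit 20496) (nat_lit 16643) (nat_lit 18778912) (nat_lit 16830) (nat_lit 1547188) (nat_lit 18326) (nat_lit 10546717),Row.mk (nat_lit 20664) (nat_lit 16643) (nat_lit 13956758) (nat_lit 18139) (nat_lit 11538542) (nat_lit 18326) (nat_lit 6716389),Row.mk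 (nat_lit 20832) (nat_lit 16643) (nat_lit 6001603) (nat_lit 18139) (nat_lit 27882305) (nat_lit 0) (nat_lit 0),Row.mk (nat_lit 21000) (nat_lit 17952) (nat_lit 10477169) (nat_lit 18139) (nat_lit 22345366) (nat_lit 20196) (nat_lit 3149934),Row.mk (nat_lit 21168) (nat_lit 17952) (nat_lit 23562900) (nat_lit 18139) (nat_lit 1932401) (nat_lit 20196) (nat_lit 13085731),Row.mk (nat_lit 21336) (nat_lit 17952) (nat_lit 16343762) (nat_lit 20009) (nat_lit 23562900) (nat_lit 20196) (nat_lit 1932401),Row.mk (nat_lit 21504) (nat_lit 17765) (nat_lit 4913711) (nat_lit 19822) (nat_lit 13085731) (nat_lit 20009) (nat_lit 27908823),Row.mk (nat_lit 21672) (nat_lit 19822) (nat_lit 43494744) (nat_lit 26367) (nat_lit 7495858) (nat_lit 0) (nat_lit 0),Row.mk (nat_lit 21840) (nat_lit 19635) (nat_lit 22480870) (nat_lit 19822) (nat_lit 13085731) (nat_lit 26180) (nat_lit 21771716),Row.mk (nat_lit 22008) (nat_lit 19635) (nat_lit 25664542) (nat_lit 25993) (nat_lit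 36587487) (nat_lit 26180) (nat_lit 3014431),Row.mk (nat_lit 22176) (nat_lit 19448) (nat_lit 13297109) (nat_lit 25806) (nat_lit 32611157) (nat_lit 25993) (nat_lit 29260253),Row.mk (nat_lit 22344) (nat_lit 25619) (nat_lit 25495301) (nat_lit 25806) (nat_lit 60319628) (nat_lit 32164) (nat_lit 1721023),Row.mk (nat_lit 22512) (nat_lit 25619) (nat_lit 85814930) (nat_lit 31977) (nat_lit 17167648) (nat_lit 0) (nat_lit 0),Row.mk (nat_lit 22680) (nat_lit 25432) (nat_lit 85814930) (nat_lit 31790) (nat_lit 10964810) (nat_lit 31977) (nat_lit 25495301),Row.mk (nat_lit 22848) (nat_lit 25245) (nat_lit 85814930) (nat_lit 31603) (nat_lit 3217614) (nat_lit 31790) (nat_lit 57338317),Row.mk (nat_lit 23016) (nat_lit 25058) (nat_lit 79356483) (nat_lit 25245) (nat_lit 6458446) (nat_lit 31603) (nat_lit 90651030),Row.mk (nat_lit 23184) (nat_lit 24871) (nat_lit 67271317) (nat_lit 25058) (nat_lit 18543612) (nat_lit 31416) (nat_lit 128239082),Row.mk (nat_lit 23352)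 (nat_lit 24684) (nat_lit 52177235) (nat_lit 24871) (nat_lit 33637694) (nat_lit 31229) (nat_lit 175185653),Row.mk (nat_lit 23520) (nat_lit 24497) (nat_lit 33325092) (nat_lit 24684) (nat_lit 52489837) (nat_lit 31042) (nat_lit 233820787),Row.mk (nat_lit 23688) (nat_lit 24310) (nat_lit 9779220) (nat_lit 24497) (nat_lit 76035709) (nat_lit 30855) (nat_lit 307054654),Row.mk (nat_lit 23856) (nat_lit 24310) (nat_lit 85814930) (nat_lit 30668) (nat_lit 382805907) (nat_lit 30855) (nat_lit 15716081),Row.mk (nat_lit 24024) (nat_lit 24123) (nat_lit 85814930) (nat_lit 30481) (nat_lit 467638175) (nat_lit 30668) (nat_lit 45124307),Row.mk (nat_lit 24192) (nat_lit 23936) (nat_lit 85814930) (nat_lit 30294) (nat_lit 573591630) (nat_lit 30481) (nat_lit 81854473),Row.mk (nat_lit 24360) (nat_lit 23749) (nat_lit 85814930) (nat_lit 30107) (nat_lit 705924940) (nat_lit 30294) (nat_lit 127729564),Row.mk (nat_lit 24528) (nat_lit 23562) (nat_lit 85814930) (nat_lit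 29920) (nat_lit 871206051) (nat_lit 30107) (nat_lit 185026445),Row.mk (nat_lit 24696) (nat_lit 23375) (nat_lit 85814930) (nat_lit 29733) (nat_lit 1077638172) (nat_lit 29920) (nat_lit 256588868),Row.mk (nat_lit 24864) (nat_lit 23188) (nat_lit 85814930) (nat_lit 29546) (nat_lit 1335466911) (nat_lit 29733) (nat_lit 345968608),Row.mk (nat_lit 25032) (nat_lit 23001) (nat_lit 85814930) (nat_lit 29359) (nat_lit 1657488787) (nat_lit 29546) (nat_lit 457601746),Row.mk (nat_lit 25200) (nat_lit 22814) (nat_lit 85814930) (nat_lit 29172) (nat_lit 2059686341) (nat_lit 29359) (nat_lit 597028844),Row.mk (nat_lit 25368) (nat_lit 22627) (nat_lit 85814930) (nat_lit 28985) (nat_lit 2562021383) (nat_lit 29172) (nat_lit 771169925),Row.mk (nat_lit 25536) (nat_lit 22440) (nat_lit 85814930) (nat_lit 28798) (nat_lit 3189425733) (nat_lit 28985) (nat_lit 988667934),Row.mk (nat_lit 25704) (nat_lit 22253) (nat_lit 85814930) (nat_lit 28611) (nat_lit 3973038631)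 (nat_lit 28798) (nat_lit 1260317701),Row.mk (nat_lit 25872) (nat_lit 22066) (nat_lit 85814930) (nat_lit 28424) (nat_lit 4951752236) (nat_lit 28611) (nat_lit 1599601706),Row.mk (nat_lit 26040) (nat_lit 21879) (nat_lit 85814930) (nat_lit 28237) (nat_lit 6174141919) (nat_lit 28424) (nat_lit 2023359244),Row.mk (nat_lit 26208) (nat_lit 21692) (nat_lit 85814930) (nat_lit 28050) (nat_lit 7700877144) (nat_lit 28237) (nat_lit 2552622186),Row.mk (nat_lit 26376) (nat_lit 21505) (nat_lit 85814930) (nat_lit 27863) (nat_lit 9607732610) (nat_lit 28050) (nat_lit 3213658833),Row.mk (nat_lit 26544) (nat_lit 21318) (nat_lit 85814930) (nat_lit 27676) (nat_lit 11989349086) (nat_lit 27863) (nat_lit 4039277659),Row.mk (nat_lit 26712) (nat_lit 21131) (nat_lit 85814930) (nat_lit 27489) (nat_lit 14963930611) (nat_lit 27676) (nat_lit 5070455655),Row.mk (nat_lit 26880) (nat_lit 20944) (nat_lit 85814930) (nat_lit 27302) (nat_lit 18679111177) (nat_lit 27489) (nat_lit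 6358372096),Row.mk (nat_lit 27048) (nat_lit 32912) (nat_lit 33883909) (nat_lit 62084) (nat_lit 31321055069) (nat_lit 0) (nat_lit 0),Row.mk (nat_lit 27216) (nat_lit 32912) (nat_lit 33883909) (nat_lit 62084) (nat_lit 39125589913) (nat_lit 0) (nat_lit 0),Row.mk (nat_lit 27384) (nat_lit 32912) (nat_lit 33883909) (nat_lit 62084) (nat_lit 48873265658) (nat_lit 0) (nat_lit 0),Row.mk (nat_lit 27552) (nat_lit 32912) (nat_lit 33883909) (nat_lit 62084) (nat_lit 61047877513) (nat_lit 0) (nat_lit 0),Row.mk (nat_lit 27720) (nat_lit 32912) (nat_lit 33883909) (nat_lit 62084) (nat_lit 76253674022) (nat_lit 0) (nat_lit 0),Row.mk (nat_lit 27888) (nat_lit 32912) (nat_lit 33883909) (nat_lit 62084) (nat_lit 95245347039) (nat_lit 0) (nat_lit 0),Row.mk (nat_lit 28056) (nat_lit 32912) (nat_lit 33883909) (nat_lit 62084) (nat_lit 118965488487) (nat_lit 0) (nat_lit 0),Row.mk (nat_lit 28224) (nat_lit 32912) (nat_lit 33883909) (nat_lit 62084) (nat_lit 148591372935)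 (nat_lit 0) (nat_lit 0),Row.mk (nat_lit 28392) (nat_lit 32912) (nat_lit 33883909) (nat_lit 62084) (nat_lit 185593387922) (nat_lit 0) (nat_lit 0),Row.mk (nat_lit 28560) (nat_lit 32912) (nat_lit 33883909) (nat_lit 62084) (nat_lit 231808012011) (nat_lit 0) (nat_lit 0),Row.mk (nat_lit 28728) (nat_lit 32912) (nat_lit 33883909) (nat_lit 62084) (nat_lit 289528962625) (nat_lit 0) (nat_lit 0),Row.mk (nat_lit 28896) (nat_lit 32912) (nat_lit 33883909) (nat_lit 62084) (nat_lit 361621037494) (nat_lit 0) (nat_lit 0),Row.mk (nat_lit 29064) (nat_lit 32912) (nat_lit 33883909) (nat_lit 62084) (nat_lit 451662299870) (nat_lit 0) (nat_lit 0),Row.mk (nat_lit 29232) (nat_lit 32912) (nat_lit 33883909) (nat_lit 62084) (nat_lit 564121664439) (nat_lit 0) (nat_lit 0),Row.mk (nat_lit 29400) (nat_lit 32912) (nat_lit 33883909) (nat_lit 62084) (nat_lit 704580697838) (nat_lit 0) (nat_lit 0),Row.mk (nat_lit 29568) (nat_lit 32912) (nat_lit 33883909) (nat_lit 62084)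 (nat_lit 880010642148) (nat_lit 0) (nat_lit 0),Row.mk (nat_lit 29736) (nat_lit 32912) (nat_lit 33883909) (nat_lit 62084) (nat_lit 1099118410553) (nat_lit 0) (nat_lit 0),Row.mk (nat_lit 29904) (nat_lit 32912) (nat_lit 33883909) (nat_lit 62084) (nat_lit 1372778727577) (nat_lit 0) (nat_lit 0),Row.mk (nat_lit 30072) (nat_lit 32912) (nat_lit 33883909) (nat_lit 62084) (nat_lit 1714573861812) (nat_lit 0) (nat_lit 0),Row.mk (nat_lit 30240) (nat_lit 32912) (nat_lit 33883909) (nat_lit 62084) (nat_lit 2141467739072) (nat_lit 0) (nat_lit 0),Row.mk (nat_lit 30408) (nat_lit 32912) (nat_lit 33883909) (nat_lit 62084) (nat_lit 2674647893466) (nat_lit 0) (nat_lit 0),Row.mk (nat_lit 30576) (nat_lit 32912) (nat_lit 33883909) (nat_lit 62084) (nat_lit 3340577043970) (nat_lit 0) (nat_lit 0),Row.mk (nat_lit 30744) (nat_lit 32912) (nat_lit 33883909) (nat_lit 62084) (nat_lit 4172306488203) (nat_lit 0) (nat_lit 0),Row.mk (nat_lit 30912) (nat_lit 32912) (nat_lit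 33883909) (nat_lit 62084) (nat_lit 5211116499572) (nat_lit 0) (nat_lit 0)],
[Row.mk (nat_lit 6888) (nat_lit 14399) (nat_lit 30362254) (nat_lit 14586) (nat_lit 1480761) (nat_lit 0) (nat_lit 0),Row.mk (nat_lit 7056) (nat_lit 14399) (nat_lit 30362254) (nat_lit 14586) (nat_lit 1480760) (nat_lit 15708) (nat_lit 1),Row.mk (nat_lit 7224) (nat_lit 14399) (nat_lit 30362254) (nat_lit 14586) (nat_lit 1480760) (nat_lit 15708) (nat_lit 1),Row.mk (nat_lit 7392) (nat_lit 14399) (nat_lit 30362254) (nat_lit 14586) (nat_lit 1480760) (nat_lit 15708) (nat_lit 1),Row.mk (nat_lit 7560) (nat_lit 14399) (nat_lit 30362255) (nat_lit 14586) (nat_lit 1480759) (nat_lit 15708) (nat_lit 2),Row.mk (nat_lit 7728) (nat_lit 14399) (nat_lit 30362255) (nat_lit 14586) (nat_lit 1480758) (nat_lit 15708) (nat_lit 2),Row.mk (nat_lit 7896) (nat_lit 14399) (nat_lit 30362255) (nat_lit 14586) (nat_lit 1480757) (nat_lit 15708) (nat_lit 3),Row.mk (nat_lit 8064) (nat_lit 14399)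 (nat_lit 30362255) (nat_lit 14586) (nat_lit 1480756) (nat_lit 15708) (nat_lit 4),Row.mk (nat_lit 8232) (nat_lit 14399) (nat_lit 30362256) (nat_lit 14586) (nat_lit 1480755) (nat_lit 15708) (nat_lit 5),Row.mk (nat_lit 8400) (nat_lit 14399) (nat_lit 30362257) (nat_lit 14586) (nat_lit 1480753) (nat_lit 15708) (nat_lit 6),Row.mk (nat_lit 8568) (nat_lit 14399) (nat_lit 30362257) (nat_lit 14586) (nat_lit 1480750) (nat_lit 15708) (nat_lit 8),Row.mk (nat_lit 8736) (nat_lit 14399) (nat_lit 30362258) (nat_lit 14586) (nat_lit 1480748) (nat_lit 15708) (nat_lit 10),Row.mk (nat_lit 8904) (nat_lit 14399) (nat_lit 30362259) (nat_lit 14586) (nat_lit 1480744) (nat_lit 15708) (nat_lit 13),Row.mk (nat_lit 9072) (nat_lit 14399) (nat_lit 30362261) (nat_lit 14586) (nat_lit 1480740) (nat_lit 15708) (nat_lit 16),Row.mk (nat_lit 9240) (nat_lit 14399) (nat_lit 30362263) (nat_lit 14586) (nat_lit 1480734) (nat_lit 15708) (nat_lit 20),Row.mk (nat_lit 9408) (nat_lit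 14399) (nat_lit 30362265) (nat_lit 14586) (nat_lit 1480727) (nat_lit 15708) (nat_lit 25),Row.mk (nat_lit 9576) (nat_lit 14399) (nat_lit 30362268) (nat_lit 14586) (nat_lit 1480718) (nat_lit 15708) (nat_lit 31),Row.mk (nat_lit 9744) (nat_lit 14399) (nat_lit 30362271) (nat_lit 14586) (nat_lit 1480708) (nat_lit 15708) (nat_lit 39),Row.mk (nat_lit 9912) (nat_lit 14399) (nat_lit 30362276) (nat_lit 14586) (nat_lit 1480694) (nat_lit 15708) (nat_lit 49),Row.mk (nat_lit 10080) (nat_lit 14399) (nat_lit 30362281) (nat_lit 14586) (nat_lit 1480677) (nat_lit 15708) (nat_lit 62),Row.mk (nat_lit 10248) (nat_lit 14399) (nat_lit 30362288) (nat_lit 14586) (nat_lit 1480656) (nat_lit 15708) (nat_lit 77),Row.mk (nat_lit 10416) (nat_lit 14399) (nat_lit 30362297) (nat_lit 14586) (nat_lit 1480630) (nat_lit 15708) (nat_lit 97),Row.mk (nat_lit 10584) (nat_lit 14399) (nat_lit 30362308) (nat_lit 14586) (nat_lit 1480597) (nat_lit 15708) (nat_lit 121),Row.mk (nat_lit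 10752) (nat_lit 14399) (nat_lit 30362321) (nat_lit 14586) (nat_lit 1480556) (nat_lit 15708) (nat_lit 151),Row.mk (nat_lit 10920) (nat_lit 14399) (nat_lit 30362338) (nat_lit 14586) (nat_lit 1480505) (nat_lit 15708) (nat_lit 189),Row.mk (nat_lit 11088) (nat_lit 14399) (nat_lit 30362359) (nat_lit 14586) (nat_lit 1480441) (nat_lit 15708) (nat_lit 236),Row.mk (nat_lit 11256) (nat_lit 14399) (nat_lit 30362385) (nat_lit 14586) (nat_lit 1480361) (nat_lit 15708) (nat_lit 295),Row.mk (nat_lit 11424) (nat_lit 14399) (nat_lit 30362418) (nat_lit 14586) (nat_lit 1480261) (nat_lit 15708) (nat_lit 369),Row.mk (nat_lit 11592) (nat_lit 14399) (nat_lit 30362459) (nat_lit 14586) (nat_lit 1480136) (nat_lit 15708) (nat_lit 460),Row.mk (nat_lit 11760) (nat_lit 14399) (nat_lit 30362511) (nat_lit 14586) (nat_lit 1479980) (nat_lit 15708) (nat_lit 575),Row.mk (nat_lit 11928) (nat_lit 14399) (nat_lit 30362575) (nat_lit 14586) (nat_lit 1479786) (nat_lit 15708)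 (nat_lit 718),Row.mk (nat_lit 12096) (nat_lit 14399) (nat_lit 30362655) (nat_lit 14586) (nat_lit 1479543) (nat_lit 15708) (nat_lit 897),Row.mk (nat_lit 12264) (nat_lit 14399) (nat_lit 30362755) (nat_lit 14586) (nat_lit 1479239) (nat_lit 15708) (nat_lit 1121),Row.mk (nat_lit 12432) (nat_lit 14399) (nat_lit 30362879) (nat_lit 14586) (nat_lit 1478860) (nat_lit 15708) (nat_lit 1400),Row.mk (nat_lit 12600) (nat_lit 14399) (nat_lit 30363035) (nat_lit 14586) (nat_lit 1478387) (nat_lit 15708) (nat_lit 1749),Row.mk (nat_lit 12768) (nat_lit 14399) (nat_lit 30363230) (nat_lit 14586) (nat_lit 1477795) (nat_lit 15708) (nat_lit 2185),Row.mk (nat_lit 12936) (nat_lit 14399) (nat_lit 30363473) (nat_lit 14586) (nat_lit 1477057) (nat_lit 15708) (nat_lit 2729),Row.mk (nat_lit 13104) (nat_lit 14399) (nat_lit 30363776) (nat_lit 14586) (nat_lit 1476134) (nat_lit 15708) (nat_lit 3408),Row.mk (nat_lit 13272) (nat_lit 14399) (nat_lit 30364155) (nat_lit 14586)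 (nat_lit 1474982) (nat_lit 15708) (nat_lit 4257),Row.mk (nat_lit 13440) (nat_lit 14399) (nat_lit 30364629) (nat_lit 14586) (nat_lit 1473543) (nat_lit 15708) (nat_lit 5317),Row.mk (nat_lit 13608) (nat_lit 14399) (nat_lit 30365220) (nat_lit 14586) (nat_lit 1471746) (nat_lit 15708) (nat_lit 6641),Row.mk (nat_lit 13776) (nat_lit 14399) (nat_lit 30365959) (nat_lit 14586) (nat_lit 1469501) (nat_lit 15708) (nat_lit 8294),Row.mk (nat_lit 13944) (nat_lit 14399) (nat_lit 30366881) (nat_lit 14586) (nat_lit 1466697) (nat_lit 15708) (nat_lit 10359),Row.mk (nat_lit 14112) (nat_lit 14399) (nat_lit 30368033) (nat_lit 14586) (nat_lit 1463195) (nat_lit 15708) (nat_lit 12939),Row.mk (nat_lit 14280) (nat_lit 14399) (nat_lit 30369473) (nat_lit 14586) (nat_lit 1458821) (nat_lit 15708) (nat_lit 16160),Row.mk (nat_lit 14448) (nat_lit 14399) (nat_lit 30371270) (nat_lit 14586) (nat_lit 1453359) (nat_lit 15708) (nat_lit 20184),Row.mk (nat_lit 14616) (nat_lit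 14399) (nat_lit 30373515) (nat_lit 14586) (nat_lit 1446536) (nat_lit 15708) (nat_lit 25209),Row.mk (nat_lit 14784) (nat_lit 14399) (nat_lit 30376319) (nat_lit 14586) (nat_lit 1438014) (nat_lit 15708) (nat_lit 31486),Row.mk (nat_lit 14952) (nat_lit 14399) (nat_lit 30379820) (nat_lit 14586) (nat_lit 1427371) (nat_lit 15708) (nat_lit 39325),Row.mk (nat_lit 15120) (nat_lit 14399) (nat_lit 30384194) (nat_lit 14586) (nat_lit 1414078) (nat_lit 15708) (nat_lit 49116),Row.mk (nat_lit 15288) (nat_lit 14399) (nat_lit 30389657) (nat_lit 14586) (nat_lit 1397476) (nat_lit 15708) (nat_lit 61345),Row.mk (nat_lit 15456) (nat_lit 14399) (nat_lit 30396480) (nat_lit 14586) (nat_lit 1376739) (nat_lit 15708) (nat_lit 76619),Row.mk (nat_lit 15624) (nat_lit 14399) (nat_lit 30405001) (nat_lit 14586) (nat_lit 1350840) (nat_lit 15708) (nat_lit 95695),Row.mk (nat_lit 15792) (nat_lit 14399) (nat_lit 30415644) (nat_lit 14586) (nat_lit 1318493) (nat_lit 15708)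 (nat_lit 119521),Row.mk (nat_lit 15960) (nat_lit 14399) (nat_lit 30428937) (nat_lit 14586) (nat_lit 1278092) (nat_lit 15708) (nat_lit 149279),Row.mk (nat_lit 16128) (nat_lit 14399) (nat_lit 30445540) (nat_lit 14586) (nat_lit 1227632) (nat_lit 15708) (nat_lit 186446),Row.mk (nat_lit 16296) (nat_lit 14399) (nat_lit 30466276) (nat_lit 14586) (nat_lit 1164609) (nat_lit 15708) (nat_lit 232866),Row.mk (nat_lit 16464) (nat_lit 14399) (nat_lit 30492175) (nat_lit 14586) (nat_lit 1085894) (nat_lit 15708) (nat_lit 290845),Row.mk (nat_lit 16632) (nat_lit 14399) (nat_lit 30524522) (nat_lit 14586) (nat_lit 987582) (nat_lit 15708) (nat_lit 363258),Row.mk (nat_lit 16800) (nat_lit 14399) (nat_lit 30564924) (nat_lit 14586) (nat_lit 864792) (nat_lit 15708) (nat_lit 453701),Row.mk (nat_lit 16968) (nat_lit 14399) (nat_lit 30615383) (nat_lit 14586) (nat_lit 711430) (nat_lit 15708) (nat_lit 566661),Row.mk (nat_lit 17136) (nat_lit 14399) (nat_lit 30678407)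 (nat_lit 14586) (nat_lit 519885) (nat_lit 15708) (nat_lit 707747),Row.mk (nat_lit 17304) (nat_lit 14399) (nat_lit 30757121) (nat_lit 14586) (nat_lit 280650) (nat_lit 15708) (nat_lit 883959),Row.mk (nat_lit 17472) (nat_lit 14399) (nat_lit 30837285) (nat_lit 15521) (nat_lit 18148) (nat_lit 15708) (nat_lit 1085894),Row.mk (nat_lit 17640) (nat_lit 14399) (nat_lit 30586882) (nat_lit 15521) (nat_lit 391341) (nat_lit 15708) (nat_lit 987582),Row.mk (nat_lit 17808) (nat_lit 14399) (nat_lit 30274135) (nat_lit 15521) (nat_lit 857450) (nat_lit 15708) (nat_lit 864792),Row.mk (nat_lit 17976) (nat_lit 14399) (nat_lit 29883522) (nat_lit 15521) (nat_lit 1439608) (nat_lit 15708) (nat_lit 711430),Row.mk (nat_lit 18144) (nat_lit 14399) (nat_lit 29395655) (nat_lit 15521) (nat_lit 2166710) (nat_lit 15708) (nat_lit 519885),Row.mk (nat_lit 18312) (nat_lit 14399) (nat_lit 28786321) (nat_lit 15521) (nat_lit 3074843) (nat_lit 15708) (nat_lit 280650),Row.mk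 (nat_lit 18480) (nat_lit 14212) (nat_lit 22667) (nat_lit 14399) (nat_lit 28002610) (nat_lit 15521) (nat_lit 4190931),Row.mk (nat_lit 18648) (nat_lit 14212) (nat_lit 488776) (nat_lit 14399) (nat_lit 26585977) (nat_lit 15521) (nat_lit 5234371),Row.mk (nat_lit 18816) (nat_lit 14212) (nat_lit 1070934) (nat_lit 14399) (nat_lit 24816636) (nat_lit 15521) (nat_lit 6537604),Row.mk (nat_lit 18984) (nat_lit 14212) (nat_lit 1798036) (nat_lit 14399) (nat_lit 22606771) (nat_lit 15521) (nat_lit 8165309),Row.mk (nat_lit 19152) (nat_lit 14212) (nat_lit 2706169) (nat_lit 14399) (nat_lit 19846704) (nat_lit 15521) (nat_lit 10198274),Row.mk (nat_lit 19320) (nat_lit 14212) (nat_lit 3840405) (nat_lit 14399) (nat_lit 16399447) (nat_lit 15521) (nat_lit 12737399),Row.mk (nat_lit 19488) (nat_lit 14212) (nat_lit 5257039) (nat_lit 14399) (nat_lit 12093906) (nat_lit 15521) (nat_lit 15908704),Row.mk (nat_lit 19656) (nat_lit 14212) (nat_lit 7026380) (nat_lit 14399)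 (nat_lit 6716389) (nat_lit 15521) (nat_lit 19869588),Row.mk (nat_lit 19824) (nat_lit 14212) (nat_lit 9236244) (nat_lit 15521) (nat_lit 24816636) (nat_lit 0) (nat_lit 0),Row.mk (nat_lit 19992) (nat_lit 14212) (nat_lit 3607703) (nat_lit 15334) (nat_lit 8388608) (nat_lit 15521) (nat_lit 22606771),Row.mk (nat_lit 20160) (nat_lit 15334) (nat_lit 15443568) (nat_lit 15521) (nat_lit 17106693) (nat_lit 16830) (nat_lit 2740011),Row.mk (nat_lit 20328) (nat_lit 15334) (nat_lit 19749110) (nat_lit 15521) (nat_lit 6629524) (nat_lit 16830) (nat_lit 9769923),Row.mk (nat_lit 20496) (nat_lit 15334) (nat_lit 18670420) (nat_lit 16643) (nat_lit 6456206) (nat_lit 16830) (nat_lit 12093906),Row.mk (nat_lit 20664) (nat_lit 15334) (nat_lit 9043046) (nat_lit 16643) (nat_lit 22799969) (nat_lit 16830) (nat_lit 6716389),Row.mk (nat_lit 20832) (nat_lit 16643) (nat_lit 37844620) (nat_lit 18139) (nat_lit 2387004) (nat_lit 0) (nat_lit 0),Row.mk (nat_lit 21000) (nat_lit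 16456) (nat_lit 10477169) (nat_lit 16643) (nat_lit 17431654) (nat_lit 18139) (nat_lit 14411361),Row.mk (nat_lit 21168) (nat_lit 16456) (nat_lit 15499253) (nat_lit 17952) (nat_lit 8063646) (nat_lit 18139) (nat_lit 21365847),Row.mk (nat_lit 21336) (nat_lit 17952) (nat_lit 39906663) (nat_lit 18139) (nat_lit 8280116) (nat_lit 0) (nat_lit 0),Row.mk (nat_lit 21504) (nat_lit 17765) (nat_lit 10071300) (nat_lit 17952) (nat_lit 26685427) (nat_lit 20009) (nat_lit 15499253),Row.mk (nat_lit 21672) (nat_lit 17765) (nat_lit 22480870) (nat_lit 19822) (nat_lit 13085731) (nat_lit 20009) (nat_lit 21771716),Row.mk (nat_lit 21840) (nat_lit 17578) (nat_lit 4650668) (nat_lit 19822) (nat_lit 59035364) (nat_lit 0) (nat_lit 0),Row.mk (nat_lit 22008) (nat_lit 19635) (nat_lit 44421827) (nat_lit 19822) (nat_lit 13085731) (nat_lit 26180) (nat_lit 14106616),Row.mk (nat_lit 22176) (nat_lit 19448) (nat_lit 15710631) (nat_lit 19635) (nat_lit 29429494) (nat_lit 25993)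 (nat_lit 36376109),Row.mk (nat_lit 22344) (nat_lit 19448) (nat_lit 29693500) (nat_lit 25806) (nat_lit 48057783) (nat_lit 25993) (nat_lit 16132384),Row.mk (nat_lit 22512) (nat_lit 19261) (nat_lit 10401037) (nat_lit 25619) (nat_lit 46937280) (nat_lit 25806) (nat_lit 51991975),Row.mk (nat_lit 22680) (nat_lit 25432) (nat_lit 31843016) (nat_lit 25619) (nat_lit 85814930) (nat_lit 31977) (nat_lit 10964810),Row.mk (nat_lit 22848) (nat_lit 25432) (nat_lit 117657946) (nat_lit 31790) (nat_lit 35060630) (nat_lit 0) (nat_lit 0),Row.mk (nat_lit 23016) (nat_lit 25245) (nat_lit 117657946) (nat_lit 31603) (nat_lit 33312712) (nat_lit 31790) (nat_lit 31843016),Row.mk (nat_lit 23184) (nat_lit 25058) (nat_lit 117657946) (nat_lit 31416) (nat_lit 31129605) (nat_lit 31603) (nat_lit 71614175),Row.mk (nat_lit 23352) (nat_lit 24871) (nat_lit 117657946) (nat_lit 31229) (nat_lit 28402957) (nat_lit 31416) (nat_lit 121287394),Row.mk (nat_lit 23520) (nat_lit 24684)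 (nat_lit 117657946) (nat_lit 31042) (nat_lit 24997439) (nat_lit 31229) (nat_lit 183328046),Row.mk (nat_lit 23688) (nat_lit 24497) (nat_lit 117657946) (nat_lit 30855) (nat_lit 20744030) (nat_lit 31042) (nat_lit 260815323),Row.mk (nat_lit 23856) (nat_lit 24310) (nat_lit 117657946) (nat_lit 30668) (nat_lit 15431624) (nat_lit 30855) (nat_lit 357595063),Row.mk (nat_lit 24024) (nat_lit 24123) (nat_lit 117657946) (nat_lit 30481) (nat_lit 8796557) (nat_lit 30668) (nat_lit 478470624),Row.mk (nat_lit 24192) (nat_lit 23936) (nat_lit 117657946) (nat_lit 30294) (nat_lit 509518) (nat_lit 30481) (nat_lit 629441283),Row.mk (nat_lit 24360) (nat_lit 23749) (nat_lit 107817154) (nat_lit 23936) (nat_lit 9840792) (nat_lit 30294) (nat_lit 808159202),Row.mk (nat_lit 24528) (nat_lit 23562) (nat_lit 94889865) (nat_lit 23749) (nat_lit 22768081) (nat_lit 30107) (nat_lit 1030737195),Row.mk (nat_lit 24696) (nat_lit 23375) (nat_lit 78743993) (nat_lit 23562) (nat_lit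 38913953) (nat_lit 29920) (nat_lit 1308731739),Row.mk (nat_lit 24864) (nat_lit 23188) (nat_lit 58578188) (nat_lit 23375) (nat_lit 59079757) (nat_lit 29733) (nat_lit 1655940218),Row.mk (nat_lit 25032) (nat_lit 23001) (nat_lit 33391585) (nat_lit 23188) (nat_lit 84266361) (nat_lit 29546) (nat_lit 2089595232),Row.mk (nat_lit 25200) (nat_lit 22814) (nat_lit 1934124) (nat_lit 23001) (nat_lit 115723821) (nat_lit 29359) (nat_lit 2631219884),Row.mk (nat_lit 25368) (nat_lit 22814) (nat_lit 117657946) (nat_lit 29172) (nat_lit 3277787116) (nat_lit 29359) (nat_lit 29908891),Row.mk (nat_lit 25536) (nat_lit 22627) (nat_lit 117657946) (nat_lit 28985) (nat_lit 4083399866) (nat_lit 29172) (nat_lit 69198500),Row.mk (nat_lit 25704) (nat_lit 22440) (nat_lit 117657946) (nat_lit 28798) (nat_lit 5089590757) (nat_lit 28985) (nat_lit 118270274),Row.mk (nat_lit 25872) (nat_lit 22253) (nat_lit 117657946) (nat_lit 28611) (nat_lit 6346298906) (nat_lit 28798) (nat_lit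 179559735),Row.mk (nat_lit 26040) (nat_lit 22066) (nat_lit 117657946) (nat_lit 28424) (nat_lit 7915897068) (nat_lit 28611) (nat_lit 256108794),Row.mk (nat_lit 26208) (nat_lit 21879) (nat_lit 117657946) (nat_lit 28237) (nat_lit 9876287307) (nat_lit 28424) (nat_lit 351716722),Row.mk (nat_lit 26376) (nat_lit 21692) (nat_lit 117657946) (nat_lit 28050) (nat_lit 12324767425) (nat_lit 28237) (nat_lit 471128718),Row.mk (nat_lit 26544) (nat_lit 21505) (nat_lit 117657946) (nat_lit 27863) (nat_lit 15382860024) (nat_lit 28050) (nat_lit 620271419),Row.mk (nat_lit 26712) (nat_lit 21318) (nat_lit 117657946) (nat_lit 27676) (nat_lit 19202343908) (nat_lit 27863) (nat_lit 806547056),Row.mk (nat_lit 26880) (nat_lit 21131) (nat_lit 117657946) (nat_lit 27489) (nat_lit 23972787139) (nat_lit 27676) (nat_lit 1039200833),Row.mk (nat_lit 27048) (nat_lit 20944) (nat_lit 117657946) (nat_lit 27302) (nat_lit 29930955652) (nat_lit 27489) (nat_lit 1329779787),Row.mk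 (nat_lit 27216) (nat_lit 32912) (nat_lit 40231624) (nat_lit 62084) (nat_lit 39119242198) (nat_lit 0) (nat_lit 0),Row.mk (nat_lit 27384) (nat_lit 32912) (nat_lit 40231624) (nat_lit 62084) (nat_lit 48866917943) (nat_lit 0) (nat_lit 0),Row.mk (nat_lit 27552) (nat_lit 32912) (nat_lit 40231624) (nat_lit 62084) (nat_lit 61041529798) (nat_lit 0) (nat_lit 0),Row.mk (nat_lit 27720) (nat_lit 32912) (nat_lit 40231624) (nat_lit 62084) (nat_lit 76247326307) (nat_lit 0) (nat_lit 0),Row.mk (nat_lit 27888) (nat_lit 32912) (nat_lit 40231624) (nat_lit 62084) (nat_lit 95238999324) (nat_lit 0) (nat_lit 0),Row.mk (nat_lit 28056) (nat_lit 32912) (nat_lit 40231624) (nat_lit 62084) (nat_lit 118959140772) (nat_lit 0) (nat_lit 0),Row.mk (nat_lit 28224) (nat_lit 32912) (nat_lit 40231624) (nat_lit 62084) (nat_lit 148585025220) (nat_lit 0) (nat_lit 0),Row.mk (nat_lit 28392) (nat_lit 32912) (nat_lit 40231624) (nat_lit 62084) (nat_lit 185587040207) (nat_lit 0)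 (nat_lit 0),Row.mk (nat_lit 28560) (nat_lit 32912) (nat_lit 40231624) (nat_lit 62084) (nat_lit 231801664296) (nat_lit 0) (nat_lit 0),Row.mk (nat_lit 28728) (nat_lit 32912) (nat_lit 40231624) (nat_lit 62084) (nat_lit 289522614910) (nat_lit 0) (nat_lit 0),Row.mk (nat_lit 28896) (nat_lit 32912) (nat_lit 40231624) (nat_lit 62084) (nat_lit 361614689779) (nat_lit 0) (nat_lit 0),Row.mk (nat_lit 29064) (nat_lit 32912) (nat_lit 40231624) (nat_lit 62084) (nat_lit 451655952155) (nat_lit 0) (nat_lit 0),Row.mk (nat_lit 29232) (nat_lit 32912) (nat_lit 40231624) (nat_lit 62084) (nat_lit 564115316724) (nat_lit 0) (nat_lit 0),Row.mk (nat_lit 29400) (nat_lit 32912) (nat_lit 40231624) (nat_lit 62084) (nat_lit 704574350123) (nat_lit 0) (nat_lit 0),Row.mk (nat_lit 29568) (nat_lit 32912) (nat_lit 40231624) (nat_lit 62084) (nat_lit 880004294433) (nat_lit 0) (nat_lit 0),Row.mk (nat_lit 29736) (nat_lit 32912) (nat_lit 40231624) (nat_lit 62084) (nat_lit 1099112062838)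 (nat_lit 0) (nat_lit 0),Row.mk (nat_lit 29904) (nat_lit 32912) (nat_lit 40231624) (nat_lit 62084) (nat_lit 1372772379862) (nat_lit 0) (nat_lit 0),Row.mk (nat_lit 30072) (nat_lit 32912) (nat_lit 40231624) (nat_lit 62084) (nat_lit 1714567514097) (nat_lit 0) (nat_lit 0),Row.mk (nat_lit 30240) (nat_lit 32912) (nat_lit 40231624) (nat_lit 62084) (nat_lit 2141461391357) (nat_lit 0) (nat_lit 0),Row.mk (nat_lit 30408) (nat_lit 32912) (nat_lit 40231624) (nat_lit 62084) (nat_lit 2674641545751) (nat_lit 0) (nat_lit 0),Row.mk (nat_lit 30576) (nat_lit 32912) (nat_lit 40231624) (nat_lit 62084) (nat_lit 3340570696255) (nat_lit 0) (nat_lit 0),Row.mk (nat_lit 30744) (nat_lit 32912) (nat_lit 40231624) (nat_lit 62084) (nat_lit 4172300140488) (nat_lit 0) (nat_lit 0),Row.mk (nat_lit 30912) (nat_lit 32912) (nat_lit 40231624) (nat_lit 62084) (nat_lit 5211110151857) (nat_lit 0) (nat_lit 0)],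
[Row.mk (nat_lit 7056) (nat_lit 13464) (nat_lit 6078706) (nat_lit 13651) (nat_lit 33692451) (nat_lit 14399) (nat_lit 1),Row.mk (nat_lit 7224) (nat_lit 13464) (nat_lit 6078707) (nat_lit 13651) (nat_lit 33692450) (nat_lit 14399) (nat_lit 1),Row.mk (nat_lit 7392) (nat_lit 13464) (nat_lit 6078707) (nat_lit 13651) (nat_lit 33692449) (nat_lit 14399) (nat_lit 2),Row.mk (nat_lit 7560) (nat_lit 13464) (nat_lit 6078707) (nat_lit 13651) (nat_lit 33692449) (nat_lit 14399) (nat_lit 2),Row.mk (nat_lit 7728) (nat_lit 13464) (nat_lit 6078707) (nat_lit 13651) (nat_lit 33692448) (nat_lit 14399) (nat_lit 3),Row.mk (nat_lit 7896) (nat_lit 13464) (nat_lit 6078707) (nat_lit 13651) (nat_lit 33692447) (nat_lit 14399) (nat_lit 4),Row.mk (nat_lit 8064) (nat_lit 13464) (nat_lit 6078708) (nat_lit 13651) (nat_lit 33692445) (nat_lit 14399) (nat_lit 5),Row.mk (nat_lit 8232) (nat_lit 13464) (nat_lit 6078708) (nat_lit 13651) (nat_lit 33692443) (nat_lit 14399) (nat_lit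 7),Row.mk (nat_lit 8400) (nat_lit 13464) (nat_lit 6078709) (nat_lit 13651) (nat_lit 33692441) (nat_lit 14399) (nat_lit 9),Row.mk (nat_lit 8568) (nat_lit 13464) (nat_lit 6078710) (nat_lit 13651) (nat_lit 33692438) (nat_lit 14399) (nat_lit 11),Row.mk (nat_lit 8736) (nat_lit 13464) (nat_lit 6078711) (nat_lit 13651) (nat_lit 33692435) (nat_lit 14399) (nat_lit 14),Row.mk (nat_lit 8904) (nat_lit 13464) (nat_lit 6078712) (nat_lit 13651) (nat_lit 33692430) (nat_lit 14399) (nat_lit 17),Row.mk (nat_lit 9072) (nat_lit 13464) (nat_lit 6078713) (nat_lit 13651) (nat_lit 33692425) (nat_lit 14399) (nat_lit 21),Row.mk (nat_lit 9240) (nat_lit 13464) (nat_lit 6078715) (nat_lit 13651) (nat_lit 33692418) (nat_lit 14399) (nat_lit 27),Row.mk (nat_lit 9408) (nat_lit 13464) (nat_lit 6078717) (nat_lit 13651) (nat_lit 33692409) (nat_lit 14399) (nat_lit 34),Row.mk (nat_lit 9576) (nat_lit 13464) (nat_lit 6078720) (nat_lit 13651) (nat_lit 33692398) (nat_lit 14399)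 (nat_lit 42),Row.mk (nat_lit 9744) (nat_lit 13464) (nat_lit 6078724) (nat_lit 13651) (nat_lit 33692385) (nat_lit 14399) (nat_lit 53),Row.mk (nat_lit 9912) (nat_lit 13464) (nat_lit 6078728) (nat_lit 13651) (nat_lit 33692368) (nat_lit 14399) (nat_lit 66),Row.mk (nat_lit 10080) (nat_lit 13464) (nat_lit 6078734) (nat_lit 13651) (nat_lit 33692347) (nat_lit 14399) (nat_lit 83),Row.mk (nat_lit 10248) (nat_lit 13464) (nat_lit 6078741) (nat_lit 13651) (nat_lit 33692320) (nat_lit 14399) (nat_lit 104),Row.mk (nat_lit 10416) (nat_lit 13464) (nat_lit 6078749) (nat_lit 13651) (nat_lit 33692288) (nat_lit 14399) (nat_lit 130),Row.mk (nat_lit 10584) (nat_lit 13464) (nat_lit 6078760) (nat_lit 13651) (nat_lit 33692247) (nat_lit 14399) (nat_lit 162),Row.mk (nat_lit 10752) (nat_lit 13464) (nat_lit 6078774) (nat_lit 13651) (nat_lit 33692195) (nat_lit 14399) (nat_lit 202),Row.mk (nat_lit 10920) (nat_lit 13464) (nat_lit 6078790) (nat_lit 13651) (nat_lit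 33692131) (nat_lit 14399) (nat_lit 253),Row.mk (nat_lit 11088) (nat_lit 13464) (nat_lit 6078812) (nat_lit 13651) (nat_lit 33692051) (nat_lit 14399) (nat_lit 316),Row.mk (nat_lit 11256) (nat_lit 13464) (nat_lit 6078838) (nat_lit 13651) (nat_lit 33691951) (nat_lit 14399) (nat_lit 395),Row.mk (nat_lit 11424) (nat_lit 13464) (nat_lit 6078871) (nat_lit 13651) (nat_lit 33691827) (nat_lit 14399) (nat_lit 493),Row.mk (nat_lit 11592) (nat_lit 13464) (nat_lit 6078912) (nat_lit 13651) (nat_lit 33691671) (nat_lit 14399) (nat_lit 616),Row.mk (nat_lit 11760) (nat_lit 13464) (nat_lit 6078963) (nat_lit 13651) (nat_lit 33691476) (nat_lit 14399) (nat_lit 770),Row.mk (nat_lit 11928) (nat_lit 13464) (nat_lit 6079027) (nat_lit 13651) (nat_lit 33691233) (nat_lit 14399) (nat_lit 961),Row.mk (nat_lit 12096) (nat_lit 13464) (nat_lit 6079107) (nat_lit 13651) (nat_lit 33690930) (nat_lit 14399) (nat_lit 1201),Row.mk (nat_lit 12264) (nat_lit 13464) (nat_lit 6079207)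 (nat_lit 13651) (nat_lit 33690551) (nat_lit 14399) (nat_lit 1500),Row.mk (nat_lit 12432) (nat_lit 13464) (nat_lit 6079332) (nat_lit 13651) (nat_lit 33690077) (nat_lit 14399) (nat_lit 1874),Row.mk (nat_lit 12600) (nat_lit 13464) (nat_lit 6079487) (nat_lit 13651) (nat_lit 33689486) (nat_lit 14399) (nat_lit 2340),Row.mk (nat_lit 12768) (nat_lit 13464) (nat_lit 6079682) (nat_lit 13651) (nat_lit 33688747) (nat_lit 14399) (nat_lit 2923),Row.mk (nat_lit 12936) (nat_lit 13464) (nat_lit 6079925) (nat_lit 13651) (nat_lit 33687825) (nat_lit 14399) (nat_lit 3651),Row.mk (nat_lit 13104) (nat_lit 13464) (nat_lit 6080229) (nat_lit 13651) (nat_lit 33686673) (nat_lit 14399) (nat_lit 4560),Row.mk (nat_lit 13272) (nat_lit 13464) (nat_lit 6080608) (nat_lit 13651) (nat_lit 33685233) (nat_lit 14399) (nat_lit 5696),Row.mk (nat_lit 13440) (nat_lit 13464) (nat_lit 6081081) (nat_lit 13651) (nat_lit 33683436) (nat_lit 14399) (nat_lit 7114),Row.mk (nat_lit 13608)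 (nat_lit 13464) (nat_lit 6081673) (nat_lit 13651) (nat_lit 33681191) (nat_lit 14399) (nat_lit 8886),Row.mk (nat_lit 13776) (nat_lit 13464) (nat_lit 6082411) (nat_lit 13651) (nat_lit 33678387) (nat_lit 14399) (nat_lit 11098),Row.mk (nat_lit 13944) (nat_lit 13464) (nat_lit 6083334) (nat_lit 13651) (nat_lit 33674886) (nat_lit 14399) (nat_lit 13861),Row.mk (nat_lit 14112) (nat_lit 13464) (nat_lit 6084486) (nat_lit 13651) (nat_lit 33670512) (nat_lit 14399) (nat_lit 17312),Row.mk (nat_lit 14280) (nat_lit 13464) (nat_lit 6085925) (nat_lit 13651) (nat_lit 33665049) (nat_lit 14399) (nat_lit 21623),Row.mk (nat_lit 14448) (nat_lit 13464) (nat_lit 6087722) (nat_lit 13651) (nat_lit 33658226) (nat_lit 14399) (nat_lit 27007),Row.mk (nat_lit 14616) (nat_lit 13464) (nat_lit 6089967) (nat_lit 13651) (nat_lit 33649705) (nat_lit 14399) (nat_lit 33731),Row.mk (nat_lit 14784) (nat_lit 13464) (nat_lit 6092771) (nat_lit 13651) (nat_lit 33639062) (nat_lit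 14399) (nat_lit 42129),Row.mk (nat_lit 14952) (nat_lit 13464) (nat_lit 6096273) (nat_lit 13651) (nat_lit 33625769) (nat_lit 14399) (nat_lit 52618),Row.mk (nat_lit 15120) (nat_lit 13464) (nat_lit 6100647) (nat_lit 13651) (nat_lit 33609166) (nat_lit 14399) (nat_lit 65719),Row.mk (nat_lit 15288) (nat_lit 13464) (nat_lit 6106109) (nat_lit 13651) (nat_lit 33588430) (nat_lit 14399) (nat_lit 82081),Row.mk (nat_lit 15456) (nat_lit 13464) (nat_lit 6112932) (nat_lit 13651) (nat_lit 33562531) (nat_lit 14399) (nat_lit 102518),Row.mk (nat_lit 15624) (nat_lit 13464) (nat_lit 6121453) (nat_lit 13651) (nat_lit 33530184) (nat_lit 14399) (nat_lit 128042),Row.mk (nat_lit 15792) (nat_lit 13464) (nat_lit 6132097) (nat_lit 13651) (nat_lit 33489782) (nat_lit 14399) (nat_lit 159922),Row.mk (nat_lit 15960) (nat_lit 13464) (nat_lit 6145390) (nat_lit 13651) (nat_lit 33439323) (nat_lit 14399) (nat_lit 199739),Row.mk (nat_lit 16128) (nat_lit 13464) (nat_lit 6161992)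 (nat_lit 13651) (nat_lit 33376299) (nat_lit 14399) (nat_lit 249469),Row.mk (nat_lit 16296) (nat_lit 13464) (nat_lit 6182728) (nat_lit 13651) (nat_lit 33297585) (nat_lit 14399) (nat_lit 311581),Row.mk (nat_lit 16464) (nat_lit 13464) (nat_lit 6208627) (nat_lit 13651) (nat_lit 33199272) (nat_lit 14399) (nat_lit 389157),Row.mk (nat_lit 16632) (nat_lit 13464) (nat_lit 6240975) (nat_lit 13651) (nat_lit 33076482) (nat_lit 14399) (nat_lit 486048),Row.mk (nat_lit 16800) (nat_lit 13464) (nat_lit 6281376) (nat_lit 13651) (nat_lit 32923121) (nat_lit 14399) (nat_lit 607063),Row.mk (nat_lit 16968) (nat_lit 13464) (nat_lit 6331836) (nat_lit 13651) (nat_lit 32731575) (nat_lit 14399) (nat_lit 758207),Row.mk (nat_lit 17136) (nat_lit 13464) (nat_lit 6394859) (nat_lit 13651) (nat_lit 32492340) (nat_lit 14399) (nat_lit 946982),Row.mk (nat_lit 17304) (nat_lit 13464) (nat_lit 6473574) (nat_lit 13651) (nat_lit 32193541) (nat_lit 14399) (nat_lit 1182758),Row.mk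 (nat_lit 17472) (nat_lit 13464) (nat_lit 6571886) (nat_lit 13651) (nat_lit 31820348) (nat_lit 14399) (nat_lit 1477236),Row.mk (nat_lit 17640) (nat_lit 13464) (nat_lit 6694676) (nat_lit 13651) (nat_lit 31354240) (nat_lit 14399) (nat_lit 1845032),Row.mk (nat_lit 17808) (nat_lit 13464) (nat_lit 6848038) (nat_lit 13651) (nat_lit 30772081) (nat_lit 14399) (nat_lit 2304401),Row.mk (nat_lit 17976) (nat_lit 13464) (nat_lit 7039583) (nat_lit 13651) (nat_lit 30044979) (nat_lit 14399) (nat_lit 2878141),Row.mk (nat_lit 18144) (nat_lit 13464) (nat_lit 7278818) (nat_lit 13651) (nat_lit 29136846) (nat_lit 14399) (nat_lit 3594729),Row.mk (nat_lit 18312) (nat_lit 13464) (nat_lit 7577617) (nat_lit 13651) (nat_lit 28002610) (nat_lit 14399) (nat_lit 4489730),Row.mk (nat_lit 18480) (nat_lit 13464) (nat_lit 7950810) (nat_lit 13651) (nat_lit 26585977) (nat_lit 14399) (nat_lit 5607564),Row.mk (nat_lit 18648) (nat_lit 13464) (nat_lit 8416919) (nat_lit 13651)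 (nat_lit 24816636) (nat_lit 14399) (nat_lit 7003712),Row.mk (nat_lit 18816) (nat_lit 13464) (nat_lit 8999077) (nat_lit 13651) (nat_lit 22606771) (nat_lit 14399) (nat_lit 8747468),Row.mk (nat_lit 18984) (nat_lit 13464) (nat_lit 9726179) (nat_lit 13651) (nat_lit 19846704) (nat_lit 14399) (nat_lit 10925376),Row.mk (nat_lit 19152) (nat_lit 13464) (nat_lit 10634312) (nat_lit 13651) (nat_lit 16399447) (nat_lit 14399) (nat_lit 13645532),Row.mk (nat_lit 19320) (nat_lit 13464) (nat_lit 11768548) (nat_lit 13651) (nat_lit 12093906) (nat_lit 14399) (nat_lit 17042940),Row.mk (nat_lit 19488) (nat_lit 13464) (nat_lit 13185182) (nat_lit 13651) (nat_lit 6716389) (nat_lit 14399) (nat_lit 21286221),Row.mk (nat_lit 19656) (nat_lit 13464) (nat_lit 14954523) (nat_lit 14399) (nat_lit 26585977) (nat_lit 0) (nat_lit 0),Row.mk (nat_lit 19824) (nat_lit 13464) (nat_lit 8775779) (nat_lit 14212) (nat_lit 8388608) (nat_lit 14399) (nat_lit 24816636),Row.mk (nat_lit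 19992) (nat_lit 13464) (nat_lit 1058677) (nat_lit 14212) (nat_lit 18865777) (nat_lit 14399) (nat_lit 22606771),Row.mk (nat_lit 20160) (nat_lit 14212) (nat_lit 23371711) (nat_lit 14399) (nat_lit 12977239) (nat_lit 15521) (nat_lit 6869465),Row.mk (nat_lit 20328) (nat_lit 14212) (nat_lit 27568761) (nat_lit 15334) (nat_lit 108491) (nat_lit 15521) (nat_lit 16399447),Row.mk (nat_lit 20496) (nat_lit 14212) (nat_lit 16602515) (nat_lit 15334) (nat_lit 16452254) (nat_lit 15521) (nat_lit 12093906),Row.mk (nat_lit 20664) (nat_lit 14212) (nat_lit 2905939) (nat_lit 15334) (nat_lit 36865220) (nat_lit 15521) (nat_lit 6716389),Row.mk (nat_lit 20832) (nat_lit 15334) (nat_lit 36789848) (nat_lit 16643) (nat_lit 11369918) (nat_lit 0) (nat_lit 0),Row.mk (nat_lit 21000) (nat_lit 15147) (nat_lit 10477169) (nat_lit 15334) (nat_lit 11294547) (nat_lit 16643) (nat_lit 28476612),Row.mk (nat_lit 21168) (nat_lit 15147) (nat_lit 3014431) (nat_lit 16456) (nat_lit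 20548469) (nat_lit 16643) (nat_lit 29293990),Row.mk (nat_lit 21336) (nat_lit 16456) (nat_lit 39771159) (nat_lit 17952) (nat_lit 135503) (nat_lit 18139) (nat_lit 16208258),Row.mk (nat_lit 21504) (nat_lit 16269) (nat_lit 169241) (nat_lit 16456) (nat_lit 20243724) (nat_lit 17952) (nat_lit 39771159),Row.mk (nat_lit 21672) (nat_lit 17765) (nat_lit 25664542) (nat_lit 17952) (nat_lit 36587487) (nat_lit 20009) (nat_lit 3014431),Row.mk (nat_lit 21840) (nat_lit 17765) (nat_lit 44421827) (nat_lit 19822) (nat_lit 13085731) (nat_lit 20009) (nat_lit 14106616),Row.mk (nat_lit 22008) (nat_lit 17578) (nat_lit 22152335) (nat_lit 19822) (nat_lit 57389983) (nat_lit 0) (nat_lit 0),Row.mk (nat_lit 22176) (nat_lit 19635) (nat_lit 71825553) (nat_lit 19822) (nat_lit 13085731) (nat_lit 26180) (nat_lit 4533092),Row.mk (nat_lit 22344) (nat_lit 19448) (nat_lit 40035165) (nat_lit 19635) (nat_lit 29429494) (nat_lit 25993) (nat_lit 32347151),Row.mk (nat_lit 22512)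 (nat_lit 19261) (nat_lit 329737) (nat_lit 19448) (nat_lit 49842459) (nat_lit 25806) (nat_lit 67086239),Row.mk (nat_lit 22680) (nat_lit 19261) (nat_lit 26076376) (nat_lit 25619) (nat_lit 71033101) (nat_lit 25806) (nat_lit 39441422),Row.mk (nat_lit 22848) (nat_lit 25432) (nat_lit 71614175) (nat_lit 25619) (nat_lit 85814930) (nat_lit 31977) (nat_lit 3217614),Row.mk (nat_lit 23016) (nat_lit 25245) (nat_lit 39771159) (nat_lit 25432) (nat_lit 117657946) (nat_lit 31790) (nat_lit 33312712),Row.mk (nat_lit 23184) (nat_lit 25245) (nat_lit 157429105) (nat_lit 31603) (nat_lit 70900765) (nat_lit 0) (nat_lit 0),Row.mk (nat_lit 23352) (nat_lit 25058) (nat_lit 157429105) (nat_lit 31416) (nat_lit 78076176) (nat_lit 31603) (nat_lit 39771159),Row.mk (nat_lit 23520) (nat_lit 24871) (nat_lit 157429105) (nat_lit 31229) (nat_lit 87038091) (nat_lit 31416) (nat_lit 89444377),Row.mk (nat_lit 23688) (nat_lit 24684) (nat_lit 157429105) (nat_lit 31042) (nat_lit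 98231307) (nat_lit 31229) (nat_lit 151485029),Row.mk (nat_lit 23856) (nat_lit 24497) (nat_lit 157429105) (nat_lit 30855) (nat_lit 112211364) (nat_lit 31042) (nat_lit 228972307),Row.mk (nat_lit 24024) (nat_lit 24310) (nat_lit 157429105) (nat_lit 30668) (nat_lit 129672117) (nat_lit 30855) (nat_lit 325752047),Row.mk (nat_lit 24192) (nat_lit 24123) (nat_lit 157429105) (nat_lit 30481) (nat_lit 151480178) (nat_lit 30668) (nat_lit 446627607),Row.mk (nat_lit 24360) (nat_lit 23936) (nat_lit 157429105) (nat_lit 30294) (nat_lit 178717919) (nat_lit 30481) (nat_lit 597598267),Row.mk (nat_lit 24528) (nat_lit 23749) (nat_lit 157429105) (nat_lit 30107) (nat_lit 212737200) (nat_lit 30294) (nat_lit 786156978),Row.mk (nat_lit 24696) (nat_lit 23562) (nat_lit 157429105) (nat_lit 29920) (nat_lit 255226462) (nat_lit 30107) (nat_lit 1021662260),Row.mk (nat_lit 24864) (nat_lit 23375) (nat_lit 157429105) (nat_lit 29733) (nat_lit 308294525) (nat_lit 29920)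 (nat_lit 1315802676),Row.mk (nat_lit 25032) (nat_lit 23188) (nat_lit 157429105) (nat_lit 29546) (nat_lit 374575256) (nat_lit 29733) (nat_lit 1683176960),Row.mk (nat_lit 25200) (nat_lit 23001) (nat_lit 157429105) (nat_lit 29359) (nat_lit 457358290) (nat_lit 29546) (nat_lit 2142018577),Row.mk (nat_lit 25368) (nat_lit 22814) (nat_lit 157429105) (nat_lit 29172) (nat_lit 560752302) (nat_lit 29359) (nat_lit 2715100689),Row.mk (nat_lit 25536) (nat_lit 22627) (nat_lit 157429105) (nat_lit 28985) (nat_lit 689888928) (nat_lit 29172) (nat_lit 3430866421),Row.mk (nat_lit 25704) (nat_lit 22440) (nat_lit 157429105) (nat_lit 28798) (nat_lit 851177460) (nat_lit 28985) (nat_lit 4324840554),Row.mk (nat_lit 25872) (nat_lit 22253) (nat_lit 157429105) (nat_lit 28611) (nat_lit 1052622945) (nat_lit 28798) (nat_lit 5441392680),Row.mk (nat_lit 26040) (nat_lit 22066) (nat_lit 157429105) (nat_lit 28424) (nat_lit 1304223496) (nat_lit 28611) (nat_lit 6835939350),Row.mk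 (nat_lit 26208) (nat_lit 21879) (nat_lit 157429105) (nat_lit 28237) (nat_lit 1618466514) (nat_lit 28424) (nat_lit 8577694499),Row.mk (nat_lit 26376) (nat_lit 21692) (nat_lit 157429105) (nat_lit 28050) (nat_lit 2010948464) (nat_lit 28237) (nat_lit 10753104662),Row.mk (nat_lit 26544) (nat_lit 21505) (nat_lit 157429105) (nat_lit 27863) (nat_lit 2501148951) (nat_lit 28050) (nat_lit 13470139476),Row.mk (nat_lit 26712) (nat_lit 21318) (nat_lit 157429105) (nat_lit 27676) (nat_lit 3113397533) (nat_lit 27863) (nat_lit 16863650414),Row.mk (nat_lit 26880) (nat_lit 21131) (nat_lit 157429105) (nat_lit 27489) (nat_lit 3878081243) (nat_lit 27676) (nat_lit 21102063711),Row.mk (nat_lit 27048) (nat_lit 20944) (nat_lit 157429105) (nat_lit 27302) (nat_lit 4833152750) (nat_lit 27489) (nat_lit 26395739673),Row.mk (nat_lit 27216) (nat_lit 32912) (nat_lit 48159767) (nat_lit 62084) (nat_lit 39111314055) (nat_lit 0) (nat_lit 0),Row.mk (nat_lit 27384) (nat_lit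 32912) (nat_lit 48159767) (nat_lit 62084) (nat_lit 48858989800) (nat_lit 0) (nat_lit 0),Row.mk (nat_lit 27552) (nat_lit 32912) (nat_lit 48159767) (nat_lit 62084) (nat_lit 61033601655) (nat_lit 0) (nat_lit 0),Row.mk (nat_lit 27720) (nat_lit 32912) (nat_lit 48159767) (nat_lit 62084) (nat_lit 76239398164) (nat_lit 0) (nat_lit 0),Row.mk (nat_lit 27888) (nat_lit 32912) (nat_lit 48159767) (nat_lit 62084) (nat_lit 95231071181) (nat_lit 0) (nat_lit 0),Row.mk (nat_lit 28056) (nat_lit 32912) (nat_lit 48159767) (nat_lit 62084) (nat_lit 118951212629) (nat_lit 0) (nat_lit 0),Row.mk (nat_lit 28224) (nat_lit 32912) (nat_lit 48159767) (nat_lit 62084) (nat_lit 148577097077) (nat_lit 0) (nat_lit 0),Row.mk (nat_lit 28392) (nat_lit 32912) (nat_lit 48159767) (nat_lit 62084) (nat_lit 185579112064) (nat_lit 0) (nat_lit 0),Row.mk (nat_lit 28560) (nat_lit 32912) (nat_lit 48159767) (nat_lit 62084) (nat_lit 231793736153) (nat_lit 0) (nat_lit 0),Row.mk (nat_lit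 28728) (nat_lit 32912) (nat_lit 48159767) (nat_lit 62084) (nat_lit 289514686768) (nat_lit 0) (nat_lit 0),Row.mk (nat_lit 28896) (nat_lit 32912) (nat_lit 48159767) (nat_lit 62084) (nat_lit 361606761636) (nat_lit 0) (nat_lit 0),Row.mk (nat_lit 29064) (nat_lit 32912) (nat_lit 48159767) (nat_lit 62084) (nat_lit 451648024012) (nat_lit 0) (nat_lit 0),Row.mk (nat_lit 29232) (nat_lit 32912) (nat_lit 48159767) (nat_lit 62084) (nat_lit 564107388581) (nat_lit 0) (nat_lit 0),Row.mk (nat_lit 29400) (nat_lit 32912) (nat_lit 48159767) (nat_lit 62084) (nat_lit 704566421981) (nat_lit 0) (nat_lit 0),Row.mk (nat_lit 29568) (nat_lit 32912) (nat_lit 48159767) (nat_lit 62084) (nat_lit 879996366290) (nat_lit 0) (nat_lit 0),Row.mk (nat_lit 29736) (nat_lit 32912) (nat_lit 48159767) (nat_lit 62084) (nat_lit 1099104134695) (nat_lit 0) (nat_lit 0),Row.mk (nat_lit 29904) (nat_lit 32912) (nat_lit 48159767) (nat_lit 62084) (nat_lit 1372764451719) (nat_lit 0) (nat_lit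 0),Row.mk (nat_lit 30072) (nat_lit 32912) (nat_lit 48159767) (nat_lit 62084) (nat_lit 1714559585954) (nat_lit 0) (nat_lit 0),Row.mk (nat_lit 30240) (nat_lit 32912) (nat_lit 48159767) (nat_lit 62084) (nat_lit 2141453463215) (nat_lit 0) (nat_lit 0),Row.mk (nat_lit 30408) (nat_lit 32912) (nat_lit 48159767) (nat_lit 62084) (nat_lit 2674633617608) (nat_lit 0) (nat_lit 0),Row.mk (nat_lit 30576) (nat_lit 32912) (nat_lit 48159767) (nat_lit 62084) (nat_lit 3340562768112) (nat_lit 0) (nat_lit 0),Row.mk (nat_lit 30744) (nat_lit 32912) (nat_lit 48159767) (nat_lit 62084) (nat_lit 4172292212345) (nat_lit 0) (nat_lit 0),Row.mk (nat_lit 30912) (nat_lit 32912) (nat_lit 48159767) (nat_lit 62084) (nat_lit 5211102223714) (nat_lit 0) (nat_lit 0)],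
[Row.mk (nat_lit 7392) (nat_lit 12716) (nat_lit 15980766) (nat_lit 12903) (nat_lit 33692449) (nat_lit 13651) (nat_lit 3),Row.mk (nat_lit 7560) (nat_lit 12716) (nat_lit 15980766) (nat_lit 12903) (nat_lit 33692448) (nat_lit 13651) (nat_lit 3),Row.mk (nat_lit 7728) (nat_lit 12716) (nat_lit 15980766) (nat_lit 12903) (nat_lit 33692447) (nat_lit 13651) (nat_lit 4),Row.mk (nat_lit 7896) (nat_lit 12716) (nat_lit 15980767) (nat_lit 12903) (nat_lit 33692445) (nat_lit 13651) (nat_lit 6),Row.mk (nat_lit 8064) (nat_lit 12716) (nat_lit 15980767) (nat_lit 12903) (nat_lit 33692443) (nat_lit 13651) (nat_lit 7),Row.mk (nat_lit 8232) (nat_lit 12716) (nat_lit 15980768) (nat_lit 12903) (nat_lit 33692441) (nat_lit 13651) (nat_lit 9),Row.mk (nat_lit 8400) (nat_lit 12716) (nat_lit 15980768) (nat_lit 12903) (nat_lit 33692438) (nat_lit 13651) (nat_lit 11),Row.mk (nat_lit 8568) (nat_lit 12716) (nat_lit 15980769) (nat_lit 12903) (nat_lit 33692435) (nat_lit 13651)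 (nat_lit 14),Row.mk (nat_lit 8736) (nat_lit 12716) (nat_lit 15980770) (nat_lit 12903) (nat_lit 33692430) (nat_lit 13651) (nat_lit 18),Row.mk (nat_lit 8904) (nat_lit 12716) (nat_lit 15980771) (nat_lit 12903) (nat_lit 33692425) (nat_lit 13651) (nat_lit 23),Row.mk (nat_lit 9072) (nat_lit 12716) (nat_lit 15980772) (nat_lit 12903) (nat_lit 33692418) (nat_lit 13651) (nat_lit 28),Row.mk (nat_lit 9240) (nat_lit 12716) (nat_lit 15980774) (nat_lit 12903) (nat_lit 33692409) (nat_lit 13651) (nat_lit 36),Row.mk (nat_lit 9408) (nat_lit 12716) (nat_lit 15980777) (nat_lit 12903) (nat_lit 33692398) (nat_lit 13651) (nat_lit 45),Row.mk (nat_lit 9576) (nat_lit 12716) (nat_lit 15980779) (nat_lit 12903) (nat_lit 33692385) (nat_lit 13651) (nat_lit 56),Row.mk (nat_lit 9744) (nat_lit 12716) (nat_lit 15980783) (nat_lit 12903) (nat_lit 33692368) (nat_lit 13651) (nat_lit 70),Row.mk (nat_lit 9912) (nat_lit 12716) (nat_lit 15980787) (nat_lit 12903) (nat_lit 33692347)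 (nat_lit 13651) (nat_lit 87),Row.mk (nat_lit 10080) (nat_lit 12716) (nat_lit 15980793) (nat_lit 12903) (nat_lit 33692320) (nat_lit 13651) (nat_lit 109),Row.mk (nat_lit 10248) (nat_lit 12716) (nat_lit 15980800) (nat_lit 12903) (nat_lit 33692288) (nat_lit 13651) (nat_lit 137),Row.mk (nat_lit 10416) (nat_lit 12716) (nat_lit 15980809) (nat_lit 12903) (nat_lit 33692247) (nat_lit 13651) (nat_lit 171),Row.mk (nat_lit 10584) (nat_lit 12716) (nat_lit 15980819) (nat_lit 12903) (nat_lit 33692195) (nat_lit 13651) (nat_lit 213),Row.mk (nat_lit 10752) (nat_lit 12716) (nat_lit 15980833) (nat_lit 12903) (nat_lit 33692131) (nat_lit 13651) (nat_lit 266),Row.mk (nat_lit 10920) (nat_lit 12716) (nat_lit 15980850) (nat_lit 12903) (nat_lit 33692051) (nat_lit 13651) (nat_lit 333),Row.mk (nat_lit 11088) (nat_lit 12716) (nat_lit 15980871) (nat_lit 12903) (nat_lit 33691951) (nat_lit 13651) (nat_lit 416),Row.mk (nat_lit 11256) (nat_lit 12716) (nat_lit 15980897)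 (nat_lit 12903) (nat_lit 33691827) (nat_lit 13651) (nat_lit 520),Row.mk (nat_lit 11424) (nat_lit 12716) (nat_lit 15980930) (nat_lit 12903) (nat_lit 33691671) (nat_lit 13651) (nat_lit 649),Row.mk (nat_lit 11592) (nat_lit 12716) (nat_lit 15980971) (nat_lit 12903) (nat_lit 33691476) (nat_lit 13651) (nat_lit 811),Row.mk (nat_lit 11760) (nat_lit 12716) (nat_lit 15981022) (nat_lit 12903) (nat_lit 33691233) (nat_lit 13651) (nat_lit 1013),Row.mk (nat_lit 11928) (nat_lit 12716) (nat_lit 15981086) (nat_lit 12903) (nat_lit 33690930) (nat_lit 13651) (nat_lit 1265),Row.mk (nat_lit 12096) (nat_lit 12716) (nat_lit 15981166) (nat_lit 12903) (nat_lit 33690551) (nat_lit 13651) (nat_lit 1580),Row.mk (nat_lit 12264) (nat_lit 12716) (nat_lit 15981266) (nat_lit 12903) (nat_lit 33690077) (nat_lit 13651) (nat_lit 1974),Row.mk (nat_lit 12432) (nat_lit 12716) (nat_lit 15981391) (nat_lit 12903) (nat_lit 33689486) (nat_lit 13651) (nat_lit 2465),Row.mk (nat_lit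 12600) (nat_lit 12716) (nat_lit 15981547) (nat_lit 12903) (nat_lit 33688747) (nat_lit 13651) (nat_lit 3079),Row.mk (nat_lit 12768) (nat_lit 12716) (nat_lit 15981741) (nat_lit 12903) (nat_lit 33687825) (nat_lit 13651) (nat_lit 3846),Row.mk (nat_lit 12936) (nat_lit 12716) (nat_lit 15981984) (nat_lit 12903) (nat_lit 33686673) (nat_lit 13651) (nat_lit 4803),Row.mk (nat_lit 13104) (nat_lit 12716) (nat_lit 15982288) (nat_lit 12903) (nat_lit 33685233) (nat_lit 13651) (nat_lit 5999),Row.mk (nat_lit 13272) (nat_lit 12716) (nat_lit 15982667) (nat_lit 12903) (nat_lit 33683436) (nat_lit 13651) (nat_lit 7493),Row.mk (nat_lit 13440) (nat_lit 12716) (nat_lit 15983140) (nat_lit 12903) (nat_lit 33681191) (nat_lit 13651) (nat_lit 9359),Row.mk (nat_lit 13608) (nat_lit 12716) (nat_lit 15983732) (nat_lit 12903) (nat_lit 33678387) (nat_lit 13651) (nat_lit 11689),Row.mk (nat_lit 13776) (nat_lit 12716) (nat_lit 15984470) (nat_lit 12903) (nat_lit 33674886)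 (nat_lit 13651) (nat_lit 14600),Row.mk (nat_lit 13944) (nat_lit 12716) (nat_lit 15985393) (nat_lit 12903) (nat_lit 33670512) (nat_lit 13651) (nat_lit 18235),Row.mk (nat_lit 14112) (nat_lit 12716) (nat_lit 15986545) (nat_lit 12903) (nat_lit 33665049) (nat_lit 13651) (nat_lit 22775),Row.mk (nat_lit 14280) (nat_lit 12716) (nat_lit 15987984) (nat_lit 12903) (nat_lit 33658226) (nat_lit 13651) (nat_lit 28446),Row.mk (nat_lit 14448) (nat_lit 12716) (nat_lit 15989782) (nat_lit 12903) (nat_lit 33649705) (nat_lit 13651) (nat_lit 35528),Row.mk (nat_lit 14616) (nat_lit 12716) (nat_lit 15992026) (nat_lit 12903) (nat_lit 33639062) (nat_lit 13651) (nat_lit 44374),Row.mk (nat_lit 14784) (nat_lit 12716) (nat_lit 15994830) (nat_lit 12903) (nat_lit 33625769) (nat_lit 13651) (nat_lit 55422),Row.mk (nat_lit 14952) (nat_lit 12716) (nat_lit 15998332) (nat_lit 12903) (nat_lit 33609166) (nat_lit 13651) (nat_lit 69221),Row.mk (nat_lit 15120) (nat_lit 12716)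 (nat_lit 16002706) (nat_lit 12903) (nat_lit 33588430) (nat_lit 13651) (nat_lit 86455),Row.mk (nat_lit 15288) (nat_lit 12716) (nat_lit 16008168) (nat_lit 12903) (nat_lit 33562531) (nat_lit 13651) (nat_lit 107980),Row.mk (nat_lit 15456) (nat_lit 12716) (nat_lit 16014991) (nat_lit 12903) (nat_lit 33530184) (nat_lit 13651) (nat_lit 134865),Row.mk (nat_lit 15624) (nat_lit 12716) (nat_lit 16023513) (nat_lit 12903) (nat_lit 33489782) (nat_lit 13651) (nat_lit 168443),Row.mk (nat_lit 15792) (nat_lit 12716) (nat_lit 16034156) (nat_lit 12903) (nat_lit 33439323) (nat_lit 13651) (nat_lit 210382),Row.mk (nat_lit 15960) (nat_lit 12716) (nat_lit 16047449) (nat_lit 12903) (nat_lit 33376299) (nat_lit 13651) (nat_lit 262762),Row.mk (nat_lit 16128) (nat_lit 12716) (nat_lit 16064051) (nat_lit 12903) (nat_lit 33297585) (nat_lit 13651) (nat_lit 328184),Row.mk (nat_lit 16296) (nat_lit 12716) (nat_lit 16084788) (nat_lit 12903) (nat_lit 33199272) (nat_lit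 13651) (nat_lit 409894),Row.mk (nat_lit 16464) (nat_lit 12716) (nat_lit 16110687) (nat_lit 12903) (nat_lit 33076482) (nat_lit 13651) (nat_lit 511947),Row.mk (nat_lit 16632) (nat_lit 12716) (nat_lit 16143034) (nat_lit 12903) (nat_lit 32923121) (nat_lit 13651) (nat_lit 639410),Row.mk (nat_lit 16800) (nat_lit 12716) (nat_lit 16183435) (nat_lit 12903) (nat_lit 32731575) (nat_lit 13651) (nat_lit 798608),Row.mk (nat_lit 16968) (nat_lit 12716) (nat_lit 16233895) (nat_lit 12903) (nat_lit 32492340) (nat_lit 13651) (nat_lit 997442),Row.mk (nat_lit 17136) (nat_lit 12716) (nat_lit 16296918) (nat_lit 12903) (nat_lit 32193541) (nat_lit 13651) (nat_lit 1245781),Row.mk (nat_lit 17304) (nat_lit 12716) (nat_lit 16375633) (nat_lit 12903) (nat_lit 31820348) (nat_lit 13651) (nat_lit 1555950),Row.mk (nat_lit 17472) (nat_lit 12716) (nat_lit 16473945) (nat_lit 12903) (nat_lit 31354240) (nat_lit 13651) (nat_lit 1943345),Row.mk (nat_lit 17640) (nat_lit 12716)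 (nat_lit 16596735) (nat_lit 12903) (nat_lit 30772081) (nat_lit 13651) (nat_lit 2427191),Row.mk (nat_lit 17808) (nat_lit 12716) (nat_lit 16750097) (nat_lit 12903) (nat_lit 30044979) (nat_lit 13651) (nat_lit 3031503),Row.mk (nat_lit 17976) (nat_lit 12716) (nat_lit 16941642) (nat_lit 12903) (nat_lit 29136846) (nat_lit 13651) (nat_lit 3786274),Row.mk (nat_lit 18144) (nat_lit 12716) (nat_lit 17180877) (nat_lit 12903) (nat_lit 28002610) (nat_lit 13651) (nat_lit 4728965),Row.mk (nat_lit 18312) (nat_lit 12716) (nat_lit 17479676) (nat_lit 12903) (nat_lit 26585977) (nat_lit 13651) (nat_lit 5906363),Row.mk (nat_lit 18480) (nat_lit 12716) (nat_lit 17852869) (nat_lit 12903) (nat_lit 24816636) (nat_lit 13651) (nat_lit 7376905),Row.mk (nat_lit 18648) (nat_lit 12716) (nat_lit 18318978) (nat_lit 12903) (nat_lit 22606771) (nat_lit 13651) (nat_lit 9213577),Row.mk (nat_lit 18816) (nat_lit 12716) (nat_lit 18901136) (nat_lit 12903) (nat_lit 19846704) (nat_lit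 13651) (nat_lit 11507535),Row.mk (nat_lit 18984) (nat_lit 12716) (nat_lit 19628238) (nat_lit 12903) (nat_lit 16399447) (nat_lit 13651) (nat_lit 14372634),Row.mk (nat_lit 19152) (nat_lit 12716) (nat_lit 20536371) (nat_lit 12903) (nat_lit 12093906) (nat_lit 13651) (nat_lit 17951073),Row.mk (nat_lit 19320) (nat_lit 12716) (nat_lit 21670607) (nat_lit 12903) (nat_lit 6716389) (nat_lit 13651) (nat_lit 22420457),Row.mk (nat_lit 19488) (nat_lit 12716) (nat_lit 23087241) (nat_lit 13651) (nat_lit 28002610) (nat_lit 0) (nat_lit 0),Row.mk (nat_lit 19656) (nat_lit 12716) (nat_lit 16467974) (nat_lit 13464) (nat_lit 8388608) (nat_lit 13651) (nat_lit 26585977),Row.mk (nat_lit 19824) (nat_lit 12716) (nat_lit 8200669) (nat_lit 13464) (nat_lit 18865777) (nat_lit 13651) (nat_lit 24816636),Row.mk (nat_lit 19992) (nat_lit 13464) (nat_lit 29826513) (nat_lit 13651) (nat_lit 20905382) (nat_lit 14399) (nat_lit 1701389),Row.mk (nat_lit 20160) (nat_lit 13464)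 (nat_lit 33273771) (nat_lit 13651) (nat_lit 7819650) (nat_lit 14399) (nat_lit 12027053),Row.mk (nat_lit 20328) (nat_lit 13464) (nat_lit 29055200) (nat_lit 14212) (nat_lit 8524111) (nat_lit 14399) (nat_lit 16399447),Row.mk (nat_lit 20496) (nat_lit 13464) (nat_lit 14019752) (nat_lit 14212) (nat_lit 28937077) (nat_lit 14399) (nat_lit 12093906),Row.mk (nat_lit 20664) (nat_lit 14212) (nat_lit 49673218) (nat_lit 14399) (nat_lit 2905939) (nat_lit 15521) (nat_lit 3810450),Row.mk (nat_lit 20832) (nat_lit 14212) (nat_lit 35472464) (nat_lit 15334) (nat_lit 22589362) (nat_lit 0) (nat_lit 0),Row.mk (nat_lit 21000) (nat_lit 14025) (nat_lit 10477169) (nat_lit 14212) (nat_lit 3629447) (nat_lit 15334) (nat_lit 46043770),Row.mk (nat_lit 21168) (nat_lit 15147) (nat_lit 23562900) (nat_lit 15334) (nat_lit 29124749) (nat_lit 16643) (nat_lit 10071300),Row.mk (nat_lit 21336) (nat_lit 15147) (nat_lit 29260253) (nat_lit 16456) (nat_lit 10646410) (nat_lit 16643)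 (nat_lit 26110318),Row.mk (nat_lit 21504) (nat_lit 16456) (nat_lit 60319628) (nat_lit 16643) (nat_lit 9766555) (nat_lit 0) (nat_lit 0),Row.mk (nat_lit 21672) (nat_lit 16269) (nat_lit 13297109) (nat_lit 16456) (nat_lit 32611157) (nat_lit 17952) (nat_lit 29260253),Row.mk (nat_lit 21840) (nat_lit 16269) (nat_lit 15710631) (nat_lit 17765) (nat_lit 29429494) (nat_lit 17952) (nat_lit 36376109),Row.mk (nat_lit 22008) (nat_lit 17765) (nat_lit 71825553) (nat_lit 19822) (nat_lit 13085731) (nat_lit 20009) (nat_lit 4533092),Row.mk (nat_lit 22176) (nat_lit 17578) (nat_lit 44011494) (nat_lit 19822) (nat_lit 55334942) (nat_lit 0) (nat_lit 0),Row.mk (nat_lit 22344) (nat_lit 17578) (nat_lit 9272406) (nat_lit 19635) (nat_lit 96779740) (nat_lit 19822) (nat_lit 5661723),Row.mk (nat_lit 22512) (nat_lit 19448) (nat_lit 70415921) (nat_lit 19635) (nat_lit 29429494) (nat_lit 25993) (nat_lit 27315080),Row.mk (nat_lit 22680) (nat_lit 19261) (nat_lit 25907135)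 (nat_lit 19448) (nat_lit 49842459) (nat_lit 25806) (nat_lit 70703363),Row.mk (nat_lit 22848) (nat_lit 19261) (nat_lit 45654496) (nat_lit 25619) (nat_lit 101128199) (nat_lit 25806) (nat_lit 23766083),Row.mk (nat_lit 23016) (nat_lit 19074) (nat_lit 8066443) (nat_lit 25432) (nat_lit 113220950) (nat_lit 25619) (nat_lit 79356483),Row.mk (nat_lit 23184) (nat_lit 25245) (nat_lit 89444377) (nat_lit 25432) (nat_lit 117657946) (nat_lit 31790) (nat_lit 31129605),Row.mk (nat_lit 23352) (nat_lit 25058) (nat_lit 49673218) (nat_lit 25245) (nat_lit 157429105) (nat_lit 31603) (nat_lit 78076176),Row.mk (nat_lit 23520) (nat_lit 25058) (nat_lit 207102324) (nat_lit 31416) (nat_lit 136711310) (nat_lit 0) (nat_lit 0),Row.mk (nat_lit 23688) (nat_lit 24871) (nat_lit 207102324) (nat_lit 31229) (nat_lit 160271959) (nat_lit 31416) (nat_lit 49673218),Row.mk (nat_lit 23856) (nat_lit 24684) (nat_lit 207102324) (nat_lit 31042) (nat_lit 189698641) (nat_lit 31229)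 (nat_lit 111713870),Row.mk (nat_lit 24024) (nat_lit 24497) (nat_lit 207102324) (nat_lit 30855) (nat_lit 226451858) (nat_lit 31042) (nat_lit 189201147),Row.mk (nat_lit 24192) (nat_lit 24310) (nat_lit 207102324) (nat_lit 30668) (nat_lit 272355738) (nat_lit 30855) (nat_lit 285980887),Row.mk (nat_lit 24360) (nat_lit 24123) (nat_lit 207102324) (nat_lit 30481) (nat_lit 329688578) (nat_lit 30668) (nat_lit 406856448),Row.mk (nat_lit 24528) (nat_lit 23936) (nat_lit 207102324) (nat_lit 30294) (nat_lit 401295912) (nat_lit 30481) (nat_lit 557827107),Row.mk (nat_lit 24696) (nat_lit 23749) (nat_lit 207102324) (nat_lit 30107) (nat_lit 490731744) (nat_lit 30294) (nat_lit 746385819),Row.mk (nat_lit 24864) (nat_lit 23562) (nat_lit 207102324) (nat_lit 29920) (nat_lit 602434941) (nat_lit 30107) (nat_lit 981891101),Row.mk (nat_lit 25032) (nat_lit 23375) (nat_lit 207102324) (nat_lit 29733) (nat_lit 741949540) (nat_lit 29920) (nat_lit 1276031517),Row.mk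 (nat_lit 25200) (nat_lit 23188) (nat_lit 207102324) (nat_lit 29546) (nat_lit 916199907) (nat_lit 29733) (nat_lit 1643405800),Row.mk (nat_lit 25368) (nat_lit 23001) (nat_lit 207102324) (nat_lit 29359) (nat_lit 1133834413) (nat_lit 29546) (nat_lit 2102247418),Row.mk (nat_lit 25536) (nat_lit 22814) (nat_lit 207102324) (nat_lit 29172) (nat_lit 1405654661) (nat_lit 29359) (nat_lit 2675329530),Row.mk (nat_lit 25704) (nat_lit 22627) (nat_lit 207102324) (nat_lit 28985) (nat_lit 1745151593) (nat_lit 29172) (nat_lit 3391095262),Row.mk (nat_lit 25872) (nat_lit 22440) (nat_lit 207102324) (nat_lit 28798) (nat_lit 2169175071) (nat_lit 28985) (nat_lit 4285069395),Row.mk (nat_lit 26040) (nat_lit 22253) (nat_lit 207102324) (nat_lit 28611) (nat_lit 2698770165) (nat_lit 28798) (nat_lit 5401621521),Row.mk (nat_lit 26208) (nat_lit 22066) (nat_lit 207102324) (nat_lit 28424) (nat_lit 3360221663) (nat_lit 28611) (nat_lit 6796168191),Row.mk (nat_lit 26376)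 (nat_lit 21879) (nat_lit 207102324) (nat_lit 28237) (nat_lit 4186358627) (nat_lit 28424) (nat_lit 8537923339),Row.mk (nat_lit 26544) (nat_lit 21692) (nat_lit 207102324) (nat_lit 28050) (nat_lit 5218183765) (nat_lit 28237) (nat_lit 10713333502),Row.mk (nat_lit 26712) (nat_lit 21505) (nat_lit 207102324) (nat_lit 27863) (nat_lit 6506908472) (nat_lit 28050) (nat_lit 13430368317),Row.mk (nat_lit 26880) (nat_lit 21318) (nat_lit 207102324) (nat_lit 27676) (nat_lit 8116494541) (nat_lit 27863) (nat_lit 16823879255),Row.mk (nat_lit 27048) (nat_lit 21131) (nat_lit 207102324) (nat_lit 27489) (nat_lit 10126828712) (nat_lit 27676) (nat_lit 21062292552),Row.mk (nat_lit 27216) (nat_lit 20944) (nat_lit 207102324) (nat_lit 27302) (nat_lit 12637687594) (nat_lit 27489) (nat_lit 26355968514),Row.mk (nat_lit 27384) (nat_lit 32912) (nat_lit 58061826) (nat_lit 62084) (nat_lit 48849087741) (nat_lit 0) (nat_lit 0),Row.mk (nat_lit 27552) (nat_lit 32912) (nat_lit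 58061826) (nat_lit 62084) (nat_lit 61023699596) (nat_lit 0) (nat_lit 0),Row.mk (nat_lit 27720) (nat_lit 32912) (nat_lit 58061826) (nat_lit 62084) (nat_lit 76229496104) (nat_lit 0) (nat_lit 0),Row.mk (nat_lit 27888) (nat_lit 32912) (nat_lit 58061826) (nat_lit 62084) (nat_lit 95221169122) (nat_lit 0) (nat_lit 0),Row.mk (nat_lit 28056) (nat_lit 32912) (nat_lit 58061826) (nat_lit 62084) (nat_lit 118941310570) (nat_lit 0) (nat_lit 0),Row.mk (nat_lit 28224) (nat_lit 32912) (nat_lit 58061826) (nat_lit 62084) (nat_lit 148567195018) (nat_lit 0) (nat_lit 0),Row.mk (nat_lit 28392) (nat_lit 32912) (nat_lit 58061826) (nat_lit 62084) (nat_lit 185569210005) (nat_lit 0) (nat_lit 0),Row.mk (nat_lit 28560) (nat_lit 32912) (nat_lit 58061826) (nat_lit 62084) (nat_lit 231783834094) (nat_lit 0) (nat_lit 0),Row.mk (nat_lit 28728) (nat_lit 32912) (nat_lit 58061826) (nat_lit 62084) (nat_lit 289504784708) (nat_lit 0) (nat_lit 0),Row.mk (nat_lit 28896) (nat_lit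 32912) (nat_lit 58061826) (nat_lit 62084) (nat_lit 361596859577) (nat_lit 0) (nat_lit 0),Row.mk (nat_lit 29064) (nat_lit 32912) (nat_lit 58061826) (nat_lit 62084) (nat_lit 451638121953) (nat_lit 0) (nat_lit 0),Row.mk (nat_lit 29232) (nat_lit 32912) (nat_lit 58061826) (nat_lit 62084) (nat_lit 564097486522) (nat_lit 0) (nat_lit 0),Row.mk (nat_lit 29400) (nat_lit 32912) (nat_lit 58061826) (nat_lit 62084) (nat_lit 704556519921) (nat_lit 0) (nat_lit 0),Row.mk (nat_lit 29568) (nat_lit 32912) (nat_lit 58061826) (nat_lit 62084) (nat_lit 879986464231) (nat_lit 0) (nat_lit 0),Row.mk (nat_lit 29736) (nat_lit 32912) (nat_lit 58061826) (nat_lit 62084) (nat_lit 1099094232635) (nat_lit 0) (nat_lit 0),Row.mk (nat_lit 29904) (nat_lit 32912) (nat_lit 58061826) (nat_lit 62084) (nat_lit 1372754549660) (nat_lit 0) (nat_lit 0),Row.mk (nat_lit 30072) (nat_lit 32912) (nat_lit 58061826) (nat_lit 62084) (nat_lit 1714549683895) (nat_lit 0) (nat_lit 0),Row.mk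 (nat_lit 30240) (nat_lit 32912) (nat_lit 58061826) (nat_lit 62084) (nat_lit 2141443561155) (nat_lit 0) (nat_lit 0),Row.mk (nat_lit 30408) (nat_lit 32912) (nat_lit 58061826) (nat_lit 62084) (nat_lit 2674623715549) (nat_lit 0) (nat_lit 0),Row.mk (nat_lit 30576) (nat_lit 32912) (nat_lit 58061826) (nat_lit 62084) (nat_lit 3340552866052) (nat_lit 0) (nat_lit 0),Row.mk (nat_lit 30744) (nat_lit 32912) (nat_lit 58061826) (nat_lit 62084) (nat_lit 4172282310286) (nat_lit 0) (nat_lit 0),Row.mk (nat_lit 30912) (nat_lit 32912) (nat_lit 58061826) (nat_lit 62084) (nat_lit 5211092321655) (nat_lit 0) (nat_lit 0)],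
[Row.mk (nat_lit 7560) (nat_lit 11968) (nat_lit 28348199) (nat_lit 12155) (nat_lit 33692447) (nat_lit 12903) (nat_lit 5),Row.mk (nat_lit 7728) (nat_lit 11968) (nat_lit 28348199) (nat_lit 12155) (nat_lit 33692445) (nat_lit 12903) (nat_lit 6),Row.mk (nat_lit 7896) (nat_lit 11968) (nat_lit 28348200) (nat_lit 12155) (nat_lit 33692443) (nat_lit 12903) (nat_lit 7),Row.mk (nat_lit 8064) (nat_lit 11968) (nat_lit 28348200) (nat_lit 12155) (nat_lit 33692441) (nat_lit 12903) (nat_lit 9),Row.mk (nat_lit 8232) (nat_lit 11968) (nat_lit 28348201) (nat_lit 12155) (nat_lit 33692438) (nat_lit 12903) (nat_lit 12),Row.mk (nat_lit 8400) (nat_lit 11968) (nat_lit 28348201) (nat_lit 12155) (nat_lit 33692435) (nat_lit 12903) (nat_lit 15),Row.mk (nat_lit 8568) (nat_lit 11968) (nat_lit 28348202) (nat_lit 12155) (nat_lit 33692430) (nat_lit 12903) (nat_lit 19),Row.mk (nat_lit 8736) (nat_lit 11968) (nat_lit 28348203) (nat_lit 12155) (nat_lit 33692425) (nat_lit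 12903) (nat_lit 24),Row.mk (nat_lit 8904) (nat_lit 11968) (nat_lit 28348204) (nat_lit 12155) (nat_lit 33692418) (nat_lit 12903) (nat_lit 30),Row.mk (nat_lit 9072) (nat_lit 11968) (nat_lit 28348206) (nat_lit 12155) (nat_lit 33692409) (nat_lit 12903) (nat_lit 37),Row.mk (nat_lit 9240) (nat_lit 11968) (nat_lit 28348207) (nat_lit 12155) (nat_lit 33692398) (nat_lit 12903) (nat_lit 46),Row.mk (nat_lit 9408) (nat_lit 11968) (nat_lit 28348210) (nat_lit 12155) (nat_lit 33692385) (nat_lit 12903) (nat_lit 58),Row.mk (nat_lit 9576) (nat_lit 11968) (nat_lit 28348213) (nat_lit 12155) (nat_lit 33692368) (nat_lit 12903) (nat_lit 73),Row.mk (nat_lit 9744) (nat_lit 11968) (nat_lit 28348216) (nat_lit 12155) (nat_lit 33692347) (nat_lit 12903) (nat_lit 91),Row.mk (nat_lit 9912) (nat_lit 11968) (nat_lit 28348221) (nat_lit 12155) (nat_lit 33692320) (nat_lit 12903) (nat_lit 114),Row.mk (nat_lit 10080) (nat_lit 11968) (nat_lit 28348226) (nat_lit 12155) (nat_lit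 33692288) (nat_lit 12903) (nat_lit 142),Row.mk (nat_lit 10248) (nat_lit 11968) (nat_lit 28348233) (nat_lit 12155) (nat_lit 33692247) (nat_lit 12903) (nat_lit 178),Row.mk (nat_lit 10416) (nat_lit 11968) (nat_lit 28348242) (nat_lit 12155) (nat_lit 33692195) (nat_lit 12903) (nat_lit 222),Row.mk (nat_lit 10584) (nat_lit 11968) (nat_lit 28348252) (nat_lit 12155) (nat_lit 33692131) (nat_lit 12903) (nat_lit 277),Row.mk (nat_lit 10752) (nat_lit 11968) (nat_lit 28348266) (nat_lit 12155) (nat_lit 33692051) (nat_lit 12903) (nat_lit 346),Row.mk (nat_lit 10920) (nat_lit 11968) (nat_lit 28348283) (nat_lit 12155) (nat_lit 33691951) (nat_lit 12903) (nat_lit 433),Row.mk (nat_lit 11088) (nat_lit 11968) (nat_lit 28348304) (nat_lit 12155) (nat_lit 33691827) (nat_lit 12903) (nat_lit 541),Row.mk (nat_lit 11256) (nat_lit 11968) (nat_lit 28348330) (nat_lit 12155) (nat_lit 33691671) (nat_lit 12903) (nat_lit 675),Row.mk (nat_lit 11424) (nat_lit 11968) (nat_lit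 28348363) (nat_lit 12155) (nat_lit 33691476) (nat_lit 12903) (nat_lit 844),Row.mk (nat_lit 11592) (nat_lit 11968) (nat_lit 28348404) (nat_lit 12155) (nat_lit 33691233) (nat_lit 12903) (nat_lit 1054),Row.mk (nat_lit 11760) (nat_lit 11968) (nat_lit 28348455) (nat_lit 12155) (nat_lit 33690930) (nat_lit 12903) (nat_lit 1316),Row.mk (nat_lit 11928) (nat_lit 11968) (nat_lit 28348519) (nat_lit 12155) (nat_lit 33690551) (nat_lit 12903) (nat_lit 1644),Row.mk (nat_lit 12096) (nat_lit 11968) (nat_lit 28348599) (nat_lit 12155) (nat_lit 33690077) (nat_lit 12903) (nat_lit 2054),Row.mk (nat_lit 12264) (nat_lit 11968) (nat_lit 28348699) (nat_lit 12155) (nat_lit 33689486) (nat_lit 12903) (nat_lit 2565),Row.mk (nat_lit 12432) (nat_lit 11968) (nat_lit 28348824) (nat_lit 12155) (nat_lit 33688747) (nat_lit 12903) (nat_lit 3204),Row.mk (nat_lit 12600) (nat_lit 11968) (nat_lit 28348980) (nat_lit 12155) (nat_lit 33687825) (nat_lit 12903) (nat_lit 4002),Row.mk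 (nat_lit 12768) (nat_lit 11968) (nat_lit 28349174) (nat_lit 12155) (nat_lit 33686673) (nat_lit 12903) (nat_lit 4998),Row.mk (nat_lit 12936) (nat_lit 11968) (nat_lit 28349417) (nat_lit 12155) (nat_lit 33685233) (nat_lit 12903) (nat_lit 6242),Row.mk (nat_lit 13104) (nat_lit 11968) (nat_lit 28349721) (nat_lit 12155) (nat_lit 33683436) (nat_lit 12903) (nat_lit 7797),Row.mk (nat_lit 13272) (nat_lit 11968) (nat_lit 28350100) (nat_lit 12155) (nat_lit 33681191) (nat_lit 12903) (nat_lit 9738),Row.mk (nat_lit 13440) (nat_lit 11968) (nat_lit 28350573) (nat_lit 12155) (nat_lit 33678387) (nat_lit 12903) (nat_lit 12163),Row.mk (nat_lit 13608) (nat_lit 11968) (nat_lit 28351165) (nat_lit 12155) (nat_lit 33674886) (nat_lit 12903) (nat_lit 15191),Row.mk (nat_lit 13776) (nat_lit 11968) (nat_lit 28351903) (nat_lit 12155) (nat_lit 33670512) (nat_lit 12903) (nat_lit 18973),Row.mk (nat_lit 13944) (nat_lit 11968) (nat_lit 28352826) (nat_lit 12155) (nat_lit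 33665049) (nat_lit 12903) (nat_lit 23698),Row.mk (nat_lit 14112) (nat_lit 11968) (nat_lit 28353978) (nat_lit 12155) (nat_lit 33658226) (nat_lit 12903) (nat_lit 29598),Row.mk (nat_lit 14280) (nat_lit 11968) (nat_lit 28355417) (nat_lit 12155) (nat_lit 33649705) (nat_lit 12903) (nat_lit 36967),Row.mk (nat_lit 14448) (nat_lit 11968) (nat_lit 28357215) (nat_lit 12155) (nat_lit 33639062) (nat_lit 12903) (nat_lit 46171),Row.mk (nat_lit 14616) (nat_lit 11968) (nat_lit 28359460) (nat_lit 12155) (nat_lit 33625769) (nat_lit 12903) (nat_lit 57667),Row.mk (nat_lit 14784) (nat_lit 11968) (nat_lit 28362263) (nat_lit 12155) (nat_lit 33609166) (nat_lit 12903) (nat_lit 72024),Row.mk (nat_lit 14952) (nat_lit 11968) (nat_lit 28365765) (nat_lit 12155) (nat_lit 33588430) (nat_lit 12903) (nat_lit 89957),Row.mk (nat_lit 15120) (nat_lit 11968) (nat_lit 28370139) (nat_lit 12155) (nat_lit 33562531) (nat_lit 12903) (nat_lit 112354),Row.mk (nat_lit 15288) (nat_lit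 11968) (nat_lit 28375602) (nat_lit 12155) (nat_lit 33530184) (nat_lit 12903) (nat_lit 140328),Row.mk (nat_lit 15456) (nat_lit 11968) (nat_lit 28382424) (nat_lit 12155) (nat_lit 33489782) (nat_lit 12903) (nat_lit 175266),Row.mk (nat_lit 15624) (nat_lit 11968) (nat_lit 28390946) (nat_lit 12155) (nat_lit 33439323) (nat_lit 12903) (nat_lit 218903),Row.mk (nat_lit 15792) (nat_lit 11968) (nat_lit 28401589) (nat_lit 12155) (nat_lit 33376299) (nat_lit 12903) (nat_lit 273405),Row.mk (nat_lit 15960) (nat_lit 11968) (nat_lit 28414882) (nat_lit 12155) (nat_lit 33297585) (nat_lit 12903) (nat_lit 341477),Row.mk (nat_lit 16128) (nat_lit 11968) (nat_lit 28431484) (nat_lit 12155) (nat_lit 33199272) (nat_lit 12903) (nat_lit 426496),Row.mk (nat_lit 16296) (nat_lit 11968) (nat_lit 28452221) (nat_lit 12155) (nat_lit 33076482) (nat_lit 12903) (nat_lit 532683),Row.mk (nat_lit 16464) (nat_lit 11968) (nat_lit 28478120) (nat_lit 12155) (nat_lit 32923121) (nat_lit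 12903) (nat_lit 665309),Row.mk (nat_lit 16632) (nat_lit 11968) (nat_lit 28510467) (nat_lit 12155) (nat_lit 32731575) (nat_lit 12903) (nat_lit 830955),Row.mk (nat_lit 16800) (nat_lit 11968) (nat_lit 28550868) (nat_lit 12155) (nat_lit 32492340) (nat_lit 12903) (nat_lit 1037843),Row.mk (nat_lit 16968) (nat_lit 11968) (nat_lit 28601328) (nat_lit 12155) (nat_lit 32193541) (nat_lit 12903) (nat_lit 1296241),Row.mk (nat_lit 17136) (nat_lit 11968) (nat_lit 28664351) (nat_lit 12155) (nat_lit 31820348) (nat_lit 12903) (nat_lit 1618974),Row.mk (nat_lit 17304) (nat_lit 11968) (nat_lit 28743066) (nat_lit 12155) (nat_lit 31354240) (nat_lit 12903) (nat_lit 2022059),Row.mk (nat_lit 17472) (nat_lit 11968) (nat_lit 28841378) (nat_lit 12155) (nat_lit 30772081) (nat_lit 12903) (nat_lit 2525503),Row.mk (nat_lit 17640) (nat_lit 11968) (nat_lit 28964168) (nat_lit 12155) (nat_lit 30044979) (nat_lit 12903) (nat_lit 3154293),Row.mk (nat_lit 17808) (nat_lit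 11968) (nat_lit 29117530) (nat_lit 12155) (nat_lit 29136846) (nat_lit 12903) (nat_lit 3939636),Row.mk (nat_lit 17976) (nat_lit 11968) (nat_lit 29309075) (nat_lit 12155) (nat_lit 28002610) (nat_lit 12903) (nat_lit 4920510),Row.mk (nat_lit 18144) (nat_lit 11968) (nat_lit 29548311) (nat_lit 12155) (nat_lit 26585977) (nat_lit 12903) (nat_lit 6145598),Row.mk (nat_lit 18312) (nat_lit 11968) (nat_lit 29847110) (nat_lit 12155) (nat_lit 24816636) (nat_lit 12903) (nat_lit 7675704),Row.mk (nat_lit 18480) (nat_lit 11968) (nat_lit 30220302) (nat_lit 12155) (nat_lit 22606771) (nat_lit 12903) (nat_lit 9586769),Row.mk (nat_lit 18648) (nat_lit 11968) (nat_lit 30686411) (nat_lit 12155) (nat_lit 19846704) (nat_lit 12903) (nat_lit 11973644),Row.mk (nat_lit 18816) (nat_lit 11968) (nat_lit 31268570) (nat_lit 12155) (nat_lit 16399447) (nat_lit 12903) (nat_lit 14954792),Row.mk (nat_lit 18984) (nat_lit 11968) (nat_lit 31995672) (nat_lit 12155) (nat_lit 12093906)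 (nat_lit 12903) (nat_lit 18678175),Row.mk (nat_lit 19152) (nat_lit 11968) (nat_lit 32903804) (nat_lit 12155) (nat_lit 6716389) (nat_lit 12903) (nat_lit 23328590),Row.mk (nat_lit 19320) (nat_lit 11968) (nat_lit 34038041) (nat_lit 12903) (nat_lit 29136846) (nat_lit 0) (nat_lit 0),Row.mk (nat_lit 19488) (nat_lit 11968) (nat_lit 27066066) (nat_lit 12716) (nat_lit 8388608) (nat_lit 12903) (nat_lit 28002610),Row.mk (nat_lit 19656) (nat_lit 11968) (nat_lit 18358238) (nat_lit 12716) (nat_lit 18865777) (nat_lit 12903) (nat_lit 26585977),Row.mk (nat_lit 19824) (nat_lit 11968) (nat_lit 7482371) (nat_lit 12716) (nat_lit 31951508) (nat_lit 12903) (nat_lit 24816636),Row.mk (nat_lit 19992) (nat_lit 12716) (nat_lit 42193946) (nat_lit 12903) (nat_lit 17721710) (nat_lit 13651) (nat_lit 4885061),Row.mk (nat_lit 20160) (nat_lit 12716) (nat_lit 45641204) (nat_lit 12903) (nat_lit 1377947) (nat_lit 13651) (nat_lit 18468757),Row.mk (nat_lit 20328) (nat_lit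 12716) (nat_lit 30911727) (nat_lit 13464) (nat_lit 19035018) (nat_lit 13651) (nat_lit 16399447),Row.mk (nat_lit 20496) (nat_lit 12716) (nat_lit 10793943) (nat_lit 13464) (nat_lit 44530319) (nat_lit 13651) (nat_lit 12093906),Row.mk (nat_lit 20664) (nat_lit 13464) (nat_lit 57281491) (nat_lit 14212) (nat_lit 4759160) (nat_lit 14399) (nat_lit 6716389),Row.mk (nat_lit 20832) (nat_lit 13464) (nat_lit 33827083) (nat_lit 14212) (nat_lit 36602176) (nat_lit 0) (nat_lit 0),Row.mk (nat_lit 21000) (nat_lit 13277) (nat_lit 4533092) (nat_lit 14025) (nat_lit 5944076) (nat_lit 14212) (nat_lit 62040651),Row.mk (nat_lit 21168) (nat_lit 14025) (nat_lit 23562900) (nat_lit 14212) (nat_lit 25898940) (nat_lit 15334) (nat_lit 25664542),Row.mk (nat_lit 21336) (nat_lit 14025) (nat_lit 16132384) (nat_lit 15147) (nat_lit 23774278) (nat_lit 15334) (nat_lit 38477751),Row.mk (nat_lit 21504) (nat_lit 15147) (nat_lit 60319628) (nat_lit 15334) (nat_lit 1721023) (nat_lit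 16643) (nat_lit 20412965),Row.mk (nat_lit 21672) (nat_lit 15147) (nat_lit 25495301) (nat_lit 16456) (nat_lit 60319628) (nat_lit 16643) (nat_lit 1721023),Row.mk (nat_lit 21840) (nat_lit 16269) (nat_lit 29693500) (nat_lit 16456) (nat_lit 48057783) (nat_lit 17952) (nat_lit 16132384),Row.mk (nat_lit 22008) (nat_lit 16269) (nat_lit 40035165) (nat_lit 17765) (nat_lit 29429494) (nat_lit 17952) (nat_lit 32347151),Row.mk (nat_lit 22176) (nat_lit 17578) (nat_lit 9272406) (nat_lit 17765) (nat_lit 96779740) (nat_lit 19822) (nat_lit 5661723),Row.mk (nat_lit 22344) (nat_lit 17578) (nat_lit 71313058) (nat_lit 19822) (nat_lit 52768245) (nat_lit 0) (nat_lit 0),Row.mk (nat_lit 22512) (nat_lit 17391) (nat_lit 11581012) (nat_lit 17578) (nat_lit 16343762) (nat_lit 19635) (nat_lit 111603154),Row.mk (nat_lit 22680) (nat_lit 19448) (nat_lit 108360752) (nat_lit 19635) (nat_lit 29429494) (nat_lit 25993) (nat_lit 21030145),Row.mk (nat_lit 22848) (nat_lit 19261)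 (nat_lit 57852688) (nat_lit 19448) (nat_lit 49842459) (nat_lit 25806) (nat_lit 75221064),Row.mk (nat_lit 23016) (nat_lit 19261) (nat_lit 70107095) (nat_lit 25619) (nat_lit 138716251) (nat_lit 25806) (nat_lit 4187963),Row.mk (nat_lit 23184) (nat_lit 19074) (nat_lit 23160525) (nat_lit 25432) (nat_lit 160167520) (nat_lit 25619) (nat_lit 67271317),Row.mk (nat_lit 23352) (nat_lit 25245) (nat_lit 151485029) (nat_lit 25432) (nat_lit 117657946) (nat_lit 31790) (nat_lit 28402957),Row.mk (nat_lit 23520) (nat_lit 25058) (nat_lit 111713870) (nat_lit 25245) (nat_lit 157429105) (nat_lit 31603) (nat_lit 87038091),Row.mk (nat_lit 23688) (nat_lit 24871) (nat_lit 62040651) (nat_lit 25058) (nat_lit 207102324) (nat_lit 31416) (nat_lit 160271959),Row.mk (nat_lit 23856) (nat_lit 24871) (nat_lit 269142976) (nat_lit 31229) (nat_lit 251739293) (nat_lit 0) (nat_lit 0),Row.mk (nat_lit 24024) (nat_lit 24684) (nat_lit 269142976) (nat_lit 31042) (nat_lit 303939135)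 (nat_lit 31229) (nat_lit 62040651),Row.mk (nat_lit 24192) (nat_lit 24497) (nat_lit 269142976) (nat_lit 30855) (nat_lit 369135478) (nat_lit 31042) (nat_lit 139527929),Row.mk (nat_lit 24360) (nat_lit 24310) (nat_lit 269142976) (nat_lit 30668) (nat_lit 450564139) (nat_lit 30855) (nat_lit 236307669),Row.mk (nat_lit 24528) (nat_lit 24123) (nat_lit 269142976) (nat_lit 30481) (nat_lit 552266571) (nat_lit 30668) (nat_lit 357183229),Row.mk (nat_lit 24696) (nat_lit 23936) (nat_lit 269142976) (nat_lit 30294) (nat_lit 679290456) (nat_lit 30481) (nat_lit 508153889),Row.mk (nat_lit 24864) (nat_lit 23749) (nat_lit 269142976) (nat_lit 30107) (nat_lit 837940223) (nat_lit 30294) (nat_lit 696712600),Row.mk (nat_lit 25032) (nat_lit 23562) (nat_lit 269142976) (nat_lit 29920) (nat_lit 1036089955) (nat_lit 30107) (nat_lit 932217882),Row.mk (nat_lit 25200) (nat_lit 23375) (nat_lit 269142976) (nat_lit 29733) (nat_lit 1283574191) (nat_lit 29920) (nat_lit 1226358298),Row.mk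 (nat_lit 25368) (nat_lit 23188) (nat_lit 269142976) (nat_lit 29546) (nat_lit 1592676031) (nat_lit 29733) (nat_lit 1593732582),Row.mk (nat_lit 25536) (nat_lit 23001) (nat_lit 269142976) (nat_lit 29359) (nat_lit 1978736772) (nat_lit 29546) (nat_lit 2052574199),Row.mk (nat_lit 25704) (nat_lit 22814) (nat_lit 269142976) (nat_lit 29172) (nat_lit 2460917325) (nat_lit 29359) (nat_lit 2625656311),Row.mk (nat_lit 25872) (nat_lit 22627) (nat_lit 269142976) (nat_lit 28985) (nat_lit 3063149203) (nat_lit 29172) (nat_lit 3341422044),Row.mk (nat_lit 26040) (nat_lit 22440) (nat_lit 269142976) (nat_lit 28798) (nat_lit 3815322291) (nat_lit 28985) (nat_lit 4235396176),Row.mk (nat_lit 26208) (nat_lit 22253) (nat_lit 269142976) (nat_lit 28611) (nat_lit 4754768333) (nat_lit 28798) (nat_lit 5351948302),Row.mk (nat_lit 26376) (nat_lit 22066) (nat_lit 269142976) (nat_lit 28424) (nat_lit 5928113776) (nat_lit 28611) (nat_lit 6746494972),Row.mk (nat_lit 26544)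 (nat_lit 21879) (nat_lit 269142976) (nat_lit 28237) (nat_lit 7393593928) (nat_lit 28424) (nat_lit 8488250121),Row.mk (nat_lit 26712) (nat_lit 21692) (nat_lit 269142976) (nat_lit 28050) (nat_lit 9223943286) (nat_lit 28237) (nat_lit 10663660284),Row.mk (nat_lit 26880) (nat_lit 21505) (nat_lit 269142976) (nat_lit 27863) (nat_lit 11510005479) (nat_lit 28050) (nat_lit 13380695098),Row.mk (nat_lit 27048) (nat_lit 21318) (nat_lit 269142976) (nat_lit 27676) (nat_lit 14365242009) (nat_lit 27863) (nat_lit 16774206036),Row.mk (nat_lit 27216) (nat_lit 21131) (nat_lit 269142976) (nat_lit 27489) (nat_lit 17931363556) (nat_lit 27676) (nat_lit 21012619333),Row.mk (nat_lit 27384) (nat_lit 20944) (nat_lit 269142976) (nat_lit 27302) (nat_lit 22385363340) (nat_lit 27489) (nat_lit 26306295295),Row.mk (nat_lit 27552) (nat_lit 32912) (nat_lit 70429259) (nat_lit 62084) (nat_lit 61011332163) (nat_lit 0) (nat_lit 0),Row.mk (nat_lit 27720) (nat_lit 32912) (nat_lit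 70429259) (nat_lit 62084) (nat_lit 76217128671) (nat_lit 0) (nat_lit 0),Row.mk (nat_lit 27888) (nat_lit 32912) (nat_lit 70429259) (nat_lit 62084) (nat_lit 95208801689) (nat_lit 0) (nat_lit 0),Row.mk (nat_lit 28056) (nat_lit 32912) (nat_lit 70429259) (nat_lit 62084) (nat_lit 118928943137) (nat_lit 0) (nat_lit 0),Row.mk (nat_lit 28224) (nat_lit 32912) (nat_lit 70429259) (nat_lit 62084) (nat_lit 148554827585) (nat_lit 0) (nat_lit 0),Row.mk (nat_lit 28392) (nat_lit 32912) (nat_lit 70429259) (nat_lit 62084) (nat_lit 185556842572) (nat_lit 0) (nat_lit 0),Row.mk (nat_lit 28560) (nat_lit 32912) (nat_lit 70429259) (nat_lit 62084) (nat_lit 231771466661) (nat_lit 0) (nat_lit 0),Row.mk (nat_lit 28728) (nat_lit 32912) (nat_lit 70429259) (nat_lit 62084) (nat_lit 289492417275) (nat_lit 0) (nat_lit 0),Row.mk (nat_lit 28896) (nat_lit 32912) (nat_lit 70429259) (nat_lit 62084) (nat_lit 361584492144) (nat_lit 0) (nat_lit 0),Row.mk (nat_lit 29064) (nat_lit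 32912) (nat_lit 70429259) (nat_lit 62084) (nat_lit 451625754519) (nat_lit 0) (nat_lit 0),Row.mk (nat_lit 29232) (nat_lit 32912) (nat_lit 70429259) (nat_lit 62084) (nat_lit 564085119089) (nat_lit 0) (nat_lit 0),Row.mk (nat_lit 29400) (nat_lit 32912) (nat_lit 70429259) (nat_lit 62084) (nat_lit 704544152488) (nat_lit 0) (nat_lit 0),Row.mk (nat_lit 29568) (nat_lit 32912) (nat_lit 70429259) (nat_lit 62084) (nat_lit 879974096798) (nat_lit 0) (nat_lit 0),Row.mk (nat_lit 29736) (nat_lit 32912) (nat_lit 70429259) (nat_lit 62084) (nat_lit 1099081865202) (nat_lit 0) (nat_lit 0),Row.mk (nat_lit 29904) (nat_lit 32912) (nat_lit 70429259) (nat_lit 62084) (nat_lit 1372742182227) (nat_lit 0) (nat_lit 0),Row.mk (nat_lit 30072) (nat_lit 32912) (nat_lit 70429259) (nat_lit 62084) (nat_lit 1714537316462) (nat_lit 0) (nat_lit 0),Row.mk (nat_lit 30240) (nat_lit 32912) (nat_lit 70429259) (nat_lit 62084) (nat_lit 2141431193722) (nat_lit 0) (nat_lit 0),Row.mk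 (nat_lit 30408) (nat_lit 32912) (nat_lit 70429259) (nat_lit 62084) (nat_lit 2674611348116) (nat_lit 0) (nat_lit 0),Row.mk (nat_lit 30576) (nat_lit 32912) (nat_lit 70429259) (nat_lit 62084) (nat_lit 3340540498619) (nat_lit 0) (nat_lit 0),Row.mk (nat_lit 30744) (nat_lit 32912) (nat_lit 70429259) (nat_lit 62084) (nat_lit 4172269942853) (nat_lit 0) (nat_lit 0),Row.mk (nat_lit 30912) (nat_lit 32912) (nat_lit 70429259) (nat_lit 62084) (nat_lit 5211079954222) (nat_lit 0) (nat_lit 0)],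
[Row.mk (nat_lit 7728) (nat_lit 11407) (nat_lit 43794825) (nat_lit 11594) (nat_lit 33692443) (nat_lit 12155) (nat_lit 8),Row.mk (nat_lit 7896) (nat_lit 11407) (nat_lit 43794825) (nat_lit 11594) (nat_lit 33692441) (nat_lit 12155) (nat_lit 10),Row.mk (nat_lit 8064) (nat_lit 11407) (nat_lit 43794826) (nat_lit 11594) (nat_lit 33692438) (nat_lit 12155) (nat_lit 12),Row.mk (nat_lit 8232) (nat_lit 11407) (nat_lit 43794826) (nat_lit 11594) (nat_lit 33692435) (nat_lit 12155) (nat_lit 15),Row.mk (nat_lit 8400) (nat_lit 11407) (nat_lit 43794827) (nat_lit 11594) (nat_lit 33692430) (nat_lit 12155) (nat_lit 19),Row.mk (nat_lit 8568) (nat_lit 11407) (nat_lit 43794828) (nat_lit 11594) (nat_lit 33692425) (nat_lit 12155) (nat_lit 24),Row.mk (nat_lit 8736) (nat_lit 11407) (nat_lit 43794829) (nat_lit 11594) (nat_lit 33692418) (nat_lit 12155) (nat_lit 31),Row.mk (nat_lit 8904) (nat_lit 11407) (nat_lit 43794830) (nat_lit 11594) (nat_lit 33692409) (nat_lit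 12155) (nat_lit 38),Row.mk (nat_lit 9072) (nat_lit 11407) (nat_lit 43794831) (nat_lit 11594) (nat_lit 33692398) (nat_lit 12155) (nat_lit 48),Row.mk (nat_lit 9240) (nat_lit 11407) (nat_lit 43794833) (nat_lit 11594) (nat_lit 33692385) (nat_lit 12155) (nat_lit 60),Row.mk (nat_lit 9408) (nat_lit 11407) (nat_lit 43794835) (nat_lit 11594) (nat_lit 33692368) (nat_lit 12155) (nat_lit 75),Row.mk (nat_lit 9576) (nat_lit 11407) (nat_lit 43794838) (nat_lit 11594) (nat_lit 33692347) (nat_lit 12155) (nat_lit 94),Row.mk (nat_lit 9744) (nat_lit 11407) (nat_lit 43794842) (nat_lit 11594) (nat_lit 33692320) (nat_lit 12155) (nat_lit 117),Row.mk (nat_lit 9912) (nat_lit 11407) (nat_lit 43794846) (nat_lit 11594) (nat_lit 33692288) (nat_lit 12155) (nat_lit 146),Row.mk (nat_lit 10080) (nat_lit 11407) (nat_lit 43794852) (nat_lit 11594) (nat_lit 33692247) (nat_lit 12155) (nat_lit 183),Row.mk (nat_lit 10248) (nat_lit 11407) (nat_lit 43794859) (nat_lit 11594)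 (nat_lit 33692195) (nat_lit 12155) (nat_lit 229),Row.mk (nat_lit 10416) (nat_lit 11407) (nat_lit 43794867) (nat_lit 11594) (nat_lit 33692131) (nat_lit 12155) (nat_lit 286),Row.mk (nat_lit 10584) (nat_lit 11407) (nat_lit 43794878) (nat_lit 11594) (nat_lit 33692051) (nat_lit 12155) (nat_lit 357),Row.mk (nat_lit 10752) (nat_lit 11407) (nat_lit 43794892) (nat_lit 11594) (nat_lit 33691951) (nat_lit 12155) (nat_lit 446),Row.mk (nat_lit 10920) (nat_lit 11407) (nat_lit 43794908) (nat_lit 11594) (nat_lit 33691827) (nat_lit 12155) (nat_lit 557),Row.mk (nat_lit 11088) (nat_lit 11407) (nat_lit 43794930) (nat_lit 11594) (nat_lit 33691671) (nat_lit 12155) (nat_lit 696),Row.mk (nat_lit 11256) (nat_lit 11407) (nat_lit 43794956) (nat_lit 11594) (nat_lit 33691476) (nat_lit 12155) (nat_lit 870),Row.mk (nat_lit 11424) (nat_lit 11407) (nat_lit 43794989) (nat_lit 11594) (nat_lit 33691233) (nat_lit 12155) (nat_lit 1087),Row.mk (nat_lit 11592) (nat_lit 11407)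 (nat_lit 43795030) (nat_lit 11594) (nat_lit 33690930) (nat_lit 12155) (nat_lit 1357),Row.mk (nat_lit 11760) (nat_lit 11407) (nat_lit 43795081) (nat_lit 11594) (nat_lit 33690551) (nat_lit 12155) (nat_lit 1695),Row.mk (nat_lit 11928) (nat_lit 11407) (nat_lit 43795145) (nat_lit 11594) (nat_lit 33690077) (nat_lit 12155) (nat_lit 2118),Row.mk (nat_lit 12096) (nat_lit 11407) (nat_lit 43795225) (nat_lit 11594) (nat_lit 33689486) (nat_lit 12155) (nat_lit 2645),Row.mk (nat_lit 12264) (nat_lit 11407) (nat_lit 43795325) (nat_lit 11594) (nat_lit 33688747) (nat_lit 12155) (nat_lit 3304),Row.mk (nat_lit 12432) (nat_lit 11407) (nat_lit 43795450) (nat_lit 11594) (nat_lit 33687825) (nat_lit 12155) (nat_lit 4126),Row.mk (nat_lit 12600) (nat_lit 11407) (nat_lit 43795605) (nat_lit 11594) (nat_lit 33686673) (nat_lit 12155) (nat_lit 5154),Row.mk (nat_lit 12768) (nat_lit 11407) (nat_lit 43795800) (nat_lit 11594) (nat_lit 33685233) (nat_lit 12155) (nat_lit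 6437),Row.mk (nat_lit 12936) (nat_lit 11407) (nat_lit 43796043) (nat_lit 11594) (nat_lit 33683436) (nat_lit 12155) (nat_lit 8040),Row.mk (nat_lit 13104) (nat_lit 11407) (nat_lit 43796347) (nat_lit 11594) (nat_lit 33681191) (nat_lit 12155) (nat_lit 10042),Row.mk (nat_lit 13272) (nat_lit 11407) (nat_lit 43796726) (nat_lit 11594) (nat_lit 33678387) (nat_lit 12155) (nat_lit 12542),Row.mk (nat_lit 13440) (nat_lit 11407) (nat_lit 43797199) (nat_lit 11594) (nat_lit 33674886) (nat_lit 12155) (nat_lit 15665),Row.mk (nat_lit 13608) (nat_lit 11407) (nat_lit 43797790) (nat_lit 11594) (nat_lit 33670512) (nat_lit 12155) (nat_lit 19565),Row.mk (nat_lit 13776) (nat_lit 11407) (nat_lit 43798529) (nat_lit 11594) (nat_lit 33665049) (nat_lit 12155) (nat_lit 24436),Row.mk (nat_lit 13944) (nat_lit 11407) (nat_lit 43799452) (nat_lit 11594) (nat_lit 33658226) (nat_lit 12155) (nat_lit 30520),Row.mk (nat_lit 14112) (nat_lit 11407) (nat_lit 43800604) (nat_lit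 11594) (nat_lit 33649705) (nat_lit 12155) (nat_lit 38119),Row.mk (nat_lit 14280) (nat_lit 11407) (nat_lit 43802043) (nat_lit 11594) (nat_lit 33639062) (nat_lit 12155) (nat_lit 47610),Row.mk (nat_lit 14448) (nat_lit 11407) (nat_lit 43803840) (nat_lit 11594) (nat_lit 33625769) (nat_lit 12155) (nat_lit 59464),Row.mk (nat_lit 14616) (nat_lit 11407) (nat_lit 43806085) (nat_lit 11594) (nat_lit 33609166) (nat_lit 12155) (nat_lit 74269),Row.mk (nat_lit 14784) (nat_lit 11407) (nat_lit 43808889) (nat_lit 11594) (nat_lit 33588430) (nat_lit 12155) (nat_lit 92761),Row.mk (nat_lit 14952) (nat_lit 11407) (nat_lit 43812391) (nat_lit 11594) (nat_lit 33562531) (nat_lit 12155) (nat_lit 115856),Row.mk (nat_lit 15120) (nat_lit 11407) (nat_lit 43816764) (nat_lit 11594) (nat_lit 33530184) (nat_lit 12155) (nat_lit 144702),Row.mk (nat_lit 15288) (nat_lit 11407) (nat_lit 43822227) (nat_lit 11594) (nat_lit 33489782) (nat_lit 12155) (nat_lit 180729),Row.mk (nat_lit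 15456) (nat_lit 11407) (nat_lit 43829050) (nat_lit 11594) (nat_lit 33439323) (nat_lit 12155) (nat_lit 225726),Row.mk (nat_lit 15624) (nat_lit 11407) (nat_lit 43837571) (nat_lit 11594) (nat_lit 33376299) (nat_lit 12155) (nat_lit 281927),Row.mk (nat_lit 15792) (nat_lit 11407) (nat_lit 43848215) (nat_lit 11594) (nat_lit 33297585) (nat_lit 12155) (nat_lit 352120),Row.mk (nat_lit 15960) (nat_lit 11407) (nat_lit 43861507) (nat_lit 11594) (nat_lit 33199272) (nat_lit 12155) (nat_lit 439789),Row.mk (nat_lit 16128) (nat_lit 11407) (nat_lit 43878110) (nat_lit 11594) (nat_lit 33076482) (nat_lit 12155) (nat_lit 549286),Row.mk (nat_lit 16296) (nat_lit 11407) (nat_lit 43898846) (nat_lit 11594) (nat_lit 32923121) (nat_lit 12155) (nat_lit 686045),Row.mk (nat_lit 16464) (nat_lit 11407) (nat_lit 43924745) (nat_lit 11594) (nat_lit 32731575) (nat_lit 12155) (nat_lit 856854),Row.mk (nat_lit 16632) (nat_lit 11407) (nat_lit 43957093) (nat_lit 11594) (nat_lit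 32492340) (nat_lit 12155) (nat_lit 1070190),Row.mk (nat_lit 16800) (nat_lit 11407) (nat_lit 43997494) (nat_lit 11594) (nat_lit 32193541) (nat_lit 12155) (nat_lit 1336642),Row.mk (nat_lit 16968) (nat_lit 11407) (nat_lit 44047954) (nat_lit 11594) (nat_lit 31820348) (nat_lit 12155) (nat_lit 1669434),Row.mk (nat_lit 17136) (nat_lit 11407) (nat_lit 44110977) (nat_lit 11594) (nat_lit 31354240) (nat_lit 12155) (nat_lit 2085082),Row.mk (nat_lit 17304) (nat_lit 11407) (nat_lit 44189692) (nat_lit 11594) (nat_lit 30772081) (nat_lit 12155) (nat_lit 2604218),Row.mk (nat_lit 17472) (nat_lit 11407) (nat_lit 44288004) (nat_lit 11594) (nat_lit 30044979) (nat_lit 12155) (nat_lit 3252605),Row.mk (nat_lit 17640) (nat_lit 11407) (nat_lit 44410794) (nat_lit 11594) (nat_lit 29136846) (nat_lit 12155) (nat_lit 4062425),Row.mk (nat_lit 17808) (nat_lit 11407) (nat_lit 44564156) (nat_lit 11594) (nat_lit 28002610) (nat_lit 12155) (nat_lit 5073872),Row.mk (nat_lit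 17976) (nat_lit 11407) (nat_lit 44755701) (nat_lit 11594) (nat_lit 26585977) (nat_lit 12155) (nat_lit 6337143),Row.mk (nat_lit 18144) (nat_lit 11407) (nat_lit 44994936) (nat_lit 11594) (nat_lit 24816636) (nat_lit 12155) (nat_lit 7914939),Row.mk (nat_lit 18312) (nat_lit 11407) (nat_lit 45293735) (nat_lit 11594) (nat_lit 22606771) (nat_lit 12155) (nat_lit 9885568),Row.mk (nat_lit 18480) (nat_lit 11407) (nat_lit 45666928) (nat_lit 11594) (nat_lit 19846704) (nat_lit 12155) (nat_lit 12346836),Row.mk (nat_lit 18648) (nat_lit 11407) (nat_lit 46133037) (nat_lit 11594) (nat_lit 16399447) (nat_lit 12155) (nat_lit 15420901),Row.mk (nat_lit 18816) (nat_lit 11407) (nat_lit 46715195) (nat_lit 11594) (nat_lit 12093906) (nat_lit 12155) (nat_lit 19260333),Row.mk (nat_lit 18984) (nat_lit 11407) (nat_lit 47442297) (nat_lit 11594) (nat_lit 6716389) (nat_lit 12155) (nat_lit 24055692),Row.mk (nat_lit 19152) (nat_lit 11407) (nat_lit 48350430) (nat_lit 12155)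 (nat_lit 30044979) (nat_lit 0) (nat_lit 0),Row.mk (nat_lit 19320) (nat_lit 11407) (nat_lit 41096058) (nat_lit 11968) (nat_lit 8388608) (nat_lit 12155) (nat_lit 29136846),Row.mk (nat_lit 19488) (nat_lit 11407) (nat_lit 32035523) (nat_lit 11968) (nat_lit 18865777) (nat_lit 12155) (nat_lit 28002610),Row.mk (nat_lit 19656) (nat_lit 11407) (nat_lit 20719132) (nat_lit 11968) (nat_lit 31951508) (nat_lit 12155) (nat_lit 26585977),Row.mk (nat_lit 19824) (nat_lit 11407) (nat_lit 6585234) (nat_lit 11968) (nat_lit 48295271) (nat_lit 12155) (nat_lit 24816636),Row.mk (nat_lit 19992) (nat_lit 11968) (nat_lit 57640572) (nat_lit 12155) (nat_lit 13745380) (nat_lit 12903) (nat_lit 8861391),Row.mk (nat_lit 20160) (nat_lit 11968) (nat_lit 54420244) (nat_lit 12716) (nat_lit 6667584) (nat_lit 12903) (nat_lit 19846704),Row.mk (nat_lit 20328) (nat_lit 11968) (nat_lit 33230484) (nat_lit 12716) (nat_lit 32162886) (nat_lit 12903) (nat_lit 16399447),Row.mk (nat_lit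 20496) (nat_lit 11968) (nat_lit 6764985) (nat_lit 12716) (nat_lit 64005902) (nat_lit 12903) (nat_lit 12093906),Row.mk (nat_lit 20664) (nat_lit 12716) (nat_lit 63154593) (nat_lit 13464) (nat_lit 14332684) (nat_lit 13651) (nat_lit 6716389),Row.mk (nat_lit 20832) (nat_lit 12716) (nat_lit 31772041) (nat_lit 13464) (nat_lit 54103843) (nat_lit 0) (nat_lit 0),Row.mk (nat_lit 21000) (nat_lit 13277) (nat_lit 10477169) (nat_lit 13464) (nat_lit 71543201) (nat_lit 14212) (nat_lit 5944076),Row.mk (nat_lit 21168) (nat_lit 13277) (nat_lit 23562900) (nat_lit 13464) (nat_lit 21869982) (nat_lit 14212) (nat_lit 45140125),Row.mk (nat_lit 21336) (nat_lit 14025) (nat_lit 39906663) (nat_lit 14212) (nat_lit 53712998) (nat_lit 15334) (nat_lit 211377),Row.mk (nat_lit 21504) (nat_lit 14025) (nat_lit 51991975) (nat_lit 15147) (nat_lit 8327652) (nat_lit 15334) (nat_lit 37580614),Row.mk (nat_lit 21672) (nat_lit 15147) (nat_lit 85814930) (nat_lit 15334) (nat_lit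 17167648) (nat_lit 0) (nat_lit 0),Row.mk (nat_lit 21840) (nat_lit 14960) (nat_lit 10401037) (nat_lit 15147) (nat_lit 46937280) (nat_lit 16456) (nat_lit 51991975),Row.mk (nat_lit 22008) (nat_lit 14960) (nat_lit 329737) (nat_lit 16269) (nat_lit 49842459) (nat_lit 16456) (nat_lit 67086239),Row.mk (nat_lit 22176) (nat_lit 16269) (nat_lit 70415921) (nat_lit 17765) (nat_lit 29429494) (nat_lit 17952) (nat_lit 27315080),Row.mk (nat_lit 22344) (nat_lit 16082) (nat_lit 11581012) (nat_lit 17578) (nat_lit 16343762) (nat_lit 17765) (nat_lit 111603154),Row.mk (nat_lit 22512) (nat_lit 17578) (nat_lit 105412052) (nat_lit 19822) (nat_lit 49562502) (nat_lit 0) (nat_lit 0),Row.mk (nat_lit 22680) (nat_lit 17391) (nat_lit 34877370) (nat_lit 17578) (nat_lit 16343762) (nat_lit 19635) (nat_lit 123045884),Row.mk (nat_lit 22848) (nat_lit 19448) (nat_lit 155752930) (nat_lit 19635) (nat_lit 29429494) (nat_lit 25993) (nat_lit 13180412),Row.mk (nat_lit 23016)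 (nat_lit 19261) (nat_lit 97751913) (nat_lit 19448) (nat_lit 49842459) (nat_lit 25806) (nat_lit 80863563),Row.mk (nat_lit 23184) (nat_lit 19074) (nat_lit 25310041) (nat_lit 19261) (nat_lit 75337761) (nat_lit 25619) (nat_lit 165398186),Row.mk (nat_lit 23352) (nat_lit 19074) (nat_lit 42012668) (nat_lit 25432) (nat_lit 218802654) (nat_lit 25619) (nat_lit 52177235),Row.mk (nat_lit 23520) (nat_lit 25245) (nat_lit 228972307) (nat_lit 25432) (nat_lit 117657946) (nat_lit 31790) (nat_lit 24997439),Row.mk (nat_lit 23688) (nat_lit 25058) (nat_lit 189201147) (nat_lit 25245) (nat_lit 157429105) (nat_lit 31603) (nat_lit 98231307),Row.mk (nat_lit 23856) (nat_lit 24871) (nat_lit 139527929) (nat_lit 25058) (nat_lit 207102324) (nat_lit 31416) (nat_lit 189698641),Row.mk (nat_lit 24024) (nat_lit 24684) (nat_lit 77487277) (nat_lit 24871) (nat_lit 269142976) (nat_lit 31229) (nat_lit 303939135),Row.mk (nat_lit 24192) (nat_lit 24684) (nat_lit 346630253) (nat_lit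 31042) (nat_lit 446622756) (nat_lit 0) (nat_lit 0),Row.mk (nat_lit 24360) (nat_lit 24497) (nat_lit 346630253) (nat_lit 30855) (nat_lit 547343879) (nat_lit 31042) (nat_lit 77487277),Row.mk (nat_lit 24528) (nat_lit 24310) (nat_lit 346630253) (nat_lit 30668) (nat_lit 673142132) (nat_lit 30855) (nat_lit 174267017),Row.mk (nat_lit 24696) (nat_lit 24123) (nat_lit 346630253) (nat_lit 30481) (nat_lit 830261115) (nat_lit 30668) (nat_lit 295142578),Row.mk (nat_lit 24864) (nat_lit 23936) (nat_lit 346630253) (nat_lit 30294) (nat_lit 1026498935) (nat_lit 30481) (nat_lit 446113237),Row.mk (nat_lit 25032) (nat_lit 23749) (nat_lit 346630253) (nat_lit 30107) (nat_lit 1271595237) (nat_lit 30294) (nat_lit 634671949),Row.mk (nat_lit 25200) (nat_lit 23562) (nat_lit 346630253) (nat_lit 29920) (nat_lit 1577714607) (nat_lit 30107) (nat_lit 870177230),Row.mk (nat_lit 25368) (nat_lit 23375) (nat_lit 346630253) (nat_lit 29733) (nat_lit 1960050315) (nat_lit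 29920) (nat_lit 1164317646),Row.mk (nat_lit 25536) (nat_lit 23188) (nat_lit 346630253) (nat_lit 29546) (nat_lit 2437578390) (nat_lit 29733) (nat_lit 1531691930),Row.mk (nat_lit 25704) (nat_lit 23001) (nat_lit 346630253) (nat_lit 29359) (nat_lit 3033999437) (nat_lit 29546) (nat_lit 1990533548),Row.mk (nat_lit 25872) (nat_lit 22814) (nat_lit 346630253) (nat_lit 29172) (nat_lit 3778914936) (nat_lit 29359) (nat_lit 2563615659),Row.mk (nat_lit 26040) (nat_lit 22627) (nat_lit 346630253) (nat_lit 28985) (nat_lit 4709296424) (nat_lit 29172) (nat_lit 3279381392),Row.mk (nat_lit 26208) (nat_lit 22440) (nat_lit 346630253) (nat_lit 28798) (nat_lit 5871320459) (nat_lit 28985) (nat_lit 4173355525),Row.mk (nat_lit 26376) (nat_lit 22253) (nat_lit 346630253) (nat_lit 28611) (nat_lit 7322660445) (nat_lit 28798) (nat_lit 5289907651),Row.mk (nat_lit 26544) (nat_lit 22066) (nat_lit 346630253) (nat_lit 28424) (nat_lit 9135349077) (nat_lit 28611) (nat_lit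 6684454320),Row.mk (nat_lit 26712) (nat_lit 21879) (nat_lit 346630253) (nat_lit 28237) (nat_lit 11399353449) (nat_lit 28424) (nat_lit 8426209469),Row.mk (nat_lit 26880) (nat_lit 21692) (nat_lit 346630253) (nat_lit 28050) (nat_lit 14227040293) (nat_lit 28237) (nat_lit 10601619632),Row.mk (nat_lit 27048) (nat_lit 21505) (nat_lit 346630253) (nat_lit 27863) (nat_lit 17758752947) (nat_lit 28050) (nat_lit 13318654447),Row.mk (nat_lit 27216) (nat_lit 21318) (nat_lit 346630253) (nat_lit 27676) (nat_lit 22169776853) (nat_lit 27863) (nat_lit 16712165385),Row.mk (nat_lit 27384) (nat_lit 21131) (nat_lit 346630253) (nat_lit 27489) (nat_lit 27679039301) (nat_lit 27676) (nat_lit 20950578682),Row.mk (nat_lit 27552) (nat_lit 20944) (nat_lit 346630253) (nat_lit 27302) (nat_lit 34559975194) (nat_lit 27489) (nat_lit 26244254643),Row.mk (nat_lit 27720) (nat_lit 32912) (nat_lit 85875885) (nat_lit 62084) (nat_lit 76201682046) (nat_lit 0) (nat_lit 0),Row.mk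 (nat_lit 27888) (nat_lit 32912) (nat_lit 85875885) (nat_lit 62084) (nat_lit 95193355063) (nat_lit 0) (nat_lit 0),Row.mk (nat_lit 28056) (nat_lit 32912) (nat_lit 85875885) (nat_lit 62084) (nat_lit 118913496511) (nat_lit 0) (nat_lit 0),Row.mk (nat_lit 28224) (nat_lit 32912) (nat_lit 85875885) (nat_lit 62084) (nat_lit 148539380959) (nat_lit 0) (nat_lit 0),Row.mk (nat_lit 28392) (nat_lit 32912) (nat_lit 85875885) (nat_lit 62084) (nat_lit 185541395946) (nat_lit 0) (nat_lit 0),Row.mk (nat_lit 28560) (nat_lit 32912) (nat_lit 85875885) (nat_lit 62084) (nat_lit 231756020035) (nat_lit 0) (nat_lit 0),Row.mk (nat_lit 28728) (nat_lit 32912) (nat_lit 85875885) (nat_lit 62084) (nat_lit 289476970650) (nat_lit 0) (nat_lit 0),Row.mk (nat_lit 28896) (nat_lit 32912) (nat_lit 85875885) (nat_lit 62084) (nat_lit 361569045518) (nat_lit 0) (nat_lit 0),Row.mk (nat_lit 29064) (nat_lit 32912) (nat_lit 85875885) (nat_lit 62084) (nat_lit 451610307894) (nat_lit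 0) (nat_lit 0),Row.mk (nat_lit 29232) (nat_lit 32912) (nat_lit 85875885) (nat_lit 62084) (nat_lit 564069672463) (nat_lit 0) (nat_lit 0),Row.mk (nat_lit 29400) (nat_lit 32912) (nat_lit 85875885) (nat_lit 62084) (nat_lit 704528705863) (nat_lit 0) (nat_lit 0),Row.mk (nat_lit 29568) (nat_lit 32912) (nat_lit 85875885) (nat_lit 62084) (nat_lit 879958650172) (nat_lit 0) (nat_lit 0),Row.mk (nat_lit 29736) (nat_lit 32912) (nat_lit 85875885) (nat_lit 62084) (nat_lit 1099066418577) (nat_lit 0) (nat_lit 0),Row.mk (nat_lit 29904) (nat_lit 32912) (nat_lit 85875885) (nat_lit 62084) (nat_lit 1372726735601) (nat_lit 0) (nat_lit 0),Row.mk (nat_lit 30072) (nat_lit 32912) (nat_lit 85875885) (nat_lit 62084) (nat_lit 1714521869836) (nat_lit 0) (nat_lit 0),Row.mk (nat_lit 30240) (nat_lit 32912) (nat_lit 85875885) (nat_lit 62084) (nat_lit 2141415747097) (nat_lit 0) (nat_lit 0),Row.mk (nat_lit 30408) (nat_lit 32912) (nat_lit 85875885) (nat_lit 62084) (nat_lit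 2674595901490) (nat_lit 0) (nat_lit 0),Row.mk (nat_lit 30576) (nat_lit 32912) (nat_lit 85875885) (nat_lit 62084) (nat_lit 3340525051994) (nat_lit 0) (nat_lit 0),Row.mk (nat_lit 30744) (nat_lit 32912) (nat_lit 85875885) (nat_lit 62084) (nat_lit 4172254496227) (nat_lit 0) (nat_lit 0),Row.mk (nat_lit 30912) (nat_lit 32912) (nat_lit 85875885) (nat_lit 62084) (nat_lit 5211064507596) (nat_lit 0) (nat_lit 0),Row.mk (nat_lit 31080) (nat_lit 32912) (nat_lit 85875885) (nat_lit 62084) (nat_lit 6508513151746) (nat_lit 0) (nat_lit 0)],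
[Row.mk (nat_lit 7896) (nat_lit 10846) (nat_lit 63087288) (nat_lit 11033) (nat_lit 33692438) (nat_lit 11594) (nat_lit 13),Row.mk (nat_lit 8064) (nat_lit 10846) (nat_lit 63087289) (nat_lit 11033) (nat_lit 33692435) (nat_lit 11594) (nat_lit 16),Row.mk (nat_lit 8232) (nat_lit 10846) (nat_lit 63087289) (nat_lit 11033) (nat_lit 33692430) (nat_lit 11594) (nat_lit 20),Row.mk (nat_lit 8400) (nat_lit 10846) (nat_lit 63087290) (nat_lit 11033) (nat_lit 33692425) (nat_lit 11594) (nat_lit 25),Row.mk (nat_lit 8568) (nat_lit 10846) (nat_lit 63087290) (nat_lit 11033) (nat_lit 33692418) (nat_lit 11594) (nat_lit 31),Row.mk (nat_lit 8736) (nat_lit 10846) (nat_lit 63087291) (nat_lit 11033) (nat_lit 33692409) (nat_lit 11594) (nat_lit 39),Row.mk (nat_lit 8904) (nat_lit 10846) (nat_lit 63087293) (nat_lit 11033) (nat_lit 33692398) (nat_lit 11594) (nat_lit 49),Row.mk (nat_lit 9072) (nat_lit 10846) (nat_lit 63087294) (nat_lit 11033) (nat_lit 33692385) (nat_lit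 11594) (nat_lit 61),Row.mk (nat_lit 9240) (nat_lit 10846) (nat_lit 63087296) (nat_lit 11033) (nat_lit 33692368) (nat_lit 11594) (nat_lit 77),Row.mk (nat_lit 9408) (nat_lit 10846) (nat_lit 63087298) (nat_lit 11033) (nat_lit 33692347) (nat_lit 11594) (nat_lit 96),Row.mk (nat_lit 9576) (nat_lit 10846) (nat_lit 63087301) (nat_lit 11033) (nat_lit 33692320) (nat_lit 11594) (nat_lit 120),Row.mk (nat_lit 9744) (nat_lit 10846) (nat_lit 63087304) (nat_lit 11033) (nat_lit 33692288) (nat_lit 11594) (nat_lit 150),Row.mk (nat_lit 9912) (nat_lit 10846) (nat_lit 63087309) (nat_lit 11033) (nat_lit 33692247) (nat_lit 11594) (nat_lit 188),Row.mk (nat_lit 10080) (nat_lit 10846) (nat_lit 63087314) (nat_lit 11033) (nat_lit 33692195) (nat_lit 11594) (nat_lit 234),Row.mk (nat_lit 10248) (nat_lit 10846) (nat_lit 63087321) (nat_lit 11033) (nat_lit 33692131) (nat_lit 11594) (nat_lit 293),Row.mk (nat_lit 10416) (nat_lit 10846) (nat_lit 63087330) (nat_lit 11033)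 (nat_lit 33692051) (nat_lit 11594) (nat_lit 366),Row.mk (nat_lit 10584) (nat_lit 10846) (nat_lit 63087341) (nat_lit 11033) (nat_lit 33691951) (nat_lit 11594) (nat_lit 457),Row.mk (nat_lit 10752) (nat_lit 10846) (nat_lit 63087354) (nat_lit 11033) (nat_lit 33691827) (nat_lit 11594) (nat_lit 571),Row.mk (nat_lit 10920) (nat_lit 10846) (nat_lit 63087371) (nat_lit 11033) (nat_lit 33691671) (nat_lit 11594) (nat_lit 713),Row.mk (nat_lit 11088) (nat_lit 10846) (nat_lit 63087392) (nat_lit 11033) (nat_lit 33691476) (nat_lit 11594) (nat_lit 891),Row.mk (nat_lit 11256) (nat_lit 10846) (nat_lit 63087419) (nat_lit 11033) (nat_lit 33691233) (nat_lit 11594) (nat_lit 1113),Row.mk (nat_lit 11424) (nat_lit 10846) (nat_lit 63087451) (nat_lit 11033) (nat_lit 33690930) (nat_lit 11594) (nat_lit 1390),Row.mk (nat_lit 11592) (nat_lit 10846) (nat_lit 63087493) (nat_lit 11033) (nat_lit 33690551) (nat_lit 11594) (nat_lit 1736),Row.mk (nat_lit 11760) (nat_lit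 10846) (nat_lit 63087544) (nat_lit 11033) (nat_lit 33690077) (nat_lit 11594) (nat_lit 2169),Row.mk (nat_lit 11928) (nat_lit 10846) (nat_lit 63087608) (nat_lit 11033) (nat_lit 33689486) (nat_lit 11594) (nat_lit 2709),Row.mk (nat_lit 12096) (nat_lit 10846) (nat_lit 63087688) (nat_lit 11033) (nat_lit 33688747) (nat_lit 11594) (nat_lit 3384),Row.mk (nat_lit 12264) (nat_lit 10846) (nat_lit 63087788) (nat_lit 11033) (nat_lit 33687825) (nat_lit 11594) (nat_lit 4226),Row.mk (nat_lit 12432) (nat_lit 10846) (nat_lit 63087912) (nat_lit 11033) (nat_lit 33686673) (nat_lit 11594) (nat_lit 5278),Row.mk (nat_lit 12600) (nat_lit 10846) (nat_lit 63088068) (nat_lit 11033) (nat_lit 33685233) (nat_lit 11594) (nat_lit 6593),Row.mk (nat_lit 12768) (nat_lit 10846) (nat_lit 63088263) (nat_lit 11033) (nat_lit 33683436) (nat_lit 11594) (nat_lit 8234),Row.mk (nat_lit 12936) (nat_lit 10846) (nat_lit 63088506) (nat_lit 11033) (nat_lit 33681191) (nat_lit 11594)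 (nat_lit 10285),Row.mk (nat_lit 13104) (nat_lit 10846) (nat_lit 63088809) (nat_lit 11033) (nat_lit 33678387) (nat_lit 11594) (nat_lit 12845),Row.mk (nat_lit 13272) (nat_lit 10846) (nat_lit 63089188) (nat_lit 11033) (nat_lit 33674886) (nat_lit 11594) (nat_lit 16044),Row.mk (nat_lit 13440) (nat_lit 10846) (nat_lit 63089662) (nat_lit 11033) (nat_lit 33670512) (nat_lit 11594) (nat_lit 20038),Row.mk (nat_lit 13608) (nat_lit 10846) (nat_lit 63090253) (nat_lit 11033) (nat_lit 33665049) (nat_lit 11594) (nat_lit 25028),Row.mk (nat_lit 13776) (nat_lit 10846) (nat_lit 63090992) (nat_lit 11033) (nat_lit 33658226) (nat_lit 11594) (nat_lit 31259),Row.mk (nat_lit 13944) (nat_lit 10846) (nat_lit 63091914) (nat_lit 11033) (nat_lit 33649705) (nat_lit 11594) (nat_lit 39042),Row.mk (nat_lit 14112) (nat_lit 10846) (nat_lit 63093067) (nat_lit 11033) (nat_lit 33639062) (nat_lit 11594) (nat_lit 48762),Row.mk (nat_lit 14280) (nat_lit 10846) (nat_lit 63094506)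 (nat_lit 11033) (nat_lit 33625769) (nat_lit 11594) (nat_lit 60903),Row.mk (nat_lit 14448) (nat_lit 10846) (nat_lit 63096303) (nat_lit 11033) (nat_lit 33609166) (nat_lit 11594) (nat_lit 76067),Row.mk (nat_lit 14616) (nat_lit 10846) (nat_lit 63098548) (nat_lit 11033) (nat_lit 33588430) (nat_lit 11594) (nat_lit 95006),Row.mk (nat_lit 14784) (nat_lit 10846) (nat_lit 63101352) (nat_lit 11033) (nat_lit 33562531) (nat_lit 11594) (nat_lit 118660),Row.mk (nat_lit 14952) (nat_lit 10846) (nat_lit 63104854) (nat_lit 11033) (nat_lit 33530184) (nat_lit 11594) (nat_lit 148203),Row.mk (nat_lit 15120) (nat_lit 10846) (nat_lit 63109227) (nat_lit 11033) (nat_lit 33489782) (nat_lit 11594) (nat_lit 185103),Row.mk (nat_lit 15288) (nat_lit 10846) (nat_lit 63114690) (nat_lit 11033) (nat_lit 33439323) (nat_lit 11594) (nat_lit 231189),Row.mk (nat_lit 15456) (nat_lit 10846) (nat_lit 63121513) (nat_lit 11033) (nat_lit 33376299) (nat_lit 11594) (nat_lit 288749),Row.mk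 (nat_lit 15624) (nat_lit 10846) (nat_lit 63130034) (nat_lit 11033) (nat_lit 33297585) (nat_lit 11594) (nat_lit 360641),Row.mk (nat_lit 15792) (nat_lit 10846) (nat_lit 63140677) (nat_lit 11033) (nat_lit 33199272) (nat_lit 11594) (nat_lit 450432),Row.mk (nat_lit 15960) (nat_lit 10846) (nat_lit 63153970) (nat_lit 11033) (nat_lit 33076482) (nat_lit 11594) (nat_lit 562579),Row.mk (nat_lit 16128) (nat_lit 10846) (nat_lit 63170573) (nat_lit 11033) (nat_lit 32923121) (nat_lit 11594) (nat_lit 702648),Row.mk (nat_lit 16296) (nat_lit 10846) (nat_lit 63191309) (nat_lit 11033) (nat_lit 32731575) (nat_lit 11594) (nat_lit 877590),Row.mk (nat_lit 16464) (nat_lit 10846) (nat_lit 63217208) (nat_lit 11033) (nat_lit 32492340) (nat_lit 11594) (nat_lit 1096089),Row.mk (nat_lit 16632) (nat_lit 10846) (nat_lit 63249556) (nat_lit 11033) (nat_lit 32193541) (nat_lit 11594) (nat_lit 1368989),Row.mk (nat_lit 16800) (nat_lit 10846) (nat_lit 63289957) (nat_lit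 11033) (nat_lit 31820348) (nat_lit 11594) (nat_lit 1709835),Row.mk (nat_lit 16968) (nat_lit 10846) (nat_lit 63340417) (nat_lit 11033) (nat_lit 31354240) (nat_lit 11594) (nat_lit 2135542),Row.mk (nat_lit 17136) (nat_lit 10846) (nat_lit 63403440) (nat_lit 11033) (nat_lit 30772081) (nat_lit 11594) (nat_lit 2667241),Row.mk (nat_lit 17304) (nat_lit 10846) (nat_lit 63482154) (nat_lit 11033) (nat_lit 30044979) (nat_lit 11594) (nat_lit 3331320),Row.mk (nat_lit 17472) (nat_lit 10846) (nat_lit 63580467) (nat_lit 11033) (nat_lit 29136846) (nat_lit 11594) (nat_lit 4160738),Row.mk (nat_lit 17640) (nat_lit 10846) (nat_lit 63703257) (nat_lit 11033) (nat_lit 28002610) (nat_lit 11594) (nat_lit 5196662),Row.mk (nat_lit 17808) (nat_lit 10846) (nat_lit 63856619) (nat_lit 11033) (nat_lit 26585977) (nat_lit 11594) (nat_lit 6490505),Row.mk (nat_lit 17976) (nat_lit 10846) (nat_lit 64048164) (nat_lit 11033) (nat_lit 24816636) (nat_lit 11594) (nat_lit 8106484),Row.mk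 (nat_lit 18144) (nat_lit 10846) (nat_lit 64287399) (nat_lit 11033) (nat_lit 22606771) (nat_lit 11594) (nat_lit 10124804),Row.mk (nat_lit 18312) (nat_lit 10846) (nat_lit 64586198) (nat_lit 11033) (nat_lit 19846704) (nat_lit 11594) (nat_lit 12645635),Row.mk (nat_lit 18480) (nat_lit 10846) (nat_lit 64959391) (nat_lit 11033) (nat_lit 16399447) (nat_lit 11594) (nat_lit 15794094),Row.mk (nat_lit 18648) (nat_lit 10846) (nat_lit 65425499) (nat_lit 11033) (nat_lit 12093906) (nat_lit 11594) (nat_lit 19726442),Row.mk (nat_lit 18816) (nat_lit 10846) (nat_lit 66007658) (nat_lit 11033) (nat_lit 6716389) (nat_lit 11594) (nat_lit 24637851),Row.mk (nat_lit 18984) (nat_lit 10846) (nat_lit 66734760) (nat_lit 11594) (nat_lit 30772081) (nat_lit 0) (nat_lit 0),Row.mk (nat_lit 19152) (nat_lit 10846) (nat_lit 59254285) (nat_lit 11407) (nat_lit 8388608) (nat_lit 11594) (nat_lit 30044979),Row.mk (nat_lit 19320) (nat_lit 10846) (nat_lit 49911352) (nat_lit 11407)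 (nat_lit 18865777) (nat_lit 11594) (nat_lit 29136846),Row.mk (nat_lit 19488) (nat_lit 10846) (nat_lit 38242254) (nat_lit 11407) (nat_lit 31951508) (nat_lit 11594) (nat_lit 28002610),Row.mk (nat_lit 19656) (nat_lit 10846) (nat_lit 23667832) (nat_lit 11407) (nat_lit 48295271) (nat_lit 11594) (nat_lit 26585977),Row.mk (nat_lit 19824) (nat_lit 10846) (nat_lit 5464731) (nat_lit 11407) (nat_lit 68708236) (nat_lit 11594) (nat_lit 24816636),Row.mk (nat_lit 19992) (nat_lit 11407) (nat_lit 76933035) (nat_lit 11594) (nat_lit 8779040) (nat_lit 12155) (nat_lit 13827731),Row.mk (nat_lit 20160) (nat_lit 11407) (nat_lit 63664031) (nat_lit 11968) (nat_lit 16716260) (nat_lit 12155) (nat_lit 19846704),Row.mk (nat_lit 20328) (nat_lit 11407) (nat_lit 36126556) (nat_lit 11968) (nat_lit 48559277) (nat_lit 12155) (nat_lit 16399447),Row.mk (nat_lit 20496) (nat_lit 11407) (nat_lit 1732914) (nat_lit 11968) (nat_lit 88330436) (nat_lit 12155) (nat_lit 12093906),Row.mk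 (nat_lit 20664) (nat_lit 11968) (nat_lit 70489955) (nat_lit 12716) (nat_lit 26289784) (nat_lit 12903) (nat_lit 6716389),Row.mk (nat_lit 20832) (nat_lit 11968) (nat_lit 29205344) (nat_lit 12716) (nat_lit 75963003) (nat_lit 0) (nat_lit 0),Row.mk (nat_lit 21000) (nat_lit 12529) (nat_lit 10477169) (nat_lit 12716) (nat_lit 78878563) (nat_lit 13464) (nat_lit 17901176),Row.mk (nat_lit 21168) (nat_lit 12529) (nat_lit 23562900) (nat_lit 12716) (nat_lit 16837911) (nat_lit 13464) (nat_lit 69464659),Row.mk (nat_lit 21336) (nat_lit 13277) (nat_lit 39906663) (nat_lit 13464) (nat_lit 56609070) (nat_lit 14212) (nat_lit 16607768),Row.mk (nat_lit 21504) (nat_lit 13277) (nat_lit 39441422) (nat_lit 14025) (nat_lit 20878206) (nat_lit 14212) (nat_lit 56873076),Row.mk (nat_lit 21672) (nat_lit 14025) (nat_lit 85814930) (nat_lit 14212) (nat_lit 10964810) (nat_lit 15334) (nat_lit 25495301),Row.mk (nat_lit 21840) (nat_lit 14025) (nat_lit 31843016) (nat_lit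 15147) (nat_lit 85814930) (nat_lit 15334) (nat_lit 10964810),Row.mk (nat_lit 22008) (nat_lit 14960) (nat_lit 26076376) (nat_lit 15147) (nat_lit 71033101) (nat_lit 16456) (nat_lit 39441422),Row.mk (nat_lit 22176) (nat_lit 14960) (nat_lit 25907135) (nat_lit 16269) (nat_lit 49842459) (nat_lit 16456) (nat_lit 70703363),Row.mk (nat_lit 22344) (nat_lit 16269) (nat_lit 108360752) (nat_lit 17765) (nat_lit 29429494) (nat_lit 17952) (nat_lit 21030145),Row.mk (nat_lit 22512) (nat_lit 16082) (nat_lit 34877370) (nat_lit 17578) (nat_lit 16343762) (nat_lit 17765) (nat_lit 123045884),Row.mk (nat_lit 22680) (nat_lit 17578) (nat_lit 148000873) (nat_lit 19822) (nat_lit 45558607) (nat_lit 0) (nat_lit 0),Row.mk (nat_lit 22848) (nat_lit 17391) (nat_lit 63973959) (nat_lit 17578) (nat_lit 16343762) (nat_lit 19635) (nat_lit 137337578),Row.mk (nat_lit 23016) (nat_lit 19448) (nat_lit 214944618) (nat_lit 19635) (nat_lit 29429494) (nat_lit 25993) (nat_lit 3376286),Row.mk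 (nat_lit 23184) (nat_lit 19261) (nat_lit 147585083) (nat_lit 19448) (nat_lit 49842459) (nat_lit 25806) (nat_lit 87910908),Row.mk (nat_lit 23352) (nat_lit 19074) (nat_lit 63454647) (nat_lit 19261) (nat_lit 75337761) (nat_lit 25619) (nat_lit 193492613),Row.mk (nat_lit 23520) (nat_lit 19074) (nat_lit 65558540) (nat_lit 25432) (nat_lit 292036522) (nat_lit 25619) (nat_lit 33325092),Row.mk (nat_lit 23688) (nat_lit 25245) (nat_lit 325752047) (nat_lit 25432) (nat_lit 117657946) (nat_lit 31790) (nat_lit 20744030),Row.mk (nat_lit 23856) (nat_lit 25058) (nat_lit 285980887) (nat_lit 25245) (nat_lit 157429105) (nat_lit 31603) (nat_lit 112211364),Row.mk (nat_lit 24024) (nat_lit 24871) (nat_lit 236307669) (nat_lit 25058) (nat_lit 207102324) (nat_lit 31416) (nat_lit 226451858),Row.mk (nat_lit 24192) (nat_lit 24684) (nat_lit 174267017) (nat_lit 24871) (nat_lit 269142976) (nat_lit 31229) (nat_lit 369135478),Row.mk (nat_lit 24360) (nat_lit 24497) (nat_lit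 96779740) (nat_lit 24684) (nat_lit 346630253) (nat_lit 31042) (nat_lit 547343879),Row.mk (nat_lit 24528) (nat_lit 24497) (nat_lit 443409993) (nat_lit 30855) (nat_lit 769921872) (nat_lit 0) (nat_lit 0),Row.mk (nat_lit 24696) (nat_lit 24310) (nat_lit 443409993) (nat_lit 30668) (nat_lit 951136676) (nat_lit 30855) (nat_lit 96779740),Row.mk (nat_lit 24864) (nat_lit 24123) (nat_lit 443409993) (nat_lit 30481) (nat_lit 1177469594) (nat_lit 30668) (nat_lit 217655300),Row.mk (nat_lit 25032) (nat_lit 23936) (nat_lit 443409993) (nat_lit 30294) (nat_lit 1460153949) (nat_lit 30481) (nat_lit 368625960),Row.mk (nat_lit 25200) (nat_lit 23749) (nat_lit 443409993) (nat_lit 30107) (nat_lit 1813219889) (nat_lit 30294) (nat_lit 557184671),Row.mk (nat_lit 25368) (nat_lit 23562) (nat_lit 443409993) (nat_lit 29920) (nat_lit 2254190730) (nat_lit 30107) (nat_lit 792689953),Row.mk (nat_lit 25536) (nat_lit 23375) (nat_lit 443409993) (nat_lit 29733) (nat_lit 2804952674)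 (nat_lit 29920) (nat_lit 1086830369),Row.mk (nat_lit 25704) (nat_lit 23188) (nat_lit 443409993) (nat_lit 29546) (nat_lit 3492841054) (nat_lit 29733) (nat_lit 1454204653),Row.mk (nat_lit 25872) (nat_lit 23001) (nat_lit 443409993) (nat_lit 29359) (nat_lit 4351997047) (nat_lit 29546) (nat_lit 1913046270),Row.mk (nat_lit 26040) (nat_lit 22814) (nat_lit 443409993) (nat_lit 29172) (nat_lit 5425062157) (nat_lit 29359) (nat_lit 2486128382),Row.mk (nat_lit 26208) (nat_lit 22627) (nat_lit 443409993) (nat_lit 28985) (nat_lit 6765294592) (nat_lit 29172) (nat_lit 3201894114),Row.mk (nat_lit 26376) (nat_lit 22440) (nat_lit 443409993) (nat_lit 28798) (nat_lit 8439212571) (nat_lit 28985) (nat_lit 4095868247),Row.mk (nat_lit 26544) (nat_lit 22253) (nat_lit 443409993) (nat_lit 28611) (nat_lit 10529895747) (nat_lit 28798) (nat_lit 5212420373),Row.mk (nat_lit 26712) (nat_lit 22066) (nat_lit 443409993) (nat_lit 28424) (nat_lit 13141108598) (nat_lit 28611)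 (nat_lit 6606967043),Row.mk (nat_lit 26880) (nat_lit 21879) (nat_lit 443409993) (nat_lit 28237) (nat_lit 16402450456) (nat_lit 28424) (nat_lit 8348722192),Row.mk (nat_lit 27048) (nat_lit 21692) (nat_lit 443409993) (nat_lit 28050) (nat_lit 20475787761) (nat_lit 28237) (nat_lit 10524132355),Row.mk (nat_lit 27216) (nat_lit 21505) (nat_lit 443409993) (nat_lit 27863) (nat_lit 25563287791) (nat_lit 28050) (nat_lit 13241167169),Row.mk (nat_lit 27384) (nat_lit 21318) (nat_lit 443409993) (nat_lit 27676) (nat_lit 31917452598) (nat_lit 27863) (nat_lit 16634678107),Row.mk (nat_lit 27552) (nat_lit 21131) (nat_lit 443409993) (nat_lit 27489) (nat_lit 39853651156) (nat_lit 27676) (nat_lit 20873091404),Row.mk (nat_lit 27720) (nat_lit 20944) (nat_lit 443409993) (nat_lit 27302) (nat_lit 49765771703) (nat_lit 27489) (nat_lit 26166767366),Row.mk (nat_lit 27888) (nat_lit 32912) (nat_lit 105168348) (nat_lit 62084) (nat_lit 95174062601) (nat_lit 0) (nat_lit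 0),Row.mk (nat_lit 28056) (nat_lit 32912) (nat_lit 105168348) (nat_lit 62084) (nat_lit 118894204048) (nat_lit 0) (nat_lit 0),Row.mk (nat_lit 28224) (nat_lit 32912) (nat_lit 105168348) (nat_lit 62084) (nat_lit 148520088497) (nat_lit 0) (nat_lit 0),Row.mk (nat_lit 28392) (nat_lit 32912) (nat_lit 105168348) (nat_lit 62084) (nat_lit 185522103483) (nat_lit 0) (nat_lit 0),Row.mk (nat_lit 28560) (nat_lit 32912) (nat_lit 105168348) (nat_lit 62084) (nat_lit 231736727572) (nat_lit 0) (nat_lit 0),Row.mk (nat_lit 28728) (nat_lit 32912) (nat_lit 105168348) (nat_lit 62084) (nat_lit 289457678187) (nat_lit 0) (nat_lit 0),Row.mk (nat_lit 28896) (nat_lit 32912) (nat_lit 105168348) (nat_lit 62084) (nat_lit 361549753055) (nat_lit 0) (nat_lit 0),Row.mk (nat_lit 29064) (nat_lit 32912) (nat_lit 105168348) (nat_lit 62084) (nat_lit 451591015431) (nat_lit 0) (nat_lit 0),Row.mk (nat_lit 29232) (nat_lit 32912) (nat_lit 105168348) (nat_lit 62084) (nat_lit 564050380000)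 (nat_lit 0) (nat_lit 0),Row.mk (nat_lit 29400) (nat_lit 32912) (nat_lit 105168348) (nat_lit 62084) (nat_lit 704509413400) (nat_lit 0) (nat_lit 0),Row.mk (nat_lit 29568) (nat_lit 32912) (nat_lit 105168348) (nat_lit 62084) (nat_lit 879939357709) (nat_lit 0) (nat_lit 0),Row.mk (nat_lit 29736) (nat_lit 32912) (nat_lit 105168348) (nat_lit 62084) (nat_lit 1099047126114) (nat_lit 0) (nat_lit 0),Row.mk (nat_lit 29904) (nat_lit 32912) (nat_lit 105168348) (nat_lit 62084) (nat_lit 1372707443138) (nat_lit 0) (nat_lit 0),Row.mk (nat_lit 30072) (nat_lit 32912) (nat_lit 105168348) (nat_lit 62084) (nat_lit 1714502577373) (nat_lit 0) (nat_lit 0),Row.mk (nat_lit 30240) (nat_lit 32912) (nat_lit 105168348) (nat_lit 62084) (nat_lit 2141396454634) (nat_lit 0) (nat_lit 0),Row.mk (nat_lit 30408) (nat_lit 32912) (nat_lit 105168348) (nat_lit 62084) (nat_lit 2674576609027) (nat_lit 0) (nat_lit 0),Row.mk (nat_lit 30576) (nat_lit 32912) (nat_lit 105168348) (nat_lit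 62084) (nat_lit 3340505759531) (nat_lit 0) (nat_lit 0),Row.mk (nat_lit 30744) (nat_lit 32912) (nat_lit 105168348) (nat_lit 62084) (nat_lit 4172235203765) (nat_lit 0) (nat_lit 0),Row.mk (nat_lit 30912) (nat_lit 32912) (nat_lit 105168348) (nat_lit 62084) (nat_lit 5211045215133) (nat_lit 0) (nat_lit 0),Row.mk (nat_lit 31080) (nat_lit 32912) (nat_lit 105168348) (nat_lit 62084) (nat_lit 6508493859283) (nat_lit 0) (nat_lit 0)],
[Row.mk (nat_lit 8064) (nat_lit 10285) (nat_lit 87183109) (nat_lit 10472) (nat_lit 33692430) (nat_lit 11033) (nat_lit 20),Row.mk (nat_lit 8232) (nat_lit 10285) (nat_lit 87183110) (nat_lit 10472) (nat_lit 33692425) (nat_lit 11033) (nat_lit 25),Row.mk (nat_lit 8400) (nat_lit 10285) (nat_lit 87183110) (nat_lit 10472) (nat_lit 33692418) (nat_lit 11033) (nat_lit 32),Row.mk (nat_lit 8568) (nat_lit 10285) (nat_lit 87183111) (nat_lit 10472) (nat_lit 33692409) (nat_lit 11033) (nat_lit 40),Row.mk (nat_lit 8736) (nat_lit 10285)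 (nat_lit 87183112) (nat_lit 10472) (nat_lit 33692398) (nat_lit 11033) (nat_lit 50),Row.mk (nat_lit 8904) (nat_lit 10285) (nat_lit 87183113) (nat_lit 10472) (nat_lit 33692385) (nat_lit 11033) (nat_lit 63),Row.mk (nat_lit 9072) (nat_lit 10285) (nat_lit 87183115) (nat_lit 10472) (nat_lit 33692368) (nat_lit 11033) (nat_lit 78),Row.mk (nat_lit 9240) (nat_lit 10285) (nat_lit 87183116) (nat_lit 10472) (nat_lit 33692347) (nat_lit 11033) (nat_lit 98),Row.mk (nat_lit 9408) (nat_lit 10285) (nat_lit 87183119) (nat_lit 10472) (nat_lit 33692320) (nat_lit 11033) (nat_lit 122),Row.mk (nat_lit 9576) (nat_lit 10285) (nat_lit 87183122) (nat_lit 10472) (nat_lit 33692288) (nat_lit 11033) (nat_lit 153),Row.mk (nat_lit 9744) (nat_lit 10285) (nat_lit 87183125) (nat_lit 10472) (nat_lit 33692247) (nat_lit 11033) (nat_lit 191),Row.mk (nat_lit 9912) (nat_lit 10285) (nat_lit 87183130) (nat_lit 10472) (nat_lit 33692195) (nat_lit 11033) (nat_lit 239),Row.mk (nat_lit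 10080) (nat_lit 10285) (nat_lit 87183135) (nat_lit 10472) (nat_lit 33692131) (nat_lit 11033) (nat_lit 298),Row.mk (nat_lit 10248) (nat_lit 10285) (nat_lit 87183142) (nat_lit 10472) (nat_lit 33692051) (nat_lit 11033) (nat_lit 373),Row.mk (nat_lit 10416) (nat_lit 10285) (nat_lit 87183151) (nat_lit 10472) (nat_lit 33691951) (nat_lit 11033) (nat_lit 466),Row.mk (nat_lit 10584) (nat_lit 10285) (nat_lit 87183161) (nat_lit 10472) (nat_lit 33691827) (nat_lit 11033) (nat_lit 582),Row.mk (nat_lit 10752) (nat_lit 10285) (nat_lit 87183175) (nat_lit 10472) (nat_lit 33691671) (nat_lit 11033) (nat_lit 727),Row.mk (nat_lit 10920) (nat_lit 10285) (nat_lit 87183192) (nat_lit 10472) (nat_lit 33691476) (nat_lit 11033) (nat_lit 908),Row.mk (nat_lit 11088) (nat_lit 10285) (nat_lit 87183213) (nat_lit 10472) (nat_lit 33691233) (nat_lit 11033) (nat_lit 1134),Row.mk (nat_lit 11256) (nat_lit 10285) (nat_lit 87183239) (nat_lit 10472) (nat_lit 33690930) (nat_lit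 11033) (nat_lit 1416),Row.mk (nat_lit 11424) (nat_lit 10285) (nat_lit 87183272) (nat_lit 10472) (nat_lit 33690551) (nat_lit 11033) (nat_lit 1769),Row.mk (nat_lit 11592) (nat_lit 10285) (nat_lit 87183313) (nat_lit 10472) (nat_lit 33690077) (nat_lit 11033) (nat_lit 2210),Row.mk (nat_lit 11760) (nat_lit 10285) (nat_lit 87183364) (nat_lit 10472) (nat_lit 33689486) (nat_lit 11033) (nat_lit 2760),Row.mk (nat_lit 11928) (nat_lit 10285) (nat_lit 87183428) (nat_lit 10472) (nat_lit 33688747) (nat_lit 11033) (nat_lit 3448),Row.mk (nat_lit 12096) (nat_lit 10285) (nat_lit 87183508) (nat_lit 10472) (nat_lit 33687825) (nat_lit 11033) (nat_lit 4306),Row.mk (nat_lit 12264) (nat_lit 10285) (nat_lit 87183608) (nat_lit 10472) (nat_lit 33686673) (nat_lit 11033) (nat_lit 5378),Row.mk (nat_lit 12432) (nat_lit 10285) (nat_lit 87183733) (nat_lit 10472) (nat_lit 33685233) (nat_lit 11033) (nat_lit 6718),Row.mk (nat_lit 12600) (nat_lit 10285) (nat_lit 87183889)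 (nat_lit 10472) (nat_lit 33683436) (nat_lit 11033) (nat_lit 8390),Row.mk (nat_lit 12768) (nat_lit 10285) (nat_lit 87184083) (nat_lit 10472) (nat_lit 33681191) (nat_lit 11033) (nat_lit 10479),Row.mk (nat_lit 12936) (nat_lit 10285) (nat_lit 87184326) (nat_lit 10472) (nat_lit 33678387) (nat_lit 11033) (nat_lit 13088),Row.mk (nat_lit 13104) (nat_lit 10285) (nat_lit 87184630) (nat_lit 10472) (nat_lit 33674886) (nat_lit 11033) (nat_lit 16347),Row.mk (nat_lit 13272) (nat_lit 10285) (nat_lit 87185009) (nat_lit 10472) (nat_lit 33670512) (nat_lit 11033) (nat_lit 20417),Row.mk (nat_lit 13440) (nat_lit 10285) (nat_lit 87185482) (nat_lit 10472) (nat_lit 33665049) (nat_lit 11033) (nat_lit 25501),Row.mk (nat_lit 13608) (nat_lit 10285) (nat_lit 87186074) (nat_lit 10472) (nat_lit 33658226) (nat_lit 11033) (nat_lit 31850),Row.mk (nat_lit 13776) (nat_lit 10285) (nat_lit 87186812) (nat_lit 10472) (nat_lit 33649705) (nat_lit 11033) (nat_lit 39780),Row.mk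 (nat_lit 13944) (nat_lit 10285) (nat_lit 87187735) (nat_lit 10472) (nat_lit 33639062) (nat_lit 11033) (nat_lit 49685),Row.mk (nat_lit 14112) (nat_lit 10285) (nat_lit 87188887) (nat_lit 10472) (nat_lit 33625769) (nat_lit 11033) (nat_lit 62055),Row.mk (nat_lit 14280) (nat_lit 10285) (nat_lit 87190326) (nat_lit 10472) (nat_lit 33609166) (nat_lit 11033) (nat_lit 77506),Row.mk (nat_lit 14448) (nat_lit 10285) (nat_lit 87192124) (nat_lit 10472) (nat_lit 33588430) (nat_lit 11033) (nat_lit 96803),Row.mk (nat_lit 14616) (nat_lit 10285) (nat_lit 87194368) (nat_lit 10472) (nat_lit 33562531) (nat_lit 11033) (nat_lit 120905),Row.mk (nat_lit 14784) (nat_lit 10285) (nat_lit 87197172) (nat_lit 10472) (nat_lit 33530184) (nat_lit 11033) (nat_lit 151007),Row.mk (nat_lit 14952) (nat_lit 10285) (nat_lit 87200674) (nat_lit 10472) (nat_lit 33489782) (nat_lit 11033) (nat_lit 188604),Row.mk (nat_lit 15120) (nat_lit 10285) (nat_lit 87205048) (nat_lit 10472)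 (nat_lit 33439323) (nat_lit 11033) (nat_lit 235563),Row.mk (nat_lit 15288) (nat_lit 10285) (nat_lit 87210511) (nat_lit 10472) (nat_lit 33376299) (nat_lit 11033) (nat_lit 294212),Row.mk (nat_lit 15456) (nat_lit 10285) (nat_lit 87217333) (nat_lit 10472) (nat_lit 33297585) (nat_lit 11033) (nat_lit 367464),Row.mk (nat_lit 15624) (nat_lit 10285) (nat_lit 87225855) (nat_lit 10472) (nat_lit 33199272) (nat_lit 11033) (nat_lit 458954),Row.mk (nat_lit 15792) (nat_lit 10285) (nat_lit 87236498) (nat_lit 10472) (nat_lit 33076482) (nat_lit 11033) (nat_lit 573222),Row.mk (nat_lit 15960) (nat_lit 10285) (nat_lit 87249791) (nat_lit 10472) (nat_lit 32923121) (nat_lit 11033) (nat_lit 715941),Row.mk (nat_lit 16128) (nat_lit 10285) (nat_lit 87266393) (nat_lit 10472) (nat_lit 32731575) (nat_lit 11033) (nat_lit 894193),Row.mk (nat_lit 16296) (nat_lit 10285) (nat_lit 87287130) (nat_lit 10472) (nat_lit 32492340) (nat_lit 11033) (nat_lit 1116826),Row.mk (nat_lit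 16464) (nat_lit 10285) (nat_lit 87313029) (nat_lit 10472) (nat_lit 32193541) (nat_lit 11033) (nat_lit 1394888),Row.mk (nat_lit 16632) (nat_lit 10285) (nat_lit 87345376) (nat_lit 10472) (nat_lit 31820348) (nat_lit 11033) (nat_lit 1742182),Row.mk (nat_lit 16800) (nat_lit 10285) (nat_lit 87385777) (nat_lit 10472) (nat_lit 31354240) (nat_lit 11033) (nat_lit 2175943),Row.mk (nat_lit 16968) (nat_lit 10285) (nat_lit 87436237) (nat_lit 10472) (nat_lit 30772081) (nat_lit 11033) (nat_lit 2717701),Row.mk (nat_lit 17136) (nat_lit 10285) (nat_lit 87499260) (nat_lit 10472) (nat_lit 30044979) (nat_lit 11033) (nat_lit 3394343),Row.mk (nat_lit 17304) (nat_lit 10285) (nat_lit 87577975) (nat_lit 10472) (nat_lit 29136846) (nat_lit 11033) (nat_lit 4239453),Row.mk (nat_lit 17472) (nat_lit 10285) (nat_lit 87676287) (nat_lit 10472) (nat_lit 28002610) (nat_lit 11033) (nat_lit 5294974),Row.mk (nat_lit 17640) (nat_lit 10285) (nat_lit 87799077) (nat_lit 10472)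 (nat_lit 26585977) (nat_lit 11033) (nat_lit 6613295),Row.mk (nat_lit 17808) (nat_lit 10285) (nat_lit 87952439) (nat_lit 10472) (nat_lit 24816636) (nat_lit 11033) (nat_lit 8259846),Row.mk (nat_lit 17976) (nat_lit 10285) (nat_lit 88143984) (nat_lit 10472) (nat_lit 22606771) (nat_lit 11033) (nat_lit 10316349),Row.mk (nat_lit 18144) (nat_lit 10285) (nat_lit 88383220) (nat_lit 10472) (nat_lit 19846704) (nat_lit 11033) (nat_lit 12884871),Row.mk (nat_lit 18312) (nat_lit 10285) (nat_lit 88682019) (nat_lit 10472) (nat_lit 16399447) (nat_lit 11033) (nat_lit 16092893),Row.mk (nat_lit 18480) (nat_lit 10285) (nat_lit 89055211) (nat_lit 10472) (nat_lit 12093906) (nat_lit 11033) (nat_lit 20099635),Row.mk (nat_lit 18648) (nat_lit 10285) (nat_lit 89521320) (nat_lit 10472) (nat_lit 6716389) (nat_lit 11033) (nat_lit 25103959),Row.mk (nat_lit 18816) (nat_lit 10285) (nat_lit 90103479) (nat_lit 11033) (nat_lit 31354240) (nat_lit 0) (nat_lit 0),Row.mk (nat_lit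 18984) (nat_lit 10285) (nat_lit 82441973) (nat_lit 10846) (nat_lit 8388608) (nat_lit 11033) (nat_lit 30772081),Row.mk (nat_lit 19152) (nat_lit 10285) (nat_lit 72872936) (nat_lit 10846) (nat_lit 18865777) (nat_lit 11033) (nat_lit 30044979),Row.mk (nat_lit 19320) (nat_lit 10285) (nat_lit 60921441) (nat_lit 10846) (nat_lit 31951508) (nat_lit 11033) (nat_lit 29136846),Row.mk (nat_lit 19488) (nat_lit 10285) (nat_lit 45994312) (nat_lit 10846) (nat_lit 48295271) (nat_lit 11033) (nat_lit 28002610),Row.mk (nat_lit 19656) (nat_lit 10285) (nat_lit 27350687) (nat_lit 10846) (nat_lit 68708236) (nat_lit 11033) (nat_lit 26585977),Row.mk (nat_lit 19824) (nat_lit 10285) (nat_lit 4065250) (nat_lit 10846) (nat_lit 94203538) (nat_lit 11033) (nat_lit 24816636),Row.mk (nat_lit 19992) (nat_lit 10846) (nat_lit 101028855) (nat_lit 11033) (nat_lit 2576202) (nat_lit 11594) (nat_lit 20030569),Row.mk (nat_lit 20160) (nat_lit 10846) (nat_lit 75209298) (nat_lit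 11407) (nat_lit 29266814) (nat_lit 11594) (nat_lit 19846704),Row.mk (nat_lit 20328) (nat_lit 10846) (nat_lit 39743680) (nat_lit 11407) (nat_lit 69037973) (nat_lit 11594) (nat_lit 16399447),Row.mk (nat_lit 20496) (nat_lit 11407) (nat_lit 114159171) (nat_lit 11594) (nat_lit 8449303) (nat_lit 12155) (nat_lit 3644602),Row.mk (nat_lit 20664) (nat_lit 11407) (nat_lit 79651645) (nat_lit 11968) (nat_lit 41223914) (nat_lit 12155) (nat_lit 6716389),Row.mk (nat_lit 20832) (nat_lit 11407) (nat_lit 25999601) (nat_lit 11968) (nat_lit 103264566) (nat_lit 0) (nat_lit 0),Row.mk (nat_lit 21000) (nat_lit 11781) (nat_lit 10477169) (nat_lit 11968) (nat_lit 88040253) (nat_lit 12716) (nat_lit 32835306),Row.mk (nat_lit 21168) (nat_lit 11781) (nat_lit 23562900) (nat_lit 11968) (nat_lit 10552976) (nat_lit 12716) (nat_lit 99845415),Row.mk (nat_lit 21336) (nat_lit 12529) (nat_lit 39906663) (nat_lit 12716) (nat_lit 60226194) (nat_lit 13464) (nat_lit 37086465),Row.mk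 (nat_lit 21504) (nat_lit 12529) (nat_lit 23766083) (nat_lit 13277) (nat_lit 36553545) (nat_lit 13464) (nat_lit 80968897),Row.mk (nat_lit 21672) (nat_lit 13277) (nat_lit 85814930) (nat_lit 13464) (nat_lit 3217614) (nat_lit 14212) (nat_lit 57338317),Row.mk (nat_lit 21840) (nat_lit 14025) (nat_lit 117657946) (nat_lit 14212) (nat_lit 35060630) (nat_lit 0) (nat_lit 0),Row.mk (nat_lit 22008) (nat_lit 14025) (nat_lit 71614175) (nat_lit 15147) (nat_lit 85814930) (nat_lit 15334) (nat_lit 3217614),Row.mk (nat_lit 22176) (nat_lit 14960) (nat_lit 45654496) (nat_lit 15147) (nat_lit 101128199) (nat_lit 16456) (nat_lit 23766083),Row.mk (nat_lit 22344) (nat_lit 14960) (nat_lit 57852688) (nat_lit 16269) (nat_lit 49842459) (nat_lit 16456) (nat_lit 75221064),Row.mk (nat_lit 22512) (nat_lit 16269) (nat_lit 155752930) (nat_lit 17765) (nat_lit 29429494) (nat_lit 17952) (nat_lit 13180412),Row.mk (nat_lit 22680) (nat_lit 16082) (nat_lit 63973959) (nat_lit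 17578) (nat_lit 16343762) (nat_lit 17765) (nat_lit 137337578),Row.mk (nat_lit 22848) (nat_lit 17578) (nat_lit 201193283) (nat_lit 19822) (nat_lit 40557838) (nat_lit 0) (nat_lit 0),Row.mk (nat_lit 23016) (nat_lit 17391) (nat_lit 100314897) (nat_lit 17578) (nat_lit 16343762) (nat_lit 19635) (nat_lit 155187559),Row.mk (nat_lit 23184) (nat_lit 17391) (nat_lit 11076956) (nat_lit 19448) (nat_lit 277796653) (nat_lit 19635) (nat_lit 20560663),Row.mk (nat_lit 23352) (nat_lit 19261) (nat_lit 209825509) (nat_lit 19448) (nat_lit 49842459) (nat_lit 25806) (nat_lit 96712873),Row.mk (nat_lit 23520) (nat_lit 19074) (nat_lit 111096340) (nat_lit 19261) (nat_lit 75337761) (nat_lit 25619) (nat_lit 228581874),Row.mk (nat_lit 23688) (nat_lit 19074) (nat_lit 94966767) (nat_lit 25432) (nat_lit 383503856) (nat_lit 25619) (nat_lit 9779220),Row.mk (nat_lit 23856) (nat_lit 25245) (nat_lit 446627607) (nat_lit 25432) (nat_lit 117657946) (nat_lit 31790) (nat_lit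 15431624),Row.mk (nat_lit 24024) (nat_lit 25058) (nat_lit 406856448) (nat_lit 25245) (nat_lit 157429105) (nat_lit 31603) (nat_lit 129672117),Row.mk (nat_lit 24192) (nat_lit 24871) (nat_lit 357183229) (nat_lit 25058) (nat_lit 207102324) (nat_lit 31416) (nat_lit 272355738),Row.mk (nat_lit 24360) (nat_lit 24684) (nat_lit 295142578) (nat_lit 24871) (nat_lit 269142976) (nat_lit 31229) (nat_lit 450564139),Row.mk (nat_lit 24528) (nat_lit 24497) (nat_lit 217655300) (nat_lit 24684) (nat_lit 346630253) (nat_lit 31042) (nat_lit 673142132),Row.mk (nat_lit 24696) (nat_lit 24310) (nat_lit 120875560) (nat_lit 24497) (nat_lit 443409993) (nat_lit 30855) (nat_lit 951136676),Row.mk (nat_lit 24864) (nat_lit 24310) (nat_lit 564285554) (nat_lit 30668) (nat_lit 1298345155) (nat_lit 0) (nat_lit 0),Row.mk (nat_lit 25032) (nat_lit 24123) (nat_lit 564285554) (nat_lit 30481) (nat_lit 1611124608) (nat_lit 30668) (nat_lit 120875560),Row.mk (nat_lit 25200) (nat_lit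 23936) (nat_lit 564285554) (nat_lit 30294) (nat_lit 2001778600) (nat_lit 30481) (nat_lit 271846220),Row.mk (nat_lit 25368) (nat_lit 23749) (nat_lit 564285554) (nat_lit 30107) (nat_lit 2489696012) (nat_lit 30294) (nat_lit 460404931),Row.mk (nat_lit 25536) (nat_lit 23562) (nat_lit 564285554) (nat_lit 29920) (nat_lit 3099093090) (nat_lit 30107) (nat_lit 695910213),Row.mk (nat_lit 25704) (nat_lit 23375) (nat_lit 564285554) (nat_lit 29733) (nat_lit 3860215338) (nat_lit 29920) (nat_lit 990050629),Row.mk (nat_lit 25872) (nat_lit 23188) (nat_lit 564285554) (nat_lit 29546) (nat_lit 4810838665) (nat_lit 29733) (nat_lit 1357424912),Row.mk (nat_lit 26040) (nat_lit 23001) (nat_lit 564285554) (nat_lit 29359) (nat_lit 5998144268) (nat_lit 29546) (nat_lit 1816266530),Row.mk (nat_lit 26208) (nat_lit 22814) (nat_lit 564285554) (nat_lit 29172) (nat_lit 7481060324) (nat_lit 29359) (nat_lit 2389348642),Row.mk (nat_lit 26376) (nat_lit 22627) (nat_lit 564285554)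 (nat_lit 28985) (nat_lit 9333186704) (nat_lit 29172) (nat_lit 3105114374),Row.mk (nat_lit 26544) (nat_lit 22440) (nat_lit 564285554) (nat_lit 28798) (nat_lit 11646447873) (nat_lit 28985) (nat_lit 3999088507),Row.mk (nat_lit 26712) (nat_lit 22253) (nat_lit 564285554) (nat_lit 28611) (nat_lit 14535655267) (nat_lit 28798) (nat_lit 5115640633),Row.mk (nat_lit 26880) (nat_lit 22066) (nat_lit 564285554) (nat_lit 28424) (nat_lit 18144205605) (nat_lit 28611) (nat_lit 6510187303),Row.mk (nat_lit 27048) (nat_lit 21879) (nat_lit 564285554) (nat_lit 28237) (nat_lit 22651197924) (nat_lit 28424) (nat_lit 8251942452),Row.mk (nat_lit 27216) (nat_lit 21692) (nat_lit 564285554) (nat_lit 28050) (nat_lit 28280322605) (nat_lit 28237) (nat_lit 10427352615),Row.mk (nat_lit 27384) (nat_lit 21505) (nat_lit 564285554) (nat_lit 27863) (nat_lit 35310963536) (nat_lit 28050) (nat_lit 13144387429),Row.mk (nat_lit 27552) (nat_lit 21318) (nat_lit 564285554) (nat_lit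 27676) (nat_lit 44092064453) (nat_lit 27863) (nat_lit 16537898367),Row.mk (nat_lit 27720) (nat_lit 21131) (nat_lit 564285554) (nat_lit 27489) (nat_lit 55059447665) (nat_lit 27676) (nat_lit 20776311664),Row.mk (nat_lit 27888) (nat_lit 20944) (nat_lit 564285554) (nat_lit 27302) (nat_lit 68757444721) (nat_lit 27489) (nat_lit 26069987626),Row.mk (nat_lit 28056) (nat_lit 32912) (nat_lit 129264168) (nat_lit 62084) (nat_lit 118870108228) (nat_lit 0) (nat_lit 0),Row.mk (nat_lit 28224) (nat_lit 32912) (nat_lit 129264168) (nat_lit 62084) (nat_lit 148495992676) (nat_lit 0) (nat_lit 0),Row.mk (nat_lit 28392) (nat_lit 32912) (nat_lit 129264168) (nat_lit 62084) (nat_lit 185498007663) (nat_lit 0) (nat_lit 0),Row.mk (nat_lit 28560) (nat_lit 32912) (nat_lit 129264168) (nat_lit 62084) (nat_lit 231712631752) (nat_lit 0) (nat_lit 0),Row.mk (nat_lit 28728) (nat_lit 32912) (nat_lit 129264168) (nat_lit 62084) (nat_lit 289433582366) (nat_lit 0) (nat_lit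 0),Row.mk (nat_lit 28896) (nat_lit 32912) (nat_lit 129264168) (nat_lit 62084) (nat_lit 361525657235) (nat_lit 0) (nat_lit 0),Row.mk (nat_lit 29064) (nat_lit 32912) (nat_lit 129264168) (nat_lit 62084) (nat_lit 451566919610) (nat_lit 0) (nat_lit 0),Row.mk (nat_lit 29232) (nat_lit 32912) (nat_lit 129264168) (nat_lit 62084) (nat_lit 564026284180) (nat_lit 0) (nat_lit 0),Row.mk (nat_lit 29400) (nat_lit 32912) (nat_lit 129264168) (nat_lit 62084) (nat_lit 704485317579) (nat_lit 0) (nat_lit 0),Row.mk (nat_lit 29568) (nat_lit 32912) (nat_lit 129264168) (nat_lit 62084) (nat_lit 879915261889) (nat_lit 0) (nat_lit 0),Row.mk (nat_lit 29736) (nat_lit 32912) (nat_lit 129264168) (nat_lit 62084) (nat_lit 1099023030293) (nat_lit 0) (nat_lit 0),Row.mk (nat_lit 29904) (nat_lit 32912) (nat_lit 129264168) (nat_lit 62084) (nat_lit 1372683347318) (nat_lit 0) (nat_lit 0),Row.mk (nat_lit 30072) (nat_lit 32912) (nat_lit 129264168) (nat_lit 62084) (nat_lit 1714478481553)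 (nat_lit 0) (nat_lit 0),Row.mk (nat_lit 30240) (nat_lit 32912) (nat_lit 129264168) (nat_lit 62084) (nat_lit 2141372358813) (nat_lit 0) (nat_lit 0),Row.mk (nat_lit 30408) (nat_lit 32912) (nat_lit 129264168) (nat_lit 62084) (nat_lit 2674552513207) (nat_lit 0) (nat_lit 0),Row.mk (nat_lit 30576) (nat_lit 32912) (nat_lit 129264168) (nat_lit 62084) (nat_lit 3340481663710) (nat_lit 0) (nat_lit 0),Row.mk (nat_lit 30744) (nat_lit 32912) (nat_lit 129264168) (nat_lit 62084) (nat_lit 4172211107944) (nat_lit 0) (nat_lit 0),Row.mk (nat_lit 30912) (nat_lit 32912) (nat_lit 129264168) (nat_lit 62084) (nat_lit 5211021119313) (nat_lit 0) (nat_lit 0),Row.mk (nat_lit 31080) (nat_lit 32912) (nat_lit 129264168) (nat_lit 62084) (nat_lit 6508469763462) (nat_lit 0) (nat_lit 0)],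
[Row.mk (nat_lit 8232) (nat_lit 9724) (nat_lit 117278208) (nat_lit 9911) (nat_lit 33692418) (nat_lit 10472) (nat_lit 32),Row.mk (nat_lit 8400) (nat_lit 9724) (nat_lit 117278209) (nat_lit 9911) (nat_lit 33692409) (nat_lit 10472) (nat_lit 41),Row.mk (nat_lit 8568) (nat_lit 9724) (nat_lit 117278210) (nat_lit 9911) (nat_lit 33692398) (nat_lit 10472) (nat_lit 51),Row.mk (nat_lit 8736) (nat_lit 9724) (nat_lit 117278211) (nat_lit 9911) (nat_lit 33692385) (nat_lit 10472) (nat_lit 63),Row.mk (nat_lit 8904) (nat_lit 9724) (nat_lit 117278212) (nat_lit 9911) (nat_lit 33692368) (nat_lit 10472) (nat_lit 79),Row.mk (nat_lit 9072) (nat_lit 9724) (nat_lit 117278213) (nat_lit 9911) (nat_lit 33692347) (nat_lit 10472) (nat_lit 99),Row.mk (nat_lit 9240) (nat_lit 9724) (nat_lit 117278215) (nat_lit 9911) (nat_lit 33692320) (nat_lit 10472) (nat_lit 124),Row.mk (nat_lit 9408) (nat_lit 9724) (nat_lit 117278217) (nat_lit 9911) (nat_lit 33692288) (nat_lit 10472)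 (nat_lit 155),Row.mk (nat_lit 9576) (nat_lit 9724) (nat_lit 117278220) (nat_lit 9911) (nat_lit 33692247) (nat_lit 10472) (nat_lit 194),Row.mk (nat_lit 9744) (nat_lit 9724) (nat_lit 117278224) (nat_lit 9911) (nat_lit 33692195) (nat_lit 10472) (nat_lit 242),Row.mk (nat_lit 9912) (nat_lit 9724) (nat_lit 117278228) (nat_lit 9911) (nat_lit 33692131) (nat_lit 10472) (nat_lit 303),Row.mk (nat_lit 10080) (nat_lit 9724) (nat_lit 117278234) (nat_lit 9911) (nat_lit 33692051) (nat_lit 10472) (nat_lit 378),Row.mk (nat_lit 10248) (nat_lit 9724) (nat_lit 117278241) (nat_lit 9911) (nat_lit 33691951) (nat_lit 10472) (nat_lit 473),Row.mk (nat_lit 10416) (nat_lit 9724) (nat_lit 117278249) (nat_lit 9911) (nat_lit 33691827) (nat_lit 10472) (nat_lit 590),Row.mk (nat_lit 10584) (nat_lit 9724) (nat_lit 117278260) (nat_lit 9911) (nat_lit 33691671) (nat_lit 10472) (nat_lit 738),Row.mk (nat_lit 10752) (nat_lit 9724) (nat_lit 117278274) (nat_lit 9911) (nat_lit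 33691476) (nat_lit 10472) (nat_lit 921),Row.mk (nat_lit 10920) (nat_lit 9724) (nat_lit 117278290) (nat_lit 9911) (nat_lit 33691233) (nat_lit 10472) (nat_lit 1151),Row.mk (nat_lit 11088) (nat_lit 9724) (nat_lit 117278312) (nat_lit 9911) (nat_lit 33690930) (nat_lit 10472) (nat_lit 1438),Row.mk (nat_lit 11256) (nat_lit 9724) (nat_lit 117278338) (nat_lit 9911) (nat_lit 33690551) (nat_lit 10472) (nat_lit 1796),Row.mk (nat_lit 11424) (nat_lit 9724) (nat_lit 117278371) (nat_lit 9911) (nat_lit 33690077) (nat_lit 10472) (nat_lit 2243),Row.mk (nat_lit 11592) (nat_lit 9724) (nat_lit 117278412) (nat_lit 9911) (nat_lit 33689486) (nat_lit 10472) (nat_lit 2801),Row.mk (nat_lit 11760) (nat_lit 9724) (nat_lit 117278463) (nat_lit 9911) (nat_lit 33688747) (nat_lit 10472) (nat_lit 3499),Row.mk (nat_lit 11928) (nat_lit 9724) (nat_lit 117278527) (nat_lit 9911) (nat_lit 33687825) (nat_lit 10472) (nat_lit 4370),Row.mk (nat_lit 12096) (nat_lit 9724) (nat_lit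 117278607) (nat_lit 9911) (nat_lit 33686673) (nat_lit 10472) (nat_lit 5458),Row.mk (nat_lit 12264) (nat_lit 9724) (nat_lit 117278707) (nat_lit 9911) (nat_lit 33685233) (nat_lit 10472) (nat_lit 6817),Row.mk (nat_lit 12432) (nat_lit 9724) (nat_lit 117278832) (nat_lit 9911) (nat_lit 33683436) (nat_lit 10472) (nat_lit 8515),Row.mk (nat_lit 12600) (nat_lit 9724) (nat_lit 117278987) (nat_lit 9911) (nat_lit 33681191) (nat_lit 10472) (nat_lit 10635),Row.mk (nat_lit 12768) (nat_lit 9724) (nat_lit 117279182) (nat_lit 9911) (nat_lit 33678387) (nat_lit 10472) (nat_lit 13283),Row.mk (nat_lit 12936) (nat_lit 9724) (nat_lit 117279425) (nat_lit 9911) (nat_lit 33674886) (nat_lit 10472) (nat_lit 16590),Row.mk (nat_lit 13104) (nat_lit 9724) (nat_lit 117279729) (nat_lit 9911) (nat_lit 33670512) (nat_lit 10472) (nat_lit 20721),Row.mk (nat_lit 13272) (nat_lit 9724) (nat_lit 117280108) (nat_lit 9911) (nat_lit 33665049) (nat_lit 10472) (nat_lit 25880),Row.mk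 (nat_lit 13440) (nat_lit 9724) (nat_lit 117280581) (nat_lit 9911) (nat_lit 33658226) (nat_lit 10472) (nat_lit 32324),Row.mk (nat_lit 13608) (nat_lit 9724) (nat_lit 117281172) (nat_lit 9911) (nat_lit 33649705) (nat_lit 10472) (nat_lit 40372),Row.mk (nat_lit 13776) (nat_lit 9724) (nat_lit 117281911) (nat_lit 9911) (nat_lit 33639062) (nat_lit 10472) (nat_lit 50424),Row.mk (nat_lit 13944) (nat_lit 9724) (nat_lit 117282834) (nat_lit 9911) (nat_lit 33625769) (nat_lit 10472) (nat_lit 62978),Row.mk (nat_lit 14112) (nat_lit 9724) (nat_lit 117283986) (nat_lit 9911) (nat_lit 33609166) (nat_lit 10472) (nat_lit 78658),Row.mk (nat_lit 14280) (nat_lit 9724) (nat_lit 117285425) (nat_lit 9911) (nat_lit 33588430) (nat_lit 10472) (nat_lit 98242),Row.mk (nat_lit 14448) (nat_lit 9724) (nat_lit 117287222) (nat_lit 9911) (nat_lit 33562531) (nat_lit 10472) (nat_lit 122702),Row.mk (nat_lit 14616) (nat_lit 9724) (nat_lit 117289467) (nat_lit 9911) (nat_lit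 33530184) (nat_lit 10472) (nat_lit 153252),Row.mk (nat_lit 14784) (nat_lit 9724) (nat_lit 117292271) (nat_lit 9911) (nat_lit 33489782) (nat_lit 10472) (nat_lit 191408),Row.mk (nat_lit 14952) (nat_lit 9724) (nat_lit 117295773) (nat_lit 9911) (nat_lit 33439323) (nat_lit 10472) (nat_lit 239064),Row.mk (nat_lit 15120) (nat_lit 9724) (nat_lit 117300146) (nat_lit 9911) (nat_lit 33376299) (nat_lit 10472) (nat_lit 298586),Row.mk (nat_lit 15288) (nat_lit 9724) (nat_lit 117305609) (nat_lit 9911) (nat_lit 33297585) (nat_lit 10472) (nat_lit 372927),Row.mk (nat_lit 15456) (nat_lit 9724) (nat_lit 117312432) (nat_lit 9911) (nat_lit 33199272) (nat_lit 10472) (nat_lit 465776),Row.mk (nat_lit 15624) (nat_lit 9724) (nat_lit 117320953) (nat_lit 9911) (nat_lit 33076482) (nat_lit 10472) (nat_lit 581744),Row.mk (nat_lit 15792) (nat_lit 9724) (nat_lit 117331597) (nat_lit 9911) (nat_lit 32923121) (nat_lit 10472) (nat_lit 726584),Row.mk (nat_lit 15960) (nat_lit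 9724) (nat_lit 117344889) (nat_lit 9911) (nat_lit 32731575) (nat_lit 10472) (nat_lit 907486),Row.mk (nat_lit 16128) (nat_lit 9724) (nat_lit 117361492) (nat_lit 9911) (nat_lit 32492340) (nat_lit 10472) (nat_lit 1133428),Row.mk (nat_lit 16296) (nat_lit 9724) (nat_lit 117382228) (nat_lit 9911) (nat_lit 32193541) (nat_lit 10472) (nat_lit 1415625),Row.mk (nat_lit 16464) (nat_lit 9724) (nat_lit 117408127) (nat_lit 9911) (nat_lit 31820348) (nat_lit 10472) (nat_lit 1768081),Row.mk (nat_lit 16632) (nat_lit 9724) (nat_lit 117440475) (nat_lit 9911) (nat_lit 31354240) (nat_lit 10472) (nat_lit 2208291),Row.mk (nat_lit 16800) (nat_lit 9724) (nat_lit 117480876) (nat_lit 9911) (nat_lit 30772081) (nat_lit 10472) (nat_lit 2758102),Row.mk (nat_lit 16968) (nat_lit 9724) (nat_lit 117531336) (nat_lit 9911) (nat_lit 30044979) (nat_lit 10472) (nat_lit 3444803),Row.mk (nat_lit 17136) (nat_lit 9724) (nat_lit 117594359) (nat_lit 9911) (nat_lit 29136846) (nat_lit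 10472) (nat_lit 4302476),Row.mk (nat_lit 17304) (nat_lit 9724) (nat_lit 117673074) (nat_lit 9911) (nat_lit 28002610) (nat_lit 10472) (nat_lit 5373689),Row.mk (nat_lit 17472) (nat_lit 9724) (nat_lit 117771386) (nat_lit 9911) (nat_lit 26585977) (nat_lit 10472) (nat_lit 6711608),Row.mk (nat_lit 17640) (nat_lit 9724) (nat_lit 117894176) (nat_lit 9911) (nat_lit 24816636) (nat_lit 10472) (nat_lit 8382636),Row.mk (nat_lit 17808) (nat_lit 9724) (nat_lit 118047538) (nat_lit 9911) (nat_lit 22606771) (nat_lit 10472) (nat_lit 10469710),Row.mk (nat_lit 17976) (nat_lit 9724) (nat_lit 118239083) (nat_lit 9911) (nat_lit 19846704) (nat_lit 10472) (nat_lit 13076416),Row.mk (nat_lit 18144) (nat_lit 9724) (nat_lit 118478318) (nat_lit 9911) (nat_lit 16399447) (nat_lit 10472) (nat_lit 16332128),Row.mk (nat_lit 18312) (nat_lit 9724) (nat_lit 118777117) (nat_lit 9911) (nat_lit 12093906) (nat_lit 10472) (nat_lit 20398434),Row.mk (nat_lit 18480) (nat_lit 9724)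 (nat_lit 119150310) (nat_lit 9911) (nat_lit 6716389) (nat_lit 10472) (nat_lit 25477152),Row.mk (nat_lit 18648) (nat_lit 9724) (nat_lit 119616419) (nat_lit 10472) (nat_lit 31820348) (nat_lit 0) (nat_lit 0),Row.mk (nat_lit 18816) (nat_lit 9724) (nat_lit 111809969) (nat_lit 10285) (nat_lit 8388608) (nat_lit 10472) (nat_lit 31354240),Row.mk (nat_lit 18984) (nat_lit 9724) (nat_lit 102059902) (nat_lit 10285) (nat_lit 18865777) (nat_lit 10472) (nat_lit 30772081),Row.mk (nat_lit 19152) (nat_lit 9724) (nat_lit 89882304) (nat_lit 10285) (nat_lit 31951508) (nat_lit 10472) (nat_lit 30044979),Row.mk (nat_lit 19320) (nat_lit 9724) (nat_lit 74672777) (nat_lit 10285) (nat_lit 48295271) (nat_lit 10472) (nat_lit 29136846),Row.mk (nat_lit 19488) (nat_lit 9724) (nat_lit 55676445) (nat_lit 10285) (nat_lit 68708236) (nat_lit 10472) (nat_lit 28002610),Row.mk (nat_lit 19656) (nat_lit 9724) (nat_lit 31950485) (nat_lit 10285) (nat_lit 94203538) (nat_lit 10472)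 (nat_lit 26585977),Row.mk (nat_lit 19824) (nat_lit 9724) (nat_lit 2317332) (nat_lit 10285) (nat_lit 126046554) (nat_lit 10472) (nat_lit 24816636),Row.mk (nat_lit 19992) (nat_lit 10285) (nat_lit 125952960) (nat_lit 10846) (nat_lit 5170993) (nat_lit 11033) (nat_lit 22606771),Row.mk (nat_lit 20160) (nat_lit 10285) (nat_lit 89629058) (nat_lit 10846) (nat_lit 44942153) (nat_lit 11033) (nat_lit 19846704),Row.mk (nat_lit 20328) (nat_lit 10285) (nat_lit 44261381) (nat_lit 10846) (nat_lit 94615371) (nat_lit 11033) (nat_lit 16399447),Row.mk (nat_lit 20496) (nat_lit 10846) (nat_lit 144254270) (nat_lit 11033) (nat_lit 2164368) (nat_lit 11594) (nat_lit 9929537),Row.mk (nat_lit 20664) (nat_lit 10846) (nat_lit 91094375) (nat_lit 11407) (nat_lit 59876283) (nat_lit 11594) (nat_lit 6716389),Row.mk (nat_lit 20832) (nat_lit 10846) (nat_lit 21995706) (nat_lit 11407) (nat_lit 137363560) (nat_lit 0) (nat_lit 0),Row.mk (nat_lit 21000) (nat_lit 11220) (nat_lit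 10477169) (nat_lit 11407) (nat_lit 99482983) (nat_lit 11968) (nat_lit 51487675),Row.mk (nat_lit 21168) (nat_lit 11220) (nat_lit 23562900) (nat_lit 11407) (nat_lit 2703243) (nat_lit 11968) (nat_lit 137790246),Row.mk (nat_lit 21336) (nat_lit 11781) (nat_lit 39906663) (nat_lit 11968) (nat_lit 64743895) (nat_lit 12716) (nat_lit 62663863),Row.mk (nat_lit 21504) (nat_lit 11781) (nat_lit 4187963) (nat_lit 12529) (nat_lit 56131665) (nat_lit 12716) (nat_lit 111063996),Row.mk (nat_lit 21672) (nat_lit 12529) (nat_lit 79356483) (nat_lit 13277) (nat_lit 6458446) (nat_lit 13464) (nat_lit 90651030),Row.mk (nat_lit 21840) (nat_lit 13277) (nat_lit 117657946) (nat_lit 13464) (nat_lit 33312712) (nat_lit 14212) (nat_lit 31843016),Row.mk (nat_lit 22008) (nat_lit 13277) (nat_lit 39771159) (nat_lit 14025) (nat_lit 117657946) (nat_lit 14212) (nat_lit 33312712),Row.mk (nat_lit 22176) (nat_lit 13838) (nat_lit 8066443) (nat_lit 14025) (nat_lit 113220950) (nat_lit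 15147) (nat_lit 79356483),Row.mk (nat_lit 22344) (nat_lit 14960) (nat_lit 70107095) (nat_lit 15147) (nat_lit 138716251) (nat_lit 16456) (nat_lit 4187963),Row.mk (nat_lit 22512) (nat_lit 14960) (nat_lit 97751913) (nat_lit 16269) (nat_lit 49842459) (nat_lit 16456) (nat_lit 80863563),Row.mk (nat_lit 22680) (nat_lit 16269) (nat_lit 214944618) (nat_lit 17765) (nat_lit 29429494) (nat_lit 17952) (nat_lit 3376286),Row.mk (nat_lit 22848) (nat_lit 16082) (nat_lit 100314897) (nat_lit 17578) (nat_lit 16343762) (nat_lit 17765) (nat_lit 155187559),Row.mk (nat_lit 23016) (nat_lit 17578) (nat_lit 267629319) (nat_lit 19822) (nat_lit 34311998) (nat_lit 0) (nat_lit 0),Row.mk (nat_lit 23184) (nat_lit 17391) (nat_lit 145703852) (nat_lit 17578) (nat_lit 16343762) (nat_lit 19635) (nat_lit 177481755),Row.mk (nat_lit 23352) (nat_lit 17391) (nat_lit 30178613) (nat_lit 19448) (nat_lit 351030520) (nat_lit 19635) (nat_lit 5266806),Row.mk (nat_lit 23520) (nat_lit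 19261) (nat_lit 287562301) (nat_lit 19448) (nat_lit 49842459) (nat_lit 25806) (nat_lit 107706314),Row.mk (nat_lit 23688) (nat_lit 19074) (nat_lit 170599665) (nat_lit 19261) (nat_lit 75337761) (nat_lit 25619) (nat_lit 272407516),Row.mk (nat_lit 23856) (nat_lit 18887) (nat_lit 24516155) (nat_lit 19074) (nat_lit 107180777) (nat_lit 25432) (nat_lit 478115344),Row.mk (nat_lit 24024) (nat_lit 25245) (nat_lit 597598267) (nat_lit 25432) (nat_lit 117657946) (nat_lit 31790) (nat_lit 8796557),Row.mk (nat_lit 24192) (nat_lit 25058) (nat_lit 557827107) (nat_lit 25245) (nat_lit 157429105) (nat_lit 31603) (nat_lit 151480178),Row.mk (nat_lit 24360) (nat_lit 24871) (nat_lit 508153889) (nat_lit 25058) (nat_lit 207102324) (nat_lit 31416) (nat_lit 329688578),Row.mk (nat_lit 24528) (nat_lit 24684) (nat_lit 446113237) (nat_lit 24871) (nat_lit 269142976) (nat_lit 31229) (nat_lit 552266571),Row.mk (nat_lit 24696) (nat_lit 24497) (nat_lit 368625960) (nat_lit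 24684) (nat_lit 346630253) (nat_lit 31042) (nat_lit 830261115),Row.mk (nat_lit 24864) (nat_lit 24310) (nat_lit 271846220) (nat_lit 24497) (nat_lit 443409993) (nat_lit 30855) (nat_lit 1177469594),Row.mk (nat_lit 25032) (nat_lit 24123) (nat_lit 150970659) (nat_lit 24310) (nat_lit 564285554) (nat_lit 30668) (nat_lit 1611124608),Row.mk (nat_lit 25200) (nat_lit 24123) (nat_lit 715256213) (nat_lit 30481) (nat_lit 2152749260) (nat_lit 0) (nat_lit 0),Row.mk (nat_lit 25368) (nat_lit 23936) (nat_lit 715256213) (nat_lit 30294) (nat_lit 2678254724) (nat_lit 30481) (nat_lit 150970659),Row.mk (nat_lit 25536) (nat_lit 23749) (nat_lit 715256213) (nat_lit 30107) (nat_lit 3334598372) (nat_lit 30294) (nat_lit 339529370),Row.mk (nat_lit 25704) (nat_lit 23562) (nat_lit 715256213) (nat_lit 29920) (nat_lit 4154355754) (nat_lit 30107) (nat_lit 575034652),Row.mk (nat_lit 25872) (nat_lit 23375) (nat_lit 715256213) (nat_lit 29733) (nat_lit 5178212949) (nat_lit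 29920) (nat_lit 869175068),Row.mk (nat_lit 26040) (nat_lit 23188) (nat_lit 715256213) (nat_lit 29546) (nat_lit 6456985886) (nat_lit 29733) (nat_lit 1236549352),Row.mk (nat_lit 26208) (nat_lit 23001) (nat_lit 715256213) (nat_lit 29359) (nat_lit 8054142436) (nat_lit 29546) (nat_lit 1695390970),Row.mk (nat_lit 26376) (nat_lit 22814) (nat_lit 715256213) (nat_lit 29172) (nat_lit 10048952437) (nat_lit 29359) (nat_lit 2268473081),Row.mk (nat_lit 26544) (nat_lit 22627) (nat_lit 715256213) (nat_lit 28985) (nat_lit 12540422006) (nat_lit 29172) (nat_lit 2984238814),Row.mk (nat_lit 26712) (nat_lit 22440) (nat_lit 715256213) (nat_lit 28798) (nat_lit 15652207393) (nat_lit 28985) (nat_lit 3878212947),Row.mk (nat_lit 26880) (nat_lit 22253) (nat_lit 715256213) (nat_lit 28611) (nat_lit 19538752275) (nat_lit 28798) (nat_lit 4994765072),Row.mk (nat_lit 27048) (nat_lit 22066) (nat_lit 715256213) (nat_lit 28424) (nat_lit 24392953073) (nat_lit 28611) (nat_lit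 6389311742),Row.mk (nat_lit 27216) (nat_lit 21879) (nat_lit 715256213) (nat_lit 28237) (nat_lit 30455732768) (nat_lit 28424) (nat_lit 8131066891),Row.mk (nat_lit 27384) (nat_lit 21692) (nat_lit 715256213) (nat_lit 28050) (nat_lit 38027998351) (nat_lit 28237) (nat_lit 10306477054),Row.mk (nat_lit 27552) (nat_lit 21505) (nat_lit 715256213) (nat_lit 27863) (nat_lit 47485575391) (nat_lit 28050) (nat_lit 13023511868),Row.mk (nat_lit 27720) (nat_lit 21318) (nat_lit 715256213) (nat_lit 27676) (nat_lit 59297860962) (nat_lit 27863) (nat_lit 16417022806),Row.mk (nat_lit 27888) (nat_lit 21131) (nat_lit 715256213) (nat_lit 27489) (nat_lit 74051120682) (nat_lit 27676) (nat_lit 20655436104),Row.mk (nat_lit 28056) (nat_lit 20944) (nat_lit 715256213) (nat_lit 27302) (nat_lit 92477586169) (nat_lit 27489) (nat_lit 25949112065),Row.mk (nat_lit 28224) (nat_lit 32912) (nat_lit 159359267) (nat_lit 62084) (nat_lit 148465897577) (nat_lit 0) (nat_lit 0),Row.mk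 (nat_lit 28392) (nat_lit 32912) (nat_lit 159359267) (nat_lit 62084) (nat_lit 185467912564) (nat_lit 0) (nat_lit 0),Row.mk (nat_lit 28560) (nat_lit 32912) (nat_lit 159359267) (nat_lit 62084) (nat_lit 231682536653) (nat_lit 0) (nat_lit 0),Row.mk (nat_lit 28728) (nat_lit 32912) (nat_lit 159359267) (nat_lit 62084) (nat_lit 289403487268) (nat_lit 0) (nat_lit 0),Row.mk (nat_lit 28896) (nat_lit 32912) (nat_lit 159359267) (nat_lit 62084) (nat_lit 361495562136) (nat_lit 0) (nat_lit 0),Row.mk (nat_lit 29064) (nat_lit 32912) (nat_lit 159359267) (nat_lit 62084) (nat_lit 451536824512) (nat_lit 0) (nat_lit 0),Row.mk (nat_lit 29232) (nat_lit 32912) (nat_lit 159359267) (nat_lit 62084) (nat_lit 563996189081) (nat_lit 0) (nat_lit 0),Row.mk (nat_lit 29400) (nat_lit 32912) (nat_lit 159359267) (nat_lit 62084) (nat_lit 704455222481) (nat_lit 0) (nat_lit 0),Row.mk (nat_lit 29568) (nat_lit 32912) (nat_lit 159359267) (nat_lit 62084) (nat_lit 879885166790)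 (nat_lit 0) (nat_lit 0),Row.mk (nat_lit 29736) (nat_lit 32912) (nat_lit 159359267) (nat_lit 62084) (nat_lit 1098992935195) (nat_lit 0) (nat_lit 0),Row.mk (nat_lit 29904) (nat_lit 32912) (nat_lit 159359267) (nat_lit 62084) (nat_lit 1372653252219) (nat_lit 0) (nat_lit 0),Row.mk (nat_lit 30072) (nat_lit 32912) (nat_lit 159359267) (nat_lit 62084) (nat_lit 1714448386454) (nat_lit 0) (nat_lit 0),Row.mk (nat_lit 30240) (nat_lit 32912) (nat_lit 159359267) (nat_lit 62084) (nat_lit 2141342263715) (nat_lit 0) (nat_lit 0),Row.mk (nat_lit 30408) (nat_lit 32912) (nat_lit 159359267) (nat_lit 62084) (nat_lit 2674522418108) (nat_lit 0) (nat_lit 0),Row.mk (nat_lit 30576) (nat_lit 32912) (nat_lit 159359267) (nat_lit 62084) (nat_lit 3340451568612) (nat_lit 0) (nat_lit 0),Row.mk (nat_lit 30744) (nat_lit 32912) (nat_lit 159359267) (nat_lit 62084) (nat_lit 4172181012845) (nat_lit 0) (nat_lit 0),Row.mk (nat_lit 30912) (nat_lit 32912) (nat_lit 159359267)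 (nat_lit 62084) (nat_lit 5210991024214) (nat_lit 0) (nat_lit 0),Row.mk (nat_lit 31080) (nat_lit 32912) (nat_lit 159359267) (nat_lit 62084) (nat_lit 6508439668364) (nat_lit 0) (nat_lit 0)],
[Row.mk (nat_lit 8400) (nat_lit 9163) (nat_lit 154866261) (nat_lit 9350) (nat_lit 33692398) (nat_lit 9911) (nat_lit 51),Row.mk (nat_lit 8568) (nat_lit 9163) (nat_lit 154866262) (nat_lit 9350) (nat_lit 33692385) (nat_lit 9911) (nat_lit 64),Row.mk (nat_lit 8736) (nat_lit 9163) (nat_lit 154866263) (nat_lit 9350) (nat_lit 33692368) (nat_lit 9911) (nat_lit 80),Row.mk (nat_lit 8904) (nat_lit 9163) (nat_lit 154866264) (nat_lit 9350) (nat_lit 33692347) (nat_lit 9911) (nat_lit 100),Row.mk (nat_lit 9072) (nat_lit 9163) (nat_lit 154866265) (nat_lit 9350) (nat_lit 33692320) (nat_lit 9911) (nat_lit 126),Row.mk (nat_lit 9240) (nat_lit 9163) (nat_lit 154866267) (nat_lit 9350) (nat_lit 33692288) (nat_lit 9911) (nat_lit 157),Row.mk (nat_lit 9408) (nat_lit 9163)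 (nat_lit 154866269) (nat_lit 9350) (nat_lit 33692247) (nat_lit 9911) (nat_lit 196),Row.mk (nat_lit 9576) (nat_lit 9163) (nat_lit 154866272) (nat_lit 9350) (nat_lit 33692195) (nat_lit 9911) (nat_lit 245),Row.mk (nat_lit 9744) (nat_lit 9163) (nat_lit 154866276) (nat_lit 9350) (nat_lit 33692131) (nat_lit 9911) (nat_lit 306),Row.mk (nat_lit 9912) (nat_lit 9163) (nat_lit 154866280) (nat_lit 9350) (nat_lit 33692051) (nat_lit 9911) (nat_lit 383),Row.mk (nat_lit 10080) (nat_lit 9163) (nat_lit 154866286) (nat_lit 9350) (nat_lit 33691951) (nat_lit 9911) (nat_lit 478),Row.mk (nat_lit 10248) (nat_lit 9163) (nat_lit 154866293) (nat_lit 9350) (nat_lit 33691827) (nat_lit 9911) (nat_lit 597),Row.mk (nat_lit 10416) (nat_lit 9163) (nat_lit 154866301) (nat_lit 9350) (nat_lit 33691671) (nat_lit 9911) (nat_lit 746),Row.mk (nat_lit 10584) (nat_lit 9163) (nat_lit 154866312) (nat_lit 9350) (nat_lit 33691476) (nat_lit 9911) (nat_lit 932),Row.mk (nat_lit 10752)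 (nat_lit 9163) (nat_lit 154866326) (nat_lit 9350) (nat_lit 33691233) (nat_lit 9911) (nat_lit 1164),Row.mk (nat_lit 10920) (nat_lit 9163) (nat_lit 154866343) (nat_lit 9350) (nat_lit 33690930) (nat_lit 9911) (nat_lit 1454),Row.mk (nat_lit 11088) (nat_lit 9163) (nat_lit 154866364) (nat_lit 9350) (nat_lit 33690551) (nat_lit 9911) (nat_lit 1817),Row.mk (nat_lit 11256) (nat_lit 9163) (nat_lit 154866390) (nat_lit 9350) (nat_lit 33690077) (nat_lit 9911) (nat_lit 2269),Row.mk (nat_lit 11424) (nat_lit 9163) (nat_lit 154866423) (nat_lit 9350) (nat_lit 33689486) (nat_lit 9911) (nat_lit 2834),Row.mk (nat_lit 11592) (nat_lit 9163) (nat_lit 154866464) (nat_lit 9350) (nat_lit 33688747) (nat_lit 9911) (nat_lit 3540),Row.mk (nat_lit 11760) (nat_lit 9163) (nat_lit 154866515) (nat_lit 9350) (nat_lit 33687825) (nat_lit 9911) (nat_lit 4421),Row.mk (nat_lit 11928) (nat_lit 9163) (nat_lit 154866579) (nat_lit 9350) (nat_lit 33686673) (nat_lit 9911) (nat_lit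 5522),Row.mk (nat_lit 12096) (nat_lit 9163) (nat_lit 154866659) (nat_lit 9350) (nat_lit 33685233) (nat_lit 9911) (nat_lit 6897),Row.mk (nat_lit 12264) (nat_lit 9163) (nat_lit 154866759) (nat_lit 9350) (nat_lit 33683436) (nat_lit 9911) (nat_lit 8615),Row.mk (nat_lit 12432) (nat_lit 9163) (nat_lit 154866884) (nat_lit 9350) (nat_lit 33681191) (nat_lit 9911) (nat_lit 10760),Row.mk (nat_lit 12600) (nat_lit 9163) (nat_lit 154867040) (nat_lit 9350) (nat_lit 33678387) (nat_lit 9911) (nat_lit 13439),Row.mk (nat_lit 12768) (nat_lit 9163) (nat_lit 154867234) (nat_lit 9350) (nat_lit 33674886) (nat_lit 9911) (nat_lit 16785),Row.mk (nat_lit 12936) (nat_lit 9163) (nat_lit 154867477) (nat_lit 9350) (nat_lit 33670512) (nat_lit 9911) (nat_lit 20964),Row.mk (nat_lit 13104) (nat_lit 9163) (nat_lit 154867781) (nat_lit 9350) (nat_lit 33665049) (nat_lit 9911) (nat_lit 26184),Row.mk (nat_lit 13272) (nat_lit 9163) (nat_lit 154868160) (nat_lit 9350) (nat_lit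 33658226) (nat_lit 9911) (nat_lit 32703),Row.mk (nat_lit 13440) (nat_lit 9163) (nat_lit 154868633) (nat_lit 9350) (nat_lit 33649705) (nat_lit 9911) (nat_lit 40845),Row.mk (nat_lit 13608) (nat_lit 9163) (nat_lit 154869225) (nat_lit 9350) (nat_lit 33639062) (nat_lit 9911) (nat_lit 51015),Row.mk (nat_lit 13776) (nat_lit 9163) (nat_lit 154869963) (nat_lit 9350) (nat_lit 33625769) (nat_lit 9911) (nat_lit 63717),Row.mk (nat_lit 13944) (nat_lit 9163) (nat_lit 154870886) (nat_lit 9350) (nat_lit 33609166) (nat_lit 9911) (nat_lit 79581),Row.mk (nat_lit 14112) (nat_lit 9163) (nat_lit 154872038) (nat_lit 9350) (nat_lit 33588430) (nat_lit 9911) (nat_lit 99394),Row.mk (nat_lit 14280) (nat_lit 9163) (nat_lit 154873477) (nat_lit 9350) (nat_lit 33562531) (nat_lit 9911) (nat_lit 124141),Row.mk (nat_lit 14448) (nat_lit 9163) (nat_lit 154875274) (nat_lit 9350) (nat_lit 33530184) (nat_lit 9911) (nat_lit 155049),Row.mk (nat_lit 14616) (nat_lit 9163) (nat_lit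 154877519) (nat_lit 9350) (nat_lit 33489782) (nat_lit 9911) (nat_lit 193653),Row.mk (nat_lit 14784) (nat_lit 9163) (nat_lit 154880323) (nat_lit 9350) (nat_lit 33439323) (nat_lit 9911) (nat_lit 241868),Row.mk (nat_lit 14952) (nat_lit 9163) (nat_lit 154883825) (nat_lit 9350) (nat_lit 33376299) (nat_lit 9911) (nat_lit 302088),Row.mk (nat_lit 15120) (nat_lit 9163) (nat_lit 154888199) (nat_lit 9350) (nat_lit 33297585) (nat_lit 9911) (nat_lit 377300),Row.mk (nat_lit 15288) (nat_lit 9163) (nat_lit 154893661) (nat_lit 9350) (nat_lit 33199272) (nat_lit 9911) (nat_lit 471239),Row.mk (nat_lit 15456) (nat_lit 9163) (nat_lit 154900484) (nat_lit 9350) (nat_lit 33076482) (nat_lit 9911) (nat_lit 588566),Row.mk (nat_lit 15624) (nat_lit 9163) (nat_lit 154909006) (nat_lit 9350) (nat_lit 32923121) (nat_lit 9911) (nat_lit 735105),Row.mk (nat_lit 15792) (nat_lit 9163) (nat_lit 154919649) (nat_lit 9350) (nat_lit 32731575) (nat_lit 9911) (nat_lit 918129),Row.mk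 (nat_lit 15960) (nat_lit 9163) (nat_lit 154932942) (nat_lit 9350) (nat_lit 32492340) (nat_lit 9911) (nat_lit 1146721),Row.mk (nat_lit 16128) (nat_lit 9163) (nat_lit 154949544) (nat_lit 9350) (nat_lit 32193541) (nat_lit 9911) (nat_lit 1432227),Row.mk (nat_lit 16296) (nat_lit 9163) (nat_lit 154970281) (nat_lit 9350) (nat_lit 31820348) (nat_lit 9911) (nat_lit 1788817),Row.mk (nat_lit 16464) (nat_lit 9163) (nat_lit 154996180) (nat_lit 9350) (nat_lit 31354240) (nat_lit 9911) (nat_lit 2234190),Row.mk (nat_lit 16632) (nat_lit 9163) (nat_lit 155028527) (nat_lit 9350) (nat_lit 30772081) (nat_lit 9911) (nat_lit 2790449),Row.mk (nat_lit 16800) (nat_lit 9163) (nat_lit 155068928) (nat_lit 9350) (nat_lit 30044979) (nat_lit 9911) (nat_lit 3485204),Row.mk (nat_lit 16968) (nat_lit 9163) (nat_lit 155119388) (nat_lit 9350) (nat_lit 29136846) (nat_lit 9911) (nat_lit 4352936),Row.mk (nat_lit 17136) (nat_lit 9163) (nat_lit 155182411) (nat_lit 9350) (nat_lit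 28002610) (nat_lit 9911) (nat_lit 5436712),Row.mk (nat_lit 17304) (nat_lit 9163) (nat_lit 155261126) (nat_lit 9350) (nat_lit 26585977) (nat_lit 9911) (nat_lit 6790322),Row.mk (nat_lit 17472) (nat_lit 9163) (nat_lit 155359438) (nat_lit 9350) (nat_lit 24816636) (nat_lit 9911) (nat_lit 8480949),Row.mk (nat_lit 17640) (nat_lit 9163) (nat_lit 155482228) (nat_lit 9350) (nat_lit 22606771) (nat_lit 9911) (nat_lit 10592500),Row.mk (nat_lit 17808) (nat_lit 9163) (nat_lit 155635590) (nat_lit 9350) (nat_lit 19846704) (nat_lit 9911) (nat_lit 13229777),Row.mk (nat_lit 17976) (nat_lit 9163) (nat_lit 155827135) (nat_lit 9350) (nat_lit 16399447) (nat_lit 9911) (nat_lit 16523673),Row.mk (nat_lit 18144) (nat_lit 9163) (nat_lit 156066370) (nat_lit 9350) (nat_lit 12093906) (nat_lit 9911) (nat_lit 20637669),Row.mk (nat_lit 18312) (nat_lit 9163) (nat_lit 156365169) (nat_lit 9350) (nat_lit 6716389) (nat_lit 9911) (nat_lit 25775951),Row.mk (nat_lit 18480)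 (nat_lit 9163) (nat_lit 156738362) (nat_lit 9911) (nat_lit 32193541) (nat_lit 0) (nat_lit 0),Row.mk (nat_lit 18648) (nat_lit 9163) (nat_lit 148815863) (nat_lit 9724) (nat_lit 8388608) (nat_lit 9911) (nat_lit 31820348),Row.mk (nat_lit 18816) (nat_lit 9163) (nat_lit 138920852) (nat_lit 9724) (nat_lit 18865777) (nat_lit 9911) (nat_lit 31354240),Row.mk (nat_lit 18984) (nat_lit 9163) (nat_lit 126562223) (nat_lit 9724) (nat_lit 31951508) (nat_lit 9911) (nat_lit 30772081),Row.mk (nat_lit 19152) (nat_lit 9163) (nat_lit 111126593) (nat_lit 9724) (nat_lit 48295271) (nat_lit 9911) (nat_lit 30044979),Row.mk (nat_lit 19320) (nat_lit 9163) (nat_lit 91847864) (nat_lit 9724) (nat_lit 68708236) (nat_lit 9911) (nat_lit 29136846),Row.mk (nat_lit 19488) (nat_lit 9163) (nat_lit 67769196) (nat_lit 9724) (nat_lit 94203538) (nat_lit 9911) (nat_lit 28002610),Row.mk (nat_lit 19656) (nat_lit 9163) (nat_lit 37695520) (nat_lit 9724) (nat_lit 126046554) (nat_lit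 9911) (nat_lit 26585977),Row.mk (nat_lit 19824) (nat_lit 9163) (nat_lit 134225) (nat_lit 9724) (nat_lit 165817713) (nat_lit 9911) (nat_lit 24816636),Row.mk (nat_lit 19992) (nat_lit 9724) (nat_lit 153864952) (nat_lit 10285) (nat_lit 14847054) (nat_lit 10472) (nat_lit 22606771),Row.mk (nat_lit 20160) (nat_lit 9724) (nat_lit 107638990) (nat_lit 10285) (nat_lit 64520273) (nat_lit 10472) (nat_lit 19846704),Row.mk (nat_lit 20328) (nat_lit 9724) (nat_lit 49903880) (nat_lit 10285) (nat_lit 126560924) (nat_lit 10472) (nat_lit 16399447),Row.mk (nat_lit 20496) (nat_lit 10285) (nat_lit 176156958) (nat_lit 10846) (nat_lit 5685364) (nat_lit 11033) (nat_lit 12093906),Row.mk (nat_lit 20664) (nat_lit 10285) (nat_lit 105386070) (nat_lit 10846) (nat_lit 83172641) (nat_lit 11033) (nat_lit 6716389),Row.mk (nat_lit 20832) (nat_lit 10285) (nat_lit 16994937) (nat_lit 10846) (nat_lit 179952381) (nat_lit 0) (nat_lit 0),Row.mk (nat_lit 21000) (nat_lit 10659)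 (nat_lit 10477169) (nat_lit 10846) (nat_lit 113774678) (nat_lit 11407) (nat_lit 74784033),Row.mk (nat_lit 21168) (nat_lit 10659) (nat_lit 16462017) (nat_lit 11220) (nat_lit 7100882) (nat_lit 11407) (nat_lit 178081542),Row.mk (nat_lit 21336) (nat_lit 11220) (nat_lit 39906663) (nat_lit 11407) (nat_lit 70386394) (nat_lit 11968) (nat_lit 94609416),Row.mk (nat_lit 21504) (nat_lit 11781) (nat_lit 60319628) (nat_lit 11968) (nat_lit 132427046) (nat_lit 12716) (nat_lit 16225001),Row.mk (nat_lit 21672) (nat_lit 11781) (nat_lit 67271317) (nat_lit 12529) (nat_lit 18543612) (nat_lit 12716) (nat_lit 128239082),Row.mk (nat_lit 21840) (nat_lit 12529) (nat_lit 117657946) (nat_lit 12716) (nat_lit 31129605) (nat_lit 13464) (nat_lit 71614175),Row.mk (nat_lit 22008) (nat_lit 13277) (nat_lit 157429105) (nat_lit 13464) (nat_lit 70900765) (nat_lit 0) (nat_lit 0),Row.mk (nat_lit 22176) (nat_lit 13277) (nat_lit 89444377) (nat_lit 14025) (nat_lit 117657946)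 (nat_lit 14212) (nat_lit 31129605),Row.mk (nat_lit 22344) (nat_lit 13838) (nat_lit 23160525) (nat_lit 14025) (nat_lit 160167520) (nat_lit 15147) (nat_lit 67271317),Row.mk (nat_lit 22512) (nat_lit 13838) (nat_lit 25310041) (nat_lit 14960) (nat_lit 75337761) (nat_lit 15147) (nat_lit 165398186),Row.mk (nat_lit 22680) (nat_lit 14960) (nat_lit 147585083) (nat_lit 16269) (nat_lit 49842459) (nat_lit 16456) (nat_lit 87910908),Row.mk (nat_lit 22848) (nat_lit 16082) (nat_lit 11076956) (nat_lit 16269) (nat_lit 277796653) (nat_lit 17765) (nat_lit 20560663),Row.mk (nat_lit 23016) (nat_lit 16082) (nat_lit 145703852) (nat_lit 17578) (nat_lit 16343762) (nat_lit 17765) (nat_lit 177481755),Row.mk (nat_lit 23184) (nat_lit 17578) (nat_lit 350606326) (nat_lit 19822) (nat_lit 26511096) (nat_lit 0) (nat_lit 0),Row.mk (nat_lit 23352) (nat_lit 17391) (nat_lit 202393562) (nat_lit 17578) (nat_lit 16343762) (nat_lit 19635) (nat_lit 205326668),Row.mk (nat_lit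 23520) (nat_lit 17204) (nat_lit 17279395) (nat_lit 17391) (nat_lit 36756728) (nat_lit 19448) (nat_lit 428663004),Row.mk (nat_lit 23688) (nat_lit 19261) (nat_lit 384653678) (nat_lit 19448) (nat_lit 49842459) (nat_lit 25806) (nat_lit 121436856),Row.mk (nat_lit 23856) (nat_lit 19074) (nat_lit 244917883) (nat_lit 19261) (nat_lit 75337761) (nat_lit 25619) (nat_lit 327144684),Row.mk (nat_lit 24024) (nat_lit 18887) (nat_lit 70391246) (nat_lit 19074) (nat_lit 107180777) (nat_lit 25432) (nat_lit 584068799),Row.mk (nat_lit 24192) (nat_lit 25245) (nat_lit 786156978) (nat_lit 25432) (nat_lit 117657946) (nat_lit 31790) (nat_lit 509518),Row.mk (nat_lit 24360) (nat_lit 25058) (nat_lit 746385819) (nat_lit 25245) (nat_lit 157429105) (nat_lit 31603) (nat_lit 178717919),Row.mk (nat_lit 24528) (nat_lit 24871) (nat_lit 696712600) (nat_lit 25058) (nat_lit 207102324) (nat_lit 31416) (nat_lit 401295912),Row.mk (nat_lit 24696) (nat_lit 24684) (nat_lit 634671949)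 (nat_lit 24871) (nat_lit 269142976) (nat_lit 31229) (nat_lit 679290456),Row.mk (nat_lit 24864) (nat_lit 24497) (nat_lit 557184671) (nat_lit 24684) (nat_lit 346630253) (nat_lit 31042) (nat_lit 1026498935),Row.mk (nat_lit 25032) (nat_lit 24310) (nat_lit 460404931) (nat_lit 24497) (nat_lit 443409993) (nat_lit 30855) (nat_lit 1460153949),Row.mk (nat_lit 25200) (nat_lit 24123) (nat_lit 339529370) (nat_lit 24310) (nat_lit 564285554) (nat_lit 30668) (nat_lit 2001778600),Row.mk (nat_lit 25368) (nat_lit 23936) (nat_lit 188558711) (nat_lit 24123) (nat_lit 715256213) (nat_lit 30481) (nat_lit 2678254724),Row.mk (nat_lit 25536) (nat_lit 23936) (nat_lit 903814925) (nat_lit 30294) (nat_lit 3523157083) (nat_lit 0) (nat_lit 0),Row.mk (nat_lit 25704) (nat_lit 23749) (nat_lit 903814925) (nat_lit 30107) (nat_lit 4389861036) (nat_lit 30294) (nat_lit 188558711),Row.mk (nat_lit 25872) (nat_lit 23562) (nat_lit 903814925) (nat_lit 29920) (nat_lit 5472353365)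 (nat_lit 30107) (nat_lit 424063993),Row.mk (nat_lit 26040) (nat_lit 23375) (nat_lit 903814925) (nat_lit 29733) (nat_lit 6824360170) (nat_lit 29920) (nat_lit 718204409),Row.mk (nat_lit 26208) (nat_lit 23188) (nat_lit 903814925) (nat_lit 29546) (nat_lit 8512984053) (nat_lit 29733) (nat_lit 1085578692),Row.mk (nat_lit 26376) (nat_lit 23001) (nat_lit 903814925) (nat_lit 29359) (nat_lit 10622034548) (nat_lit 29546) (nat_lit 1544420310),Row.mk (nat_lit 26544) (nat_lit 22814) (nat_lit 903814925) (nat_lit 29172) (nat_lit 13256187738) (nat_lit 29359) (nat_lit 2117502422),Row.mk (nat_lit 26712) (nat_lit 22627) (nat_lit 903814925) (nat_lit 28985) (nat_lit 16546181526) (nat_lit 29172) (nat_lit 2833268154),Row.mk (nat_lit 26880) (nat_lit 22440) (nat_lit 903814925) (nat_lit 28798) (nat_lit 20655304400) (nat_lit 28985) (nat_lit 3727242287),Row.mk (nat_lit 27048) (nat_lit 22253) (nat_lit 903814925) (nat_lit 28611) (nat_lit 25787499743) (nat_lit 28798)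 (nat_lit 4843794413),Row.mk (nat_lit 27216) (nat_lit 22066) (nat_lit 903814925) (nat_lit 28424) (nat_lit 32197487917) (nat_lit 28611) (nat_lit 6238341083),Row.mk (nat_lit 27384) (nat_lit 21879) (nat_lit 903814925) (nat_lit 28237) (nat_lit 40203408514) (nat_lit 28424) (nat_lit 7980096232),Row.mk (nat_lit 27552) (nat_lit 21692) (nat_lit 903814925) (nat_lit 28050) (nat_lit 50202610206) (nat_lit 28237) (nat_lit 10155506395),Row.mk (nat_lit 27720) (nat_lit 21505) (nat_lit 903814925) (nat_lit 27863) (nat_lit 62691371900) (nat_lit 28050) (nat_lit 12872541209),Row.mk (nat_lit 27888) (nat_lit 21318) (nat_lit 903814925) (nat_lit 27676) (nat_lit 78289533980) (nat_lit 27863) (nat_lit 16266052147),Row.mk (nat_lit 28056) (nat_lit 21131) (nat_lit 903814925) (nat_lit 27489) (nat_lit 97771262130) (nat_lit 27676) (nat_lit 20504465444),Row.mk (nat_lit 28224) (nat_lit 20944) (nat_lit 903814925) (nat_lit 27302) (nat_lit 122103470617) (nat_lit 27489) (nat_lit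 25798141406),Row.mk (nat_lit 28392) (nat_lit 32912) (nat_lit 196947319) (nat_lit 62084) (nat_lit 185430324512) (nat_lit 0) (nat_lit 0),Row.mk (nat_lit 28560) (nat_lit 32912) (nat_lit 196947319) (nat_lit 62084) (nat_lit 231644948601) (nat_lit 0) (nat_lit 0),Row.mk (nat_lit 28728) (nat_lit 32912) (nat_lit 196947319) (nat_lit 62084) (nat_lit 289365899215) (nat_lit 0) (nat_lit 0),Row.mk (nat_lit 28896) (nat_lit 32912) (nat_lit 196947319) (nat_lit 62084) (nat_lit 361457974084) (nat_lit 0) (nat_lit 0),Row.mk (nat_lit 29064) (nat_lit 32912) (nat_lit 196947319) (nat_lit 62084) (nat_lit 451499236460) (nat_lit 0) (nat_lit 0),Row.mk (nat_lit 29232) (nat_lit 32912) (nat_lit 196947319) (nat_lit 62084) (nat_lit 563958601029) (nat_lit 0) (nat_lit 0),Row.mk (nat_lit 29400) (nat_lit 32912) (nat_lit 196947319) (nat_lit 62084) (nat_lit 704417634428) (nat_lit 0) (nat_lit 0),Row.mk (nat_lit 29568) (nat_lit 32912) (nat_lit 196947319) (nat_lit 62084) (nat_lit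 879847578738) (nat_lit 0) (nat_lit 0),Row.mk (nat_lit 29736) (nat_lit 32912) (nat_lit 196947319) (nat_lit 62084) (nat_lit 1098955347142) (nat_lit 0) (nat_lit 0),Row.mk (nat_lit 29904) (nat_lit 32912) (nat_lit 196947319) (nat_lit 62084) (nat_lit 1372615664167) (nat_lit 0) (nat_lit 0),Row.mk (nat_lit 30072) (nat_lit 32912) (nat_lit 196947319) (nat_lit 62084) (nat_lit 1714410798402) (nat_lit 0) (nat_lit 0),Row.mk (nat_lit 30240) (nat_lit 32912) (nat_lit 196947319) (nat_lit 62084) (nat_lit 2141304675662) (nat_lit 0) (nat_lit 0),Row.mk (nat_lit 30408) (nat_lit 32912) (nat_lit 196947319) (nat_lit 62084) (nat_lit 2674484830056) (nat_lit 0) (nat_lit 0),Row.mk (nat_lit 30576) (nat_lit 32912) (nat_lit 196947319) (nat_lit 62084) (nat_lit 3340413980559) (nat_lit 0) (nat_lit 0),Row.mk (nat_lit 30744) (nat_lit 32912) (nat_lit 196947319) (nat_lit 62084) (nat_lit 4172143424793) (nat_lit 0) (nat_lit 0),Row.mk (nat_lit 30912) (nat_lit 32912) (nat_lit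 196947319) (nat_lit 62084) (nat_lit 5210953436162) (nat_lit 0) (nat_lit 0),Row.mk (nat_lit 31080) (nat_lit 32912) (nat_lit 196947319) (nat_lit 62084) (nat_lit 6508402080311) (nat_lit 0) (nat_lit 0)],
[Row.mk (nat_lit 8568) (nat_lit 8602) (nat_lit 201812832) (nat_lit 8789) (nat_lit 33692368) (nat_lit 9350) (nat_lit 81),Row.mk (nat_lit 8736) (nat_lit 8602) (nat_lit 201812833) (nat_lit 8789) (nat_lit 33692347) (nat_lit 9350) (nat_lit 101),Row.mk (nat_lit 8904) (nat_lit 8602) (nat_lit 201812834) (nat_lit 8789) (nat_lit 33692320) (nat_lit 9350) (nat_lit 127),Row.mk (nat_lit 9072) (nat_lit 8602) (nat_lit 201812836) (nat_lit 8789) (nat_lit 33692288) (nat_lit 9350) (nat_lit 158),Row.mk (nat_lit 9240) (nat_lit 8602) (nat_lit 201812838) (nat_lit 8789) (nat_lit 33692247) (nat_lit 9350) (nat_lit 198),Row.mk (nat_lit 9408) (nat_lit 8602) (nat_lit 201812840) (nat_lit 8789) (nat_lit 33692195) (nat_lit 9350) (nat_lit 247),Row.mk (nat_lit 9576) (nat_lit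 8602) (nat_lit 201812843) (nat_lit 8789) (nat_lit 33692131) (nat_lit 9350) (nat_lit 309),Row.mk (nat_lit 9744) (nat_lit 8602) (nat_lit 201812846) (nat_lit 8789) (nat_lit 33692051) (nat_lit 9350) (nat_lit 386),Row.mk (nat_lit 9912) (nat_lit 8602) (nat_lit 201812851) (nat_lit 8789) (nat_lit 33691951) (nat_lit 9350) (nat_lit 483),Row.mk (nat_lit 10080) (nat_lit 8602) (nat_lit 201812856) (nat_lit 8789) (nat_lit 33691827) (nat_lit 9350) (nat_lit 603),Row.mk (nat_lit 10248) (nat_lit 8602) (nat_lit 201812863) (nat_lit 8789) (nat_lit 33691671) (nat_lit 9350) (nat_lit 753),Row.mk (nat_lit 10416) (nat_lit 8602) (nat_lit 201812872) (nat_lit 8789) (nat_lit 33691476) (nat_lit 9350) (nat_lit 941),Row.mk (nat_lit 10584) (nat_lit 8602) (nat_lit 201812883) (nat_lit 8789) (nat_lit 33691233) (nat_lit 9350) (nat_lit 1175),Row.mk (nat_lit 10752) (nat_lit 8602) (nat_lit 201812896) (nat_lit 8789) (nat_lit 33690930) (nat_lit 9350) (nat_lit 1468),Row.mk (nat_lit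 10920) (nat_lit 8602) (nat_lit 201812913) (nat_lit 8789) (nat_lit 33690551) (nat_lit 9350) (nat_lit 1834),Row.mk (nat_lit 11088) (nat_lit 8602) (nat_lit 201812934) (nat_lit 8789) (nat_lit 33690077) (nat_lit 9350) (nat_lit 2290),Row.mk (nat_lit 11256) (nat_lit 8602) (nat_lit 201812960) (nat_lit 8789) (nat_lit 33689486) (nat_lit 9350) (nat_lit 2860),Row.mk (nat_lit 11424) (nat_lit 8602) (nat_lit 201812993) (nat_lit 8789) (nat_lit 33688747) (nat_lit 9350) (nat_lit 3573),Row.mk (nat_lit 11592) (nat_lit 8602) (nat_lit 201813034) (nat_lit 8789) (nat_lit 33687825) (nat_lit 9350) (nat_lit 4462),Row.mk (nat_lit 11760) (nat_lit 8602) (nat_lit 201813086) (nat_lit 8789) (nat_lit 33686673) (nat_lit 9350) (nat_lit 5574),Row.mk (nat_lit 11928) (nat_lit 8602) (nat_lit 201813150) (nat_lit 8789) (nat_lit 33685233) (nat_lit 9350) (nat_lit 6961),Row.mk (nat_lit 12096) (nat_lit 8602) (nat_lit 201813230) (nat_lit 8789) (nat_lit 33683436) (nat_lit 9350)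 (nat_lit 8695),Row.mk (nat_lit 12264) (nat_lit 8602) (nat_lit 201813329) (nat_lit 8789) (nat_lit 33681191) (nat_lit 9350) (nat_lit 10860),Row.mk (nat_lit 12432) (nat_lit 8602) (nat_lit 201813454) (nat_lit 8789) (nat_lit 33678387) (nat_lit 9350) (nat_lit 13564),Row.mk (nat_lit 12600) (nat_lit 8602) (nat_lit 201813610) (nat_lit 8789) (nat_lit 33674886) (nat_lit 9350) (nat_lit 16941),Row.mk (nat_lit 12768) (nat_lit 8602) (nat_lit 201813805) (nat_lit 8789) (nat_lit 33670512) (nat_lit 9350) (nat_lit 21159),Row.mk (nat_lit 12936) (nat_lit 8602) (nat_lit 201814048) (nat_lit 8789) (nat_lit 33665049) (nat_lit 9350) (nat_lit 26427),Row.mk (nat_lit 13104) (nat_lit 8602) (nat_lit 201814351) (nat_lit 8789) (nat_lit 33658226) (nat_lit 9350) (nat_lit 33006),Row.mk (nat_lit 13272) (nat_lit 8602) (nat_lit 201814730) (nat_lit 8789) (nat_lit 33649705) (nat_lit 9350) (nat_lit 41224),Row.mk (nat_lit 13440) (nat_lit 8602) (nat_lit 201815204) (nat_lit 8789)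 (nat_lit 33639062) (nat_lit 9350) (nat_lit 51488),Row.mk (nat_lit 13608) (nat_lit 8602) (nat_lit 201815795) (nat_lit 8789) (nat_lit 33625769) (nat_lit 9350) (nat_lit 64308),Row.mk (nat_lit 13776) (nat_lit 8602) (nat_lit 201816534) (nat_lit 8789) (nat_lit 33609166) (nat_lit 9350) (nat_lit 80319),Row.mk (nat_lit 13944) (nat_lit 8602) (nat_lit 201817456) (nat_lit 8789) (nat_lit 33588430) (nat_lit 9350) (nat_lit 100317),Row.mk (nat_lit 14112) (nat_lit 8602) (nat_lit 201818608) (nat_lit 8789) (nat_lit 33562531) (nat_lit 9350) (nat_lit 125293),Row.mk (nat_lit 14280) (nat_lit 8602) (nat_lit 201820047) (nat_lit 8789) (nat_lit 33530184) (nat_lit 9350) (nat_lit 156488),Row.mk (nat_lit 14448) (nat_lit 8602) (nat_lit 201821845) (nat_lit 8789) (nat_lit 33489782) (nat_lit 9350) (nat_lit 195450),Row.mk (nat_lit 14616) (nat_lit 8602) (nat_lit 201824090) (nat_lit 8789) (nat_lit 33439323) (nat_lit 9350) (nat_lit 244113),Row.mk (nat_lit 14784) (nat_lit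 8602) (nat_lit 201826894) (nat_lit 8789) (nat_lit 33376299) (nat_lit 9350) (nat_lit 304891),Row.mk (nat_lit 14952) (nat_lit 8602) (nat_lit 201830395) (nat_lit 8789) (nat_lit 33297585) (nat_lit 9350) (nat_lit 380802),Row.mk (nat_lit 15120) (nat_lit 8602) (nat_lit 201834769) (nat_lit 8789) (nat_lit 33199272) (nat_lit 9350) (nat_lit 475613),Row.mk (nat_lit 15288) (nat_lit 8602) (nat_lit 201840232) (nat_lit 8789) (nat_lit 33076482) (nat_lit 9350) (nat_lit 594029),Row.mk (nat_lit 15456) (nat_lit 8602) (nat_lit 201847055) (nat_lit 8789) (nat_lit 32923121) (nat_lit 9350) (nat_lit 741928),Row.mk (nat_lit 15624) (nat_lit 8602) (nat_lit 201855576) (nat_lit 8789) (nat_lit 32731575) (nat_lit 9350) (nat_lit 926650),Row.mk (nat_lit 15792) (nat_lit 8602) (nat_lit 201866219) (nat_lit 8789) (nat_lit 32492340) (nat_lit 9350) (nat_lit 1157364),Row.mk (nat_lit 15960) (nat_lit 8602) (nat_lit 201879512) (nat_lit 8789) (nat_lit 32193541) (nat_lit 9350)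 (nat_lit 1445520),Row.mk (nat_lit 16128) (nat_lit 8602) (nat_lit 201896115) (nat_lit 8789) (nat_lit 31820348) (nat_lit 9350) (nat_lit 1805420),Row.mk (nat_lit 16296) (nat_lit 8602) (nat_lit 201916851) (nat_lit 8789) (nat_lit 31354240) (nat_lit 9350) (nat_lit 2254926),Row.mk (nat_lit 16464) (nat_lit 8602) (nat_lit 201942750) (nat_lit 8789) (nat_lit 30772081) (nat_lit 9350) (nat_lit 2816348),Row.mk (nat_lit 16632) (nat_lit 8602) (nat_lit 201975097) (nat_lit 8789) (nat_lit 30044979) (nat_lit 9350) (nat_lit 3517551),Row.mk (nat_lit 16800) (nat_lit 8602) (nat_lit 202015498) (nat_lit 8789) (nat_lit 29136846) (nat_lit 9350) (nat_lit 4393337),Row.mk (nat_lit 16968) (nat_lit 8602) (nat_lit 202065958) (nat_lit 8789) (nat_lit 28002610) (nat_lit 9350) (nat_lit 5487172),Row.mk (nat_lit 17136) (nat_lit 8602) (nat_lit 202128982) (nat_lit 8789) (nat_lit 26585977) (nat_lit 9350) (nat_lit 6853345),Row.mk (nat_lit 17304) (nat_lit 8602) (nat_lit 202207696)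 (nat_lit 8789) (nat_lit 24816636) (nat_lit 9350) (nat_lit 8559663),Row.mk (nat_lit 17472) (nat_lit 8602) (nat_lit 202306009) (nat_lit 8789) (nat_lit 22606771) (nat_lit 9350) (nat_lit 10690813),Row.mk (nat_lit 17640) (nat_lit 8602) (nat_lit 202428799) (nat_lit 8789) (nat_lit 19846704) (nat_lit 9350) (nat_lit 13352567),Row.mk (nat_lit 17808) (nat_lit 8602) (nat_lit 202582160) (nat_lit 8789) (nat_lit 16399447) (nat_lit 9350) (nat_lit 16677035),Row.mk (nat_lit 17976) (nat_lit 8602) (nat_lit 202773706) (nat_lit 8789) (nat_lit 12093906) (nat_lit 9350) (nat_lit 20829214),Row.mk (nat_lit 18144) (nat_lit 8602) (nat_lit 203012941) (nat_lit 8789) (nat_lit 6716389) (nat_lit 9350) (nat_lit 26015186),Row.mk (nat_lit 18312) (nat_lit 8602) (nat_lit 203311740) (nat_lit 9350) (nat_lit 32492340) (nat_lit 0) (nat_lit 0),Row.mk (nat_lit 18480) (nat_lit 8602) (nat_lit 195296325) (nat_lit 9163) (nat_lit 8388608) (nat_lit 9350) (nat_lit 32193541),Row.mk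 (nat_lit 18648) (nat_lit 8602) (nat_lit 185285264) (nat_lit 9163) (nat_lit 18865777) (nat_lit 9350) (nat_lit 31820348),Row.mk (nat_lit 18816) (nat_lit 8602) (nat_lit 172781691) (nat_lit 9163) (nat_lit 31951508) (nat_lit 9350) (nat_lit 31354240),Row.mk (nat_lit 18984) (nat_lit 8602) (nat_lit 157165031) (nat_lit 9163) (nat_lit 48295271) (nat_lit 9350) (nat_lit 30772081),Row.mk (nat_lit 19152) (nat_lit 8602) (nat_lit 137660198) (nat_lit 9163) (nat_lit 68708236) (nat_lit 9350) (nat_lit 30044979),Row.mk (nat_lit 19320) (nat_lit 8602) (nat_lit 113299133) (nat_lit 9163) (nat_lit 94203538) (nat_lit 9350) (nat_lit 29136846),Row.mk (nat_lit 19488) (nat_lit 8602) (nat_lit 82872750) (nat_lit 9163) (nat_lit 126046554) (nat_lit 9350) (nat_lit 28002610),Row.mk (nat_lit 19656) (nat_lit 8602) (nat_lit 44870931) (nat_lit 9163) (nat_lit 165817713) (nat_lit 9350) (nat_lit 26585977),Row.mk (nat_lit 19824) (nat_lit 9163) (nat_lit 212898510) (nat_lit 9350)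 (nat_lit 22740997) (nat_lit 9911) (nat_lit 2075638),Row.mk (nat_lit 19992) (nat_lit 9163) (nat_lit 188726356) (nat_lit 9724) (nat_lit 26932220) (nat_lit 9911) (nat_lit 22606771),Row.mk (nat_lit 20160) (nat_lit 9163) (nat_lit 130132961) (nat_lit 9724) (nat_lit 88972872) (nat_lit 9911) (nat_lit 19846704),Row.mk (nat_lit 20328) (nat_lit 9163) (nat_lit 56951225) (nat_lit 9724) (nat_lit 166460149) (nat_lit 9911) (nat_lit 16399447),Row.mk (nat_lit 20496) (nat_lit 9724) (nat_lit 213299402) (nat_lit 10285) (nat_lit 15489490) (nat_lit 10472) (nat_lit 12093906),Row.mk (nat_lit 20664) (nat_lit 9724) (nat_lit 123236051) (nat_lit 10285) (nat_lit 112269230) (nat_lit 10472) (nat_lit 6716389),Row.mk (nat_lit 20832) (nat_lit 9724) (nat_lit 10749098) (nat_lit 10285) (nat_lit 233144791) (nat_lit 0) (nat_lit 0),Row.mk (nat_lit 21000) (nat_lit 10098) (nat_lit 10477169) (nat_lit 10285) (nat_lit 131624659) (nat_lit 10846) (nat_lit 103880622),Row.mk (nat_lit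 21168) (nat_lit 10098) (nat_lit 4216900) (nat_lit 10659) (nat_lit 19346000) (nat_lit 10846) (nat_lit 225028112),Row.mk (nat_lit 21336) (nat_lit 10659) (nat_lit 39906663) (nat_lit 10846) (nat_lit 77433739) (nat_lit 11407) (nat_lit 134508641),Row.mk (nat_lit 21504) (nat_lit 11220) (nat_lit 60319628) (nat_lit 11407) (nat_lit 154921017) (nat_lit 11968) (nat_lit 40677601),Row.mk (nat_lit 21672) (nat_lit 11220) (nat_lit 52177235) (nat_lit 11781) (nat_lit 33637694) (nat_lit 11968) (nat_lit 175185653),Row.mk (nat_lit 21840) (nat_lit 11781) (nat_lit 117657946) (nat_lit 11968) (nat_lit 28402957) (nat_lit 12716) (nat_lit 121287394),Row.mk (nat_lit 22008) (nat_lit 12529) (nat_lit 157429105) (nat_lit 12716) (nat_lit 78076176) (nat_lit 13464) (nat_lit 39771159),Row.mk (nat_lit 22176) (nat_lit 12529) (nat_lit 49673218) (nat_lit 13277) (nat_lit 157429105) (nat_lit 13464) (nat_lit 78076176),Row.mk (nat_lit 22344) (nat_lit 13277) (nat_lit 151485029)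 (nat_lit 14025) (nat_lit 117657946) (nat_lit 14212) (nat_lit 28402957),Row.mk (nat_lit 22512) (nat_lit 13838) (nat_lit 42012668) (nat_lit 14025) (nat_lit 218802654) (nat_lit 15147) (nat_lit 52177235),Row.mk (nat_lit 22680) (nat_lit 13838) (nat_lit 63454647) (nat_lit 14960) (nat_lit 75337761) (nat_lit 15147) (nat_lit 193492613),Row.mk (nat_lit 22848) (nat_lit 14960) (nat_lit 209825509) (nat_lit 16269) (nat_lit 49842459) (nat_lit 16456) (nat_lit 96712873),Row.mk (nat_lit 23016) (nat_lit 16082) (nat_lit 30178613) (nat_lit 16269) (nat_lit 351030520) (nat_lit 17765) (nat_lit 5266806),Row.mk (nat_lit 23184) (nat_lit 16082) (nat_lit 202393562) (nat_lit 17578) (nat_lit 16343762) (nat_lit 17765) (nat_lit 205326668),Row.mk (nat_lit 23352) (nat_lit 17578) (nat_lit 454242607) (nat_lit 19822) (nat_lit 16767956) (nat_lit 0) (nat_lit 0),Row.mk (nat_lit 23520) (nat_lit 17391) (nat_lit 273197642) (nat_lit 17578) (nat_lit 16343762) (nat_lit 19635)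 (nat_lit 240104292),Row.mk (nat_lit 23688) (nat_lit 17204) (nat_lit 47076849) (nat_lit 17391) (nat_lit 36756728) (nat_lit 19448) (nat_lit 519045988),Row.mk (nat_lit 23856) (nat_lit 19261) (nat_lit 505918466) (nat_lit 19448) (nat_lit 49842459) (nat_lit 25806) (nat_lit 138585973),Row.mk (nat_lit 24024) (nat_lit 19074) (nat_lit 337739544) (nat_lit 19261) (nat_lit 75337761) (nat_lit 25619) (nat_lit 395510087),Row.mk (nat_lit 24192) (nat_lit 18887) (nat_lit 127688127) (nat_lit 19074) (nat_lit 107180777) (nat_lit 25432) (nat_lit 716402109),Row.mk (nat_lit 24360) (nat_lit 18887) (nat_lit 12290912) (nat_lit 25245) (nat_lit 1009371348) (nat_lit 25432) (nat_lit 107817154),Row.mk (nat_lit 24528) (nat_lit 25058) (nat_lit 981891101) (nat_lit 25245) (nat_lit 157429105) (nat_lit 31603) (nat_lit 212737200),Row.mk (nat_lit 24696) (nat_lit 24871) (nat_lit 932217882) (nat_lit 25058) (nat_lit 207102324) (nat_lit 31416) (nat_lit 490731744),Row.mk (nat_lit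 24864) (nat_lit 24684) (nat_lit 870177230) (nat_lit 24871) (nat_lit 269142976) (nat_lit 31229) (nat_lit 837940223),Row.mk (nat_lit 25032) (nat_lit 24497) (nat_lit 792689953) (nat_lit 24684) (nat_lit 346630253) (nat_lit 31042) (nat_lit 1271595237),Row.mk (nat_lit 25200) (nat_lit 24310) (nat_lit 695910213) (nat_lit 24497) (nat_lit 443409993) (nat_lit 30855) (nat_lit 1813219889),Row.mk (nat_lit 25368) (nat_lit 24123) (nat_lit 575034652) (nat_lit 24310) (nat_lit 564285554) (nat_lit 30668) (nat_lit 2489696012),Row.mk (nat_lit 25536) (nat_lit 23936) (nat_lit 424063993) (nat_lit 24123) (nat_lit 715256213) (nat_lit 30481) (nat_lit 3334598372),Row.mk (nat_lit 25704) (nat_lit 23749) (nat_lit 235505281) (nat_lit 23936) (nat_lit 903814925) (nat_lit 30294) (nat_lit 4389861036),Row.mk (nat_lit 25872) (nat_lit 23749) (nat_lit 1139320207) (nat_lit 30107) (nat_lit 5707858647) (nat_lit 0) (nat_lit 0),Row.mk (nat_lit 26040) (nat_lit 23562) (nat_lit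 1139320207) (nat_lit 29920) (nat_lit 7118500586) (nat_lit 30107) (nat_lit 235505281),Row.mk (nat_lit 26208) (nat_lit 23375) (nat_lit 1139320207) (nat_lit 29733) (nat_lit 8880358337) (nat_lit 29920) (nat_lit 529645697),Row.mk (nat_lit 26376) (nat_lit 23188) (nat_lit 1139320207) (nat_lit 29546) (nat_lit 11080876166) (nat_lit 29733) (nat_lit 897019981),Row.mk (nat_lit 26544) (nat_lit 23001) (nat_lit 1139320207) (nat_lit 29359) (nat_lit 13829269850) (nat_lit 29546) (nat_lit 1355861599),Row.mk (nat_lit 26712) (nat_lit 22814) (nat_lit 1139320207) (nat_lit 29172) (nat_lit 17261947259) (nat_lit 29359) (nat_lit 1928943710),Row.mk (nat_lit 26880) (nat_lit 22627) (nat_lit 1139320207) (nat_lit 28985) (nat_lit 21549278533) (nat_lit 29172) (nat_lit 2644709443),Row.mk (nat_lit 27048) (nat_lit 22440) (nat_lit 1139320207) (nat_lit 28798) (nat_lit 26904051869) (nat_lit 28985) (nat_lit 3538683576),Row.mk (nat_lit 27216) (nat_lit 22253) (nat_lit 1139320207)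 (nat_lit 28611) (nat_lit 33592034587) (nat_lit 28798) (nat_lit 4655235702),Row.mk (nat_lit 27384) (nat_lit 22066) (nat_lit 1139320207) (nat_lit 28424) (nat_lit 41945163662) (nat_lit 28611) (nat_lit 6049782371),Row.mk (nat_lit 27552) (nat_lit 21879) (nat_lit 1139320207) (nat_lit 28237) (nat_lit 52378020369) (nat_lit 28424) (nat_lit 7791537520),Row.mk (nat_lit 27720) (nat_lit 21692) (nat_lit 1139320207) (nat_lit 28050) (nat_lit 65408406714) (nat_lit 28237) (nat_lit 9966947683),Row.mk (nat_lit 27888) (nat_lit 21505) (nat_lit 1139320207) (nat_lit 27863) (nat_lit 81683044918) (nat_lit 28050) (nat_lit 12683982498),Row.mk (nat_lit 28056) (nat_lit 21318) (nat_lit 1139320207) (nat_lit 27676) (nat_lit 102009675427) (nat_lit 27863) (nat_lit 16077493436),Row.mk (nat_lit 28224) (nat_lit 21131) (nat_lit 1139320207) (nat_lit 27489) (nat_lit 127397146578) (nat_lit 27676) (nat_lit 20315906733),Row.mk (nat_lit 28392) (nat_lit 20944) (nat_lit 1139320207)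 (nat_lit 27302) (nat_lit 159105485603) (nat_lit 27489) (nat_lit 25609582694),Row.mk (nat_lit 28560) (nat_lit 32912) (nat_lit 243893889) (nat_lit 62084) (nat_lit 231598002030) (nat_lit 0) (nat_lit 0),Row.mk (nat_lit 28728) (nat_lit 32912) (nat_lit 243893889) (nat_lit 62084) (nat_lit 289318952645) (nat_lit 0) (nat_lit 0),Row.mk (nat_lit 28896) (nat_lit 32912) (nat_lit 243893889) (nat_lit 62084) (nat_lit 361411027514) (nat_lit 0) (nat_lit 0),Row.mk (nat_lit 29064) (nat_lit 32912) (nat_lit 243893889) (nat_lit 62084) (nat_lit 451452289889) (nat_lit 0) (nat_lit 0),Row.mk (nat_lit 29232) (nat_lit 32912) (nat_lit 243893889) (nat_lit 62084) (nat_lit 563911654459) (nat_lit 0) (nat_lit 0),Row.mk (nat_lit 29400) (nat_lit 32912) (nat_lit 243893889) (nat_lit 62084) (nat_lit 704370687858) (nat_lit 0) (nat_lit 0),Row.mk (nat_lit 29568) (nat_lit 32912) (nat_lit 243893889) (nat_lit 62084) (nat_lit 879800632167) (nat_lit 0) (nat_lit 0),Row.mk (nat_lit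 29736) (nat_lit 32912) (nat_lit 243893889) (nat_lit 62084) (nat_lit 1098908400572) (nat_lit 0) (nat_lit 0),Row.mk (nat_lit 29904) (nat_lit 32912) (nat_lit 243893889) (nat_lit 62084) (nat_lit 1372568717596) (nat_lit 0) (nat_lit 0),Row.mk (nat_lit 30072) (nat_lit 32912) (nat_lit 243893889) (nat_lit 62084) (nat_lit 1714363851831) (nat_lit 0) (nat_lit 0),Row.mk (nat_lit 30240) (nat_lit 32912) (nat_lit 243893889) (nat_lit 62084) (nat_lit 2141257729092) (nat_lit 0) (nat_lit 0),Row.mk (nat_lit 30408) (nat_lit 32912) (nat_lit 243893889) (nat_lit 62084) (nat_lit 2674437883486) (nat_lit 0) (nat_lit 0),Row.mk (nat_lit 30576) (nat_lit 32912) (nat_lit 243893889) (nat_lit 62084) (nat_lit 3340367033989) (nat_lit 0) (nat_lit 0),Row.mk (nat_lit 30744) (nat_lit 32912) (nat_lit 243893889) (nat_lit 62084) (nat_lit 4172096478223) (nat_lit 0) (nat_lit 0),Row.mk (nat_lit 30912) (nat_lit 32912) (nat_lit 243893889) (nat_lit 62084) (nat_lit 5210906489592)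 (nat_lit 0) (nat_lit 0),Row.mk (nat_lit 31080) (nat_lit 32912) (nat_lit 243893889) (nat_lit 62084) (nat_lit 6508355133741) (nat_lit 0) (nat_lit 0)],
[Row.mk (nat_lit 8904) (nat_lit 8041) (nat_lit 260447968) (nat_lit 8228) (nat_lit 33692288) (nat_lit 8789) (nat_lit 160),Row.mk (nat_lit 9072) (nat_lit 8041) (nat_lit 260447970) (nat_lit 8228) (nat_lit 33692247) (nat_lit 8789) (nat_lit 200),Row.mk (nat_lit 9240) (nat_lit 8041) (nat_lit 260447972) (nat_lit 8228) (nat_lit 33692195) (nat_lit 8789) (nat_lit 249),Row.mk (nat_lit 9408) (nat_lit 8041) (nat_lit 260447974) (nat_lit 8228) (nat_lit 33692131) (nat_lit 8789) (nat_lit 312),Row.mk (nat_lit 9576) (nat_lit 8041) (nat_lit 260447977) (nat_lit 8228) (nat_lit 33692051) (nat_lit 8789) (nat_lit 389),Row.mk (nat_lit 9744) (nat_lit 8041) (nat_lit 260447980) (nat_lit 8228) (nat_lit 33691951) (nat_lit 8789) (nat_lit 486),Row.mk (nat_lit 9912) (nat_lit 8041) (nat_lit 260447985) (nat_lit 8228) (nat_lit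 33691827) (nat_lit 8789) (nat_lit 607),Row.mk (nat_lit 10080) (nat_lit 8041) (nat_lit 260447990) (nat_lit 8228) (nat_lit 33691671) (nat_lit 8789) (nat_lit 759),Row.mk (nat_lit 10248) (nat_lit 8041) (nat_lit 260447997) (nat_lit 8228) (nat_lit 33691476) (nat_lit 8789) (nat_lit 948),Row.mk (nat_lit 10416) (nat_lit 8041) (nat_lit 260448006) (nat_lit 8228) (nat_lit 33691233) (nat_lit 8789) (nat_lit 1184),Row.mk (nat_lit 10584) (nat_lit 8041) (nat_lit 260448017) (nat_lit 8228) (nat_lit 33690930) (nat_lit 8789) (nat_lit 1479),Row.mk (nat_lit 10752) (nat_lit 8041) (nat_lit 260448030) (nat_lit 8228) (nat_lit 33690551) (nat_lit 8789) (nat_lit 1847),Row.mk (nat_lit 10920) (nat_lit 8041) (nat_lit 260448047) (nat_lit 8228) (nat_lit 33690077) (nat_lit 8789) (nat_lit 2307),Row.mk (nat_lit 11088) (nat_lit 8041) (nat_lit 260448068) (nat_lit 8228) (nat_lit 33689486) (nat_lit 8789) (nat_lit 2882),Row.mk (nat_lit 11256) (nat_lit 8041) (nat_lit 260448094)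 (nat_lit 8228) (nat_lit 33688747) (nat_lit 8789) (nat_lit 3599),Row.mk (nat_lit 11424) (nat_lit 8041) (nat_lit 260448127) (nat_lit 8228) (nat_lit 33687825) (nat_lit 8789) (nat_lit 4495),Row.mk (nat_lit 11592) (nat_lit 8041) (nat_lit 260448168) (nat_lit 8228) (nat_lit 33686673) (nat_lit 8789) (nat_lit 5615),Row.mk (nat_lit 11760) (nat_lit 8041) (nat_lit 260448220) (nat_lit 8228) (nat_lit 33685233) (nat_lit 8789) (nat_lit 7013),Row.mk (nat_lit 11928) (nat_lit 8041) (nat_lit 260448284) (nat_lit 8228) (nat_lit 33683436) (nat_lit 8789) (nat_lit 8759),Row.mk (nat_lit 12096) (nat_lit 8041) (nat_lit 260448364) (nat_lit 8228) (nat_lit 33681191) (nat_lit 8789) (nat_lit 10940),Row.mk (nat_lit 12264) (nat_lit 8041) (nat_lit 260448463) (nat_lit 8228) (nat_lit 33678387) (nat_lit 8789) (nat_lit 13663),Row.mk (nat_lit 12432) (nat_lit 8041) (nat_lit 260448588) (nat_lit 8228) (nat_lit 33674886) (nat_lit 8789) (nat_lit 17065),Row.mk (nat_lit 12600)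 (nat_lit 8041) (nat_lit 260448744) (nat_lit 8228) (nat_lit 33670512) (nat_lit 8789) (nat_lit 21314),Row.mk (nat_lit 12768) (nat_lit 8041) (nat_lit 260448938) (nat_lit 8228) (nat_lit 33665049) (nat_lit 8789) (nat_lit 26621),Row.mk (nat_lit 12936) (nat_lit 8041) (nat_lit 260449182) (nat_lit 8228) (nat_lit 33658226) (nat_lit 8789) (nat_lit 33249),Row.mk (nat_lit 13104) (nat_lit 8041) (nat_lit 260449485) (nat_lit 8228) (nat_lit 33649705) (nat_lit 8789) (nat_lit 41528),Row.mk (nat_lit 13272) (nat_lit 8041) (nat_lit 260449864) (nat_lit 8228) (nat_lit 33639062) (nat_lit 8789) (nat_lit 51867),Row.mk (nat_lit 13440) (nat_lit 8041) (nat_lit 260450338) (nat_lit 8228) (nat_lit 33625769) (nat_lit 8789) (nat_lit 64781),Row.mk (nat_lit 13608) (nat_lit 8041) (nat_lit 260450929) (nat_lit 8228) (nat_lit 33609166) (nat_lit 8789) (nat_lit 80910),Row.mk (nat_lit 13776) (nat_lit 8041) (nat_lit 260451668) (nat_lit 8228) (nat_lit 33588430) (nat_lit 8789)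 (nat_lit 101055),Row.mk (nat_lit 13944) (nat_lit 8041) (nat_lit 260452590) (nat_lit 8228) (nat_lit 33562531) (nat_lit 8789) (nat_lit 126216),Row.mk (nat_lit 14112) (nat_lit 8041) (nat_lit 260453742) (nat_lit 8228) (nat_lit 33530184) (nat_lit 8789) (nat_lit 157641),Row.mk (nat_lit 14280) (nat_lit 8041) (nat_lit 260455181) (nat_lit 8228) (nat_lit 33489782) (nat_lit 8789) (nat_lit 196890),Row.mk (nat_lit 14448) (nat_lit 8041) (nat_lit 260456979) (nat_lit 8228) (nat_lit 33439323) (nat_lit 8789) (nat_lit 245910),Row.mk (nat_lit 14616) (nat_lit 8041) (nat_lit 260459224) (nat_lit 8228) (nat_lit 33376299) (nat_lit 8789) (nat_lit 307136),Row.mk (nat_lit 14784) (nat_lit 8041) (nat_lit 260462027) (nat_lit 8228) (nat_lit 33297585) (nat_lit 8789) (nat_lit 383606),Row.mk (nat_lit 14952) (nat_lit 8041) (nat_lit 260465529) (nat_lit 8228) (nat_lit 33199272) (nat_lit 8789) (nat_lit 479115),Row.mk (nat_lit 15120) (nat_lit 8041) (nat_lit 260469903) (nat_lit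 8228) (nat_lit 33076482) (nat_lit 8789) (nat_lit 598403),Row.mk (nat_lit 15288) (nat_lit 8041) (nat_lit 260475366) (nat_lit 8228) (nat_lit 32923121) (nat_lit 8789) (nat_lit 747391),Row.mk (nat_lit 15456) (nat_lit 8041) (nat_lit 260482188) (nat_lit 8228) (nat_lit 32731575) (nat_lit 8789) (nat_lit 933473),Row.mk (nat_lit 15624) (nat_lit 8041) (nat_lit 260490710) (nat_lit 8228) (nat_lit 32492340) (nat_lit 8789) (nat_lit 1165886),Row.mk (nat_lit 15792) (nat_lit 8041) (nat_lit 260501353) (nat_lit 8228) (nat_lit 32193541) (nat_lit 8789) (nat_lit 1456163),Row.mk (nat_lit 15960) (nat_lit 8041) (nat_lit 260514646) (nat_lit 8228) (nat_lit 31820348) (nat_lit 8789) (nat_lit 1818713),Row.mk (nat_lit 16128) (nat_lit 8041) (nat_lit 260531249) (nat_lit 8228) (nat_lit 31354240) (nat_lit 8789) (nat_lit 2271529),Row.mk (nat_lit 16296) (nat_lit 8041) (nat_lit 260551985) (nat_lit 8228) (nat_lit 30772081) (nat_lit 8789) (nat_lit 2837085),Row.mk (nat_lit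 16464) (nat_lit 8041) (nat_lit 260577884) (nat_lit 8228) (nat_lit 30044979) (nat_lit 8789) (nat_lit 3543450),Row.mk (nat_lit 16632) (nat_lit 8041) (nat_lit 260610231) (nat_lit 8228) (nat_lit 29136846) (nat_lit 8789) (nat_lit 4425684),Row.mk (nat_lit 16800) (nat_lit 8041) (nat_lit 260650632) (nat_lit 8228) (nat_lit 28002610) (nat_lit 8789) (nat_lit 5527573),Row.mk (nat_lit 16968) (nat_lit 8041) (nat_lit 260701092) (nat_lit 8228) (nat_lit 26585977) (nat_lit 8789) (nat_lit 6903805),Row.mk (nat_lit 17136) (nat_lit 8041) (nat_lit 260764116) (nat_lit 8228) (nat_lit 24816636) (nat_lit 8789) (nat_lit 8622686),Row.mk (nat_lit 17304) (nat_lit 8041) (nat_lit 260842830) (nat_lit 8228) (nat_lit 22606771) (nat_lit 8789) (nat_lit 10769527),Row.mk (nat_lit 17472) (nat_lit 8041) (nat_lit 260941143) (nat_lit 8228) (nat_lit 19846704) (nat_lit 8789) (nat_lit 13450880),Row.mk (nat_lit 17640) (nat_lit 8041) (nat_lit 261063933) (nat_lit 8228) (nat_lit 16399447)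 (nat_lit 8789) (nat_lit 16799825),Row.mk (nat_lit 17808) (nat_lit 8041) (nat_lit 261217294) (nat_lit 8228) (nat_lit 12093906) (nat_lit 8789) (nat_lit 20982576),Row.mk (nat_lit 17976) (nat_lit 8041) (nat_lit 261408839) (nat_lit 8228) (nat_lit 6716389) (nat_lit 8789) (nat_lit 26206731),Row.mk (nat_lit 18144) (nat_lit 8041) (nat_lit 261648075) (nat_lit 8789) (nat_lit 32731575) (nat_lit 0) (nat_lit 0),Row.mk (nat_lit 18312) (nat_lit 8041) (nat_lit 253558266) (nat_lit 8602) (nat_lit 8388608) (nat_lit 8789) (nat_lit 32492340),Row.mk (nat_lit 18480) (nat_lit 8041) (nat_lit 243454289) (nat_lit 8602) (nat_lit 18865777) (nat_lit 8789) (nat_lit 32193541),Row.mk (nat_lit 18648) (nat_lit 8041) (nat_lit 230834667) (nat_lit 8602) (nat_lit 31951508) (nat_lit 8789) (nat_lit 31820348),Row.mk (nat_lit 18816) (nat_lit 8041) (nat_lit 215073063) (nat_lit 8602) (nat_lit 48295271) (nat_lit 8789) (nat_lit 31354240),Row.mk (nat_lit 18984) (nat_lit 8041) (nat_lit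 195387199) (nat_lit 8602) (nat_lit 68708236) (nat_lit 8789) (nat_lit 30772081),Row.mk (nat_lit 19152) (nat_lit 8041) (nat_lit 170800031) (nat_lit 8602) (nat_lit 94203538) (nat_lit 8789) (nat_lit 30044979),Row.mk (nat_lit 19320) (nat_lit 8041) (nat_lit 140091250) (nat_lit 8602) (nat_lit 126046554) (nat_lit 8789) (nat_lit 29136846),Row.mk (nat_lit 19488) (nat_lit 8041) (nat_lit 101736724) (nat_lit 8602) (nat_lit 165817713) (nat_lit 8789) (nat_lit 28002610),Row.mk (nat_lit 19656) (nat_lit 8041) (nat_lit 53832847) (nat_lit 8602) (nat_lit 215490932) (nat_lit 8789) (nat_lit 26585977),Row.mk (nat_lit 19824) (nat_lit 8602) (nat_lit 271533643) (nat_lit 8789) (nat_lit 20014349) (nat_lit 9350) (nat_lit 4802286),Row.mk (nat_lit 19992) (nat_lit 8602) (nat_lit 232267408) (nat_lit 9163) (nat_lit 42026302) (nat_lit 9350) (nat_lit 22606771),Row.mk (nat_lit 20160) (nat_lit 8602) (nat_lit 158227388) (nat_lit 9163) (nat_lit 119513579) (nat_lit 9350)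 (nat_lit 19846704),Row.mk (nat_lit 20328) (nat_lit 8602) (nat_lit 65753189) (nat_lit 9163) (nat_lit 216293319) (nat_lit 9350) (nat_lit 16399447),Row.mk (nat_lit 20496) (nat_lit 9163) (nat_lit 259689418) (nat_lit 9724) (nat_lit 27734608) (nat_lit 9911) (nat_lit 12093906),Row.mk (nat_lit 20664) (nat_lit 9163) (nat_lit 145530247) (nat_lit 9724) (nat_lit 148610168) (nat_lit 9911) (nat_lit 6716389),Row.mk (nat_lit 20832) (nat_lit 9163) (nat_lit 2948195) (nat_lit 9724) (nat_lit 299580828) (nat_lit 0) (nat_lit 0),Row.mk (nat_lit 21000) (nat_lit 9537) (nat_lit 10477169) (nat_lit 9724) (nat_lit 153918855) (nat_lit 10285) (nat_lit 140221560),Row.mk (nat_lit 21168) (nat_lit 10098) (nat_lit 23562900) (nat_lit 10285) (nat_lit 274794415) (nat_lit 10846) (nat_lit 8868831),Row.mk (nat_lit 21336) (nat_lit 10098) (nat_lit 39906663) (nat_lit 10285) (nat_lit 86235704) (nat_lit 10846) (nat_lit 184341811),Row.mk (nat_lit 21504) (nat_lit 10659) (nat_lit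 60319628) (nat_lit 10846) (nat_lit 183015444) (nat_lit 11407) (nat_lit 71218308),Row.mk (nat_lit 21672) (nat_lit 10659) (nat_lit 33325092) (nat_lit 11220) (nat_lit 52489837) (nat_lit 11407) (nat_lit 233820787),Row.mk (nat_lit 21840) (nat_lit 11220) (nat_lit 117657946) (nat_lit 11407) (nat_lit 24997439) (nat_lit 11968) (nat_lit 183328046),Row.mk (nat_lit 22008) (nat_lit 11781) (nat_lit 157429105) (nat_lit 11968) (nat_lit 87038091) (nat_lit 12716) (nat_lit 89444377),Row.mk (nat_lit 22176) (nat_lit 12529) (nat_lit 207102324) (nat_lit 12716) (nat_lit 136711310) (nat_lit 0) (nat_lit 0),Row.mk (nat_lit 22344) (nat_lit 12529) (nat_lit 111713870) (nat_lit 13277) (nat_lit 157429105) (nat_lit 13464) (nat_lit 87038091),Row.mk (nat_lit 22512) (nat_lit 13277) (nat_lit 228972307) (nat_lit 14025) (nat_lit 117657946) (nat_lit 14212) (nat_lit 24997439),Row.mk (nat_lit 22680) (nat_lit 13838) (nat_lit 65558540) (nat_lit 14025) (nat_lit 292036522) (nat_lit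 15147) (nat_lit 33325092),Row.mk (nat_lit 22848) (nat_lit 13838) (nat_lit 111096340) (nat_lit 14960) (nat_lit 75337761) (nat_lit 15147) (nat_lit 228581874),Row.mk (nat_lit 23016) (nat_lit 14960) (nat_lit 287562301) (nat_lit 16269) (nat_lit 49842459) (nat_lit 16456) (nat_lit 107706314),Row.mk (nat_lit 23184) (nat_lit 14773) (nat_lit 17279395) (nat_lit 16082) (nat_lit 36756728) (nat_lit 16269) (nat_lit 428663004),Row.mk (nat_lit 23352) (nat_lit 16082) (nat_lit 273197642) (nat_lit 17578) (nat_lit 16343762) (nat_lit 17765) (nat_lit 240104292),Row.mk (nat_lit 23520) (nat_lit 17578) (nat_lit 583681821) (nat_lit 19822) (nat_lit 4599010) (nat_lit 0) (nat_lit 0),Row.mk (nat_lit 23688) (nat_lit 17391) (nat_lit 361630230) (nat_lit 17578) (nat_lit 16343762) (nat_lit 19635) (nat_lit 283540706),Row.mk (nat_lit 23856) (nat_lit 17204) (nat_lit 84293150) (nat_lit 17391) (nat_lit 36756728) (nat_lit 19448) (nat_lit 631932155),Row.mk (nat_lit 24024)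 (nat_lit 19261) (nat_lit 657375261) (nat_lit 19448) (nat_lit 49842459) (nat_lit 25806) (nat_lit 160004805),Row.mk (nat_lit 24192) (nat_lit 19074) (nat_lit 453671560) (nat_lit 19261) (nat_lit 75337761) (nat_lit 25619) (nat_lit 480896827),Row.mk (nat_lit 24360) (nat_lit 18887) (nat_lit 199250550) (nat_lit 19074) (nat_lit 107180777) (nat_lit 25432) (nat_lit 881683220),Row.mk (nat_lit 24528) (nat_lit 18887) (nat_lit 28436784) (nat_lit 25245) (nat_lit 1287365892) (nat_lit 25432) (nat_lit 94889865),Row.mk (nat_lit 24696) (nat_lit 25058) (nat_lit 1276031517) (nat_lit 25245) (nat_lit 157429105) (nat_lit 31603) (nat_lit 255226462),Row.mk (nat_lit 24864) (nat_lit 24871) (nat_lit 1226358298) (nat_lit 25058) (nat_lit 207102324) (nat_lit 31416) (nat_lit 602434941),Row.mk (nat_lit 25032) (nat_lit 24684) (nat_lit 1164317646) (nat_lit 24871) (nat_lit 269142976) (nat_lit 31229) (nat_lit 1036089955),Row.mk (nat_lit 25200) (nat_lit 24497) (nat_lit 1086830369)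 (nat_lit 24684) (nat_lit 346630253) (nat_lit 31042) (nat_lit 1577714607),Row.mk (nat_lit 25368) (nat_lit 24310) (nat_lit 990050629) (nat_lit 24497) (nat_lit 443409993) (nat_lit 30855) (nat_lit 2254190730),Row.mk (nat_lit 25536) (nat_lit 24123) (nat_lit 869175068) (nat_lit 24310) (nat_lit 564285554) (nat_lit 30668) (nat_lit 3099093090),Row.mk (nat_lit 25704) (nat_lit 23936) (nat_lit 718204409) (nat_lit 24123) (nat_lit 715256213) (nat_lit 30481) (nat_lit 4154355754),Row.mk (nat_lit 25872) (nat_lit 23749) (nat_lit 529645697) (nat_lit 23936) (nat_lit 903814925) (nat_lit 30294) (nat_lit 5472353365),Row.mk (nat_lit 26040) (nat_lit 23562) (nat_lit 294140415) (nat_lit 23749) (nat_lit 1139320207) (nat_lit 30107) (nat_lit 7118500586),Row.mk (nat_lit 26208) (nat_lit 23562) (nat_lit 1433460622) (nat_lit 29920) (nat_lit 9174498753) (nat_lit 0) (nat_lit 0),Row.mk (nat_lit 26376) (nat_lit 23375) (nat_lit 1433460622) (nat_lit 29733) (nat_lit 11448250450)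 (nat_lit 29920) (nat_lit 294140415),Row.mk (nat_lit 26544) (nat_lit 23188) (nat_lit 1433460622) (nat_lit 29546) (nat_lit 14288111467) (nat_lit 29733) (nat_lit 661514699),Row.mk (nat_lit 26712) (nat_lit 23001) (nat_lit 1433460622) (nat_lit 29359) (nat_lit 17835029370) (nat_lit 29546) (nat_lit 1120356317),Row.mk (nat_lit 26880) (nat_lit 22814) (nat_lit 1433460622) (nat_lit 29172) (nat_lit 22265044266) (nat_lit 29359) (nat_lit 1693438428),Row.mk (nat_lit 27048) (nat_lit 22627) (nat_lit 1433460622) (nat_lit 28985) (nat_lit 27798026002) (nat_lit 29172) (nat_lit 2409204161),Row.mk (nat_lit 27216) (nat_lit 22440) (nat_lit 1433460622) (nat_lit 28798) (nat_lit 34708586713) (nat_lit 28985) (nat_lit 3303178294),Row.mk (nat_lit 27384) (nat_lit 22253) (nat_lit 1433460622) (nat_lit 28611) (nat_lit 43339710332) (nat_lit 28798) (nat_lit 4419730420),Row.mk (nat_lit 27552) (nat_lit 22066) (nat_lit 1433460622) (nat_lit 28424) (nat_lit 54119775517) (nat_lit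 28611) (nat_lit 5814277089),Row.mk (nat_lit 27720) (nat_lit 21879) (nat_lit 1433460622) (nat_lit 28237) (nat_lit 67583816877) (nat_lit 28424) (nat_lit 7556032238),Row.mk (nat_lit 27888) (nat_lit 21692) (nat_lit 1433460622) (nat_lit 28050) (nat_lit 84400079732) (nat_lit 28237) (nat_lit 9731442401),Row.mk (nat_lit 28056) (nat_lit 21505) (nat_lit 1433460622) (nat_lit 27863) (nat_lit 105403186365) (nat_lit 28050) (nat_lit 12448477216),Row.mk (nat_lit 28224) (nat_lit 21318) (nat_lit 1433460622) (nat_lit 27676) (nat_lit 131635559875) (nat_lit 27863) (nat_lit 15841988154),Row.mk (nat_lit 28392) (nat_lit 21131) (nat_lit 1433460622) (nat_lit 27489) (nat_lit 164399161565) (nat_lit 27676) (nat_lit 20080401451),Row.mk (nat_lit 28560) (nat_lit 20944) (nat_lit 1433460622) (nat_lit 27302) (nat_lit 205320109692) (nat_lit 27489) (nat_lit 25374077412),Row.mk (nat_lit 28728) (nat_lit 32912) (nat_lit 302529023) (nat_lit 62084) (nat_lit 289260317511)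 (nat_lit 0) (nat_lit 0),Row.mk (nat_lit 28896) (nat_lit 32912) (nat_lit 302529023) (nat_lit 62084) (nat_lit 361352392380) (nat_lit 0) (nat_lit 0),Row.mk (nat_lit 29064) (nat_lit 32912) (nat_lit 302529023) (nat_lit 62084) (nat_lit 451393654755) (nat_lit 0) (nat_lit 0),Row.mk (nat_lit 29232) (nat_lit 32912) (nat_lit 302529023) (nat_lit 62084) (nat_lit 563853019325) (nat_lit 0) (nat_lit 0),Row.mk (nat_lit 29400) (nat_lit 32912) (nat_lit 302529023) (nat_lit 62084) (nat_lit 704312052724) (nat_lit 0) (nat_lit 0),Row.mk (nat_lit 29568) (nat_lit 32912) (nat_lit 302529023) (nat_lit 62084) (nat_lit 879741997033) (nat_lit 0) (nat_lit 0),Row.mk (nat_lit 29736) (nat_lit 32912) (nat_lit 302529023) (nat_lit 62084) (nat_lit 1098849765438) (nat_lit 0) (nat_lit 0),Row.mk (nat_lit 29904) (nat_lit 32912) (nat_lit 302529023) (nat_lit 62084) (nat_lit 1372510082462) (nat_lit 0) (nat_lit 0),Row.mk (nat_lit 30072) (nat_lit 32912) (nat_lit 302529023) (nat_lit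 62084) (nat_lit 1714305216698) (nat_lit 0) (nat_lit 0),Row.mk (nat_lit 30240) (nat_lit 32912) (nat_lit 302529023) (nat_lit 62084) (nat_lit 2141199093958) (nat_lit 0) (nat_lit 0),Row.mk (nat_lit 30408) (nat_lit 32912) (nat_lit 302529023) (nat_lit 62084) (nat_lit 2674379248352) (nat_lit 0) (nat_lit 0),Row.mk (nat_lit 30576) (nat_lit 32912) (nat_lit 302529023) (nat_lit 62084) (nat_lit 3340308398855) (nat_lit 0) (nat_lit 0),Row.mk (nat_lit 30744) (nat_lit 32912) (nat_lit 302529023) (nat_lit 62084) (nat_lit 4172037843089) (nat_lit 0) (nat_lit 0),Row.mk (nat_lit 30912) (nat_lit 32912) (nat_lit 302529023) (nat_lit 62084) (nat_lit 5210847854458) (nat_lit 0) (nat_lit 0),Row.mk (nat_lit 31080) (nat_lit 32912) (nat_lit 302529023) (nat_lit 62084) (nat_lit 6508296498607) (nat_lit 0) (nat_lit 0)],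
[Row.mk (nat_lit 9072) (nat_lit 7480) (nat_lit 333681837) (nat_lit 7667) (nat_lit 33692195) (nat_lit 8228) (nat_lit 251),Row.mk (nat_lit 9240) (nat_lit 7480) (nat_lit 333681839) (nat_lit 7667) (nat_lit 33692131) (nat_lit 8228) (nat_lit 313),Row.mk (nat_lit 9408) (nat_lit 7480) (nat_lit 333681842) (nat_lit 7667) (nat_lit 33692051) (nat_lit 8228) (nat_lit 391),Row.mk (nat_lit 9576) (nat_lit 7480) (nat_lit 333681844) (nat_lit 7667) (nat_lit 33691951) (nat_lit 8228) (nat_lit 489),Row.mk (nat_lit 9744) (nat_lit 7480) (nat_lit 333681848) (nat_lit 7667) (nat_lit 33691827) (nat_lit 8228) (nat_lit 611),Row.mk (nat_lit 9912) (nat_lit 7480) (nat_lit 333681852) (nat_lit 7667) (nat_lit 33691671) (nat_lit 8228) (nat_lit 763),Row.mk (nat_lit 10080) (nat_lit 7480) (nat_lit 333681858) (nat_lit 7667) (nat_lit 33691476) (nat_lit 8228) (nat_lit 953),Row.mk (nat_lit 10248) (nat_lit 7480) (nat_lit 333681865) (nat_lit 7667) (nat_lit 33691233) (nat_lit 8228)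 (nat_lit 1191),Row.mk (nat_lit 10416) (nat_lit 7480) (nat_lit 333681874) (nat_lit 7667) (nat_lit 33690930) (nat_lit 8228) (nat_lit 1487),Row.mk (nat_lit 10584) (nat_lit 7480) (nat_lit 333681884) (nat_lit 7667) (nat_lit 33690551) (nat_lit 8228) (nat_lit 1858),Row.mk (nat_lit 10752) (nat_lit 7480) (nat_lit 333681898) (nat_lit 7667) (nat_lit 33690077) (nat_lit 8228) (nat_lit 2321),Row.mk (nat_lit 10920) (nat_lit 7480) (nat_lit 333681915) (nat_lit 7667) (nat_lit 33689486) (nat_lit 8228) (nat_lit 2898),Row.mk (nat_lit 11088) (nat_lit 7480) (nat_lit 333681936) (nat_lit 7667) (nat_lit 33688747) (nat_lit 8228) (nat_lit 3620),Row.mk (nat_lit 11256) (nat_lit 7480) (nat_lit 333681962) (nat_lit 7667) (nat_lit 33687825) (nat_lit 8228) (nat_lit 4522),Row.mk (nat_lit 11424) (nat_lit 7480) (nat_lit 333681995) (nat_lit 7667) (nat_lit 33686673) (nat_lit 8228) (nat_lit 5647),Row.mk (nat_lit 11592) (nat_lit 7480) (nat_lit 333682036) (nat_lit 7667) (nat_lit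 33685233) (nat_lit 8228) (nat_lit 7054),Row.mk (nat_lit 11760) (nat_lit 7480) (nat_lit 333682087) (nat_lit 7667) (nat_lit 33683436) (nat_lit 8228) (nat_lit 8810),Row.mk (nat_lit 11928) (nat_lit 7480) (nat_lit 333682151) (nat_lit 7667) (nat_lit 33681191) (nat_lit 8228) (nat_lit 11004),Row.mk (nat_lit 12096) (nat_lit 7480) (nat_lit 333682231) (nat_lit 7667) (nat_lit 33678387) (nat_lit 8228) (nat_lit 13743),Row.mk (nat_lit 12264) (nat_lit 7480) (nat_lit 333682331) (nat_lit 7667) (nat_lit 33674886) (nat_lit 8228) (nat_lit 17165),Row.mk (nat_lit 12432) (nat_lit 7480) (nat_lit 333682456) (nat_lit 7667) (nat_lit 33670512) (nat_lit 8228) (nat_lit 21439),Row.mk (nat_lit 12600) (nat_lit 7480) (nat_lit 333682612) (nat_lit 7667) (nat_lit 33665049) (nat_lit 8228) (nat_lit 26777),Row.mk (nat_lit 12768) (nat_lit 7480) (nat_lit 333682806) (nat_lit 7667) (nat_lit 33658226) (nat_lit 8228) (nat_lit 33444),Row.mk (nat_lit 12936) (nat_lit 7480) (nat_lit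 333683049) (nat_lit 7667) (nat_lit 33649705) (nat_lit 8228) (nat_lit 41771),Row.mk (nat_lit 13104) (nat_lit 7480) (nat_lit 333683353) (nat_lit 7667) (nat_lit 33639062) (nat_lit 8228) (nat_lit 52171),Row.mk (nat_lit 13272) (nat_lit 7480) (nat_lit 333683732) (nat_lit 7667) (nat_lit 33625769) (nat_lit 8228) (nat_lit 65160),Row.mk (nat_lit 13440) (nat_lit 7480) (nat_lit 333684205) (nat_lit 7667) (nat_lit 33609166) (nat_lit 8228) (nat_lit 81384),Row.mk (nat_lit 13608) (nat_lit 7480) (nat_lit 333684797) (nat_lit 7667) (nat_lit 33588430) (nat_lit 8228) (nat_lit 101647),Row.mk (nat_lit 13776) (nat_lit 7480) (nat_lit 333685535) (nat_lit 7667) (nat_lit 33562531) (nat_lit 8228) (nat_lit 126954),Row.mk (nat_lit 13944) (nat_lit 7480) (nat_lit 333686458) (nat_lit 7667) (nat_lit 33530184) (nat_lit 8228) (nat_lit 158563),Row.mk (nat_lit 14112) (nat_lit 7480) (nat_lit 333687610) (nat_lit 7667) (nat_lit 33489782) (nat_lit 8228) (nat_lit 198042),Row.mk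 (nat_lit 14280) (nat_lit 7480) (nat_lit 333689049) (nat_lit 7667) (nat_lit 33439323) (nat_lit 8228) (nat_lit 247349),Row.mk (nat_lit 14448) (nat_lit 7480) (nat_lit 333690847) (nat_lit 7667) (nat_lit 33376299) (nat_lit 8228) (nat_lit 308934),Row.mk (nat_lit 14616) (nat_lit 7480) (nat_lit 333693091) (nat_lit 7667) (nat_lit 33297585) (nat_lit 8228) (nat_lit 385851),Row.mk (nat_lit 14784) (nat_lit 7480) (nat_lit 333695895) (nat_lit 7667) (nat_lit 33199272) (nat_lit 8228) (nat_lit 481918),Row.mk (nat_lit 14952) (nat_lit 7480) (nat_lit 333699397) (nat_lit 7667) (nat_lit 33076482) (nat_lit 8228) (nat_lit 601905),Row.mk (nat_lit 15120) (nat_lit 7480) (nat_lit 333703771) (nat_lit 7667) (nat_lit 32923121) (nat_lit 8228) (nat_lit 751765),Row.mk (nat_lit 15288) (nat_lit 7480) (nat_lit 333709233) (nat_lit 7667) (nat_lit 32731575) (nat_lit 8228) (nat_lit 938936),Row.mk (nat_lit 15456) (nat_lit 7480) (nat_lit 333716056) (nat_lit 7667) (nat_lit 32492340)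 (nat_lit 8228) (nat_lit 1172708),Row.mk (nat_lit 15624) (nat_lit 7480) (nat_lit 333724578) (nat_lit 7667) (nat_lit 32193541) (nat_lit 8228) (nat_lit 1464685),Row.mk (nat_lit 15792) (nat_lit 7480) (nat_lit 333735221) (nat_lit 7667) (nat_lit 31820348) (nat_lit 8228) (nat_lit 1829356),Row.mk (nat_lit 15960) (nat_lit 7480) (nat_lit 333748514) (nat_lit 7667) (nat_lit 31354240) (nat_lit 8228) (nat_lit 2284822),Row.mk (nat_lit 16128) (nat_lit 7480) (nat_lit 333765116) (nat_lit 7667) (nat_lit 30772081) (nat_lit 8228) (nat_lit 2853687),Row.mk (nat_lit 16296) (nat_lit 7480) (nat_lit 333785853) (nat_lit 7667) (nat_lit 30044979) (nat_lit 8228) (nat_lit 3564187),Row.mk (nat_lit 16464) (nat_lit 7480) (nat_lit 333811752) (nat_lit 7667) (nat_lit 29136846) (nat_lit 8228) (nat_lit 4451583),Row.mk (nat_lit 16632) (nat_lit 7480) (nat_lit 333844099) (nat_lit 7667) (nat_lit 28002610) (nat_lit 8228) (nat_lit 5559920),Row.mk (nat_lit 16800) (nat_lit 7480)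 (nat_lit 333884500) (nat_lit 7667) (nat_lit 26585977) (nat_lit 8228) (nat_lit 6944206),Row.mk (nat_lit 16968) (nat_lit 7480) (nat_lit 333934960) (nat_lit 7667) (nat_lit 24816636) (nat_lit 8228) (nat_lit 8673146),Row.mk (nat_lit 17136) (nat_lit 7480) (nat_lit 333997983) (nat_lit 7667) (nat_lit 22606771) (nat_lit 8228) (nat_lit 10832551),Row.mk (nat_lit 17304) (nat_lit 7480) (nat_lit 334076698) (nat_lit 7667) (nat_lit 19846704) (nat_lit 8228) (nat_lit 13529595),Row.mk (nat_lit 17472) (nat_lit 7480) (nat_lit 334175010) (nat_lit 7667) (nat_lit 16399447) (nat_lit 8228) (nat_lit 16898137),Row.mk (nat_lit 17640) (nat_lit 7480) (nat_lit 334297800) (nat_lit 7667) (nat_lit 12093906) (nat_lit 8228) (nat_lit 21105366),Row.mk (nat_lit 17808) (nat_lit 7480) (nat_lit 334451162) (nat_lit 7667) (nat_lit 6716389) (nat_lit 8228) (nat_lit 26360093),Row.mk (nat_lit 17976) (nat_lit 7480) (nat_lit 334642707) (nat_lit 8228) (nat_lit 32923121) (nat_lit 0)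 (nat_lit 0),Row.mk (nat_lit 18144) (nat_lit 7480) (nat_lit 326493334) (nat_lit 8041) (nat_lit 8388608) (nat_lit 8228) (nat_lit 32731575),Row.mk (nat_lit 18312) (nat_lit 7480) (nat_lit 316314964) (nat_lit 8041) (nat_lit 18865777) (nat_lit 8228) (nat_lit 32492340),Row.mk (nat_lit 18480) (nat_lit 7480) (nat_lit 303602426) (nat_lit 8041) (nat_lit 31951508) (nat_lit 8228) (nat_lit 32193541),Row.mk (nat_lit 18648) (nat_lit 7480) (nat_lit 287724772) (nat_lit 8041) (nat_lit 48295271) (nat_lit 8228) (nat_lit 31820348),Row.mk (nat_lit 18816) (nat_lit 7480) (nat_lit 267893965) (nat_lit 8041) (nat_lit 68708236) (nat_lit 8228) (nat_lit 31354240),Row.mk (nat_lit 18984) (nat_lit 7480) (nat_lit 243125765) (nat_lit 8041) (nat_lit 94203538) (nat_lit 8228) (nat_lit 30772081),Row.mk (nat_lit 19152) (nat_lit 7480) (nat_lit 212190882) (nat_lit 8041) (nat_lit 126046554) (nat_lit 8228) (nat_lit 30044979),Row.mk (nat_lit 19320) (nat_lit 7480) (nat_lit 173553959)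 (nat_lit 8041) (nat_lit 165817713) (nat_lit 8228) (nat_lit 29136846),Row.mk (nat_lit 19488) (nat_lit 7480) (nat_lit 125297373) (nat_lit 8041) (nat_lit 215490932) (nat_lit 8228) (nat_lit 28002610),Row.mk (nat_lit 19656) (nat_lit 7480) (nat_lit 65026063) (nat_lit 8041) (nat_lit 277531584) (nat_lit 8228) (nat_lit 26585977),Row.mk (nat_lit 19824) (nat_lit 8041) (nat_lit 344767511) (nat_lit 8228) (nat_lit 16608831) (nat_lit 8789) (nat_lit 8207804),Row.mk (nat_lit 19992) (nat_lit 8041) (nat_lit 286649133) (nat_lit 8602) (nat_lit 60878445) (nat_lit 8789) (nat_lit 22606771),Row.mk (nat_lit 20160) (nat_lit 8041) (nat_lit 193316650) (nat_lit 8602) (nat_lit 157658185) (nat_lit 8789) (nat_lit 19846704),Row.mk (nat_lit 20328) (nat_lit 8041) (nat_lit 76746630) (nat_lit 8602) (nat_lit 278533746) (nat_lit 8789) (nat_lit 16399447),Row.mk (nat_lit 20496) (nat_lit 8602) (nat_lit 317629429) (nat_lit 9163) (nat_lit 43028464) (nat_lit 9350) (nat_lit 12093906),Row.mk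 (nat_lit 20664) (nat_lit 8602) (nat_lit 173375159) (nat_lit 9163) (nat_lit 193999123) (nat_lit 9350) (nat_lit 6716389),Row.mk (nat_lit 20832) (nat_lit 9163) (nat_lit 370322479) (nat_lit 9724) (nat_lit 5440412) (nat_lit 0) (nat_lit 0),Row.mk (nat_lit 21000) (nat_lit 8976) (nat_lit 10477169) (nat_lit 9163) (nat_lit 181763767) (nat_lit 9724) (nat_lit 185610515),Row.mk (nat_lit 21168) (nat_lit 9537) (nat_lit 23562900) (nat_lit 9724) (nat_lit 332734427) (nat_lit 10285) (nat_lit 24162687),Row.mk (nat_lit 21336) (nat_lit 9537) (nat_lit 39906663) (nat_lit 9724) (nat_lit 97229145) (nat_lit 10285) (nat_lit 246582238),Row.mk (nat_lit 21504) (nat_lit 10098) (nat_lit 60319628) (nat_lit 10285) (nat_lit 218104705) (nat_lit 10846) (nat_lit 109362914),Row.mk (nat_lit 21672) (nat_lit 10098) (nat_lit 9779220) (nat_lit 10659) (nat_lit 76035709) (nat_lit 10846) (nat_lit 307054654),Row.mk (nat_lit 21840) (nat_lit 10659) (nat_lit 117657946) (nat_lit 10846)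 (nat_lit 20744030) (nat_lit 11407) (nat_lit 260815323),Row.mk (nat_lit 22008) (nat_lit 11220) (nat_lit 157429105) (nat_lit 11407) (nat_lit 98231307) (nat_lit 11968) (nat_lit 151485029),Row.mk (nat_lit 22176) (nat_lit 11781) (nat_lit 207102324) (nat_lit 11968) (nat_lit 160271959) (nat_lit 12716) (nat_lit 49673218),Row.mk (nat_lit 22344) (nat_lit 11781) (nat_lit 62040651) (nat_lit 12529) (nat_lit 207102324) (nat_lit 12716) (nat_lit 160271959),Row.mk (nat_lit 22512) (nat_lit 12529) (nat_lit 189201147) (nat_lit 13277) (nat_lit 157429105) (nat_lit 13464) (nat_lit 98231307),Row.mk (nat_lit 22680) (nat_lit 13277) (nat_lit 325752047) (nat_lit 14025) (nat_lit 117657946) (nat_lit 14212) (nat_lit 20744030),Row.mk (nat_lit 22848) (nat_lit 13838) (nat_lit 94966767) (nat_lit 14025) (nat_lit 383503856) (nat_lit 15147) (nat_lit 9779220),Row.mk (nat_lit 23016) (nat_lit 13838) (nat_lit 170599665) (nat_lit 14960) (nat_lit 75337761) (nat_lit 15147) (nat_lit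 272407516),Row.mk (nat_lit 23184) (nat_lit 14960) (nat_lit 384653678) (nat_lit 16269) (nat_lit 49842459) (nat_lit 16456) (nat_lit 121436856),Row.mk (nat_lit 23352) (nat_lit 14773) (nat_lit 47076849) (nat_lit 16082) (nat_lit 36756728) (nat_lit 16269) (nat_lit 519045988),Row.mk (nat_lit 23520) (nat_lit 16082) (nat_lit 361630230) (nat_lit 17578) (nat_lit 16343762) (nat_lit 17765) (nat_lit 283540706),Row.mk (nat_lit 23688) (nat_lit 15895) (nat_lit 13238781) (nat_lit 17578) (nat_lit 721509785) (nat_lit 0) (nat_lit 0),Row.mk (nat_lit 23856) (nat_lit 17391) (nat_lit 472080399) (nat_lit 17578) (nat_lit 16343762) (nat_lit 19635) (nat_lit 337791739),Row.mk (nat_lit 24024) (nat_lit 17204) (nat_lit 130775412) (nat_lit 17391) (nat_lit 36756728) (nat_lit 19448) (nat_lit 772924254),Row.mk (nat_lit 24192) (nat_lit 19261) (nat_lit 846541145) (nat_lit 19448) (nat_lit 49842459) (nat_lit 25806) (nat_lit 186756411),Row.mk (nat_lit 24360) (nat_lit 19074)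 (nat_lit 598467850) (nat_lit 19261) (nat_lit 75337761) (nat_lit 25619) (nat_lit 587542804),Row.mk (nat_lit 24528) (nat_lit 18887) (nat_lit 288630290) (nat_lit 19074) (nat_lit 107180777) (nat_lit 25432) (nat_lit 1088115341),Row.mk (nat_lit 24696) (nat_lit 18887) (nat_lit 48602588) (nat_lit 25245) (nat_lit 1634574371) (nat_lit 25432) (nat_lit 78743993),Row.mk (nat_lit 24864) (nat_lit 25058) (nat_lit 1643405800) (nat_lit 25245) (nat_lit 157429105) (nat_lit 31603) (nat_lit 308294525),Row.mk (nat_lit 25032) (nat_lit 24871) (nat_lit 1593732582) (nat_lit 25058) (nat_lit 207102324) (nat_lit 31416) (nat_lit 741949540),Row.mk (nat_lit 25200) (nat_lit 24684) (nat_lit 1531691930) (nat_lit 24871) (nat_lit 269142976) (nat_lit 31229) (nat_lit 1283574191),Row.mk (nat_lit 25368) (nat_lit 24497) (nat_lit 1454204653) (nat_lit 24684) (nat_lit 346630253) (nat_lit 31042) (nat_lit 1960050315),Row.mk (nat_lit 25536) (nat_lit 24310) (nat_lit 1357424912) (nat_lit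 24497) (nat_lit 443409993) (nat_lit 30855) (nat_lit 2804952674),Row.mk (nat_lit 25704) (nat_lit 24123) (nat_lit 1236549352) (nat_lit 24310) (nat_lit 564285554) (nat_lit 30668) (nat_lit 3860215338),Row.mk (nat_lit 25872) (nat_lit 23936) (nat_lit 1085578692) (nat_lit 24123) (nat_lit 715256213) (nat_lit 30481) (nat_lit 5178212949),Row.mk (nat_lit 26040) (nat_lit 23749) (nat_lit 897019981) (nat_lit 23936) (nat_lit 903814925) (nat_lit 30294) (nat_lit 6824360170),Row.mk (nat_lit 26208) (nat_lit 23562) (nat_lit 661514699) (nat_lit 23749) (nat_lit 1139320207) (nat_lit 30107) (nat_lit 8880358337),Row.mk (nat_lit 26376) (nat_lit 23375) (nat_lit 367374283) (nat_lit 23562) (nat_lit 1433460622) (nat_lit 29920) (nat_lit 11448250450),Row.mk (nat_lit 26544) (nat_lit 23375) (nat_lit 1800834906) (nat_lit 29733) (nat_lit 14655485751) (nat_lit 0) (nat_lit 0),Row.mk (nat_lit 26712) (nat_lit 23188) (nat_lit 1800834906) (nat_lit 29546) (nat_lit 18293870988)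 (nat_lit 29733) (nat_lit 367374283),Row.mk (nat_lit 26880) (nat_lit 23001) (nat_lit 1800834906) (nat_lit 29359) (nat_lit 22838126377) (nat_lit 29546) (nat_lit 826215901),Row.mk (nat_lit 27048) (nat_lit 22814) (nat_lit 1800834906) (nat_lit 29172) (nat_lit 28513791734) (nat_lit 29359) (nat_lit 1399298013),Row.mk (nat_lit 27216) (nat_lit 22627) (nat_lit 1800834906) (nat_lit 28985) (nat_lit 35602560846) (nat_lit 29172) (nat_lit 2115063745),Row.mk (nat_lit 27384) (nat_lit 22440) (nat_lit 1800834906) (nat_lit 28798) (nat_lit 44456262458) (nat_lit 28985) (nat_lit 3009037878),Row.mk (nat_lit 27552) (nat_lit 22253) (nat_lit 1800834906) (nat_lit 28611) (nat_lit 55514322187) (nat_lit 28798) (nat_lit 4125590004),Row.mk (nat_lit 27720) (nat_lit 22066) (nat_lit 1800834906) (nat_lit 28424) (nat_lit 69325572026) (nat_lit 28611) (nat_lit 5520136673),Row.mk (nat_lit 27888) (nat_lit 21879) (nat_lit 1800834906) (nat_lit 28237) (nat_lit 86575489895) (nat_lit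 28424) (nat_lit 7261891822),Row.mk (nat_lit 28056) (nat_lit 21692) (nat_lit 1800834906) (nat_lit 28050) (nat_lit 108120221180) (nat_lit 28237) (nat_lit 9437301985),Row.mk (nat_lit 28224) (nat_lit 21505) (nat_lit 1800834906) (nat_lit 27863) (nat_lit 135029070814) (nat_lit 28050) (nat_lit 12154336800),Row.mk (nat_lit 28392) (nat_lit 21318) (nat_lit 1800834906) (nat_lit 27676) (nat_lit 168637574862) (nat_lit 27863) (nat_lit 15547847738),Row.mk (nat_lit 28560) (nat_lit 21131) (nat_lit 1800834906) (nat_lit 27489) (nat_lit 210613785654) (nat_lit 27676) (nat_lit 19786261035),Row.mk (nat_lit 28728) (nat_lit 20944) (nat_lit 1800834906) (nat_lit 27302) (nat_lit 263041060307) (nat_lit 27489) (nat_lit 25079936996),Row.mk (nat_lit 28896) (nat_lit 32912) (nat_lit 375762891) (nat_lit 62084) (nat_lit 361279158512) (nat_lit 0) (nat_lit 0),Row.mk (nat_lit 29064) (nat_lit 32912) (nat_lit 375762891) (nat_lit 62084) (nat_lit 451320420888) (nat_lit 0)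 (nat_lit 0),Row.mk (nat_lit 29232) (nat_lit 32912) (nat_lit 375762891) (nat_lit 62084) (nat_lit 563779785457) (nat_lit 0) (nat_lit 0),Row.mk (nat_lit 29400) (nat_lit 32912) (nat_lit 375762891) (nat_lit 62084) (nat_lit 704238818856) (nat_lit 0) (nat_lit 0),Row.mk (nat_lit 29568) (nat_lit 32912) (nat_lit 375762891) (nat_lit 62084) (nat_lit 879668763166) (nat_lit 0) (nat_lit 0),Row.mk (nat_lit 29736) (nat_lit 32912) (nat_lit 375762891) (nat_lit 62084) (nat_lit 1098776531570) (nat_lit 0) (nat_lit 0),Row.mk (nat_lit 29904) (nat_lit 32912) (nat_lit 375762891) (nat_lit 62084) (nat_lit 1372436848595) (nat_lit 0) (nat_lit 0),Row.mk (nat_lit 30072) (nat_lit 32912) (nat_lit 375762891) (nat_lit 62084) (nat_lit 1714231982830) (nat_lit 0) (nat_lit 0),Row.mk (nat_lit 30240) (nat_lit 32912) (nat_lit 375762891) (nat_lit 62084) (nat_lit 2141125860090) (nat_lit 0) (nat_lit 0),Row.mk (nat_lit 30408) (nat_lit 32912) (nat_lit 375762891) (nat_lit 62084)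 (nat_lit 2674306014484) (nat_lit 0) (nat_lit 0),Row.mk (nat_lit 30576) (nat_lit 32912) (nat_lit 375762891) (nat_lit 62084) (nat_lit 3340235164987) (nat_lit 0) (nat_lit 0),Row.mk (nat_lit 30744) (nat_lit 32912) (nat_lit 375762891) (nat_lit 62084) (nat_lit 4171964609221) (nat_lit 0) (nat_lit 0),Row.mk (nat_lit 30912) (nat_lit 32912) (nat_lit 375762891) (nat_lit 62084) (nat_lit 5210774620590) (nat_lit 0) (nat_lit 0),Row.mk (nat_lit 31080) (nat_lit 32912) (nat_lit 375762891) (nat_lit 62084) (nat_lit 6508223264739) (nat_lit 0) (nat_lit 0)],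
[Row.mk (nat_lit 9240) (nat_lit 6919) (nat_lit 425149173) (nat_lit 7106) (nat_lit 33692051) (nat_lit 7667) (nat_lit 393),Row.mk (nat_lit 9408) (nat_lit 6919) (nat_lit 425149176) (nat_lit 7106) (nat_lit 33691951) (nat_lit 7667) (nat_lit 491),Row.mk (nat_lit 9576) (nat_lit 6919) (nat_lit 425149179) (nat_lit 7106) (nat_lit 33691827) (nat_lit 7667) (nat_lit 614),Row.mk (nat_lit 9744) (nat_lit 6919) (nat_lit 425149182) (nat_lit 7106) (nat_lit 33691671) (nat_lit 7667) (nat_lit 767),Row.mk (nat_lit 9912) (nat_lit 6919) (nat_lit 425149187) (nat_lit 7106) (nat_lit 33691476) (nat_lit 7667) (nat_lit 958),Row.mk (nat_lit 10080) (nat_lit 6919) (nat_lit 425149192) (nat_lit 7106) (nat_lit 33691233) (nat_lit 7667) (nat_lit 1196),Row.mk (nat_lit 10248) (nat_lit 6919) (nat_lit 425149199) (nat_lit 7106) (nat_lit 33690930) (nat_lit 7667) (nat_lit 1494),Row.mk (nat_lit 10416) (nat_lit 6919) (nat_lit 425149208) (nat_lit 7106) (nat_lit 33690551) (nat_lit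 7667) (nat_lit 1866),Row.mk (nat_lit 10584) (nat_lit 6919) (nat_lit 425149219) (nat_lit 7106) (nat_lit 33690077) (nat_lit 7667) (nat_lit 2331),Row.mk (nat_lit 10752) (nat_lit 6919) (nat_lit 425149232) (nat_lit 7106) (nat_lit 33689486) (nat_lit 7667) (nat_lit 2912),Row.mk (nat_lit 10920) (nat_lit 6919) (nat_lit 425149249) (nat_lit 7106) (nat_lit 33688747) (nat_lit 7667) (nat_lit 3637),Row.mk (nat_lit 11088) (nat_lit 6919) (nat_lit 425149270) (nat_lit 7106) (nat_lit 33687825) (nat_lit 7667) (nat_lit 4543),Row.mk (nat_lit 11256) (nat_lit 6919) (nat_lit 425149296) (nat_lit 7106) (nat_lit 33686673) (nat_lit 7667) (nat_lit 5674),Row.mk (nat_lit 11424) (nat_lit 6919) (nat_lit 425149329) (nat_lit 7106) (nat_lit 33685233) (nat_lit 7667) (nat_lit 7087),Row.mk (nat_lit 11592) (nat_lit 6919) (nat_lit 425149370) (nat_lit 7106) (nat_lit 33683436) (nat_lit 7667) (nat_lit 8851),Row.mk (nat_lit 11760) (nat_lit 6919) (nat_lit 425149421) (nat_lit 7106)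 (nat_lit 33681191) (nat_lit 7667) (nat_lit 11055),Row.mk (nat_lit 11928) (nat_lit 6919) (nat_lit 425149485) (nat_lit 7106) (nat_lit 33678387) (nat_lit 7667) (nat_lit 13807),Row.mk (nat_lit 12096) (nat_lit 6919) (nat_lit 425149565) (nat_lit 7106) (nat_lit 33674886) (nat_lit 7667) (nat_lit 17245),Row.mk (nat_lit 12264) (nat_lit 6919) (nat_lit 425149665) (nat_lit 7106) (nat_lit 33670512) (nat_lit 7667) (nat_lit 21539),Row.mk (nat_lit 12432) (nat_lit 6919) (nat_lit 425149790) (nat_lit 7106) (nat_lit 33665049) (nat_lit 7667) (nat_lit 26902),Row.mk (nat_lit 12600) (nat_lit 6919) (nat_lit 425149946) (nat_lit 7106) (nat_lit 33658226) (nat_lit 7667) (nat_lit 33600),Row.mk (nat_lit 12768) (nat_lit 6919) (nat_lit 425150140) (nat_lit 7106) (nat_lit 33649705) (nat_lit 7667) (nat_lit 41966),Row.mk (nat_lit 12936) (nat_lit 6919) (nat_lit 425150383) (nat_lit 7106) (nat_lit 33639062) (nat_lit 7667) (nat_lit 52414),Row.mk (nat_lit 13104) (nat_lit 6919)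 (nat_lit 425150687) (nat_lit 7106) (nat_lit 33625769) (nat_lit 7667) (nat_lit 65464),Row.mk (nat_lit 13272) (nat_lit 6919) (nat_lit 425151066) (nat_lit 7106) (nat_lit 33609166) (nat_lit 7667) (nat_lit 81763),Row.mk (nat_lit 13440) (nat_lit 6919) (nat_lit 425151540) (nat_lit 7106) (nat_lit 33588430) (nat_lit 7667) (nat_lit 102120),Row.mk (nat_lit 13608) (nat_lit 6919) (nat_lit 425152131) (nat_lit 7106) (nat_lit 33562531) (nat_lit 7667) (nat_lit 127546),Row.mk (nat_lit 13776) (nat_lit 6919) (nat_lit 425152870) (nat_lit 7106) (nat_lit 33530184) (nat_lit 7667) (nat_lit 159302),Row.mk (nat_lit 13944) (nat_lit 6919) (nat_lit 425153792) (nat_lit 7106) (nat_lit 33489782) (nat_lit 7667) (nat_lit 198964),Row.mk (nat_lit 14112) (nat_lit 6919) (nat_lit 425154944) (nat_lit 7106) (nat_lit 33439323) (nat_lit 7667) (nat_lit 248502),Row.mk (nat_lit 14280) (nat_lit 6919) (nat_lit 425156383) (nat_lit 7106) (nat_lit 33376299) (nat_lit 7667) (nat_lit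 310373),Row.mk (nat_lit 14448) (nat_lit 6919) (nat_lit 425158181) (nat_lit 7106) (nat_lit 33297585) (nat_lit 7667) (nat_lit 387648),Row.mk (nat_lit 14616) (nat_lit 6919) (nat_lit 425160426) (nat_lit 7106) (nat_lit 33199272) (nat_lit 7667) (nat_lit 484163),Row.mk (nat_lit 14784) (nat_lit 6919) (nat_lit 425163229) (nat_lit 7106) (nat_lit 33076482) (nat_lit 7667) (nat_lit 604708),Row.mk (nat_lit 14952) (nat_lit 6919) (nat_lit 425166731) (nat_lit 7106) (nat_lit 32923121) (nat_lit 7667) (nat_lit 755266),Row.mk (nat_lit 15120) (nat_lit 6919) (nat_lit 425171105) (nat_lit 7106) (nat_lit 32731575) (nat_lit 7667) (nat_lit 943310),Row.mk (nat_lit 15288) (nat_lit 6919) (nat_lit 425176568) (nat_lit 7106) (nat_lit 32492340) (nat_lit 7667) (nat_lit 1178171),Row.mk (nat_lit 15456) (nat_lit 6919) (nat_lit 425183390) (nat_lit 7106) (nat_lit 32193541) (nat_lit 7667) (nat_lit 1471507),Row.mk (nat_lit 15624) (nat_lit 6919) (nat_lit 425191912) (nat_lit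 7106) (nat_lit 31820348) (nat_lit 7667) (nat_lit 1837877),Row.mk (nat_lit 15792) (nat_lit 6919) (nat_lit 425202555) (nat_lit 7106) (nat_lit 31354240) (nat_lit 7667) (nat_lit 2295465),Row.mk (nat_lit 15960) (nat_lit 6919) (nat_lit 425215848) (nat_lit 7106) (nat_lit 30772081) (nat_lit 7667) (nat_lit 2866980),Row.mk (nat_lit 16128) (nat_lit 6919) (nat_lit 425232451) (nat_lit 7106) (nat_lit 30044979) (nat_lit 7667) (nat_lit 3580789),Row.mk (nat_lit 16296) (nat_lit 6919) (nat_lit 425253187) (nat_lit 7106) (nat_lit 29136846) (nat_lit 7667) (nat_lit 4472320),Row.mk (nat_lit 16464) (nat_lit 6919) (nat_lit 425279086) (nat_lit 7106) (nat_lit 28002610) (nat_lit 7667) (nat_lit 5585819),Row.mk (nat_lit 16632) (nat_lit 6919) (nat_lit 425311433) (nat_lit 7106) (nat_lit 26585977) (nat_lit 7667) (nat_lit 6976554),Row.mk (nat_lit 16800) (nat_lit 6919) (nat_lit 425351834) (nat_lit 7106) (nat_lit 24816636) (nat_lit 7667) (nat_lit 8713547),Row.mk (nat_lit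 16968) (nat_lit 6919) (nat_lit 425402294) (nat_lit 7106) (nat_lit 22606771) (nat_lit 7667) (nat_lit 10883011),Row.mk (nat_lit 17136) (nat_lit 6919) (nat_lit 425465318) (nat_lit 7106) (nat_lit 19846704) (nat_lit 7667) (nat_lit 13592618),Row.mk (nat_lit 17304) (nat_lit 6919) (nat_lit 425544032) (nat_lit 7106) (nat_lit 16399447) (nat_lit 7667) (nat_lit 16976852),Row.mk (nat_lit 17472) (nat_lit 6919) (nat_lit 425642345) (nat_lit 7106) (nat_lit 12093906) (nat_lit 7667) (nat_lit 21203679),Row.mk (nat_lit 17640) (nat_lit 6919) (nat_lit 425765135) (nat_lit 7106) (nat_lit 6716389) (nat_lit 7667) (nat_lit 26482883),Row.mk (nat_lit 17808) (nat_lit 6919) (nat_lit 425918496) (nat_lit 7667) (nat_lit 33076482) (nat_lit 0) (nat_lit 0),Row.mk (nat_lit 17976) (nat_lit 6919) (nat_lit 417721433) (nat_lit 7480) (nat_lit 8388608) (nat_lit 7667) (nat_lit 32923121),Row.mk (nat_lit 18144) (nat_lit 6919) (nat_lit 407483500) (nat_lit 7480) (nat_lit 18865777)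 (nat_lit 7667) (nat_lit 32731575),Row.mk (nat_lit 18312) (nat_lit 6919) (nat_lit 394696567) (nat_lit 7480) (nat_lit 31951508) (nat_lit 7667) (nat_lit 32492340),Row.mk (nat_lit 18480) (nat_lit 6919) (nat_lit 378725997) (nat_lit 7480) (nat_lit 48295271) (nat_lit 7667) (nat_lit 32193541),Row.mk (nat_lit 18648) (nat_lit 6919) (nat_lit 358779140) (nat_lit 7480) (nat_lit 68708236) (nat_lit 7667) (nat_lit 31820348),Row.mk (nat_lit 18816) (nat_lit 6919) (nat_lit 333865998) (nat_lit 7480) (nat_lit 94203538) (nat_lit 7667) (nat_lit 31354240),Row.mk (nat_lit 18984) (nat_lit 6919) (nat_lit 302750083) (nat_lit 7480) (nat_lit 126046554) (nat_lit 7667) (nat_lit 30772081),Row.mk (nat_lit 19152) (nat_lit 6919) (nat_lit 263887057) (nat_lit 7480) (nat_lit 165817713) (nat_lit 7667) (nat_lit 30044979),Row.mk (nat_lit 19320) (nat_lit 6919) (nat_lit 215348074) (nat_lit 7480) (nat_lit 215490932) (nat_lit 7667) (nat_lit 29136846),Row.mk (nat_lit 19488) (nat_lit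 6919) (nat_lit 154724056) (nat_lit 7480) (nat_lit 277531584) (nat_lit 7667) (nat_lit 28002610),Row.mk (nat_lit 19656) (nat_lit 6919) (nat_lit 79006120) (nat_lit 7480) (nat_lit 355018861) (nat_lit 7667) (nat_lit 26585977),Row.mk (nat_lit 19824) (nat_lit 7480) (nat_lit 436234845) (nat_lit 7667) (nat_lit 12355422) (nat_lit 8228) (nat_lit 12461214),Row.mk (nat_lit 19992) (nat_lit 7480) (nat_lit 354570595) (nat_lit 8041) (nat_lit 84424317) (nat_lit 8228) (nat_lit 22606771),Row.mk (nat_lit 20160) (nat_lit 7480) (nat_lit 237142291) (nat_lit 8041) (nat_lit 205299878) (nat_lit 8228) (nat_lit 19846704),Row.mk (nat_lit 20328) (nat_lit 7480) (nat_lit 90477173) (nat_lit 8041) (nat_lit 356270538) (nat_lit 8228) (nat_lit 16399447),Row.mk (nat_lit 20496) (nat_lit 8041) (nat_lit 389995106) (nat_lit 8602) (nat_lit 62130122) (nat_lit 8789) (nat_lit 12093906),Row.mk (nat_lit 20664) (nat_lit 8041) (nat_lit 208152784) (nat_lit 8602) (nat_lit 250688833)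 (nat_lit 8789) (nat_lit 6716389),Row.mk (nat_lit 20832) (nat_lit 8602) (nat_lit 452046674) (nat_lit 9163) (nat_lit 15183551) (nat_lit 0) (nat_lit 0),Row.mk (nat_lit 21000) (nat_lit 8415) (nat_lit 10477169) (nat_lit 8602) (nat_lit 216541392) (nat_lit 9163) (nat_lit 242300225),Row.mk (nat_lit 21168) (nat_lit 8976) (nat_lit 23562900) (nat_lit 9163) (nat_lit 405100103) (nat_lit 9724) (nat_lit 43264345),Row.mk (nat_lit 21336) (nat_lit 8976) (nat_lit 39906663) (nat_lit 9163) (nat_lit 110959687) (nat_lit 9724) (nat_lit 324319029),Row.mk (nat_lit 21504) (nat_lit 9537) (nat_lit 60319628) (nat_lit 9724) (nat_lit 261930347) (nat_lit 10285) (nat_lit 157004607),Row.mk (nat_lit 21672) (nat_lit 10098) (nat_lit 85814930) (nat_lit 10285) (nat_lit 382805907) (nat_lit 10846) (nat_lit 15716081),Row.mk (nat_lit 21840) (nat_lit 10098) (nat_lit 117657946) (nat_lit 10285) (nat_lit 15431624) (nat_lit 10846) (nat_lit 357595063),Row.mk (nat_lit 22008) (nat_lit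 10659) (nat_lit 157429105) (nat_lit 10846) (nat_lit 112211364) (nat_lit 11407) (nat_lit 228972307),Row.mk (nat_lit 22176) (nat_lit 11220) (nat_lit 207102324) (nat_lit 11407) (nat_lit 189698641) (nat_lit 11968) (nat_lit 111713870),Row.mk (nat_lit 22344) (nat_lit 11781) (nat_lit 269142976) (nat_lit 11968) (nat_lit 251739293) (nat_lit 0) (nat_lit 0),Row.mk (nat_lit 22512) (nat_lit 11781) (nat_lit 139527929) (nat_lit 12529) (nat_lit 207102324) (nat_lit 12716) (nat_lit 189698641),Row.mk (nat_lit 22680) (nat_lit 12529) (nat_lit 285980887) (nat_lit 13277) (nat_lit 157429105) (nat_lit 13464) (nat_lit 112211364),Row.mk (nat_lit 22848) (nat_lit 13277) (nat_lit 446627607) (nat_lit 14025) (nat_lit 117657946) (nat_lit 14212) (nat_lit 15431624),Row.mk (nat_lit 23016) (nat_lit 13090) (nat_lit 24516155) (nat_lit 13838) (nat_lit 107180777) (nat_lit 14025) (nat_lit 478115344),Row.mk (nat_lit 23184) (nat_lit 13838) (nat_lit 244917883) (nat_lit 14960)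 (nat_lit 75337761) (nat_lit 15147) (nat_lit 327144684),Row.mk (nat_lit 23352) (nat_lit 14960) (nat_lit 505918466) (nat_lit 16269) (nat_lit 49842459) (nat_lit 16456) (nat_lit 138585973),Row.mk (nat_lit 23520) (nat_lit 14773) (nat_lit 84293150) (nat_lit 16082) (nat_lit 36756728) (nat_lit 16269) (nat_lit 631932155),Row.mk (nat_lit 23688) (nat_lit 16082) (nat_lit 472080399) (nat_lit 17578) (nat_lit 16343762) (nat_lit 17765) (nat_lit 337791739),Row.mk (nat_lit 23856) (nat_lit 15895) (nat_lit 36947884) (nat_lit 17578) (nat_lit 880735351) (nat_lit 0) (nat_lit 0),Row.mk (nat_lit 24024) (nat_lit 17391) (nat_lit 610029995) (nat_lit 17578) (nat_lit 16343762) (nat_lit 19635) (nat_lit 405549970),Row.mk (nat_lit 24192) (nat_lit 17204) (nat_lit 188830636) (nat_lit 17391) (nat_lit 36756728) (nat_lit 19448) (nat_lit 949019985),Row.mk (nat_lit 24360) (nat_lit 19261) (nat_lit 1082804769) (nat_lit 19448) (nat_lit 49842459) (nat_lit 25806) (nat_lit 220168521),Row.mk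 (nat_lit 24528) (nat_lit 19074) (nat_lit 779314924) (nat_lit 19261) (nat_lit 75337761) (nat_lit 25619) (nat_lit 720741058),Row.mk (nat_lit 24696) (nat_lit 18887) (nat_lit 400263429) (nat_lit 19074) (nat_lit 107180777) (nat_lit 25432) (nat_lit 1345944080),Row.mk (nat_lit 24864) (nat_lit 18887) (nat_lit 73789192) (nat_lit 25245) (nat_lit 2068229385) (nat_lit 25432) (nat_lit 58578188),Row.mk (nat_lit 25032) (nat_lit 25058) (nat_lit 2102247418) (nat_lit 25245) (nat_lit 157429105) (nat_lit 31603) (nat_lit 374575256),Row.mk (nat_lit 25200) (nat_lit 24871) (nat_lit 2052574199) (nat_lit 25058) (nat_lit 207102324) (nat_lit 31416) (nat_lit 916199907),Row.mk (nat_lit 25368) (nat_lit 24684) (nat_lit 1990533548) (nat_lit 24871) (nat_lit 269142976) (nat_lit 31229) (nat_lit 1592676031),Row.mk (nat_lit 25536) (nat_lit 24497) (nat_lit 1913046270) (nat_lit 24684) (nat_lit 346630253) (nat_lit 31042) (nat_lit 2437578390),Row.mk (nat_lit 25704) (nat_lit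 24310) (nat_lit 1816266530) (nat_lit 24497) (nat_lit 443409993) (nat_lit 30855) (nat_lit 3492841054),Row.mk (nat_lit 25872) (nat_lit 24123) (nat_lit 1695390970) (nat_lit 24310) (nat_lit 564285554) (nat_lit 30668) (nat_lit 4810838665),Row.mk (nat_lit 26040) (nat_lit 23936) (nat_lit 1544420310) (nat_lit 24123) (nat_lit 715256213) (nat_lit 30481) (nat_lit 6456985886),Row.mk (nat_lit 26208) (nat_lit 23749) (nat_lit 1355861599) (nat_lit 23936) (nat_lit 903814925) (nat_lit 30294) (nat_lit 8512984053),Row.mk (nat_lit 26376) (nat_lit 23562) (nat_lit 1120356317) (nat_lit 23749) (nat_lit 1139320207) (nat_lit 30107) (nat_lit 11080876166),Row.mk (nat_lit 26544) (nat_lit 23375) (nat_lit 826215901) (nat_lit 23562) (nat_lit 1433460622) (nat_lit 29920) (nat_lit 14288111467),Row.mk (nat_lit 26712) (nat_lit 23188) (nat_lit 458841617) (nat_lit 23375) (nat_lit 1800834906) (nat_lit 29733) (nat_lit 18293870988),Row.mk (nat_lit 26880) (nat_lit 23188) (nat_lit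 2259676524) (nat_lit 29546) (nat_lit 23296967995) (nat_lit 0) (nat_lit 0),Row.mk (nat_lit 27048) (nat_lit 23001) (nat_lit 2259676524) (nat_lit 29359) (nat_lit 29086873846) (nat_lit 29546) (nat_lit 458841617),Row.mk (nat_lit 27216) (nat_lit 22814) (nat_lit 2259676524) (nat_lit 29172) (nat_lit 36318326578) (nat_lit 29359) (nat_lit 1031923729),Row.mk (nat_lit 27384) (nat_lit 22627) (nat_lit 2259676524) (nat_lit 28985) (nat_lit 45350236591) (nat_lit 29172) (nat_lit 1747689461),Row.mk (nat_lit 27552) (nat_lit 22440) (nat_lit 2259676524) (nat_lit 28798) (nat_lit 56630874313) (nat_lit 28985) (nat_lit 2641663594),Row.mk (nat_lit 27720) (nat_lit 22253) (nat_lit 2259676524) (nat_lit 28611) (nat_lit 70720118696) (nat_lit 28798) (nat_lit 3758215720),Row.mk (nat_lit 27888) (nat_lit 22066) (nat_lit 2259676524) (nat_lit 28424) (nat_lit 88317245044) (nat_lit 28611) (nat_lit 5152762390),Row.mk (nat_lit 28056) (nat_lit 21879) (nat_lit 2259676524) (nat_lit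 28237) (nat_lit 110295631343) (nat_lit 28424) (nat_lit 6894517539),Row.mk (nat_lit 28224) (nat_lit 21692) (nat_lit 2259676524) (nat_lit 28050) (nat_lit 137746105628) (nat_lit 28237) (nat_lit 9069927702),Row.mk (nat_lit 28392) (nat_lit 21505) (nat_lit 2259676524) (nat_lit 27863) (nat_lit 172031085800) (nat_lit 28050) (nat_lit 11786962516),Row.mk (nat_lit 28560) (nat_lit 21318) (nat_lit 2259676524) (nat_lit 27676) (nat_lit 214852198951) (nat_lit 27863) (nat_lit 15180473454),Row.mk (nat_lit 28728) (nat_lit 21131) (nat_lit 2259676524) (nat_lit 27489) (nat_lit 268334736268) (nat_lit 27676) (nat_lit 19418886751),Row.mk (nat_lit 28896) (nat_lit 20944) (nat_lit 2259676524) (nat_lit 27302) (nat_lit 335133135176) (nat_lit 27489) (nat_lit 24712562713),Row.mk (nat_lit 29064) (nat_lit 32912) (nat_lit 467230225) (nat_lit 62084) (nat_lit 451228953553) (nat_lit 0) (nat_lit 0),Row.mk (nat_lit 29232) (nat_lit 32912) (nat_lit 467230225) (nat_lit 62084)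 (nat_lit 563688318123) (nat_lit 0) (nat_lit 0),Row.mk (nat_lit 29400) (nat_lit 32912) (nat_lit 467230225) (nat_lit 62084) (nat_lit 704147351522) (nat_lit 0) (nat_lit 0),Row.mk (nat_lit 29568) (nat_lit 32912) (nat_lit 467230225) (nat_lit 62084) (nat_lit 879577295832) (nat_lit 0) (nat_lit 0),Row.mk (nat_lit 29736) (nat_lit 32912) (nat_lit 467230225) (nat_lit 62084) (nat_lit 1098685064236) (nat_lit 0) (nat_lit 0),Row.mk (nat_lit 29904) (nat_lit 32912) (nat_lit 467230225) (nat_lit 62084) (nat_lit 1372345381260) (nat_lit 0) (nat_lit 0),Row.mk (nat_lit 30072) (nat_lit 32912) (nat_lit 467230225) (nat_lit 62084) (nat_lit 1714140515496) (nat_lit 0) (nat_lit 0),Row.mk (nat_lit 30240) (nat_lit 32912) (nat_lit 467230225) (nat_lit 62084) (nat_lit 2141034392756) (nat_lit 0) (nat_lit 0),Row.mk (nat_lit 30408) (nat_lit 32912) (nat_lit 467230225) (nat_lit 62084) (nat_lit 2674214547150) (nat_lit 0) (nat_lit 0),Row.mk (nat_lit 30576) (nat_lit 32912)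 (nat_lit 467230225) (nat_lit 62084) (nat_lit 3340143697653) (nat_lit 0) (nat_lit 0),Row.mk (nat_lit 30744) (nat_lit 32912) (nat_lit 467230225) (nat_lit 62084) (nat_lit 4171873141887) (nat_lit 0) (nat_lit 0),Row.mk (nat_lit 30912) (nat_lit 32912) (nat_lit 467230225) (nat_lit 62084) (nat_lit 5210683153256) (nat_lit 0) (nat_lit 0),Row.mk (nat_lit 31080) (nat_lit 32912) (nat_lit 467230225) (nat_lit 62084) (nat_lit 6508131797405) (nat_lit 0) (nat_lit 0)],
[Row.mk (nat_lit 9408) (nat_lit 6358) (nat_lit 539389670) (nat_lit 6545) (nat_lit 33691827) (nat_lit 7106) (nat_lit 616),Row.mk (nat_lit 9576) (nat_lit 6358) (nat_lit 539389672) (nat_lit 6545) (nat_lit 33691671) (nat_lit 7106) (nat_lit 770),Row.mk (nat_lit 9744) (nat_lit 6358) (nat_lit 539389676) (nat_lit 6545) (nat_lit 33691476) (nat_lit 7106) (nat_lit 961),Row.mk (nat_lit 9912) (nat_lit 6358) (nat_lit 539389680) (nat_lit 6545) (nat_lit 33691233) (nat_lit 7106) (nat_lit 1201),Row.mk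 (nat_lit 10080) (nat_lit 6358) (nat_lit 539389686) (nat_lit 6545) (nat_lit 33690930) (nat_lit 7106) (nat_lit 1500),Row.mk (nat_lit 10248) (nat_lit 6358) (nat_lit 539389693) (nat_lit 6545) (nat_lit 33690551) (nat_lit 7106) (nat_lit 1873),Row.mk (nat_lit 10416) (nat_lit 6358) (nat_lit 539389702) (nat_lit 6545) (nat_lit 33690077) (nat_lit 7106) (nat_lit 2340),Row.mk (nat_lit 10584) (nat_lit 6358) (nat_lit 539389712) (nat_lit 6545) (nat_lit 33689486) (nat_lit 7106) (nat_lit 2923),Row.mk (nat_lit 10752) (nat_lit 6358) (nat_lit 539389726) (nat_lit 6545) (nat_lit 33688747) (nat_lit 7106) (nat_lit 3651),Row.mk (nat_lit 10920) (nat_lit 6358) (nat_lit 539389743) (nat_lit 6545) (nat_lit 33687825) (nat_lit 7106) (nat_lit 4560),Row.mk (nat_lit 11088) (nat_lit 6358) (nat_lit 539389764) (nat_lit 6545) (nat_lit 33686673) (nat_lit 7106) (nat_lit 5695),Row.mk (nat_lit 11256) (nat_lit 6358) (nat_lit 539389790) (nat_lit 6545) (nat_lit 33685233) (nat_lit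 7106) (nat_lit 7113),Row.mk (nat_lit 11424) (nat_lit 6358) (nat_lit 539389823) (nat_lit 6545) (nat_lit 33683436) (nat_lit 7106) (nat_lit 8884),Row.mk (nat_lit 11592) (nat_lit 6358) (nat_lit 539389864) (nat_lit 6545) (nat_lit 33681191) (nat_lit 7106) (nat_lit 11096),Row.mk (nat_lit 11760) (nat_lit 6358) (nat_lit 539389915) (nat_lit 6545) (nat_lit 33678387) (nat_lit 7106) (nat_lit 13859),Row.mk (nat_lit 11928) (nat_lit 6358) (nat_lit 539389979) (nat_lit 6545) (nat_lit 33674886) (nat_lit 7106) (nat_lit 17309),Row.mk (nat_lit 12096) (nat_lit 6358) (nat_lit 539390059) (nat_lit 6545) (nat_lit 33670512) (nat_lit 7106) (nat_lit 21619),Row.mk (nat_lit 12264) (nat_lit 6358) (nat_lit 539390159) (nat_lit 6545) (nat_lit 33665049) (nat_lit 7106) (nat_lit 27002),Row.mk (nat_lit 12432) (nat_lit 6358) (nat_lit 539390284) (nat_lit 6545) (nat_lit 33658226) (nat_lit 7106) (nat_lit 33725),Row.mk (nat_lit 12600) (nat_lit 6358) (nat_lit 539390440) (nat_lit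 6545) (nat_lit 33649705) (nat_lit 7106) (nat_lit 42121),Row.mk (nat_lit 12768) (nat_lit 6358) (nat_lit 539390634) (nat_lit 6545) (nat_lit 33639062) (nat_lit 7106) (nat_lit 52609),Row.mk (nat_lit 12936) (nat_lit 6358) (nat_lit 539390877) (nat_lit 6545) (nat_lit 33625769) (nat_lit 7106) (nat_lit 65707),Row.mk (nat_lit 13104) (nat_lit 6358) (nat_lit 539391181) (nat_lit 6545) (nat_lit 33609166) (nat_lit 7106) (nat_lit 82067),Row.mk (nat_lit 13272) (nat_lit 6358) (nat_lit 539391560) (nat_lit 6545) (nat_lit 33588430) (nat_lit 7106) (nat_lit 102499),Row.mk (nat_lit 13440) (nat_lit 6358) (nat_lit 539392033) (nat_lit 6545) (nat_lit 33562531) (nat_lit 7106) (nat_lit 128019),Row.mk (nat_lit 13608) (nat_lit 6358) (nat_lit 539392625) (nat_lit 6545) (nat_lit 33530184) (nat_lit 7106) (nat_lit 159893),Row.mk (nat_lit 13776) (nat_lit 6358) (nat_lit 539393363) (nat_lit 6545) (nat_lit 33489782) (nat_lit 7106) (nat_lit 199703),Row.mk (nat_lit 13944)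 (nat_lit 6358) (nat_lit 539394286) (nat_lit 6545) (nat_lit 33439323) (nat_lit 7106) (nat_lit 249424),Row.mk (nat_lit 14112) (nat_lit 6358) (nat_lit 539395438) (nat_lit 6545) (nat_lit 33376299) (nat_lit 7106) (nat_lit 311525),Row.mk (nat_lit 14280) (nat_lit 6358) (nat_lit 539396877) (nat_lit 6545) (nat_lit 33297585) (nat_lit 7106) (nat_lit 389087),Row.mk (nat_lit 14448) (nat_lit 6358) (nat_lit 539398675) (nat_lit 6545) (nat_lit 33199272) (nat_lit 7106) (nat_lit 485961),Row.mk (nat_lit 14616) (nat_lit 6358) (nat_lit 539400919) (nat_lit 6545) (nat_lit 33076482) (nat_lit 7106) (nat_lit 606953),Row.mk (nat_lit 14784) (nat_lit 6358) (nat_lit 539403723) (nat_lit 6545) (nat_lit 32923121) (nat_lit 7106) (nat_lit 758070),Row.mk (nat_lit 14952) (nat_lit 6358) (nat_lit 539407225) (nat_lit 6545) (nat_lit 32731575) (nat_lit 7106) (nat_lit 946812),Row.mk (nat_lit 15120) (nat_lit 6358) (nat_lit 539411599) (nat_lit 6545) (nat_lit 32492340) (nat_lit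 7106) (nat_lit 1182545),Row.mk (nat_lit 15288) (nat_lit 6358) (nat_lit 539417061) (nat_lit 6545) (nat_lit 32193541) (nat_lit 7106) (nat_lit 1476970),Row.mk (nat_lit 15456) (nat_lit 6358) (nat_lit 539423884) (nat_lit 6545) (nat_lit 31820348) (nat_lit 7106) (nat_lit 1844700),Row.mk (nat_lit 15624) (nat_lit 6358) (nat_lit 539432406) (nat_lit 6545) (nat_lit 31354240) (nat_lit 7106) (nat_lit 2303986),Row.mk (nat_lit 15792) (nat_lit 6358) (nat_lit 539443049) (nat_lit 6545) (nat_lit 30772081) (nat_lit 7106) (nat_lit 2877623),Row.mk (nat_lit 15960) (nat_lit 6358) (nat_lit 539456342) (nat_lit 6545) (nat_lit 30044979) (nat_lit 7106) (nat_lit 3594082),Row.mk (nat_lit 16128) (nat_lit 6358) (nat_lit 539472944) (nat_lit 6545) (nat_lit 29136846) (nat_lit 7106) (nat_lit 4488922),Row.mk (nat_lit 16296) (nat_lit 6358) (nat_lit 539493681) (nat_lit 6545) (nat_lit 28002610) (nat_lit 7106) (nat_lit 5606556),Row.mk (nat_lit 16464) (nat_lit 6358) (nat_lit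 539519580) (nat_lit 6545) (nat_lit 26585977) (nat_lit 7106) (nat_lit 7002453),Row.mk (nat_lit 16632) (nat_lit 6358) (nat_lit 539551927) (nat_lit 6545) (nat_lit 24816636) (nat_lit 7106) (nat_lit 8745895),Row.mk (nat_lit 16800) (nat_lit 6358) (nat_lit 539592328) (nat_lit 6545) (nat_lit 22606771) (nat_lit 7106) (nat_lit 10923412),Row.mk (nat_lit 16968) (nat_lit 6358) (nat_lit 539642788) (nat_lit 6545) (nat_lit 19846704) (nat_lit 7106) (nat_lit 13643078),Row.mk (nat_lit 17136) (nat_lit 6358) (nat_lit 539705811) (nat_lit 6545) (nat_lit 16399447) (nat_lit 7106) (nat_lit 17039875),Row.mk (nat_lit 17304) (nat_lit 6358) (nat_lit 539784526) (nat_lit 6545) (nat_lit 12093906) (nat_lit 7106) (nat_lit 21282393),Row.mk (nat_lit 17472) (nat_lit 6358) (nat_lit 539882838) (nat_lit 6545) (nat_lit 6716389) (nat_lit 7106) (nat_lit 26581196),Row.mk (nat_lit 17640) (nat_lit 6358) (nat_lit 540005628) (nat_lit 7106) (nat_lit 33199272) (nat_lit 0) (nat_lit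 0),Row.mk (nat_lit 17808) (nat_lit 6358) (nat_lit 531770382) (nat_lit 6919) (nat_lit 8388608) (nat_lit 7106) (nat_lit 33076482),Row.mk (nat_lit 17976) (nat_lit 6358) (nat_lit 521484758) (nat_lit 6919) (nat_lit 18865777) (nat_lit 7106) (nat_lit 32923121),Row.mk (nat_lit 18144) (nat_lit 6358) (nat_lit 508638262) (nat_lit 6919) (nat_lit 31951508) (nat_lit 7106) (nat_lit 32731575),Row.mk (nat_lit 18312) (nat_lit 6358) (nat_lit 492593298) (nat_lit 6919) (nat_lit 48295271) (nat_lit 7106) (nat_lit 32492340),Row.mk (nat_lit 18480) (nat_lit 6358) (nat_lit 472553526) (nat_lit 6919) (nat_lit 68708236) (nat_lit 7106) (nat_lit 32193541),Row.mk (nat_lit 18648) (nat_lit 6358) (nat_lit 447524333) (nat_lit 6919) (nat_lit 94203538) (nat_lit 7106) (nat_lit 31820348),Row.mk (nat_lit 18816) (nat_lit 6358) (nat_lit 416263475) (nat_lit 6919) (nat_lit 126046554) (nat_lit 7106) (nat_lit 31354240),Row.mk (nat_lit 18984) (nat_lit 6358) (nat_lit 377219418) (nat_lit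 6919) (nat_lit 165817713) (nat_lit 7106) (nat_lit 30772081),Row.mk (nat_lit 19152) (nat_lit 6358) (nat_lit 328454332) (nat_lit 6919) (nat_lit 215490932) (nat_lit 7106) (nat_lit 30044979),Row.mk (nat_lit 19320) (nat_lit 6358) (nat_lit 267547916) (nat_lit 6919) (nat_lit 277531584) (nat_lit 7106) (nat_lit 29136846),Row.mk (nat_lit 19488) (nat_lit 6358) (nat_lit 191477272) (nat_lit 6919) (nat_lit 355018861) (nat_lit 7106) (nat_lit 28002610),Row.mk (nat_lit 19656) (nat_lit 6358) (nat_lit 96466873) (nat_lit 6919) (nat_lit 451798601) (nat_lit 7106) (nat_lit 26585977),Row.mk (nat_lit 19824) (nat_lit 6919) (nat_lit 550475339) (nat_lit 7106) (nat_lit 7043016) (nat_lit 7667) (nat_lit 17773619),Row.mk (nat_lit 19992) (nat_lit 6919) (nat_lit 439402862) (nat_lit 7480) (nat_lit 113832544) (nat_lit 7667) (nat_lit 22606771),Row.mk (nat_lit 20160) (nat_lit 6919) (nat_lit 291879460) (nat_lit 7480) (nat_lit 264803203) (nat_lit 7667) (nat_lit 19846704),Row.mk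 (nat_lit 20328) (nat_lit 6919) (nat_lit 107626289) (nat_lit 7480) (nat_lit 453361915) (nat_lit 7667) (nat_lit 16399447),Row.mk (nat_lit 20496) (nat_lit 7480) (nat_lit 480378090) (nat_lit 8041) (nat_lit 85987631) (nat_lit 8228) (nat_lit 12093906),Row.mk (nat_lit 20664) (nat_lit 7480) (nat_lit 251589197) (nat_lit 8041) (nat_lit 321492913) (nat_lit 8228) (nat_lit 6716389),Row.mk (nat_lit 20832) (nat_lit 8041) (nat_lit 554118221) (nat_lit 8602) (nat_lit 27352497) (nat_lit 0) (nat_lit 0),Row.mk (nat_lit 21000) (nat_lit 7854) (nat_lit 10477169) (nat_lit 8041) (nat_lit 259977805) (nat_lit 8602) (nat_lit 313104305),Row.mk (nat_lit 21168) (nat_lit 8415) (nat_lit 23562900) (nat_lit 8602) (nat_lit 495483087) (nat_lit 9163) (nat_lit 67121854),Row.mk (nat_lit 21336) (nat_lit 8415) (nat_lit 39906663) (nat_lit 8602) (nat_lit 128108804) (nat_lit 9163) (nat_lit 421410407),Row.mk (nat_lit 21504) (nat_lit 8976) (nat_lit 60319628) (nat_lit 9163) (nat_lit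 316667515) (nat_lit 9724) (nat_lit 216507932),Row.mk (nat_lit 21672) (nat_lit 9537) (nat_lit 85814930) (nat_lit 9724) (nat_lit 467638175) (nat_lit 10285) (nat_lit 45124307),Row.mk (nat_lit 21840) (nat_lit 9537) (nat_lit 117657946) (nat_lit 9724) (nat_lit 8796557) (nat_lit 10285) (nat_lit 478470624),Row.mk (nat_lit 22008) (nat_lit 10098) (nat_lit 157429105) (nat_lit 10285) (nat_lit 129672117) (nat_lit 10846) (nat_lit 325752047),Row.mk (nat_lit 22176) (nat_lit 10659) (nat_lit 207102324) (nat_lit 10846) (nat_lit 226451858) (nat_lit 11407) (nat_lit 189201147),Row.mk (nat_lit 22344) (nat_lit 11220) (nat_lit 269142976) (nat_lit 11407) (nat_lit 303939135) (nat_lit 11968) (nat_lit 62040651),Row.mk (nat_lit 22512) (nat_lit 11220) (nat_lit 77487277) (nat_lit 11781) (nat_lit 269142976) (nat_lit 11968) (nat_lit 303939135),Row.mk (nat_lit 22680) (nat_lit 11781) (nat_lit 236307669) (nat_lit 12529) (nat_lit 207102324) (nat_lit 12716) (nat_lit 226451858),Row.mk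 (nat_lit 22848) (nat_lit 12529) (nat_lit 406856448) (nat_lit 13277) (nat_lit 157429105) (nat_lit 13464) (nat_lit 129672117),Row.mk (nat_lit 23016) (nat_lit 13277) (nat_lit 597598267) (nat_lit 14025) (nat_lit 117657946) (nat_lit 14212) (nat_lit 8796557),Row.mk (nat_lit 23184) (nat_lit 13090) (nat_lit 70391246) (nat_lit 13838) (nat_lit 107180777) (nat_lit 14025) (nat_lit 584068799),Row.mk (nat_lit 23352) (nat_lit 13838) (nat_lit 337739544) (nat_lit 14960) (nat_lit 75337761) (nat_lit 15147) (nat_lit 395510087),Row.mk (nat_lit 23520) (nat_lit 14960) (nat_lit 657375261) (nat_lit 16269) (nat_lit 49842459) (nat_lit 16456) (nat_lit 160004805),Row.mk (nat_lit 23688) (nat_lit 14773) (nat_lit 130775412) (nat_lit 16082) (nat_lit 36756728) (nat_lit 16269) (nat_lit 772924254),Row.mk (nat_lit 23856) (nat_lit 16082) (nat_lit 610029995) (nat_lit 17578) (nat_lit 16343762) (nat_lit 17765) (nat_lit 405549970),Row.mk (nat_lit 24024) (nat_lit 15895) (nat_lit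 66559981) (nat_lit 17578) (nat_lit 1079604241) (nat_lit 0) (nat_lit 0),Row.mk (nat_lit 24192) (nat_lit 17391) (nat_lit 782325714) (nat_lit 17578) (nat_lit 16343762) (nat_lit 19635) (nat_lit 490178367),Row.mk (nat_lit 24360) (nat_lit 17204) (nat_lit 261340211) (nat_lit 17391) (nat_lit 36756728) (nat_lit 19448) (nat_lit 1168959304),Row.mk (nat_lit 24528) (nat_lit 19261) (nat_lit 1377892337) (nat_lit 19448) (nat_lit 49842459) (nat_lit 25806) (nat_lit 261899440),Row.mk (nat_lit 24696) (nat_lit 19074) (nat_lit 1005188557) (nat_lit 19261) (nat_lit 75337761) (nat_lit 25619) (nat_lit 887102463),Row.mk (nat_lit 24864) (nat_lit 18887) (nat_lit 539690526) (nat_lit 19074) (nat_lit 107180777) (nat_lit 25432) (nat_lit 1667965956),Row.mk (nat_lit 25032) (nat_lit 18887) (nat_lit 105246652) (nat_lit 25245) (nat_lit 2609854036) (nat_lit 25432) (nat_lit 33391585),Row.mk (nat_lit 25200) (nat_lit 25058) (nat_lit 2675329530) (nat_lit 25245) (nat_lit 157429105)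 (nat_lit 31603) (nat_lit 457358290),Row.mk (nat_lit 25368) (nat_lit 24871) (nat_lit 2625656311) (nat_lit 25058) (nat_lit 207102324) (nat_lit 31416) (nat_lit 1133834413),Row.mk (nat_lit 25536) (nat_lit 24684) (nat_lit 2563615659) (nat_lit 24871) (nat_lit 269142976) (nat_lit 31229) (nat_lit 1978736772),Row.mk (nat_lit 25704) (nat_lit 24497) (nat_lit 2486128382) (nat_lit 24684) (nat_lit 346630253) (nat_lit 31042) (nat_lit 3033999437),Row.mk (nat_lit 25872) (nat_lit 24310) (nat_lit 2389348642) (nat_lit 24497) (nat_lit 443409993) (nat_lit 30855) (nat_lit 4351997047),Row.mk (nat_lit 26040) (nat_lit 24123) (nat_lit 2268473081) (nat_lit 24310) (nat_lit 564285554) (nat_lit 30668) (nat_lit 5998144268),Row.mk (nat_lit 26208) (nat_lit 23936) (nat_lit 2117502422) (nat_lit 24123) (nat_lit 715256213) (nat_lit 30481) (nat_lit 8054142436),Row.mk (nat_lit 26376) (nat_lit 23749) (nat_lit 1928943710) (nat_lit 23936) (nat_lit 903814925) (nat_lit 30294)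 (nat_lit 10622034548),Row.mk (nat_lit 26544) (nat_lit 23562) (nat_lit 1693438428) (nat_lit 23749) (nat_lit 1139320207) (nat_lit 30107) (nat_lit 13829269850),Row.mk (nat_lit 26712) (nat_lit 23375) (nat_lit 1399298013) (nat_lit 23562) (nat_lit 1433460622) (nat_lit 29920) (nat_lit 17835029370),Row.mk (nat_lit 26880) (nat_lit 23188) (nat_lit 1031923729) (nat_lit 23375) (nat_lit 1800834906) (nat_lit 29733) (nat_lit 22838126377),Row.mk (nat_lit 27048) (nat_lit 23001) (nat_lit 573082111) (nat_lit 23188) (nat_lit 2259676524) (nat_lit 29546) (nat_lit 29086873846),Row.mk (nat_lit 27216) (nat_lit 23001) (nat_lit 2832758635) (nat_lit 29359) (nat_lit 36891408690) (nat_lit 0) (nat_lit 0),Row.mk (nat_lit 27384) (nat_lit 22814) (nat_lit 2832758635) (nat_lit 29172) (nat_lit 46066002323) (nat_lit 29359) (nat_lit 573082111),Row.mk (nat_lit 27552) (nat_lit 22627) (nat_lit 2832758635) (nat_lit 28985) (nat_lit 57524848446) (nat_lit 29172) (nat_lit 1288847844),Row.mk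 (nat_lit 27720) (nat_lit 22440) (nat_lit 2832758635) (nat_lit 28798) (nat_lit 71836670822) (nat_lit 28985) (nat_lit 2182821976),Row.mk (nat_lit 27888) (nat_lit 22253) (nat_lit 2832758635) (nat_lit 28611) (nat_lit 89711791714) (nat_lit 28798) (nat_lit 3299374102),Row.mk (nat_lit 28056) (nat_lit 22066) (nat_lit 2832758635) (nat_lit 28424) (nat_lit 112037386492) (nat_lit 28611) (nat_lit 4693920772),Row.mk (nat_lit 28224) (nat_lit 21879) (nat_lit 2832758635) (nat_lit 28237) (nat_lit 139921515791) (nat_lit 28424) (nat_lit 6435675921),Row.mk (nat_lit 28392) (nat_lit 21692) (nat_lit 2832758635) (nat_lit 28050) (nat_lit 174748120615) (nat_lit 28237) (nat_lit 8611086084),Row.mk (nat_lit 28560) (nat_lit 21505) (nat_lit 2832758635) (nat_lit 27863) (nat_lit 218245709889) (nat_lit 28050) (nat_lit 11328120898),Row.mk (nat_lit 28728) (nat_lit 21318) (nat_lit 2832758635) (nat_lit 27676) (nat_lit 272573149566) (nat_lit 27863) (nat_lit 14721631836),Row.mk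 (nat_lit 28896) (nat_lit 21131) (nat_lit 2832758635) (nat_lit 27489) (nat_lit 340426811137) (nat_lit 27676) (nat_lit 18960045134),Row.mk (nat_lit 29064) (nat_lit 20944) (nat_lit 2832758635) (nat_lit 27302) (nat_lit 425174397551) (nat_lit 27489) (nat_lit 24253721095),Row.mk (nat_lit 29232) (nat_lit 32912) (nat_lit 581470719) (nat_lit 62084) (nat_lit 563574077629) (nat_lit 0) (nat_lit 0),Row.mk (nat_lit 29400) (nat_lit 32912) (nat_lit 581470719) (nat_lit 62084) (nat_lit 704033111028) (nat_lit 0) (nat_lit 0),Row.mk (nat_lit 29568) (nat_lit 32912) (nat_lit 581470719) (nat_lit 62084) (nat_lit 879463055338) (nat_lit 0) (nat_lit 0),Row.mk (nat_lit 29736) (nat_lit 32912) (nat_lit 581470719) (nat_lit 62084) (nat_lit 1098570823742) (nat_lit 0) (nat_lit 0),Row.mk (nat_lit 29904) (nat_lit 32912) (nat_lit 581470719) (nat_lit 62084) (nat_lit 1372231140767) (nat_lit 0) (nat_lit 0),Row.mk (nat_lit 30072) (nat_lit 32912) (nat_lit 581470719) (nat_lit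 62084) (nat_lit 1714026275002) (nat_lit 0) (nat_lit 0),Row.mk (nat_lit 30240) (nat_lit 32912) (nat_lit 581470719) (nat_lit 62084) (nat_lit 2140920152262) (nat_lit 0) (nat_lit 0),Row.mk (nat_lit 30408) (nat_lit 32912) (nat_lit 581470719) (nat_lit 62084) (nat_lit 2674100306656) (nat_lit 0) (nat_lit 0),Row.mk (nat_lit 30576) (nat_lit 32912) (nat_lit 581470719) (nat_lit 62084) (nat_lit 3340029457159) (nat_lit 0) (nat_lit 0),Row.mk (nat_lit 30744) (nat_lit 32912) (nat_lit 581470719) (nat_lit 62084) (nat_lit 4171758901393) (nat_lit 0) (nat_lit 0),Row.mk (nat_lit 30912) (nat_lit 32912) (nat_lit 581470719) (nat_lit 62084) (nat_lit 5210568912762) (nat_lit 0) (nat_lit 0),Row.mk (nat_lit 31080) (nat_lit 32912) (nat_lit 581470719) (nat_lit 62084) (nat_lit 6508017556911) (nat_lit 0) (nat_lit 0)],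
[Row.mk (nat_lit 9576) (nat_lit 5797) (nat_lit 682073293) (nat_lit 5984) (nat_lit 33691476) (nat_lit 6545) (nat_lit 964),Row.mk (nat_lit 9744) (nat_lit 5797) (nat_lit 682073297) (nat_lit 5984) (nat_lit 33691233) (nat_lit 6545) (nat_lit 1204),Row.mk (nat_lit 9912) (nat_lit 5797) (nat_lit 682073301) (nat_lit 5984) (nat_lit 33690930) (nat_lit 6545) (nat_lit 1504),Row.mk (nat_lit 10080) (nat_lit 5797) (nat_lit 682073307) (nat_lit 5984) (nat_lit 33690551) (nat_lit 6545) (nat_lit 1879),Row.mk (nat_lit 10248) (nat_lit 5797) (nat_lit 682073314) (nat_lit 5984) (nat_lit 33690077) (nat_lit 6545) (nat_lit 2347),Row.mk (nat_lit 10416) (nat_lit 5797) (nat_lit 682073322) (nat_lit 5984) (nat_lit 33689486) (nat_lit 6545) (nat_lit 2931),Row.mk (nat_lit 10584) (nat_lit 5797) (nat_lit 682073333) (nat_lit 5984) (nat_lit 33688747) (nat_lit 6545) (nat_lit 3661),Row.mk (nat_lit 10752) (nat_lit 5797) (nat_lit 682073347) (nat_lit 5984) (nat_lit 33687825) (nat_lit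 6545) (nat_lit 4573),Row.mk (nat_lit 10920) (nat_lit 5797) (nat_lit 682073364) (nat_lit 5984) (nat_lit 33686673) (nat_lit 6545) (nat_lit 5712),Row.mk (nat_lit 11088) (nat_lit 5797) (nat_lit 682073385) (nat_lit 5984) (nat_lit 33685233) (nat_lit 6545) (nat_lit 7134),Row.mk (nat_lit 11256) (nat_lit 5797) (nat_lit 682073411) (nat_lit 5984) (nat_lit 33683436) (nat_lit 6545) (nat_lit 8910),Row.mk (nat_lit 11424) (nat_lit 5797) (nat_lit 682073444) (nat_lit 5984) (nat_lit 33681191) (nat_lit 6545) (nat_lit 11129),Row.mk (nat_lit 11592) (nat_lit 5797) (nat_lit 682073485) (nat_lit 5984) (nat_lit 33678387) (nat_lit 6545) (nat_lit 13900),Row.mk (nat_lit 11760) (nat_lit 5797) (nat_lit 682073536) (nat_lit 5984) (nat_lit 33674886) (nat_lit 6545) (nat_lit 17361),Row.mk (nat_lit 11928) (nat_lit 5797) (nat_lit 682073600) (nat_lit 5984) (nat_lit 33670512) (nat_lit 6545) (nat_lit 21683),Row.mk (nat_lit 12096) (nat_lit 5797) (nat_lit 682073680) (nat_lit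 5984) (nat_lit 33665049) (nat_lit 6545) (nat_lit 27082),Row.mk (nat_lit 12264) (nat_lit 5797) (nat_lit 682073780) (nat_lit 5984) (nat_lit 33658226) (nat_lit 6545) (nat_lit 33824),Row.mk (nat_lit 12432) (nat_lit 5797) (nat_lit 682073905) (nat_lit 5984) (nat_lit 33649705) (nat_lit 6545) (nat_lit 42246),Row.mk (nat_lit 12600) (nat_lit 5797) (nat_lit 682074061) (nat_lit 5984) (nat_lit 33639062) (nat_lit 6545) (nat_lit 52764),Row.mk (nat_lit 12768) (nat_lit 5797) (nat_lit 682074255) (nat_lit 5984) (nat_lit 33625769) (nat_lit 6545) (nat_lit 65902),Row.mk (nat_lit 12936) (nat_lit 5797) (nat_lit 682074498) (nat_lit 5984) (nat_lit 33609166) (nat_lit 6545) (nat_lit 82310),Row.mk (nat_lit 13104) (nat_lit 5797) (nat_lit 682074802) (nat_lit 5984) (nat_lit 33588430) (nat_lit 6545) (nat_lit 102803),Row.mk (nat_lit 13272) (nat_lit 5797) (nat_lit 682075181) (nat_lit 5984) (nat_lit 33562531) (nat_lit 6545) (nat_lit 128398),Row.mk (nat_lit 13440) (nat_lit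 5797) (nat_lit 682075654) (nat_lit 5984) (nat_lit 33530184) (nat_lit 6545) (nat_lit 160367),Row.mk (nat_lit 13608) (nat_lit 5797) (nat_lit 682076246) (nat_lit 5984) (nat_lit 33489782) (nat_lit 6545) (nat_lit 200294),Row.mk (nat_lit 13776) (nat_lit 5797) (nat_lit 682076984) (nat_lit 5984) (nat_lit 33439323) (nat_lit 6545) (nat_lit 250163),Row.mk (nat_lit 13944) (nat_lit 5797) (nat_lit 682077907) (nat_lit 5984) (nat_lit 33376299) (nat_lit 6545) (nat_lit 312447),Row.mk (nat_lit 14112) (nat_lit 5797) (nat_lit 682079059) (nat_lit 5984) (nat_lit 33297585) (nat_lit 6545) (nat_lit 390239),Row.mk (nat_lit 14280) (nat_lit 5797) (nat_lit 682080498) (nat_lit 5984) (nat_lit 33199272) (nat_lit 6545) (nat_lit 487400),Row.mk (nat_lit 14448) (nat_lit 5797) (nat_lit 682082295) (nat_lit 5984) (nat_lit 33076482) (nat_lit 6545) (nat_lit 608751),Row.mk (nat_lit 14616) (nat_lit 5797) (nat_lit 682084540) (nat_lit 5984) (nat_lit 32923121) (nat_lit 6545) (nat_lit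 760315),Row.mk (nat_lit 14784) (nat_lit 5797) (nat_lit 682087344) (nat_lit 5984) (nat_lit 32731575) (nat_lit 6545) (nat_lit 949615),Row.mk (nat_lit 14952) (nat_lit 5797) (nat_lit 682090846) (nat_lit 5984) (nat_lit 32492340) (nat_lit 6545) (nat_lit 1186047),Row.mk (nat_lit 15120) (nat_lit 5797) (nat_lit 682095220) (nat_lit 5984) (nat_lit 32193541) (nat_lit 6545) (nat_lit 1481344),Row.mk (nat_lit 15288) (nat_lit 5797) (nat_lit 682100682) (nat_lit 5984) (nat_lit 31820348) (nat_lit 6545) (nat_lit 1850163),Row.mk (nat_lit 15456) (nat_lit 5797) (nat_lit 682107505) (nat_lit 5984) (nat_lit 31354240) (nat_lit 6545) (nat_lit 2310809),Row.mk (nat_lit 15624) (nat_lit 5797) (nat_lit 682116027) (nat_lit 5984) (nat_lit 30772081) (nat_lit 6545) (nat_lit 2886145),Row.mk (nat_lit 15792) (nat_lit 5797) (nat_lit 682126670) (nat_lit 5984) (nat_lit 30044979) (nat_lit 6545) (nat_lit 3604725),Row.mk (nat_lit 15960) (nat_lit 5797) (nat_lit 682139963) (nat_lit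 5984) (nat_lit 29136846) (nat_lit 6545) (nat_lit 4502215),Row.mk (nat_lit 16128) (nat_lit 5797) (nat_lit 682156565) (nat_lit 5984) (nat_lit 28002610) (nat_lit 6545) (nat_lit 5623158),Row.mk (nat_lit 16296) (nat_lit 5797) (nat_lit 682177302) (nat_lit 5984) (nat_lit 26585977) (nat_lit 6545) (nat_lit 7023189),Row.mk (nat_lit 16464) (nat_lit 5797) (nat_lit 682203201) (nat_lit 5984) (nat_lit 24816636) (nat_lit 6545) (nat_lit 8771794),Row.mk (nat_lit 16632) (nat_lit 5797) (nat_lit 682235548) (nat_lit 5984) (nat_lit 22606771) (nat_lit 6545) (nat_lit 10955759),Row.mk (nat_lit 16800) (nat_lit 5797) (nat_lit 682275949) (nat_lit 5984) (nat_lit 19846704) (nat_lit 6545) (nat_lit 13683479),Row.mk (nat_lit 16968) (nat_lit 5797) (nat_lit 682326409) (nat_lit 5984) (nat_lit 16399447) (nat_lit 6545) (nat_lit 17090335),Row.mk (nat_lit 17136) (nat_lit 5797) (nat_lit 682389432) (nat_lit 5984) (nat_lit 12093906) (nat_lit 6545) (nat_lit 21345416),Row.mk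 (nat_lit 17304) (nat_lit 5797) (nat_lit 682468147) (nat_lit 5984) (nat_lit 6716389) (nat_lit 6545) (nat_lit 26659910),Row.mk (nat_lit 17472) (nat_lit 5797) (nat_lit 682566459) (nat_lit 6545) (nat_lit 33297585) (nat_lit 0) (nat_lit 0),Row.mk (nat_lit 17640) (nat_lit 5797) (nat_lit 674300641) (nat_lit 6358) (nat_lit 8388608) (nat_lit 6545) (nat_lit 33199272),Row.mk (nat_lit 17808) (nat_lit 5797) (nat_lit 663976834) (nat_lit 6358) (nat_lit 18865777) (nat_lit 6545) (nat_lit 33076482),Row.mk (nat_lit 17976) (nat_lit 5797) (nat_lit 651082648) (nat_lit 6358) (nat_lit 31951508) (nat_lit 6545) (nat_lit 32923121),Row.mk (nat_lit 18144) (nat_lit 5797) (nat_lit 634978120) (nat_lit 6358) (nat_lit 48295271) (nat_lit 6545) (nat_lit 32731575),Row.mk (nat_lit 18312) (nat_lit 5797) (nat_lit 614863954) (nat_lit 6358) (nat_lit 68708236) (nat_lit 6545) (nat_lit 32492340),Row.mk (nat_lit 18480) (nat_lit 5797) (nat_lit 589741845) (nat_lit 6358) (nat_lit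 94203538) (nat_lit 6545) (nat_lit 32193541),Row.mk (nat_lit 18648) (nat_lit 5797) (nat_lit 558364937) (nat_lit 6358) (nat_lit 126046554) (nat_lit 6545) (nat_lit 31820348),Row.mk (nat_lit 18816) (nat_lit 5797) (nat_lit 519175936) (nat_lit 6358) (nat_lit 165817713) (nat_lit 6545) (nat_lit 31354240),Row.mk (nat_lit 18984) (nat_lit 5797) (nat_lit 470229820) (nat_lit 6358) (nat_lit 215490932) (nat_lit 6545) (nat_lit 30772081),Row.mk (nat_lit 19152) (nat_lit 5797) (nat_lit 409097301) (nat_lit 6358) (nat_lit 277531584) (nat_lit 6545) (nat_lit 30044979),Row.mk (nat_lit 19320) (nat_lit 5797) (nat_lit 332744260) (nat_lit 6358) (nat_lit 355018861) (nat_lit 6545) (nat_lit 29136846),Row.mk (nat_lit 19488) (nat_lit 5797) (nat_lit 237381153) (nat_lit 6358) (nat_lit 451798601) (nat_lit 6545) (nat_lit 28002610),Row.mk (nat_lit 19656) (nat_lit 5797) (nat_lit 118274933) (nat_lit 6358) (nat_lit 572674162) (nat_lit 6545) (nat_lit 26585977),Row.mk (nat_lit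 19824) (nat_lit 6358) (nat_lit 693158960) (nat_lit 6545) (nat_lit 407949) (nat_lit 7106) (nat_lit 24408686),Row.mk (nat_lit 19992) (nat_lit 6358) (nat_lit 545356317) (nat_lit 6919) (nat_lit 150562710) (nat_lit 7106) (nat_lit 22606771),Row.mk (nat_lit 20160) (nat_lit 6358) (nat_lit 360244863) (nat_lit 6919) (nat_lit 339121421) (nat_lit 7106) (nat_lit 19846704),Row.mk (nat_lit 20328) (nat_lit 6358) (nat_lit 129045122) (nat_lit 6919) (nat_lit 574626703) (nat_lit 7106) (nat_lit 16399447),Row.mk (nat_lit 20496) (nat_lit 6919) (nat_lit 593264257) (nat_lit 7480) (nat_lit 115785085) (nat_lit 7667) (nat_lit 12093906),Row.mk (nat_lit 20664) (nat_lit 6919) (nat_lit 305840230) (nat_lit 7480) (nat_lit 409925501) (nat_lit 7667) (nat_lit 6716389),Row.mk (nat_lit 20832) (nat_lit 7480) (nat_lit 681603122) (nat_lit 8041) (nat_lit 42551217) (nat_lit 0) (nat_lit 0),Row.mk (nat_lit 21000) (nat_lit 7293) (nat_lit 10477169) (nat_lit 7480) (nat_lit 314228838)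 (nat_lit 8041) (nat_lit 401536893),Row.mk (nat_lit 21168) (nat_lit 7854) (nat_lit 23562900) (nat_lit 8041) (nat_lit 608369254) (nat_lit 8602) (nat_lit 96919308),Row.mk (nat_lit 21336) (nat_lit 7854) (nat_lit 39906663) (nat_lit 8041) (nat_lit 149527636) (nat_lit 8602) (nat_lit 542675195),Row.mk (nat_lit 21504) (nat_lit 8415) (nat_lit 60319628) (nat_lit 8602) (nat_lit 385032918) (nat_lit 9163) (nat_lit 290826150),Row.mk (nat_lit 21672) (nat_lit 8976) (nat_lit 85814930) (nat_lit 9163) (nat_lit 573591630) (nat_lit 9724) (nat_lit 81854473),Row.mk (nat_lit 21840) (nat_lit 8976) (nat_lit 117657946) (nat_lit 9163) (nat_lit 509518) (nat_lit 9724) (nat_lit 629441283),Row.mk (nat_lit 22008) (nat_lit 9537) (nat_lit 157429105) (nat_lit 9724) (nat_lit 151480178) (nat_lit 10285) (nat_lit 446627607),Row.mk (nat_lit 22176) (nat_lit 10098) (nat_lit 207102324) (nat_lit 10285) (nat_lit 272355738) (nat_lit 10846) (nat_lit 285980887),Row.mk (nat_lit 22344)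 (nat_lit 10659) (nat_lit 269142976) (nat_lit 10846) (nat_lit 369135478) (nat_lit 11407) (nat_lit 139527929),Row.mk (nat_lit 22512) (nat_lit 11220) (nat_lit 346630253) (nat_lit 11407) (nat_lit 446622756) (nat_lit 0) (nat_lit 0),Row.mk (nat_lit 22680) (nat_lit 11220) (nat_lit 174267017) (nat_lit 11781) (nat_lit 269142976) (nat_lit 11968) (nat_lit 369135478),Row.mk (nat_lit 22848) (nat_lit 11781) (nat_lit 357183229) (nat_lit 12529) (nat_lit 207102324) (nat_lit 12716) (nat_lit 272355738),Row.mk (nat_lit 23016) (nat_lit 12529) (nat_lit 557827107) (nat_lit 13277) (nat_lit 157429105) (nat_lit 13464) (nat_lit 151480178),Row.mk (nat_lit 23184) (nat_lit 13277) (nat_lit 786156978) (nat_lit 14025) (nat_lit 117657946) (nat_lit 14212) (nat_lit 509518),Row.mk (nat_lit 23352) (nat_lit 13090) (nat_lit 127688127) (nat_lit 13838) (nat_lit 107180777) (nat_lit 14025) (nat_lit 716402109),Row.mk (nat_lit 23520) (nat_lit 13838) (nat_lit 453671560) (nat_lit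 14960) (nat_lit 75337761) (nat_lit 15147) (nat_lit 480896827),Row.mk (nat_lit 23688) (nat_lit 14960) (nat_lit 846541145) (nat_lit 16269) (nat_lit 49842459) (nat_lit 16456) (nat_lit 186756411),Row.mk (nat_lit 23856) (nat_lit 14773) (nat_lit 188830636) (nat_lit 16082) (nat_lit 36756728) (nat_lit 16269) (nat_lit 949019985),Row.mk (nat_lit 24024) (nat_lit 16082) (nat_lit 782325714) (nat_lit 17578) (nat_lit 16343762) (nat_lit 17765) (nat_lit 490178367),Row.mk (nat_lit 24192) (nat_lit 15895) (nat_lit 103544776) (nat_lit 17578) (nat_lit 1327986688) (nat_lit 0) (nat_lit 0),Row.mk (nat_lit 24360) (nat_lit 17391) (nat_lit 997518909) (nat_lit 17578) (nat_lit 16343762) (nat_lit 19635) (nat_lit 595877192),Row.mk (nat_lit 24528) (nat_lit 17204) (nat_lit 351902921) (nat_lit 17391) (nat_lit 36756728) (nat_lit 19448) (nat_lit 1443658208),Row.mk (nat_lit 24696) (nat_lit 19261) (nat_lit 1746449591) (nat_lit 19448) (nat_lit 49842459) (nat_lit 25806)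 (nat_lit 314020351),Row.mk (nat_lit 24864) (nat_lit 19074) (nat_lit 1287299275) (nat_lit 19261) (nat_lit 75337761) (nat_lit 25619) (nat_lit 1094883844),Row.mk (nat_lit 25032) (nat_lit 18887) (nat_lit 713831607) (nat_lit 19074) (nat_lit 107180777) (nat_lit 25432) (nat_lit 2070163510),Row.mk (nat_lit 25200) (nat_lit 18887) (nat_lit 144536261) (nat_lit 25245) (nat_lit 3286330160) (nat_lit 25432) (nat_lit 1934124),Row.mk (nat_lit 25368) (nat_lit 25058) (nat_lit 3391095262) (nat_lit 25245) (nat_lit 157429105) (nat_lit 31603) (nat_lit 560752302),Row.mk (nat_lit 25536) (nat_lit 24871) (nat_lit 3341422044) (nat_lit 25058) (nat_lit 207102324) (nat_lit 31416) (nat_lit 1405654661),Row.mk (nat_lit 25704) (nat_lit 24684) (nat_lit 3279381392) (nat_lit 24871) (nat_lit 269142976) (nat_lit 31229) (nat_lit 2460917325),Row.mk (nat_lit 25872) (nat_lit 24497) (nat_lit 3201894114) (nat_lit 24684) (nat_lit 346630253) (nat_lit 31042) (nat_lit 3778914936),Row.mk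 (nat_lit 26040) (nat_lit 24310) (nat_lit 3105114374) (nat_lit 24497) (nat_lit 443409993) (nat_lit 30855) (nat_lit 5425062157),Row.mk (nat_lit 26208) (nat_lit 24123) (nat_lit 2984238814) (nat_lit 24310) (nat_lit 564285554) (nat_lit 30668) (nat_lit 7481060324),Row.mk (nat_lit 26376) (nat_lit 23936) (nat_lit 2833268154) (nat_lit 24123) (nat_lit 715256213) (nat_lit 30481) (nat_lit 10048952437),Row.mk (nat_lit 26544) (nat_lit 23749) (nat_lit 2644709443) (nat_lit 23936) (nat_lit 903814925) (nat_lit 30294) (nat_lit 13256187738),Row.mk (nat_lit 26712) (nat_lit 23562) (nat_lit 2409204161) (nat_lit 23749) (nat_lit 1139320207) (nat_lit 30107) (nat_lit 17261947259),Row.mk (nat_lit 26880) (nat_lit 23375) (nat_lit 2115063745) (nat_lit 23562) (nat_lit 1433460622) (nat_lit 29920) (nat_lit 22265044266),Row.mk (nat_lit 27048) (nat_lit 23188) (nat_lit 1747689461) (nat_lit 23375) (nat_lit 1800834906) (nat_lit 29733) (nat_lit 28513791734),Row.mk (nat_lit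 27216) (nat_lit 23001) (nat_lit 1288847844) (nat_lit 23188) (nat_lit 2259676524) (nat_lit 29546) (nat_lit 36318326578),Row.mk (nat_lit 27384) (nat_lit 22814) (nat_lit 715765732) (nat_lit 23001) (nat_lit 2832758635) (nat_lit 29359) (nat_lit 46066002323),Row.mk (nat_lit 27552) (nat_lit 22814) (nat_lit 3548524368) (nat_lit 29172) (nat_lit 58240614178) (nat_lit 0) (nat_lit 0),Row.mk (nat_lit 27720) (nat_lit 22627) (nat_lit 3548524368) (nat_lit 28985) (nat_lit 72730644955) (nat_lit 29172) (nat_lit 715765732),Row.mk (nat_lit 27888) (nat_lit 22440) (nat_lit 3548524368) (nat_lit 28798) (nat_lit 90828343839) (nat_lit 28985) (nat_lit 1609739865),Row.mk (nat_lit 28056) (nat_lit 22253) (nat_lit 3548524368) (nat_lit 28611) (nat_lit 113431933161) (nat_lit 28798) (nat_lit 2726291991),Row.mk (nat_lit 28224) (nat_lit 22066) (nat_lit 3548524368) (nat_lit 28424) (nat_lit 141663270940) (nat_lit 28611) (nat_lit 4120838660),Row.mk (nat_lit 28392) (nat_lit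 21879) (nat_lit 3548524368) (nat_lit 28237) (nat_lit 176923530778) (nat_lit 28424) (nat_lit 5862593809),Row.mk (nat_lit 28560) (nat_lit 21692) (nat_lit 3548524368) (nat_lit 28050) (nat_lit 220962744704) (nat_lit 28237) (nat_lit 8038003972),Row.mk (nat_lit 28728) (nat_lit 21505) (nat_lit 3548524368) (nat_lit 27863) (nat_lit 275966660504) (nat_lit 28050) (nat_lit 10755038787),Row.mk (nat_lit 28896) (nat_lit 21318) (nat_lit 3548524368) (nat_lit 27676) (nat_lit 344665224434) (nat_lit 27863) (nat_lit 14148549725),Row.mk (nat_lit 29064) (nat_lit 21131) (nat_lit 3548524368) (nat_lit 27489) (nat_lit 430468073513) (nat_lit 27676) (nat_lit 18386963022),Row.mk (nat_lit 29232) (nat_lit 20944) (nat_lit 3548524368) (nat_lit 27302) (nat_lit 537633762121) (nat_lit 27489) (nat_lit 23680638983),Row.mk (nat_lit 29400) (nat_lit 32912) (nat_lit 724154340) (nat_lit 62084) (nat_lit 703890427407) (nat_lit 0) (nat_lit 0),Row.mk (nat_lit 29568) (nat_lit 32912)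 (nat_lit 724154340) (nat_lit 62084) (nat_lit 879320371717) (nat_lit 0) (nat_lit 0),Row.mk (nat_lit 29736) (nat_lit 32912) (nat_lit 724154340) (nat_lit 62084) (nat_lit 1098428140121) (nat_lit 0) (nat_lit 0),Row.mk (nat_lit 29904) (nat_lit 32912) (nat_lit 724154340) (nat_lit 62084) (nat_lit 1372088457146) (nat_lit 0) (nat_lit 0),Row.mk (nat_lit 30072) (nat_lit 32912) (nat_lit 724154340) (nat_lit 62084) (nat_lit 1713883591381) (nat_lit 0) (nat_lit 0),Row.mk (nat_lit 30240) (nat_lit 32912) (nat_lit 724154340) (nat_lit 62084) (nat_lit 2140777468641) (nat_lit 0) (nat_lit 0),Row.mk (nat_lit 30408) (nat_lit 32912) (nat_lit 724154340) (nat_lit 62084) (nat_lit 2673957623035) (nat_lit 0) (nat_lit 0),Row.mk (nat_lit 30576) (nat_lit 32912) (nat_lit 724154340) (nat_lit 62084) (nat_lit 3339886773539) (nat_lit 0) (nat_lit 0),Row.mk (nat_lit 30744) (nat_lit 32912) (nat_lit 724154340) (nat_lit 62084) (nat_lit 4171616217772) (nat_lit 0) (nat_lit 0),Row.mk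 (nat_lit 30912) (nat_lit 32912) (nat_lit 724154340) (nat_lit 62084) (nat_lit 5210426229141) (nat_lit 0) (nat_lit 0),Row.mk (nat_lit 31080) (nat_lit 32912) (nat_lit 724154340) (nat_lit 62084) (nat_lit 6507874873290) (nat_lit 0) (nat_lit 0)],
[Row.mk (nat_lit 9744) (nat_lit 5236) (nat_lit 860281697) (nat_lit 5423) (nat_lit 33690930) (nat_lit 5984) (nat_lit 1508),Row.mk (nat_lit 9912) (nat_lit 5236) (nat_lit 860281702) (nat_lit 5423) (nat_lit 33690551) (nat_lit 5984) (nat_lit 1883),Row.mk (nat_lit 10080) (nat_lit 5236) (nat_lit 860281707) (nat_lit 5423) (nat_lit 33690077) (nat_lit 5984) (nat_lit 2352),Row.mk (nat_lit 10248) (nat_lit 5236) (nat_lit 860281714) (nat_lit 5423) (nat_lit 33689486) (nat_lit 5984) (nat_lit 2938),Row.mk (nat_lit 10416) (nat_lit 5236) (nat_lit 860281723) (nat_lit 5423) (nat_lit 33688747) (nat_lit 5984) (nat_lit 3670),Row.mk (nat_lit 10584) (nat_lit 5236) (nat_lit 860281734) (nat_lit 5423) (nat_lit 33687825) (nat_lit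 5984) (nat_lit 4584),Row.mk (nat_lit 10752) (nat_lit 5236) (nat_lit 860281747) (nat_lit 5423) (nat_lit 33686673) (nat_lit 5984) (nat_lit 5725),Row.mk (nat_lit 10920) (nat_lit 5236) (nat_lit 860281764) (nat_lit 5423) (nat_lit 33685233) (nat_lit 5984) (nat_lit 7151),Row.mk (nat_lit 11088) (nat_lit 5236) (nat_lit 860281785) (nat_lit 5423) (nat_lit 33683436) (nat_lit 5984) (nat_lit 8931),Row.mk (nat_lit 11256) (nat_lit 5236) (nat_lit 860281811) (nat_lit 5423) (nat_lit 33681191) (nat_lit 5984) (nat_lit 11155),Row.mk (nat_lit 11424) (nat_lit 5236) (nat_lit 860281844) (nat_lit 5423) (nat_lit 33678387) (nat_lit 5984) (nat_lit 13933),Row.mk (nat_lit 11592) (nat_lit 5236) (nat_lit 860281885) (nat_lit 5423) (nat_lit 33674886) (nat_lit 5984) (nat_lit 17402),Row.mk (nat_lit 11760) (nat_lit 5236) (nat_lit 860281937) (nat_lit 5423) (nat_lit 33670512) (nat_lit 5984) (nat_lit 21734),Row.mk (nat_lit 11928) (nat_lit 5236) (nat_lit 860282001) (nat_lit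 5423) (nat_lit 33665049) (nat_lit 5984) (nat_lit 27146),Row.mk (nat_lit 12096) (nat_lit 5236) (nat_lit 860282081) (nat_lit 5423) (nat_lit 33658226) (nat_lit 5984) (nat_lit 33904),Row.mk (nat_lit 12264) (nat_lit 5236) (nat_lit 860282180) (nat_lit 5423) (nat_lit 33649705) (nat_lit 5984) (nat_lit 42346),Row.mk (nat_lit 12432) (nat_lit 5236) (nat_lit 860282305) (nat_lit 5423) (nat_lit 33639062) (nat_lit 5984) (nat_lit 52889),Row.mk (nat_lit 12600) (nat_lit 5236) (nat_lit 860282461) (nat_lit 5423) (nat_lit 33625769) (nat_lit 5984) (nat_lit 66057),Row.mk (nat_lit 12768) (nat_lit 5236) (nat_lit 860282655) (nat_lit 5423) (nat_lit 33609166) (nat_lit 5984) (nat_lit 82504),Row.mk (nat_lit 12936) (nat_lit 5236) (nat_lit 860282899) (nat_lit 5423) (nat_lit 33588430) (nat_lit 5984) (nat_lit 103046),Row.mk (nat_lit 13104) (nat_lit 5236) (nat_lit 860283202) (nat_lit 5423) (nat_lit 33562531) (nat_lit 5984) (nat_lit 128702),Row.mk (nat_lit 13272) (nat_lit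 5236) (nat_lit 860283581) (nat_lit 5423) (nat_lit 33530184) (nat_lit 5984) (nat_lit 160746),Row.mk (nat_lit 13440) (nat_lit 5236) (nat_lit 860284055) (nat_lit 5423) (nat_lit 33489782) (nat_lit 5984) (nat_lit 200768),Row.mk (nat_lit 13608) (nat_lit 5236) (nat_lit 860284646) (nat_lit 5423) (nat_lit 33439323) (nat_lit 5984) (nat_lit 250754),Row.mk (nat_lit 13776) (nat_lit 5236) (nat_lit 860285385) (nat_lit 5423) (nat_lit 33376299) (nat_lit 5984) (nat_lit 313186),Row.mk (nat_lit 13944) (nat_lit 5236) (nat_lit 860286307) (nat_lit 5423) (nat_lit 33297585) (nat_lit 5984) (nat_lit 391162),Row.mk (nat_lit 14112) (nat_lit 5236) (nat_lit 860287459) (nat_lit 5423) (nat_lit 33199272) (nat_lit 5984) (nat_lit 488552),Row.mk (nat_lit 14280) (nat_lit 5236) (nat_lit 860288898) (nat_lit 5423) (nat_lit 33076482) (nat_lit 5984) (nat_lit 610190),Row.mk (nat_lit 14448) (nat_lit 5236) (nat_lit 860290696) (nat_lit 5423) (nat_lit 32923121) (nat_lit 5984) (nat_lit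 762112),Row.mk (nat_lit 14616) (nat_lit 5236) (nat_lit 860292941) (nat_lit 5423) (nat_lit 32731575) (nat_lit 5984) (nat_lit 951860),Row.mk (nat_lit 14784) (nat_lit 5236) (nat_lit 860295744) (nat_lit 5423) (nat_lit 32492340) (nat_lit 5984) (nat_lit 1188851),Row.mk (nat_lit 14952) (nat_lit 5236) (nat_lit 860299246) (nat_lit 5423) (nat_lit 32193541) (nat_lit 5984) (nat_lit 1484846),Row.mk (nat_lit 15120) (nat_lit 5236) (nat_lit 860303620) (nat_lit 5423) (nat_lit 31820348) (nat_lit 5984) (nat_lit 1854537),Row.mk (nat_lit 15288) (nat_lit 5236) (nat_lit 860309083) (nat_lit 5423) (nat_lit 31354240) (nat_lit 5984) (nat_lit 2316272),Row.mk (nat_lit 15456) (nat_lit 5236) (nat_lit 860315905) (nat_lit 5423) (nat_lit 30772081) (nat_lit 5984) (nat_lit 2892968),Row.mk (nat_lit 15624) (nat_lit 5236) (nat_lit 860324427) (nat_lit 5423) (nat_lit 30044979) (nat_lit 5984) (nat_lit 3613247),Row.mk (nat_lit 15792) (nat_lit 5236) (nat_lit 860335070) (nat_lit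 5423) (nat_lit 29136846) (nat_lit 5984) (nat_lit 4512858),Row.mk (nat_lit 15960) (nat_lit 5236) (nat_lit 860348363) (nat_lit 5423) (nat_lit 28002610) (nat_lit 5984) (nat_lit 5636451),Row.mk (nat_lit 16128) (nat_lit 5236) (nat_lit 860364966) (nat_lit 5423) (nat_lit 26585977) (nat_lit 5984) (nat_lit 7039792),Row.mk (nat_lit 16296) (nat_lit 5236) (nat_lit 860385702) (nat_lit 5423) (nat_lit 24816636) (nat_lit 5984) (nat_lit 8792530),Row.mk (nat_lit 16464) (nat_lit 5236) (nat_lit 860411601) (nat_lit 5423) (nat_lit 22606771) (nat_lit 5984) (nat_lit 10981658),Row.mk (nat_lit 16632) (nat_lit 5236) (nat_lit 860443948) (nat_lit 5423) (nat_lit 19846704) (nat_lit 5984) (nat_lit 13715826),Row.mk (nat_lit 16800) (nat_lit 5236) (nat_lit 860484349) (nat_lit 5423) (nat_lit 16399447) (nat_lit 5984) (nat_lit 17130736),Row.mk (nat_lit 16968) (nat_lit 5236) (nat_lit 860534809) (nat_lit 5423) (nat_lit 12093906) (nat_lit 5984) (nat_lit 21395876),Row.mk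 (nat_lit 17136) (nat_lit 5236) (nat_lit 860597833) (nat_lit 5423) (nat_lit 6716389) (nat_lit 5984) (nat_lit 26722933),Row.mk (nat_lit 17304) (nat_lit 5236) (nat_lit 860676547) (nat_lit 5984) (nat_lit 33376299) (nat_lit 0) (nat_lit 0),Row.mk (nat_lit 17472) (nat_lit 5236) (nat_lit 852386252) (nat_lit 5797) (nat_lit 8388608) (nat_lit 5984) (nat_lit 33297585),Row.mk (nat_lit 17640) (nat_lit 5236) (nat_lit 842031873) (nat_lit 5797) (nat_lit 18865777) (nat_lit 5984) (nat_lit 33199272),Row.mk (nat_lit 17808) (nat_lit 5236) (nat_lit 829099503) (nat_lit 5797) (nat_lit 31951508) (nat_lit 5984) (nat_lit 33076482),Row.mk (nat_lit 17976) (nat_lit 5236) (nat_lit 812947285) (nat_lit 5797) (nat_lit 48295271) (nat_lit 5984) (nat_lit 32923121),Row.mk (nat_lit 18144) (nat_lit 5236) (nat_lit 792773555) (nat_lit 5797) (nat_lit 68708236) (nat_lit 5984) (nat_lit 32731575),Row.mk (nat_lit 18312) (nat_lit 5236) (nat_lit 767577053) (nat_lit 5797) (nat_lit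 94203538) (nat_lit 5984) (nat_lit 32492340),Row.mk (nat_lit 18480) (nat_lit 5236) (nat_lit 736107229) (nat_lit 5797) (nat_lit 126046554) (nat_lit 5984) (nat_lit 32193541),Row.mk (nat_lit 18648) (nat_lit 5236) (nat_lit 696802178) (nat_lit 5797) (nat_lit 165817713) (nat_lit 5984) (nat_lit 31820348),Row.mk (nat_lit 18816) (nat_lit 5236) (nat_lit 647711118) (nat_lit 5797) (nat_lit 215490932) (nat_lit 5984) (nat_lit 31354240),Row.mk (nat_lit 18984) (nat_lit 5236) (nat_lit 586397569) (nat_lit 5797) (nat_lit 277531584) (nat_lit 5984) (nat_lit 30772081),Row.mk (nat_lit 19152) (nat_lit 5236) (nat_lit 509818424) (nat_lit 5797) (nat_lit 355018861) (nat_lit 5984) (nat_lit 30044979),Row.mk (nat_lit 19320) (nat_lit 5236) (nat_lit 414172920) (nat_lit 5797) (nat_lit 451798601) (nat_lit 5984) (nat_lit 29136846),Row.mk (nat_lit 19488) (nat_lit 5236) (nat_lit 294713993) (nat_lit 5797) (nat_lit 572674162) (nat_lit 5984) (nat_lit 28002610),Row.mk (nat_lit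 19656) (nat_lit 5236) (nat_lit 145512675) (nat_lit 5797) (nat_lit 723644821) (nat_lit 5984) (nat_lit 26585977),Row.mk (nat_lit 19824) (nat_lit 5797) (nat_lit 863488271) (nat_lit 6358) (nat_lit 7879089) (nat_lit 6545) (nat_lit 24816636),Row.mk (nat_lit 19992) (nat_lit 5797) (nat_lit 677689627) (nat_lit 6358) (nat_lit 196437800) (nat_lit 6545) (nat_lit 22606771),Row.mk (nat_lit 20160) (nat_lit 5797) (nat_lit 445631602) (nat_lit 6358) (nat_lit 431943082) (nat_lit 6545) (nat_lit 19846704),Row.mk (nat_lit 20328) (nat_lit 5797) (nat_lit 155796728) (nat_lit 6358) (nat_lit 726083498) (nat_lit 6545) (nat_lit 16399447),Row.mk (nat_lit 20496) (nat_lit 6358) (nat_lit 734256356) (nat_lit 6919) (nat_lit 153001386) (nat_lit 7106) (nat_lit 12093906),Row.mk (nat_lit 20664) (nat_lit 6358) (nat_lit 373598462) (nat_lit 6919) (nat_lit 520375670) (nat_lit 7106) (nat_lit 6716389),Row.mk (nat_lit 20832) (nat_lit 6919) (nat_lit 840828688) (nat_lit 7480) (nat_lit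 61534052) (nat_lit 0) (nat_lit 0),Row.mk (nat_lit 21000) (nat_lit 6732) (nat_lit 10477169) (nat_lit 6919) (nat_lit 381987070) (nat_lit 7480) (nat_lit 511987062),Row.mk (nat_lit 21168) (nat_lit 7293) (nat_lit 23562900) (nat_lit 7480) (nat_lit 749361353) (nat_lit 8041) (nat_lit 134135609),Row.mk (nat_lit 21336) (nat_lit 7293) (nat_lit 39906663) (nat_lit 7480) (nat_lit 176279242) (nat_lit 8041) (nat_lit 694131990),Row.mk (nat_lit 21504) (nat_lit 7854) (nat_lit 60319628) (nat_lit 8041) (nat_lit 470419658) (nat_lit 8602) (nat_lit 383647811),Row.mk (nat_lit 21672) (nat_lit 8415) (nat_lit 85814930) (nat_lit 8602) (nat_lit 705924940) (nat_lit 9163) (nat_lit 127729564),Row.mk (nat_lit 21840) (nat_lit 8415) (nat_lit 107817154) (nat_lit 8976) (nat_lit 9840792) (nat_lit 9163) (nat_lit 808159202),Row.mk (nat_lit 22008) (nat_lit 8976) (nat_lit 157429105) (nat_lit 9163) (nat_lit 178717919) (nat_lit 9724) (nat_lit 597598267),Row.mk (nat_lit 22176)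 (nat_lit 9537) (nat_lit 207102324) (nat_lit 9724) (nat_lit 329688578) (nat_lit 10285) (nat_lit 406856448),Row.mk (nat_lit 22344) (nat_lit 10098) (nat_lit 269142976) (nat_lit 10285) (nat_lit 450564139) (nat_lit 10846) (nat_lit 236307669),Row.mk (nat_lit 22512) (nat_lit 10659) (nat_lit 346630253) (nat_lit 10846) (nat_lit 547343879) (nat_lit 11407) (nat_lit 77487277),Row.mk (nat_lit 22680) (nat_lit 10659) (nat_lit 96779740) (nat_lit 11220) (nat_lit 346630253) (nat_lit 11407) (nat_lit 547343879),Row.mk (nat_lit 22848) (nat_lit 11220) (nat_lit 295142578) (nat_lit 11781) (nat_lit 269142976) (nat_lit 11968) (nat_lit 450564139),Row.mk (nat_lit 23016) (nat_lit 11781) (nat_lit 508153889) (nat_lit 12529) (nat_lit 207102324) (nat_lit 12716) (nat_lit 329688578),Row.mk (nat_lit 23184) (nat_lit 12529) (nat_lit 746385819) (nat_lit 13277) (nat_lit 157429105) (nat_lit 13464) (nat_lit 178717919),Row.mk (nat_lit 23352) (nat_lit 13090) (nat_lit 12290912)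 (nat_lit 13277) (nat_lit 1009371348) (nat_lit 14025) (nat_lit 107817154),Row.mk (nat_lit 23520) (nat_lit 13090) (nat_lit 199250550) (nat_lit 13838) (nat_lit 107180777) (nat_lit 14025) (nat_lit 881683220),Row.mk (nat_lit 23688) (nat_lit 13838) (nat_lit 598467850) (nat_lit 14960) (nat_lit 75337761) (nat_lit 15147) (nat_lit 587542804),Row.mk (nat_lit 23856) (nat_lit 14960) (nat_lit 1082804769) (nat_lit 16269) (nat_lit 49842459) (nat_lit 16456) (nat_lit 220168521),Row.mk (nat_lit 24024) (nat_lit 14773) (nat_lit 261340211) (nat_lit 16082) (nat_lit 36756728) (nat_lit 16269) (nat_lit 1168959304),Row.mk (nat_lit 24192) (nat_lit 16082) (nat_lit 997518909) (nat_lit 17578) (nat_lit 16343762) (nat_lit 17765) (nat_lit 595877192),Row.mk (nat_lit 24360) (nat_lit 15895) (nat_lit 149737893) (nat_lit 17578) (nat_lit 1638210371) (nat_lit 0) (nat_lit 0),Row.mk (nat_lit 24528) (nat_lit 17391) (nat_lit 1266290019) (nat_lit 17578) (nat_lit 16343762) (nat_lit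 19635) (nat_lit 727892476),Row.mk (nat_lit 24696) (nat_lit 17204) (nat_lit 465013560) (nat_lit 17391) (nat_lit 36756728) (nat_lit 19448) (nat_lit 1786750513),Row.mk (nat_lit 24864) (nat_lit 19261) (nat_lit 2206768709) (nat_lit 19448) (nat_lit 49842459) (nat_lit 25806) (nat_lit 379118112),Row.mk (nat_lit 25032) (nat_lit 19074) (nat_lit 1639648756) (nat_lit 19261) (nat_lit 75337761) (nat_lit 25619) (nat_lit 1354397778),Row.mk (nat_lit 25200) (nat_lit 18887) (nat_lit 931329616) (nat_lit 19074) (nat_lit 107180777) (nat_lit 25432) (nat_lit 2572498553),Row.mk (nat_lit 25368) (nat_lit 18700) (nat_lit 46656098) (nat_lit 18887) (nat_lit 146951936) (nat_lit 25245) (nat_lit 4093877035),Row.mk (nat_lit 25536) (nat_lit 25058) (nat_lit 4285069395) (nat_lit 25245) (nat_lit 157429105) (nat_lit 31603) (nat_lit 689888928),Row.mk (nat_lit 25704) (nat_lit 24871) (nat_lit 4235396176) (nat_lit 25058) (nat_lit 207102324) (nat_lit 31416) (nat_lit 1745151593),Row.mk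 (nat_lit 25872) (nat_lit 24684) (nat_lit 4173355525) (nat_lit 24871) (nat_lit 269142976) (nat_lit 31229) (nat_lit 3063149203),Row.mk (nat_lit 26040) (nat_lit 24497) (nat_lit 4095868247) (nat_lit 24684) (nat_lit 346630253) (nat_lit 31042) (nat_lit 4709296424),Row.mk (nat_lit 26208) (nat_lit 24310) (nat_lit 3999088507) (nat_lit 24497) (nat_lit 443409993) (nat_lit 30855) (nat_lit 6765294592),Row.mk (nat_lit 26376) (nat_lit 24123) (nat_lit 3878212947) (nat_lit 24310) (nat_lit 564285554) (nat_lit 30668) (nat_lit 9333186704),Row.mk (nat_lit 26544) (nat_lit 23936) (nat_lit 3727242287) (nat_lit 24123) (nat_lit 715256213) (nat_lit 30481) (nat_lit 12540422006),Row.mk (nat_lit 26712) (nat_lit 23749) (nat_lit 3538683576) (nat_lit 23936) (nat_lit 903814925) (nat_lit 30294) (nat_lit 16546181526),Row.mk (nat_lit 26880) (nat_lit 23562) (nat_lit 3303178294) (nat_lit 23749) (nat_lit 1139320207) (nat_lit 30107) (nat_lit 21549278533),Row.mk (nat_lit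 27048) (nat_lit 23375) (nat_lit 3009037878) (nat_lit 23562) (nat_lit 1433460622) (nat_lit 29920) (nat_lit 27798026002),Row.mk (nat_lit 27216) (nat_lit 23188) (nat_lit 2641663594) (nat_lit 23375) (nat_lit 1800834906) (nat_lit 29733) (nat_lit 35602560846),Row.mk (nat_lit 27384) (nat_lit 23001) (nat_lit 2182821976) (nat_lit 23188) (nat_lit 2259676524) (nat_lit 29546) (nat_lit 45350236591),Row.mk (nat_lit 27552) (nat_lit 22814) (nat_lit 1609739865) (nat_lit 23001) (nat_lit 2832758635) (nat_lit 29359) (nat_lit 57524848446),Row.mk (nat_lit 27720) (nat_lit 22627) (nat_lit 893974132) (nat_lit 22814) (nat_lit 3548524368) (nat_lit 29172) (nat_lit 72730644955),Row.mk (nat_lit 27888) (nat_lit 22627) (nat_lit 4442498501) (nat_lit 28985) (nat_lit 91722317972) (nat_lit 0) (nat_lit 0),Row.mk (nat_lit 28056) (nat_lit 22440) (nat_lit 4442498501) (nat_lit 28798) (nat_lit 114548485287) (nat_lit 28985) (nat_lit 893974132),Row.mk (nat_lit 28224) (nat_lit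 22253) (nat_lit 4442498501) (nat_lit 28611) (nat_lit 143057817609) (nat_lit 28798) (nat_lit 2010526258),Row.mk (nat_lit 28392) (nat_lit 22066) (nat_lit 4442498501) (nat_lit 28424) (nat_lit 178665285926) (nat_lit 28611) (nat_lit 3405072928),Row.mk (nat_lit 28560) (nat_lit 21879) (nat_lit 4442498501) (nat_lit 28237) (nat_lit 223138154867) (nat_lit 28424) (nat_lit 5146828077),Row.mk (nat_lit 28728) (nat_lit 21692) (nat_lit 4442498501) (nat_lit 28050) (nat_lit 278683695318) (nat_lit 28237) (nat_lit 7322238240),Row.mk (nat_lit 28896) (nat_lit 21505) (nat_lit 4442498501) (nat_lit 27863) (nat_lit 348058735372) (nat_lit 28050) (nat_lit 10039273054),Row.mk (nat_lit 29064) (nat_lit 21318) (nat_lit 4442498501) (nat_lit 27676) (nat_lit 434706486810) (nat_lit 27863) (nat_lit 13432783992),Row.mk (nat_lit 29232) (nat_lit 21131) (nat_lit 4442498501) (nat_lit 27489) (nat_lit 542927438082) (nat_lit 27676) (nat_lit 17671197289),Row.mk (nat_lit 29400)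 (nat_lit 20944) (nat_lit 4442498501) (nat_lit 27302) (nat_lit 678092795520) (nat_lit 27489) (nat_lit 22964873251),Row.mk (nat_lit 29568) (nat_lit 32912) (nat_lit 902362740) (nat_lit 62084) (nat_lit 879142163316) (nat_lit 0) (nat_lit 0),Row.mk (nat_lit 29736) (nat_lit 32912) (nat_lit 902362740) (nat_lit 62084) (nat_lit 1098249931721) (nat_lit 0) (nat_lit 0),Row.mk (nat_lit 29904) (nat_lit 32912) (nat_lit 902362740) (nat_lit 62084) (nat_lit 1371910248745) (nat_lit 0) (nat_lit 0),Row.mk (nat_lit 30072) (nat_lit 32912) (nat_lit 902362740) (nat_lit 62084) (nat_lit 1713705382981) (nat_lit 0) (nat_lit 0),Row.mk (nat_lit 30240) (nat_lit 32912) (nat_lit 902362740) (nat_lit 62084) (nat_lit 2140599260241) (nat_lit 0) (nat_lit 0),Row.mk (nat_lit 30408) (nat_lit 32912) (nat_lit 902362740) (nat_lit 62084) (nat_lit 2673779414635) (nat_lit 0) (nat_lit 0),Row.mk (nat_lit 30576) (nat_lit 32912) (nat_lit 902362740) (nat_lit 62084) (nat_lit 3339708565138)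 (nat_lit 0) (nat_lit 0),Row.mk (nat_lit 30744) (nat_lit 32912) (nat_lit 902362740) (nat_lit 62084) (nat_lit 4171438009372) (nat_lit 0) (nat_lit 0),Row.mk (nat_lit 30912) (nat_lit 32912) (nat_lit 902362740) (nat_lit 62084) (nat_lit 5210248020741) (nat_lit 0) (nat_lit 0),Row.mk (nat_lit 31080) (nat_lit 32912) (nat_lit 902362740) (nat_lit 62084) (nat_lit 6507696664890) (nat_lit 0) (nat_lit 0)],
[Row.mk (nat_lit 9912) (nat_lit 4675) (nat_lit 1082859695) (nat_lit 4862) (nat_lit 33690077) (nat_lit 5423) (nat_lit 2357),Row.mk (nat_lit 10080) (nat_lit 4675) (nat_lit 1082859700) (nat_lit 4862) (nat_lit 33689486) (nat_lit 5423) (nat_lit 2944),Row.mk (nat_lit 10248) (nat_lit 4675) (nat_lit 1082859707) (nat_lit 4862) (nat_lit 33688747) (nat_lit 5423) (nat_lit 3677),Row.mk (nat_lit 10416) (nat_lit 4675) (nat_lit 1082859716) (nat_lit 4862) (nat_lit 33687825) (nat_lit 5423) (nat_lit 4592),Row.mk (nat_lit 10584) (nat_lit 4675) (nat_lit 1082859727)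 (nat_lit 4862) (nat_lit 33686673) (nat_lit 5423) (nat_lit 5736),Row.mk (nat_lit 10752) (nat_lit 4675) (nat_lit 1082859740) (nat_lit 4862) (nat_lit 33685233) (nat_lit 5423) (nat_lit 7164),Row.mk (nat_lit 10920) (nat_lit 4675) (nat_lit 1082859757) (nat_lit 4862) (nat_lit 33683436) (nat_lit 5423) (nat_lit 8948),Row.mk (nat_lit 11088) (nat_lit 4675) (nat_lit 1082859778) (nat_lit 4862) (nat_lit 33681191) (nat_lit 5423) (nat_lit 11176),Row.mk (nat_lit 11256) (nat_lit 4675) (nat_lit 1082859804) (nat_lit 4862) (nat_lit 33678387) (nat_lit 5423) (nat_lit 13959),Row.mk (nat_lit 11424) (nat_lit 4675) (nat_lit 1082859837) (nat_lit 4862) (nat_lit 33674886) (nat_lit 5423) (nat_lit 17434),Row.mk (nat_lit 11592) (nat_lit 4675) (nat_lit 1082859878) (nat_lit 4862) (nat_lit 33670512) (nat_lit 5423) (nat_lit 21775),Row.mk (nat_lit 11760) (nat_lit 4675) (nat_lit 1082859930) (nat_lit 4862) (nat_lit 33665049) (nat_lit 5423) (nat_lit 27197),Row.mk (nat_lit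 11928) (nat_lit 4675) (nat_lit 1082859994) (nat_lit 4862) (nat_lit 33658226) (nat_lit 5423) (nat_lit 33968),Row.mk (nat_lit 12096) (nat_lit 4675) (nat_lit 1082860074) (nat_lit 4862) (nat_lit 33649705) (nat_lit 5423) (nat_lit 42426),Row.mk (nat_lit 12264) (nat_lit 4675) (nat_lit 1082860173) (nat_lit 4862) (nat_lit 33639062) (nat_lit 5423) (nat_lit 52989),Row.mk (nat_lit 12432) (nat_lit 4675) (nat_lit 1082860298) (nat_lit 4862) (nat_lit 33625769) (nat_lit 5423) (nat_lit 66182),Row.mk (nat_lit 12600) (nat_lit 4675) (nat_lit 1082860454) (nat_lit 4862) (nat_lit 33609166) (nat_lit 5423) (nat_lit 82660),Row.mk (nat_lit 12768) (nat_lit 4675) (nat_lit 1082860649) (nat_lit 4862) (nat_lit 33588430) (nat_lit 5423) (nat_lit 103240),Row.mk (nat_lit 12936) (nat_lit 4675) (nat_lit 1082860892) (nat_lit 4862) (nat_lit 33562531) (nat_lit 5423) (nat_lit 128945),Row.mk (nat_lit 13104) (nat_lit 4675) (nat_lit 1082861195) (nat_lit 4862) (nat_lit 33530184)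 (nat_lit 5423) (nat_lit 161049),Row.mk (nat_lit 13272) (nat_lit 4675) (nat_lit 1082861574) (nat_lit 4862) (nat_lit 33489782) (nat_lit 5423) (nat_lit 201147),Row.mk (nat_lit 13440) (nat_lit 4675) (nat_lit 1082862048) (nat_lit 4862) (nat_lit 33439323) (nat_lit 5423) (nat_lit 251228),Row.mk (nat_lit 13608) (nat_lit 4675) (nat_lit 1082862639) (nat_lit 4862) (nat_lit 33376299) (nat_lit 5423) (nat_lit 313777),Row.mk (nat_lit 13776) (nat_lit 4675) (nat_lit 1082863378) (nat_lit 4862) (nat_lit 33297585) (nat_lit 5423) (nat_lit 391901),Row.mk (nat_lit 13944) (nat_lit 4675) (nat_lit 1082864300) (nat_lit 4862) (nat_lit 33199272) (nat_lit 5423) (nat_lit 489475),Row.mk (nat_lit 14112) (nat_lit 4675) (nat_lit 1082865452) (nat_lit 4862) (nat_lit 33076482) (nat_lit 5423) (nat_lit 611342),Row.mk (nat_lit 14280) (nat_lit 4675) (nat_lit 1082866891) (nat_lit 4862) (nat_lit 32923121) (nat_lit 5423) (nat_lit 763552),Row.mk (nat_lit 14448) (nat_lit 4675)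 (nat_lit 1082868689) (nat_lit 4862) (nat_lit 32731575) (nat_lit 5423) (nat_lit 953658),Row.mk (nat_lit 14616) (nat_lit 4675) (nat_lit 1082870934) (nat_lit 4862) (nat_lit 32492340) (nat_lit 5423) (nat_lit 1191095),Row.mk (nat_lit 14784) (nat_lit 4675) (nat_lit 1082873737) (nat_lit 4862) (nat_lit 32193541) (nat_lit 5423) (nat_lit 1487650),Row.mk (nat_lit 14952) (nat_lit 4675) (nat_lit 1082877239) (nat_lit 4862) (nat_lit 31820348) (nat_lit 5423) (nat_lit 1858038),Row.mk (nat_lit 15120) (nat_lit 4675) (nat_lit 1082881613) (nat_lit 4862) (nat_lit 31354240) (nat_lit 5423) (nat_lit 2320645),Row.mk (nat_lit 15288) (nat_lit 4675) (nat_lit 1082887076) (nat_lit 4862) (nat_lit 30772081) (nat_lit 5423) (nat_lit 2898430),Row.mk (nat_lit 15456) (nat_lit 4675) (nat_lit 1082893898) (nat_lit 4862) (nat_lit 30044979) (nat_lit 5423) (nat_lit 3620070),Row.mk (nat_lit 15624) (nat_lit 4675) (nat_lit 1082902420) (nat_lit 4862) (nat_lit 29136846) (nat_lit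 5423) (nat_lit 4521380),Row.mk (nat_lit 15792) (nat_lit 4675) (nat_lit 1082913063) (nat_lit 4862) (nat_lit 28002610) (nat_lit 5423) (nat_lit 5647094),Row.mk (nat_lit 15960) (nat_lit 4675) (nat_lit 1082926356) (nat_lit 4862) (nat_lit 26585977) (nat_lit 5423) (nat_lit 7053085),Row.mk (nat_lit 16128) (nat_lit 4675) (nat_lit 1082942959) (nat_lit 4862) (nat_lit 24816636) (nat_lit 5423) (nat_lit 8809133),Row.mk (nat_lit 16296) (nat_lit 4675) (nat_lit 1082963695) (nat_lit 4862) (nat_lit 22606771) (nat_lit 5423) (nat_lit 11002394),Row.mk (nat_lit 16464) (nat_lit 4675) (nat_lit 1082989594) (nat_lit 4862) (nat_lit 19846704) (nat_lit 5423) (nat_lit 13741725),Row.mk (nat_lit 16632) (nat_lit 4675) (nat_lit 1083021941) (nat_lit 4862) (nat_lit 16399447) (nat_lit 5423) (nat_lit 17163083),Row.mk (nat_lit 16800) (nat_lit 4675) (nat_lit 1083062342) (nat_lit 4862) (nat_lit 12093906) (nat_lit 5423) (nat_lit 21436277),Row.mk (nat_lit 16968) (nat_lit 4675)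 (nat_lit 1083112802) (nat_lit 4862) (nat_lit 6716389) (nat_lit 5423) (nat_lit 26773393),Row.mk (nat_lit 17136) (nat_lit 4675) (nat_lit 1083175826) (nat_lit 5423) (nat_lit 33439323) (nat_lit 0) (nat_lit 0),Row.mk (nat_lit 17304) (nat_lit 4675) (nat_lit 1074865932) (nat_lit 5236) (nat_lit 8388608) (nat_lit 5423) (nat_lit 33376299),Row.mk (nat_lit 17472) (nat_lit 4675) (nat_lit 1064487076) (nat_lit 5236) (nat_lit 18865777) (nat_lit 5423) (nat_lit 33297585),Row.mk (nat_lit 17640) (nat_lit 4675) (nat_lit 1051524134) (nat_lit 5236) (nat_lit 31951508) (nat_lit 5423) (nat_lit 33199272),Row.mk (nat_lit 17808) (nat_lit 4675) (nat_lit 1035333733) (nat_lit 5236) (nat_lit 48295271) (nat_lit 5423) (nat_lit 33076482),Row.mk (nat_lit 17976) (nat_lit 4675) (nat_lit 1015112313) (nat_lit 5236) (nat_lit 68708236) (nat_lit 5423) (nat_lit 32923121),Row.mk (nat_lit 18144) (nat_lit 4675) (nat_lit 989856247) (nat_lit 5236) (nat_lit 94203538) (nat_lit 5423)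 (nat_lit 32731575),Row.mk (nat_lit 18312) (nat_lit 4675) (nat_lit 958312029) (nat_lit 5236) (nat_lit 126046554) (nat_lit 5423) (nat_lit 32492340),Row.mk (nat_lit 18480) (nat_lit 4675) (nat_lit 918914063) (nat_lit 5236) (nat_lit 165817713) (nat_lit 5423) (nat_lit 32193541),Row.mk (nat_lit 18648) (nat_lit 4675) (nat_lit 869706953) (nat_lit 5236) (nat_lit 215490932) (nat_lit 5423) (nat_lit 31820348),Row.mk (nat_lit 18816) (nat_lit 4675) (nat_lit 808248460) (nat_lit 5236) (nat_lit 277531584) (nat_lit 5423) (nat_lit 31354240),Row.mk (nat_lit 18984) (nat_lit 4675) (nat_lit 731488284) (nat_lit 5236) (nat_lit 355018861) (nat_lit 5423) (nat_lit 30772081),Row.mk (nat_lit 19152) (nat_lit 4675) (nat_lit 635616677) (nat_lit 5236) (nat_lit 451798601) (nat_lit 5423) (nat_lit 30044979),Row.mk (nat_lit 19320) (nat_lit 4675) (nat_lit 515875352) (nat_lit 5236) (nat_lit 572674162) (nat_lit 5423) (nat_lit 29136846),Row.mk (nat_lit 19488) (nat_lit 4675)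 (nat_lit 366321327) (nat_lit 5236) (nat_lit 723644821) (nat_lit 5423) (nat_lit 28002610),Row.mk (nat_lit 19656) (nat_lit 4675) (nat_lit 179531956) (nat_lit 5236) (nat_lit 912203533) (nat_lit 5423) (nat_lit 26585977),Row.mk (nat_lit 19824) (nat_lit 5236) (nat_lit 1075715953) (nat_lit 5797) (nat_lit 18229400) (nat_lit 5984) (nat_lit 24816636),Row.mk (nat_lit 19992) (nat_lit 5236) (nat_lit 842970738) (nat_lit 5797) (nat_lit 253734682) (nat_lit 5984) (nat_lit 22606771),Row.mk (nat_lit 20160) (nat_lit 5236) (nat_lit 552277580) (nat_lit 5797) (nat_lit 547875098) (nat_lit 5984) (nat_lit 19846704),Row.mk (nat_lit 20328) (nat_lit 5236) (nat_lit 189208837) (nat_lit 5797) (nat_lit 915249381) (nat_lit 5984) (nat_lit 16399447),Row.mk (nat_lit 20496) (nat_lit 5797) (nat_lit 910352087) (nat_lit 6358) (nat_lit 199483649) (nat_lit 6545) (nat_lit 12093906),Row.mk (nat_lit 20664) (nat_lit 5797) (nat_lit 458226858) (nat_lit 6358) (nat_lit 658325267)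 (nat_lit 6545) (nat_lit 6716389),Row.mk (nat_lit 20832) (nat_lit 6358) (nat_lit 1039697578) (nat_lit 6919) (nat_lit 85243155) (nat_lit 0) (nat_lit 0),Row.mk (nat_lit 21000) (nat_lit 6171) (nat_lit 10477169) (nat_lit 6358) (nat_lit 466615466) (nat_lit 6919) (nat_lit 649936659),Row.mk (nat_lit 21168) (nat_lit 6732) (nat_lit 23562900) (nat_lit 6919) (nat_lit 925457084) (nat_lit 7480) (nat_lit 180617872),Row.mk (nat_lit 21336) (nat_lit 6732) (nat_lit 39906663) (nat_lit 6919) (nat_lit 209691352) (nat_lit 7480) (nat_lit 883297873),Row.mk (nat_lit 21504) (nat_lit 7293) (nat_lit 60319628) (nat_lit 7480) (nat_lit 577065635) (nat_lit 8041) (nat_lit 499579826),Row.mk (nat_lit 21672) (nat_lit 7854) (nat_lit 85814930) (nat_lit 8041) (nat_lit 871206051) (nat_lit 8602) (nat_lit 185026445),Row.mk (nat_lit 21840) (nat_lit 7854) (nat_lit 94889865) (nat_lit 8415) (nat_lit 22768081) (nat_lit 8602) (nat_lit 1030737195),Row.mk (nat_lit 22008) (nat_lit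 8415) (nat_lit 157429105) (nat_lit 8602) (nat_lit 212737200) (nat_lit 9163) (nat_lit 786156978),Row.mk (nat_lit 22176) (nat_lit 8976) (nat_lit 207102324) (nat_lit 9163) (nat_lit 401295912) (nat_lit 9724) (nat_lit 557827107),Row.mk (nat_lit 22344) (nat_lit 9537) (nat_lit 269142976) (nat_lit 9724) (nat_lit 552266571) (nat_lit 10285) (nat_lit 357183229),Row.mk (nat_lit 22512) (nat_lit 10098) (nat_lit 346630253) (nat_lit 10285) (nat_lit 673142132) (nat_lit 10846) (nat_lit 174267017),Row.mk (nat_lit 22680) (nat_lit 10659) (nat_lit 443409993) (nat_lit 10846) (nat_lit 769921872) (nat_lit 0) (nat_lit 0),Row.mk (nat_lit 22848) (nat_lit 10659) (nat_lit 217655300) (nat_lit 11220) (nat_lit 346630253) (nat_lit 11407) (nat_lit 673142132),Row.mk (nat_lit 23016) (nat_lit 11220) (nat_lit 446113237) (nat_lit 11781) (nat_lit 269142976) (nat_lit 11968) (nat_lit 552266571),Row.mk (nat_lit 23184) (nat_lit 11781) (nat_lit 696712600) (nat_lit 12529) (nat_lit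 207102324) (nat_lit 12716) (nat_lit 401295912),Row.mk (nat_lit 23352) (nat_lit 12529) (nat_lit 981891101) (nat_lit 13277) (nat_lit 157429105) (nat_lit 13464) (nat_lit 212737200),Row.mk (nat_lit 23520) (nat_lit 13090) (nat_lit 28436784) (nat_lit 13277) (nat_lit 1287365892) (nat_lit 14025) (nat_lit 94889865),Row.mk (nat_lit 23688) (nat_lit 13090) (nat_lit 288630290) (nat_lit 13838) (nat_lit 107180777) (nat_lit 14025) (nat_lit 1088115341),Row.mk (nat_lit 23856) (nat_lit 13838) (nat_lit 779314924) (nat_lit 14960) (nat_lit 75337761) (nat_lit 15147) (nat_lit 720741058),Row.mk (nat_lit 24024) (nat_lit 14960) (nat_lit 1377892337) (nat_lit 16269) (nat_lit 49842459) (nat_lit 16456) (nat_lit 261899440),Row.mk (nat_lit 24192) (nat_lit 14773) (nat_lit 351902921) (nat_lit 16082) (nat_lit 36756728) (nat_lit 16269) (nat_lit 1443658208),Row.mk (nat_lit 24360) (nat_lit 16082) (nat_lit 1266290019) (nat_lit 17578) (nat_lit 16343762) (nat_lit 17765) (nat_lit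 727892476),Row.mk (nat_lit 24528) (nat_lit 15895) (nat_lit 207431982) (nat_lit 17578) (nat_lit 2025672269) (nat_lit 0) (nat_lit 0),Row.mk (nat_lit 24696) (nat_lit 17391) (nat_lit 1601978652) (nat_lit 17578) (nat_lit 16343762) (nat_lit 19635) (nat_lit 892776380),Row.mk (nat_lit 24864) (nat_lit 17204) (nat_lit 606286021) (nat_lit 17391) (nat_lit 36756728) (nat_lit 19448) (nat_lit 2215264525),Row.mk (nat_lit 25032) (nat_lit 19261) (nat_lit 2781696184) (nat_lit 19448) (nat_lit 49842459) (nat_lit 25806) (nat_lit 460423645),Row.mk (nat_lit 25200) (nat_lit 19074) (nat_lit 2079724759) (nat_lit 19261) (nat_lit 75337761) (nat_lit 25619) (nat_lit 1678524420),Row.mk (nat_lit 25368) (nat_lit 18887) (nat_lit 1202979383) (nat_lit 19074) (nat_lit 107180777) (nat_lit 25432) (nat_lit 3199902902),Row.mk (nat_lit 25536) (nat_lit 18700) (nat_lit 107945559) (nat_lit 18887) (nat_lit 146951936) (nat_lit 25245) (nat_lit 5100067926),Row.mk (nat_lit 25704)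 (nat_lit 25058) (nat_lit 5401621521) (nat_lit 25245) (nat_lit 157429105) (nat_lit 31603) (nat_lit 851177460),Row.mk (nat_lit 25872) (nat_lit 24871) (nat_lit 5351948302) (nat_lit 25058) (nat_lit 207102324) (nat_lit 31416) (nat_lit 2169175071),Row.mk (nat_lit 26040) (nat_lit 24684) (nat_lit 5289907651) (nat_lit 24871) (nat_lit 269142976) (nat_lit 31229) (nat_lit 3815322291),Row.mk (nat_lit 26208) (nat_lit 24497) (nat_lit 5212420373) (nat_lit 24684) (nat_lit 346630253) (nat_lit 31042) (nat_lit 5871320459),Row.mk (nat_lit 26376) (nat_lit 24310) (nat_lit 5115640633) (nat_lit 24497) (nat_lit 443409993) (nat_lit 30855) (nat_lit 8439212571),Row.mk (nat_lit 26544) (nat_lit 24123) (nat_lit 4994765072) (nat_lit 24310) (nat_lit 564285554) (nat_lit 30668) (nat_lit 11646447873),Row.mk (nat_lit 26712) (nat_lit 23936) (nat_lit 4843794413) (nat_lit 24123) (nat_lit 715256213) (nat_lit 30481) (nat_lit 15652207393),Row.mk (nat_lit 26880) (nat_lit 23749)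 (nat_lit 4655235702) (nat_lit 23936) (nat_lit 903814925) (nat_lit 30294) (nat_lit 20655304400),Row.mk (nat_lit 27048) (nat_lit 23562) (nat_lit 4419730420) (nat_lit 23749) (nat_lit 1139320207) (nat_lit 30107) (nat_lit 26904051869),Row.mk (nat_lit 27216) (nat_lit 23375) (nat_lit 4125590004) (nat_lit 23562) (nat_lit 1433460622) (nat_lit 29920) (nat_lit 34708586713),Row.mk (nat_lit 27384) (nat_lit 23188) (nat_lit 3758215720) (nat_lit 23375) (nat_lit 1800834906) (nat_lit 29733) (nat_lit 44456262458),Row.mk (nat_lit 27552) (nat_lit 23001) (nat_lit 3299374102) (nat_lit 23188) (nat_lit 2259676524) (nat_lit 29546) (nat_lit 56630874313),Row.mk (nat_lit 27720) (nat_lit 22814) (nat_lit 2726291991) (nat_lit 23001) (nat_lit 2832758635) (nat_lit 29359) (nat_lit 71836670822),Row.mk (nat_lit 27888) (nat_lit 22627) (nat_lit 2010526258) (nat_lit 22814) (nat_lit 3548524368) (nat_lit 29172) (nat_lit 90828343839),Row.mk (nat_lit 28056) (nat_lit 22440)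 (nat_lit 1116552125) (nat_lit 22627) (nat_lit 4442498501) (nat_lit 28985) (nat_lit 114548485287),Row.mk (nat_lit 28224) (nat_lit 22440) (nat_lit 5559050627) (nat_lit 28798) (nat_lit 144174369735) (nat_lit 0) (nat_lit 0),Row.mk (nat_lit 28392) (nat_lit 22253) (nat_lit 5559050627) (nat_lit 28611) (nat_lit 180059832596) (nat_lit 28798) (nat_lit 1116552125),Row.mk (nat_lit 28560) (nat_lit 22066) (nat_lit 5559050627) (nat_lit 28424) (nat_lit 224879910015) (nat_lit 28611) (nat_lit 2511098795),Row.mk (nat_lit 28728) (nat_lit 21879) (nat_lit 5559050627) (nat_lit 28237) (nat_lit 280859105481) (nat_lit 28424) (nat_lit 4252853944),Row.mk (nat_lit 28896) (nat_lit 21692) (nat_lit 5559050627) (nat_lit 28050) (nat_lit 350775770187) (nat_lit 28237) (nat_lit 6428264107),Row.mk (nat_lit 29064) (nat_lit 21505) (nat_lit 5559050627) (nat_lit 27863) (nat_lit 438099997748) (nat_lit 28050) (nat_lit 9145298921),Row.mk (nat_lit 29232) (nat_lit 21318) (nat_lit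 5559050627) (nat_lit 27676) (nat_lit 547165851379) (nat_lit 27863) (nat_lit 12538809859),Row.mk (nat_lit 29400) (nat_lit 21131) (nat_lit 5559050627) (nat_lit 27489) (nat_lit 683386471481) (nat_lit 27676) (nat_lit 16777223157),Row.mk (nat_lit 29568) (nat_lit 20944) (nat_lit 5559050627) (nat_lit 27302) (nat_lit 853522739829) (nat_lit 27489) (nat_lit 22070899118),Row.mk (nat_lit 29736) (nat_lit 32912) (nat_lit 1124940733) (nat_lit 62084) (nat_lit 1098027353728) (nat_lit 0) (nat_lit 0),Row.mk (nat_lit 29904) (nat_lit 32912) (nat_lit 1124940733) (nat_lit 62084) (nat_lit 1371687670752) (nat_lit 0) (nat_lit 0),Row.mk (nat_lit 30072) (nat_lit 32912) (nat_lit 1124940733) (nat_lit 62084) (nat_lit 1713482804988) (nat_lit 0) (nat_lit 0),Row.mk (nat_lit 30240) (nat_lit 32912) (nat_lit 1124940733) (nat_lit 62084) (nat_lit 2140376682248) (nat_lit 0) (nat_lit 0),Row.mk (nat_lit 30408) (nat_lit 32912) (nat_lit 1124940733) (nat_lit 62084) (nat_lit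 2673556836642) (nat_lit 0) (nat_lit 0),Row.mk (nat_lit 30576) (nat_lit 32912) (nat_lit 1124940733) (nat_lit 62084) (nat_lit 3339485987145) (nat_lit 0) (nat_lit 0),Row.mk (nat_lit 30744) (nat_lit 32912) (nat_lit 1124940733) (nat_lit 62084) (nat_lit 4171215431379) (nat_lit 0) (nat_lit 0),Row.mk (nat_lit 30912) (nat_lit 32912) (nat_lit 1124940733) (nat_lit 62084) (nat_lit 5210025442748) (nat_lit 0) (nat_lit 0),Row.mk (nat_lit 31080) (nat_lit 32912) (nat_lit 1124940733) (nat_lit 62084) (nat_lit 6507474086897) (nat_lit 0) (nat_lit 0)],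
[Row.mk (nat_lit 10080) (nat_lit 4114) (nat_lit 1360854244) (nat_lit 4301) (nat_lit 33688747) (nat_lit 4862) (nat_lit 3682),Row.mk (nat_lit 10248) (nat_lit 4114) (nat_lit 1360854251) (nat_lit 4301) (nat_lit 33687825) (nat_lit 4862) (nat_lit 4599),Row.mk (nat_lit 10416) (nat_lit 4114) (nat_lit 1360854260) (nat_lit 4301) (nat_lit 33686673) (nat_lit 4862) (nat_lit 5745),Row.mk (nat_lit 10584) (nat_lit 4114) (nat_lit 1360854271) (nat_lit 4301) (nat_lit 33685233) (nat_lit 4862) (nat_lit 7175),Row.mk (nat_lit 10752) (nat_lit 4114) (nat_lit 1360854284) (nat_lit 4301) (nat_lit 33683436) (nat_lit 4862) (nat_lit 8962),Row.mk (nat_lit 10920) (nat_lit 4114) (nat_lit 1360854301) (nat_lit 4301) (nat_lit 33681191) (nat_lit 4862) (nat_lit 11193),Row.mk (nat_lit 11088) (nat_lit 4114) (nat_lit 1360854322) (nat_lit 4301) (nat_lit 33678387) (nat_lit 4862) (nat_lit 13980),Row.mk (nat_lit 11256) (nat_lit 4114) (nat_lit 1360854348) (nat_lit 4301) (nat_lit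 33674886) (nat_lit 4862) (nat_lit 17461),Row.mk (nat_lit 11424) (nat_lit 4114) (nat_lit 1360854381) (nat_lit 4301) (nat_lit 33670512) (nat_lit 4862) (nat_lit 21808),Row.mk (nat_lit 11592) (nat_lit 4114) (nat_lit 1360854422) (nat_lit 4301) (nat_lit 33665049) (nat_lit 4862) (nat_lit 27238),Row.mk (nat_lit 11760) (nat_lit 4114) (nat_lit 1360854473) (nat_lit 4301) (nat_lit 33658226) (nat_lit 4862) (nat_lit 34020),Row.mk (nat_lit 11928) (nat_lit 4114) (nat_lit 1360854537) (nat_lit 4301) (nat_lit 33649705) (nat_lit 4862) (nat_lit 42490),Row.mk (nat_lit 12096) (nat_lit 4114) (nat_lit 1360854617) (nat_lit 4301) (nat_lit 33639062) (nat_lit 4862) (nat_lit 53069),Row.mk (nat_lit 12264) (nat_lit 4114) (nat_lit 1360854717) (nat_lit 4301) (nat_lit 33625769) (nat_lit 4862) (nat_lit 66282),Row.mk (nat_lit 12432) (nat_lit 4114) (nat_lit 1360854842) (nat_lit 4301) (nat_lit 33609166) (nat_lit 4862) (nat_lit 82785),Row.mk (nat_lit 12600) (nat_lit 4114)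 (nat_lit 1360854998) (nat_lit 4301) (nat_lit 33588430) (nat_lit 4862) (nat_lit 103396),Row.mk (nat_lit 12768) (nat_lit 4114) (nat_lit 1360855192) (nat_lit 4301) (nat_lit 33562531) (nat_lit 4862) (nat_lit 129140),Row.mk (nat_lit 12936) (nat_lit 4114) (nat_lit 1360855435) (nat_lit 4301) (nat_lit 33530184) (nat_lit 4862) (nat_lit 161292),Row.mk (nat_lit 13104) (nat_lit 4114) (nat_lit 1360855739) (nat_lit 4301) (nat_lit 33489782) (nat_lit 4862) (nat_lit 201450),Row.mk (nat_lit 13272) (nat_lit 4114) (nat_lit 1360856118) (nat_lit 4301) (nat_lit 33439323) (nat_lit 4862) (nat_lit 251607),Row.mk (nat_lit 13440) (nat_lit 4114) (nat_lit 1360856592) (nat_lit 4301) (nat_lit 33376299) (nat_lit 4862) (nat_lit 314251),Row.mk (nat_lit 13608) (nat_lit 4114) (nat_lit 1360857183) (nat_lit 4301) (nat_lit 33297585) (nat_lit 4862) (nat_lit 392492),Row.mk (nat_lit 13776) (nat_lit 4114) (nat_lit 1360857922) (nat_lit 4301) (nat_lit 33199272) (nat_lit 4862)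 (nat_lit 490213),Row.mk (nat_lit 13944) (nat_lit 4114) (nat_lit 1360858844) (nat_lit 4301) (nat_lit 33076482) (nat_lit 4862) (nat_lit 612264),Row.mk (nat_lit 14112) (nat_lit 4114) (nat_lit 1360859996) (nat_lit 4301) (nat_lit 32923121) (nat_lit 4862) (nat_lit 764704),Row.mk (nat_lit 14280) (nat_lit 4114) (nat_lit 1360861435) (nat_lit 4301) (nat_lit 32731575) (nat_lit 4862) (nat_lit 955097),Row.mk (nat_lit 14448) (nat_lit 4114) (nat_lit 1360863233) (nat_lit 4301) (nat_lit 32492340) (nat_lit 4862) (nat_lit 1192893),Row.mk (nat_lit 14616) (nat_lit 4114) (nat_lit 1360865478) (nat_lit 4301) (nat_lit 32193541) (nat_lit 4862) (nat_lit 1489894),Row.mk (nat_lit 14784) (nat_lit 4114) (nat_lit 1360868281) (nat_lit 4301) (nat_lit 31820348) (nat_lit 4862) (nat_lit 1860842),Row.mk (nat_lit 14952) (nat_lit 4114) (nat_lit 1360871783) (nat_lit 4301) (nat_lit 31354240) (nat_lit 4862) (nat_lit 2324147),Row.mk (nat_lit 15120) (nat_lit 4114) (nat_lit 1360876157)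 (nat_lit 4301) (nat_lit 30772081) (nat_lit 4862) (nat_lit 2902804),Row.mk (nat_lit 15288) (nat_lit 4114) (nat_lit 1360881620) (nat_lit 4301) (nat_lit 30044979) (nat_lit 4862) (nat_lit 3625532),Row.mk (nat_lit 15456) (nat_lit 4114) (nat_lit 1360888442) (nat_lit 4301) (nat_lit 29136846) (nat_lit 4862) (nat_lit 4528202),Row.mk (nat_lit 15624) (nat_lit 4114) (nat_lit 1360896964) (nat_lit 4301) (nat_lit 28002610) (nat_lit 4862) (nat_lit 5655616),Row.mk (nat_lit 15792) (nat_lit 4114) (nat_lit 1360907607) (nat_lit 4301) (nat_lit 26585977) (nat_lit 4862) (nat_lit 7063728),Row.mk (nat_lit 15960) (nat_lit 4114) (nat_lit 1360920900) (nat_lit 4301) (nat_lit 24816636) (nat_lit 4862) (nat_lit 8822426),Row.mk (nat_lit 16128) (nat_lit 4114) (nat_lit 1360937503) (nat_lit 4301) (nat_lit 22606771) (nat_lit 4862) (nat_lit 11018997),Row.mk (nat_lit 16296) (nat_lit 4114) (nat_lit 1360958239) (nat_lit 4301) (nat_lit 19846704) (nat_lit 4862) (nat_lit 13762461),Row.mk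 (nat_lit 16464) (nat_lit 4114) (nat_lit 1360984138) (nat_lit 4301) (nat_lit 16399447) (nat_lit 4862) (nat_lit 17188983),Row.mk (nat_lit 16632) (nat_lit 4114) (nat_lit 1361016485) (nat_lit 4301) (nat_lit 12093906) (nat_lit 4862) (nat_lit 21468625),Row.mk (nat_lit 16800) (nat_lit 4114) (nat_lit 1361056886) (nat_lit 4301) (nat_lit 6716389) (nat_lit 4862) (nat_lit 26813794),Row.mk (nat_lit 16968) (nat_lit 4114) (nat_lit 1361107346) (nat_lit 4862) (nat_lit 33489782) (nat_lit 0) (nat_lit 0),Row.mk (nat_lit 17136) (nat_lit 4114) (nat_lit 1352781761) (nat_lit 4675) (nat_lit 8388608) (nat_lit 4862) (nat_lit 33439323),Row.mk (nat_lit 17304) (nat_lit 4114) (nat_lit 1342383307) (nat_lit 4675) (nat_lit 18865777) (nat_lit 4862) (nat_lit 33376299),Row.mk (nat_lit 17472) (nat_lit 4114) (nat_lit 1329395888) (nat_lit 4675) (nat_lit 31951508) (nat_lit 4862) (nat_lit 33297585),Row.mk (nat_lit 17640) (nat_lit 4114) (nat_lit 1313174915) (nat_lit 4675)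 (nat_lit 48295271) (nat_lit 4862) (nat_lit 33199272),Row.mk (nat_lit 17808) (nat_lit 4114) (nat_lit 1292915312) (nat_lit 4675) (nat_lit 68708236) (nat_lit 4862) (nat_lit 33076482),Row.mk (nat_lit 17976) (nat_lit 4114) (nat_lit 1267611555) (nat_lit 4675) (nat_lit 94203538) (nat_lit 4862) (nat_lit 32923121),Row.mk (nat_lit 18144) (nat_lit 4114) (nat_lit 1236007774) (nat_lit 4675) (nat_lit 126046554) (nat_lit 4862) (nat_lit 32731575),Row.mk (nat_lit 18312) (nat_lit 4114) (nat_lit 1196535414) (nat_lit 4675) (nat_lit 165817713) (nat_lit 4862) (nat_lit 32492340),Row.mk (nat_lit 18480) (nat_lit 4114) (nat_lit 1147235388) (nat_lit 4675) (nat_lit 215490932) (nat_lit 4862) (nat_lit 32193541),Row.mk (nat_lit 18648) (nat_lit 4114) (nat_lit 1085660845) (nat_lit 4675) (nat_lit 277531584) (nat_lit 4862) (nat_lit 31820348),Row.mk (nat_lit 18816) (nat_lit 4114) (nat_lit 1008755726) (nat_lit 4675) (nat_lit 355018861) (nat_lit 4862) (nat_lit 31354240),Row.mk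 (nat_lit 18984) (nat_lit 4114) (nat_lit 912703088) (nat_lit 4675) (nat_lit 451798601) (nat_lit 4862) (nat_lit 30772081),Row.mk (nat_lit 19152) (nat_lit 4114) (nat_lit 792735660) (nat_lit 4675) (nat_lit 572674162) (nat_lit 4862) (nat_lit 30044979),Row.mk (nat_lit 19320) (nat_lit 4114) (nat_lit 642899237) (nat_lit 4675) (nat_lit 723644821) (nat_lit 4862) (nat_lit 29136846),Row.mk (nat_lit 19488) (nat_lit 4114) (nat_lit 455757159) (nat_lit 4675) (nat_lit 912203533) (nat_lit 4862) (nat_lit 28002610),Row.mk (nat_lit 19656) (nat_lit 4114) (nat_lit 222021218) (nat_lit 4675) (nat_lit 1147708815) (nat_lit 4862) (nat_lit 26585977),Row.mk (nat_lit 19824) (nat_lit 4675) (nat_lit 1340783208) (nat_lit 5236) (nat_lit 31156689) (nat_lit 5423) (nat_lit 24816636),Row.mk (nat_lit 19992) (nat_lit 4675) (nat_lit 1049402859) (nat_lit 5236) (nat_lit 325297105) (nat_lit 5423) (nat_lit 22606771),Row.mk (nat_lit 20160) (nat_lit 4675) (nat_lit 685475833) (nat_lit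 5236) (nat_lit 692671388) (nat_lit 5423) (nat_lit 19846704),Row.mk (nat_lit 20328) (nat_lit 4675) (nat_lit 230939757) (nat_lit 5236) (nat_lit 1151513006) (nat_lit 5423) (nat_lit 16399447),Row.mk (nat_lit 20496) (nat_lit 5236) (nat_lit 1130291406) (nat_lit 5797) (nat_lit 257538873) (nat_lit 5984) (nat_lit 12093906),Row.mk (nat_lit 20664) (nat_lit 5236) (nat_lit 563925684) (nat_lit 5797) (nat_lit 830620985) (nat_lit 5984) (nat_lit 6716389),Row.mk (nat_lit 20832) (nat_lit 5797) (nat_lit 1288080024) (nat_lit 6358) (nat_lit 114855252) (nat_lit 0) (nat_lit 0),Row.mk (nat_lit 21000) (nat_lit 5610) (nat_lit 10477169) (nat_lit 5797) (nat_lit 572314292) (nat_lit 6358) (nat_lit 822232377),Row.mk (nat_lit 21168) (nat_lit 6171) (nat_lit 23562900) (nat_lit 6358) (nat_lit 1145396404) (nat_lit 6919) (nat_lit 238673096),Row.mk (nat_lit 21336) (nat_lit 6171) (nat_lit 39906663) (nat_lit 6358) (nat_lit 251422271) (nat_lit 6919) (nat_lit 1119561498),Row.mk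 (nat_lit 21504) (nat_lit 6732) (nat_lit 60319628) (nat_lit 6919) (nat_lit 710263889) (nat_lit 7480) (nat_lit 644376117),Row.mk (nat_lit 21672) (nat_lit 7293) (nat_lit 85814930) (nat_lit 7480) (nat_lit 1077638172) (nat_lit 8041) (nat_lit 256588868),Row.mk (nat_lit 21840) (nat_lit 7293) (nat_lit 78743993) (nat_lit 7854) (nat_lit 38913953) (nat_lit 8041) (nat_lit 1308731739),Row.mk (nat_lit 22008) (nat_lit 7854) (nat_lit 157429105) (nat_lit 8041) (nat_lit 255226462) (nat_lit 8602) (nat_lit 1021662260),Row.mk (nat_lit 22176) (nat_lit 8415) (nat_lit 207102324) (nat_lit 8602) (nat_lit 490731744) (nat_lit 9163) (nat_lit 746385819),Row.mk (nat_lit 22344) (nat_lit 8976) (nat_lit 269142976) (nat_lit 9163) (nat_lit 679290456) (nat_lit 9724) (nat_lit 508153889),Row.mk (nat_lit 22512) (nat_lit 9537) (nat_lit 346630253) (nat_lit 9724) (nat_lit 830261115) (nat_lit 10285) (nat_lit 295142578),Row.mk (nat_lit 22680) (nat_lit 10098) (nat_lit 443409993)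 (nat_lit 10285) (nat_lit 951136676) (nat_lit 10846) (nat_lit 96779740),Row.mk (nat_lit 22848) (nat_lit 10098) (nat_lit 120875560) (nat_lit 10659) (nat_lit 443409993) (nat_lit 10846) (nat_lit 951136676),Row.mk (nat_lit 23016) (nat_lit 10659) (nat_lit 368625960) (nat_lit 11220) (nat_lit 346630253) (nat_lit 11407) (nat_lit 830261115),Row.mk (nat_lit 23184) (nat_lit 11220) (nat_lit 634671949) (nat_lit 11781) (nat_lit 269142976) (nat_lit 11968) (nat_lit 679290456),Row.mk (nat_lit 23352) (nat_lit 11781) (nat_lit 932217882) (nat_lit 12529) (nat_lit 207102324) (nat_lit 12716) (nat_lit 490731744),Row.mk (nat_lit 23520) (nat_lit 12529) (nat_lit 1276031517) (nat_lit 13277) (nat_lit 157429105) (nat_lit 13464) (nat_lit 255226462),Row.mk (nat_lit 23688) (nat_lit 13090) (nat_lit 48602588) (nat_lit 13277) (nat_lit 1634574371) (nat_lit 14025) (nat_lit 78743993),Row.mk (nat_lit 23856) (nat_lit 13090) (nat_lit 400263429) (nat_lit 13838) (nat_lit 107180777)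 (nat_lit 14025) (nat_lit 1345944080),Row.mk (nat_lit 24024) (nat_lit 13838) (nat_lit 1005188557) (nat_lit 14960) (nat_lit 75337761) (nat_lit 15147) (nat_lit 887102463),Row.mk (nat_lit 24192) (nat_lit 14960) (nat_lit 1746449591) (nat_lit 16269) (nat_lit 49842459) (nat_lit 16456) (nat_lit 314020351),Row.mk (nat_lit 24360) (nat_lit 14773) (nat_lit 465013560) (nat_lit 16082) (nat_lit 36756728) (nat_lit 16269) (nat_lit 1786750513),Row.mk (nat_lit 24528) (nat_lit 16082) (nat_lit 1601978652) (nat_lit 17578) (nat_lit 16343762) (nat_lit 17765) (nat_lit 892776380),Row.mk (nat_lit 24696) (nat_lit 15895) (nat_lit 279490507) (nat_lit 17578) (nat_lit 2509602831) (nat_lit 0) (nat_lit 0),Row.mk (nat_lit 24864) (nat_lit 17391) (nat_lit 2021245656) (nat_lit 17578) (nat_lit 16343762) (nat_lit 19635) (nat_lit 1098712399),Row.mk (nat_lit 25032) (nat_lit 17204) (nat_lit 782731915) (nat_lit 17391) (nat_lit 36756728) (nat_lit 19448) (nat_lit 2750468188),Row.mk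 (nat_lit 25200) (nat_lit 19261) (nat_lit 3499766730) (nat_lit 19448) (nat_lit 49842459) (nat_lit 25806) (nat_lit 561972294),Row.mk (nat_lit 25368) (nat_lit 19074) (nat_lit 2629369069) (nat_lit 19261) (nat_lit 75337761) (nat_lit 25619) (nat_lit 2083350777),Row.mk (nat_lit 25536) (nat_lit 18887) (nat_lit 1542263388) (nat_lit 19074) (nat_lit 107180777) (nat_lit 25432) (nat_lit 3983515800),Row.mk (nat_lit 25704) (nat_lit 18700) (nat_lit 184494618) (nat_lit 18887) (nat_lit 146951936) (nat_lit 25245) (nat_lit 6356776075),Row.mk (nat_lit 25872) (nat_lit 25058) (nat_lit 6796168191) (nat_lit 25245) (nat_lit 157429105) (nat_lit 31603) (nat_lit 1052622945),Row.mk (nat_lit 26040) (nat_lit 24871) (nat_lit 6746494972) (nat_lit 25058) (nat_lit 207102324) (nat_lit 31416) (nat_lit 2698770165),Row.mk (nat_lit 26208) (nat_lit 24684) (nat_lit 6684454320) (nat_lit 24871) (nat_lit 269142976) (nat_lit 31229) (nat_lit 4754768333),Row.mk (nat_lit 26376) (nat_lit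 24497) (nat_lit 6606967043) (nat_lit 24684) (nat_lit 346630253) (nat_lit 31042) (nat_lit 7322660445),Row.mk (nat_lit 26544) (nat_lit 24310) (nat_lit 6510187303) (nat_lit 24497) (nat_lit 443409993) (nat_lit 30855) (nat_lit 10529895747),Row.mk (nat_lit 26712) (nat_lit 24123) (nat_lit 6389311742) (nat_lit 24310) (nat_lit 564285554) (nat_lit 30668) (nat_lit 14535655267),Row.mk (nat_lit 26880) (nat_lit 23936) (nat_lit 6238341083) (nat_lit 24123) (nat_lit 715256213) (nat_lit 30481) (nat_lit 19538752275),Row.mk (nat_lit 27048) (nat_lit 23749) (nat_lit 6049782371) (nat_lit 23936) (nat_lit 903814925) (nat_lit 30294) (nat_lit 25787499743),Row.mk (nat_lit 27216) (nat_lit 23562) (nat_lit 5814277089) (nat_lit 23749) (nat_lit 1139320207) (nat_lit 30107) (nat_lit 33592034587),Row.mk (nat_lit 27384) (nat_lit 23375) (nat_lit 5520136673) (nat_lit 23562) (nat_lit 1433460622) (nat_lit 29920) (nat_lit 43339710332),Row.mk (nat_lit 27552) (nat_lit 23188)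 (nat_lit 5152762390) (nat_lit 23375) (nat_lit 1800834906) (nat_lit 29733) (nat_lit 55514322187),Row.mk (nat_lit 27720) (nat_lit 23001) (nat_lit 4693920772) (nat_lit 23188) (nat_lit 2259676524) (nat_lit 29546) (nat_lit 70720118696),Row.mk (nat_lit 27888) (nat_lit 22814) (nat_lit 4120838660) (nat_lit 23001) (nat_lit 2832758635) (nat_lit 29359) (nat_lit 89711791714),Row.mk (nat_lit 28056) (nat_lit 22627) (nat_lit 3405072928) (nat_lit 22814) (nat_lit 3548524368) (nat_lit 29172) (nat_lit 113431933161),Row.mk (nat_lit 28224) (nat_lit 22440) (nat_lit 2511098795) (nat_lit 22627) (nat_lit 4442498501) (nat_lit 28985) (nat_lit 143057817609),Row.mk (nat_lit 28392) (nat_lit 22253) (nat_lit 1394546669) (nat_lit 22440) (nat_lit 5559050627) (nat_lit 28798) (nat_lit 180059832596),Row.mk (nat_lit 28560) (nat_lit 22253) (nat_lit 6953597296) (nat_lit 28611) (nat_lit 226274456685) (nat_lit 0) (nat_lit 0),Row.mk (nat_lit 28728) (nat_lit 22066) (nat_lit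 6953597296) (nat_lit 28424) (nat_lit 282600860630) (nat_lit 28611) (nat_lit 1394546669),Row.mk (nat_lit 28896) (nat_lit 21879) (nat_lit 6953597296) (nat_lit 28237) (nat_lit 352951180350) (nat_lit 28424) (nat_lit 3136301818),Row.mk (nat_lit 29064) (nat_lit 21692) (nat_lit 6953597296) (nat_lit 28050) (nat_lit 440817032562) (nat_lit 28237) (nat_lit 5311711981),Row.mk (nat_lit 29232) (nat_lit 21505) (nat_lit 6953597296) (nat_lit 27863) (nat_lit 550559362317) (nat_lit 28050) (nat_lit 8028746795),Row.mk (nat_lit 29400) (nat_lit 21318) (nat_lit 6953597296) (nat_lit 27676) (nat_lit 687624884779) (nat_lit 27863) (nat_lit 11422257733),Row.mk (nat_lit 29568) (nat_lit 21131) (nat_lit 6953597296) (nat_lit 27489) (nat_lit 858816415791) (nat_lit 27676) (nat_lit 15660671031),Row.mk (nat_lit 29736) (nat_lit 20944) (nat_lit 6953597296) (nat_lit 27302) (nat_lit 1072630508234) (nat_lit 27489) (nat_lit 20954346992),Row.mk (nat_lit 29904) (nat_lit 32912)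 (nat_lit 1402935277) (nat_lit 62084) (nat_lit 1371409676208) (nat_lit 0) (nat_lit 0),Row.mk (nat_lit 30072) (nat_lit 32912) (nat_lit 1402935277) (nat_lit 62084) (nat_lit 1713204810444) (nat_lit 0) (nat_lit 0),Row.mk (nat_lit 30240) (nat_lit 32912) (nat_lit 1402935277) (nat_lit 62084) (nat_lit 2140098687704) (nat_lit 0) (nat_lit 0),Row.mk (nat_lit 30408) (nat_lit 32912) (nat_lit 1402935277) (nat_lit 62084) (nat_lit 2673278842098) (nat_lit 0) (nat_lit 0),Row.mk (nat_lit 30576) (nat_lit 32912) (nat_lit 1402935277) (nat_lit 62084) (nat_lit 3339207992601) (nat_lit 0) (nat_lit 0),Row.mk (nat_lit 30744) (nat_lit 32912) (nat_lit 1402935277) (nat_lit 62084) (nat_lit 4170937436835) (nat_lit 0) (nat_lit 0),Row.mk (nat_lit 30912) (nat_lit 32912) (nat_lit 1402935277) (nat_lit 62084) (nat_lit 5209747448204) (nat_lit 0) (nat_lit 0),Row.mk (nat_lit 31080) (nat_lit 32912) (nat_lit 1402935277) (nat_lit 62084) (nat_lit 6507196092353) (nat_lit 0) (nat_lit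 0),Row.mk (nat_lit 31248) (nat_lit 32912) (nat_lit 1402935277) (nat_lit 62084) (nat_lit 8127678149497) (nat_lit 0) (nat_lit 0)],
[Row.mk (nat_lit 10248) (nat_lit 3553) (nat_lit 1708062730) (nat_lit 3740) (nat_lit 33686673) (nat_lit 4301) (nat_lit 5752),Row.mk (nat_lit 10416) (nat_lit 3553) (nat_lit 1708062739) (nat_lit 3740) (nat_lit 33685233) (nat_lit 4301) (nat_lit 7184),Row.mk (nat_lit 10584) (nat_lit 3553) (nat_lit 1708062750) (nat_lit 3740) (nat_lit 33683436) (nat_lit 4301) (nat_lit 8972),Row.mk (nat_lit 10752) (nat_lit 3553) (nat_lit 1708062763) (nat_lit 3740) (nat_lit 33681191) (nat_lit 4301) (nat_lit 11207),Row.mk (nat_lit 10920) (nat_lit 3553) (nat_lit 1708062780) (nat_lit 3740) (nat_lit 33678387) (nat_lit 4301) (nat_lit 13997),Row.mk (nat_lit 11088) (nat_lit 3553) (nat_lit 1708062801) (nat_lit 3740) (nat_lit 33674886) (nat_lit 4301) (nat_lit 17482),Row.mk (nat_lit 11256) (nat_lit 3553) (nat_lit 1708062827) (nat_lit 3740)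 (nat_lit 33670512) (nat_lit 4301) (nat_lit 21834),Row.mk (nat_lit 11424) (nat_lit 3553) (nat_lit 1708062860) (nat_lit 3740) (nat_lit 33665049) (nat_lit 4301) (nat_lit 27271),Row.mk (nat_lit 11592) (nat_lit 3553) (nat_lit 1708062901) (nat_lit 3740) (nat_lit 33658226) (nat_lit 4301) (nat_lit 34061),Row.mk (nat_lit 11760) (nat_lit 3553) (nat_lit 1708062952) (nat_lit 3740) (nat_lit 33649705) (nat_lit 4301) (nat_lit 42541),Row.mk (nat_lit 11928) (nat_lit 3553) (nat_lit 1708063016) (nat_lit 3740) (nat_lit 33639062) (nat_lit 4301) (nat_lit 53133),Row.mk (nat_lit 12096) (nat_lit 3553) (nat_lit 1708063096) (nat_lit 3740) (nat_lit 33625769) (nat_lit 4301) (nat_lit 66362),Row.mk (nat_lit 12264) (nat_lit 3553) (nat_lit 1708063196) (nat_lit 3740) (nat_lit 33609166) (nat_lit 4301) (nat_lit 82885),Row.mk (nat_lit 12432) (nat_lit 3553) (nat_lit 1708063321) (nat_lit 3740) (nat_lit 33588430) (nat_lit 4301) (nat_lit 103521),Row.mk (nat_lit 12600) (nat_lit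 3553) (nat_lit 1708063477) (nat_lit 3740) (nat_lit 33562531) (nat_lit 4301) (nat_lit 129295),Row.mk (nat_lit 12768) (nat_lit 3553) (nat_lit 1708063671) (nat_lit 3740) (nat_lit 33530184) (nat_lit 4301) (nat_lit 161487),Row.mk (nat_lit 12936) (nat_lit 3553) (nat_lit 1708063914) (nat_lit 3740) (nat_lit 33489782) (nat_lit 4301) (nat_lit 201693),Row.mk (nat_lit 13104) (nat_lit 3553) (nat_lit 1708064218) (nat_lit 3740) (nat_lit 33439323) (nat_lit 4301) (nat_lit 251910),Row.mk (nat_lit 13272) (nat_lit 3553) (nat_lit 1708064597) (nat_lit 3740) (nat_lit 33376299) (nat_lit 4301) (nat_lit 314630),Row.mk (nat_lit 13440) (nat_lit 3553) (nat_lit 1708065071) (nat_lit 3740) (nat_lit 33297585) (nat_lit 4301) (nat_lit 392965),Row.mk (nat_lit 13608) (nat_lit 3553) (nat_lit 1708065662) (nat_lit 3740) (nat_lit 33199272) (nat_lit 4301) (nat_lit 490805),Row.mk (nat_lit 13776) (nat_lit 3553) (nat_lit 1708066401) (nat_lit 3740) (nat_lit 33076482) (nat_lit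 4301) (nat_lit 613003),Row.mk (nat_lit 13944) (nat_lit 3553) (nat_lit 1708067323) (nat_lit 3740) (nat_lit 32923121) (nat_lit 4301) (nat_lit 765626),Row.mk (nat_lit 14112) (nat_lit 3553) (nat_lit 1708068475) (nat_lit 3740) (nat_lit 32731575) (nat_lit 4301) (nat_lit 956249),Row.mk (nat_lit 14280) (nat_lit 3553) (nat_lit 1708069914) (nat_lit 3740) (nat_lit 32492340) (nat_lit 4301) (nat_lit 1194332),Row.mk (nat_lit 14448) (nat_lit 3553) (nat_lit 1708071712) (nat_lit 3740) (nat_lit 32193541) (nat_lit 4301) (nat_lit 1491692),Row.mk (nat_lit 14616) (nat_lit 3553) (nat_lit 1708073957) (nat_lit 3740) (nat_lit 31820348) (nat_lit 4301) (nat_lit 1863087),Row.mk (nat_lit 14784) (nat_lit 3553) (nat_lit 1708076760) (nat_lit 3740) (nat_lit 31354240) (nat_lit 4301) (nat_lit 2326951),Row.mk (nat_lit 14952) (nat_lit 3553) (nat_lit 1708080262) (nat_lit 3740) (nat_lit 30772081) (nat_lit 4301) (nat_lit 2906306),Row.mk (nat_lit 15120) (nat_lit 3553) (nat_lit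 1708084636) (nat_lit 3740) (nat_lit 30044979) (nat_lit 4301) (nat_lit 3629906),Row.mk (nat_lit 15288) (nat_lit 3553) (nat_lit 1708090099) (nat_lit 3740) (nat_lit 29136846) (nat_lit 4301) (nat_lit 4533665),Row.mk (nat_lit 15456) (nat_lit 3553) (nat_lit 1708096921) (nat_lit 3740) (nat_lit 28002610) (nat_lit 4301) (nat_lit 5662438),Row.mk (nat_lit 15624) (nat_lit 3553) (nat_lit 1708105443) (nat_lit 3740) (nat_lit 26585977) (nat_lit 4301) (nat_lit 7072249),Row.mk (nat_lit 15792) (nat_lit 3553) (nat_lit 1708116086) (nat_lit 3740) (nat_lit 24816636) (nat_lit 4301) (nat_lit 8833069),Row.mk (nat_lit 15960) (nat_lit 3553) (nat_lit 1708129379) (nat_lit 3740) (nat_lit 22606771) (nat_lit 4301) (nat_lit 11032290),Row.mk (nat_lit 16128) (nat_lit 3553) (nat_lit 1708145982) (nat_lit 3740) (nat_lit 19846704) (nat_lit 4301) (nat_lit 13779064),Row.mk (nat_lit 16296) (nat_lit 3553) (nat_lit 1708166718) (nat_lit 3740) (nat_lit 16399447) (nat_lit 4301)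 (nat_lit 17209719),Row.mk (nat_lit 16464) (nat_lit 3553) (nat_lit 1708192617) (nat_lit 3740) (nat_lit 12093906) (nat_lit 4301) (nat_lit 21494524),Row.mk (nat_lit 16632) (nat_lit 3553) (nat_lit 1708224964) (nat_lit 3740) (nat_lit 6716389) (nat_lit 4301) (nat_lit 26846142),Row.mk (nat_lit 16800) (nat_lit 3553) (nat_lit 1708265365) (nat_lit 4301) (nat_lit 33530184) (nat_lit 0) (nat_lit 0),Row.mk (nat_lit 16968) (nat_lit 3553) (nat_lit 1699927217) (nat_lit 4114) (nat_lit 8388608) (nat_lit 4301) (nat_lit 33489782),Row.mk (nat_lit 17136) (nat_lit 3553) (nat_lit 1689513071) (nat_lit 4114) (nat_lit 18865777) (nat_lit 4301) (nat_lit 33439323),Row.mk (nat_lit 17304) (nat_lit 3553) (nat_lit 1676506055) (nat_lit 4114) (nat_lit 31951508) (nat_lit 4301) (nat_lit 33376299),Row.mk (nat_lit 17472) (nat_lit 3553) (nat_lit 1660260604) (nat_lit 4114) (nat_lit 48295271) (nat_lit 4301) (nat_lit 33297585),Row.mk (nat_lit 17640) (nat_lit 3553) (nat_lit 1639970429)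 (nat_lit 4114) (nat_lit 68708236) (nat_lit 4301) (nat_lit 33199272),Row.mk (nat_lit 17808) (nat_lit 3553) (nat_lit 1614628489) (nat_lit 4114) (nat_lit 94203538) (nat_lit 4301) (nat_lit 33076482),Row.mk (nat_lit 17976) (nat_lit 3553) (nat_lit 1582977018) (nat_lit 4114) (nat_lit 126046554) (nat_lit 4301) (nat_lit 32923121),Row.mk (nat_lit 18144) (nat_lit 3553) (nat_lit 1543445094) (nat_lit 4114) (nat_lit 165817713) (nat_lit 4301) (nat_lit 32731575),Row.mk (nat_lit 18312) (nat_lit 3553) (nat_lit 1494070674) (nat_lit 4114) (nat_lit 215490932) (nat_lit 4301) (nat_lit 32492340),Row.mk (nat_lit 18480) (nat_lit 3553) (nat_lit 1432403215) (nat_lit 4114) (nat_lit 277531584) (nat_lit 4301) (nat_lit 32193541),Row.mk (nat_lit 18648) (nat_lit 3553) (nat_lit 1355382047) (nat_lit 4114) (nat_lit 355018861) (nat_lit 4301) (nat_lit 31820348),Row.mk (nat_lit 18816) (nat_lit 3553) (nat_lit 1259184465) (nat_lit 4114) (nat_lit 451798601) (nat_lit 4301)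 (nat_lit 31354240),Row.mk (nat_lit 18984) (nat_lit 3553) (nat_lit 1139036006) (nat_lit 4114) (nat_lit 572674162) (nat_lit 4301) (nat_lit 30772081),Row.mk (nat_lit 19152) (nat_lit 3553) (nat_lit 988973480) (nat_lit 4114) (nat_lit 723644821) (nat_lit 4301) (nat_lit 30044979),Row.mk (nat_lit 19320) (nat_lit 3553) (nat_lit 801549004) (nat_lit 4114) (nat_lit 912203533) (nat_lit 4301) (nat_lit 29136846),Row.mk (nat_lit 19488) (nat_lit 3553) (nat_lit 567460356) (nat_lit 4114) (nat_lit 1147708815) (nat_lit 4301) (nat_lit 28002610),Row.mk (nat_lit 19656) (nat_lit 3553) (nat_lit 275089281) (nat_lit 4114) (nat_lit 1441849230) (nat_lit 4301) (nat_lit 26585977),Row.mk (nat_lit 19824) (nat_lit 4114) (nat_lit 1671845815) (nat_lit 4675) (nat_lit 47302561) (nat_lit 4862) (nat_lit 24816636),Row.mk (nat_lit 19992) (nat_lit 4114) (nat_lit 1307231599) (nat_lit 4675) (nat_lit 414676844) (nat_lit 4862) (nat_lit 22606771),Row.mk (nat_lit 20160) (nat_lit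 4114) (nat_lit 851837238) (nat_lit 4675) (nat_lit 873518462) (nat_lit 4862) (nat_lit 19846704),Row.mk (nat_lit 20328) (nat_lit 4114) (nat_lit 283060668) (nat_lit 4675) (nat_lit 1446600574) (nat_lit 4862) (nat_lit 16399447),Row.mk (nat_lit 20496) (nat_lit 4675) (nat_lit 1404990311) (nat_lit 5236) (nat_lit 330048448) (nat_lit 5423) (nat_lit 12093906),Row.mk (nat_lit 20664) (nat_lit 4675) (nat_lit 695940967) (nat_lit 5236) (nat_lit 1045814180) (nat_lit 5423) (nat_lit 6716389),Row.mk (nat_lit 20832) (nat_lit 5236) (nat_lit 1598303708) (nat_lit 5797) (nat_lit 151840047) (nat_lit 0) (nat_lit 0),Row.mk (nat_lit 21000) (nat_lit 5049) (nat_lit 10477169) (nat_lit 5236) (nat_lit 704329575) (nat_lit 5797) (nat_lit 1037425572),Row.mk (nat_lit 21168) (nat_lit 5610) (nat_lit 23562900) (nat_lit 5797) (nat_lit 1420095308) (nat_lit 6358) (nat_lit 311182671),Row.mk (nat_lit 21336) (nat_lit 5610) (nat_lit 39906663) (nat_lit 5797) (nat_lit 303543182)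 (nat_lit 6358) (nat_lit 1414649065),Row.mk (nat_lit 21504) (nat_lit 6171) (nat_lit 60319628) (nat_lit 6358) (nat_lit 876625294) (nat_lit 6919) (nat_lit 825223191),Row.mk (nat_lit 21672) (nat_lit 6732) (nat_lit 85814930) (nat_lit 6919) (nat_lit 1335466911) (nat_lit 7480) (nat_lit 345968608),Row.mk (nat_lit 21840) (nat_lit 6732) (nat_lit 58578188) (nat_lit 7293) (nat_lit 59079757) (nat_lit 7480) (nat_lit 1655940218),Row.mk (nat_lit 22008) (nat_lit 7293) (nat_lit 157429105) (nat_lit 7480) (nat_lit 308294525) (nat_lit 8041) (nat_lit 1315802676),Row.mk (nat_lit 22176) (nat_lit 7854) (nat_lit 207102324) (nat_lit 8041) (nat_lit 602434941) (nat_lit 8602) (nat_lit 981891101),Row.mk (nat_lit 22344) (nat_lit 8415) (nat_lit 269142976) (nat_lit 8602) (nat_lit 837940223) (nat_lit 9163) (nat_lit 696712600),Row.mk (nat_lit 22512) (nat_lit 8976) (nat_lit 346630253) (nat_lit 9163) (nat_lit 1026498935) (nat_lit 9724) (nat_lit 446113237),Row.mk (nat_lit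 22680) (nat_lit 9537) (nat_lit 443409993) (nat_lit 9724) (nat_lit 1177469594) (nat_lit 10285) (nat_lit 217655300),Row.mk (nat_lit 22848) (nat_lit 10098) (nat_lit 564285554) (nat_lit 10285) (nat_lit 1298345155) (nat_lit 0) (nat_lit 0),Row.mk (nat_lit 23016) (nat_lit 10098) (nat_lit 271846220) (nat_lit 10659) (nat_lit 443409993) (nat_lit 10846) (nat_lit 1177469594),Row.mk (nat_lit 23184) (nat_lit 10659) (nat_lit 557184671) (nat_lit 11220) (nat_lit 346630253) (nat_lit 11407) (nat_lit 1026498935),Row.mk (nat_lit 23352) (nat_lit 11220) (nat_lit 870177230) (nat_lit 11781) (nat_lit 269142976) (nat_lit 11968) (nat_lit 837940223),Row.mk (nat_lit 23520) (nat_lit 11781) (nat_lit 1226358298) (nat_lit 12529) (nat_lit 207102324) (nat_lit 12716) (nat_lit 602434941),Row.mk (nat_lit 23688) (nat_lit 12529) (nat_lit 1643405800) (nat_lit 13277) (nat_lit 157429105) (nat_lit 13464) (nat_lit 308294525),Row.mk (nat_lit 23856) (nat_lit 13090) (nat_lit 73789192)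 (nat_lit 13277) (nat_lit 2068229385) (nat_lit 14025) (nat_lit 58578188),Row.mk (nat_lit 24024) (nat_lit 13090) (nat_lit 539690526) (nat_lit 13838) (nat_lit 107180777) (nat_lit 14025) (nat_lit 1667965956),Row.mk (nat_lit 24192) (nat_lit 13838) (nat_lit 1287299275) (nat_lit 14960) (nat_lit 75337761) (nat_lit 15147) (nat_lit 1094883844),Row.mk (nat_lit 24360) (nat_lit 14960) (nat_lit 2206768709) (nat_lit 16269) (nat_lit 49842459) (nat_lit 16456) (nat_lit 379118112),Row.mk (nat_lit 24528) (nat_lit 14773) (nat_lit 606286021) (nat_lit 16082) (nat_lit 36756728) (nat_lit 16269) (nat_lit 2215264525),Row.mk (nat_lit 24696) (nat_lit 16082) (nat_lit 2021245656) (nat_lit 17578) (nat_lit 16343762) (nat_lit 17765) (nat_lit 1098712399),Row.mk (nat_lit 24864) (nat_lit 15895) (nat_lit 369489867) (nat_lit 17578) (nat_lit 3114020430) (nat_lit 0) (nat_lit 0),Row.mk (nat_lit 25032) (nat_lit 17391) (nat_lit 2544900030) (nat_lit 17578) (nat_lit 16343762)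 (nat_lit 19635) (nat_lit 1355921518),Row.mk (nat_lit 25200) (nat_lit 17204) (nat_lit 1003108581) (nat_lit 17391) (nat_lit 36756728) (nat_lit 19448) (nat_lit 3418924653),Row.mk (nat_lit 25368) (nat_lit 19261) (nat_lit 4396619519) (nat_lit 19448) (nat_lit 49842459) (nat_lit 25806) (nat_lit 688804107),Row.mk (nat_lit 25536) (nat_lit 19074) (nat_lit 3315861554) (nat_lit 19261) (nat_lit 75337761) (nat_lit 25619) (nat_lit 2588969130),Row.mk (nat_lit 25704) (nat_lit 18887) (nat_lit 1966020926) (nat_lit 19074) (nat_lit 107180777) (nat_lit 25432) (nat_lit 4962229405),Row.mk (nat_lit 25872) (nat_lit 18700) (nat_lit 280102546) (nat_lit 18887) (nat_lit 146951936) (nat_lit 25245) (nat_lit 7926374237),Row.mk (nat_lit 26040) (nat_lit 25058) (nat_lit 8537923339) (nat_lit 25245) (nat_lit 157429105) (nat_lit 31603) (nat_lit 1304223496),Row.mk (nat_lit 26208) (nat_lit 24871) (nat_lit 8488250121) (nat_lit 25058) (nat_lit 207102324) (nat_lit 31416) (nat_lit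 3360221663),Row.mk (nat_lit 26376) (nat_lit 24684) (nat_lit 8426209469) (nat_lit 24871) (nat_lit 269142976) (nat_lit 31229) (nat_lit 5928113776),Row.mk (nat_lit 26544) (nat_lit 24497) (nat_lit 8348722192) (nat_lit 24684) (nat_lit 346630253) (nat_lit 31042) (nat_lit 9135349077),Row.mk (nat_lit 26712) (nat_lit 24310) (nat_lit 8251942452) (nat_lit 24497) (nat_lit 443409993) (nat_lit 30855) (nat_lit 13141108598),Row.mk (nat_lit 26880) (nat_lit 24123) (nat_lit 8131066891) (nat_lit 24310) (nat_lit 564285554) (nat_lit 30668) (nat_lit 18144205605),Row.mk (nat_lit 27048) (nat_lit 23936) (nat_lit 7980096232) (nat_lit 24123) (nat_lit 715256213) (nat_lit 30481) (nat_lit 24392953073),Row.mk (nat_lit 27216) (nat_lit 23749) (nat_lit 7791537520) (nat_lit 23936) (nat_lit 903814925) (nat_lit 30294) (nat_lit 32197487917),Row.mk (nat_lit 27384) (nat_lit 23562) (nat_lit 7556032238) (nat_lit 23749) (nat_lit 1139320207) (nat_lit 30107) (nat_lit 41945163662),Row.mk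 (nat_lit 27552) (nat_lit 23375) (nat_lit 7261891822) (nat_lit 23562) (nat_lit 1433460622) (nat_lit 29920) (nat_lit 54119775517),Row.mk (nat_lit 27720) (nat_lit 23188) (nat_lit 6894517539) (nat_lit 23375) (nat_lit 1800834906) (nat_lit 29733) (nat_lit 69325572026),Row.mk (nat_lit 27888) (nat_lit 23001) (nat_lit 6435675921) (nat_lit 23188) (nat_lit 2259676524) (nat_lit 29546) (nat_lit 88317245044),Row.mk (nat_lit 28056) (nat_lit 22814) (nat_lit 5862593809) (nat_lit 23001) (nat_lit 2832758635) (nat_lit 29359) (nat_lit 112037386492),Row.mk (nat_lit 28224) (nat_lit 22627) (nat_lit 5146828077) (nat_lit 22814) (nat_lit 3548524368) (nat_lit 29172) (nat_lit 141663270940),Row.mk (nat_lit 28392) (nat_lit 22440) (nat_lit 4252853944) (nat_lit 22627) (nat_lit 4442498501) (nat_lit 28985) (nat_lit 178665285926),Row.mk (nat_lit 28560) (nat_lit 22253) (nat_lit 3136301818) (nat_lit 22440) (nat_lit 5559050627) (nat_lit 28798) (nat_lit 224879910015),Row.mk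 (nat_lit 28728) (nat_lit 22066) (nat_lit 1741755148) (nat_lit 22253) (nat_lit 6953597296) (nat_lit 28611) (nat_lit 282600860630),Row.mk (nat_lit 28896) (nat_lit 22066) (nat_lit 8695352445) (nat_lit 28424) (nat_lit 354692935499) (nat_lit 0) (nat_lit 0),Row.mk (nat_lit 29064) (nat_lit 21879) (nat_lit 8695352445) (nat_lit 28237) (nat_lit 442992442725) (nat_lit 28424) (nat_lit 1741755148),Row.mk (nat_lit 29232) (nat_lit 21692) (nat_lit 8695352445) (nat_lit 28050) (nat_lit 553276397132) (nat_lit 28237) (nat_lit 3917165311),Row.mk (nat_lit 29400) (nat_lit 21505) (nat_lit 8695352445) (nat_lit 27863) (nat_lit 691018395717) (nat_lit 28050) (nat_lit 6634200126),Row.mk (nat_lit 29568) (nat_lit 21318) (nat_lit 8695352445) (nat_lit 27676) (nat_lit 863054829088) (nat_lit 27863) (nat_lit 10027711064),Row.mk (nat_lit 29736) (nat_lit 21131) (nat_lit 8695352445) (nat_lit 27489) (nat_lit 1077924184196) (nat_lit 27676) (nat_lit 14266124361),Row.mk (nat_lit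 29904) (nat_lit 20944) (nat_lit 8695352445) (nat_lit 27302) (nat_lit 1346290825258) (nat_lit 27489) (nat_lit 19559800322),Row.mk (nat_lit 30072) (nat_lit 32912) (nat_lit 1750143756) (nat_lit 62084) (nat_lit 1712857601965) (nat_lit 0) (nat_lit 0),Row.mk (nat_lit 30240) (nat_lit 32912) (nat_lit 1750143756) (nat_lit 62084) (nat_lit 2139751479225) (nat_lit 0) (nat_lit 0),Row.mk (nat_lit 30408) (nat_lit 32912) (nat_lit 1750143756) (nat_lit 62084) (nat_lit 2672931633619) (nat_lit 0) (nat_lit 0),Row.mk (nat_lit 30576) (nat_lit 32912) (nat_lit 1750143756) (nat_lit 62084) (nat_lit 3338860784122) (nat_lit 0) (nat_lit 0),Row.mk (nat_lit 30744) (nat_lit 32912) (nat_lit 1750143756) (nat_lit 62084) (nat_lit 4170590228356) (nat_lit 0) (nat_lit 0),Row.mk (nat_lit 30912) (nat_lit 32912) (nat_lit 1750143756) (nat_lit 62084) (nat_lit 5209400239725) (nat_lit 0) (nat_lit 0),Row.mk (nat_lit 31080) (nat_lit 32912) (nat_lit 1750143756) (nat_lit 62084) (nat_lit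 6506848883874) (nat_lit 0) (nat_lit 0),Row.mk (nat_lit 31248) (nat_lit 32912) (nat_lit 1750143756) (nat_lit 62084) (nat_lit 8127330941018) (nat_lit 0) (nat_lit 0)],
[Row.mk (nat_lit 10416) (nat_lit 2992) (nat_lit 2141717753) (nat_lit 3179) (nat_lit 33683436) (nat_lit 3740) (nat_lit 8981),Row.mk (nat_lit 10584) (nat_lit 2992) (nat_lit 2141717764) (nat_lit 3179) (nat_lit 33681191) (nat_lit 3740) (nat_lit 11217),Row.mk (nat_lit 10752) (nat_lit 2992) (nat_lit 2141717777) (nat_lit 3179) (nat_lit 33678387) (nat_lit 3740) (nat_lit 14010),Row.mk (nat_lit 10920) (nat_lit 2992) (nat_lit 2141717794) (nat_lit 3179) (nat_lit 33674886) (nat_lit 3740) (nat_lit 17499),Row.mk (nat_lit 11088) (nat_lit 2992) (nat_lit 2141717815) (nat_lit 3179) (nat_lit 33670512) (nat_lit 3740) (nat_lit 21856),Row.mk (nat_lit 11256) (nat_lit 2992) (nat_lit 2141717842) (nat_lit 3179) (nat_lit 33665049) (nat_lit 3740) (nat_lit 27297),Row.mk (nat_lit 11424) (nat_lit 2992)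 (nat_lit 2141717874) (nat_lit 3179) (nat_lit 33658226) (nat_lit 3740) (nat_lit 34094),Row.mk (nat_lit 11592) (nat_lit 2992) (nat_lit 2141717915) (nat_lit 3179) (nat_lit 33649705) (nat_lit 3740) (nat_lit 42582),Row.mk (nat_lit 11760) (nat_lit 2992) (nat_lit 2141717967) (nat_lit 3179) (nat_lit 33639062) (nat_lit 3740) (nat_lit 53184),Row.mk (nat_lit 11928) (nat_lit 2992) (nat_lit 2141718031) (nat_lit 3179) (nat_lit 33625769) (nat_lit 3740) (nat_lit 66426),Row.mk (nat_lit 12096) (nat_lit 2992) (nat_lit 2141718111) (nat_lit 3179) (nat_lit 33609166) (nat_lit 3740) (nat_lit 82965),Row.mk (nat_lit 12264) (nat_lit 2992) (nat_lit 2141718211) (nat_lit 3179) (nat_lit 33588430) (nat_lit 3740) (nat_lit 103621),Row.mk (nat_lit 12432) (nat_lit 2992) (nat_lit 2141718335) (nat_lit 3179) (nat_lit 33562531) (nat_lit 3740) (nat_lit 129420),Row.mk (nat_lit 12600) (nat_lit 2992) (nat_lit 2141718491) (nat_lit 3179) (nat_lit 33530184) (nat_lit 3740) (nat_lit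 161643),Row.mk (nat_lit 12768) (nat_lit 2992) (nat_lit 2141718686) (nat_lit 3179) (nat_lit 33489782) (nat_lit 3740) (nat_lit 201888),Row.mk (nat_lit 12936) (nat_lit 2992) (nat_lit 2141718929) (nat_lit 3179) (nat_lit 33439323) (nat_lit 3740) (nat_lit 252153),Row.mk (nat_lit 13104) (nat_lit 2992) (nat_lit 2141719232) (nat_lit 3179) (nat_lit 33376299) (nat_lit 3740) (nat_lit 314934),Row.mk (nat_lit 13272) (nat_lit 2992) (nat_lit 2141719611) (nat_lit 3179) (nat_lit 33297585) (nat_lit 3740) (nat_lit 393345),Row.mk (nat_lit 13440) (nat_lit 2992) (nat_lit 2141720085) (nat_lit 3179) (nat_lit 33199272) (nat_lit 3740) (nat_lit 491278),Row.mk (nat_lit 13608) (nat_lit 2992) (nat_lit 2141720676) (nat_lit 3179) (nat_lit 33076482) (nat_lit 3740) (nat_lit 613594),Row.mk (nat_lit 13776) (nat_lit 2992) (nat_lit 2141721415) (nat_lit 3179) (nat_lit 32923121) (nat_lit 3740) (nat_lit 766365),Row.mk (nat_lit 13944) (nat_lit 2992) (nat_lit 2141722337) (nat_lit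 3179) (nat_lit 32731575) (nat_lit 3740) (nat_lit 957171),Row.mk (nat_lit 14112) (nat_lit 2992) (nat_lit 2141723490) (nat_lit 3179) (nat_lit 32492340) (nat_lit 3740) (nat_lit 1195484),Row.mk (nat_lit 14280) (nat_lit 2992) (nat_lit 2141724929) (nat_lit 3179) (nat_lit 32193541) (nat_lit 3740) (nat_lit 1493131),Row.mk (nat_lit 14448) (nat_lit 2992) (nat_lit 2141726726) (nat_lit 3179) (nat_lit 31820348) (nat_lit 3740) (nat_lit 1864885),Row.mk (nat_lit 14616) (nat_lit 2992) (nat_lit 2141728971) (nat_lit 3179) (nat_lit 31354240) (nat_lit 3740) (nat_lit 2329196),Row.mk (nat_lit 14784) (nat_lit 2992) (nat_lit 2141731775) (nat_lit 3179) (nat_lit 30772081) (nat_lit 3740) (nat_lit 2909110),Row.mk (nat_lit 14952) (nat_lit 2992) (nat_lit 2141735276) (nat_lit 3179) (nat_lit 30044979) (nat_lit 3740) (nat_lit 3633408),Row.mk (nat_lit 15120) (nat_lit 2992) (nat_lit 2141739650) (nat_lit 3179) (nat_lit 29136846) (nat_lit 3740) (nat_lit 4538039),Row.mk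 (nat_lit 15288) (nat_lit 2992) (nat_lit 2141745113) (nat_lit 3179) (nat_lit 28002610) (nat_lit 3740) (nat_lit 5667901),Row.mk (nat_lit 15456) (nat_lit 2992) (nat_lit 2141751936) (nat_lit 3179) (nat_lit 26585977) (nat_lit 3740) (nat_lit 7079072),Row.mk (nat_lit 15624) (nat_lit 2992) (nat_lit 2141760457) (nat_lit 3179) (nat_lit 24816636) (nat_lit 3740) (nat_lit 8841590),Row.mk (nat_lit 15792) (nat_lit 2992) (nat_lit 2141771100) (nat_lit 3179) (nat_lit 22606771) (nat_lit 3740) (nat_lit 11042933),Row.mk (nat_lit 15960) (nat_lit 2992) (nat_lit 2141784393) (nat_lit 3179) (nat_lit 19846704) (nat_lit 3740) (nat_lit 13792357),Row.mk (nat_lit 16128) (nat_lit 2992) (nat_lit 2141800996) (nat_lit 3179) (nat_lit 16399447) (nat_lit 3740) (nat_lit 17226321),Row.mk (nat_lit 16296) (nat_lit 2992) (nat_lit 2141821732) (nat_lit 3179) (nat_lit 12093906) (nat_lit 3740) (nat_lit 21515260),Row.mk (nat_lit 16464) (nat_lit 2992) (nat_lit 2141847631) (nat_lit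 3179) (nat_lit 6716389) (nat_lit 3740) (nat_lit 26872041),Row.mk (nat_lit 16632) (nat_lit 2992) (nat_lit 2141879979) (nat_lit 3740) (nat_lit 33562531) (nat_lit 0) (nat_lit 0),Row.mk (nat_lit 16800) (nat_lit 2992) (nat_lit 2133531772) (nat_lit 3553) (nat_lit 8388608) (nat_lit 3740) (nat_lit 33530184),Row.mk (nat_lit 16968) (nat_lit 2992) (nat_lit 2123105062) (nat_lit 3553) (nat_lit 18865777) (nat_lit 3740) (nat_lit 33489782),Row.mk (nat_lit 17136) (nat_lit 2992) (nat_lit 2110082354) (nat_lit 3553) (nat_lit 31951508) (nat_lit 3740) (nat_lit 33439323),Row.mk (nat_lit 17304) (nat_lit 2992) (nat_lit 2093817306) (nat_lit 3553) (nat_lit 48295271) (nat_lit 3740) (nat_lit 33376299),Row.mk (nat_lit 17472) (nat_lit 2992) (nat_lit 2073502653) (nat_lit 3553) (nat_lit 68708236) (nat_lit 3740) (nat_lit 33297585),Row.mk (nat_lit 17640) (nat_lit 2992) (nat_lit 2048130142) (nat_lit 3553) (nat_lit 94203538) (nat_lit 3740) (nat_lit 33199272),Row.mk (nat_lit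 17808) (nat_lit 2992) (nat_lit 2016440487) (nat_lit 3553) (nat_lit 126046554) (nat_lit 3740) (nat_lit 33076482),Row.mk (nat_lit 17976) (nat_lit 2992) (nat_lit 1976860873) (nat_lit 3553) (nat_lit 165817713) (nat_lit 3740) (nat_lit 32923121),Row.mk (nat_lit 18144) (nat_lit 2992) (nat_lit 1927426889) (nat_lit 3553) (nat_lit 215490932) (nat_lit 3740) (nat_lit 32731575),Row.mk (nat_lit 18312) (nat_lit 2992) (nat_lit 1865685037) (nat_lit 3553) (nat_lit 277531584) (nat_lit 3740) (nat_lit 32492340),Row.mk (nat_lit 18480) (nat_lit 2992) (nat_lit 1788570952) (nat_lit 3553) (nat_lit 355018861) (nat_lit 3740) (nat_lit 32193541),Row.mk (nat_lit 18648) (nat_lit 2992) (nat_lit 1692257321) (nat_lit 3553) (nat_lit 451798601) (nat_lit 3740) (nat_lit 31820348),Row.mk (nat_lit 18816) (nat_lit 2992) (nat_lit 1571963919) (nat_lit 3553) (nat_lit 572674162) (nat_lit 3740) (nat_lit 31354240),Row.mk (nat_lit 18984) (nat_lit 2992) (nat_lit 1421720361) (nat_lit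 3553) (nat_lit 723644821) (nat_lit 3740) (nat_lit 30772081),Row.mk (nat_lit 19152) (nat_lit 2992) (nat_lit 1234069783) (nat_lit 3553) (nat_lit 912203533) (nat_lit 3740) (nat_lit 30044979),Row.mk (nat_lit 19320) (nat_lit 2992) (nat_lit 999698737) (nat_lit 3553) (nat_lit 1147708815) (nat_lit 3740) (nat_lit 29136846),Row.mk (nat_lit 19488) (nat_lit 2992) (nat_lit 706974954) (nat_lit 3553) (nat_lit 1441849230) (nat_lit 3740) (nat_lit 28002610),Row.mk (nat_lit 19656) (nat_lit 2992) (nat_lit 341370012) (nat_lit 3553) (nat_lit 1809223514) (nat_lit 3740) (nat_lit 26585977),Row.mk (nat_lit 19824) (nat_lit 3553) (nat_lit 2085335025) (nat_lit 4114) (nat_lit 67468365) (nat_lit 4301) (nat_lit 24816636),Row.mk (nat_lit 19992) (nat_lit 3553) (nat_lit 1629253474) (nat_lit 4114) (nat_lit 526309983) (nat_lit 4301) (nat_lit 22606771),Row.mk (nat_lit 20160) (nat_lit 3553) (nat_lit 1059618620) (nat_lit 4114) (nat_lit 1099392095) (nat_lit 4301) (nat_lit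 19846704),Row.mk (nat_lit 20328) (nat_lit 3553) (nat_lit 348158429) (nat_lit 4114) (nat_lit 1815157827) (nat_lit 4301) (nat_lit 16399447),Row.mk (nat_lit 20496) (nat_lit 4114) (nat_lit 1748082615) (nat_lit 4675) (nat_lit 420611157) (nat_lit 4862) (nat_lit 12093906),Row.mk (nat_lit 20664) (nat_lit 4114) (nat_lit 860824872) (nat_lit 4675) (nat_lit 1314585290) (nat_lit 4862) (nat_lit 6716389),Row.mk (nat_lit 20832) (nat_lit 4675) (nat_lit 1985765606) (nat_lit 5236) (nat_lit 198033164) (nat_lit 0) (nat_lit 0),Row.mk (nat_lit 21000) (nat_lit 4488) (nat_lit 10477169) (nat_lit 4675) (nat_lit 869213480) (nat_lit 5236) (nat_lit 1306196682),Row.mk (nat_lit 21168) (nat_lit 5049) (nat_lit 23562900) (nat_lit 5236) (nat_lit 1763187613) (nat_lit 5797) (nat_lit 401745380),Row.mk (nat_lit 21336) (nat_lit 5049) (nat_lit 39906663) (nat_lit 5236) (nat_lit 368640943) (nat_lit 5797) (nat_lit 1783206319),Row.mk (nat_lit 21504) (nat_lit 5610) (nat_lit 60319628)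 (nat_lit 5797) (nat_lit 1084406675) (nat_lit 6358) (nat_lit 1051096824),Row.mk (nat_lit 21672) (nat_lit 6171) (nat_lit 85814930) (nat_lit 6358) (nat_lit 1657488787) (nat_lit 6919) (nat_lit 457601746),Row.mk (nat_lit 21840) (nat_lit 6171) (nat_lit 33391585) (nat_lit 6732) (nat_lit 84266361) (nat_lit 6919) (nat_lit 2089595232),Row.mk (nat_lit 22008) (nat_lit 6732) (nat_lit 157429105) (nat_lit 6919) (nat_lit 374575256) (nat_lit 7480) (nat_lit 1683176960),Row.mk (nat_lit 22176) (nat_lit 7293) (nat_lit 207102324) (nat_lit 7480) (nat_lit 741949540) (nat_lit 8041) (nat_lit 1276031517),Row.mk (nat_lit 22344) (nat_lit 7854) (nat_lit 269142976) (nat_lit 8041) (nat_lit 1036089955) (nat_lit 8602) (nat_lit 932217882),Row.mk (nat_lit 22512) (nat_lit 8415) (nat_lit 346630253) (nat_lit 8602) (nat_lit 1271595237) (nat_lit 9163) (nat_lit 634671949),Row.mk (nat_lit 22680) (nat_lit 8976) (nat_lit 443409993) (nat_lit 9163) (nat_lit 1460153949) (nat_lit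 9724) (nat_lit 368625960),Row.mk (nat_lit 22848) (nat_lit 9537) (nat_lit 564285554) (nat_lit 9724) (nat_lit 1611124608) (nat_lit 10285) (nat_lit 120875560),Row.mk (nat_lit 23016) (nat_lit 9537) (nat_lit 150970659) (nat_lit 10098) (nat_lit 564285554) (nat_lit 10285) (nat_lit 1611124608),Row.mk (nat_lit 23184) (nat_lit 10098) (nat_lit 460404931) (nat_lit 10659) (nat_lit 443409993) (nat_lit 10846) (nat_lit 1460153949),Row.mk (nat_lit 23352) (nat_lit 10659) (nat_lit 792689953) (nat_lit 11220) (nat_lit 346630253) (nat_lit 11407) (nat_lit 1271595237),Row.mk (nat_lit 23520) (nat_lit 11220) (nat_lit 1164317646) (nat_lit 11781) (nat_lit 269142976) (nat_lit 11968) (nat_lit 1036089955),Row.mk (nat_lit 23688) (nat_lit 11781) (nat_lit 1593732582) (nat_lit 12529) (nat_lit 207102324) (nat_lit 12716) (nat_lit 741949540),Row.mk (nat_lit 23856) (nat_lit 12529) (nat_lit 2102247418) (nat_lit 13277) (nat_lit 157429105) (nat_lit 13464) (nat_lit 374575256),Row.mk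 (nat_lit 24024) (nat_lit 13090) (nat_lit 105246652) (nat_lit 13277) (nat_lit 2609854036) (nat_lit 14025) (nat_lit 33391585),Row.mk (nat_lit 24192) (nat_lit 13090) (nat_lit 713831607) (nat_lit 13838) (nat_lit 107180777) (nat_lit 14025) (nat_lit 2070163510),Row.mk (nat_lit 24360) (nat_lit 13838) (nat_lit 1639648756) (nat_lit 14960) (nat_lit 75337761) (nat_lit 15147) (nat_lit 1354397778),Row.mk (nat_lit 24528) (nat_lit 14960) (nat_lit 2781696184) (nat_lit 16269) (nat_lit 49842459) (nat_lit 16456) (nat_lit 460423645),Row.mk (nat_lit 24696) (nat_lit 14773) (nat_lit 782731915) (nat_lit 16082) (nat_lit 36756728) (nat_lit 16269) (nat_lit 2750468188),Row.mk (nat_lit 24864) (nat_lit 16082) (nat_lit 2544900030) (nat_lit 17578) (nat_lit 16343762) (nat_lit 17765) (nat_lit 1355921518),Row.mk (nat_lit 25032) (nat_lit 15895) (nat_lit 481896895) (nat_lit 17578) (nat_lit 3868923430) (nat_lit 0) (nat_lit 0),Row.mk (nat_lit 25200) (nat_lit 17391) (nat_lit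 3198931710) (nat_lit 17578) (nat_lit 16343762) (nat_lit 19635) (nat_lit 1677169504),Row.mk (nat_lit 25368) (nat_lit 17204) (nat_lit 1278353721) (nat_lit 17391) (nat_lit 36756728) (nat_lit 19448) (nat_lit 4253810651),Row.mk (nat_lit 25536) (nat_lit 19261) (nat_lit 5516767018) (nat_lit 19448) (nat_lit 49842459) (nat_lit 25806) (nat_lit 847213982),Row.mk (nat_lit 25704) (nat_lit 19074) (nat_lit 4173274106) (nat_lit 19261) (nat_lit 75337761) (nat_lit 25619) (nat_lit 3220474257),Row.mk (nat_lit 25872) (nat_lit 18887) (nat_lit 2495283869) (nat_lit 19074) (nat_lit 107180777) (nat_lit 25432) (nat_lit 6184619088),Row.mk (nat_lit 26040) (nat_lit 18700) (nat_lit 399514542) (nat_lit 18887) (nat_lit 146951936) (nat_lit 25245) (nat_lit 9886764477),Row.mk (nat_lit 26208) (nat_lit 25058) (nat_lit 10713333502) (nat_lit 25245) (nat_lit 157429105) (nat_lit 31603) (nat_lit 1618466514),Row.mk (nat_lit 26376) (nat_lit 24871) (nat_lit 10663660284) (nat_lit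 25058) (nat_lit 207102324) (nat_lit 31416) (nat_lit 4186358627),Row.mk (nat_lit 26544) (nat_lit 24684) (nat_lit 10601619632) (nat_lit 24871) (nat_lit 269142976) (nat_lit 31229) (nat_lit 7393593928),Row.mk (nat_lit 26712) (nat_lit 24497) (nat_lit 10524132355) (nat_lit 24684) (nat_lit 346630253) (nat_lit 31042) (nat_lit 11399353449),Row.mk (nat_lit 26880) (nat_lit 24310) (nat_lit 10427352615) (nat_lit 24497) (nat_lit 443409993) (nat_lit 30855) (nat_lit 16402450456),Row.mk (nat_lit 27048) (nat_lit 24123) (nat_lit 10306477054) (nat_lit 24310) (nat_lit 564285554) (nat_lit 30668) (nat_lit 22651197924),Row.mk (nat_lit 27216) (nat_lit 23936) (nat_lit 10155506395) (nat_lit 24123) (nat_lit 715256213) (nat_lit 30481) (nat_lit 30455732768),Row.mk (nat_lit 27384) (nat_lit 23749) (nat_lit 9966947683) (nat_lit 23936) (nat_lit 903814925) (nat_lit 30294) (nat_lit 40203408514),Row.mk (nat_lit 27552) (nat_lit 23562) (nat_lit 9731442401) (nat_lit 23749)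 (nat_lit 1139320207) (nat_lit 30107) (nat_lit 52378020369),Row.mk (nat_lit 27720) (nat_lit 23375) (nat_lit 9437301985) (nat_lit 23562) (nat_lit 1433460622) (nat_lit 29920) (nat_lit 67583816877),Row.mk (nat_lit 27888) (nat_lit 23188) (nat_lit 9069927702) (nat_lit 23375) (nat_lit 1800834906) (nat_lit 29733) (nat_lit 86575489895),Row.mk (nat_lit 28056) (nat_lit 23001) (nat_lit 8611086084) (nat_lit 23188) (nat_lit 2259676524) (nat_lit 29546) (nat_lit 110295631343),Row.mk (nat_lit 28224) (nat_lit 22814) (nat_lit 8038003972) (nat_lit 23001) (nat_lit 2832758635) (nat_lit 29359) (nat_lit 139921515791),Row.mk (nat_lit 28392) (nat_lit 22627) (nat_lit 7322238240) (nat_lit 22814) (nat_lit 3548524368) (nat_lit 29172) (nat_lit 176923530778),Row.mk (nat_lit 28560) (nat_lit 22440) (nat_lit 6428264107) (nat_lit 22627) (nat_lit 4442498501) (nat_lit 28985) (nat_lit 223138154867),Row.mk (nat_lit 28728) (nat_lit 22253) (nat_lit 5311711981) (nat_lit 22440)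 (nat_lit 5559050627) (nat_lit 28798) (nat_lit 280859105481),Row.mk (nat_lit 28896) (nat_lit 22066) (nat_lit 3917165311) (nat_lit 22253) (nat_lit 6953597296) (nat_lit 28611) (nat_lit 352951180350),Row.mk (nat_lit 29064) (nat_lit 21879) (nat_lit 2175410163) (nat_lit 22066) (nat_lit 8695352445) (nat_lit 28424) (nat_lit 442992442725),Row.mk (nat_lit 29232) (nat_lit 21879) (nat_lit 10870762608) (nat_lit 28237) (nat_lit 555451807295) (nat_lit 0) (nat_lit 0),Row.mk (nat_lit 29400) (nat_lit 21692) (nat_lit 10870762608) (nat_lit 28050) (nat_lit 693735430531) (nat_lit 28237) (nat_lit 2175410163),Row.mk (nat_lit 29568) (nat_lit 21505) (nat_lit 10870762608) (nat_lit 27863) (nat_lit 866448340026) (nat_lit 28050) (nat_lit 4892444977),Row.mk (nat_lit 29736) (nat_lit 21318) (nat_lit 10870762608) (nat_lit 27676) (nat_lit 1082162597493) (nat_lit 27863) (nat_lit 8285955915),Row.mk (nat_lit 29904) (nat_lit 21131) (nat_lit 10870762608) (nat_lit 27489)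 (nat_lit 1351584501220) (nat_lit 27676) (nat_lit 12524369212),Row.mk (nat_lit 30072) (nat_lit 20944) (nat_lit 10870762608) (nat_lit 27302) (nat_lit 1688085959493) (nat_lit 27489) (nat_lit 17818045174),Row.mk (nat_lit 30240) (nat_lit 32912) (nat_lit 2183798771) (nat_lit 62084) (nat_lit 2139317824211) (nat_lit 0) (nat_lit 0),Row.mk (nat_lit 30408) (nat_lit 32912) (nat_lit 2183798771) (nat_lit 62084) (nat_lit 2672497978605) (nat_lit 0) (nat_lit 0),Row.mk (nat_lit 30576) (nat_lit 32912) (nat_lit 2183798771) (nat_lit 62084) (nat_lit 3338427129108) (nat_lit 0) (nat_lit 0),Row.mk (nat_lit 30744) (nat_lit 32912) (nat_lit 2183798771) (nat_lit 62084) (nat_lit 4170156573342) (nat_lit 0) (nat_lit 0),Row.mk (nat_lit 30912) (nat_lit 32912) (nat_lit 2183798771) (nat_lit 62084) (nat_lit 5208966584711) (nat_lit 0) (nat_lit 0),Row.mk (nat_lit 31080) (nat_lit 32912) (nat_lit 2183798771) (nat_lit 62084) (nat_lit 6506415228860) (nat_lit 0) (nat_lit 0),Row.mk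 (nat_lit 31248) (nat_lit 32912) (nat_lit 2183798771) (nat_lit 62084) (nat_lit 8126897286004) (nat_lit 0) (nat_lit 0)],
[Row.mk (nat_lit 10584) (nat_lit 2431) (nat_lit 2683342415) (nat_lit 2618) (nat_lit 33678387) (nat_lit 3179) (nat_lit 14021),Row.mk (nat_lit 10752) (nat_lit 2431) (nat_lit 2683342429) (nat_lit 2618) (nat_lit 33674886) (nat_lit 3179) (nat_lit 17512),Row.mk (nat_lit 10920) (nat_lit 2431) (nat_lit 2683342446) (nat_lit 2618) (nat_lit 33670512) (nat_lit 3179) (nat_lit 21872),Row.mk (nat_lit 11088) (nat_lit 2431) (nat_lit 2683342467) (nat_lit 2618) (nat_lit 33665049) (nat_lit 3179) (nat_lit 27318),Row.mk (nat_lit 11256) (nat_lit 2431) (nat_lit 2683342493) (nat_lit 2618) (nat_lit 33658226) (nat_lit 3179) (nat_lit 34120),Row.mk (nat_lit 11424) (nat_lit 2431) (nat_lit 2683342526) (nat_lit 2618) (nat_lit 33649705) (nat_lit 3179) (nat_lit 42615),Row.mk (nat_lit 11592) (nat_lit 2431) (nat_lit 2683342567) (nat_lit 2618) (nat_lit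 33639062) (nat_lit 3179) (nat_lit 53225),Row.mk (nat_lit 11760) (nat_lit 2431) (nat_lit 2683342618) (nat_lit 2618) (nat_lit 33625769) (nat_lit 3179) (nat_lit 66477),Row.mk (nat_lit 11928) (nat_lit 2431) (nat_lit 2683342682) (nat_lit 2618) (nat_lit 33609166) (nat_lit 3179) (nat_lit 83029),Row.mk (nat_lit 12096) (nat_lit 2431) (nat_lit 2683342762) (nat_lit 2618) (nat_lit 33588430) (nat_lit 3179) (nat_lit 103701),Row.mk (nat_lit 12264) (nat_lit 2431) (nat_lit 2683342862) (nat_lit 2618) (nat_lit 33562531) (nat_lit 3179) (nat_lit 129520),Row.mk (nat_lit 12432) (nat_lit 2431) (nat_lit 2683342987) (nat_lit 2618) (nat_lit 33530184) (nat_lit 3179) (nat_lit 161767),Row.mk (nat_lit 12600) (nat_lit 2431) (nat_lit 2683343142) (nat_lit 2618) (nat_lit 33489782) (nat_lit 3179) (nat_lit 202044),Row.mk (nat_lit 12768) (nat_lit 2431) (nat_lit 2683343337) (nat_lit 2618) (nat_lit 33439323) (nat_lit 3179) (nat_lit 252348),Row.mk (nat_lit 12936) (nat_lit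 2431) (nat_lit 2683343580) (nat_lit 2618) (nat_lit 33376299) (nat_lit 3179) (nat_lit 315177),Row.mk (nat_lit 13104) (nat_lit 2431) (nat_lit 2683343884) (nat_lit 2618) (nat_lit 33297585) (nat_lit 3179) (nat_lit 393648),Row.mk (nat_lit 13272) (nat_lit 2431) (nat_lit 2683344263) (nat_lit 2618) (nat_lit 33199272) (nat_lit 3179) (nat_lit 491657),Row.mk (nat_lit 13440) (nat_lit 2431) (nat_lit 2683344736) (nat_lit 2618) (nat_lit 33076482) (nat_lit 3179) (nat_lit 614068),Row.mk (nat_lit 13608) (nat_lit 2431) (nat_lit 2683345328) (nat_lit 2618) (nat_lit 32923121) (nat_lit 3179) (nat_lit 766956),Row.mk (nat_lit 13776) (nat_lit 2431) (nat_lit 2683346066) (nat_lit 2618) (nat_lit 32731575) (nat_lit 3179) (nat_lit 957910),Row.mk (nat_lit 13944) (nat_lit 2431) (nat_lit 2683346989) (nat_lit 2618) (nat_lit 32492340) (nat_lit 3179) (nat_lit 1196407),Row.mk (nat_lit 14112) (nat_lit 2431) (nat_lit 2683348141) (nat_lit 2618) (nat_lit 32193541) (nat_lit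 3179) (nat_lit 1494283),Row.mk (nat_lit 14280) (nat_lit 2431) (nat_lit 2683349580) (nat_lit 2618) (nat_lit 31820348) (nat_lit 3179) (nat_lit 1866324),Row.mk (nat_lit 14448) (nat_lit 2431) (nat_lit 2683351377) (nat_lit 2618) (nat_lit 31354240) (nat_lit 3179) (nat_lit 2330993),Row.mk (nat_lit 14616) (nat_lit 2431) (nat_lit 2683353622) (nat_lit 2618) (nat_lit 30772081) (nat_lit 3179) (nat_lit 2911354),Row.mk (nat_lit 14784) (nat_lit 2431) (nat_lit 2683356426) (nat_lit 2618) (nat_lit 30044979) (nat_lit 3179) (nat_lit 3636212),Row.mk (nat_lit 14952) (nat_lit 2431) (nat_lit 2683359928) (nat_lit 2618) (nat_lit 29136846) (nat_lit 3179) (nat_lit 4541541),Row.mk (nat_lit 15120) (nat_lit 2431) (nat_lit 2683364302) (nat_lit 2618) (nat_lit 28002610) (nat_lit 3179) (nat_lit 5672275),Row.mk (nat_lit 15288) (nat_lit 2431) (nat_lit 2683369764) (nat_lit 2618) (nat_lit 26585977) (nat_lit 3179) (nat_lit 7084535),Row.mk (nat_lit 15456) (nat_lit 2431)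 (nat_lit 2683376587) (nat_lit 2618) (nat_lit 24816636) (nat_lit 3179) (nat_lit 8848413),Row.mk (nat_lit 15624) (nat_lit 2431) (nat_lit 2683385109) (nat_lit 2618) (nat_lit 22606771) (nat_lit 3179) (nat_lit 11051455),Row.mk (nat_lit 15792) (nat_lit 2431) (nat_lit 2683395752) (nat_lit 2618) (nat_lit 19846704) (nat_lit 3179) (nat_lit 13803000),Row.mk (nat_lit 15960) (nat_lit 2431) (nat_lit 2683409045) (nat_lit 2618) (nat_lit 16399447) (nat_lit 3179) (nat_lit 17239614),Row.mk (nat_lit 16128) (nat_lit 2431) (nat_lit 2683425647) (nat_lit 2618) (nat_lit 12093906) (nat_lit 3179) (nat_lit 21531863),Row.mk (nat_lit 16296) (nat_lit 2431) (nat_lit 2683446383) (nat_lit 2618) (nat_lit 6716389) (nat_lit 3179) (nat_lit 26892777),Row.mk (nat_lit 16464) (nat_lit 2431) (nat_lit 2683472283) (nat_lit 3179) (nat_lit 33588430) (nat_lit 0) (nat_lit 0),Row.mk (nat_lit 16632) (nat_lit 2431) (nat_lit 2675116022) (nat_lit 2992) (nat_lit 8388608) (nat_lit 3179)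 (nat_lit 33562531),Row.mk (nat_lit 16800) (nat_lit 2431) (nat_lit 2664679254) (nat_lit 2992) (nat_lit 18865777) (nat_lit 3179) (nat_lit 33530184),Row.mk (nat_lit 16968) (nat_lit 2431) (nat_lit 2651643983) (nat_lit 2992) (nat_lit 31951508) (nat_lit 3179) (nat_lit 33489782),Row.mk (nat_lit 17136) (nat_lit 2431) (nat_lit 2635363243) (nat_lit 2992) (nat_lit 48295271) (nat_lit 3179) (nat_lit 33439323),Row.mk (nat_lit 17304) (nat_lit 2431) (nat_lit 2615028992) (nat_lit 2992) (nat_lit 68708236) (nat_lit 3179) (nat_lit 33376299),Row.mk (nat_lit 17472) (nat_lit 2431) (nat_lit 2589632003) (nat_lit 2992) (nat_lit 94203538) (nat_lit 3179) (nat_lit 33297585),Row.mk (nat_lit 17640) (nat_lit 2431) (nat_lit 2557911777) (nat_lit 2992) (nat_lit 126046554) (nat_lit 3179) (nat_lit 33199272),Row.mk (nat_lit 17808) (nat_lit 2431) (nat_lit 2518293979) (nat_lit 2992) (nat_lit 165817713) (nat_lit 3179) (nat_lit 33076482),Row.mk (nat_lit 17976) (nat_lit 2431)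 (nat_lit 2468812306) (nat_lit 2992) (nat_lit 215490932) (nat_lit 3179) (nat_lit 32923121),Row.mk (nat_lit 18144) (nat_lit 2431) (nat_lit 2407010889) (nat_lit 2992) (nat_lit 277531584) (nat_lit 3179) (nat_lit 32731575),Row.mk (nat_lit 18312) (nat_lit 2431) (nat_lit 2329822411) (nat_lit 2992) (nat_lit 355018861) (nat_lit 3179) (nat_lit 32492340),Row.mk (nat_lit 18480) (nat_lit 2431) (nat_lit 2233415863) (nat_lit 2992) (nat_lit 451798601) (nat_lit 3179) (nat_lit 32193541),Row.mk (nat_lit 18648) (nat_lit 2431) (nat_lit 2113006411) (nat_lit 2992) (nat_lit 572674162) (nat_lit 3179) (nat_lit 31820348),Row.mk (nat_lit 18816) (nat_lit 2431) (nat_lit 1962617911) (nat_lit 2992) (nat_lit 723644821) (nat_lit 3179) (nat_lit 31354240),Row.mk (nat_lit 18984) (nat_lit 2431) (nat_lit 1774786301) (nat_lit 2992) (nat_lit 912203533) (nat_lit 3179) (nat_lit 30772081),Row.mk (nat_lit 19152) (nat_lit 2431) (nat_lit 1540189152) (nat_lit 2992) (nat_lit 1147708815)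 (nat_lit 3179) (nat_lit 30044979),Row.mk (nat_lit 19320) (nat_lit 2431) (nat_lit 1247182972) (nat_lit 2992) (nat_lit 1441849230) (nat_lit 3179) (nat_lit 29136846),Row.mk (nat_lit 19488) (nat_lit 2431) (nat_lit 881225322) (nat_lit 2992) (nat_lit 1809223514) (nat_lit 3179) (nat_lit 28002610),Row.mk (nat_lit 19656) (nat_lit 2431) (nat_lit 424153045) (nat_lit 2992) (nat_lit 2268065132) (nat_lit 3179) (nat_lit 26585977),Row.mk (nat_lit 19824) (nat_lit 2992) (nat_lit 2601773073) (nat_lit 3553) (nat_lit 92654969) (nat_lit 3740) (nat_lit 24816636),Row.mk (nat_lit 19992) (nat_lit 2992) (nat_lit 2031451028) (nat_lit 3553) (nat_lit 665737080) (nat_lit 3740) (nat_lit 22606771),Row.mk (nat_lit 20160) (nat_lit 2992) (nat_lit 1319132553) (nat_lit 3553) (nat_lit 1381502813) (nat_lit 3740) (nat_lit 19846704),Row.mk (nat_lit 20328) (nat_lit 2992) (nat_lit 429463961) (nat_lit 3553) (nat_lit 2275476946) (nat_lit 3740) (nat_lit 16399447),Row.mk (nat_lit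 20496) (nat_lit 3553) (nat_lit 2176596627) (nat_lit 4114) (nat_lit 533721797) (nat_lit 4301) (nat_lit 12093906),Row.mk (nat_lit 20664) (nat_lit 3553) (nat_lit 1066760890) (nat_lit 4114) (nat_lit 1650273923) (nat_lit 4301) (nat_lit 6716389),Row.mk (nat_lit 20832) (nat_lit 4114) (nat_lit 2469696168) (nat_lit 4675) (nat_lit 255727253) (nat_lit 0) (nat_lit 0),Row.mk (nat_lit 21000) (nat_lit 3927) (nat_lit 10477169) (nat_lit 4114) (nat_lit 1075149498) (nat_lit 4675) (nat_lit 1641885315),Row.mk (nat_lit 21168) (nat_lit 4488) (nat_lit 23562900) (nat_lit 4675) (nat_lit 2191701624) (nat_lit 5236) (nat_lit 514856020),Row.mk (nat_lit 21336) (nat_lit 4488) (nat_lit 39906663) (nat_lit 4675) (nat_lit 449946476) (nat_lit 5236) (nat_lit 2243525437),Row.mk (nat_lit 21504) (nat_lit 5049) (nat_lit 60319628) (nat_lit 5236) (nat_lit 1343920608) (nat_lit 5797) (nat_lit 1333207542),Row.mk (nat_lit 21672) (nat_lit 5610) (nat_lit 85814930) (nat_lit 5797)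 (nat_lit 2059686341) (nat_lit 6358) (nat_lit 597028844),Row.mk (nat_lit 21840) (nat_lit 5610) (nat_lit 1934124) (nat_lit 6171) (nat_lit 115723821) (nat_lit 6358) (nat_lit 2631219884),Row.mk (nat_lit 22008) (nat_lit 6171) (nat_lit 157429105) (nat_lit 6358) (nat_lit 457358290) (nat_lit 6919) (nat_lit 2142018577),Row.mk (nat_lit 22176) (nat_lit 6732) (nat_lit 207102324) (nat_lit 6919) (nat_lit 916199907) (nat_lit 7480) (nat_lit 1643405800),Row.mk (nat_lit 22344) (nat_lit 7293) (nat_lit 269142976) (nat_lit 7480) (nat_lit 1283574191) (nat_lit 8041) (nat_lit 1226358298),Row.mk (nat_lit 22512) (nat_lit 7854) (nat_lit 346630253) (nat_lit 8041) (nat_lit 1577714607) (nat_lit 8602) (nat_lit 870177230),Row.mk (nat_lit 22680) (nat_lit 8415) (nat_lit 443409993) (nat_lit 8602) (nat_lit 1813219889) (nat_lit 9163) (nat_lit 557184671),Row.mk (nat_lit 22848) (nat_lit 8976) (nat_lit 564285554) (nat_lit 9163) (nat_lit 2001778600) (nat_lit 9724) (nat_lit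 271846220),Row.mk (nat_lit 23016) (nat_lit 9537) (nat_lit 715256213) (nat_lit 9724) (nat_lit 2152749260) (nat_lit 0) (nat_lit 0),Row.mk (nat_lit 23184) (nat_lit 9537) (nat_lit 339529370) (nat_lit 10098) (nat_lit 564285554) (nat_lit 10285) (nat_lit 2001778600),Row.mk (nat_lit 23352) (nat_lit 10098) (nat_lit 695910213) (nat_lit 10659) (nat_lit 443409993) (nat_lit 10846) (nat_lit 1813219889),Row.mk (nat_lit 23520) (nat_lit 10659) (nat_lit 1086830369) (nat_lit 11220) (nat_lit 346630253) (nat_lit 11407) (nat_lit 1577714607),Row.mk (nat_lit 23688) (nat_lit 11220) (nat_lit 1531691930) (nat_lit 11781) (nat_lit 269142976) (nat_lit 11968) (nat_lit 1283574191),Row.mk (nat_lit 23856) (nat_lit 11781) (nat_lit 2052574199) (nat_lit 12529) (nat_lit 207102324) (nat_lit 12716) (nat_lit 916199907),Row.mk (nat_lit 24024) (nat_lit 12529) (nat_lit 2675329530) (nat_lit 13277) (nat_lit 157429105) (nat_lit 13464) (nat_lit 457358290),Row.mk (nat_lit 24192)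 (nat_lit 13090) (nat_lit 144536261) (nat_lit 13277) (nat_lit 3286330160) (nat_lit 14025) (nat_lit 1934124),Row.mk (nat_lit 24360) (nat_lit 13090) (nat_lit 931329616) (nat_lit 13838) (nat_lit 107180777) (nat_lit 14025) (nat_lit 2572498553),Row.mk (nat_lit 24528) (nat_lit 13838) (nat_lit 2079724759) (nat_lit 14960) (nat_lit 75337761) (nat_lit 15147) (nat_lit 1678524420),Row.mk (nat_lit 24696) (nat_lit 14960) (nat_lit 3499766730) (nat_lit 16269) (nat_lit 49842459) (nat_lit 16456) (nat_lit 561972294),Row.mk (nat_lit 24864) (nat_lit 14773) (nat_lit 1003108581) (nat_lit 16082) (nat_lit 36756728) (nat_lit 16269) (nat_lit 3418924653),Row.mk (nat_lit 25032) (nat_lit 16082) (nat_lit 3198931710) (nat_lit 17578) (nat_lit 16343762) (nat_lit 17765) (nat_lit 1677169504),Row.mk (nat_lit 25200) (nat_lit 15895) (nat_lit 622290563) (nat_lit 17578) (nat_lit 4811779065) (nat_lit 0) (nat_lit 0),Row.mk (nat_lit 25368) (nat_lit 17391) (nat_lit 4015801501)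 (nat_lit 17578) (nat_lit 16343762) (nat_lit 19635) (nat_lit 2078400488),Row.mk (nat_lit 25536) (nat_lit 17204) (nat_lit 1622128260) (nat_lit 17391) (nat_lit 36756728) (nat_lit 19448) (nat_lit 5296563122),Row.mk (nat_lit 25704) (nat_lit 19261) (nat_lit 6915804222) (nat_lit 19448) (nat_lit 49842459) (nat_lit 25806) (nat_lit 1045064094),Row.mk (nat_lit 25872) (nat_lit 19074) (nat_lit 5244161699) (nat_lit 19261) (nat_lit 75337761) (nat_lit 25619) (nat_lit 4009208925),Row.mk (nat_lit 26040) (nat_lit 18887) (nat_lit 3156320516) (nat_lit 19074) (nat_lit 107180777) (nat_lit 25432) (nat_lit 7711354314),Row.mk (nat_lit 26208) (nat_lit 18700) (nat_lit 548657244) (nat_lit 18887) (nat_lit 146951936) (nat_lit 25245) (nat_lit 12335244594),Row.mk (nat_lit 26376) (nat_lit 25058) (nat_lit 13430368317) (nat_lit 25245) (nat_lit 157429105) (nat_lit 31603) (nat_lit 2010948464),Row.mk (nat_lit 26544) (nat_lit 24871) (nat_lit 13380695098) (nat_lit 25058)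 (nat_lit 207102324) (nat_lit 31416) (nat_lit 5218183765),Row.mk (nat_lit 26712) (nat_lit 24684) (nat_lit 13318654447) (nat_lit 24871) (nat_lit 269142976) (nat_lit 31229) (nat_lit 9223943286),Row.mk (nat_lit 26880) (nat_lit 24497) (nat_lit 13241167169) (nat_lit 24684) (nat_lit 346630253) (nat_lit 31042) (nat_lit 14227040293),Row.mk (nat_lit 27048) (nat_lit 24310) (nat_lit 13144387429) (nat_lit 24497) (nat_lit 443409993) (nat_lit 30855) (nat_lit 20475787761),Row.mk (nat_lit 27216) (nat_lit 24123) (nat_lit 13023511868) (nat_lit 24310) (nat_lit 564285554) (nat_lit 30668) (nat_lit 28280322605),Row.mk (nat_lit 27384) (nat_lit 23936) (nat_lit 12872541209) (nat_lit 24123) (nat_lit 715256213) (nat_lit 30481) (nat_lit 38027998351),Row.mk (nat_lit 27552) (nat_lit 23749) (nat_lit 12683982498) (nat_lit 23936) (nat_lit 903814925) (nat_lit 30294) (nat_lit 50202610206),Row.mk (nat_lit 27720) (nat_lit 23562) (nat_lit 12448477216) (nat_lit 23749) (nat_lit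 1139320207) (nat_lit 30107) (nat_lit 65408406714),Row.mk (nat_lit 27888) (nat_lit 23375) (nat_lit 12154336800) (nat_lit 23562) (nat_lit 1433460622) (nat_lit 29920) (nat_lit 84400079732),Row.mk (nat_lit 28056) (nat_lit 23188) (nat_lit 11786962516) (nat_lit 23375) (nat_lit 1800834906) (nat_lit 29733) (nat_lit 108120221180),Row.mk (nat_lit 28224) (nat_lit 23001) (nat_lit 11328120898) (nat_lit 23188) (nat_lit 2259676524) (nat_lit 29546) (nat_lit 137746105628),Row.mk (nat_lit 28392) (nat_lit 22814) (nat_lit 10755038787) (nat_lit 23001) (nat_lit 2832758635) (nat_lit 29359) (nat_lit 174748120615),Row.mk (nat_lit 28560) (nat_lit 22627) (nat_lit 10039273054) (nat_lit 22814) (nat_lit 3548524368) (nat_lit 29172) (nat_lit 220962744704),Row.mk (nat_lit 28728) (nat_lit 22440) (nat_lit 9145298921) (nat_lit 22627) (nat_lit 4442498501) (nat_lit 28985) (nat_lit 278683695318),Row.mk (nat_lit 28896) (nat_lit 22253) (nat_lit 8028746795) (nat_lit 22440)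 (nat_lit 5559050627) (nat_lit 28798) (nat_lit 350775770187),Row.mk (nat_lit 29064) (nat_lit 22066) (nat_lit 6634200126) (nat_lit 22253) (nat_lit 6953597296) (nat_lit 28611) (nat_lit 440817032562),Row.mk (nat_lit 29232) (nat_lit 21879) (nat_lit 4892444977) (nat_lit 22066) (nat_lit 8695352445) (nat_lit 28424) (nat_lit 553276397132),Row.mk (nat_lit 29400) (nat_lit 21692) (nat_lit 2717034814) (nat_lit 21879) (nat_lit 10870762608) (nat_lit 28237) (nat_lit 693735430531),Row.mk (nat_lit 29568) (nat_lit 21692) (nat_lit 13587797423) (nat_lit 28050) (nat_lit 869165374841) (nat_lit 0) (nat_lit 0),Row.mk (nat_lit 29736) (nat_lit 21505) (nat_lit 13587797423) (nat_lit 27863) (nat_lit 1085556108431) (nat_lit 28050) (nat_lit 2717034814),Row.mk (nat_lit 29904) (nat_lit 21318) (nat_lit 13587797423) (nat_lit 27676) (nat_lit 1355822914517) (nat_lit 27863) (nat_lit 6110545752),Row.mk (nat_lit 30072) (nat_lit 21131) (nat_lit 13587797423) (nat_lit 27489)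 (nat_lit 1693379635455) (nat_lit 27676) (nat_lit 10348959049),Row.mk (nat_lit 30240) (nat_lit 20944) (nat_lit 13587797423) (nat_lit 27302) (nat_lit 2114979836754) (nat_lit 27489) (nat_lit 15642635011),Row.mk (nat_lit 30408) (nat_lit 32912) (nat_lit 2725423422) (nat_lit 62084) (nat_lit 2671956353953) (nat_lit 0) (nat_lit 0),Row.mk (nat_lit 30576) (nat_lit 32912) (nat_lit 2725423422) (nat_lit 62084) (nat_lit 3337885504457) (nat_lit 0) (nat_lit 0),Row.mk (nat_lit 30744) (nat_lit 32912) (nat_lit 2725423422) (nat_lit 62084) (nat_lit 4169614948690) (nat_lit 0) (nat_lit 0),Row.mk (nat_lit 30912) (nat_lit 32912) (nat_lit 2725423422) (nat_lit 62084) (nat_lit 5208424960059) (nat_lit 0) (nat_lit 0),Row.mk (nat_lit 31080) (nat_lit 32912) (nat_lit 2725423422) (nat_lit 62084) (nat_lit 6505873604208) (nat_lit 0) (nat_lit 0),Row.mk (nat_lit 31248) (nat_lit 32912) (nat_lit 2725423422) (nat_lit 62084) (nat_lit 8126355661353) (nat_lit 0) (nat_lit 0)],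
[Row.mk (nat_lit 10752) (nat_lit 1870) (nat_lit 3359818552) (nat_lit 2057) (nat_lit 33670512) (nat_lit 2618) (nat_lit 21886),Row.mk (nat_lit 10920) (nat_lit 1870) (nat_lit 3359818569) (nat_lit 2057) (nat_lit 33665049) (nat_lit 2618) (nat_lit 27335),Row.mk (nat_lit 11088) (nat_lit 1870) (nat_lit 3359818590) (nat_lit 2057) (nat_lit 33658226) (nat_lit 2618) (nat_lit 34141),Row.mk (nat_lit 11256) (nat_lit 1870) (nat_lit 3359818617) (nat_lit 2057) (nat_lit 33649705) (nat_lit 2618) (nat_lit 42641),Row.mk (nat_lit 11424) (nat_lit 1870) (nat_lit 3359818649) (nat_lit 2057) (nat_lit 33639062) (nat_lit 2618) (nat_lit 53258),Row.mk (nat_lit 11592) (nat_lit 1870) (nat_lit 3359818690) (nat_lit 2057) (nat_lit 33625769) (nat_lit 2618) (nat_lit 66518),Row.mk (nat_lit 11760) (nat_lit 1870) (nat_lit 3359818742) (nat_lit 2057) (nat_lit 33609166) (nat_lit 2618) (nat_lit 83080),Row.mk (nat_lit 11928) (nat_lit 1870) (nat_lit 3359818806) (nat_lit 2057) (nat_lit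 33588430) (nat_lit 2618) (nat_lit 103765),Row.mk (nat_lit 12096) (nat_lit 1870) (nat_lit 3359818886) (nat_lit 2057) (nat_lit 33562531) (nat_lit 2618) (nat_lit 129600),Row.mk (nat_lit 12264) (nat_lit 1870) (nat_lit 3359818986) (nat_lit 2057) (nat_lit 33530184) (nat_lit 2618) (nat_lit 161867),Row.mk (nat_lit 12432) (nat_lit 1870) (nat_lit 3359819110) (nat_lit 2057) (nat_lit 33489782) (nat_lit 2618) (nat_lit 202169),Row.mk (nat_lit 12600) (nat_lit 1870) (nat_lit 3359819266) (nat_lit 2057) (nat_lit 33439323) (nat_lit 2618) (nat_lit 252504),Row.mk (nat_lit 12768) (nat_lit 1870) (nat_lit 3359819461) (nat_lit 2057) (nat_lit 33376299) (nat_lit 2618) (nat_lit 315371),Row.mk (nat_lit 12936) (nat_lit 1870) (nat_lit 3359819704) (nat_lit 2057) (nat_lit 33297585) (nat_lit 2618) (nat_lit 393891),Row.mk (nat_lit 13104) (nat_lit 1870) (nat_lit 3359820007) (nat_lit 2057) (nat_lit 33199272) (nat_lit 2618) (nat_lit 491961),Row.mk (nat_lit 13272) (nat_lit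 1870) (nat_lit 3359820386) (nat_lit 2057) (nat_lit 33076482) (nat_lit 2618) (nat_lit 614447),Row.mk (nat_lit 13440) (nat_lit 1870) (nat_lit 3359820860) (nat_lit 2057) (nat_lit 32923121) (nat_lit 2618) (nat_lit 767430),Row.mk (nat_lit 13608) (nat_lit 1870) (nat_lit 3359821451) (nat_lit 2057) (nat_lit 32731575) (nat_lit 2618) (nat_lit 958501),Row.mk (nat_lit 13776) (nat_lit 1870) (nat_lit 3359822190) (nat_lit 2057) (nat_lit 32492340) (nat_lit 2618) (nat_lit 1197145),Row.mk (nat_lit 13944) (nat_lit 1870) (nat_lit 3359823112) (nat_lit 2057) (nat_lit 32193541) (nat_lit 2618) (nat_lit 1495206),Row.mk (nat_lit 14112) (nat_lit 1870) (nat_lit 3359824265) (nat_lit 2057) (nat_lit 31820348) (nat_lit 2618) (nat_lit 1867476),Row.mk (nat_lit 14280) (nat_lit 1870) (nat_lit 3359825704) (nat_lit 2057) (nat_lit 31354240) (nat_lit 2618) (nat_lit 2332432),Row.mk (nat_lit 14448) (nat_lit 1870) (nat_lit 3359827501) (nat_lit 2057) (nat_lit 30772081) (nat_lit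 2618) (nat_lit 2913152),Row.mk (nat_lit 14616) (nat_lit 1870) (nat_lit 3359829746) (nat_lit 2057) (nat_lit 30044979) (nat_lit 2618) (nat_lit 3638456),Row.mk (nat_lit 14784) (nat_lit 1870) (nat_lit 3359832550) (nat_lit 2057) (nat_lit 29136846) (nat_lit 2618) (nat_lit 4544344),Row.mk (nat_lit 14952) (nat_lit 1870) (nat_lit 3359836051) (nat_lit 2057) (nat_lit 28002610) (nat_lit 2618) (nat_lit 5675777),Row.mk (nat_lit 15120) (nat_lit 1870) (nat_lit 3359840425) (nat_lit 2057) (nat_lit 26585977) (nat_lit 2618) (nat_lit 7088908),Row.mk (nat_lit 15288) (nat_lit 1870) (nat_lit 3359845888) (nat_lit 2057) (nat_lit 24816636) (nat_lit 2618) (nat_lit 8853876),Row.mk (nat_lit 15456) (nat_lit 1870) (nat_lit 3359852711) (nat_lit 2057) (nat_lit 22606771) (nat_lit 2618) (nat_lit 11058277),Row.mk (nat_lit 15624) (nat_lit 1870) (nat_lit 3359861232) (nat_lit 2057) (nat_lit 19846704) (nat_lit 2618) (nat_lit 13811522),Row.mk (nat_lit 15792) (nat_lit 1870)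 (nat_lit 3359871875) (nat_lit 2057) (nat_lit 16399447) (nat_lit 2618) (nat_lit 17250257),Row.mk (nat_lit 15960) (nat_lit 1870) (nat_lit 3359885168) (nat_lit 2057) (nat_lit 12093906) (nat_lit 2618) (nat_lit 21545156),Row.mk (nat_lit 16128) (nat_lit 1870) (nat_lit 3359901771) (nat_lit 2057) (nat_lit 6716389) (nat_lit 2618) (nat_lit 26909380),Row.mk (nat_lit 16296) (nat_lit 1870) (nat_lit 3359922507) (nat_lit 2618) (nat_lit 33609166) (nat_lit 0) (nat_lit 0),Row.mk (nat_lit 16464) (nat_lit 1870) (nat_lit 3351559798) (nat_lit 2431) (nat_lit 8388608) (nat_lit 2618) (nat_lit 33588430),Row.mk (nat_lit 16632) (nat_lit 1870) (nat_lit 3341114976) (nat_lit 2431) (nat_lit 18865777) (nat_lit 2618) (nat_lit 33562531),Row.mk (nat_lit 16800) (nat_lit 1870) (nat_lit 3328069646) (nat_lit 2431) (nat_lit 31951508) (nat_lit 2618) (nat_lit 33530184),Row.mk (nat_lit 16968) (nat_lit 1870) (nat_lit 3311776343) (nat_lit 2431) (nat_lit 48295271) (nat_lit 2618)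 (nat_lit 33489782),Row.mk (nat_lit 17136) (nat_lit 1870) (nat_lit 3291426401) (nat_lit 2431) (nat_lit 68708236) (nat_lit 2618) (nat_lit 33439323),Row.mk (nat_lit 17304) (nat_lit 1870) (nat_lit 3266009814) (nat_lit 2431) (nat_lit 94203538) (nat_lit 2618) (nat_lit 33376299),Row.mk (nat_lit 17472) (nat_lit 1870) (nat_lit 3234265110) (nat_lit 2431) (nat_lit 126046554) (nat_lit 2618) (nat_lit 33297585),Row.mk (nat_lit 17640) (nat_lit 1870) (nat_lit 3194616741) (nat_lit 2431) (nat_lit 165817713) (nat_lit 2618) (nat_lit 33199272),Row.mk (nat_lit 17808) (nat_lit 1870) (nat_lit 3145096884) (nat_lit 2431) (nat_lit 215490932) (nat_lit 2618) (nat_lit 33076482),Row.mk (nat_lit 17976) (nat_lit 1870) (nat_lit 3083247777) (nat_lit 2431) (nat_lit 277531584) (nat_lit 2618) (nat_lit 32923121),Row.mk (nat_lit 18144) (nat_lit 1870) (nat_lit 3005999735) (nat_lit 2431) (nat_lit 355018861) (nat_lit 2618) (nat_lit 32731575),Row.mk (nat_lit 18312) (nat_lit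 1870) (nat_lit 2909518794) (nat_lit 2431) (nat_lit 451798601) (nat_lit 2618) (nat_lit 32492340),Row.mk (nat_lit 18480) (nat_lit 1870) (nat_lit 2789016426) (nat_lit 2431) (nat_lit 572674162) (nat_lit 2618) (nat_lit 32193541),Row.mk (nat_lit 18648) (nat_lit 1870) (nat_lit 2638511876) (nat_lit 2431) (nat_lit 723644821) (nat_lit 2618) (nat_lit 31820348),Row.mk (nat_lit 18816) (nat_lit 1870) (nat_lit 2450535323) (nat_lit 2431) (nat_lit 912203533) (nat_lit 2618) (nat_lit 31354240),Row.mk (nat_lit 18984) (nat_lit 1870) (nat_lit 2215757143) (nat_lit 2431) (nat_lit 1147708815) (nat_lit 2618) (nat_lit 30772081),Row.mk (nat_lit 19152) (nat_lit 1870) (nat_lit 1922524860) (nat_lit 2431) (nat_lit 1441849230) (nat_lit 2618) (nat_lit 30044979),Row.mk (nat_lit 19320) (nat_lit 1870) (nat_lit 1556284812) (nat_lit 2431) (nat_lit 1809223514) (nat_lit 2618) (nat_lit 29136846),Row.mk (nat_lit 19488) (nat_lit 1870) (nat_lit 1098859828) (nat_lit 2431) (nat_lit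 2268065132) (nat_lit 2618) (nat_lit 28002610),Row.mk (nat_lit 19656) (nat_lit 1870) (nat_lit 527547057) (nat_lit 2431) (nat_lit 2841147243) (nat_lit 2618) (nat_lit 26585977),Row.mk (nat_lit 19824) (nat_lit 2431) (nat_lit 3246791736) (nat_lit 2992) (nat_lit 124112429) (nat_lit 3179) (nat_lit 24816636),Row.mk (nat_lit 19992) (nat_lit 2431) (nat_lit 2533786071) (nat_lit 2992) (nat_lit 839878162) (nat_lit 3179) (nat_lit 22606771),Row.mk (nat_lit 20160) (nat_lit 2431) (nat_lit 1643259195) (nat_lit 2992) (nat_lit 1733852294) (nat_lit 3179) (nat_lit 19846704),Row.mk (nat_lit 20328) (nat_lit 2431) (nat_lit 531012611) (nat_lit 2992) (nat_lit 2850404420) (nat_lit 3179) (nat_lit 16399447),Row.mk (nat_lit 20496) (nat_lit 2992) (nat_lit 2711800291) (nat_lit 3553) (nat_lit 674994257) (nat_lit 3740) (nat_lit 12093906),Row.mk (nat_lit 20664) (nat_lit 2992) (nat_lit 1323970010) (nat_lit 3553) (nat_lit 2069540927) (nat_lit 3740) (nat_lit 6716389),Row.mk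 (nat_lit 20832) (nat_lit 3553) (nat_lit 3074113767) (nat_lit 4114) (nat_lit 327785778) (nat_lit 0) (nat_lit 0),Row.mk (nat_lit 21000) (nat_lit 3366) (nat_lit 10477169) (nat_lit 3553) (nat_lit 1332358618) (nat_lit 4114) (nat_lit 2061152319),Row.mk (nat_lit 21168) (nat_lit 3927) (nat_lit 23562900) (nat_lit 4114) (nat_lit 2726905288) (nat_lit 4675) (nat_lit 656128480),Row.mk (nat_lit 21336) (nat_lit 3927) (nat_lit 39906663) (nat_lit 4114) (nat_lit 551495125) (nat_lit 4675) (nat_lit 2818452912),Row.mk (nat_lit 21504) (nat_lit 4488) (nat_lit 60319628) (nat_lit 4675) (nat_lit 1668047251) (nat_lit 5236) (nat_lit 1685557023),Row.mk (nat_lit 21672) (nat_lit 5049) (nat_lit 85814930) (nat_lit 5236) (nat_lit 2562021383) (nat_lit 5797) (nat_lit 771169925),Row.mk (nat_lit 21840) (nat_lit 5610) (nat_lit 117657946) (nat_lit 5797) (nat_lit 3277787116) (nat_lit 6358) (nat_lit 29908891),Row.mk (nat_lit 22008) (nat_lit 5610) (nat_lit 157429105) (nat_lit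 5797) (nat_lit 560752302) (nat_lit 6358) (nat_lit 2715100689),Row.mk (nat_lit 22176) (nat_lit 6171) (nat_lit 207102324) (nat_lit 6358) (nat_lit 1133834413) (nat_lit 6919) (nat_lit 2102247418),Row.mk (nat_lit 22344) (nat_lit 6732) (nat_lit 269142976) (nat_lit 6919) (nat_lit 1592676031) (nat_lit 7480) (nat_lit 1593732582),Row.mk (nat_lit 22512) (nat_lit 7293) (nat_lit 346630253) (nat_lit 7480) (nat_lit 1960050315) (nat_lit 8041) (nat_lit 1164317646),Row.mk (nat_lit 22680) (nat_lit 7854) (nat_lit 443409993) (nat_lit 8041) (nat_lit 2254190730) (nat_lit 8602) (nat_lit 792689953),Row.mk (nat_lit 22848) (nat_lit 8415) (nat_lit 564285554) (nat_lit 8602) (nat_lit 2489696012) (nat_lit 9163) (nat_lit 460404931),Row.mk (nat_lit 23016) (nat_lit 8976) (nat_lit 715256213) (nat_lit 9163) (nat_lit 2678254724) (nat_lit 9724) (nat_lit 150970659),Row.mk (nat_lit 23184) (nat_lit 8976) (nat_lit 188558711) (nat_lit 9537) (nat_lit 715256213) (nat_lit 9724)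 (nat_lit 2678254724),Row.mk (nat_lit 23352) (nat_lit 9537) (nat_lit 575034652) (nat_lit 10098) (nat_lit 564285554) (nat_lit 10285) (nat_lit 2489696012),Row.mk (nat_lit 23520) (nat_lit 10098) (nat_lit 990050629) (nat_lit 10659) (nat_lit 443409993) (nat_lit 10846) (nat_lit 2254190730),Row.mk (nat_lit 23688) (nat_lit 10659) (nat_lit 1454204653) (nat_lit 11220) (nat_lit 346630253) (nat_lit 11407) (nat_lit 1960050315),Row.mk (nat_lit 23856) (nat_lit 11220) (nat_lit 1990533548) (nat_lit 11781) (nat_lit 269142976) (nat_lit 11968) (nat_lit 1592676031),Row.mk (nat_lit 24024) (nat_lit 11781) (nat_lit 2625656311) (nat_lit 12529) (nat_lit 207102324) (nat_lit 12716) (nat_lit 1133834413),Row.mk (nat_lit 24192) (nat_lit 12529) (nat_lit 3391095262) (nat_lit 13277) (nat_lit 157429105) (nat_lit 13464) (nat_lit 560752302),Row.mk (nat_lit 24360) (nat_lit 12342) (nat_lit 46656098) (nat_lit 13090) (nat_lit 146951936) (nat_lit 13277) (nat_lit 4093877035),Row.mk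 (nat_lit 24528) (nat_lit 13090) (nat_lit 1202979383) (nat_lit 13838) (nat_lit 107180777) (nat_lit 14025) (nat_lit 3199902902),Row.mk (nat_lit 24696) (nat_lit 13838) (nat_lit 2629369069) (nat_lit 14960) (nat_lit 75337761) (nat_lit 15147) (nat_lit 2083350777),Row.mk (nat_lit 24864) (nat_lit 14960) (nat_lit 4396619519) (nat_lit 16269) (nat_lit 49842459) (nat_lit 16456) (nat_lit 688804107),Row.mk (nat_lit 25032) (nat_lit 14773) (nat_lit 1278353721) (nat_lit 16082) (nat_lit 36756728) (nat_lit 16269) (nat_lit 4253810651),Row.mk (nat_lit 25200) (nat_lit 16082) (nat_lit 4015801501) (nat_lit 17578) (nat_lit 16343762) (nat_lit 17765) (nat_lit 2078400488),Row.mk (nat_lit 25368) (nat_lit 15895) (nat_lit 797638866) (nat_lit 17578) (nat_lit 5989383009) (nat_lit 0) (nat_lit 0),Row.mk (nat_lit 25536) (nat_lit 17391) (nat_lit 5036052164) (nat_lit 17578) (nat_lit 16343762) (nat_lit 19635) (nat_lit 2579528308),Row.mk (nat_lit 25704) (nat_lit 17204)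 (nat_lit 2051494367) (nat_lit 17391) (nat_lit 36756728) (nat_lit 19448) (nat_lit 6598935804),Row.mk (nat_lit 25872) (nat_lit 19261) (nat_lit 8663167939) (nat_lit 19448) (nat_lit 49842459) (nat_lit 25806) (nat_lit 1292174111),Row.mk (nat_lit 26040) (nat_lit 19074) (nat_lit 6581674470) (nat_lit 19261) (nat_lit 75337761) (nat_lit 25619) (nat_lit 4994319499),Row.mk (nat_lit 26208) (nat_lit 18887) (nat_lit 3981939341) (nat_lit 19074) (nat_lit 107180777) (nat_lit 25432) (nat_lit 9618209779),Row.mk (nat_lit 26376) (nat_lit 18700) (nat_lit 734932880) (nat_lit 18887) (nat_lit 146951936) (nat_lit 25245) (nat_lit 15393337193),Row.mk (nat_lit 26544) (nat_lit 25058) (nat_lit 16823879255) (nat_lit 25245) (nat_lit 157429105) (nat_lit 31603) (nat_lit 2501148951),Row.mk (nat_lit 26712) (nat_lit 24871) (nat_lit 16774206036) (nat_lit 25058) (nat_lit 207102324) (nat_lit 31416) (nat_lit 6506908472),Row.mk (nat_lit 26880) (nat_lit 24684) (nat_lit 16712165385)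 (nat_lit 24871) (nat_lit 269142976) (nat_lit 31229) (nat_lit 11510005479),Row.mk (nat_lit 27048) (nat_lit 24497) (nat_lit 16634678107) (nat_lit 24684) (nat_lit 346630253) (nat_lit 31042) (nat_lit 17758752947),Row.mk (nat_lit 27216) (nat_lit 24310) (nat_lit 16537898367) (nat_lit 24497) (nat_lit 443409993) (nat_lit 30855) (nat_lit 25563287791),Row.mk (nat_lit 27384) (nat_lit 24123) (nat_lit 16417022806) (nat_lit 24310) (nat_lit 564285554) (nat_lit 30668) (nat_lit 35310963536),Row.mk (nat_lit 27552) (nat_lit 23936) (nat_lit 16266052147) (nat_lit 24123) (nat_lit 715256213) (nat_lit 30481) (nat_lit 47485575391),Row.mk (nat_lit 27720) (nat_lit 23749) (nat_lit 16077493436) (nat_lit 23936) (nat_lit 903814925) (nat_lit 30294) (nat_lit 62691371900),Row.mk (nat_lit 27888) (nat_lit 23562) (nat_lit 15841988154) (nat_lit 23749) (nat_lit 1139320207) (nat_lit 30107) (nat_lit 81683044918),Row.mk (nat_lit 28056) (nat_lit 23375) (nat_lit 15547847738)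 (nat_lit 23562) (nat_lit 1433460622) (nat_lit 29920) (nat_lit 105403186365),Row.mk (nat_lit 28224) (nat_lit 23188) (nat_lit 15180473454) (nat_lit 23375) (nat_lit 1800834906) (nat_lit 29733) (nat_lit 135029070814),Row.mk (nat_lit 28392) (nat_lit 23001) (nat_lit 14721631836) (nat_lit 23188) (nat_lit 2259676524) (nat_lit 29546) (nat_lit 172031085800),Row.mk (nat_lit 28560) (nat_lit 22814) (nat_lit 14148549725) (nat_lit 23001) (nat_lit 2832758635) (nat_lit 29359) (nat_lit 218245709889),Row.mk (nat_lit 28728) (nat_lit 22627) (nat_lit 13432783992) (nat_lit 22814) (nat_lit 3548524368) (nat_lit 29172) (nat_lit 275966660504),Row.mk (nat_lit 28896) (nat_lit 22440) (nat_lit 12538809859) (nat_lit 22627) (nat_lit 4442498501) (nat_lit 28985) (nat_lit 348058735372),Row.mk (nat_lit 29064) (nat_lit 22253) (nat_lit 11422257733) (nat_lit 22440) (nat_lit 5559050627) (nat_lit 28798) (nat_lit 438099997748),Row.mk (nat_lit 29232) (nat_lit 22066) (nat_lit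 10027711064) (nat_lit 22253) (nat_lit 6953597296) (nat_lit 28611) (nat_lit 550559362317),Row.mk (nat_lit 29400) (nat_lit 21879) (nat_lit 8285955915) (nat_lit 22066) (nat_lit 8695352445) (nat_lit 28424) (nat_lit 691018395717),Row.mk (nat_lit 29568) (nat_lit 21692) (nat_lit 6110545752) (nat_lit 21879) (nat_lit 10870762608) (nat_lit 28237) (nat_lit 866448340026),Row.mk (nat_lit 29736) (nat_lit 21505) (nat_lit 3393510938) (nat_lit 21692) (nat_lit 13587797423) (nat_lit 28050) (nat_lit 1085556108431),Row.mk (nat_lit 29904) (nat_lit 21505) (nat_lit 16981308361) (nat_lit 27863) (nat_lit 1359216425455) (nat_lit 0) (nat_lit 0),Row.mk (nat_lit 30072) (nat_lit 21318) (nat_lit 16981308361) (nat_lit 27676) (nat_lit 1697618048752) (nat_lit 27863) (nat_lit 3393510938),Row.mk (nat_lit 30240) (nat_lit 21131) (nat_lit 16981308361) (nat_lit 27489) (nat_lit 2120273512716) (nat_lit 27676) (nat_lit 7631924235),Row.mk (nat_lit 30408) (nat_lit 20944) (nat_lit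 16981308361) (nat_lit 27302) (nat_lit 2648159991148) (nat_lit 27489) (nat_lit 12925600196),Row.mk (nat_lit 30576) (nat_lit 32912) (nat_lit 3401899546) (nat_lit 62084) (nat_lit 3337209028333) (nat_lit 0) (nat_lit 0),Row.mk (nat_lit 30744) (nat_lit 32912) (nat_lit 3401899546) (nat_lit 62084) (nat_lit 4168938472567) (nat_lit 0) (nat_lit 0),Row.mk (nat_lit 30912) (nat_lit 32912) (nat_lit 3401899546) (nat_lit 62084) (nat_lit 5207748483936) (nat_lit 0) (nat_lit 0),Row.mk (nat_lit 31080) (nat_lit 32912) (nat_lit 3401899546) (nat_lit 62084) (nat_lit 6505197128085) (nat_lit 0) (nat_lit 0),Row.mk (nat_lit 31248) (nat_lit 32912) (nat_lit 3401899546) (nat_lit 62084) (nat_lit 8125679185229) (nat_lit 0) (nat_lit 0)],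
[Row.mk (nat_lit 11088) (nat_lit 1309) (nat_lit 4204720949) (nat_lit 1496) (nat_lit 33649705) (nat_lit 2057) (nat_lit 42662),Row.mk (nat_lit 11256) (nat_lit 1309) (nat_lit 4204720976) (nat_lit 1496) (nat_lit 33639062) (nat_lit 2057) (nat_lit 53284),Row.mk (nat_lit 11424) (nat_lit 1309) (nat_lit 4204721009) (nat_lit 1496) (nat_lit 33625769) (nat_lit 2057) (nat_lit 66551),Row.mk (nat_lit 11592) (nat_lit 1309) (nat_lit 4204721050) (nat_lit 1496) (nat_lit 33609166) (nat_lit 2057) (nat_lit 83121),Row.mk (nat_lit 11760) (nat_lit 1309) (nat_lit 4204721101) (nat_lit 1496) (nat_lit 33588430) (nat_lit 2057) (nat_lit 103816),Row.mk (nat_lit 11928) (nat_lit 1309) (nat_lit 4204721165) (nat_lit 1496) (nat_lit 33562531) (nat_lit 2057) (nat_lit 129664),Row.mk (nat_lit 12096) (nat_lit 1309) (nat_lit 4204721245) (nat_lit 1496) (nat_lit 33530184) (nat_lit 2057) (nat_lit 161947),Row.mk (nat_lit 12264) (nat_lit 1309) (nat_lit 4204721345) (nat_lit 1496)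 (nat_lit 33489782) (nat_lit 2057) (nat_lit 202268),Row.mk (nat_lit 12432) (nat_lit 1309) (nat_lit 4204721469) (nat_lit 1496) (nat_lit 33439323) (nat_lit 2057) (nat_lit 252628),Row.mk (nat_lit 12600) (nat_lit 1309) (nat_lit 4204721625) (nat_lit 1496) (nat_lit 33376299) (nat_lit 2057) (nat_lit 315527),Row.mk (nat_lit 12768) (nat_lit 1309) (nat_lit 4204721820) (nat_lit 1496) (nat_lit 33297585) (nat_lit 2057) (nat_lit 394086),Row.mk (nat_lit 12936) (nat_lit 1309) (nat_lit 4204722063) (nat_lit 1496) (nat_lit 33199272) (nat_lit 2057) (nat_lit 492204),Row.mk (nat_lit 13104) (nat_lit 1309) (nat_lit 4204722366) (nat_lit 1496) (nat_lit 33076482) (nat_lit 2057) (nat_lit 614751),Row.mk (nat_lit 13272) (nat_lit 1309) (nat_lit 4204722745) (nat_lit 1496) (nat_lit 32923121) (nat_lit 2057) (nat_lit 767809),Row.mk (nat_lit 13440) (nat_lit 1309) (nat_lit 4204723219) (nat_lit 1496) (nat_lit 32731575) (nat_lit 2057) (nat_lit 958975),Row.mk (nat_lit 13608)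 (nat_lit 1309) (nat_lit 4204723810) (nat_lit 1496) (nat_lit 32492340) (nat_lit 2057) (nat_lit 1197737),Row.mk (nat_lit 13776) (nat_lit 1309) (nat_lit 4204724549) (nat_lit 1496) (nat_lit 32193541) (nat_lit 2057) (nat_lit 1495944),Row.mk (nat_lit 13944) (nat_lit 1309) (nat_lit 4204725471) (nat_lit 1496) (nat_lit 31820348) (nat_lit 2057) (nat_lit 1868398),Row.mk (nat_lit 14112) (nat_lit 1309) (nat_lit 4204726624) (nat_lit 1496) (nat_lit 31354240) (nat_lit 2057) (nat_lit 2333585),Row.mk (nat_lit 14280) (nat_lit 1309) (nat_lit 4204728063) (nat_lit 1496) (nat_lit 30772081) (nat_lit 2057) (nat_lit 2914591),Row.mk (nat_lit 14448) (nat_lit 1309) (nat_lit 4204729860) (nat_lit 1496) (nat_lit 30044979) (nat_lit 2057) (nat_lit 3640254),Row.mk (nat_lit 14616) (nat_lit 1309) (nat_lit 4204732105) (nat_lit 1496) (nat_lit 29136846) (nat_lit 2057) (nat_lit 4546589),Row.mk (nat_lit 14784) (nat_lit 1309) (nat_lit 4204734909) (nat_lit 1496) (nat_lit 28002610)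 (nat_lit 2057) (nat_lit 5678581),Row.mk (nat_lit 14952) (nat_lit 1309) (nat_lit 4204738411) (nat_lit 1496) (nat_lit 26585977) (nat_lit 2057) (nat_lit 7092410),Row.mk (nat_lit 15120) (nat_lit 1309) (nat_lit 4204742784) (nat_lit 1496) (nat_lit 24816636) (nat_lit 2057) (nat_lit 8858249),Row.mk (nat_lit 15288) (nat_lit 1309) (nat_lit 4204748247) (nat_lit 1496) (nat_lit 22606771) (nat_lit 2057) (nat_lit 11063740),Row.mk (nat_lit 15456) (nat_lit 1309) (nat_lit 4204755070) (nat_lit 1496) (nat_lit 19846704) (nat_lit 2057) (nat_lit 13818344),Row.mk (nat_lit 15624) (nat_lit 1309) (nat_lit 4204763591) (nat_lit 1496) (nat_lit 16399447) (nat_lit 2057) (nat_lit 17258779),Row.mk (nat_lit 15792) (nat_lit 1309) (nat_lit 4204774234) (nat_lit 1496) (nat_lit 12093906) (nat_lit 2057) (nat_lit 21555799),Row.mk (nat_lit 15960) (nat_lit 1309) (nat_lit 4204787527) (nat_lit 1496) (nat_lit 6716389) (nat_lit 2057) (nat_lit 26922673),Row.mk (nat_lit 16128) (nat_lit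 1309) (nat_lit 4204804130) (nat_lit 2057) (nat_lit 33625769) (nat_lit 0) (nat_lit 0),Row.mk (nat_lit 16296) (nat_lit 1309) (nat_lit 4196436258) (nat_lit 1870) (nat_lit 8388608) (nat_lit 2057) (nat_lit 33609166),Row.mk (nat_lit 16464) (nat_lit 1309) (nat_lit 4185984988) (nat_lit 1870) (nat_lit 18865777) (nat_lit 2057) (nat_lit 33588430),Row.mk (nat_lit 16632) (nat_lit 1309) (nat_lit 4172931604) (nat_lit 1870) (nat_lit 31951508) (nat_lit 2057) (nat_lit 33562531),Row.mk (nat_lit 16800) (nat_lit 1309) (nat_lit 4156628243) (nat_lit 1870) (nat_lit 48295271) (nat_lit 2057) (nat_lit 33530184),Row.mk (nat_lit 16968) (nat_lit 1309) (nat_lit 4136265737) (nat_lit 1870) (nat_lit 68708236) (nat_lit 2057) (nat_lit 33489782),Row.mk (nat_lit 17136) (nat_lit 1309) (nat_lit 4110833459) (nat_lit 1870) (nat_lit 94203538) (nat_lit 2057) (nat_lit 33439323),Row.mk (nat_lit 17304) (nat_lit 1309) (nat_lit 4079069157) (nat_lit 1870) (nat_lit 126046554) (nat_lit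 2057) (nat_lit 33376299),Row.mk (nat_lit 17472) (nat_lit 1309) (nat_lit 4039396310) (nat_lit 1870) (nat_lit 165817713) (nat_lit 2057) (nat_lit 33297585),Row.mk (nat_lit 17640) (nat_lit 1309) (nat_lit 3989845882) (nat_lit 1870) (nat_lit 215490932) (nat_lit 2057) (nat_lit 33199272),Row.mk (nat_lit 17808) (nat_lit 1309) (nat_lit 3927958592) (nat_lit 1870) (nat_lit 277531584) (nat_lit 2057) (nat_lit 33076482),Row.mk (nat_lit 17976) (nat_lit 1309) (nat_lit 3850662859) (nat_lit 1870) (nat_lit 355018861) (nat_lit 2057) (nat_lit 32923121),Row.mk (nat_lit 18144) (nat_lit 1309) (nat_lit 3754122354) (nat_lit 1870) (nat_lit 451798601) (nat_lit 2057) (nat_lit 32731575),Row.mk (nat_lit 18312) (nat_lit 1309) (nat_lit 3633545593) (nat_lit 1870) (nat_lit 572674162) (nat_lit 2057) (nat_lit 32492340),Row.mk (nat_lit 18480) (nat_lit 1309) (nat_lit 3482948126) (nat_lit 1870) (nat_lit 723644821) (nat_lit 2057) (nat_lit 32193541),Row.mk (nat_lit 18648)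 (nat_lit 1309) (nat_lit 3294855523) (nat_lit 1870) (nat_lit 912203533) (nat_lit 2057) (nat_lit 31820348),Row.mk (nat_lit 18816) (nat_lit 1309) (nat_lit 3059932400) (nat_lit 1870) (nat_lit 1147708815) (nat_lit 2057) (nat_lit 31354240),Row.mk (nat_lit 18984) (nat_lit 1309) (nat_lit 2766519086) (nat_lit 1870) (nat_lit 1441849230) (nat_lit 2057) (nat_lit 30772081),Row.mk (nat_lit 19152) (nat_lit 1309) (nat_lit 2400052935) (nat_lit 1870) (nat_lit 1809223514) (nat_lit 2057) (nat_lit 30044979),Row.mk (nat_lit 19320) (nat_lit 1309) (nat_lit 1942345554) (nat_lit 1870) (nat_lit 2268065132) (nat_lit 2057) (nat_lit 29136846),Row.mk (nat_lit 19488) (nat_lit 1309) (nat_lit 1370680076) (nat_lit 1870) (nat_lit 2841147243) (nat_lit 2057) (nat_lit 28002610),Row.mk (nat_lit 19656) (nat_lit 1309) (nat_lit 656683684) (nat_lit 1870) (nat_lit 3556912976) (nat_lit 2057) (nat_lit 26585977),Row.mk (nat_lit 19824) (nat_lit 1870) (nat_lit 4052404486) (nat_lit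 2431) (nat_lit 163402038) (nat_lit 2618) (nat_lit 24816636),Row.mk (nat_lit 19992) (nat_lit 1870) (nat_lit 3161190421) (nat_lit 2431) (nat_lit 1057376171) (nat_lit 2618) (nat_lit 22606771),Row.mk (nat_lit 20160) (nat_lit 1870) (nat_lit 2048085552) (nat_lit 2431) (nat_lit 2173928297) (nat_lit 2618) (nat_lit 19846704),Row.mk (nat_lit 20328) (nat_lit 1870) (nat_lit 657844424) (nat_lit 2431) (nat_lit 3568474966) (nat_lit 2618) (nat_lit 16399447),Row.mk (nat_lit 20496) (nat_lit 2431) (nat_lit 3380256755) (nat_lit 2992) (nat_lit 851440152) (nat_lit 3179) (nat_lit 12093906),Row.mk (nat_lit 20664) (nat_lit 2431) (nat_lit 1645217995) (nat_lit 2992) (nat_lit 2593195301) (nat_lit 3179) (nat_lit 6716389),Row.mk (nat_lit 20832) (nat_lit 2992) (nat_lit 3829016766) (nat_lit 3553) (nat_lit 417785138) (nat_lit 0) (nat_lit 0),Row.mk (nat_lit 21000) (nat_lit 2805) (nat_lit 10477169) (nat_lit 2992) (nat_lit 1653606603) (nat_lit 3553) (nat_lit 2584806693),Row.mk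 (nat_lit 21168) (nat_lit 3366) (nat_lit 23562900) (nat_lit 3553) (nat_lit 3395361752) (nat_lit 4114) (nat_lit 832574375),Row.mk (nat_lit 21336) (nat_lit 3366) (nat_lit 39906663) (nat_lit 3553) (nat_lit 678326938) (nat_lit 4114) (nat_lit 3536523458),Row.mk (nat_lit 21504) (nat_lit 3927) (nat_lit 60319628) (nat_lit 4114) (nat_lit 2072873607) (nat_lit 4675) (nat_lit 2125633026),Row.mk (nat_lit 21672) (nat_lit 4488) (nat_lit 85814930) (nat_lit 4675) (nat_lit 3189425733) (nat_lit 5236) (nat_lit 988667934),Row.mk (nat_lit 21840) (nat_lit 5049) (nat_lit 117657946) (nat_lit 5236) (nat_lit 4083399866) (nat_lit 5797) (nat_lit 69198500),Row.mk (nat_lit 22008) (nat_lit 5049) (nat_lit 157429105) (nat_lit 5236) (nat_lit 689888928) (nat_lit 5797) (nat_lit 3430866421),Row.mk (nat_lit 22176) (nat_lit 5610) (nat_lit 207102324) (nat_lit 5797) (nat_lit 1405654661) (nat_lit 6358) (nat_lit 2675329530),Row.mk (nat_lit 22344) (nat_lit 6171) (nat_lit 269142976)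 (nat_lit 6358) (nat_lit 1978736772) (nat_lit 6919) (nat_lit 2052574199),Row.mk (nat_lit 22512) (nat_lit 6732) (nat_lit 346630253) (nat_lit 6919) (nat_lit 2437578390) (nat_lit 7480) (nat_lit 1531691930),Row.mk (nat_lit 22680) (nat_lit 7293) (nat_lit 443409993) (nat_lit 7480) (nat_lit 2804952674) (nat_lit 8041) (nat_lit 1086830369),Row.mk (nat_lit 22848) (nat_lit 7854) (nat_lit 564285554) (nat_lit 8041) (nat_lit 3099093090) (nat_lit 8602) (nat_lit 695910213),Row.mk (nat_lit 23016) (nat_lit 8415) (nat_lit 715256213) (nat_lit 8602) (nat_lit 3334598372) (nat_lit 9163) (nat_lit 339529370),Row.mk (nat_lit 23184) (nat_lit 8976) (nat_lit 903814925) (nat_lit 9163) (nat_lit 3523157083) (nat_lit 0) (nat_lit 0),Row.mk (nat_lit 23352) (nat_lit 8976) (nat_lit 424063993) (nat_lit 9537) (nat_lit 715256213) (nat_lit 9724) (nat_lit 3334598372),Row.mk (nat_lit 23520) (nat_lit 9537) (nat_lit 869175068) (nat_lit 10098) (nat_lit 564285554) (nat_lit 10285)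 (nat_lit 3099093090),Row.mk (nat_lit 23688) (nat_lit 10098) (nat_lit 1357424912) (nat_lit 10659) (nat_lit 443409993) (nat_lit 10846) (nat_lit 2804952674),Row.mk (nat_lit 23856) (nat_lit 10659) (nat_lit 1913046270) (nat_lit 11220) (nat_lit 346630253) (nat_lit 11407) (nat_lit 2437578390),Row.mk (nat_lit 24024) (nat_lit 11220) (nat_lit 2563615659) (nat_lit 11781) (nat_lit 269142976) (nat_lit 11968) (nat_lit 1978736772),Row.mk (nat_lit 24192) (nat_lit 11781) (nat_lit 3341422044) (nat_lit 12529) (nat_lit 207102324) (nat_lit 12716) (nat_lit 1405654661),Row.mk (nat_lit 24360) (nat_lit 12529) (nat_lit 4285069395) (nat_lit 13277) (nat_lit 157429105) (nat_lit 13464) (nat_lit 689888928),Row.mk (nat_lit 24528) (nat_lit 12342) (nat_lit 107945559) (nat_lit 13090) (nat_lit 146951936) (nat_lit 13277) (nat_lit 5100067926),Row.mk (nat_lit 24696) (nat_lit 13090) (nat_lit 1542263388) (nat_lit 13838) (nat_lit 107180777) (nat_lit 14025) (nat_lit 3983515800),Row.mk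 (nat_lit 24864) (nat_lit 13838) (nat_lit 3315861554) (nat_lit 14960) (nat_lit 75337761) (nat_lit 15147) (nat_lit 2588969130),Row.mk (nat_lit 25032) (nat_lit 14960) (nat_lit 5516767018) (nat_lit 16269) (nat_lit 49842459) (nat_lit 16456) (nat_lit 847213982),Row.mk (nat_lit 25200) (nat_lit 14773) (nat_lit 1622128260) (nat_lit 16082) (nat_lit 36756728) (nat_lit 16269) (nat_lit 5296563122),Row.mk (nat_lit 25368) (nat_lit 16082) (nat_lit 5036052164) (nat_lit 17578) (nat_lit 16343762) (nat_lit 17765) (nat_lit 2579528308),Row.mk (nat_lit 25536) (nat_lit 15895) (nat_lit 1016644668) (nat_lit 17578) (nat_lit 7460181926) (nat_lit 0) (nat_lit 0),Row.mk (nat_lit 25704) (nat_lit 17391) (nat_lit 6310320629) (nat_lit 17578) (nat_lit 16343762) (nat_lit 19635) (nat_lit 3205424866),Row.mk (nat_lit 25872) (nat_lit 17204) (nat_lit 2587762276) (nat_lit 17391) (nat_lit 36756728) (nat_lit 19448) (nat_lit 8225567865),Row.mk (nat_lit 26040) (nat_lit 19261)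 (nat_lit 10845583069) (nat_lit 19448) (nat_lit 49842459) (nat_lit 25806) (nat_lit 1600808561),Row.mk (nat_lit 26208) (nat_lit 19074) (nat_lit 8252195655) (nat_lit 19261) (nat_lit 75337761) (nat_lit 25619) (nat_lit 6224698841),Row.mk (nat_lit 26376) (nat_lit 18887) (nat_lit 5013117337) (nat_lit 19074) (nat_lit 107180777) (nat_lit 25432) (nat_lit 11999826255),Row.mk (nat_lit 26544) (nat_lit 18700) (nat_lit 967586657) (nat_lit 18887) (nat_lit 146951936) (nat_lit 25245) (nat_lit 19212821077),Row.mk (nat_lit 26712) (nat_lit 25058) (nat_lit 21062292552) (nat_lit 25245) (nat_lit 157429105) (nat_lit 31603) (nat_lit 3113397533),Row.mk (nat_lit 26880) (nat_lit 24871) (nat_lit 21012619333) (nat_lit 25058) (nat_lit 207102324) (nat_lit 31416) (nat_lit 8116494541),Row.mk (nat_lit 27048) (nat_lit 24684) (nat_lit 20950578682) (nat_lit 24871) (nat_lit 269142976) (nat_lit 31229) (nat_lit 14365242009),Row.mk (nat_lit 27216) (nat_lit 24497) (nat_lit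 20873091404) (nat_lit 24684) (nat_lit 346630253) (nat_lit 31042) (nat_lit 22169776853),Row.mk (nat_lit 27384) (nat_lit 24310) (nat_lit 20776311664) (nat_lit 24497) (nat_lit 443409993) (nat_lit 30855) (nat_lit 31917452598),Row.mk (nat_lit 27552) (nat_lit 24123) (nat_lit 20655436104) (nat_lit 24310) (nat_lit 564285554) (nat_lit 30668) (nat_lit 44092064453),Row.mk (nat_lit 27720) (nat_lit 23936) (nat_lit 20504465444) (nat_lit 24123) (nat_lit 715256213) (nat_lit 30481) (nat_lit 59297860962),Row.mk (nat_lit 27888) (nat_lit 23749) (nat_lit 20315906733) (nat_lit 23936) (nat_lit 903814925) (nat_lit 30294) (nat_lit 78289533980),Row.mk (nat_lit 28056) (nat_lit 23562) (nat_lit 20080401451) (nat_lit 23749) (nat_lit 1139320207) (nat_lit 30107) (nat_lit 102009675427),Row.mk (nat_lit 28224) (nat_lit 23375) (nat_lit 19786261035) (nat_lit 23562) (nat_lit 1433460622) (nat_lit 29920) (nat_lit 131635559875),Row.mk (nat_lit 28392) (nat_lit 23188) (nat_lit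 19418886751) (nat_lit 23375) (nat_lit 1800834906) (nat_lit 29733) (nat_lit 168637574862),Row.mk (nat_lit 28560) (nat_lit 23001) (nat_lit 18960045134) (nat_lit 23188) (nat_lit 2259676524) (nat_lit 29546) (nat_lit 214852198951),Row.mk (nat_lit 28728) (nat_lit 22814) (nat_lit 18386963022) (nat_lit 23001) (nat_lit 2832758635) (nat_lit 29359) (nat_lit 272573149566),Row.mk (nat_lit 28896) (nat_lit 22627) (nat_lit 17671197289) (nat_lit 22814) (nat_lit 3548524368) (nat_lit 29172) (nat_lit 344665224434),Row.mk (nat_lit 29064) (nat_lit 22440) (nat_lit 16777223157) (nat_lit 22627) (nat_lit 4442498501) (nat_lit 28985) (nat_lit 434706486810),Row.mk (nat_lit 29232) (nat_lit 22253) (nat_lit 15660671031) (nat_lit 22440) (nat_lit 5559050627) (nat_lit 28798) (nat_lit 547165851379),Row.mk (nat_lit 29400) (nat_lit 22066) (nat_lit 14266124361) (nat_lit 22253) (nat_lit 6953597296) (nat_lit 28611) (nat_lit 687624884779),Row.mk (nat_lit 29568) (nat_lit 21879)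 (nat_lit 12524369212) (nat_lit 22066) (nat_lit 8695352445) (nat_lit 28424) (nat_lit 863054829088),Row.mk (nat_lit 29736) (nat_lit 21692) (nat_lit 10348959049) (nat_lit 21879) (nat_lit 10870762608) (nat_lit 28237) (nat_lit 1082162597493),Row.mk (nat_lit 29904) (nat_lit 21505) (nat_lit 7631924235) (nat_lit 21692) (nat_lit 13587797423) (nat_lit 28050) (nat_lit 1355822914517),Row.mk (nat_lit 30072) (nat_lit 21318) (nat_lit 4238413297) (nat_lit 21505) (nat_lit 16981308361) (nat_lit 27863) (nat_lit 1697618048752),Row.mk (nat_lit 30240) (nat_lit 21318) (nat_lit 21219721658) (nat_lit 27676) (nat_lit 2124511926013) (nat_lit 0) (nat_lit 0),Row.mk (nat_lit 30408) (nat_lit 21131) (nat_lit 21219721658) (nat_lit 27489) (nat_lit 2653453667109) (nat_lit 27676) (nat_lit 4238413297),Row.mk (nat_lit 30576) (nat_lit 20944) (nat_lit 21219721658) (nat_lit 27302) (nat_lit 3314089141651) (nat_lit 27489) (nat_lit 9532089258),Row.mk (nat_lit 30744) (nat_lit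 32912) (nat_lit 4246801905) (nat_lit 62084) (nat_lit 4168093570208) (nat_lit 0) (nat_lit 0),Row.mk (nat_lit 30912) (nat_lit 32912) (nat_lit 4246801905) (nat_lit 62084) (nat_lit 5206903581576) (nat_lit 0) (nat_lit 0),Row.mk (nat_lit 31080) (nat_lit 32912) (nat_lit 4246801905) (nat_lit 62084) (nat_lit 6504352225726) (nat_lit 0) (nat_lit 0),Row.mk (nat_lit 31248) (nat_lit 32912) (nat_lit 4246801905) (nat_lit 62084) (nat_lit 8124834282870) (nat_lit 0) (nat_lit 0)],
[Row.mk (nat_lit 11256) (nat_lit 748) (nat_lit 5259983640) (nat_lit 935) (nat_lit 33625769) (nat_lit 1496) (nat_lit 66577),Row.mk (nat_lit 11424) (nat_lit 748) (nat_lit 5259983673) (nat_lit 935) (nat_lit 33609166) (nat_lit 1496) (nat_lit 83154),Row.mk (nat_lit 11592) (nat_lit 748) (nat_lit 5259983714) (nat_lit 935) (nat_lit 33588430) (nat_lit 1496) (nat_lit 103857),Row.mk (nat_lit 11760) (nat_lit 748) (nat_lit 5259983765) (nat_lit 935) (nat_lit 33562531) (nat_lit 1496) (nat_lit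 129715),Row.mk (nat_lit 11928) (nat_lit 748) (nat_lit 5259983829) (nat_lit 935) (nat_lit 33530184) (nat_lit 1496) (nat_lit 162011),Row.mk (nat_lit 12096) (nat_lit 748) (nat_lit 5259983909) (nat_lit 935) (nat_lit 33489782) (nat_lit 1496) (nat_lit 202348),Row.mk (nat_lit 12264) (nat_lit 748) (nat_lit 5259984009) (nat_lit 935) (nat_lit 33439323) (nat_lit 1496) (nat_lit 252728),Row.mk (nat_lit 12432) (nat_lit 748) (nat_lit 5259984134) (nat_lit 935) (nat_lit 33376299) (nat_lit 1496) (nat_lit 315652),Row.mk (nat_lit 12600) (nat_lit 748) (nat_lit 5259984290) (nat_lit 935) (nat_lit 33297585) (nat_lit 1496) (nat_lit 394241),Row.mk (nat_lit 12768) (nat_lit 748) (nat_lit 5259984484) (nat_lit 935) (nat_lit 33199272) (nat_lit 1496) (nat_lit 492398),Row.mk (nat_lit 12936) (nat_lit 748) (nat_lit 5259984727) (nat_lit 935) (nat_lit 33076482) (nat_lit 1496) (nat_lit 614994),Row.mk (nat_lit 13104) (nat_lit 748) (nat_lit 5259985031) (nat_lit 935) (nat_lit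 32923121) (nat_lit 1496) (nat_lit 768112),Row.mk (nat_lit 13272) (nat_lit 748) (nat_lit 5259985410) (nat_lit 935) (nat_lit 32731575) (nat_lit 1496) (nat_lit 959354),Row.mk (nat_lit 13440) (nat_lit 748) (nat_lit 5259985883) (nat_lit 935) (nat_lit 32492340) (nat_lit 1496) (nat_lit 1198210),Row.mk (nat_lit 13608) (nat_lit 748) (nat_lit 5259986475) (nat_lit 935) (nat_lit 32193541) (nat_lit 1496) (nat_lit 1496536),Row.mk (nat_lit 13776) (nat_lit 748) (nat_lit 5259987213) (nat_lit 935) (nat_lit 31820348) (nat_lit 1496) (nat_lit 1869137),Row.mk (nat_lit 13944) (nat_lit 748) (nat_lit 5259988136) (nat_lit 935) (nat_lit 31354240) (nat_lit 1496) (nat_lit 2334507),Row.mk (nat_lit 14112) (nat_lit 748) (nat_lit 5259989288) (nat_lit 935) (nat_lit 30772081) (nat_lit 1496) (nat_lit 2915743),Row.mk (nat_lit 14280) (nat_lit 748) (nat_lit 5259990727) (nat_lit 935) (nat_lit 30044979) (nat_lit 1496) (nat_lit 3641693),Row.mk (nat_lit 14448) (nat_lit 748)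 (nat_lit 5259992524) (nat_lit 935) (nat_lit 29136846) (nat_lit 1496) (nat_lit 4548387),Row.mk (nat_lit 14616) (nat_lit 748) (nat_lit 5259994769) (nat_lit 935) (nat_lit 28002610) (nat_lit 1496) (nat_lit 5680825),Row.mk (nat_lit 14784) (nat_lit 748) (nat_lit 5259997573) (nat_lit 935) (nat_lit 26585977) (nat_lit 1496) (nat_lit 7095214),Row.mk (nat_lit 14952) (nat_lit 748) (nat_lit 5260001075) (nat_lit 935) (nat_lit 24816636) (nat_lit 1496) (nat_lit 8861751),Row.mk (nat_lit 15120) (nat_lit 748) (nat_lit 5260005449) (nat_lit 935) (nat_lit 22606771) (nat_lit 1496) (nat_lit 11068114),Row.mk (nat_lit 15288) (nat_lit 748) (nat_lit 5260010911) (nat_lit 935) (nat_lit 19846704) (nat_lit 1496) (nat_lit 13823807),Row.mk (nat_lit 15456) (nat_lit 748) (nat_lit 5260017734) (nat_lit 935) (nat_lit 16399447) (nat_lit 1496) (nat_lit 17265602),Row.mk (nat_lit 15624) (nat_lit 748) (nat_lit 5260026256) (nat_lit 935) (nat_lit 12093906) (nat_lit 1496) (nat_lit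 21564320),Row.mk (nat_lit 15792) (nat_lit 748) (nat_lit 5260036899) (nat_lit 935) (nat_lit 6716389) (nat_lit 1496) (nat_lit 26933316),Row.mk (nat_lit 15960) (nat_lit 748) (nat_lit 5260050192) (nat_lit 1496) (nat_lit 33639062) (nat_lit 0) (nat_lit 0),Row.mk (nat_lit 16128) (nat_lit 748) (nat_lit 5251678186) (nat_lit 1309) (nat_lit 8388608) (nat_lit 1496) (nat_lit 33625769),Row.mk (nat_lit 16296) (nat_lit 748) (nat_lit 5241221754) (nat_lit 1309) (nat_lit 18865777) (nat_lit 1496) (nat_lit 33609166),Row.mk (nat_lit 16464) (nat_lit 748) (nat_lit 5228161921) (nat_lit 1309) (nat_lit 31951508) (nat_lit 1496) (nat_lit 33588430),Row.mk (nat_lit 16632) (nat_lit 748) (nat_lit 5211850506) (nat_lit 1309) (nat_lit 48295271) (nat_lit 1496) (nat_lit 33562531),Row.mk (nat_lit 16800) (nat_lit 748) (nat_lit 5191477941) (nat_lit 1309) (nat_lit 68708236) (nat_lit 1496) (nat_lit 33530184),Row.mk (nat_lit 16968) (nat_lit 748) (nat_lit 5166033100) (nat_lit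 1309) (nat_lit 94203538) (nat_lit 1496) (nat_lit 33489782),Row.mk (nat_lit 17136) (nat_lit 748) (nat_lit 5134253107) (nat_lit 1309) (nat_lit 126046554) (nat_lit 1496) (nat_lit 33439323),Row.mk (nat_lit 17304) (nat_lit 748) (nat_lit 5094560662) (nat_lit 1309) (nat_lit 165817713) (nat_lit 1496) (nat_lit 33376299),Row.mk (nat_lit 17472) (nat_lit 748) (nat_lit 5044985756) (nat_lit 1309) (nat_lit 215490932) (nat_lit 1496) (nat_lit 33297585),Row.mk (nat_lit 17640) (nat_lit 748) (nat_lit 4983067894) (nat_lit 1309) (nat_lit 277531584) (nat_lit 1496) (nat_lit 33199272),Row.mk (nat_lit 17808) (nat_lit 748) (nat_lit 4905733979) (nat_lit 1309) (nat_lit 355018861) (nat_lit 1496) (nat_lit 33076482),Row.mk (nat_lit 17976) (nat_lit 748) (nat_lit 4809145784) (nat_lit 1309) (nat_lit 451798601) (nat_lit 1496) (nat_lit 32923121),Row.mk (nat_lit 18144) (nat_lit 748) (nat_lit 4688509458) (nat_lit 1309) (nat_lit 572674162) (nat_lit 1496) (nat_lit 32731575),Row.mk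 (nat_lit 18312) (nat_lit 748) (nat_lit 4537837598) (nat_lit 1309) (nat_lit 723644821) (nat_lit 1496) (nat_lit 32492340),Row.mk (nat_lit 18480) (nat_lit 748) (nat_lit 4349652079) (nat_lit 1309) (nat_lit 912203533) (nat_lit 1496) (nat_lit 32193541),Row.mk (nat_lit 18648) (nat_lit 748) (nat_lit 4114612906) (nat_lit 1309) (nat_lit 1147708815) (nat_lit 1496) (nat_lit 31820348),Row.mk (nat_lit 18816) (nat_lit 748) (nat_lit 3821054648) (nat_lit 1309) (nat_lit 1441849230) (nat_lit 1496) (nat_lit 31354240),Row.mk (nat_lit 18984) (nat_lit 748) (nat_lit 3454407467) (nat_lit 1309) (nat_lit 1809223514) (nat_lit 1496) (nat_lit 30772081),Row.mk (nat_lit 19152) (nat_lit 748) (nat_lit 2996473982) (nat_lit 1309) (nat_lit 2268065132) (nat_lit 1496) (nat_lit 30044979),Row.mk (nat_lit 19320) (nat_lit 748) (nat_lit 2424526106) (nat_lit 1309) (nat_lit 2841147243) (nat_lit 1496) (nat_lit 29136846),Row.mk (nat_lit 19488) (nat_lit 748) (nat_lit 1710177007)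 (nat_lit 1309) (nat_lit 3556912976) (nat_lit 1496) (nat_lit 28002610),Row.mk (nat_lit 19656) (nat_lit 748) (nat_lit 817972216) (nat_lit 1309) (nat_lit 4450887109) (nat_lit 1496) (nat_lit 26585977),Row.mk (nat_lit 19824) (nat_lit 1309) (nat_lit 5058595377) (nat_lit 1870) (nat_lit 212473812) (nat_lit 2057) (nat_lit 24816636),Row.mk (nat_lit 19992) (nat_lit 1309) (nat_lit 3944803318) (nat_lit 1870) (nat_lit 1329025938) (nat_lit 2057) (nat_lit 22606771),Row.mk (nat_lit 20160) (nat_lit 1309) (nat_lit 2553703906) (nat_lit 1870) (nat_lit 2723572607) (nat_lit 2057) (nat_lit 19846704),Row.mk (nat_lit 20328) (nat_lit 1309) (nat_lit 816254298) (nat_lit 1870) (nat_lit 4465327756) (nat_lit 2057) (nat_lit 16399447),Row.mk (nat_lit 20496) (nat_lit 1870) (nat_lit 4215142753) (nat_lit 2431) (nat_lit 1071816818) (nat_lit 2618) (nat_lit 12093906),Row.mk (nat_lit 20664) (nat_lit 1870) (nat_lit 2046448980) (nat_lit 2431) (nat_lit 3247226981) (nat_lit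 2618) (nat_lit 6716389),Row.mk (nat_lit 20832) (nat_lit 2431) (nat_lit 4771872402) (nat_lit 2992) (nat_lit 530192167) (nat_lit 0) (nat_lit 0),Row.mk (nat_lit 21000) (nat_lit 2244) (nat_lit 10477169) (nat_lit 2431) (nat_lit 2054837588) (nat_lit 2992) (nat_lit 3238838373),Row.mk (nat_lit 21168) (nat_lit 2805) (nat_lit 23562900) (nat_lit 2992) (nat_lit 4230247751) (nat_lit 3553) (nat_lit 1052951041),Row.mk (nat_lit 21336) (nat_lit 2805) (nat_lit 39906663) (nat_lit 2992) (nat_lit 836736813) (nat_lit 3553) (nat_lit 4433376248),Row.mk (nat_lit 21504) (nat_lit 3366) (nat_lit 60319628) (nat_lit 3553) (nat_lit 2578491961) (nat_lit 4114) (nat_lit 2675277336),Row.mk (nat_lit 21672) (nat_lit 3927) (nat_lit 85814930) (nat_lit 4114) (nat_lit 3973038631) (nat_lit 4675) (nat_lit 1260317701),Row.mk (nat_lit 21840) (nat_lit 4488) (nat_lit 117657946) (nat_lit 4675) (nat_lit 5089590757) (nat_lit 5236) (nat_lit 118270274),Row.mk (nat_lit 22008) (nat_lit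 4488) (nat_lit 157429105) (nat_lit 4675) (nat_lit 851177460) (nat_lit 5236) (nat_lit 4324840554),Row.mk (nat_lit 22176) (nat_lit 5049) (nat_lit 207102324) (nat_lit 5236) (nat_lit 1745151593) (nat_lit 5797) (nat_lit 3391095262),Row.mk (nat_lit 22344) (nat_lit 5610) (nat_lit 269142976) (nat_lit 5797) (nat_lit 2460917325) (nat_lit 6358) (nat_lit 2625656311),Row.mk (nat_lit 22512) (nat_lit 6171) (nat_lit 346630253) (nat_lit 6358) (nat_lit 3033999437) (nat_lit 6919) (nat_lit 1990533548),Row.mk (nat_lit 22680) (nat_lit 6732) (nat_lit 443409993) (nat_lit 6919) (nat_lit 3492841054) (nat_lit 7480) (nat_lit 1454204653),Row.mk (nat_lit 22848) (nat_lit 7293) (nat_lit 564285554) (nat_lit 7480) (nat_lit 3860215338) (nat_lit 8041) (nat_lit 990050629),Row.mk (nat_lit 23016) (nat_lit 7854) (nat_lit 715256213) (nat_lit 8041) (nat_lit 4154355754) (nat_lit 8602) (nat_lit 575034652),Row.mk (nat_lit 23184) (nat_lit 8415) (nat_lit 903814925) (nat_lit 8602)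 (nat_lit 4389861036) (nat_lit 9163) (nat_lit 188558711),Row.mk (nat_lit 23352) (nat_lit 8415) (nat_lit 235505281) (nat_lit 8976) (nat_lit 903814925) (nat_lit 9163) (nat_lit 4389861036),Row.mk (nat_lit 23520) (nat_lit 8976) (nat_lit 718204409) (nat_lit 9537) (nat_lit 715256213) (nat_lit 9724) (nat_lit 4154355754),Row.mk (nat_lit 23688) (nat_lit 9537) (nat_lit 1236549352) (nat_lit 10098) (nat_lit 564285554) (nat_lit 10285) (nat_lit 3860215338),Row.mk (nat_lit 23856) (nat_lit 10098) (nat_lit 1816266530) (nat_lit 10659) (nat_lit 443409993) (nat_lit 10846) (nat_lit 3492841054),Row.mk (nat_lit 24024) (nat_lit 10659) (nat_lit 2486128382) (nat_lit 11220) (nat_lit 346630253) (nat_lit 11407) (nat_lit 3033999437),Row.mk (nat_lit 24192) (nat_lit 11220) (nat_lit 3279381392) (nat_lit 11781) (nat_lit 269142976) (nat_lit 11968) (nat_lit 2460917325),Row.mk (nat_lit 24360) (nat_lit 11781) (nat_lit 4235396176) (nat_lit 12529) (nat_lit 207102324) (nat_lit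 12716) (nat_lit 1745151593),Row.mk (nat_lit 24528) (nat_lit 12529) (nat_lit 5401621521) (nat_lit 13277) (nat_lit 157429105) (nat_lit 13464) (nat_lit 851177460),Row.mk (nat_lit 24696) (nat_lit 12342) (nat_lit 184494618) (nat_lit 13090) (nat_lit 146951936) (nat_lit 13277) (nat_lit 6356776075),Row.mk (nat_lit 24864) (nat_lit 13090) (nat_lit 1966020926) (nat_lit 13838) (nat_lit 107180777) (nat_lit 14025) (nat_lit 4962229405),Row.mk (nat_lit 25032) (nat_lit 13838) (nat_lit 4173274106) (nat_lit 14960) (nat_lit 75337761) (nat_lit 15147) (nat_lit 3220474257),Row.mk (nat_lit 25200) (nat_lit 14960) (nat_lit 6915804222) (nat_lit 16269) (nat_lit 49842459) (nat_lit 16456) (nat_lit 1045064094),Row.mk (nat_lit 25368) (nat_lit 14773) (nat_lit 2051494367) (nat_lit 16082) (nat_lit 36756728) (nat_lit 16269) (nat_lit 6598935804),Row.mk (nat_lit 25536) (nat_lit 16082) (nat_lit 6310320629) (nat_lit 17578) (nat_lit 16343762) (nat_lit 17765) (nat_lit 3205424866),Row.mk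 (nat_lit 25704) (nat_lit 15895) (nat_lit 1290177630) (nat_lit 17578) (nat_lit 9297174292) (nat_lit 0) (nat_lit 0),Row.mk (nat_lit 25872) (nat_lit 17391) (nat_lit 7901851203) (nat_lit 17578) (nat_lit 16343762) (nat_lit 19635) (nat_lit 3987154568),Row.mk (nat_lit 26040) (nat_lit 17204) (nat_lit 3257547957) (nat_lit 17391) (nat_lit 36756728) (nat_lit 19448) (nat_lit 10257192068),Row.mk (nat_lit 26208) (nat_lit 19261) (nat_lit 13571366918) (nat_lit 19448) (nat_lit 49842459) (nat_lit 25806) (nat_lit 1986285544),Row.mk (nat_lit 26376) (nat_lit 19074) (nat_lit 10338636315) (nat_lit 19261) (nat_lit 75337761) (nat_lit 25619) (nat_lit 7761412958),Row.mk (nat_lit 26544) (nat_lit 18887) (nat_lit 6301033778) (nat_lit 19074) (nat_lit 107180777) (nat_lit 25432) (nat_lit 14974407780),Row.mk (nat_lit 26712) (nat_lit 18700) (nat_lit 1258165611) (nat_lit 18887) (nat_lit 146951936) (nat_lit 25245) (nat_lit 23983264308),Row.mk (nat_lit 26880) (nat_lit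 25058) (nat_lit 26355968514) (nat_lit 25245) (nat_lit 157429105) (nat_lit 31603) (nat_lit 3878081243),Row.mk (nat_lit 27048) (nat_lit 24871) (nat_lit 26306295295) (nat_lit 25058) (nat_lit 207102324) (nat_lit 31416) (nat_lit 10126828712),Row.mk (nat_lit 27216) (nat_lit 24684) (nat_lit 26244254643) (nat_lit 24871) (nat_lit 269142976) (nat_lit 31229) (nat_lit 17931363556),Row.mk (nat_lit 27384) (nat_lit 24497) (nat_lit 26166767366) (nat_lit 24684) (nat_lit 346630253) (nat_lit 31042) (nat_lit 27679039301),Row.mk (nat_lit 27552) (nat_lit 24310) (nat_lit 26069987626) (nat_lit 24497) (nat_lit 443409993) (nat_lit 30855) (nat_lit 39853651156),Row.mk (nat_lit 27720) (nat_lit 24123) (nat_lit 25949112065) (nat_lit 24310) (nat_lit 564285554) (nat_lit 30668) (nat_lit 55059447665),Row.mk (nat_lit 27888) (nat_lit 23936) (nat_lit 25798141406) (nat_lit 24123) (nat_lit 715256213) (nat_lit 30481) (nat_lit 74051120682),Row.mk (nat_lit 28056) (nat_lit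 23749) (nat_lit 25609582694) (nat_lit 23936) (nat_lit 903814925) (nat_lit 30294) (nat_lit 97771262130),Row.mk (nat_lit 28224) (nat_lit 23562) (nat_lit 25374077412) (nat_lit 23749) (nat_lit 1139320207) (nat_lit 30107) (nat_lit 127397146578),Row.mk (nat_lit 28392) (nat_lit 23375) (nat_lit 25079936996) (nat_lit 23562) (nat_lit 1433460622) (nat_lit 29920) (nat_lit 164399161565),Row.mk (nat_lit 28560) (nat_lit 23188) (nat_lit 24712562713) (nat_lit 23375) (nat_lit 1800834906) (nat_lit 29733) (nat_lit 210613785654),Row.mk (nat_lit 28728) (nat_lit 23001) (nat_lit 24253721095) (nat_lit 23188) (nat_lit 2259676524) (nat_lit 29546) (nat_lit 268334736268),Row.mk (nat_lit 28896) (nat_lit 22814) (nat_lit 23680638983) (nat_lit 23001) (nat_lit 2832758635) (nat_lit 29359) (nat_lit 340426811137),Row.mk (nat_lit 29064) (nat_lit 22627) (nat_lit 22964873251) (nat_lit 22814) (nat_lit 3548524368) (nat_lit 29172) (nat_lit 430468073513),Row.mk (nat_lit 29232)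 (nat_lit 22440) (nat_lit 22070899118) (nat_lit 22627) (nat_lit 4442498501) (nat_lit 28985) (nat_lit 542927438082),Row.mk (nat_lit 29400) (nat_lit 22253) (nat_lit 20954346992) (nat_lit 22440) (nat_lit 5559050627) (nat_lit 28798) (nat_lit 683386471481),Row.mk (nat_lit 29568) (nat_lit 22066) (nat_lit 19559800322) (nat_lit 22253) (nat_lit 6953597296) (nat_lit 28611) (nat_lit 858816415791),Row.mk (nat_lit 29736) (nat_lit 21879) (nat_lit 17818045174) (nat_lit 22066) (nat_lit 8695352445) (nat_lit 28424) (nat_lit 1077924184196),Row.mk (nat_lit 29904) (nat_lit 21692) (nat_lit 15642635011) (nat_lit 21879) (nat_lit 10870762608) (nat_lit 28237) (nat_lit 1351584501220),Row.mk (nat_lit 30072) (nat_lit 21505) (nat_lit 12925600196) (nat_lit 21692) (nat_lit 13587797423) (nat_lit 28050) (nat_lit 1693379635455),Row.mk (nat_lit 30240) (nat_lit 21318) (nat_lit 9532089258) (nat_lit 21505) (nat_lit 16981308361) (nat_lit 27863) (nat_lit 2120273512716),Row.mk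 (nat_lit 30408) (nat_lit 21131) (nat_lit 5293675961) (nat_lit 21318) (nat_lit 21219721658) (nat_lit 27676) (nat_lit 2653453667109),Row.mk (nat_lit 30576) (nat_lit 21131) (nat_lit 26513397619) (nat_lit 27489) (nat_lit 3319382817613) (nat_lit 0) (nat_lit 0),Row.mk (nat_lit 30744) (nat_lit 20944) (nat_lit 26513397619) (nat_lit 27302) (nat_lit 4145818585885) (nat_lit 27489) (nat_lit 5293675961),Row.mk (nat_lit 30912) (nat_lit 32912) (nat_lit 5302064569) (nat_lit 62084) (nat_lit 5205848318912) (nat_lit 0) (nat_lit 0),Row.mk (nat_lit 31080) (nat_lit 32912) (nat_lit 5302064569) (nat_lit 62084) (nat_lit 6503296963061) (nat_lit 0) (nat_lit 0),Row.mk (nat_lit 31248) (nat_lit 32912) (nat_lit 5302064569) (nat_lit 62084) (nat_lit 8123779020206) (nat_lit 0) (nat_lit 0),Row.mk (nat_lit 31416) (nat_lit 32912) (nat_lit 5302064569) (nat_lit 62084) (nat_lit 10147722017385) (nat_lit 0) (nat_lit 0)],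
[Row.mk (nat_lit 11424) (nat_lit 187) (nat_lit 6577981284) (nat_lit 374) (nat_lit 33588430) (nat_lit 935) (nat_lit 103890),Row.mk (nat_lit 11592) (nat_lit 187) (nat_lit 6577981325) (nat_lit 374) (nat_lit 33562531) (nat_lit 935) (nat_lit 129756),Row.mk (nat_lit 11760) (nat_lit 187) (nat_lit 6577981376) (nat_lit 374) (nat_lit 33530184) (nat_lit 935) (nat_lit 162063),Row.mk (nat_lit 11928) (nat_lit 187) (nat_lit 6577981440) (nat_lit 374) (nat_lit 33489782) (nat_lit 935) (nat_lit 202412),Row.mk (nat_lit 12096) (nat_lit 187) (nat_lit 6577981520) (nat_lit 374) (nat_lit 33439323) (nat_lit 935) (nat_lit 252808),Row.mk (nat_lit 12264) (nat_lit 187) (nat_lit 6577981620) (nat_lit 374) (nat_lit 33376299) (nat_lit 935) (nat_lit 315752),Row.mk (nat_lit 12432) (nat_lit 187) (nat_lit 6577981745) (nat_lit 374) (nat_lit 33297585) (nat_lit 935) (nat_lit 394366),Row.mk (nat_lit 12600) (nat_lit 187) (nat_lit 6577981900) (nat_lit 374) (nat_lit 33199272)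 (nat_lit 935) (nat_lit 492554),Row.mk (nat_lit 12768) (nat_lit 187) (nat_lit 6577982095) (nat_lit 374) (nat_lit 33076482) (nat_lit 935) (nat_lit 615188),Row.mk (nat_lit 12936) (nat_lit 187) (nat_lit 6577982338) (nat_lit 374) (nat_lit 32923121) (nat_lit 935) (nat_lit 768355),Row.mk (nat_lit 13104) (nat_lit 187) (nat_lit 6577982642) (nat_lit 374) (nat_lit 32731575) (nat_lit 935) (nat_lit 959657),Row.mk (nat_lit 13272) (nat_lit 187) (nat_lit 6577983021) (nat_lit 374) (nat_lit 32492340) (nat_lit 935) (nat_lit 1198589),Row.mk (nat_lit 13440) (nat_lit 187) (nat_lit 6577983494) (nat_lit 374) (nat_lit 32193541) (nat_lit 935) (nat_lit 1497009),Row.mk (nat_lit 13608) (nat_lit 187) (nat_lit 6577984086) (nat_lit 374) (nat_lit 31820348) (nat_lit 935) (nat_lit 1869728),Row.mk (nat_lit 13776) (nat_lit 187) (nat_lit 6577984824) (nat_lit 374) (nat_lit 31354240) (nat_lit 935) (nat_lit 2335246),Row.mk (nat_lit 13944) (nat_lit 187) (nat_lit 6577985747)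 (nat_lit 374) (nat_lit 30772081) (nat_lit 935) (nat_lit 2916666),Row.mk (nat_lit 14112) (nat_lit 187) (nat_lit 6577986899) (nat_lit 374) (nat_lit 30044979) (nat_lit 935) (nat_lit 3642845),Row.mk (nat_lit 14280) (nat_lit 187) (nat_lit 6577988338) (nat_lit 374) (nat_lit 29136846) (nat_lit 935) (nat_lit 4549826),Row.mk (nat_lit 14448) (nat_lit 187) (nat_lit 6577990135) (nat_lit 374) (nat_lit 28002610) (nat_lit 935) (nat_lit 5682623),Row.mk (nat_lit 14616) (nat_lit 187) (nat_lit 6577992380) (nat_lit 374) (nat_lit 26585977) (nat_lit 935) (nat_lit 7097459),Row.mk (nat_lit 14784) (nat_lit 187) (nat_lit 6577995184) (nat_lit 374) (nat_lit 24816636) (nat_lit 935) (nat_lit 8864555),Row.mk (nat_lit 14952) (nat_lit 187) (nat_lit 6577998686) (nat_lit 374) (nat_lit 22606771) (nat_lit 935) (nat_lit 11071616),Row.mk (nat_lit 15120) (nat_lit 187) (nat_lit 6578003060) (nat_lit 374) (nat_lit 19846704) (nat_lit 935) (nat_lit 13828181),Row.mk (nat_lit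 15288) (nat_lit 187) (nat_lit 6578008522) (nat_lit 374) (nat_lit 16399447) (nat_lit 935) (nat_lit 17271064),Row.mk (nat_lit 15456) (nat_lit 187) (nat_lit 6578015345) (nat_lit 374) (nat_lit 12093906) (nat_lit 935) (nat_lit 21571143),Row.mk (nat_lit 15624) (nat_lit 187) (nat_lit 6578023866) (nat_lit 374) (nat_lit 6716389) (nat_lit 935) (nat_lit 26941837),Row.mk (nat_lit 15792) (nat_lit 187) (nat_lit 6578034510) (nat_lit 935) (nat_lit 33649705) (nat_lit 0) (nat_lit 0),Row.mk (nat_lit 15960) (nat_lit 187) (nat_lit 6569659195) (nat_lit 748) (nat_lit 8388608) (nat_lit 935) (nat_lit 33639062),Row.mk (nat_lit 16128) (nat_lit 187) (nat_lit 6559198628) (nat_lit 748) (nat_lit 18865777) (nat_lit 935) (nat_lit 33625769),Row.mk (nat_lit 16296) (nat_lit 187) (nat_lit 6546133633) (nat_lit 748) (nat_lit 31951508) (nat_lit 935) (nat_lit 33609166),Row.mk (nat_lit 16464) (nat_lit 187) (nat_lit 6529815769) (nat_lit 748) (nat_lit 48295271) (nat_lit 935)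 (nat_lit 33588430),Row.mk (nat_lit 16632) (nat_lit 187) (nat_lit 6509435151) (nat_lit 748) (nat_lit 68708236) (nat_lit 935) (nat_lit 33562531),Row.mk (nat_lit 16800) (nat_lit 187) (nat_lit 6483980251) (nat_lit 748) (nat_lit 94203538) (nat_lit 935) (nat_lit 33530184),Row.mk (nat_lit 16968) (nat_lit 187) (nat_lit 6452187694) (nat_lit 748) (nat_lit 126046554) (nat_lit 935) (nat_lit 33489782),Row.mk (nat_lit 17136) (nat_lit 187) (nat_lit 6412479558) (nat_lit 748) (nat_lit 165817713) (nat_lit 935) (nat_lit 33439323),Row.mk (nat_lit 17304) (nat_lit 187) (nat_lit 6362885054) (nat_lit 748) (nat_lit 215490932) (nat_lit 935) (nat_lit 33376299),Row.mk (nat_lit 17472) (nat_lit 187) (nat_lit 6300942715) (nat_lit 748) (nat_lit 277531584) (nat_lit 935) (nat_lit 33297585),Row.mk (nat_lit 17640) (nat_lit 187) (nat_lit 6223578228) (nat_lit 748) (nat_lit 355018861) (nat_lit 935) (nat_lit 33199272),Row.mk (nat_lit 17808) (nat_lit 187) (nat_lit 6126951849)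 (nat_lit 748) (nat_lit 451798601) (nat_lit 935) (nat_lit 33076482),Row.mk (nat_lit 17976) (nat_lit 187) (nat_lit 6006267834) (nat_lit 748) (nat_lit 572674162) (nat_lit 935) (nat_lit 32923121),Row.mk (nat_lit 18144) (nat_lit 187) (nat_lit 5855536410) (nat_lit 748) (nat_lit 723644821) (nat_lit 935) (nat_lit 32731575),Row.mk (nat_lit 18312) (nat_lit 187) (nat_lit 5667276497) (nat_lit 748) (nat_lit 912203533) (nat_lit 935) (nat_lit 32492340),Row.mk (nat_lit 18480) (nat_lit 187) (nat_lit 5432144408) (nat_lit 748) (nat_lit 1147708815) (nat_lit 935) (nat_lit 32193541),Row.mk (nat_lit 18648) (nat_lit 187) (nat_lit 5138470101) (nat_lit 748) (nat_lit 1441849230) (nat_lit 935) (nat_lit 31820348),Row.mk (nat_lit 18816) (nat_lit 187) (nat_lit 4771677976) (nat_lit 748) (nat_lit 1809223514) (nat_lit 935) (nat_lit 31354240),Row.mk (nat_lit 18984) (nat_lit 187) (nat_lit 4313563460) (nat_lit 748) (nat_lit 2268065132) (nat_lit 935) (nat_lit 30772081),Row.mk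 (nat_lit 19152) (nat_lit 187) (nat_lit 3741389481) (nat_lit 748) (nat_lit 2841147243) (nat_lit 935) (nat_lit 30044979),Row.mk (nat_lit 19320) (nat_lit 187) (nat_lit 3026757985) (nat_lit 748) (nat_lit 3556912976) (nat_lit 935) (nat_lit 29136846),Row.mk (nat_lit 19488) (nat_lit 187) (nat_lit 2134200485) (nat_lit 748) (nat_lit 4450887109) (nat_lit 935) (nat_lit 28002610),Row.mk (nat_lit 19656) (nat_lit 187) (nat_lit 1019417700) (nat_lit 748) (nat_lit 5567439235) (nat_lit 935) (nat_lit 26585977),Row.mk (nat_lit 19824) (nat_lit 748) (nat_lit 6315303526) (nat_lit 1309) (nat_lit 273763273) (nat_lit 1496) (nat_lit 24816636),Row.mk (nat_lit 19992) (nat_lit 748) (nat_lit 4923516924) (nat_lit 1309) (nat_lit 1668309943) (nat_lit 1496) (nat_lit 22606771),Row.mk (nat_lit 20160) (nat_lit 748) (nat_lit 3185209032) (nat_lit 1309) (nat_lit 3410065092) (nat_lit 1496) (nat_lit 19846704),Row.mk (nat_lit 20328) (nat_lit 748) (nat_lit 1014104410) (nat_lit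 1309) (nat_lit 5585475255) (nat_lit 1496) (nat_lit 16399447),Row.mk (nat_lit 20496) (nat_lit 1309) (nat_lit 5257895225) (nat_lit 1870) (nat_lit 1347061958) (nat_lit 2057) (nat_lit 12093906),Row.mk (nat_lit 20664) (nat_lit 1309) (nat_lit 2547576799) (nat_lit 1870) (nat_lit 4064096772) (nat_lit 2057) (nat_lit 6716389),Row.mk (nat_lit 20832) (nat_lit 1870) (nat_lit 5949476345) (nat_lit 2431) (nat_lit 670585834) (nat_lit 0) (nat_lit 0),Row.mk (nat_lit 21000) (nat_lit 1683) (nat_lit 10477169) (nat_lit 1870) (nat_lit 2555965407) (nat_lit 2431) (nat_lit 4055708164),Row.mk (nat_lit 21168) (nat_lit 2244) (nat_lit 23562900) (nat_lit 2431) (nat_lit 5273000222) (nat_lit 2992) (nat_lit 1328196180),Row.mk (nat_lit 21336) (nat_lit 2244) (nat_lit 39906663) (nat_lit 2431) (nat_lit 1034586925) (nat_lit 2992) (nat_lit 5553523746),Row.mk (nat_lit 21504) (nat_lit 2805) (nat_lit 60319628) (nat_lit 2992) (nat_lit 3209997088) (nat_lit 3553) (nat_lit 3361769820),Row.mk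 (nat_lit 21672) (nat_lit 3366) (nat_lit 85814930) (nat_lit 3553) (nat_lit 4951752236) (nat_lit 4114) (nat_lit 1599601706),Row.mk (nat_lit 21840) (nat_lit 3927) (nat_lit 117657946) (nat_lit 4114) (nat_lit 6346298906) (nat_lit 4675) (nat_lit 179559735),Row.mk (nat_lit 22008) (nat_lit 3927) (nat_lit 157429105) (nat_lit 4114) (nat_lit 1052622945) (nat_lit 4675) (nat_lit 5441392680),Row.mk (nat_lit 22176) (nat_lit 4488) (nat_lit 207102324) (nat_lit 4675) (nat_lit 2169175071) (nat_lit 5236) (nat_lit 4285069395),Row.mk (nat_lit 22344) (nat_lit 5049) (nat_lit 269142976) (nat_lit 5236) (nat_lit 3063149203) (nat_lit 5797) (nat_lit 3341422044),Row.mk (nat_lit 22512) (nat_lit 5610) (nat_lit 346630253) (nat_lit 5797) (nat_lit 3778914936) (nat_lit 6358) (nat_lit 2563615659),Row.mk (nat_lit 22680) (nat_lit 6171) (nat_lit 443409993) (nat_lit 6358) (nat_lit 4351997047) (nat_lit 6919) (nat_lit 1913046270),Row.mk (nat_lit 22848) (nat_lit 6732) (nat_lit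 564285554) (nat_lit 6919) (nat_lit 4810838665) (nat_lit 7480) (nat_lit 1357424912),Row.mk (nat_lit 23016) (nat_lit 7293) (nat_lit 715256213) (nat_lit 7480) (nat_lit 5178212949) (nat_lit 8041) (nat_lit 869175068),Row.mk (nat_lit 23184) (nat_lit 7854) (nat_lit 903814925) (nat_lit 8041) (nat_lit 5472353365) (nat_lit 8602) (nat_lit 424063993),Row.mk (nat_lit 23352) (nat_lit 8415) (nat_lit 1139320207) (nat_lit 8602) (nat_lit 5707858647) (nat_lit 0) (nat_lit 0),Row.mk (nat_lit 23520) (nat_lit 8415) (nat_lit 529645697) (nat_lit 8976) (nat_lit 903814925) (nat_lit 9163) (nat_lit 5472353365),Row.mk (nat_lit 23688) (nat_lit 8976) (nat_lit 1085578692) (nat_lit 9537) (nat_lit 715256213) (nat_lit 9724) (nat_lit 5178212949),Row.mk (nat_lit 23856) (nat_lit 9537) (nat_lit 1695390970) (nat_lit 10098) (nat_lit 564285554) (nat_lit 10285) (nat_lit 4810838665),Row.mk (nat_lit 24024) (nat_lit 10098) (nat_lit 2389348642) (nat_lit 10659) (nat_lit 443409993)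 (nat_lit 10846) (nat_lit 4351997047),Row.mk (nat_lit 24192) (nat_lit 10659) (nat_lit 3201894114) (nat_lit 11220) (nat_lit 346630253) (nat_lit 11407) (nat_lit 3778914936),Row.mk (nat_lit 24360) (nat_lit 11220) (nat_lit 4173355525) (nat_lit 11781) (nat_lit 269142976) (nat_lit 11968) (nat_lit 3063149203),Row.mk (nat_lit 24528) (nat_lit 11781) (nat_lit 5351948302) (nat_lit 12529) (nat_lit 207102324) (nat_lit 12716) (nat_lit 2169175071),Row.mk (nat_lit 24696) (nat_lit 12529) (nat_lit 6796168191) (nat_lit 13277) (nat_lit 157429105) (nat_lit 13464) (nat_lit 1052622945),Row.mk (nat_lit 24864) (nat_lit 12342) (nat_lit 280102546) (nat_lit 13090) (nat_lit 146951936) (nat_lit 13277) (nat_lit 7926374237),Row.mk (nat_lit 25032) (nat_lit 13090) (nat_lit 2495283869) (nat_lit 13838) (nat_lit 107180777) (nat_lit 14025) (nat_lit 6184619088),Row.mk (nat_lit 25200) (nat_lit 13838) (nat_lit 5244161699) (nat_lit 14960) (nat_lit 75337761) (nat_lit 15147)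 (nat_lit 4009208925),Row.mk (nat_lit 25368) (nat_lit 14960) (nat_lit 8663167939) (nat_lit 16269) (nat_lit 49842459) (nat_lit 16456) (nat_lit 1292174111),Row.mk (nat_lit 25536) (nat_lit 14773) (nat_lit 2587762276) (nat_lit 16082) (nat_lit 36756728) (nat_lit 16269) (nat_lit 8225567865),Row.mk (nat_lit 25704) (nat_lit 16082) (nat_lit 7901851203) (nat_lit 17578) (nat_lit 16343762) (nat_lit 17765) (nat_lit 3987154568),Row.mk (nat_lit 25872) (nat_lit 15895) (nat_lit 1631813702) (nat_lit 17578) (nat_lit 11591533442) (nat_lit 0) (nat_lit 0),Row.mk (nat_lit 26040) (nat_lit 17391) (nat_lit 9889634495) (nat_lit 17578) (nat_lit 16343762) (nat_lit 19635) (nat_lit 4963516107),Row.mk (nat_lit 26208) (nat_lit 17204) (nat_lit 4094094115) (nat_lit 17391) (nat_lit 36756728) (nat_lit 19448) (nat_lit 12794641688),Row.mk (nat_lit 26376) (nat_lit 19261) (nat_lit 16975805189) (nat_lit 19448) (nat_lit 49842459) (nat_lit 25806) (nat_lit 2467736996),Row.mk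 (nat_lit 26544) (nat_lit 19074) (nat_lit 12944550367) (nat_lit 19261) (nat_lit 75337761) (nat_lit 25619) (nat_lit 9680731818),Row.mk (nat_lit 26712) (nat_lit 18887) (nat_lit 7909610343) (nat_lit 19074) (nat_lit 107180777) (nat_lit 25432) (nat_lit 18689588346),Row.mk (nat_lit 26880) (nat_lit 18700) (nat_lit 1621091715) (nat_lit 18887) (nat_lit 146951936) (nat_lit 25245) (nat_lit 29941432821),Row.mk (nat_lit 27048) (nat_lit 25058) (nat_lit 32967642086) (nat_lit 25245) (nat_lit 157429105) (nat_lit 31603) (nat_lit 4833152750),Row.mk (nat_lit 27216) (nat_lit 24871) (nat_lit 32917968867) (nat_lit 25058) (nat_lit 207102324) (nat_lit 31416) (nat_lit 12637687594),Row.mk (nat_lit 27384) (nat_lit 24684) (nat_lit 32855928216) (nat_lit 24871) (nat_lit 269142976) (nat_lit 31229) (nat_lit 22385363340),Row.mk (nat_lit 27552) (nat_lit 24497) (nat_lit 32778440938) (nat_lit 24684) (nat_lit 346630253) (nat_lit 31042) (nat_lit 34559975194),Row.mk (nat_lit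 27720) (nat_lit 24310) (nat_lit 32681661198) (nat_lit 24497) (nat_lit 443409993) (nat_lit 30855) (nat_lit 49765771703),Row.mk (nat_lit 27888) (nat_lit 24123) (nat_lit 32560785637) (nat_lit 24310) (nat_lit 564285554) (nat_lit 30668) (nat_lit 68757444721),Row.mk (nat_lit 28056) (nat_lit 23936) (nat_lit 32409814978) (nat_lit 24123) (nat_lit 715256213) (nat_lit 30481) (nat_lit 92477586169),Row.mk (nat_lit 28224) (nat_lit 23749) (nat_lit 32221256267) (nat_lit 23936) (nat_lit 903814925) (nat_lit 30294) (nat_lit 122103470617),Row.mk (nat_lit 28392) (nat_lit 23562) (nat_lit 31985750985) (nat_lit 23749) (nat_lit 1139320207) (nat_lit 30107) (nat_lit 159105485603),Row.mk (nat_lit 28560) (nat_lit 23375) (nat_lit 31691610569) (nat_lit 23562) (nat_lit 1433460622) (nat_lit 29920) (nat_lit 205320109692),Row.mk (nat_lit 28728) (nat_lit 23188) (nat_lit 31324236285) (nat_lit 23375) (nat_lit 1800834906) (nat_lit 29733) (nat_lit 263041060307),Row.mk (nat_lit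 28896) (nat_lit 23001) (nat_lit 30865394667) (nat_lit 23188) (nat_lit 2259676524) (nat_lit 29546) (nat_lit 335133135176),Row.mk (nat_lit 29064) (nat_lit 22814) (nat_lit 30292312556) (nat_lit 23001) (nat_lit 2832758635) (nat_lit 29359) (nat_lit 425174397551),Row.mk (nat_lit 29232) (nat_lit 22627) (nat_lit 29576546823) (nat_lit 22814) (nat_lit 3548524368) (nat_lit 29172) (nat_lit 537633762121),Row.mk (nat_lit 29400) (nat_lit 22440) (nat_lit 28682572690) (nat_lit 22627) (nat_lit 4442498501) (nat_lit 28985) (nat_lit 678092795520),Row.mk (nat_lit 29568) (nat_lit 22253) (nat_lit 27566020565) (nat_lit 22440) (nat_lit 5559050627) (nat_lit 28798) (nat_lit 853522739829),Row.mk (nat_lit 29736) (nat_lit 22066) (nat_lit 26171473895) (nat_lit 22253) (nat_lit 6953597296) (nat_lit 28611) (nat_lit 1072630508234),Row.mk (nat_lit 29904) (nat_lit 21879) (nat_lit 24429718746) (nat_lit 22066) (nat_lit 8695352445) (nat_lit 28424) (nat_lit 1346290825258),Row.mk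 (nat_lit 30072) (nat_lit 21692) (nat_lit 22254308583) (nat_lit 21879) (nat_lit 10870762608) (nat_lit 28237) (nat_lit 1688085959493),Row.mk (nat_lit 30240) (nat_lit 21505) (nat_lit 19537273769) (nat_lit 21692) (nat_lit 13587797423) (nat_lit 28050) (nat_lit 2114979836754),Row.mk (nat_lit 30408) (nat_lit 21318) (nat_lit 16143762831) (nat_lit 21505) (nat_lit 16981308361) (nat_lit 27863) (nat_lit 2648159991148),Row.mk (nat_lit 30576) (nat_lit 21131) (nat_lit 11905349533) (nat_lit 21318) (nat_lit 21219721658) (nat_lit 27676) (nat_lit 3314089141651),Row.mk (nat_lit 30744) (nat_lit 20944) (nat_lit 6611673572) (nat_lit 21131) (nat_lit 26513397619) (nat_lit 27489) (nat_lit 4145818585885),Row.mk (nat_lit 30912) (nat_lit 20944) (nat_lit 33125071192) (nat_lit 27302) (nat_lit 5184628597254) (nat_lit 0) (nat_lit 0),Row.mk (nat_lit 31080) (nat_lit 32912) (nat_lit 6620062180) (nat_lit 62084) (nat_lit 6501978965451) (nat_lit 0) (nat_lit 0),Row.mk (nat_lit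 31248) (nat_lit 32912) (nat_lit 6620062180) (nat_lit 62084) (nat_lit 8122461022595) (nat_lit 0) (nat_lit 0),Row.mk (nat_lit 31416) (nat_lit 32912) (nat_lit 6620062180) (nat_lit 62084) (nat_lit 10146404019774) (nat_lit 0) (nat_lit 0)],
[Row.mk (nat_lit 12096) (nat_lit 32912) (nat_lit 8388687) (nat_lit 61897) (nat_lit 8249432185) (nat_lit 0) (nat_lit 0),Row.mk (nat_lit 12264) (nat_lit 32912) (nat_lit 8388707) (nat_lit 61897) (nat_lit 8249432185) (nat_lit 0) (nat_lit 0),Row.mk (nat_lit 12432) (nat_lit 32912) (nat_lit 8388732) (nat_lit 61897) (nat_lit 8249432185) (nat_lit 0) (nat_lit 0),Row.mk (nat_lit 12600) (nat_lit 32912) (nat_lit 8388763) (nat_lit 61897) (nat_lit 8249432185) (nat_lit 0) (nat_lit 0),Row.mk (nat_lit 12768) (nat_lit 32912) (nat_lit 8388802) (nat_lit 61897) (nat_lit 8249432185) (nat_lit 0) (nat_lit 0),Row.mk (nat_lit 12936) (nat_lit 32912) (nat_lit 8388851) (nat_lit 61897) (nat_lit 8249432185) (nat_lit 0) (nat_lit 0),Row.mk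 (nat_lit 13104) (nat_lit 32912) (nat_lit 8388911) (nat_lit 61897) (nat_lit 8249432185) (nat_lit 0) (nat_lit 0),Row.mk (nat_lit 13272) (nat_lit 32912) (nat_lit 8388987) (nat_lit 61897) (nat_lit 8249432185) (nat_lit 0) (nat_lit 0),Row.mk (nat_lit 13440) (nat_lit 32912) (nat_lit 8389081) (nat_lit 61897) (nat_lit 8249432185) (nat_lit 0) (nat_lit 0),Row.mk (nat_lit 13608) (nat_lit 32912) (nat_lit 8389199) (nat_lit 61897) (nat_lit 8249432185) (nat_lit 0) (nat_lit 0),Row.mk (nat_lit 13776) (nat_lit 32912) (nat_lit 8389346) (nat_lit 61897) (nat_lit 8249432185) (nat_lit 0) (nat_lit 0),Row.mk (nat_lit 13944) (nat_lit 32912) (nat_lit 8389530) (nat_lit 61897) (nat_lit 8249432185) (nat_lit 0) (nat_lit 0),Row.mk (nat_lit 14112) (nat_lit 32912) (nat_lit 8389760) (nat_lit 61897) (nat_lit 8249432185) (nat_lit 0) (nat_lit 0),Row.mk (nat_lit 14280) (nat_lit 32912) (nat_lit 8390047) (nat_lit 61897) (nat_lit 8249432185) (nat_lit 0) (nat_lit 0),Row.mk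 (nat_lit 14448) (nat_lit 32912) (nat_lit 8390405) (nat_lit 61897) (nat_lit 8249432185) (nat_lit 0) (nat_lit 0),Row.mk (nat_lit 14616) (nat_lit 32912) (nat_lit 8390852) (nat_lit 61897) (nat_lit 8249432185) (nat_lit 0) (nat_lit 0),Row.mk (nat_lit 14784) (nat_lit 32912) (nat_lit 8391411) (nat_lit 61897) (nat_lit 8249432185) (nat_lit 0) (nat_lit 0),Row.mk (nat_lit 14952) (nat_lit 32912) (nat_lit 8392109) (nat_lit 61897) (nat_lit 8249432185) (nat_lit 0) (nat_lit 0),Row.mk (nat_lit 15120) (nat_lit 32912) (nat_lit 8392981) (nat_lit 61897) (nat_lit 8249432185) (nat_lit 0) (nat_lit 0),Row.mk (nat_lit 15288) (nat_lit 32912) (nat_lit 8394070) (nat_lit 61897) (nat_lit 8249432185) (nat_lit 0) (nat_lit 0),Row.mk (nat_lit 15456) (nat_lit 32912) (nat_lit 8395430) (nat_lit 61897) (nat_lit 8249432185) (nat_lit 0) (nat_lit 0),Row.mk (nat_lit 15624) (nat_lit 32912) (nat_lit 8397129) (nat_lit 61897) (nat_lit 8249432185) (nat_lit 0) (nat_lit 0),Row.mk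 (nat_lit 15792) (nat_lit 32912) (nat_lit 8399251) (nat_lit 61897) (nat_lit 8249432185) (nat_lit 0) (nat_lit 0),Row.mk (nat_lit 15960) (nat_lit 32912) (nat_lit 8401900) (nat_lit 61897) (nat_lit 8249432185) (nat_lit 0) (nat_lit 0),Row.mk (nat_lit 16128) (nat_lit 32912) (nat_lit 8405210) (nat_lit 61897) (nat_lit 8249432185) (nat_lit 0) (nat_lit 0),Row.mk (nat_lit 16296) (nat_lit 32912) (nat_lit 8409344) (nat_lit 61897) (nat_lit 8249432185) (nat_lit 0) (nat_lit 0),Row.mk (nat_lit 16464) (nat_lit 32912) (nat_lit 8414507) (nat_lit 61897) (nat_lit 8249432185) (nat_lit 0) (nat_lit 0),Row.mk (nat_lit 16632) (nat_lit 32912) (nat_lit 8420955) (nat_lit 61897) (nat_lit 8249432185) (nat_lit 0) (nat_lit 0),Row.mk (nat_lit 16800) (nat_lit 32912) (nat_lit 8429009) (nat_lit 61897) (nat_lit 8249432185) (nat_lit 0) (nat_lit 0),Row.mk (nat_lit 16968) (nat_lit 32912) (nat_lit 8439067) (nat_lit 61897) (nat_lit 8249432185) (nat_lit 0) (nat_lit 0),Row.mk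 (nat_lit 17136) (nat_lit 32912) (nat_lit 8451631) (nat_lit 61897) (nat_lit 8249432185) (nat_lit 0) (nat_lit 0),Row.mk (nat_lit 17304) (nat_lit 32912) (nat_lit 8467322) (nat_lit 61897) (nat_lit 8249432185) (nat_lit 0) (nat_lit 0),Row.mk (nat_lit 17472) (nat_lit 32912) (nat_lit 8486920) (nat_lit 61897) (nat_lit 8249432185) (nat_lit 0) (nat_lit 0),Row.mk (nat_lit 17640) (nat_lit 32912) (nat_lit 8511397) (nat_lit 61897) (nat_lit 8249432185) (nat_lit 0) (nat_lit 0),Row.mk (nat_lit 17808) (nat_lit 32912) (nat_lit 8541969) (nat_lit 61897) (nat_lit 8249432185) (nat_lit 0) (nat_lit 0),Row.mk (nat_lit 17976) (nat_lit 32912) (nat_lit 8580153) (nat_lit 61897) (nat_lit 8249432185) (nat_lit 0) (nat_lit 0),Row.mk (nat_lit 18144) (nat_lit 32912) (nat_lit 8627843) (nat_lit 61897) (nat_lit 8249432185) (nat_lit 0) (nat_lit 0),Row.mk (nat_lit 18312) (nat_lit 32912) (nat_lit 8687407) (nat_lit 61897) (nat_lit 8249432185) (nat_lit 0) (nat_lit 0),Row.mk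 (nat_lit 18480) (nat_lit 32912) (nat_lit 8761800) (nat_lit 61897) (nat_lit 8249432185) (nat_lit 0) (nat_lit 0),Row.mk (nat_lit 18648) (nat_lit 32912) (nat_lit 8854716) (nat_lit 61897) (nat_lit 8249432185) (nat_lit 0) (nat_lit 0),Row.mk (nat_lit 18816) (nat_lit 32912) (nat_lit 8970766) (nat_lit 61897) (nat_lit 8249432185) (nat_lit 0) (nat_lit 0),Row.mk (nat_lit 18984) (nat_lit 32912) (nat_lit 9115710) (nat_lit 61897) (nat_lit 8249432185) (nat_lit 0) (nat_lit 0),Row.mk (nat_lit 19152) (nat_lit 32912) (nat_lit 9296740) (nat_lit 61897) (nat_lit 8249432185) (nat_lit 0) (nat_lit 0),Row.mk (nat_lit 19320) (nat_lit 32912) (nat_lit 9522844) (nat_lit 61897) (nat_lit 8249432185) (nat_lit 0) (nat_lit 0),Row.mk (nat_lit 19488) (nat_lit 32912) (nat_lit 9805241) (nat_lit 61897) (nat_lit 8249432185) (nat_lit 0) (nat_lit 0),Row.mk (nat_lit 19656) (nat_lit 32912) (nat_lit 10157949) (nat_lit 61897) (nat_lit 8249432185) (nat_lit 0) (nat_lit 0),Row.mk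 (nat_lit 19824) (nat_lit 187) (nat_lit 7884901688) (nat_lit 748) (nat_lit 350312332) (nat_lit 935) (nat_lit 24816636),Row.mk (nat_lit 19992) (nat_lit 187) (nat_lit 6145906607) (nat_lit 748) (nat_lit 2092067481) (nat_lit 935) (nat_lit 22606771),Row.mk (nat_lit 20160) (nat_lit 187) (nat_lit 3973943701) (nat_lit 748) (nat_lit 4267477644) (nat_lit 935) (nat_lit 19846704),Row.mk (nat_lit 20328) (nat_lit 187) (nat_lit 1261214428) (nat_lit 748) (nat_lit 6984512458) (nat_lit 935) (nat_lit 16399447),Row.mk (nat_lit 20496) (nat_lit 748) (nat_lit 6560267906) (nat_lit 1309) (nat_lit 1690836497) (nat_lit 1496) (nat_lit 12093906),Row.mk (nat_lit 20664) (nat_lit 748) (nat_lit 3173473357) (nat_lit 1309) (nat_lit 5084347435) (nat_lit 1496) (nat_lit 6716389),Row.mk (nat_lit 20832) (nat_lit 1309) (nat_lit 7420275263) (nat_lit 1870) (nat_lit 845934138) (nat_lit 0) (nat_lit 0),Row.mk (nat_lit 21000) (nat_lit 1122) (nat_lit 10477169) (nat_lit 1309) (nat_lit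 3181861965) (nat_lit 1870) (nat_lit 5075958827),Row.mk (nat_lit 21168) (nat_lit 1683) (nat_lit 23562900) (nat_lit 1870) (nat_lit 6575372903) (nat_lit 2431) (nat_lit 1671970720),Row.mk (nat_lit 21336) (nat_lit 1683) (nat_lit 39906663) (nat_lit 1870) (nat_lit 1281696942) (nat_lit 2431) (nat_lit 6952560950),Row.mk (nat_lit 21504) (nat_lit 2244) (nat_lit 60319628) (nat_lit 2431) (nat_lit 3998731756) (nat_lit 2992) (nat_lit 4219182373),Row.mk (nat_lit 21672) (nat_lit 2805) (nat_lit 85814930) (nat_lit 2992) (nat_lit 6174141919) (nat_lit 3553) (nat_lit 2023359244),Row.mk (nat_lit 21840) (nat_lit 3366) (nat_lit 117657946) (nat_lit 3553) (nat_lit 7915897068) (nat_lit 4114) (nat_lit 256108794),Row.mk (nat_lit 22008) (nat_lit 3366) (nat_lit 157429105) (nat_lit 3553) (nat_lit 1304223496) (nat_lit 4114) (nat_lit 6835939350),Row.mk (nat_lit 22176) (nat_lit 3927) (nat_lit 207102324) (nat_lit 4114) (nat_lit 2698770165) (nat_lit 4675) (nat_lit 5401621521),Row.mk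 (nat_lit 22344) (nat_lit 4488) (nat_lit 269142976) (nat_lit 4675) (nat_lit 3815322291) (nat_lit 5236) (nat_lit 4235396176),Row.mk (nat_lit 22512) (nat_lit 5049) (nat_lit 346630253) (nat_lit 5236) (nat_lit 4709296424) (nat_lit 5797) (nat_lit 3279381392),Row.mk (nat_lit 22680) (nat_lit 5610) (nat_lit 443409993) (nat_lit 5797) (nat_lit 5425062157) (nat_lit 6358) (nat_lit 2486128382),Row.mk (nat_lit 22848) (nat_lit 6171) (nat_lit 564285554) (nat_lit 6358) (nat_lit 5998144268) (nat_lit 6919) (nat_lit 1816266530),Row.mk (nat_lit 23016) (nat_lit 6732) (nat_lit 715256213) (nat_lit 6919) (nat_lit 6456985886) (nat_lit 7480) (nat_lit 1236549352),Row.mk (nat_lit 23184) (nat_lit 7293) (nat_lit 903814925) (nat_lit 7480) (nat_lit 6824360170) (nat_lit 8041) (nat_lit 718204409),Row.mk (nat_lit 23352) (nat_lit 7854) (nat_lit 1139320207) (nat_lit 8041) (nat_lit 7118500586) (nat_lit 8602) (nat_lit 235505281),Row.mk (nat_lit 23520) (nat_lit 7854) (nat_lit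 294140415) (nat_lit 8415) (nat_lit 1139320207) (nat_lit 8602) (nat_lit 7118500586),Row.mk (nat_lit 23688) (nat_lit 8415) (nat_lit 897019981) (nat_lit 8976) (nat_lit 903814925) (nat_lit 9163) (nat_lit 6824360170),Row.mk (nat_lit 23856) (nat_lit 8976) (nat_lit 1544420310) (nat_lit 9537) (nat_lit 715256213) (nat_lit 9724) (nat_lit 6456985886),Row.mk (nat_lit 24024) (nat_lit 9537) (nat_lit 2268473081) (nat_lit 10098) (nat_lit 564285554) (nat_lit 10285) (nat_lit 5998144268),Row.mk (nat_lit 24192) (nat_lit 10098) (nat_lit 3105114374) (nat_lit 10659) (nat_lit 443409993) (nat_lit 10846) (nat_lit 5425062157),Row.mk (nat_lit 24360) (nat_lit 10659) (nat_lit 4095868247) (nat_lit 11220) (nat_lit 346630253) (nat_lit 11407) (nat_lit 4709296424),Row.mk (nat_lit 24528) (nat_lit 11220) (nat_lit 5289907651) (nat_lit 11781) (nat_lit 269142976) (nat_lit 11968) (nat_lit 3815322291),Row.mk (nat_lit 24696) (nat_lit 11781) (nat_lit 6746494972) (nat_lit 12529)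 (nat_lit 207102324) (nat_lit 12716) (nat_lit 2698770165),Row.mk (nat_lit 24864) (nat_lit 12529) (nat_lit 8537923339) (nat_lit 13277) (nat_lit 157429105) (nat_lit 13464) (nat_lit 1304223496),Row.mk (nat_lit 25032) (nat_lit 12342) (nat_lit 399514542) (nat_lit 13090) (nat_lit 146951936) (nat_lit 13277) (nat_lit 9886764477),Row.mk (nat_lit 25200) (nat_lit 13090) (nat_lit 3156320516) (nat_lit 13838) (nat_lit 107180777) (nat_lit 14025) (nat_lit 7711354314),Row.mk (nat_lit 25368) (nat_lit 13838) (nat_lit 6581674470) (nat_lit 14960) (nat_lit 75337761) (nat_lit 15147) (nat_lit 4994319499),Row.mk (nat_lit 25536) (nat_lit 14960) (nat_lit 10845583069) (nat_lit 16269) (nat_lit 49842459) (nat_lit 16456) (nat_lit 1600808561),Row.mk (nat_lit 25704) (nat_lit 14773) (nat_lit 3257547957) (nat_lit 16082) (nat_lit 36756728) (nat_lit 16269) (nat_lit 10257192068),Row.mk (nat_lit 25872) (nat_lit 16082) (nat_lit 9889634495) (nat_lit 17578) (nat_lit 16343762)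 (nat_lit 17765) (nat_lit 4963516107),Row.mk (nat_lit 26040) (nat_lit 15895) (nat_lit 2058508913) (nat_lit 17578) (nat_lit 14457132672) (nat_lit 0) (nat_lit 0),Row.mk (nat_lit 26208) (nat_lit 17391) (nat_lit 12372327874) (nat_lit 17578) (nat_lit 16343762) (nat_lit 19635) (nat_lit 6182968116),Row.mk (nat_lit 26376) (nat_lit 17204) (nat_lit 5138920087) (nat_lit 17391) (nat_lit 36756728) (nat_lit 19448) (nat_lit 15963855051),Row.mk (nat_lit 26544) (nat_lit 19261) (nat_lit 21227866461) (nat_lit 19448) (nat_lit 49842459) (nat_lit 25806) (nat_lit 3069058246),Row.mk (nat_lit 26712) (nat_lit 19074) (nat_lit 16199274153) (nat_lit 19261) (nat_lit 75337761) (nat_lit 25619) (nat_lit 12077914774),Row.mk (nat_lit 26880) (nat_lit 18887) (nat_lit 9918683668) (nat_lit 19074) (nat_lit 107180777) (nat_lit 25432) (nat_lit 23329759249),Row.mk (nat_lit 27048) (nat_lit 18700) (nat_lit 2074377664) (nat_lit 18887) (nat_lit 146951936) (nat_lit 25245) (nat_lit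 37383041561),Row.mk (nat_lit 27216) (nat_lit 25058) (nat_lit 41225462879) (nat_lit 25245) (nat_lit 157429105) (nat_lit 31603) (nat_lit 6026014022),Row.mk (nat_lit 27384) (nat_lit 24871) (nat_lit 41175789660) (nat_lit 25058) (nat_lit 207102324) (nat_lit 31416) (nat_lit 15773689767),Row.mk (nat_lit 27552) (nat_lit 24684) (nat_lit 41113749009) (nat_lit 24871) (nat_lit 269142976) (nat_lit 31229) (nat_lit 27948301622),Row.mk (nat_lit 27720) (nat_lit 24497) (nat_lit 41036261731) (nat_lit 24684) (nat_lit 346630253) (nat_lit 31042) (nat_lit 43154098131),Row.mk (nat_lit 27888) (nat_lit 24310) (nat_lit 40939481991) (nat_lit 24497) (nat_lit 443409993) (nat_lit 30855) (nat_lit 62145771149),Row.mk (nat_lit 28056) (nat_lit 24123) (nat_lit 40818606431) (nat_lit 24310) (nat_lit 564285554) (nat_lit 30668) (nat_lit 85865912596),Row.mk (nat_lit 28224) (nat_lit 23936) (nat_lit 40667635771) (nat_lit 24123) (nat_lit 715256213) (nat_lit 30481) (nat_lit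 115491797044),Row.mk (nat_lit 28392) (nat_lit 23749) (nat_lit 40479077060) (nat_lit 23936) (nat_lit 903814925) (nat_lit 30294) (nat_lit 152493812031),Row.mk (nat_lit 28560) (nat_lit 23562) (nat_lit 40243571778) (nat_lit 23749) (nat_lit 1139320207) (nat_lit 30107) (nat_lit 198708436120),Row.mk (nat_lit 28728) (nat_lit 23375) (nat_lit 39949431362) (nat_lit 23562) (nat_lit 1433460622) (nat_lit 29920) (nat_lit 256429386735),Row.mk (nat_lit 28896) (nat_lit 23188) (nat_lit 39582057078) (nat_lit 23375) (nat_lit 1800834906) (nat_lit 29733) (nat_lit 328521461603),Row.mk (nat_lit 29064) (nat_lit 23001) (nat_lit 39123215461) (nat_lit 23188) (nat_lit 2259676524) (nat_lit 29546) (nat_lit 418562723979),Row.mk (nat_lit 29232) (nat_lit 22814) (nat_lit 38550133349) (nat_lit 23001) (nat_lit 2832758635) (nat_lit 29359) (nat_lit 531022088548),Row.mk (nat_lit 29400) (nat_lit 22627) (nat_lit 37834367616) (nat_lit 22814) (nat_lit 3548524368) (nat_lit 29172)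 (nat_lit 671481121948),Row.mk (nat_lit 29568) (nat_lit 22440) (nat_lit 36940393484) (nat_lit 22627) (nat_lit 4442498501) (nat_lit 28985) (nat_lit 846911066257),Row.mk (nat_lit 29736) (nat_lit 22253) (nat_lit 35823841358) (nat_lit 22440) (nat_lit 5559050627) (nat_lit 28798) (nat_lit 1066018834662),Row.mk (nat_lit 29904) (nat_lit 22066) (nat_lit 34429294688) (nat_lit 22253) (nat_lit 6953597296) (nat_lit 28611) (nat_lit 1339679151686),Row.mk (nat_lit 30072) (nat_lit 21879) (nat_lit 32687539539) (nat_lit 22066) (nat_lit 8695352445) (nat_lit 28424) (nat_lit 1681474285921),Row.mk (nat_lit 30240) (nat_lit 21692) (nat_lit 30512129376) (nat_lit 21879) (nat_lit 10870762608) (nat_lit 28237) (nat_lit 2108368163182),Row.mk (nat_lit 30408) (nat_lit 21505) (nat_lit 27795094562) (nat_lit 21692) (nat_lit 13587797423) (nat_lit 28050) (nat_lit 2641548317575),Row.mk (nat_lit 30576) (nat_lit 21318) (nat_lit 24401583624) (nat_lit 21505) (nat_lit 16981308361)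 (nat_lit 27863) (nat_lit 3307477468079),Row.mk (nat_lit 30744) (nat_lit 21131) (nat_lit 20163170327) (nat_lit 21318) (nat_lit 21219721658) (nat_lit 27676) (nat_lit 4139206912312),Row.mk (nat_lit 30912) (nat_lit 20944) (nat_lit 14869494365) (nat_lit 21131) (nat_lit 26513397619) (nat_lit 27489) (nat_lit 5178016923681),Row.mk (nat_lit 31080) (nat_lit 32912) (nat_lit 8266209401) (nat_lit 62084) (nat_lit 6500332818230) (nat_lit 0) (nat_lit 0),Row.mk (nat_lit 31248) (nat_lit 32912) (nat_lit 8266209401) (nat_lit 62084) (nat_lit 8120814875374) (nat_lit 0) (nat_lit 0),Row.mk (nat_lit 31416) (nat_lit 32912) (nat_lit 8266209401) (nat_lit 62084) (nat_lit 10144757872554) (nat_lit 0) (nat_lit 0),Row.mk (nat_lit 31584) (nat_lit 32912) (nat_lit 8266209401) (nat_lit 62084) (nat_lit 12672613850824) (nat_lit 0) (nat_lit 0)],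
[Row.mk (nat_lit 14280) (nat_lit 32912) (nat_lit 8390047) (nat_lit 61897) (nat_lit 10305430352) (nat_lit 0) (nat_lit 0),Row.mk (nat_lit 14448) (nat_lit 32912) (nat_lit 8390405) (nat_lit 61897) (nat_lit 10305430352) (nat_lit 0) (nat_lit 0),Row.mk (nat_lit 14616) (nat_lit 32912) (nat_lit 8390852) (nat_lit 61897) (nat_lit 10305430352) (nat_lit 0) (nat_lit 0),Row.mk (nat_lit 14784) (nat_lit 32912) (nat_lit 8391411) (nat_lit 61897) (nat_lit 10305430352) (nat_lit 0) (nat_lit 0),Row.mk (nat_lit 14952) (nat_lit 32912) (nat_lit 8392109) (nat_lit 61897) (nat_lit 10305430352) (nat_lit 0) (nat_lit 0),Row.mk (nat_lit 15120) (nat_lit 32912) (nat_lit 8392981) (nat_lit 61897) (nat_lit 10305430352) (nat_lit 0) (nat_lit 0),Row.mk (nat_lit 15288) (nat_lit 32912) (nat_lit 8394070) (nat_lit 61897) (nat_lit 10305430352) (nat_lit 0) (nat_lit 0),Row.mk (nat_lit 15456) (nat_lit 32912) (nat_lit 8395430) (nat_lit 61897) (nat_lit 10305430352) (nat_lit 0) (nat_lit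 0),Row.mk (nat_lit 15624) (nat_lit 32912) (nat_lit 8397129) (nat_lit 61897) (nat_lit 10305430352) (nat_lit 0) (nat_lit 0),Row.mk (nat_lit 15792) (nat_lit 32912) (nat_lit 8399251) (nat_lit 61897) (nat_lit 10305430352) (nat_lit 0) (nat_lit 0),Row.mk (nat_lit 15960) (nat_lit 32912) (nat_lit 8401900) (nat_lit 61897) (nat_lit 10305430352) (nat_lit 0) (nat_lit 0),Row.mk (nat_lit 16128) (nat_lit 32912) (nat_lit 8405210) (nat_lit 61897) (nat_lit 10305430352) (nat_lit 0) (nat_lit 0),Row.mk (nat_lit 16296) (nat_lit 32912) (nat_lit 8409344) (nat_lit 61897) (nat_lit 10305430352) (nat_lit 0) (nat_lit 0),Row.mk (nat_lit 16464) (nat_lit 32912) (nat_lit 8414507) (nat_lit 61897) (nat_lit 10305430352) (nat_lit 0) (nat_lit 0),Row.mk (nat_lit 16632) (nat_lit 32912) (nat_lit 8420955) (nat_lit 61897) (nat_lit 10305430352) (nat_lit 0) (nat_lit 0),Row.mk (nat_lit 16800) (nat_lit 32912) (nat_lit 8429009) (nat_lit 61897) (nat_lit 10305430352) (nat_lit 0) (nat_lit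 0),Row.mk (nat_lit 16968) (nat_lit 32912) (nat_lit 8439067) (nat_lit 61897) (nat_lit 10305430352) (nat_lit 0) (nat_lit 0),Row.mk (nat_lit 17136) (nat_lit 32912) (nat_lit 8451631) (nat_lit 61897) (nat_lit 10305430352) (nat_lit 0) (nat_lit 0),Row.mk (nat_lit 17304) (nat_lit 32912) (nat_lit 8467322) (nat_lit 61897) (nat_lit 10305430352) (nat_lit 0) (nat_lit 0),Row.mk (nat_lit 17472) (nat_lit 32912) (nat_lit 8486920) (nat_lit 61897) (nat_lit 10305430352) (nat_lit 0) (nat_lit 0),Row.mk (nat_lit 17640) (nat_lit 32912) (nat_lit 8511397) (nat_lit 61897) (nat_lit 10305430352) (nat_lit 0) (nat_lit 0),Row.mk (nat_lit 17808) (nat_lit 32912) (nat_lit 8541969) (nat_lit 61897) (nat_lit 10305430352) (nat_lit 0) (nat_lit 0),Row.mk (nat_lit 17976) (nat_lit 32912) (nat_lit 8580153) (nat_lit 61897) (nat_lit 10305430352) (nat_lit 0) (nat_lit 0),Row.mk (nat_lit 18144) (nat_lit 32912) (nat_lit 8627843) (nat_lit 61897) (nat_lit 10305430352) (nat_lit 0) (nat_lit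 0),Row.mk (nat_lit 18312) (nat_lit 32912) (nat_lit 8687407) (nat_lit 61897) (nat_lit 10305430352) (nat_lit 0) (nat_lit 0),Row.mk (nat_lit 18480) (nat_lit 32912) (nat_lit 8761800) (nat_lit 61897) (nat_lit 10305430352) (nat_lit 0) (nat_lit 0),Row.mk (nat_lit 18648) (nat_lit 32912) (nat_lit 8854716) (nat_lit 61897) (nat_lit 10305430352) (nat_lit 0) (nat_lit 0),Row.mk (nat_lit 18816) (nat_lit 32912) (nat_lit 8970766) (nat_lit 61897) (nat_lit 10305430352) (nat_lit 0) (nat_lit 0),Row.mk (nat_lit 18984) (nat_lit 32912) (nat_lit 9115710) (nat_lit 61897) (nat_lit 10305430352) (nat_lit 0) (nat_lit 0),Row.mk (nat_lit 19152) (nat_lit 32912) (nat_lit 9296740) (nat_lit 61897) (nat_lit 10305430352) (nat_lit 0) (nat_lit 0),Row.mk (nat_lit 19320) (nat_lit 32912) (nat_lit 9522844) (nat_lit 61897) (nat_lit 10305430352) (nat_lit 0) (nat_lit 0),Row.mk (nat_lit 19488) (nat_lit 32912) (nat_lit 9805241) (nat_lit 61897) (nat_lit 10305430352) (nat_lit 0) (nat_lit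 0),Row.mk (nat_lit 19656) (nat_lit 32912) (nat_lit 10157949) (nat_lit 61897) (nat_lit 10305430352) (nat_lit 0) (nat_lit 0),Row.mk (nat_lit 19824) (nat_lit 32912) (nat_lit 10598472) (nat_lit 61897) (nat_lit 10305430352) (nat_lit 0) (nat_lit 0),Row.mk (nat_lit 19992) (nat_lit 32912) (nat_lit 11148675) (nat_lit 61897) (nat_lit 10305430352) (nat_lit 0) (nat_lit 0),Row.mk (nat_lit 20160) (nat_lit 32912) (nat_lit 11835865) (nat_lit 61897) (nat_lit 10305430352) (nat_lit 0) (nat_lit 0),Row.mk (nat_lit 20328) (nat_lit 32912) (nat_lit 12694149) (nat_lit 61897) (nat_lit 10305430352) (nat_lit 0) (nat_lit 0),Row.mk (nat_lit 20496) (nat_lit 187) (nat_lit 8186899967) (nat_lit 748) (nat_lit 2120202603) (nat_lit 935) (nat_lit 12093906),Row.mk (nat_lit 20664) (nat_lit 187) (nat_lit 3955203059) (nat_lit 748) (nat_lit 6358615900) (nat_lit 935) (nat_lit 6716389),Row.mk (nat_lit 20832) (nat_lit 748) (nat_lit 9257267629) (nat_lit 1309) (nat_lit 1064939939)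 (nat_lit 0) (nat_lit 0),Row.mk (nat_lit 21000) (nat_lit 561) (nat_lit 10477169) (nat_lit 748) (nat_lit 3963591667) (nat_lit 1309) (nat_lit 6350227292),Row.mk (nat_lit 21168) (nat_lit 1122) (nat_lit 23562900) (nat_lit 1309) (nat_lit 8202004964) (nat_lit 1870) (nat_lit 2101336826),Row.mk (nat_lit 21336) (nat_lit 1122) (nat_lit 39906663) (nat_lit 1309) (nat_lit 1590331392) (nat_lit 1870) (nat_lit 8699924667),Row.mk (nat_lit 21504) (nat_lit 1683) (nat_lit 60319628) (nat_lit 1870) (nat_lit 4983842330) (nat_lit 2431) (nat_lit 5290069966),Row.mk (nat_lit 21672) (nat_lit 2244) (nat_lit 85814930) (nat_lit 2431) (nat_lit 7700877144) (nat_lit 2992) (nat_lit 2552622186),Row.mk (nat_lit 21840) (nat_lit 2805) (nat_lit 117657946) (nat_lit 2992) (nat_lit 9876287307) (nat_lit 3553) (nat_lit 351716722),Row.mk (nat_lit 22008) (nat_lit 2805) (nat_lit 157429105) (nat_lit 2992) (nat_lit 1618466514) (nat_lit 3553) (nat_lit 8577694499),Row.mk (nat_lit 22176)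 (nat_lit 3366) (nat_lit 207102324) (nat_lit 3553) (nat_lit 3360221663) (nat_lit 4114) (nat_lit 6796168191),Row.mk (nat_lit 22344) (nat_lit 3927) (nat_lit 269142976) (nat_lit 4114) (nat_lit 4754768333) (nat_lit 4675) (nat_lit 5351948302),Row.mk (nat_lit 22512) (nat_lit 4488) (nat_lit 346630253) (nat_lit 4675) (nat_lit 5871320459) (nat_lit 5236) (nat_lit 4173355525),Row.mk (nat_lit 22680) (nat_lit 5049) (nat_lit 443409993) (nat_lit 5236) (nat_lit 6765294592) (nat_lit 5797) (nat_lit 3201894114),Row.mk (nat_lit 22848) (nat_lit 5610) (nat_lit 564285554) (nat_lit 5797) (nat_lit 7481060324) (nat_lit 6358) (nat_lit 2389348642),Row.mk (nat_lit 23016) (nat_lit 6171) (nat_lit 715256213) (nat_lit 6358) (nat_lit 8054142436) (nat_lit 6919) (nat_lit 1695390970),Row.mk (nat_lit 23184) (nat_lit 6732) (nat_lit 903814925) (nat_lit 6919) (nat_lit 8512984053) (nat_lit 7480) (nat_lit 1085578692),Row.mk (nat_lit 23352) (nat_lit 7293) (nat_lit 1139320207)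 (nat_lit 7480) (nat_lit 8880358337) (nat_lit 8041) (nat_lit 529645697),Row.mk (nat_lit 23520) (nat_lit 7854) (nat_lit 1433460622) (nat_lit 8041) (nat_lit 9174498753) (nat_lit 0) (nat_lit 0),Row.mk (nat_lit 23688) (nat_lit 7854) (nat_lit 661514699) (nat_lit 8415) (nat_lit 1139320207) (nat_lit 8602) (nat_lit 8880358337),Row.mk (nat_lit 23856) (nat_lit 8415) (nat_lit 1355861599) (nat_lit 8976) (nat_lit 903814925) (nat_lit 9163) (nat_lit 8512984053),Row.mk (nat_lit 24024) (nat_lit 8976) (nat_lit 2117502422) (nat_lit 9537) (nat_lit 715256213) (nat_lit 9724) (nat_lit 8054142436),Row.mk (nat_lit 24192) (nat_lit 9537) (nat_lit 2984238814) (nat_lit 10098) (nat_lit 564285554) (nat_lit 10285) (nat_lit 7481060324),Row.mk (nat_lit 24360) (nat_lit 10098) (nat_lit 3999088507) (nat_lit 10659) (nat_lit 443409993) (nat_lit 10846) (nat_lit 6765294592),Row.mk (nat_lit 24528) (nat_lit 10659) (nat_lit 5212420373) (nat_lit 11220) (nat_lit 346630253) (nat_lit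 11407) (nat_lit 5871320459),Row.mk (nat_lit 24696) (nat_lit 11220) (nat_lit 6684454320) (nat_lit 11781) (nat_lit 269142976) (nat_lit 11968) (nat_lit 4754768333),Row.mk (nat_lit 24864) (nat_lit 11781) (nat_lit 8488250121) (nat_lit 12529) (nat_lit 207102324) (nat_lit 12716) (nat_lit 3360221663),Row.mk (nat_lit 25032) (nat_lit 12529) (nat_lit 10713333502) (nat_lit 13277) (nat_lit 157429105) (nat_lit 13464) (nat_lit 1618466514),Row.mk (nat_lit 25200) (nat_lit 12342) (nat_lit 548657244) (nat_lit 13090) (nat_lit 146951936) (nat_lit 13277) (nat_lit 12335244594),Row.mk (nat_lit 25368) (nat_lit 13090) (nat_lit 3981939341) (nat_lit 13838) (nat_lit 107180777) (nat_lit 14025) (nat_lit 9618209779),Row.mk (nat_lit 25536) (nat_lit 13838) (nat_lit 8252195655) (nat_lit 14960) (nat_lit 75337761) (nat_lit 15147) (nat_lit 6224698841),Row.mk (nat_lit 25704) (nat_lit 14960) (nat_lit 13571366918) (nat_lit 16269) (nat_lit 49842459) (nat_lit 16456) (nat_lit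 1986285544),Row.mk (nat_lit 25872) (nat_lit 14773) (nat_lit 4094094115) (nat_lit 16082) (nat_lit 36756728) (nat_lit 16269) (nat_lit 12794641688),Row.mk (nat_lit 26040) (nat_lit 16082) (nat_lit 12372327874) (nat_lit 17578) (nat_lit 16343762) (nat_lit 17765) (nat_lit 6182968116),Row.mk (nat_lit 26208) (nat_lit 15895) (nat_lit 2591440939) (nat_lit 17578) (nat_lit 18036196981) (nat_lit 0) (nat_lit 0),Row.mk (nat_lit 26376) (nat_lit 17391) (nat_lit 15473152013) (nat_lit 17578) (nat_lit 16343762) (nat_lit 19635) (nat_lit 7706034257),Row.mk (nat_lit 26544) (nat_lit 17204) (nat_lit 6443882519) (nat_lit 17391) (nat_lit 36756728) (nat_lit 19448) (nat_lit 19922126087),Row.mk (nat_lit 26712) (nat_lit 19261) (nat_lit 26538588415) (nat_lit 19448) (nat_lit 49842459) (nat_lit 25806) (nat_lit 3820093981),Row.mk (nat_lit 26880) (nat_lit 19074) (nat_lit 20264345645) (nat_lit 19261) (nat_lit 75337761) (nat_lit 25619) (nat_lit 15071938456),Row.mk (nat_lit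 27048) (nat_lit 18887) (nat_lit 12427967784) (nat_lit 19074) (nat_lit 107180777) (nat_lit 25432) (nat_lit 29125220768),Row.mk (nat_lit 27216) (nat_lit 18700) (nat_lit 2640520880) (nat_lit 18887) (nat_lit 146951936) (nat_lit 25245) (nat_lit 46677431358),Row.mk (nat_lit 27384) (nat_lit 25058) (nat_lit 51539281840) (nat_lit 25245) (nat_lit 157429105) (nat_lit 31603) (nat_lit 7515868974),Row.mk (nat_lit 27552) (nat_lit 24871) (nat_lit 51489608621) (nat_lit 25058) (nat_lit 207102324) (nat_lit 31416) (nat_lit 19690480829),Row.mk (nat_lit 27720) (nat_lit 24684) (nat_lit 51427567969) (nat_lit 24871) (nat_lit 269142976) (nat_lit 31229) (nat_lit 34896277338),Row.mk (nat_lit 27888) (nat_lit 24497) (nat_lit 51350080692) (nat_lit 24684) (nat_lit 346630253) (nat_lit 31042) (nat_lit 53887950355),Row.mk (nat_lit 28056) (nat_lit 24310) (nat_lit 51253300952) (nat_lit 24497) (nat_lit 443409993) (nat_lit 30855) (nat_lit 77608091803),Row.mk (nat_lit 28224)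 (nat_lit 24123) (nat_lit 51132425391) (nat_lit 24310) (nat_lit 564285554) (nat_lit 30668) (nat_lit 107233976251),Row.mk (nat_lit 28392) (nat_lit 23936) (nat_lit 50981454732) (nat_lit 24123) (nat_lit 715256213) (nat_lit 30481) (nat_lit 144235991238),Row.mk (nat_lit 28560) (nat_lit 23749) (nat_lit 50792896020) (nat_lit 23936) (nat_lit 903814925) (nat_lit 30294) (nat_lit 190450615327),Row.mk (nat_lit 28728) (nat_lit 23562) (nat_lit 50557390738) (nat_lit 23749) (nat_lit 1139320207) (nat_lit 30107) (nat_lit 248171565941),Row.mk (nat_lit 28896) (nat_lit 23375) (nat_lit 50263250323) (nat_lit 23562) (nat_lit 1433460622) (nat_lit 29920) (nat_lit 320263640810),Row.mk (nat_lit 29064) (nat_lit 23188) (nat_lit 49895876039) (nat_lit 23375) (nat_lit 1800834906) (nat_lit 29733) (nat_lit 410304903186),Row.mk (nat_lit 29232) (nat_lit 23001) (nat_lit 49437034421) (nat_lit 23188) (nat_lit 2259676524) (nat_lit 29546) (nat_lit 522764267755),Row.mk (nat_lit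 29400) (nat_lit 22814) (nat_lit 48863952310) (nat_lit 23001) (nat_lit 2832758635) (nat_lit 29359) (nat_lit 663223301154),Row.mk (nat_lit 29568) (nat_lit 22627) (nat_lit 48148186577) (nat_lit 22814) (nat_lit 3548524368) (nat_lit 29172) (nat_lit 838653245464),Row.mk (nat_lit 29736) (nat_lit 22440) (nat_lit 47254212444) (nat_lit 22627) (nat_lit 4442498501) (nat_lit 28985) (nat_lit 1057761013869),Row.mk (nat_lit 29904) (nat_lit 22253) (nat_lit 46137660318) (nat_lit 22440) (nat_lit 5559050627) (nat_lit 28798) (nat_lit 1331421330893),Row.mk (nat_lit 30072) (nat_lit 22066) (nat_lit 44743113649) (nat_lit 22253) (nat_lit 6953597296) (nat_lit 28611) (nat_lit 1673216465128),Row.mk (nat_lit 30240) (nat_lit 21879) (nat_lit 43001358500) (nat_lit 22066) (nat_lit 8695352445) (nat_lit 28424) (nat_lit 2100110342388),Row.mk (nat_lit 30408) (nat_lit 21692) (nat_lit 40825948337) (nat_lit 21879) (nat_lit 10870762608) (nat_lit 28237) (nat_lit 2633290496782),Row.mk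 (nat_lit 30576) (nat_lit 21505) (nat_lit 38108913522) (nat_lit 21692) (nat_lit 13587797423) (nat_lit 28050) (nat_lit 3299219647286),Row.mk (nat_lit 30744) (nat_lit 21318) (nat_lit 34715402584) (nat_lit 21505) (nat_lit 16981308361) (nat_lit 27863) (nat_lit 4130949091519),Row.mk (nat_lit 30912) (nat_lit 21131) (nat_lit 30476989287) (nat_lit 21318) (nat_lit 21219721658) (nat_lit 27676) (nat_lit 5169759102888),Row.mk (nat_lit 31080) (nat_lit 20944) (nat_lit 25183313326) (nat_lit 21131) (nat_lit 26513397619) (nat_lit 27489) (nat_lit 6467207747038),Row.mk (nat_lit 31248) (nat_lit 32912) (nat_lit 10322207568) (nat_lit 62084) (nat_lit 8118758877207) (nat_lit 0) (nat_lit 0),Row.mk (nat_lit 31416) (nat_lit 32912) (nat_lit 10322207568) (nat_lit 62084) (nat_lit 10142701874386) (nat_lit 0) (nat_lit 0),Row.mk (nat_lit 31584) (nat_lit 32912) (nat_lit 10322207568) (nat_lit 62084) (nat_lit 12670557852657) (nat_lit 0) (nat_lit 0)],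
[Row.mk (nat_lit 15624) (nat_lit 32912) (nat_lit 8397129) (nat_lit 61897) (nat_lit 12873322465) (nat_lit 0) (nat_lit 0),Row.mk (nat_lit 15792) (nat_lit 32912) (nat_lit 8399251) (nat_lit 61897) (nat_lit 12873322465) (nat_lit 0) (nat_lit 0),Row.mk (nat_lit 15960) (nat_lit 32912) (nat_lit 8401900) (nat_lit 61897) (nat_lit 12873322465) (nat_lit 0) (nat_lit 0),Row.mk (nat_lit 16128) (nat_lit 32912) (nat_lit 8405210) (nat_lit 61897) (nat_lit 12873322465) (nat_lit 0) (nat_lit 0),Row.mk (nat_lit 16296) (nat_lit 32912) (nat_lit 8409344) (nat_lit 61897) (nat_lit 12873322465) (nat_lit 0) (nat_lit 0),Row.mk (nat_lit 16464) (nat_lit 32912) (nat_lit 8414507) (nat_lit 61897) (nat_lit 12873322465) (nat_lit 0) (nat_lit 0),Row.mk (nat_lit 16632) (nat_lit 32912) (nat_lit 8420955) (nat_lit 61897) (nat_lit 12873322465) (nat_lit 0) (nat_lit 0),Row.mk (nat_lit 16800) (nat_lit 32912) (nat_lit 8429009) (nat_lit 61897) (nat_lit 12873322465) (nat_lit 0) (nat_lit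 0),Row.mk (nat_lit 16968) (nat_lit 32912) (nat_lit 8439067) (nat_lit 61897) (nat_lit 12873322465) (nat_lit 0) (nat_lit 0),Row.mk (nat_lit 17136) (nat_lit 32912) (nat_lit 8451631) (nat_lit 61897) (nat_lit 12873322465) (nat_lit 0) (nat_lit 0),Row.mk (nat_lit 17304) (nat_lit 32912) (nat_lit 8467322) (nat_lit 61897) (nat_lit 12873322465) (nat_lit 0) (nat_lit 0),Row.mk (nat_lit 17472) (nat_lit 32912) (nat_lit 8486920) (nat_lit 61897) (nat_lit 12873322465) (nat_lit 0) (nat_lit 0),Row.mk (nat_lit 17640) (nat_lit 32912) (nat_lit 8511397) (nat_lit 61897) (nat_lit 12873322465) (nat_lit 0) (nat_lit 0),Row.mk (nat_lit 17808) (nat_lit 32912) (nat_lit 8541969) (nat_lit 61897) (nat_lit 12873322465) (nat_lit 0) (nat_lit 0),Row.mk (nat_lit 17976) (nat_lit 32912) (nat_lit 8580153) (nat_lit 61897) (nat_lit 12873322465) (nat_lit 0) (nat_lit 0),Row.mk (nat_lit 18144) (nat_lit 32912) (nat_lit 8627843) (nat_lit 61897) (nat_lit 12873322465) (nat_lit 0) (nat_lit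 0),Row.mk (nat_lit 18312) (nat_lit 32912) (nat_lit 8687407) (nat_lit 61897) (nat_lit 12873322465) (nat_lit 0) (nat_lit 0),Row.mk (nat_lit 18480) (nat_lit 32912) (nat_lit 8761800) (nat_lit 61897) (nat_lit 12873322465) (nat_lit 0) (nat_lit 0),Row.mk (nat_lit 18648) (nat_lit 32912) (nat_lit 8854716) (nat_lit 61897) (nat_lit 12873322465) (nat_lit 0) (nat_lit 0),Row.mk (nat_lit 18816) (nat_lit 32912) (nat_lit 8970766) (nat_lit 61897) (nat_lit 12873322465) (nat_lit 0) (nat_lit 0),Row.mk (nat_lit 18984) (nat_lit 32912) (nat_lit 9115710) (nat_lit 61897) (nat_lit 12873322465) (nat_lit 0) (nat_lit 0),Row.mk (nat_lit 19152) (nat_lit 32912) (nat_lit 9296740) (nat_lit 61897) (nat_lit 12873322465) (nat_lit 0) (nat_lit 0),Row.mk (nat_lit 19320) (nat_lit 32912) (nat_lit 9522844) (nat_lit 61897) (nat_lit 12873322465) (nat_lit 0) (nat_lit 0),Row.mk (nat_lit 19488) (nat_lit 32912) (nat_lit 9805241) (nat_lit 61897) (nat_lit 12873322465) (nat_lit 0) (nat_lit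 0),Row.mk (nat_lit 19656) (nat_lit 32912) (nat_lit 10157949) (nat_lit 61897) (nat_lit 12873322465) (nat_lit 0) (nat_lit 0),Row.mk (nat_lit 19824) (nat_lit 32912) (nat_lit 10598472) (nat_lit 61897) (nat_lit 12873322465) (nat_lit 0) (nat_lit 0),Row.mk (nat_lit 19992) (nat_lit 32912) (nat_lit 11148675) (nat_lit 61897) (nat_lit 12873322465) (nat_lit 0) (nat_lit 0),Row.mk (nat_lit 20160) (nat_lit 32912) (nat_lit 11835865) (nat_lit 61897) (nat_lit 12873322465) (nat_lit 0) (nat_lit 0),Row.mk (nat_lit 20328) (nat_lit 32912) (nat_lit 12694149) (nat_lit 61897) (nat_lit 12873322465) (nat_lit 0) (nat_lit 0),Row.mk (nat_lit 20496) (nat_lit 32912) (nat_lit 13766125) (nat_lit 61897) (nat_lit 12873322465) (nat_lit 0) (nat_lit 0),Row.mk (nat_lit 20664) (nat_lit 32912) (nat_lit 15104997) (nat_lit 61897) (nat_lit 12873322465) (nat_lit 0) (nat_lit 0),Row.mk (nat_lit 20832) (nat_lit 187) (nat_lit 11551626779) (nat_lit 748) (nat_lit 1338472901) (nat_lit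 0) (nat_lit 0),Row.mk (nat_lit 21000) (nat_lit 0) (nat_lit 10477169) (nat_lit 187) (nat_lit 4939953206) (nat_lit 748) (nat_lit 7941757866),Row.mk (nat_lit 21168) (nat_lit 561) (nat_lit 23562900) (nat_lit 748) (nat_lit 10233629168) (nat_lit 1309) (nat_lit 2637604735),Row.mk (nat_lit 21336) (nat_lit 561) (nat_lit 39906663) (nat_lit 748) (nat_lit 1975808375) (nat_lit 1309) (nat_lit 10882339797),Row.mk (nat_lit 21504) (nat_lit 1122) (nat_lit 60319628) (nat_lit 1309) (nat_lit 6214221672) (nat_lit 1870) (nat_lit 6627582737),Row.mk (nat_lit 21672) (nat_lit 1683) (nat_lit 85814930) (nat_lit 1870) (nat_lit 9607732610) (nat_lit 2431) (nat_lit 3213658833),Row.mk (nat_lit 21840) (nat_lit 2244) (nat_lit 117657946) (nat_lit 2431) (nat_lit 12324767425) (nat_lit 2992) (nat_lit 471128718),Row.mk (nat_lit 22008) (nat_lit 2244) (nat_lit 157429105) (nat_lit 2431) (nat_lit 2010948464) (nat_lit 2992) (nat_lit 10753104662),Row.mk (nat_lit 22176) (nat_lit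 2805) (nat_lit 207102324) (nat_lit 2992) (nat_lit 4186358627) (nat_lit 3553) (nat_lit 8537923339),Row.mk (nat_lit 22344) (nat_lit 3366) (nat_lit 269142976) (nat_lit 3553) (nat_lit 5928113776) (nat_lit 4114) (nat_lit 6746494972),Row.mk (nat_lit 22512) (nat_lit 3927) (nat_lit 346630253) (nat_lit 4114) (nat_lit 7322660445) (nat_lit 4675) (nat_lit 5289907651),Row.mk (nat_lit 22680) (nat_lit 4488) (nat_lit 443409993) (nat_lit 4675) (nat_lit 8439212571) (nat_lit 5236) (nat_lit 4095868247),Row.mk (nat_lit 22848) (nat_lit 5049) (nat_lit 564285554) (nat_lit 5236) (nat_lit 9333186704) (nat_lit 5797) (nat_lit 3105114374),Row.mk (nat_lit 23016) (nat_lit 5610) (nat_lit 715256213) (nat_lit 5797) (nat_lit 10048952437) (nat_lit 6358) (nat_lit 2268473081),Row.mk (nat_lit 23184) (nat_lit 6171) (nat_lit 903814925) (nat_lit 6358) (nat_lit 10622034548) (nat_lit 6919) (nat_lit 1544420310),Row.mk (nat_lit 23352) (nat_lit 6732) (nat_lit 1139320207) (nat_lit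 6919) (nat_lit 11080876166) (nat_lit 7480) (nat_lit 897019981),Row.mk (nat_lit 23520) (nat_lit 7293) (nat_lit 1433460622) (nat_lit 7480) (nat_lit 11448250450) (nat_lit 8041) (nat_lit 294140415),Row.mk (nat_lit 23688) (nat_lit 7293) (nat_lit 367374283) (nat_lit 7854) (nat_lit 1433460622) (nat_lit 8041) (nat_lit 11448250450),Row.mk (nat_lit 23856) (nat_lit 7854) (nat_lit 1120356317) (nat_lit 8415) (nat_lit 1139320207) (nat_lit 8602) (nat_lit 11080876166),Row.mk (nat_lit 24024) (nat_lit 8415) (nat_lit 1928943710) (nat_lit 8976) (nat_lit 903814925) (nat_lit 9163) (nat_lit 10622034548),Row.mk (nat_lit 24192) (nat_lit 8976) (nat_lit 2833268154) (nat_lit 9537) (nat_lit 715256213) (nat_lit 9724) (nat_lit 10048952437),Row.mk (nat_lit 24360) (nat_lit 9537) (nat_lit 3878212947) (nat_lit 10098) (nat_lit 564285554) (nat_lit 10285) (nat_lit 9333186704),Row.mk (nat_lit 24528) (nat_lit 10098) (nat_lit 5115640633) (nat_lit 10659) (nat_lit 443409993)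 (nat_lit 10846) (nat_lit 8439212571),Row.mk (nat_lit 24696) (nat_lit 10659) (nat_lit 6606967043) (nat_lit 11220) (nat_lit 346630253) (nat_lit 11407) (nat_lit 7322660445),Row.mk (nat_lit 24864) (nat_lit 11220) (nat_lit 8426209469) (nat_lit 11781) (nat_lit 269142976) (nat_lit 11968) (nat_lit 5928113776),Row.mk (nat_lit 25032) (nat_lit 11781) (nat_lit 10663660284) (nat_lit 12529) (nat_lit 207102324) (nat_lit 12716) (nat_lit 4186358627),Row.mk (nat_lit 25200) (nat_lit 12529) (nat_lit 13430368317) (nat_lit 13277) (nat_lit 157429105) (nat_lit 13464) (nat_lit 2010948464),Row.mk (nat_lit 25368) (nat_lit 12342) (nat_lit 734932880) (nat_lit 13090) (nat_lit 146951936) (nat_lit 13277) (nat_lit 15393337193),Row.mk (nat_lit 25536) (nat_lit 13090) (nat_lit 5013117337) (nat_lit 13838) (nat_lit 107180777) (nat_lit 14025) (nat_lit 11999826255),Row.mk (nat_lit 25704) (nat_lit 13838) (nat_lit 10338636315) (nat_lit 14960) (nat_lit 75337761) (nat_lit 15147)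 (nat_lit 7761412958),Row.mk (nat_lit 25872) (nat_lit 14960) (nat_lit 16975805189) (nat_lit 16269) (nat_lit 49842459) (nat_lit 16456) (nat_lit 2467736996),Row.mk (nat_lit 26040) (nat_lit 14773) (nat_lit 5138920087) (nat_lit 16082) (nat_lit 36756728) (nat_lit 16269) (nat_lit 15963855051),Row.mk (nat_lit 26208) (nat_lit 16082) (nat_lit 15473152013) (nat_lit 17578) (nat_lit 16343762) (nat_lit 17765) (nat_lit 7706034257),Row.mk (nat_lit 26376) (nat_lit 15895) (nat_lit 3257060183) (nat_lit 17578) (nat_lit 22506361962) (nat_lit 0) (nat_lit 0),Row.mk (nat_lit 26544) (nat_lit 17391) (nat_lit 19346006558) (nat_lit 17578) (nat_lit 16343762) (nat_lit 19635) (nat_lit 9608307126),Row.mk (nat_lit 26712) (nat_lit 17204) (nat_lit 8073749117) (nat_lit 17391) (nat_lit 36756728) (nat_lit 19448) (nat_lit 24865911122),Row.mk (nat_lit 26880) (nat_lit 19261) (nat_lit 33171552020) (nat_lit 19448) (nat_lit 49842459) (nat_lit 25806) (nat_lit 4758119495),Row.mk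 (nat_lit 27048) (nat_lit 19074) (nat_lit 25341521874) (nat_lit 19261) (nat_lit 75337761) (nat_lit 25619) (nat_lit 18811401808),Row.mk (nat_lit 27216) (nat_lit 18887) (nat_lit 15562003112) (nat_lit 19074) (nat_lit 107180777) (nat_lit 25432) (nat_lit 36363612397),Row.mk (nat_lit 27384) (nat_lit 18700) (nat_lit 3347620098) (nat_lit 18887) (nat_lit 146951936) (nat_lit 25245) (nat_lit 58285899997),Row.mk (nat_lit 27552) (nat_lit 25058) (nat_lit 64420992913) (nat_lit 25245) (nat_lit 157429105) (nat_lit 31603) (nat_lit 9376661868),Row.mk (nat_lit 27720) (nat_lit 24871) (nat_lit 64371319694) (nat_lit 25058) (nat_lit 207102324) (nat_lit 31416) (nat_lit 24582458377),Row.mk (nat_lit 27888) (nat_lit 24684) (nat_lit 64309279043) (nat_lit 24871) (nat_lit 269142976) (nat_lit 31229) (nat_lit 43574131395),Row.mk (nat_lit 28056) (nat_lit 24497) (nat_lit 64231791765) (nat_lit 24684) (nat_lit 346630253) (nat_lit 31042) (nat_lit 67294272843),Row.mk (nat_lit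 28224) (nat_lit 24310) (nat_lit 64135012025) (nat_lit 24497) (nat_lit 443409993) (nat_lit 30855) (nat_lit 96920157291),Row.mk (nat_lit 28392) (nat_lit 24123) (nat_lit 64014136464) (nat_lit 24310) (nat_lit 564285554) (nat_lit 30668) (nat_lit 133922172277),Row.mk (nat_lit 28560) (nat_lit 23936) (nat_lit 63863165805) (nat_lit 24123) (nat_lit 715256213) (nat_lit 30481) (nat_lit 180136796366),Row.mk (nat_lit 28728) (nat_lit 23749) (nat_lit 63674607094) (nat_lit 23936) (nat_lit 903814925) (nat_lit 30294) (nat_lit 237857746981),Row.mk (nat_lit 28896) (nat_lit 23562) (nat_lit 63439101812) (nat_lit 23749) (nat_lit 1139320207) (nat_lit 30107) (nat_lit 309949821849),Row.mk (nat_lit 29064) (nat_lit 23375) (nat_lit 63144961396) (nat_lit 23562) (nat_lit 1433460622) (nat_lit 29920) (nat_lit 399991084225),Row.mk (nat_lit 29232) (nat_lit 23188) (nat_lit 62777587112) (nat_lit 23375) (nat_lit 1800834906) (nat_lit 29733) (nat_lit 512450448795),Row.mk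 (nat_lit 29400) (nat_lit 23001) (nat_lit 62318745494) (nat_lit 23188) (nat_lit 2259676524) (nat_lit 29546) (nat_lit 652909482194),Row.mk (nat_lit 29568) (nat_lit 22814) (nat_lit 61745663383) (nat_lit 23001) (nat_lit 2832758635) (nat_lit 29359) (nat_lit 828339426503),Row.mk (nat_lit 29736) (nat_lit 22627) (nat_lit 61029897650) (nat_lit 22814) (nat_lit 3548524368) (nat_lit 29172) (nat_lit 1047447194908),Row.mk (nat_lit 29904) (nat_lit 22440) (nat_lit 60135923517) (nat_lit 22627) (nat_lit 4442498501) (nat_lit 28985) (nat_lit 1321107511932),Row.mk (nat_lit 30072) (nat_lit 22253) (nat_lit 59019371391) (nat_lit 22440) (nat_lit 5559050627) (nat_lit 28798) (nat_lit 1662902646167),Row.mk (nat_lit 30240) (nat_lit 22066) (nat_lit 57624824722) (nat_lit 22253) (nat_lit 6953597296) (nat_lit 28611) (nat_lit 2089796523428),Row.mk (nat_lit 30408) (nat_lit 21879) (nat_lit 55883069573) (nat_lit 22066) (nat_lit 8695352445) (nat_lit 28424) (nat_lit 2622976677822),Row.mk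 (nat_lit 30576) (nat_lit 21692) (nat_lit 53707659410) (nat_lit 21879) (nat_lit 10870762608) (nat_lit 28237) (nat_lit 3288905828325),Row.mk (nat_lit 30744) (nat_lit 21505) (nat_lit 50990624596) (nat_lit 21692) (nat_lit 13587797423) (nat_lit 28050) (nat_lit 4120635272559),Row.mk (nat_lit 30912) (nat_lit 21318) (nat_lit 47597113657) (nat_lit 21505) (nat_lit 16981308361) (nat_lit 27863) (nat_lit 5159445283928),Row.mk (nat_lit 31080) (nat_lit 21131) (nat_lit 43358700360) (nat_lit 21318) (nat_lit 21219721658) (nat_lit 27676) (nat_lit 6456893928077),Row.mk (nat_lit 31248) (nat_lit 20944) (nat_lit 38065024399) (nat_lit 21131) (nat_lit 26513397619) (nat_lit 27489) (nat_lit 8077375985221),Row.mk (nat_lit 31416) (nat_lit 32912) (nat_lit 12890099681) (nat_lit 62084) (nat_lit 10140133982274) (nat_lit 0) (nat_lit 0),Row.mk (nat_lit 31584) (nat_lit 32912) (nat_lit 12890099681) (nat_lit 62084) (nat_lit 12667989960544) (nat_lit 0) (nat_lit 0),Row.mk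 (nat_lit 31752) (nat_lit 32912) (nat_lit 12890099681) (nat_lit 62084) (nat_lit 15825221095899) (nat_lit 0) (nat_lit 0)],
[Row.mk (nat_lit 16128) (nat_lit 32912) (nat_lit 8405210) (nat_lit 61897) (nat_lit 16080557766) (nat_lit 0) (nat_lit 0),Row.mk (nat_lit 16296) (nat_lit 32912) (nat_lit 8409344) (nat_lit 61897) (nat_lit 16080557766) (nat_lit 0) (nat_lit 0),Row.mk (nat_lit 16464) (nat_lit 32912) (nat_lit 8414507) (nat_lit 61897) (nat_lit 16080557766) (nat_lit 0) (nat_lit 0),Row.mk (nat_lit 16632) (nat_lit 32912) (nat_lit 8420955) (nat_lit 61897) (nat_lit 16080557766) (nat_lit 0) (nat_lit 0),Row.mk (nat_lit 16800) (nat_lit 32912) (nat_lit 8429009) (nat_lit 61897) (nat_lit 16080557766) (nat_lit 0) (nat_lit 0),Row.mk (nat_lit 16968) (nat_lit 32912) (nat_lit 8439067) (nat_lit 61897) (nat_lit 16080557766) (nat_lit 0) (nat_lit 0),Row.mk (nat_lit 17136) (nat_lit 32912) (nat_lit 8451631) (nat_lit 61897) (nat_lit 16080557766) (nat_lit 0) (nat_lit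 0),Row.mk (nat_lit 17304) (nat_lit 32912) (nat_lit 8467322) (nat_lit 61897) (nat_lit 16080557766) (nat_lit 0) (nat_lit 0),Row.mk (nat_lit 17472) (nat_lit 32912) (nat_lit 8486920) (nat_lit 61897) (nat_lit 16080557766) (nat_lit 0) (nat_lit 0),Row.mk (nat_lit 17640) (nat_lit 32912) (nat_lit 8511397) (nat_lit 61897) (nat_lit 16080557766) (nat_lit 0) (nat_lit 0),Row.mk (nat_lit 17808) (nat_lit 32912) (nat_lit 8541969) (nat_lit 61897) (nat_lit 16080557766) (nat_lit 0) (nat_lit 0),Row.mk (nat_lit 17976) (nat_lit 32912) (nat_lit 8580153) (nat_lit 61897) (nat_lit 16080557766) (nat_lit 0) (nat_lit 0),Row.mk (nat_lit 18144) (nat_lit 32912) (nat_lit 8627843) (nat_lit 61897) (nat_lit 16080557766) (nat_lit 0) (nat_lit 0),Row.mk (nat_lit 18312) (nat_lit 32912) (nat_lit 8687407) (nat_lit 61897) (nat_lit 16080557766) (nat_lit 0) (nat_lit 0),Row.mk (nat_lit 18480) (nat_lit 32912) (nat_lit 8761800) (nat_lit 61897) (nat_lit 16080557766) (nat_lit 0) (nat_lit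 0),Row.mk (nat_lit 18648) (nat_lit 32912) (nat_lit 8854716) (nat_lit 61897) (nat_lit 16080557766) (nat_lit 0) (nat_lit 0),Row.mk (nat_lit 18816) (nat_lit 32912) (nat_lit 8970766) (nat_lit 61897) (nat_lit 16080557766) (nat_lit 0) (nat_lit 0),Row.mk (nat_lit 18984) (nat_lit 32912) (nat_lit 9115710) (nat_lit 61897) (nat_lit 16080557766) (nat_lit 0) (nat_lit 0),Row.mk (nat_lit 19152) (nat_lit 32912) (nat_lit 9296740) (nat_lit 61897) (nat_lit 16080557766) (nat_lit 0) (nat_lit 0),Row.mk (nat_lit 19320) (nat_lit 32912) (nat_lit 9522844) (nat_lit 61897) (nat_lit 16080557766) (nat_lit 0) (nat_lit 0),Row.mk (nat_lit 19488) (nat_lit 32912) (nat_lit 9805241) (nat_lit 61897) (nat_lit 16080557766) (nat_lit 0) (nat_lit 0),Row.mk (nat_lit 19656) (nat_lit 32912) (nat_lit 10157949) (nat_lit 61897) (nat_lit 16080557766) (nat_lit 0) (nat_lit 0),Row.mk (nat_lit 19824) (nat_lit 32912) (nat_lit 10598472) (nat_lit 61897) (nat_lit 16080557766) (nat_lit 0)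 (nat_lit 0),Row.mk (nat_lit 19992) (nat_lit 32912) (nat_lit 11148675) (nat_lit 61897) (nat_lit 16080557766) (nat_lit 0) (nat_lit 0),Row.mk (nat_lit 20160) (nat_lit 32912) (nat_lit 11835865) (nat_lit 61897) (nat_lit 16080557766) (nat_lit 0) (nat_lit 0),Row.mk (nat_lit 20328) (nat_lit 32912) (nat_lit 12694149) (nat_lit 61897) (nat_lit 16080557766) (nat_lit 0) (nat_lit 0),Row.mk (nat_lit 20496) (nat_lit 32912) (nat_lit 13766125) (nat_lit 61897) (nat_lit 16080557766) (nat_lit 0) (nat_lit 0),Row.mk (nat_lit 20664) (nat_lit 32912) (nat_lit 15104997) (nat_lit 61897) (nat_lit 16080557766) (nat_lit 0) (nat_lit 0),Row.mk (nat_lit 20832) (nat_lit 32912) (nat_lit 16777216) (nat_lit 61897) (nat_lit 16080557766) (nat_lit 0) (nat_lit 0),Row.mk (nat_lit 21000) (nat_lit 32912) (nat_lit 18865777) (nat_lit 61897) (nat_lit 16078469205) (nat_lit 0) (nat_lit 0),Row.mk (nat_lit 21168) (nat_lit 0) (nat_lit 23562900) (nat_lit 187) (nat_lit 12771078788) (nat_lit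 748) (nat_lit 3307390417),Row.mk (nat_lit 21336) (nat_lit 0) (nat_lit 39906663) (nat_lit 187) (nat_lit 2457259827) (nat_lit 748) (nat_lit 13608123646),Row.mk (nat_lit 21504) (nat_lit 561) (nat_lit 60319628) (nat_lit 748) (nat_lit 7750935789) (nat_lit 1309) (nat_lit 8298103922),Row.mk (nat_lit 21672) (nat_lit 1122) (nat_lit 85814930) (nat_lit 1309) (nat_lit 11989349086) (nat_lit 1870) (nat_lit 4039277659),Row.mk (nat_lit 21840) (nat_lit 1683) (nat_lit 117657946) (nat_lit 1870) (nat_lit 15382860024) (nat_lit 2431) (nat_lit 620271419),Row.mk (nat_lit 22008) (nat_lit 1683) (nat_lit 157429105) (nat_lit 1870) (nat_lit 2501148951) (nat_lit 2431) (nat_lit 13470139476),Row.mk (nat_lit 22176) (nat_lit 2244) (nat_lit 207102324) (nat_lit 2431) (nat_lit 5218183765) (nat_lit 2992) (nat_lit 10713333502),Row.mk (nat_lit 22344) (nat_lit 2805) (nat_lit 269142976) (nat_lit 2992) (nat_lit 7393593928) (nat_lit 3553) (nat_lit 8488250121),Row.mk (nat_lit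 22512) (nat_lit 3366) (nat_lit 346630253) (nat_lit 3553) (nat_lit 9135349077) (nat_lit 4114) (nat_lit 6684454320),Row.mk (nat_lit 22680) (nat_lit 3927) (nat_lit 443409993) (nat_lit 4114) (nat_lit 10529895747) (nat_lit 4675) (nat_lit 5212420373),Row.mk (nat_lit 22848) (nat_lit 4488) (nat_lit 564285554) (nat_lit 4675) (nat_lit 11646447873) (nat_lit 5236) (nat_lit 3999088507),Row.mk (nat_lit 23016) (nat_lit 5049) (nat_lit 715256213) (nat_lit 5236) (nat_lit 12540422006) (nat_lit 5797) (nat_lit 2984238814),Row.mk (nat_lit 23184) (nat_lit 5610) (nat_lit 903814925) (nat_lit 5797) (nat_lit 13256187738) (nat_lit 6358) (nat_lit 2117502422),Row.mk (nat_lit 23352) (nat_lit 6171) (nat_lit 1139320207) (nat_lit 6358) (nat_lit 13829269850) (nat_lit 6919) (nat_lit 1355861599),Row.mk (nat_lit 23520) (nat_lit 6732) (nat_lit 1433460622) (nat_lit 6919) (nat_lit 14288111467) (nat_lit 7480) (nat_lit 661514699),Row.mk (nat_lit 23688) (nat_lit 7293) (nat_lit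 1800834906) (nat_lit 7480) (nat_lit 14655485751) (nat_lit 0) (nat_lit 0),Row.mk (nat_lit 23856) (nat_lit 7293) (nat_lit 826215901) (nat_lit 7854) (nat_lit 1433460622) (nat_lit 8041) (nat_lit 14288111467),Row.mk (nat_lit 24024) (nat_lit 7854) (nat_lit 1693438428) (nat_lit 8415) (nat_lit 1139320207) (nat_lit 8602) (nat_lit 13829269850),Row.mk (nat_lit 24192) (nat_lit 8415) (nat_lit 2644709443) (nat_lit 8976) (nat_lit 903814925) (nat_lit 9163) (nat_lit 13256187738),Row.mk (nat_lit 24360) (nat_lit 8976) (nat_lit 3727242287) (nat_lit 9537) (nat_lit 715256213) (nat_lit 9724) (nat_lit 12540422006),Row.mk (nat_lit 24528) (nat_lit 9537) (nat_lit 4994765072) (nat_lit 10098) (nat_lit 564285554) (nat_lit 10285) (nat_lit 11646447873),Row.mk (nat_lit 24696) (nat_lit 10098) (nat_lit 6510187303) (nat_lit 10659) (nat_lit 443409993) (nat_lit 10846) (nat_lit 10529895747),Row.mk (nat_lit 24864) (nat_lit 10659) (nat_lit 8348722192) (nat_lit 11220) (nat_lit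 346630253) (nat_lit 11407) (nat_lit 9135349077),Row.mk (nat_lit 25032) (nat_lit 11220) (nat_lit 10601619632) (nat_lit 11781) (nat_lit 269142976) (nat_lit 11968) (nat_lit 7393593928),Row.mk (nat_lit 25200) (nat_lit 11781) (nat_lit 13380695098) (nat_lit 12529) (nat_lit 207102324) (nat_lit 12716) (nat_lit 5218183765),Row.mk (nat_lit 25368) (nat_lit 12529) (nat_lit 16823879255) (nat_lit 13277) (nat_lit 157429105) (nat_lit 13464) (nat_lit 2501148951),Row.mk (nat_lit 25536) (nat_lit 12342) (nat_lit 967586657) (nat_lit 13090) (nat_lit 146951936) (nat_lit 13277) (nat_lit 19212821077),Row.mk (nat_lit 25704) (nat_lit 13090) (nat_lit 6301033778) (nat_lit 13838) (nat_lit 107180777) (nat_lit 14025) (nat_lit 14974407780),Row.mk (nat_lit 25872) (nat_lit 13838) (nat_lit 12944550367) (nat_lit 14960) (nat_lit 75337761) (nat_lit 15147) (nat_lit 9680731818),Row.mk (nat_lit 26040) (nat_lit 14960) (nat_lit 21227866461) (nat_lit 16269) (nat_lit 49842459)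 (nat_lit 16456) (nat_lit 3069058246),Row.mk (nat_lit 26208) (nat_lit 14773) (nat_lit 6443882519) (nat_lit 16082) (nat_lit 36756728) (nat_lit 16269) (nat_lit 19922126087),Row.mk (nat_lit 26376) (nat_lit 16082) (nat_lit 19346006558) (nat_lit 17578) (nat_lit 16343762) (nat_lit 17765) (nat_lit 9608307126),Row.mk (nat_lit 26544) (nat_lit 15895) (nat_lit 4088402562) (nat_lit 17578) (nat_lit 28089490186) (nat_lit 0) (nat_lit 0),Row.mk (nat_lit 26712) (nat_lit 17391) (nat_lit 24183108457) (nat_lit 17578) (nat_lit 16343762) (nat_lit 19635) (nat_lit 11984200049),Row.mk (nat_lit 26880) (nat_lit 17204) (nat_lit 10109413179) (nat_lit 17391) (nat_lit 36756728) (nat_lit 19448) (nat_lit 31040579368),Row.mk (nat_lit 27048) (nat_lit 19261) (nat_lit 41455963550) (nat_lit 19448) (nat_lit 49842459) (nat_lit 25806) (nat_lit 5929690734),Row.mk (nat_lit 27216) (nat_lit 19074) (nat_lit 31682792503) (nat_lit 19261) (nat_lit 75337761) (nat_lit 25619) (nat_lit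 23481901324),Row.mk (nat_lit 27384) (nat_lit 18887) (nat_lit 19476337632) (nat_lit 19074) (nat_lit 107180777) (nat_lit 25432) (nat_lit 45404188924),Row.mk (nat_lit 27552) (nat_lit 18700) (nat_lit 4230769964) (nat_lit 18887) (nat_lit 146951936) (nat_lit 25245) (nat_lit 72784597288),Row.mk (nat_lit 27720) (nat_lit 25058) (nat_lit 80509939287) (nat_lit 25245) (nat_lit 157429105) (nat_lit 31603) (nat_lit 11700747304),Row.mk (nat_lit 27888) (nat_lit 24871) (nat_lit 80460266069) (nat_lit 25058) (nat_lit 207102324) (nat_lit 31416) (nat_lit 30692420322),Row.mk (nat_lit 28056) (nat_lit 24684) (nat_lit 80398225417) (nat_lit 24871) (nat_lit 269142976) (nat_lit 31229) (nat_lit 54412561769),Row.mk (nat_lit 28224) (nat_lit 24497) (nat_lit 80320738140) (nat_lit 24684) (nat_lit 346630253) (nat_lit 31042) (nat_lit 84038446217),Row.mk (nat_lit 28392) (nat_lit 24310) (nat_lit 80223958400) (nat_lit 24497) (nat_lit 443409993) (nat_lit 30855) (nat_lit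 121040461204),Row.mk (nat_lit 28560) (nat_lit 24123) (nat_lit 80103082839) (nat_lit 24310) (nat_lit 564285554) (nat_lit 30668) (nat_lit 167255085293),Row.mk (nat_lit 28728) (nat_lit 23936) (nat_lit 79952112180) (nat_lit 24123) (nat_lit 715256213) (nat_lit 30481) (nat_lit 224976035908),Row.mk (nat_lit 28896) (nat_lit 23749) (nat_lit 79763553468) (nat_lit 23936) (nat_lit 903814925) (nat_lit 30294) (nat_lit 297068110776),Row.mk (nat_lit 29064) (nat_lit 23562) (nat_lit 79528048186) (nat_lit 23749) (nat_lit 1139320207) (nat_lit 30107) (nat_lit 387109373152),Row.mk (nat_lit 29232) (nat_lit 23375) (nat_lit 79233907770) (nat_lit 23562) (nat_lit 1433460622) (nat_lit 29920) (nat_lit 499568737721),Row.mk (nat_lit 29400) (nat_lit 23188) (nat_lit 78866533487) (nat_lit 23375) (nat_lit 1800834906) (nat_lit 29733) (nat_lit 640027771121),Row.mk (nat_lit 29568) (nat_lit 23001) (nat_lit 78407691869) (nat_lit 23188) (nat_lit 2259676524) (nat_lit 29546)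 (nat_lit 815457715430),Row.mk (nat_lit 29736) (nat_lit 22814) (nat_lit 77834609757) (nat_lit 23001) (nat_lit 2832758635) (nat_lit 29359) (nat_lit 1034565483835),Row.mk (nat_lit 29904) (nat_lit 22627) (nat_lit 77118844025) (nat_lit 22814) (nat_lit 3548524368) (nat_lit 29172) (nat_lit 1308225800859),Row.mk (nat_lit 30072) (nat_lit 22440) (nat_lit 76224869892) (nat_lit 22627) (nat_lit 4442498501) (nat_lit 28985) (nat_lit 1650020935094),Row.mk (nat_lit 30240) (nat_lit 22253) (nat_lit 75108317766) (nat_lit 22440) (nat_lit 5559050627) (nat_lit 28798) (nat_lit 2076914812355),Row.mk (nat_lit 30408) (nat_lit 22066) (nat_lit 73713771096) (nat_lit 22253) (nat_lit 6953597296) (nat_lit 28611) (nat_lit 2610094966748),Row.mk (nat_lit 30576) (nat_lit 21879) (nat_lit 71972015948) (nat_lit 22066) (nat_lit 8695352445) (nat_lit 28424) (nat_lit 3276024117252),Row.mk (nat_lit 30744) (nat_lit 21692) (nat_lit 69796605784) (nat_lit 21879) (nat_lit 10870762608)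 (nat_lit 28237) (nat_lit 4107753561486),Row.mk (nat_lit 30912) (nat_lit 21505) (nat_lit 67079570970) (nat_lit 21692) (nat_lit 13587797423) (nat_lit 28050) (nat_lit 5146563572854),Row.mk (nat_lit 31080) (nat_lit 21318) (nat_lit 63686060032) (nat_lit 21505) (nat_lit 16981308361) (nat_lit 27863) (nat_lit 6444012217004),Row.mk (nat_lit 31248) (nat_lit 21131) (nat_lit 59447646735) (nat_lit 21318) (nat_lit 21219721658) (nat_lit 27676) (nat_lit 8064494274148),Row.mk (nat_lit 31416) (nat_lit 20944) (nat_lit 54153970773) (nat_lit 21131) (nat_lit 26513397619) (nat_lit 27489) (nat_lit 10088437271328),Row.mk (nat_lit 31584) (nat_lit 32912) (nat_lit 16097334982) (nat_lit 62084) (nat_lit 12664782725243) (nat_lit 0) (nat_lit 0),Row.mk (nat_lit 31752) (nat_lit 32912) (nat_lit 16097334982) (nat_lit 62084) (nat_lit 15822013860598) (nat_lit 0) (nat_lit 0),Row.mk (nat_lit 31920) (nat_lit 32912) (nat_lit 16097334982) (nat_lit 62084) (nat_lit 19765319384228)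 (nat_lit 0) (nat_lit 0)],
[Row.mk (nat_lit 16464) (nat_lit 32912) (nat_lit 8414507) (nat_lit 61897) (nat_lit 20086317287) (nat_lit 0) (nat_lit 0),Row.mk (nat_lit 16632) (nat_lit 32912) (nat_lit 8420955) (nat_lit 61897) (nat_lit 20086317287) (nat_lit 0) (nat_lit 0),Row.mk (nat_lit 16800) (nat_lit 32912) (nat_lit 8429009) (nat_lit 61897) (nat_lit 20086317287) (nat_lit 0) (nat_lit 0),Row.mk (nat_lit 16968) (nat_lit 32912) (nat_lit 8439067) (nat_lit 61897) (nat_lit 20086317287) (nat_lit 0) (nat_lit 0),Row.mk (nat_lit 17136) (nat_lit 32912) (nat_lit 8451631) (nat_lit 61897) (nat_lit 20086317287) (nat_lit 0) (nat_lit 0),Row.mk (nat_lit 17304) (nat_lit 32912) (nat_lit 8467322) (nat_lit 61897) (nat_lit 20086317287) (nat_lit 0) (nat_lit 0),Row.mk (nat_lit 17472) (nat_lit 32912) (nat_lit 8486920) (nat_lit 61897) (nat_lit 20086317287) (nat_lit 0) (nat_lit 0),Row.mk (nat_lit 17640) (nat_lit 32912) (nat_lit 8511397) (nat_lit 61897) (nat_lit 20086317287)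 (nat_lit 0) (nat_lit 0),Row.mk (nat_lit 17808) (nat_lit 32912) (nat_lit 8541969) (nat_lit 61897) (nat_lit 20086317287) (nat_lit 0) (nat_lit 0),Row.mk (nat_lit 17976) (nat_lit 32912) (nat_lit 8580153) (nat_lit 61897) (nat_lit 20086317287) (nat_lit 0) (nat_lit 0),Row.mk (nat_lit 18144) (nat_lit 32912) (nat_lit 8627843) (nat_lit 61897) (nat_lit 20086317287) (nat_lit 0) (nat_lit 0),Row.mk (nat_lit 18312) (nat_lit 32912) (nat_lit 8687407) (nat_lit 61897) (nat_lit 20086317287) (nat_lit 0) (nat_lit 0),Row.mk (nat_lit 18480) (nat_lit 32912) (nat_lit 8761800) (nat_lit 61897) (nat_lit 20086317287) (nat_lit 0) (nat_lit 0),Row.mk (nat_lit 18648) (nat_lit 32912) (nat_lit 8854716) (nat_lit 61897) (nat_lit 20086317287) (nat_lit 0) (nat_lit 0),Row.mk (nat_lit 18816) (nat_lit 32912) (nat_lit 8970766) (nat_lit 61897) (nat_lit 20086317287) (nat_lit 0) (nat_lit 0),Row.mk (nat_lit 18984) (nat_lit 32912) (nat_lit 9115710) (nat_lit 61897) (nat_lit 20086317287)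 (nat_lit 0) (nat_lit 0),Row.mk (nat_lit 19152) (nat_lit 32912) (nat_lit 9296740) (nat_lit 61897) (nat_lit 20086317287) (nat_lit 0) (nat_lit 0),Row.mk (nat_lit 19320) (nat_lit 32912) (nat_lit 9522844) (nat_lit 61897) (nat_lit 20086317287) (nat_lit 0) (nat_lit 0),Row.mk (nat_lit 19488) (nat_lit 32912) (nat_lit 9805241) (nat_lit 61897) (nat_lit 20086317287) (nat_lit 0) (nat_lit 0),Row.mk (nat_lit 19656) (nat_lit 32912) (nat_lit 10157949) (nat_lit 61897) (nat_lit 20086317287) (nat_lit 0) (nat_lit 0),Row.mk (nat_lit 19824) (nat_lit 32912) (nat_lit 10598472) (nat_lit 61897) (nat_lit 20086317287) (nat_lit 0) (nat_lit 0),Row.mk (nat_lit 19992) (nat_lit 32912) (nat_lit 11148675) (nat_lit 61897) (nat_lit 20086317287) (nat_lit 0) (nat_lit 0),Row.mk (nat_lit 20160) (nat_lit 32912) (nat_lit 11835865) (nat_lit 61897) (nat_lit 20086317287) (nat_lit 0) (nat_lit 0),Row.mk (nat_lit 20328) (nat_lit 32912) (nat_lit 12694149) (nat_lit 61897) (nat_lit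 20086317287) (nat_lit 0) (nat_lit 0),Row.mk (nat_lit 20496) (nat_lit 32912) (nat_lit 13766125) (nat_lit 61897) (nat_lit 20086317287) (nat_lit 0) (nat_lit 0),Row.mk (nat_lit 20664) (nat_lit 32912) (nat_lit 15104997) (nat_lit 61897) (nat_lit 20086317287) (nat_lit 0) (nat_lit 0),Row.mk (nat_lit 20832) (nat_lit 32912) (nat_lit 16777216) (nat_lit 61897) (nat_lit 20086317287) (nat_lit 0) (nat_lit 0),Row.mk (nat_lit 21000) (nat_lit 32912) (nat_lit 18865777) (nat_lit 61897) (nat_lit 20084228726) (nat_lit 0) (nat_lit 0),Row.mk (nat_lit 21168) (nat_lit 32912) (nat_lit 21474339) (nat_lit 61897) (nat_lit 20081620163) (nat_lit 0) (nat_lit 0),Row.mk (nat_lit 21336) (nat_lit 32912) (nat_lit 24732370) (nat_lit 61897) (nat_lit 20078362132) (nat_lit 0) (nat_lit 0),Row.mk (nat_lit 21504) (nat_lit 0) (nat_lit 60319628) (nat_lit 187) (nat_lit 9670254649) (nat_lit 748) (nat_lit 10384544582),Row.mk (nat_lit 21672) (nat_lit 561) (nat_lit 85814930) (nat_lit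 748) (nat_lit 14963930611) (nat_lit 1309) (nat_lit 5070455655),Row.mk (nat_lit 21840) (nat_lit 1122) (nat_lit 117657946) (nat_lit 1309) (nat_lit 19202343908) (nat_lit 1870) (nat_lit 806547056),Row.mk (nat_lit 22008) (nat_lit 1122) (nat_lit 157429105) (nat_lit 1309) (nat_lit 3113397533) (nat_lit 1870) (nat_lit 16863650414),Row.mk (nat_lit 22176) (nat_lit 1683) (nat_lit 207102324) (nat_lit 1870) (nat_lit 6506908472) (nat_lit 2431) (nat_lit 13430368317),Row.mk (nat_lit 22344) (nat_lit 2244) (nat_lit 269142976) (nat_lit 2431) (nat_lit 9223943286) (nat_lit 2992) (nat_lit 10663660284),Row.mk (nat_lit 22512) (nat_lit 2805) (nat_lit 346630253) (nat_lit 2992) (nat_lit 11399353449) (nat_lit 3553) (nat_lit 8426209469),Row.mk (nat_lit 22680) (nat_lit 3366) (nat_lit 443409993) (nat_lit 3553) (nat_lit 13141108598) (nat_lit 4114) (nat_lit 6606967043),Row.mk (nat_lit 22848) (nat_lit 3927) (nat_lit 564285554) (nat_lit 4114) (nat_lit 14535655267) (nat_lit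 4675) (nat_lit 5115640633),Row.mk (nat_lit 23016) (nat_lit 4488) (nat_lit 715256213) (nat_lit 4675) (nat_lit 15652207393) (nat_lit 5236) (nat_lit 3878212947),Row.mk (nat_lit 23184) (nat_lit 5049) (nat_lit 903814925) (nat_lit 5236) (nat_lit 16546181526) (nat_lit 5797) (nat_lit 2833268154),Row.mk (nat_lit 23352) (nat_lit 5610) (nat_lit 1139320207) (nat_lit 5797) (nat_lit 17261947259) (nat_lit 6358) (nat_lit 1928943710),Row.mk (nat_lit 23520) (nat_lit 6171) (nat_lit 1433460622) (nat_lit 6358) (nat_lit 17835029370) (nat_lit 6919) (nat_lit 1120356317),Row.mk (nat_lit 23688) (nat_lit 6732) (nat_lit 1800834906) (nat_lit 6919) (nat_lit 18293870988) (nat_lit 7480) (nat_lit 367374283),Row.mk (nat_lit 23856) (nat_lit 6732) (nat_lit 458841617) (nat_lit 7293) (nat_lit 1800834906) (nat_lit 7480) (nat_lit 18293870988),Row.mk (nat_lit 24024) (nat_lit 7293) (nat_lit 1399298013) (nat_lit 7854) (nat_lit 1433460622) (nat_lit 8041) (nat_lit 17835029370),Row.mk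 (nat_lit 24192) (nat_lit 7854) (nat_lit 2409204161) (nat_lit 8415) (nat_lit 1139320207) (nat_lit 8602) (nat_lit 17261947259),Row.mk (nat_lit 24360) (nat_lit 8415) (nat_lit 3538683576) (nat_lit 8976) (nat_lit 903814925) (nat_lit 9163) (nat_lit 16546181526),Row.mk (nat_lit 24528) (nat_lit 8976) (nat_lit 4843794413) (nat_lit 9537) (nat_lit 715256213) (nat_lit 9724) (nat_lit 15652207393),Row.mk (nat_lit 24696) (nat_lit 9537) (nat_lit 6389311742) (nat_lit 10098) (nat_lit 564285554) (nat_lit 10285) (nat_lit 14535655267),Row.mk (nat_lit 24864) (nat_lit 10098) (nat_lit 8251942452) (nat_lit 10659) (nat_lit 443409993) (nat_lit 10846) (nat_lit 13141108598),Row.mk (nat_lit 25032) (nat_lit 10659) (nat_lit 10524132355) (nat_lit 11220) (nat_lit 346630253) (nat_lit 11407) (nat_lit 11399353449),Row.mk (nat_lit 25200) (nat_lit 11220) (nat_lit 13318654447) (nat_lit 11781) (nat_lit 269142976) (nat_lit 11968) (nat_lit 9223943286),Row.mk (nat_lit 25368)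 (nat_lit 11781) (nat_lit 16774206036) (nat_lit 12529) (nat_lit 207102324) (nat_lit 12716) (nat_lit 6506908472),Row.mk (nat_lit 25536) (nat_lit 12529) (nat_lit 21062292552) (nat_lit 13277) (nat_lit 157429105) (nat_lit 13464) (nat_lit 3113397533),Row.mk (nat_lit 25704) (nat_lit 12342) (nat_lit 1258165611) (nat_lit 13090) (nat_lit 146951936) (nat_lit 13277) (nat_lit 23983264308),Row.mk (nat_lit 25872) (nat_lit 13090) (nat_lit 7909610343) (nat_lit 13838) (nat_lit 107180777) (nat_lit 14025) (nat_lit 18689588346),Row.mk (nat_lit 26040) (nat_lit 13838) (nat_lit 16199274153) (nat_lit 14960) (nat_lit 75337761) (nat_lit 15147) (nat_lit 12077914774),Row.mk (nat_lit 26208) (nat_lit 14960) (nat_lit 26538588415) (nat_lit 16269) (nat_lit 49842459) (nat_lit 16456) (nat_lit 3820093981),Row.mk (nat_lit 26376) (nat_lit 14773) (nat_lit 8073749117) (nat_lit 16082) (nat_lit 36756728) (nat_lit 16269) (nat_lit 24865911122),Row.mk (nat_lit 26544) (nat_lit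 16082) (nat_lit 24183108457) (nat_lit 17578) (nat_lit 16343762) (nat_lit 17765) (nat_lit 11984200049),Row.mk (nat_lit 26712) (nat_lit 15895) (nat_lit 5126729138) (nat_lit 17578) (nat_lit 35062682652) (nat_lit 0) (nat_lit 0),Row.mk (nat_lit 26880) (nat_lit 17391) (nat_lit 30224532040) (nat_lit 17578) (nat_lit 16343762) (nat_lit 19635) (nat_lit 14951632994),Row.mk (nat_lit 27048) (nat_lit 17204) (nat_lit 12651908485) (nat_lit 17391) (nat_lit 36756728) (nat_lit 19448) (nat_lit 38752591051),Row.mk (nat_lit 27216) (nat_lit 19261) (nat_lit 51802993700) (nat_lit 19448) (nat_lit 49842459) (nat_lit 25806) (nat_lit 7392954949),Row.mk (nat_lit 27384) (nat_lit 19074) (nat_lit 39602886544) (nat_lit 19261) (nat_lit 75337761) (nat_lit 25619) (nat_lit 29315242550),Row.mk (nat_lit 27552) (nat_lit 18887) (nat_lit 24365247018) (nat_lit 19074) (nat_lit 107180777) (nat_lit 25432) (nat_lit 56695650913),Row.mk (nat_lit 27720) (nat_lit 18700) (nat_lit 5333802841)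 (nat_lit 18887) (nat_lit 146951936) (nat_lit 25245) (nat_lit 90893120440),Row.mk (nat_lit 27888) (nat_lit 25058) (nat_lit 100604645183) (nat_lit 25245) (nat_lit 157429105) (nat_lit 31603) (nat_lit 14603473947),Row.mk (nat_lit 28056) (nat_lit 24871) (nat_lit 100554971964) (nat_lit 25058) (nat_lit 207102324) (nat_lit 31416) (nat_lit 38323615395),Row.mk (nat_lit 28224) (nat_lit 24684) (nat_lit 100492931312) (nat_lit 24871) (nat_lit 269142976) (nat_lit 31229) (nat_lit 67949499843),Row.mk (nat_lit 28392) (nat_lit 24497) (nat_lit 100415444035) (nat_lit 24684) (nat_lit 346630253) (nat_lit 31042) (nat_lit 104951514830),Row.mk (nat_lit 28560) (nat_lit 24310) (nat_lit 100318664295) (nat_lit 24497) (nat_lit 443409993) (nat_lit 30855) (nat_lit 151166138919),Row.mk (nat_lit 28728) (nat_lit 24123) (nat_lit 100197788734) (nat_lit 24310) (nat_lit 564285554) (nat_lit 30668) (nat_lit 208887089533),Row.mk (nat_lit 28896) (nat_lit 23936) (nat_lit 100046818075)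 (nat_lit 24123) (nat_lit 715256213) (nat_lit 30481) (nat_lit 280979164402),Row.mk (nat_lit 29064) (nat_lit 23749) (nat_lit 99858259363) (nat_lit 23936) (nat_lit 903814925) (nat_lit 30294) (nat_lit 371020426777),Row.mk (nat_lit 29232) (nat_lit 23562) (nat_lit 99622754081) (nat_lit 23749) (nat_lit 1139320207) (nat_lit 30107) (nat_lit 483479791347),Row.mk (nat_lit 29400) (nat_lit 23375) (nat_lit 99328613665) (nat_lit 23562) (nat_lit 1433460622) (nat_lit 29920) (nat_lit 623938824746),Row.mk (nat_lit 29568) (nat_lit 23188) (nat_lit 98961239382) (nat_lit 23375) (nat_lit 1800834906) (nat_lit 29733) (nat_lit 799368769056),Row.mk (nat_lit 29736) (nat_lit 23001) (nat_lit 98502397764) (nat_lit 23188) (nat_lit 2259676524) (nat_lit 29546) (nat_lit 1018476537460),Row.mk (nat_lit 29904) (nat_lit 22814) (nat_lit 97929315652) (nat_lit 23001) (nat_lit 2832758635) (nat_lit 29359) (nat_lit 1292136854485),Row.mk (nat_lit 30072) (nat_lit 22627) (nat_lit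 97213549920) (nat_lit 22814) (nat_lit 3548524368) (nat_lit 29172) (nat_lit 1633931988720),Row.mk (nat_lit 30240) (nat_lit 22440) (nat_lit 96319575787) (nat_lit 22627) (nat_lit 4442498501) (nat_lit 28985) (nat_lit 2060825865980),Row.mk (nat_lit 30408) (nat_lit 22253) (nat_lit 95203023661) (nat_lit 22440) (nat_lit 5559050627) (nat_lit 28798) (nat_lit 2594006020374),Row.mk (nat_lit 30576) (nat_lit 22066) (nat_lit 93808476991) (nat_lit 22253) (nat_lit 6953597296) (nat_lit 28611) (nat_lit 3259935170877),Row.mk (nat_lit 30744) (nat_lit 21879) (nat_lit 92066721843) (nat_lit 22066) (nat_lit 8695352445) (nat_lit 28424) (nat_lit 4091664615111),Row.mk (nat_lit 30912) (nat_lit 21692) (nat_lit 89891311680) (nat_lit 21879) (nat_lit 10870762608) (nat_lit 28237) (nat_lit 5130474626480),Row.mk (nat_lit 31080) (nat_lit 21505) (nat_lit 87174276865) (nat_lit 21692) (nat_lit 13587797423) (nat_lit 28050) (nat_lit 6427923270629),Row.mk (nat_lit 31248) (nat_lit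 21318) (nat_lit 83780765927) (nat_lit 21505) (nat_lit 16981308361) (nat_lit 27863) (nat_lit 8048405327773),Row.mk (nat_lit 31416) (nat_lit 21131) (nat_lit 79542352630) (nat_lit 21318) (nat_lit 21219721658) (nat_lit 27676) (nat_lit 10072348324953),Row.mk (nat_lit 31584) (nat_lit 20944) (nat_lit 74248676668) (nat_lit 21131) (nat_lit 26513397619) (nat_lit 27489) (nat_lit 12600204303224),Row.mk (nat_lit 31752) (nat_lit 32912) (nat_lit 20103094503) (nat_lit 62084) (nat_lit 15818008101077) (nat_lit 0) (nat_lit 0),Row.mk (nat_lit 31920) (nat_lit 32912) (nat_lit 20103094503) (nat_lit 62084) (nat_lit 19761313624707) (nat_lit 0) (nat_lit 0)],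
[Row.mk (nat_lit 16632) (nat_lit 32912) (nat_lit 8420955) (nat_lit 61897) (nat_lit 25089414294) (nat_lit 0) (nat_lit 0),Row.mk (nat_lit 16800) (nat_lit 32912) (nat_lit 8429009) (nat_lit 61897) (nat_lit 25089414294) (nat_lit 0) (nat_lit 0),Row.mk (nat_lit 16968) (nat_lit 32912) (nat_lit 8439067) (nat_lit 61897) (nat_lit 25089414294) (nat_lit 0) (nat_lit 0),Row.mk (nat_lit 17136) (nat_lit 32912) (nat_lit 8451631) (nat_lit 61897) (nat_lit 25089414294) (nat_lit 0) (nat_lit 0),Row.mk (nat_lit 17304) (nat_lit 32912) (nat_lit 8467322) (nat_lit 61897) (nat_lit 25089414294) (nat_lit 0) (nat_lit 0),Row.mk (nat_lit 17472) (nat_lit 32912) (nat_lit 8486920) (nat_lit 61897) (nat_lit 25089414294) (nat_lit 0) (nat_lit 0),Row.mk (nat_lit 17640) (nat_lit 32912) (nat_lit 8511397) (nat_lit 61897) (nat_lit 25089414294) (nat_lit 0) (nat_lit 0),Row.mk (nat_lit 17808) (nat_lit 32912) (nat_lit 8541969) (nat_lit 61897) (nat_lit 25089414294) (nat_lit 0) (nat_lit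 0),Row.mk (nat_lit 17976) (nat_lit 32912) (nat_lit 8580153) (nat_lit 61897) (nat_lit 25089414294) (nat_lit 0) (nat_lit 0),Row.mk (nat_lit 18144) (nat_lit 32912) (nat_lit 8627843) (nat_lit 61897) (nat_lit 25089414294) (nat_lit 0) (nat_lit 0),Row.mk (nat_lit 18312) (nat_lit 32912) (nat_lit 8687407) (nat_lit 61897) (nat_lit 25089414294) (nat_lit 0) (nat_lit 0),Row.mk (nat_lit 18480) (nat_lit 32912) (nat_lit 8761800) (nat_lit 61897) (nat_lit 25089414294) (nat_lit 0) (nat_lit 0),Row.mk (nat_lit 18648) (nat_lit 32912) (nat_lit 8854716) (nat_lit 61897) (nat_lit 25089414294) (nat_lit 0) (nat_lit 0),Row.mk (nat_lit 18816) (nat_lit 32912) (nat_lit 8970766) (nat_lit 61897) (nat_lit 25089414294) (nat_lit 0) (nat_lit 0),Row.mk (nat_lit 18984) (nat_lit 32912) (nat_lit 9115710) (nat_lit 61897) (nat_lit 25089414294) (nat_lit 0) (nat_lit 0),Row.mk (nat_lit 19152) (nat_lit 32912) (nat_lit 9296740) (nat_lit 61897) (nat_lit 25089414294) (nat_lit 0) (nat_lit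 0),Row.mk (nat_lit 19320) (nat_lit 32912) (nat_lit 9522844) (nat_lit 61897) (nat_lit 25089414294) (nat_lit 0) (nat_lit 0),Row.mk (nat_lit 19488) (nat_lit 32912) (nat_lit 9805241) (nat_lit 61897) (nat_lit 25089414294) (nat_lit 0) (nat_lit 0),Row.mk (nat_lit 19656) (nat_lit 32912) (nat_lit 10157949) (nat_lit 61897) (nat_lit 25089414294) (nat_lit 0) (nat_lit 0),Row.mk (nat_lit 19824) (nat_lit 32912) (nat_lit 10598472) (nat_lit 61897) (nat_lit 25089414294) (nat_lit 0) (nat_lit 0),Row.mk (nat_lit 19992) (nat_lit 32912) (nat_lit 11148675) (nat_lit 61897) (nat_lit 25089414294) (nat_lit 0) (nat_lit 0),Row.mk (nat_lit 20160) (nat_lit 32912) (nat_lit 11835865) (nat_lit 61897) (nat_lit 25089414294) (nat_lit 0) (nat_lit 0),Row.mk (nat_lit 20328) (nat_lit 32912) (nat_lit 12694149) (nat_lit 61897) (nat_lit 25089414294) (nat_lit 0) (nat_lit 0),Row.mk (nat_lit 20496) (nat_lit 32912) (nat_lit 13766125) (nat_lit 61897) (nat_lit 25089414294) (nat_lit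 0) (nat_lit 0),Row.mk (nat_lit 20664) (nat_lit 32912) (nat_lit 15104997) (nat_lit 61897) (nat_lit 25089414294) (nat_lit 0) (nat_lit 0),Row.mk (nat_lit 20832) (nat_lit 32912) (nat_lit 16777216) (nat_lit 61897) (nat_lit 25089414294) (nat_lit 0) (nat_lit 0),Row.mk (nat_lit 21000) (nat_lit 32912) (nat_lit 18865777) (nat_lit 61897) (nat_lit 25087325733) (nat_lit 0) (nat_lit 0),Row.mk (nat_lit 21168) (nat_lit 32912) (nat_lit 21474339) (nat_lit 61897) (nat_lit 25084717170) (nat_lit 0) (nat_lit 0),Row.mk (nat_lit 21336) (nat_lit 32912) (nat_lit 24732370) (nat_lit 61897) (nat_lit 25081459139) (nat_lit 0) (nat_lit 0),Row.mk (nat_lit 21504) (nat_lit 32912) (nat_lit 28801573) (nat_lit 61897) (nat_lit 25077389936) (nat_lit 0) (nat_lit 0),Row.mk (nat_lit 21672) (nat_lit 0) (nat_lit 85814930) (nat_lit 187) (nat_lit 18679111177) (nat_lit 748) (nat_lit 6358372096),Row.mk (nat_lit 21840) (nat_lit 561) (nat_lit 117657946) (nat_lit 748) (nat_lit 23972787139)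 (nat_lit 1309) (nat_lit 1039200833),Row.mk (nat_lit 22008) (nat_lit 561) (nat_lit 157429105) (nat_lit 748) (nat_lit 3878081243) (nat_lit 1309) (nat_lit 21102063711),Row.mk (nat_lit 22176) (nat_lit 1122) (nat_lit 207102324) (nat_lit 1309) (nat_lit 8116494541) (nat_lit 1870) (nat_lit 16823879255),Row.mk (nat_lit 22344) (nat_lit 1683) (nat_lit 269142976) (nat_lit 1870) (nat_lit 11510005479) (nat_lit 2431) (nat_lit 13380695098),Row.mk (nat_lit 22512) (nat_lit 2244) (nat_lit 346630253) (nat_lit 2431) (nat_lit 14227040293) (nat_lit 2992) (nat_lit 10601619632),Row.mk (nat_lit 22680) (nat_lit 2805) (nat_lit 443409993) (nat_lit 2992) (nat_lit 16402450456) (nat_lit 3553) (nat_lit 8348722192),Row.mk (nat_lit 22848) (nat_lit 3366) (nat_lit 564285554) (nat_lit 3553) (nat_lit 18144205605) (nat_lit 4114) (nat_lit 6510187303),Row.mk (nat_lit 23016) (nat_lit 3927) (nat_lit 715256213) (nat_lit 4114) (nat_lit 19538752275) (nat_lit 4675) (nat_lit 4994765072),Row.mk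 (nat_lit 23184) (nat_lit 4488) (nat_lit 903814925) (nat_lit 4675) (nat_lit 20655304400) (nat_lit 5236) (nat_lit 3727242287),Row.mk (nat_lit 23352) (nat_lit 5049) (nat_lit 1139320207) (nat_lit 5236) (nat_lit 21549278533) (nat_lit 5797) (nat_lit 2644709443),Row.mk (nat_lit 23520) (nat_lit 5610) (nat_lit 1433460622) (nat_lit 5797) (nat_lit 22265044266) (nat_lit 6358) (nat_lit 1693438428),Row.mk (nat_lit 23688) (nat_lit 6171) (nat_lit 1800834906) (nat_lit 6358) (nat_lit 22838126377) (nat_lit 6919) (nat_lit 826215901),Row.mk (nat_lit 23856) (nat_lit 6732) (nat_lit 2259676524) (nat_lit 6919) (nat_lit 23296967995) (nat_lit 0) (nat_lit 0),Row.mk (nat_lit 24024) (nat_lit 6732) (nat_lit 1031923729) (nat_lit 7293) (nat_lit 1800834906) (nat_lit 7480) (nat_lit 22838126377),Row.mk (nat_lit 24192) (nat_lit 7293) (nat_lit 2115063745) (nat_lit 7854) (nat_lit 1433460622) (nat_lit 8041) (nat_lit 22265044266),Row.mk (nat_lit 24360) (nat_lit 7854) (nat_lit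 3303178294) (nat_lit 8415) (nat_lit 1139320207) (nat_lit 8602) (nat_lit 21549278533),Row.mk (nat_lit 24528) (nat_lit 8415) (nat_lit 4655235702) (nat_lit 8976) (nat_lit 903814925) (nat_lit 9163) (nat_lit 20655304400),Row.mk (nat_lit 24696) (nat_lit 8976) (nat_lit 6238341083) (nat_lit 9537) (nat_lit 715256213) (nat_lit 9724) (nat_lit 19538752275),Row.mk (nat_lit 24864) (nat_lit 9537) (nat_lit 8131066891) (nat_lit 10098) (nat_lit 564285554) (nat_lit 10285) (nat_lit 18144205605),Row.mk (nat_lit 25032) (nat_lit 10098) (nat_lit 10427352615) (nat_lit 10659) (nat_lit 443409993) (nat_lit 10846) (nat_lit 16402450456),Row.mk (nat_lit 25200) (nat_lit 10659) (nat_lit 13241167169) (nat_lit 11220) (nat_lit 346630253) (nat_lit 11407) (nat_lit 14227040293),Row.mk (nat_lit 25368) (nat_lit 11220) (nat_lit 16712165385) (nat_lit 11781) (nat_lit 269142976) (nat_lit 11968) (nat_lit 11510005479),Row.mk (nat_lit 25536) (nat_lit 11781) (nat_lit 21012619333)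 (nat_lit 12529) (nat_lit 207102324) (nat_lit 12716) (nat_lit 8116494541),Row.mk (nat_lit 25704) (nat_lit 12529) (nat_lit 26355968514) (nat_lit 13277) (nat_lit 157429105) (nat_lit 13464) (nat_lit 3878081243),Row.mk (nat_lit 25872) (nat_lit 12342) (nat_lit 1621091715) (nat_lit 13090) (nat_lit 146951936) (nat_lit 13277) (nat_lit 29941432821),Row.mk (nat_lit 26040) (nat_lit 13090) (nat_lit 9918683668) (nat_lit 13838) (nat_lit 107180777) (nat_lit 14025) (nat_lit 23329759249),Row.mk (nat_lit 26208) (nat_lit 13838) (nat_lit 20264345645) (nat_lit 14960) (nat_lit 75337761) (nat_lit 15147) (nat_lit 15071938456),Row.mk (nat_lit 26376) (nat_lit 14960) (nat_lit 33171552020) (nat_lit 16269) (nat_lit 49842459) (nat_lit 16456) (nat_lit 4758119495),Row.mk (nat_lit 26544) (nat_lit 14773) (nat_lit 10109413179) (nat_lit 16082) (nat_lit 36756728) (nat_lit 16269) (nat_lit 31040579368),Row.mk (nat_lit 26712) (nat_lit 16082) (nat_lit 30224532040) (nat_lit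 17578) (nat_lit 16343762) (nat_lit 17765) (nat_lit 14951632994),Row.mk (nat_lit 26880) (nat_lit 15895) (nat_lit 6423573982) (nat_lit 17578) (nat_lit 43772031821) (nat_lit 0) (nat_lit 0),Row.mk (nat_lit 27048) (nat_lit 17391) (nat_lit 37770124353) (nat_lit 17578) (nat_lit 16343762) (nat_lit 19635) (nat_lit 18657885156),Row.mk (nat_lit 27216) (nat_lit 17204) (nat_lit 15827423787) (nat_lit 17391) (nat_lit 36756728) (nat_lit 19448) (nat_lit 48384707600),Row.mk (nat_lit 27384) (nat_lit 19261) (nat_lit 64726184747) (nat_lit 19448) (nat_lit 49842459) (nat_lit 25806) (nat_lit 9220536654),Row.mk (nat_lit 27552) (nat_lit 19074) (nat_lit 49494892937) (nat_lit 19261) (nat_lit 75337761) (nat_lit 25619) (nat_lit 36600945018),Row.mk (nat_lit 27720) (nat_lit 18887) (nat_lit 30471376903) (nat_lit 19074) (nat_lit 107180777) (nat_lit 25432) (nat_lit 70798414544),Row.mk (nat_lit 27888) (nat_lit 18700) (nat_lit 6711464296) (nat_lit 18887) (nat_lit 146951936)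 (nat_lit 25245) (nat_lit 113510229010),Row.mk (nat_lit 28056) (nat_lit 25058) (nat_lit 125702448085) (nat_lit 25245) (nat_lit 157429105) (nat_lit 31603) (nat_lit 18228909500),Row.mk (nat_lit 28224) (nat_lit 24871) (nat_lit 125652774866) (nat_lit 25058) (nat_lit 207102324) (nat_lit 31416) (nat_lit 47854793948),Row.mk (nat_lit 28392) (nat_lit 24684) (nat_lit 125590734215) (nat_lit 24871) (nat_lit 269142976) (nat_lit 31229) (nat_lit 84856808934),Row.mk (nat_lit 28560) (nat_lit 24497) (nat_lit 125513246937) (nat_lit 24684) (nat_lit 346630253) (nat_lit 31042) (nat_lit 131071433023),Row.mk (nat_lit 28728) (nat_lit 24310) (nat_lit 125416467197) (nat_lit 24497) (nat_lit 443409993) (nat_lit 30855) (nat_lit 188792383638),Row.mk (nat_lit 28896) (nat_lit 24123) (nat_lit 125295591636) (nat_lit 24310) (nat_lit 564285554) (nat_lit 30668) (nat_lit 260884458507),Row.mk (nat_lit 29064) (nat_lit 23936) (nat_lit 125144620977) (nat_lit 24123) (nat_lit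 715256213) (nat_lit 30481) (nat_lit 350925720882),Row.mk (nat_lit 29232) (nat_lit 23749) (nat_lit 124956062266) (nat_lit 23936) (nat_lit 903814925) (nat_lit 30294) (nat_lit 463385085452),Row.mk (nat_lit 29400) (nat_lit 23562) (nat_lit 124720556984) (nat_lit 23749) (nat_lit 1139320207) (nat_lit 30107) (nat_lit 603844118851),Row.mk (nat_lit 29568) (nat_lit 23375) (nat_lit 124426416568) (nat_lit 23562) (nat_lit 1433460622) (nat_lit 29920) (nat_lit 779274063160),Row.mk (nat_lit 29736) (nat_lit 23188) (nat_lit 124059042284) (nat_lit 23375) (nat_lit 1800834906) (nat_lit 29733) (nat_lit 998381831565),Row.mk (nat_lit 29904) (nat_lit 23001) (nat_lit 123600200666) (nat_lit 23188) (nat_lit 2259676524) (nat_lit 29546) (nat_lit 1272042148589),Row.mk (nat_lit 30072) (nat_lit 22814) (nat_lit 123027118555) (nat_lit 23001) (nat_lit 2832758635) (nat_lit 29359) (nat_lit 1613837282824),Row.mk (nat_lit 30240) (nat_lit 22627) (nat_lit 122311352822) (nat_lit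 22814) (nat_lit 3548524368) (nat_lit 29172) (nat_lit 2040731160085),Row.mk (nat_lit 30408) (nat_lit 22440) (nat_lit 121417378689) (nat_lit 22627) (nat_lit 4442498501) (nat_lit 28985) (nat_lit 2573911314479),Row.mk (nat_lit 30576) (nat_lit 22253) (nat_lit 120300826564) (nat_lit 22440) (nat_lit 5559050627) (nat_lit 28798) (nat_lit 3239840464982),Row.mk (nat_lit 30744) (nat_lit 22066) (nat_lit 118906279894) (nat_lit 22253) (nat_lit 6953597296) (nat_lit 28611) (nat_lit 4071569909216),Row.mk (nat_lit 30912) (nat_lit 21879) (nat_lit 117164524745) (nat_lit 22066) (nat_lit 8695352445) (nat_lit 28424) (nat_lit 5110379920585),Row.mk (nat_lit 31080) (nat_lit 21692) (nat_lit 114989114582) (nat_lit 21879) (nat_lit 10870762608) (nat_lit 28237) (nat_lit 6407828564734),Row.mk (nat_lit 31248) (nat_lit 21505) (nat_lit 112272079768) (nat_lit 21692) (nat_lit 13587797423) (nat_lit 28050) (nat_lit 8028310621878),Row.mk (nat_lit 31416) (nat_lit 21318) (nat_lit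 108878568830) (nat_lit 21505) (nat_lit 16981308361) (nat_lit 27863) (nat_lit 10052253619058),Row.mk (nat_lit 31584) (nat_lit 21131) (nat_lit 104640155532) (nat_lit 21318) (nat_lit 21219721658) (nat_lit 27676) (nat_lit 12580109597329),Row.mk (nat_lit 31752) (nat_lit 20944) (nat_lit 99346479571) (nat_lit 21131) (nat_lit 26513397619) (nat_lit 27489) (nat_lit 15737340732684),Row.mk (nat_lit 31920) (nat_lit 32912) (nat_lit 25106191510) (nat_lit 62084) (nat_lit 19756310527700) (nat_lit 0) (nat_lit 0),Row.mk (nat_lit 32088) (nat_lit 32912) (nat_lit 25106191510) (nat_lit 62084) (nat_lit 24681403999179) (nat_lit 0) (nat_lit 0)],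
[Row.mk (nat_lit 16800) (nat_lit 32912) (nat_lit 8429009) (nat_lit 61897) (nat_lit 31338161762) (nat_lit 0) (nat_lit 0),Row.mk (nat_lit 16968) (nat_lit 32912) (nat_lit 8439067) (nat_lit 61897) (nat_lit 31338161762) (nat_lit 0) (nat_lit 0),Row.mk (nat_lit 17136) (nat_lit 32912) (nat_lit 8451631) (nat_lit 61897) (nat_lit 31338161762) (nat_lit 0) (nat_lit 0),Row.mk (nat_lit 17304) (nat_lit 32912) (nat_lit 8467322) (nat_lit 61897) (nat_lit 31338161762) (nat_lit 0) (nat_lit 0),Row.mk (nat_lit 17472) (nat_lit 32912) (nat_lit 8486920) (nat_lit 61897) (nat_lit 31338161762) (nat_lit 0) (nat_lit 0),Row.mk (nat_lit 17640) (nat_lit 32912) (nat_lit 8511397) (nat_lit 61897) (nat_lit 31338161762) (nat_lit 0) (nat_lit 0),Row.mk (nat_lit 17808) (nat_lit 32912) (nat_lit 8541969) (nat_lit 61897) (nat_lit 31338161762) (nat_lit 0) (nat_lit 0),Row.mk (nat_lit 17976) (nat_lit 32912) (nat_lit 8580153) (nat_lit 61897) (nat_lit 31338161762) (nat_lit 0) (nat_lit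 0),Row.mk (nat_lit 18144) (nat_lit 32912) (nat_lit 8627843) (nat_lit 61897) (nat_lit 31338161762) (nat_lit 0) (nat_lit 0),Row.mk (nat_lit 18312) (nat_lit 32912) (nat_lit 8687407) (nat_lit 61897) (nat_lit 31338161762) (nat_lit 0) (nat_lit 0),Row.mk (nat_lit 18480) (nat_lit 32912) (nat_lit 8761800) (nat_lit 61897) (nat_lit 31338161762) (nat_lit 0) (nat_lit 0),Row.mk (nat_lit 18648) (nat_lit 32912) (nat_lit 8854716) (nat_lit 61897) (nat_lit 31338161762) (nat_lit 0) (nat_lit 0),Row.mk (nat_lit 18816) (nat_lit 32912) (nat_lit 8970766) (nat_lit 61897) (nat_lit 31338161762) (nat_lit 0) (nat_lit 0),Row.mk (nat_lit 18984) (nat_lit 32912) (nat_lit 9115710) (nat_lit 61897) (nat_lit 31338161762) (nat_lit 0) (nat_lit 0),Row.mk (nat_lit 19152) (nat_lit 32912) (nat_lit 9296740) (nat_lit 61897) (nat_lit 31338161762) (nat_lit 0) (nat_lit 0),Row.mk (nat_lit 19320) (nat_lit 32912) (nat_lit 9522844) (nat_lit 61897) (nat_lit 31338161762) (nat_lit 0) (nat_lit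 0),Row.mk (nat_lit 19488) (nat_lit 32912) (nat_lit 9805241) (nat_lit 61897) (nat_lit 31338161762) (nat_lit 0) (nat_lit 0),Row.mk (nat_lit 19656) (nat_lit 32912) (nat_lit 10157949) (nat_lit 61897) (nat_lit 31338161762) (nat_lit 0) (nat_lit 0),Row.mk (nat_lit 19824) (nat_lit 32912) (nat_lit 10598472) (nat_lit 61897) (nat_lit 31338161762) (nat_lit 0) (nat_lit 0),Row.mk (nat_lit 19992) (nat_lit 32912) (nat_lit 11148675) (nat_lit 61897) (nat_lit 31338161762) (nat_lit 0) (nat_lit 0),Row.mk (nat_lit 20160) (nat_lit 32912) (nat_lit 11835865) (nat_lit 61897) (nat_lit 31338161762) (nat_lit 0) (nat_lit 0),Row.mk (nat_lit 20328) (nat_lit 32912) (nat_lit 12694149) (nat_lit 61897) (nat_lit 31338161762) (nat_lit 0) (nat_lit 0),Row.mk (nat_lit 20496) (nat_lit 32912) (nat_lit 13766125) (nat_lit 61897) (nat_lit 31338161762) (nat_lit 0) (nat_lit 0),Row.mk (nat_lit 20664) (nat_lit 32912) (nat_lit 15104997) (nat_lit 61897) (nat_lit 31338161762) (nat_lit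 0) (nat_lit 0),Row.mk (nat_lit 20832) (nat_lit 32912) (nat_lit 16777216) (nat_lit 61897) (nat_lit 31338161762) (nat_lit 0) (nat_lit 0),Row.mk (nat_lit 21000) (nat_lit 32912) (nat_lit 18865777) (nat_lit 61897) (nat_lit 31336073201) (nat_lit 0) (nat_lit 0),Row.mk (nat_lit 21168) (nat_lit 32912) (nat_lit 21474339) (nat_lit 61897) (nat_lit 31333464639) (nat_lit 0) (nat_lit 0),Row.mk (nat_lit 21336) (nat_lit 32912) (nat_lit 24732370) (nat_lit 61897) (nat_lit 31330206607) (nat_lit 0) (nat_lit 0),Row.mk (nat_lit 21504) (nat_lit 32912) (nat_lit 28801573) (nat_lit 61897) (nat_lit 31326137405) (nat_lit 0) (nat_lit 0),Row.mk (nat_lit 21672) (nat_lit 32912) (nat_lit 33883909) (nat_lit 61897) (nat_lit 31321055069) (nat_lit 0) (nat_lit 0),Row.mk (nat_lit 21840) (nat_lit 0) (nat_lit 117657946) (nat_lit 187) (nat_lit 29930955652) (nat_lit 748) (nat_lit 1329779787),Row.mk (nat_lit 22008) (nat_lit 0) (nat_lit 157429105) (nat_lit 187) (nat_lit 4833152750)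 (nat_lit 748) (nat_lit 26395739673),Row.mk (nat_lit 22176) (nat_lit 561) (nat_lit 207102324) (nat_lit 748) (nat_lit 10126828712) (nat_lit 1309) (nat_lit 21062292552),Row.mk (nat_lit 22344) (nat_lit 1122) (nat_lit 269142976) (nat_lit 1309) (nat_lit 14365242009) (nat_lit 1870) (nat_lit 16774206036),Row.mk (nat_lit 22512) (nat_lit 1683) (nat_lit 346630253) (nat_lit 1870) (nat_lit 17758752947) (nat_lit 2431) (nat_lit 13318654447),Row.mk (nat_lit 22680) (nat_lit 2244) (nat_lit 443409993) (nat_lit 2431) (nat_lit 20475787761) (nat_lit 2992) (nat_lit 10524132355),Row.mk (nat_lit 22848) (nat_lit 2805) (nat_lit 564285554) (nat_lit 2992) (nat_lit 22651197924) (nat_lit 3553) (nat_lit 8251942452),Row.mk (nat_lit 23016) (nat_lit 3366) (nat_lit 715256213) (nat_lit 3553) (nat_lit 24392953073) (nat_lit 4114) (nat_lit 6389311742),Row.mk (nat_lit 23184) (nat_lit 3927) (nat_lit 903814925) (nat_lit 4114) (nat_lit 25787499743) (nat_lit 4675) (nat_lit 4843794413),Row.mk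 (nat_lit 23352) (nat_lit 4488) (nat_lit 1139320207) (nat_lit 4675) (nat_lit 26904051869) (nat_lit 5236) (nat_lit 3538683576),Row.mk (nat_lit 23520) (nat_lit 5049) (nat_lit 1433460622) (nat_lit 5236) (nat_lit 27798026002) (nat_lit 5797) (nat_lit 2409204161),Row.mk (nat_lit 23688) (nat_lit 5610) (nat_lit 1800834906) (nat_lit 5797) (nat_lit 28513791734) (nat_lit 6358) (nat_lit 1399298013),Row.mk (nat_lit 23856) (nat_lit 6171) (nat_lit 2259676524) (nat_lit 6358) (nat_lit 29086873846) (nat_lit 6919) (nat_lit 458841617),Row.mk (nat_lit 24024) (nat_lit 6171) (nat_lit 573082111) (nat_lit 6732) (nat_lit 2259676524) (nat_lit 6919) (nat_lit 29086873846),Row.mk (nat_lit 24192) (nat_lit 6732) (nat_lit 1747689461) (nat_lit 7293) (nat_lit 1800834906) (nat_lit 7480) (nat_lit 28513791734),Row.mk (nat_lit 24360) (nat_lit 7293) (nat_lit 3009037878) (nat_lit 7854) (nat_lit 1433460622) (nat_lit 8041) (nat_lit 27798026002),Row.mk (nat_lit 24528) (nat_lit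 7854) (nat_lit 4419730420) (nat_lit 8415) (nat_lit 1139320207) (nat_lit 8602) (nat_lit 26904051869),Row.mk (nat_lit 24696) (nat_lit 8415) (nat_lit 6049782371) (nat_lit 8976) (nat_lit 903814925) (nat_lit 9163) (nat_lit 25787499743),Row.mk (nat_lit 24864) (nat_lit 8976) (nat_lit 7980096232) (nat_lit 9537) (nat_lit 715256213) (nat_lit 9724) (nat_lit 24392953073),Row.mk (nat_lit 25032) (nat_lit 9537) (nat_lit 10306477054) (nat_lit 10098) (nat_lit 564285554) (nat_lit 10285) (nat_lit 22651197924),Row.mk (nat_lit 25200) (nat_lit 10098) (nat_lit 13144387429) (nat_lit 10659) (nat_lit 443409993) (nat_lit 10846) (nat_lit 20475787761),Row.mk (nat_lit 25368) (nat_lit 10659) (nat_lit 16634678107) (nat_lit 11220) (nat_lit 346630253) (nat_lit 11407) (nat_lit 17758752947),Row.mk (nat_lit 25536) (nat_lit 11220) (nat_lit 20950578682) (nat_lit 11781) (nat_lit 269142976) (nat_lit 11968) (nat_lit 14365242009),Row.mk (nat_lit 25704) (nat_lit 11781) (nat_lit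 26306295295) (nat_lit 12529) (nat_lit 207102324) (nat_lit 12716) (nat_lit 10126828712),Row.mk (nat_lit 25872) (nat_lit 12529) (nat_lit 32967642086) (nat_lit 13277) (nat_lit 157429105) (nat_lit 13464) (nat_lit 4833152750),Row.mk (nat_lit 26040) (nat_lit 12342) (nat_lit 2074377664) (nat_lit 13090) (nat_lit 146951936) (nat_lit 13277) (nat_lit 37383041561),Row.mk (nat_lit 26208) (nat_lit 13090) (nat_lit 12427967784) (nat_lit 13838) (nat_lit 107180777) (nat_lit 14025) (nat_lit 29125220768),Row.mk (nat_lit 26376) (nat_lit 13838) (nat_lit 25341521874) (nat_lit 14960) (nat_lit 75337761) (nat_lit 15147) (nat_lit 18811401808),Row.mk (nat_lit 26544) (nat_lit 14960) (nat_lit 41455963550) (nat_lit 16269) (nat_lit 49842459) (nat_lit 16456) (nat_lit 5929690734),Row.mk (nat_lit 26712) (nat_lit 14773) (nat_lit 12651908485) (nat_lit 16082) (nat_lit 36756728) (nat_lit 16269) (nat_lit 38752591051),Row.mk (nat_lit 26880) (nat_lit 16082) (nat_lit 37770124353)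 (nat_lit 17578) (nat_lit 16343762) (nat_lit 17765) (nat_lit 18657885156),Row.mk (nat_lit 27048) (nat_lit 15895) (nat_lit 8043301909) (nat_lit 17578) (nat_lit 54649798831) (nat_lit 0) (nat_lit 0),Row.mk (nat_lit 27216) (nat_lit 17391) (nat_lit 47194387123) (nat_lit 17578) (nat_lit 16343762) (nat_lit 19635) (nat_lit 23286904698),Row.mk (nat_lit 27384) (nat_lit 17204) (nat_lit 19793565794) (nat_lit 17391) (nat_lit 36756728) (nat_lit 19448) (nat_lit 60414988807),Row.mk (nat_lit 27552) (nat_lit 19261) (nat_lit 80866938609) (nat_lit 19448) (nat_lit 49842459) (nat_lit 25806) (nat_lit 11503142116),Row.mk (nat_lit 27720) (nat_lit 19074) (nat_lit 61849770290) (nat_lit 19261) (nat_lit 75337761) (nat_lit 25619) (nat_lit 45700611642),Row.mk (nat_lit 27888) (nat_lit 18887) (nat_lit 38097785826) (nat_lit 19074) (nat_lit 107180777) (nat_lit 25432) (nat_lit 88412426108),Row.mk (nat_lit 28056) (nat_lit 18700) (nat_lit 8432130218) (nat_lit 18887) (nat_lit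 146951936) (nat_lit 25245) (nat_lit 141758452004),Row.mk (nat_lit 28224) (nat_lit 25058) (nat_lit 157048998455) (nat_lit 25245) (nat_lit 157429105) (nat_lit 31603) (nat_lit 22756991045),Row.mk (nat_lit 28392) (nat_lit 24871) (nat_lit 156999325237) (nat_lit 25058) (nat_lit 207102324) (nat_lit 31416) (nat_lit 59759006032),Row.mk (nat_lit 28560) (nat_lit 24684) (nat_lit 156937284585) (nat_lit 24871) (nat_lit 269142976) (nat_lit 31229) (nat_lit 105973630121),Row.mk (nat_lit 28728) (nat_lit 24497) (nat_lit 156859797308) (nat_lit 24684) (nat_lit 346630253) (nat_lit 31042) (nat_lit 163694580736),Row.mk (nat_lit 28896) (nat_lit 24310) (nat_lit 156763017568) (nat_lit 24497) (nat_lit 443409993) (nat_lit 30855) (nat_lit 235786655604),Row.mk (nat_lit 29064) (nat_lit 24123) (nat_lit 156642142007) (nat_lit 24310) (nat_lit 564285554) (nat_lit 30668) (nat_lit 325827917980),Row.mk (nat_lit 29232) (nat_lit 23936) (nat_lit 156491171348) (nat_lit 24123)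 (nat_lit 715256213) (nat_lit 30481) (nat_lit 438287282549),Row.mk (nat_lit 29400) (nat_lit 23749) (nat_lit 156302612636) (nat_lit 23936) (nat_lit 903814925) (nat_lit 30294) (nat_lit 578746315949),Row.mk (nat_lit 29568) (nat_lit 23562) (nat_lit 156067107354) (nat_lit 23749) (nat_lit 1139320207) (nat_lit 30107) (nat_lit 754176260258),Row.mk (nat_lit 29736) (nat_lit 23375) (nat_lit 155772966938) (nat_lit 23562) (nat_lit 1433460622) (nat_lit 29920) (nat_lit 973284028663),Row.mk (nat_lit 29904) (nat_lit 23188) (nat_lit 155405592655) (nat_lit 23375) (nat_lit 1800834906) (nat_lit 29733) (nat_lit 1246944345687),Row.mk (nat_lit 30072) (nat_lit 23001) (nat_lit 154946751037) (nat_lit 23188) (nat_lit 2259676524) (nat_lit 29546) (nat_lit 1588739479922),Row.mk (nat_lit 30240) (nat_lit 22814) (nat_lit 154373668925) (nat_lit 23001) (nat_lit 2832758635) (nat_lit 29359) (nat_lit 2015633357183),Row.mk (nat_lit 30408) (nat_lit 22627) (nat_lit 153657903193)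 (nat_lit 22814) (nat_lit 3548524368) (nat_lit 29172) (nat_lit 2548813511576),Row.mk (nat_lit 30576) (nat_lit 22440) (nat_lit 152763929060) (nat_lit 22627) (nat_lit 4442498501) (nat_lit 28985) (nat_lit 3214742662080),Row.mk (nat_lit 30744) (nat_lit 22253) (nat_lit 151647376934) (nat_lit 22440) (nat_lit 5559050627) (nat_lit 28798) (nat_lit 4046472106313),Row.mk (nat_lit 30912) (nat_lit 22066) (nat_lit 150252830264) (nat_lit 22253) (nat_lit 6953597296) (nat_lit 28611) (nat_lit 5085282117682),Row.mk (nat_lit 31080) (nat_lit 21879) (nat_lit 148511075116) (nat_lit 22066) (nat_lit 8695352445) (nat_lit 28424) (nat_lit 6382730761832),Row.mk (nat_lit 31248) (nat_lit 21692) (nat_lit 146335664952) (nat_lit 21879) (nat_lit 10870762608) (nat_lit 28237) (nat_lit 8003212818976),Row.mk (nat_lit 31416) (nat_lit 21505) (nat_lit 143618630138) (nat_lit 21692) (nat_lit 13587797423) (nat_lit 28050) (nat_lit 10027155816156),Row.mk (nat_lit 31584) (nat_lit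 21318) (nat_lit 140225119200) (nat_lit 21505) (nat_lit 16981308361) (nat_lit 27863) (nat_lit 12555011794426),Row.mk (nat_lit 31752) (nat_lit 21131) (nat_lit 135986705903) (nat_lit 21318) (nat_lit 21219721658) (nat_lit 27676) (nat_lit 15712242929781),Row.mk (nat_lit 31920) (nat_lit 20944) (nat_lit 130693029941) (nat_lit 21131) (nat_lit 26513397619) (nat_lit 27489) (nat_lit 19655548453411),Row.mk (nat_lit 32088) (nat_lit 32912) (nat_lit 31354938978) (nat_lit 62084) (nat_lit 24675155251711) (nat_lit 0) (nat_lit 0),Row.mk (nat_lit 32256) (nat_lit 32912) (nat_lit 31354938978) (nat_lit 62084) (nat_lit 30826478185593) (nat_lit 0) (nat_lit 0)],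
[Row.mk (nat_lit 16968) (nat_lit 32912) (nat_lit 8439067) (nat_lit 61897) (nat_lit 39142696606) (nat_lit 0) (nat_lit 0),Row.mk (nat_lit 17136) (nat_lit 32912) (nat_lit 8451631) (nat_lit 61897) (nat_lit 39142696606) (nat_lit 0) (nat_lit 0),Row.mk (nat_lit 17304) (nat_lit 32912) (nat_lit 8467322) (nat_lit 61897) (nat_lit 39142696606) (nat_lit 0) (nat_lit 0),Row.mk (nat_lit 17472) (nat_lit 32912) (nat_lit 8486920) (nat_lit 61897) (nat_lit 39142696606) (nat_lit 0) (nat_lit 0),Row.mk (nat_lit 17640) (nat_lit 32912) (nat_lit 8511397) (nat_lit 61897) (nat_lit 39142696606) (nat_lit 0) (nat_lit 0),Row.mk (nat_lit 17808) (nat_lit 32912) (nat_lit 8541969) (nat_lit 61897) (nat_lit 39142696606) (nat_lit 0) (nat_lit 0),Row.mk (nat_lit 17976) (nat_lit 32912) (nat_lit 8580153) (nat_lit 61897) (nat_lit 39142696606) (nat_lit 0) (nat_lit 0),Row.mk (nat_lit 18144) (nat_lit 32912) (nat_lit 8627843) (nat_lit 61897) (nat_lit 39142696606) (nat_lit 0) (nat_lit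 0),Row.mk (nat_lit 18312) (nat_lit 32912) (nat_lit 8687407) (nat_lit 61897) (nat_lit 39142696606) (nat_lit 0) (nat_lit 0),Row.mk (nat_lit 18480) (nat_lit 32912) (nat_lit 8761800) (nat_lit 61897) (nat_lit 39142696606) (nat_lit 0) (nat_lit 0),Row.mk (nat_lit 18648) (nat_lit 32912) (nat_lit 8854716) (nat_lit 61897) (nat_lit 39142696606) (nat_lit 0) (nat_lit 0),Row.mk (nat_lit 18816) (nat_lit 32912) (nat_lit 8970766) (nat_lit 61897) (nat_lit 39142696606) (nat_lit 0) (nat_lit 0),Row.mk (nat_lit 18984) (nat_lit 32912) (nat_lit 9115710) (nat_lit 61897) (nat_lit 39142696606) (nat_lit 0) (nat_lit 0),Row.mk (nat_lit 19152) (nat_lit 32912) (nat_lit 9296740) (nat_lit 61897) (nat_lit 39142696606) (nat_lit 0) (nat_lit 0),Row.mk (nat_lit 19320) (nat_lit 32912) (nat_lit 9522844) (nat_lit 61897) (nat_lit 39142696606) (nat_lit 0) (nat_lit 0),Row.mk (nat_lit 19488) (nat_lit 32912) (nat_lit 9805241) (nat_lit 61897) (nat_lit 39142696606) (nat_lit 0) (nat_lit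 0),Row.mk (nat_lit 19656) (nat_lit 32912) (nat_lit 10157949) (nat_lit 61897) (nat_lit 39142696606) (nat_lit 0) (nat_lit 0),Row.mk (nat_lit 19824) (nat_lit 32912) (nat_lit 10598472) (nat_lit 61897) (nat_lit 39142696606) (nat_lit 0) (nat_lit 0),Row.mk (nat_lit 19992) (nat_lit 32912) (nat_lit 11148675) (nat_lit 61897) (nat_lit 39142696606) (nat_lit 0) (nat_lit 0),Row.mk (nat_lit 20160) (nat_lit 32912) (nat_lit 11835865) (nat_lit 61897) (nat_lit 39142696606) (nat_lit 0) (nat_lit 0),Row.mk (nat_lit 20328) (nat_lit 32912) (nat_lit 12694149) (nat_lit 61897) (nat_lit 39142696606) (nat_lit 0) (nat_lit 0),Row.mk (nat_lit 20496) (nat_lit 32912) (nat_lit 13766125) (nat_lit 61897) (nat_lit 39142696606) (nat_lit 0) (nat_lit 0),Row.mk (nat_lit 20664) (nat_lit 32912) (nat_lit 15104997) (nat_lit 61897) (nat_lit 39142696606) (nat_lit 0) (nat_lit 0),Row.mk (nat_lit 20832) (nat_lit 32912) (nat_lit 16777216) (nat_lit 61897) (nat_lit 39142696606) (nat_lit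 0) (nat_lit 0),Row.mk (nat_lit 21000) (nat_lit 32912) (nat_lit 18865777) (nat_lit 61897) (nat_lit 39140608045) (nat_lit 0) (nat_lit 0),Row.mk (nat_lit 21168) (nat_lit 32912) (nat_lit 21474339) (nat_lit 61897) (nat_lit 39137999483) (nat_lit 0) (nat_lit 0),Row.mk (nat_lit 21336) (nat_lit 32912) (nat_lit 24732370) (nat_lit 61897) (nat_lit 39134741451) (nat_lit 0) (nat_lit 0),Row.mk (nat_lit 21504) (nat_lit 32912) (nat_lit 28801573) (nat_lit 61897) (nat_lit 39130672249) (nat_lit 0) (nat_lit 0),Row.mk (nat_lit 21672) (nat_lit 32912) (nat_lit 33883909) (nat_lit 61897) (nat_lit 39125589913) (nat_lit 0) (nat_lit 0),Row.mk (nat_lit 21840) (nat_lit 32912) (nat_lit 40231624) (nat_lit 61897) (nat_lit 39119242198) (nat_lit 0) (nat_lit 0),Row.mk (nat_lit 22008) (nat_lit 32912) (nat_lit 48159767) (nat_lit 61897) (nat_lit 39111314055) (nat_lit 0) (nat_lit 0),Row.mk (nat_lit 22176) (nat_lit 0) (nat_lit 207102324) (nat_lit 187) (nat_lit 12637687594)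 (nat_lit 748) (nat_lit 26355968514),Row.mk (nat_lit 22344) (nat_lit 561) (nat_lit 269142976) (nat_lit 748) (nat_lit 17931363556) (nat_lit 1309) (nat_lit 21012619333),Row.mk (nat_lit 22512) (nat_lit 1122) (nat_lit 346630253) (nat_lit 1309) (nat_lit 22169776853) (nat_lit 1870) (nat_lit 16712165385),Row.mk (nat_lit 22680) (nat_lit 1683) (nat_lit 443409993) (nat_lit 1870) (nat_lit 25563287791) (nat_lit 2431) (nat_lit 13241167169),Row.mk (nat_lit 22848) (nat_lit 2244) (nat_lit 564285554) (nat_lit 2431) (nat_lit 28280322605) (nat_lit 2992) (nat_lit 10427352615),Row.mk (nat_lit 23016) (nat_lit 2805) (nat_lit 715256213) (nat_lit 2992) (nat_lit 30455732768) (nat_lit 3553) (nat_lit 8131066891),Row.mk (nat_lit 23184) (nat_lit 3366) (nat_lit 903814925) (nat_lit 3553) (nat_lit 32197487917) (nat_lit 4114) (nat_lit 6238341083),Row.mk (nat_lit 23352) (nat_lit 3927) (nat_lit 1139320207) (nat_lit 4114) (nat_lit 33592034587) (nat_lit 4675) (nat_lit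 4655235702),Row.mk (nat_lit 23520) (nat_lit 4488) (nat_lit 1433460622) (nat_lit 4675) (nat_lit 34708586713) (nat_lit 5236) (nat_lit 3303178294),Row.mk (nat_lit 23688) (nat_lit 5049) (nat_lit 1800834906) (nat_lit 5236) (nat_lit 35602560846) (nat_lit 5797) (nat_lit 2115063745),Row.mk (nat_lit 23856) (nat_lit 5610) (nat_lit 2259676524) (nat_lit 5797) (nat_lit 36318326578) (nat_lit 6358) (nat_lit 1031923729),Row.mk (nat_lit 24024) (nat_lit 6171) (nat_lit 2832758635) (nat_lit 6358) (nat_lit 36891408690) (nat_lit 0) (nat_lit 0),Row.mk (nat_lit 24192) (nat_lit 6171) (nat_lit 1288847844) (nat_lit 6732) (nat_lit 2259676524) (nat_lit 6919) (nat_lit 36318326578),Row.mk (nat_lit 24360) (nat_lit 6732) (nat_lit 2641663594) (nat_lit 7293) (nat_lit 1800834906) (nat_lit 7480) (nat_lit 35602560846),Row.mk (nat_lit 24528) (nat_lit 7293) (nat_lit 4125590004) (nat_lit 7854) (nat_lit 1433460622) (nat_lit 8041) (nat_lit 34708586713),Row.mk (nat_lit 24696)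 (nat_lit 7854) (nat_lit 5814277089) (nat_lit 8415) (nat_lit 1139320207) (nat_lit 8602) (nat_lit 33592034587),Row.mk (nat_lit 24864) (nat_lit 8415) (nat_lit 7791537520) (nat_lit 8976) (nat_lit 903814925) (nat_lit 9163) (nat_lit 32197487917),Row.mk (nat_lit 25032) (nat_lit 8976) (nat_lit 10155506395) (nat_lit 9537) (nat_lit 715256213) (nat_lit 9724) (nat_lit 30455732768),Row.mk (nat_lit 25200) (nat_lit 9537) (nat_lit 13023511868) (nat_lit 10098) (nat_lit 564285554) (nat_lit 10285) (nat_lit 28280322605),Row.mk (nat_lit 25368) (nat_lit 10098) (nat_lit 16537898367) (nat_lit 10659) (nat_lit 443409993) (nat_lit 10846) (nat_lit 25563287791),Row.mk (nat_lit 25536) (nat_lit 10659) (nat_lit 20873091404) (nat_lit 11220) (nat_lit 346630253) (nat_lit 11407) (nat_lit 22169776853),Row.mk (nat_lit 25704) (nat_lit 11220) (nat_lit 26244254643) (nat_lit 11781) (nat_lit 269142976) (nat_lit 11968) (nat_lit 17931363556),Row.mk (nat_lit 25872) (nat_lit 11781)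 (nat_lit 32917968867) (nat_lit 12529) (nat_lit 207102324) (nat_lit 12716) (nat_lit 12637687594),Row.mk (nat_lit 26040) (nat_lit 12529) (nat_lit 41225462879) (nat_lit 13277) (nat_lit 157429105) (nat_lit 13464) (nat_lit 6026014022),Row.mk (nat_lit 26208) (nat_lit 12342) (nat_lit 2640520880) (nat_lit 13090) (nat_lit 146951936) (nat_lit 13277) (nat_lit 46677431358),Row.mk (nat_lit 26376) (nat_lit 13090) (nat_lit 15562003112) (nat_lit 13838) (nat_lit 107180777) (nat_lit 14025) (nat_lit 36363612397),Row.mk (nat_lit 26544) (nat_lit 13838) (nat_lit 31682792503) (nat_lit 14960) (nat_lit 75337761) (nat_lit 15147) (nat_lit 23481901324),Row.mk (nat_lit 26712) (nat_lit 14960) (nat_lit 51802993700) (nat_lit 16269) (nat_lit 49842459) (nat_lit 16456) (nat_lit 7392954949),Row.mk (nat_lit 26880) (nat_lit 14773) (nat_lit 15827423787) (nat_lit 16082) (nat_lit 36756728) (nat_lit 16269) (nat_lit 48384707600),Row.mk (nat_lit 27048) (nat_lit 16082) (nat_lit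 47194387123) (nat_lit 17578) (nat_lit 16343762) (nat_lit 17765) (nat_lit 23286904698),Row.mk (nat_lit 27216) (nat_lit 15895) (nat_lit 10066303014) (nat_lit 17578) (nat_lit 68235867414) (nat_lit 0) (nat_lit 0),Row.mk (nat_lit 27384) (nat_lit 17391) (nat_lit 58965063974) (nat_lit 17578) (nat_lit 16343762) (nat_lit 19635) (nat_lit 29068438436),Row.mk (nat_lit 27552) (nat_lit 17204) (nat_lit 24747181482) (nat_lit 17391) (nat_lit 36756728) (nat_lit 19448) (nat_lit 75440519818),Row.mk (nat_lit 27720) (nat_lit 19261) (nat_lit 101026350806) (nat_lit 19448) (nat_lit 49842459) (nat_lit 25806) (nat_lit 14354061272),Row.mk (nat_lit 27888) (nat_lit 19074) (nat_lit 77280714057) (nat_lit 19261) (nat_lit 75337761) (nat_lit 25619) (nat_lit 57065875737),Row.mk (nat_lit 28056) (nat_lit 18887) (nat_lit 47622986592) (nat_lit 19074) (nat_lit 107180777) (nat_lit 25432) (nat_lit 110411901633),Row.mk (nat_lit 28224) (nat_lit 18700) (nat_lit 10581200446) (nat_lit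 18887) (nat_lit 146951936) (nat_lit 25245) (nat_lit 177039801068),Row.mk (nat_lit 28392) (nat_lit 25058) (nat_lit 196200083670) (nat_lit 25245) (nat_lit 157429105) (nat_lit 31603) (nat_lit 28412455662),Row.mk (nat_lit 28560) (nat_lit 24871) (nat_lit 196150410451) (nat_lit 25058) (nat_lit 207102324) (nat_lit 31416) (nat_lit 74627079751),Row.mk (nat_lit 28728) (nat_lit 24684) (nat_lit 196088369800) (nat_lit 24871) (nat_lit 269142976) (nat_lit 31229) (nat_lit 132348030365),Row.mk (nat_lit 28896) (nat_lit 24497) (nat_lit 196010882522) (nat_lit 24684) (nat_lit 346630253) (nat_lit 31042) (nat_lit 204440105234),Row.mk (nat_lit 29064) (nat_lit 24310) (nat_lit 195914102782) (nat_lit 24497) (nat_lit 443409993) (nat_lit 30855) (nat_lit 294481367609),Row.mk (nat_lit 29232) (nat_lit 24123) (nat_lit 195793227222) (nat_lit 24310) (nat_lit 564285554) (nat_lit 30668) (nat_lit 406940732179),Row.mk (nat_lit 29400) (nat_lit 23936) (nat_lit 195642256562)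 (nat_lit 24123) (nat_lit 715256213) (nat_lit 30481) (nat_lit 547399765578),Row.mk (nat_lit 29568) (nat_lit 23749) (nat_lit 195453697851) (nat_lit 23936) (nat_lit 903814925) (nat_lit 30294) (nat_lit 722829709888),Row.mk (nat_lit 29736) (nat_lit 23562) (nat_lit 195218192569) (nat_lit 23749) (nat_lit 1139320207) (nat_lit 30107) (nat_lit 941937478292),Row.mk (nat_lit 29904) (nat_lit 23375) (nat_lit 194924052153) (nat_lit 23562) (nat_lit 1433460622) (nat_lit 29920) (nat_lit 1215597795317),Row.mk (nat_lit 30072) (nat_lit 23188) (nat_lit 194556677869) (nat_lit 23375) (nat_lit 1800834906) (nat_lit 29733) (nat_lit 1557392929552),Row.mk (nat_lit 30240) (nat_lit 23001) (nat_lit 194097836252) (nat_lit 23188) (nat_lit 2259676524) (nat_lit 29546) (nat_lit 1984286806812),Row.mk (nat_lit 30408) (nat_lit 22814) (nat_lit 193524754140) (nat_lit 23001) (nat_lit 2832758635) (nat_lit 29359) (nat_lit 2517466961206),Row.mk (nat_lit 30576) (nat_lit 22627)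 (nat_lit 192808988407) (nat_lit 22814) (nat_lit 3548524368) (nat_lit 29172) (nat_lit 3183396111709),Row.mk (nat_lit 30744) (nat_lit 22440) (nat_lit 191915014275) (nat_lit 22627) (nat_lit 4442498501) (nat_lit 28985) (nat_lit 4015125555943),Row.mk (nat_lit 30912) (nat_lit 22253) (nat_lit 190798462149) (nat_lit 22440) (nat_lit 5559050627) (nat_lit 28798) (nat_lit 5053935567312),Row.mk (nat_lit 31080) (nat_lit 22066) (nat_lit 189403915479) (nat_lit 22253) (nat_lit 6953597296) (nat_lit 28611) (nat_lit 6351384211461),Row.mk (nat_lit 31248) (nat_lit 21879) (nat_lit 187662160330) (nat_lit 22066) (nat_lit 8695352445) (nat_lit 28424) (nat_lit 7971866268605),Row.mk (nat_lit 31416) (nat_lit 21692) (nat_lit 185486750167) (nat_lit 21879) (nat_lit 10870762608) (nat_lit 28237) (nat_lit 9995809265785),Row.mk (nat_lit 31584) (nat_lit 21505) (nat_lit 182769715353) (nat_lit 21692) (nat_lit 13587797423) (nat_lit 28050) (nat_lit 12523665244056),Row.mk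 (nat_lit 31752) (nat_lit 21318) (nat_lit 179376204415) (nat_lit 21505) (nat_lit 16981308361) (nat_lit 27863) (nat_lit 15680896379411),Row.mk (nat_lit 31920) (nat_lit 21131) (nat_lit 175137791118) (nat_lit 21318) (nat_lit 21219721658) (nat_lit 27676) (nat_lit 19624201903041),Row.mk (nat_lit 32088) (nat_lit 20944) (nat_lit 169844115156) (nat_lit 21131) (nat_lit 26513397619) (nat_lit 27489) (nat_lit 24549295374520),Row.mk (nat_lit 32256) (nat_lit 32912) (nat_lit 39159473822) (nat_lit 62084) (nat_lit 30818673650749) (nat_lit 0) (nat_lit 0),Row.mk (nat_lit 32424) (nat_lit 32912) (nat_lit 39159473822) (nat_lit 62084) (nat_lit 38501527601851) (nat_lit 0) (nat_lit 0)],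
[Row.mk (nat_lit 17304) (nat_lit 32912) (nat_lit 8467322) (nat_lit 61897) (nat_lit 48890372351) (nat_lit 0) (nat_lit 0),Row.mk (nat_lit 17472) (nat_lit 32912) (nat_lit 8486920) (nat_lit 61897) (nat_lit 48890372351) (nat_lit 0) (nat_lit 0),Row.mk (nat_lit 17640) (nat_lit 32912) (nat_lit 8511397) (nat_lit 61897) (nat_lit 48890372351) (nat_lit 0) (nat_lit 0),Row.mk (nat_lit 17808) (nat_lit 32912) (nat_lit 8541969) (nat_lit 61897) (nat_lit 48890372351) (nat_lit 0) (nat_lit 0),Row.mk (nat_lit 17976) (nat_lit 32912) (nat_lit 8580153) (nat_lit 61897) (nat_lit 48890372351) (nat_lit 0) (nat_lit 0),Row.mk (nat_lit 18144) (nat_lit 32912) (nat_lit 8627843) (nat_lit 61897) (nat_lit 48890372351) (nat_lit 0) (nat_lit 0),Row.mk (nat_lit 18312) (nat_lit 32912) (nat_lit 8687407) (nat_lit 61897) (nat_lit 48890372351) (nat_lit 0) (nat_lit 0),Row.mk (nat_lit 18480) (nat_lit 32912) (nat_lit 8761800) (nat_lit 61897) (nat_lit 48890372351) (nat_lit 0) (nat_lit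 0),Row.mk (nat_lit 18648) (nat_lit 32912) (nat_lit 8854716) (nat_lit 61897) (nat_lit 48890372351) (nat_lit 0) (nat_lit 0),Row.mk (nat_lit 18816) (nat_lit 32912) (nat_lit 8970766) (nat_lit 61897) (nat_lit 48890372351) (nat_lit 0) (nat_lit 0),Row.mk (nat_lit 18984) (nat_lit 32912) (nat_lit 9115710) (nat_lit 61897) (nat_lit 48890372351) (nat_lit 0) (nat_lit 0),Row.mk (nat_lit 19152) (nat_lit 32912) (nat_lit 9296740) (nat_lit 61897) (nat_lit 48890372351) (nat_lit 0) (nat_lit 0),Row.mk (nat_lit 19320) (nat_lit 32912) (nat_lit 9522844) (nat_lit 61897) (nat_lit 48890372351) (nat_lit 0) (nat_lit 0),Row.mk (nat_lit 19488) (nat_lit 32912) (nat_lit 9805241) (nat_lit 61897) (nat_lit 48890372351) (nat_lit 0) (nat_lit 0),Row.mk (nat_lit 19656) (nat_lit 32912) (nat_lit 10157949) (nat_lit 61897) (nat_lit 48890372351) (nat_lit 0) (nat_lit 0),Row.mk (nat_lit 19824) (nat_lit 32912) (nat_lit 10598472) (nat_lit 61897) (nat_lit 48890372351) (nat_lit 0)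 (nat_lit 0),Row.mk (nat_lit 19992) (nat_lit 32912) (nat_lit 11148675) (nat_lit 61897) (nat_lit 48890372351) (nat_lit 0) (nat_lit 0),Row.mk (nat_lit 20160) (nat_lit 32912) (nat_lit 11835865) (nat_lit 61897) (nat_lit 48890372351) (nat_lit 0) (nat_lit 0),Row.mk (nat_lit 20328) (nat_lit 32912) (nat_lit 12694149) (nat_lit 61897) (nat_lit 48890372351) (nat_lit 0) (nat_lit 0),Row.mk (nat_lit 20496) (nat_lit 32912) (nat_lit 13766125) (nat_lit 61897) (nat_lit 48890372351) (nat_lit 0) (nat_lit 0),Row.mk (nat_lit 20664) (nat_lit 32912) (nat_lit 15104997) (nat_lit 61897) (nat_lit 48890372351) (nat_lit 0) (nat_lit 0),Row.mk (nat_lit 20832) (nat_lit 32912) (nat_lit 16777216) (nat_lit 61897) (nat_lit 48890372351) (nat_lit 0) (nat_lit 0),Row.mk (nat_lit 21000) (nat_lit 32912) (nat_lit 18865777) (nat_lit 61897) (nat_lit 48888283790) (nat_lit 0) (nat_lit 0),Row.mk (nat_lit 21168) (nat_lit 32912) (nat_lit 21474339) (nat_lit 61897) (nat_lit 48885675228)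 (nat_lit 0) (nat_lit 0),Row.mk (nat_lit 21336) (nat_lit 32912) (nat_lit 24732370) (nat_lit 61897) (nat_lit 48882417197) (nat_lit 0) (nat_lit 0),Row.mk (nat_lit 21504) (nat_lit 32912) (nat_lit 28801573) (nat_lit 61897) (nat_lit 48878347994) (nat_lit 0) (nat_lit 0),Row.mk (nat_lit 21672) (nat_lit 32912) (nat_lit 33883909) (nat_lit 61897) (nat_lit 48873265658) (nat_lit 0) (nat_lit 0),Row.mk (nat_lit 21840) (nat_lit 32912) (nat_lit 40231624) (nat_lit 61897) (nat_lit 48866917943) (nat_lit 0) (nat_lit 0),Row.mk (nat_lit 22008) (nat_lit 32912) (nat_lit 48159767) (nat_lit 61897) (nat_lit 48858989800) (nat_lit 0) (nat_lit 0),Row.mk (nat_lit 22176) (nat_lit 32912) (nat_lit 58061826) (nat_lit 61897) (nat_lit 48849087741) (nat_lit 0) (nat_lit 0),Row.mk (nat_lit 22344) (nat_lit 0) (nat_lit 269142976) (nat_lit 187) (nat_lit 22385363340) (nat_lit 748) (nat_lit 26306295295),Row.mk (nat_lit 22512) (nat_lit 561) (nat_lit 346630253) (nat_lit 748) (nat_lit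 27679039301) (nat_lit 1309) (nat_lit 20950578682),Row.mk (nat_lit 22680) (nat_lit 1122) (nat_lit 443409993) (nat_lit 1309) (nat_lit 31917452598) (nat_lit 1870) (nat_lit 16634678107),Row.mk (nat_lit 22848) (nat_lit 1683) (nat_lit 564285554) (nat_lit 1870) (nat_lit 35310963536) (nat_lit 2431) (nat_lit 13144387429),Row.mk (nat_lit 23016) (nat_lit 2244) (nat_lit 715256213) (nat_lit 2431) (nat_lit 38027998351) (nat_lit 2992) (nat_lit 10306477054),Row.mk (nat_lit 23184) (nat_lit 2805) (nat_lit 903814925) (nat_lit 2992) (nat_lit 40203408514) (nat_lit 3553) (nat_lit 7980096232),Row.mk (nat_lit 23352) (nat_lit 3366) (nat_lit 1139320207) (nat_lit 3553) (nat_lit 41945163662) (nat_lit 4114) (nat_lit 6049782371),Row.mk (nat_lit 23520) (nat_lit 3927) (nat_lit 1433460622) (nat_lit 4114) (nat_lit 43339710332) (nat_lit 4675) (nat_lit 4419730420),Row.mk (nat_lit 23688) (nat_lit 4488) (nat_lit 1800834906) (nat_lit 4675) (nat_lit 44456262458) (nat_lit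 5236) (nat_lit 3009037878),Row.mk (nat_lit 23856) (nat_lit 5049) (nat_lit 2259676524) (nat_lit 5236) (nat_lit 45350236591) (nat_lit 5797) (nat_lit 1747689461),Row.mk (nat_lit 24024) (nat_lit 5610) (nat_lit 2832758635) (nat_lit 5797) (nat_lit 46066002323) (nat_lit 6358) (nat_lit 573082111),Row.mk (nat_lit 24192) (nat_lit 5610) (nat_lit 715765732) (nat_lit 6171) (nat_lit 2832758635) (nat_lit 6358) (nat_lit 46066002323),Row.mk (nat_lit 24360) (nat_lit 6171) (nat_lit 2182821976) (nat_lit 6732) (nat_lit 2259676524) (nat_lit 6919) (nat_lit 45350236591),Row.mk (nat_lit 24528) (nat_lit 6732) (nat_lit 3758215720) (nat_lit 7293) (nat_lit 1800834906) (nat_lit 7480) (nat_lit 44456262458),Row.mk (nat_lit 24696) (nat_lit 7293) (nat_lit 5520136673) (nat_lit 7854) (nat_lit 1433460622) (nat_lit 8041) (nat_lit 43339710332),Row.mk (nat_lit 24864) (nat_lit 7854) (nat_lit 7556032238) (nat_lit 8415) (nat_lit 1139320207) (nat_lit 8602) (nat_lit 41945163662),Row.mk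 (nat_lit 25032) (nat_lit 8415) (nat_lit 9966947683) (nat_lit 8976) (nat_lit 903814925) (nat_lit 9163) (nat_lit 40203408514),Row.mk (nat_lit 25200) (nat_lit 8976) (nat_lit 12872541209) (nat_lit 9537) (nat_lit 715256213) (nat_lit 9724) (nat_lit 38027998351),Row.mk (nat_lit 25368) (nat_lit 9537) (nat_lit 16417022806) (nat_lit 10098) (nat_lit 564285554) (nat_lit 10285) (nat_lit 35310963536),Row.mk (nat_lit 25536) (nat_lit 10098) (nat_lit 20776311664) (nat_lit 10659) (nat_lit 443409993) (nat_lit 10846) (nat_lit 31917452598),Row.mk (nat_lit 25704) (nat_lit 10659) (nat_lit 26166767366) (nat_lit 11220) (nat_lit 346630253) (nat_lit 11407) (nat_lit 27679039301),Row.mk (nat_lit 25872) (nat_lit 11220) (nat_lit 32855928216) (nat_lit 11781) (nat_lit 269142976) (nat_lit 11968) (nat_lit 22385363340),Row.mk (nat_lit 26040) (nat_lit 11781) (nat_lit 41175789660) (nat_lit 12529) (nat_lit 207102324) (nat_lit 12716) (nat_lit 15773689767),Row.mk (nat_lit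 26208) (nat_lit 12529) (nat_lit 51539281840) (nat_lit 13277) (nat_lit 157429105) (nat_lit 13464) (nat_lit 7515868974),Row.mk (nat_lit 26376) (nat_lit 12342) (nat_lit 3347620098) (nat_lit 13090) (nat_lit 146951936) (nat_lit 13277) (nat_lit 58285899997),Row.mk (nat_lit 26544) (nat_lit 13090) (nat_lit 19476337632) (nat_lit 13838) (nat_lit 107180777) (nat_lit 14025) (nat_lit 45404188924),Row.mk (nat_lit 26712) (nat_lit 13838) (nat_lit 39602886544) (nat_lit 14960) (nat_lit 75337761) (nat_lit 15147) (nat_lit 29315242550),Row.mk (nat_lit 26880) (nat_lit 14960) (nat_lit 64726184747) (nat_lit 16269) (nat_lit 49842459) (nat_lit 16456) (nat_lit 9220536654),Row.mk (nat_lit 27048) (nat_lit 14773) (nat_lit 19793565794) (nat_lit 16082) (nat_lit 36756728) (nat_lit 16269) (nat_lit 60414988807),Row.mk (nat_lit 27216) (nat_lit 16082) (nat_lit 58965063974) (nat_lit 17578) (nat_lit 16343762) (nat_lit 17765) (nat_lit 29068438436),Row.mk (nat_lit 27384)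 (nat_lit 15895) (nat_lit 12592982593) (nat_lit 17578) (nat_lit 85204539326) (nat_lit 0) (nat_lit 0),Row.mk (nat_lit 27552) (nat_lit 17391) (nat_lit 73666355408) (nat_lit 17578) (nat_lit 16343762) (nat_lit 19635) (nat_lit 36289434603),Row.mk (nat_lit 27720) (nat_lit 17204) (nat_lit 30934127977) (nat_lit 17391) (nat_lit 36756728) (nat_lit 19448) (nat_lit 94207045577),Row.mk (nat_lit 27888) (nat_lit 19261) (nat_lit 126204970318) (nat_lit 19448) (nat_lit 49842459) (nat_lit 25806) (nat_lit 17914790522),Row.mk (nat_lit 28056) (nat_lit 19074) (nat_lit 96553590569) (nat_lit 19261) (nat_lit 75337761) (nat_lit 25619) (nat_lit 71260816418),Row.mk (nat_lit 28224) (nat_lit 18887) (nat_lit 59519732565) (nat_lit 19074) (nat_lit 107180777) (nat_lit 25432) (nat_lit 137888715853),Row.mk (nat_lit 28392) (nat_lit 18700) (nat_lit 13265337317) (nat_lit 18887) (nat_lit 146951936) (nat_lit 25245) (nat_lit 221105354929),Row.mk (nat_lit 28560) (nat_lit 25058)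 (nat_lit 245098844630) (nat_lit 25245) (nat_lit 157429105) (nat_lit 31603) (nat_lit 35475994536),Row.mk (nat_lit 28728) (nat_lit 24871) (nat_lit 245049171411) (nat_lit 25058) (nat_lit 207102324) (nat_lit 31416) (nat_lit 93196945150),Row.mk (nat_lit 28896) (nat_lit 24684) (nat_lit 244987130760) (nat_lit 24871) (nat_lit 269142976) (nat_lit 31229) (nat_lit 165289020019),Row.mk (nat_lit 29064) (nat_lit 24497) (nat_lit 244909643482) (nat_lit 24684) (nat_lit 346630253) (nat_lit 31042) (nat_lit 255330282395),Row.mk (nat_lit 29232) (nat_lit 24310) (nat_lit 244812863742) (nat_lit 24497) (nat_lit 443409993) (nat_lit 30855) (nat_lit 367789646964),Row.mk (nat_lit 29400) (nat_lit 24123) (nat_lit 244691988182) (nat_lit 24310) (nat_lit 564285554) (nat_lit 30668) (nat_lit 508248680363),Row.mk (nat_lit 29568) (nat_lit 23936) (nat_lit 244541017522) (nat_lit 24123) (nat_lit 715256213) (nat_lit 30481) (nat_lit 683678624673),Row.mk (nat_lit 29736) (nat_lit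 23749) (nat_lit 244352458811) (nat_lit 23936) (nat_lit 903814925) (nat_lit 30294) (nat_lit 902786393078),Row.mk (nat_lit 29904) (nat_lit 23562) (nat_lit 244116953529) (nat_lit 23749) (nat_lit 1139320207) (nat_lit 30107) (nat_lit 1176446710102),Row.mk (nat_lit 30072) (nat_lit 23375) (nat_lit 243822813113) (nat_lit 23562) (nat_lit 1433460622) (nat_lit 29920) (nat_lit 1518241844337),Row.mk (nat_lit 30240) (nat_lit 23188) (nat_lit 243455438829) (nat_lit 23375) (nat_lit 1800834906) (nat_lit 29733) (nat_lit 1945135721598),Row.mk (nat_lit 30408) (nat_lit 23001) (nat_lit 242996597211) (nat_lit 23188) (nat_lit 2259676524) (nat_lit 29546) (nat_lit 2478315875991),Row.mk (nat_lit 30576) (nat_lit 22814) (nat_lit 242423515100) (nat_lit 23001) (nat_lit 2832758635) (nat_lit 29359) (nat_lit 3144245026495),Row.mk (nat_lit 30744) (nat_lit 22627) (nat_lit 241707749367) (nat_lit 22814) (nat_lit 3548524368) (nat_lit 29172) (nat_lit 3975974470728),Row.mk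 (nat_lit 30912) (nat_lit 22440) (nat_lit 240813775235) (nat_lit 22627) (nat_lit 4442498501) (nat_lit 28985) (nat_lit 5014784482097),Row.mk (nat_lit 31080) (nat_lit 22253) (nat_lit 239697223109) (nat_lit 22440) (nat_lit 5559050627) (nat_lit 28798) (nat_lit 6312233126247),Row.mk (nat_lit 31248) (nat_lit 22066) (nat_lit 238302676439) (nat_lit 22253) (nat_lit 6953597296) (nat_lit 28611) (nat_lit 7932715183391),Row.mk (nat_lit 31416) (nat_lit 21879) (nat_lit 236560921290) (nat_lit 22066) (nat_lit 8695352445) (nat_lit 28424) (nat_lit 9956658180570),Row.mk (nat_lit 31584) (nat_lit 21692) (nat_lit 234385511127) (nat_lit 21879) (nat_lit 10870762608) (nat_lit 28237) (nat_lit 12484514158841),Row.mk (nat_lit 31752) (nat_lit 21505) (nat_lit 231668476313) (nat_lit 21692) (nat_lit 13587797423) (nat_lit 28050) (nat_lit 15641745294196),Row.mk (nat_lit 31920) (nat_lit 21318) (nat_lit 228274965375) (nat_lit 21505) (nat_lit 16981308361) (nat_lit 27863)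 (nat_lit 19585050817826),Row.mk (nat_lit 32088) (nat_lit 21131) (nat_lit 224036552077) (nat_lit 21318) (nat_lit 21219721658) (nat_lit 27676) (nat_lit 24510144289305),Row.mk (nat_lit 32256) (nat_lit 20944) (nat_lit 218742876116) (nat_lit 21131) (nat_lit 26513397619) (nat_lit 27489) (nat_lit 30661467223187),Row.mk (nat_lit 32424) (nat_lit 32912) (nat_lit 48907149567) (nat_lit 62084) (nat_lit 38491779926106) (nat_lit 0) (nat_lit 0),Row.mk (nat_lit 32592) (nat_lit 32912) (nat_lit 48907149567) (nat_lit 62084) (nat_lit 48087479171361) (nat_lit 0) (nat_lit 0)],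
[Row.mk (nat_lit 17472) (nat_lit 32912) (nat_lit 8486920) (nat_lit 61897) (nat_lit 61064984206) (nat_lit 0) (nat_lit 0),Row.mk (nat_lit 17640) (nat_lit 32912) (nat_lit 8511397) (nat_lit 61897) (nat_lit 61064984206) (nat_lit 0) (nat_lit 0),Row.mk (nat_lit 17808) (nat_lit 32912) (nat_lit 8541969) (nat_lit 61897) (nat_lit 61064984206) (nat_lit 0) (nat_lit 0),Row.mk (nat_lit 17976) (nat_lit 32912) (nat_lit 8580153) (nat_lit 61897) (nat_lit 61064984206) (nat_lit 0) (nat_lit 0),Row.mk (nat_lit 18144) (nat_lit 32912) (nat_lit 8627843) (nat_lit 61897) (nat_lit 61064984206) (nat_lit 0) (nat_lit 0),Row.mk (nat_lit 18312) (nat_lit 32912) (nat_lit 8687407) (nat_lit 61897) (nat_lit 61064984206) (nat_lit 0) (nat_lit 0),Row.mk (nat_lit 18480) (nat_lit 32912) (nat_lit 8761800) (nat_lit 61897) (nat_lit 61064984206) (nat_lit 0) (nat_lit 0),Row.mk (nat_lit 18648) (nat_lit 32912) (nat_lit 8854716) (nat_lit 61897) (nat_lit 61064984206) (nat_lit 0) (nat_lit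 0),Row.mk (nat_lit 18816) (nat_lit 32912) (nat_lit 8970766) (nat_lit 61897) (nat_lit 61064984206) (nat_lit 0) (nat_lit 0),Row.mk (nat_lit 18984) (nat_lit 32912) (nat_lit 9115710) (nat_lit 61897) (nat_lit 61064984206) (nat_lit 0) (nat_lit 0),Row.mk (nat_lit 19152) (nat_lit 32912) (nat_lit 9296740) (nat_lit 61897) (nat_lit 61064984206) (nat_lit 0) (nat_lit 0),Row.mk (nat_lit 19320) (nat_lit 32912) (nat_lit 9522844) (nat_lit 61897) (nat_lit 61064984206) (nat_lit 0) (nat_lit 0),Row.mk (nat_lit 19488) (nat_lit 32912) (nat_lit 9805241) (nat_lit 61897) (nat_lit 61064984206) (nat_lit 0) (nat_lit 0),Row.mk (nat_lit 19656) (nat_lit 32912) (nat_lit 10157949) (nat_lit 61897) (nat_lit 61064984206) (nat_lit 0) (nat_lit 0),Row.mk (nat_lit 19824) (nat_lit 32912) (nat_lit 10598472) (nat_lit 61897) (nat_lit 61064984206) (nat_lit 0) (nat_lit 0),Row.mk (nat_lit 19992) (nat_lit 32912) (nat_lit 11148675) (nat_lit 61897) (nat_lit 61064984206) (nat_lit 0)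 (nat_lit 0),Row.mk (nat_lit 20160) (nat_lit 32912) (nat_lit 11835865) (nat_lit 61897) (nat_lit 61064984206) (nat_lit 0) (nat_lit 0),Row.mk (nat_lit 20328) (nat_lit 32912) (nat_lit 12694149) (nat_lit 61897) (nat_lit 61064984206) (nat_lit 0) (nat_lit 0),Row.mk (nat_lit 20496) (nat_lit 32912) (nat_lit 13766125) (nat_lit 61897) (nat_lit 61064984206) (nat_lit 0) (nat_lit 0),Row.mk (nat_lit 20664) (nat_lit 32912) (nat_lit 15104997) (nat_lit 61897) (nat_lit 61064984206) (nat_lit 0) (nat_lit 0),Row.mk (nat_lit 20832) (nat_lit 32912) (nat_lit 16777216) (nat_lit 61897) (nat_lit 61064984206) (nat_lit 0) (nat_lit 0),Row.mk (nat_lit 21000) (nat_lit 32912) (nat_lit 18865777) (nat_lit 61897) (nat_lit 61062895645) (nat_lit 0) (nat_lit 0),Row.mk (nat_lit 21168) (nat_lit 32912) (nat_lit 21474339) (nat_lit 61897) (nat_lit 61060287083) (nat_lit 0) (nat_lit 0),Row.mk (nat_lit 21336) (nat_lit 32912) (nat_lit 24732370) (nat_lit 61897) (nat_lit 61057029052)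 (nat_lit 0) (nat_lit 0),Row.mk (nat_lit 21504) (nat_lit 32912) (nat_lit 28801573) (nat_lit 61897) (nat_lit 61052959849) (nat_lit 0) (nat_lit 0),Row.mk (nat_lit 21672) (nat_lit 32912) (nat_lit 33883909) (nat_lit 61897) (nat_lit 61047877513) (nat_lit 0) (nat_lit 0),Row.mk (nat_lit 21840) (nat_lit 32912) (nat_lit 40231624) (nat_lit 61897) (nat_lit 61041529798) (nat_lit 0) (nat_lit 0),Row.mk (nat_lit 22008) (nat_lit 32912) (nat_lit 48159767) (nat_lit 61897) (nat_lit 61033601655) (nat_lit 0) (nat_lit 0),Row.mk (nat_lit 22176) (nat_lit 32912) (nat_lit 58061826) (nat_lit 61897) (nat_lit 61023699596) (nat_lit 0) (nat_lit 0),Row.mk (nat_lit 22344) (nat_lit 32912) (nat_lit 70429259) (nat_lit 61897) (nat_lit 61011332163) (nat_lit 0) (nat_lit 0),Row.mk (nat_lit 22512) (nat_lit 0) (nat_lit 346630253) (nat_lit 187) (nat_lit 34559975194) (nat_lit 748) (nat_lit 26244254643),Row.mk (nat_lit 22680) (nat_lit 561) (nat_lit 443409993) (nat_lit 748) (nat_lit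 39853651156) (nat_lit 1309) (nat_lit 20873091404),Row.mk (nat_lit 22848) (nat_lit 1122) (nat_lit 564285554) (nat_lit 1309) (nat_lit 44092064453) (nat_lit 1870) (nat_lit 16537898367),Row.mk (nat_lit 23016) (nat_lit 1683) (nat_lit 715256213) (nat_lit 1870) (nat_lit 47485575391) (nat_lit 2431) (nat_lit 13023511868),Row.mk (nat_lit 23184) (nat_lit 2244) (nat_lit 903814925) (nat_lit 2431) (nat_lit 50202610206) (nat_lit 2992) (nat_lit 10155506395),Row.mk (nat_lit 23352) (nat_lit 2805) (nat_lit 1139320207) (nat_lit 2992) (nat_lit 52378020369) (nat_lit 3553) (nat_lit 7791537520),Row.mk (nat_lit 23520) (nat_lit 3366) (nat_lit 1433460622) (nat_lit 3553) (nat_lit 54119775517) (nat_lit 4114) (nat_lit 5814277089),Row.mk (nat_lit 23688) (nat_lit 3927) (nat_lit 1800834906) (nat_lit 4114) (nat_lit 55514322187) (nat_lit 4675) (nat_lit 4125590004),Row.mk (nat_lit 23856) (nat_lit 4488) (nat_lit 2259676524) (nat_lit 4675) (nat_lit 56630874313) (nat_lit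 5236) (nat_lit 2641663594),Row.mk (nat_lit 24024) (nat_lit 5049) (nat_lit 2832758635) (nat_lit 5236) (nat_lit 57524848446) (nat_lit 5797) (nat_lit 1288847844),Row.mk (nat_lit 24192) (nat_lit 5610) (nat_lit 3548524368) (nat_lit 5797) (nat_lit 58240614178) (nat_lit 0) (nat_lit 0),Row.mk (nat_lit 24360) (nat_lit 5610) (nat_lit 1609739865) (nat_lit 6171) (nat_lit 2832758635) (nat_lit 6358) (nat_lit 57524848446),Row.mk (nat_lit 24528) (nat_lit 6171) (nat_lit 3299374102) (nat_lit 6732) (nat_lit 2259676524) (nat_lit 6919) (nat_lit 56630874313),Row.mk (nat_lit 24696) (nat_lit 6732) (nat_lit 5152762390) (nat_lit 7293) (nat_lit 1800834906) (nat_lit 7480) (nat_lit 55514322187),Row.mk (nat_lit 24864) (nat_lit 7293) (nat_lit 7261891822) (nat_lit 7854) (nat_lit 1433460622) (nat_lit 8041) (nat_lit 54119775517),Row.mk (nat_lit 25032) (nat_lit 7854) (nat_lit 9731442401) (nat_lit 8415) (nat_lit 1139320207) (nat_lit 8602) (nat_lit 52378020369),Row.mk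 (nat_lit 25200) (nat_lit 8415) (nat_lit 12683982498) (nat_lit 8976) (nat_lit 903814925) (nat_lit 9163) (nat_lit 50202610206),Row.mk (nat_lit 25368) (nat_lit 8976) (nat_lit 16266052147) (nat_lit 9537) (nat_lit 715256213) (nat_lit 9724) (nat_lit 47485575391),Row.mk (nat_lit 25536) (nat_lit 9537) (nat_lit 20655436104) (nat_lit 10098) (nat_lit 564285554) (nat_lit 10285) (nat_lit 44092064453),Row.mk (nat_lit 25704) (nat_lit 10098) (nat_lit 26069987626) (nat_lit 10659) (nat_lit 443409993) (nat_lit 10846) (nat_lit 39853651156),Row.mk (nat_lit 25872) (nat_lit 10659) (nat_lit 32778440938) (nat_lit 11220) (nat_lit 346630253) (nat_lit 11407) (nat_lit 34559975194),Row.mk (nat_lit 26040) (nat_lit 11220) (nat_lit 41113749009) (nat_lit 11781) (nat_lit 269142976) (nat_lit 11968) (nat_lit 27948301622),Row.mk (nat_lit 26208) (nat_lit 11781) (nat_lit 51489608621) (nat_lit 12529) (nat_lit 207102324) (nat_lit 12716) (nat_lit 19690480829),Row.mk (nat_lit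 26376) (nat_lit 12529) (nat_lit 64420992913) (nat_lit 13277) (nat_lit 157429105) (nat_lit 13464) (nat_lit 9376661868),Row.mk (nat_lit 26544) (nat_lit 12342) (nat_lit 4230769964) (nat_lit 13090) (nat_lit 146951936) (nat_lit 13277) (nat_lit 72784597288),Row.mk (nat_lit 26712) (nat_lit 13090) (nat_lit 24365247018) (nat_lit 13838) (nat_lit 107180777) (nat_lit 14025) (nat_lit 56695650913),Row.mk (nat_lit 26880) (nat_lit 13838) (nat_lit 49494892937) (nat_lit 14960) (nat_lit 75337761) (nat_lit 15147) (nat_lit 36600945018),Row.mk (nat_lit 27048) (nat_lit 14960) (nat_lit 80866938609) (nat_lit 16269) (nat_lit 49842459) (nat_lit 16456) (nat_lit 11503142116),Row.mk (nat_lit 27216) (nat_lit 14773) (nat_lit 24747181482) (nat_lit 16082) (nat_lit 36756728) (nat_lit 16269) (nat_lit 75440519818),Row.mk (nat_lit 27384) (nat_lit 16082) (nat_lit 73666355408) (nat_lit 17578) (nat_lit 16343762) (nat_lit 17765) (nat_lit 36289434603),Row.mk (nat_lit 27552)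 (nat_lit 15895) (nat_lit 15748744434) (nat_lit 17578) (nat_lit 106398001195) (nat_lit 0) (nat_lit 0),Row.mk (nat_lit 27720) (nat_lit 17391) (nat_lit 92027913757) (nat_lit 17578) (nat_lit 16343762) (nat_lit 19635) (nat_lit 45308284617),Row.mk (nat_lit 27888) (nat_lit 17204) (nat_lit 38661474896) (nat_lit 17391) (nat_lit 36756728) (nat_lit 19448) (nat_lit 117645983531),Row.mk (nat_lit 28056) (nat_lit 19261) (nat_lit 157652458685) (nat_lit 19448) (nat_lit 49842459) (nat_lit 25806) (nat_lit 22362055458),Row.mk (nat_lit 28224) (nat_lit 19074) (nat_lit 120624948397) (nat_lit 19261) (nat_lit 75337761) (nat_lit 25619) (nat_lit 88989954893),Row.mk (nat_lit 28392) (nat_lit 18887) (nat_lit 74378481291) (nat_lit 19074) (nat_lit 107180777) (nat_lit 25432) (nat_lit 172206593969),Row.mk (nat_lit 28560) (nat_lit 18700) (nat_lit 16617759517) (nat_lit 18887) (nat_lit 146951936) (nat_lit 25245) (nat_lit 276142168672),Row.mk (nat_lit 28728) (nat_lit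 25058) (nat_lit 306172217445) (nat_lit 25245) (nat_lit 157429105) (nat_lit 31603) (nat_lit 44298184191),Row.mk (nat_lit 28896) (nat_lit 24871) (nat_lit 306122544226) (nat_lit 25058) (nat_lit 207102324) (nat_lit 31416) (nat_lit 116390259059),Row.mk (nat_lit 29064) (nat_lit 24684) (nat_lit 306060503575) (nat_lit 24871) (nat_lit 269142976) (nat_lit 31229) (nat_lit 206431521435),Row.mk (nat_lit 29232) (nat_lit 24497) (nat_lit 305983016297) (nat_lit 24684) (nat_lit 346630253) (nat_lit 31042) (nat_lit 318890886004),Row.mk (nat_lit 29400) (nat_lit 24310) (nat_lit 305886236557) (nat_lit 24497) (nat_lit 443409993) (nat_lit 30855) (nat_lit 459349919404),Row.mk (nat_lit 29568) (nat_lit 24123) (nat_lit 305765360996) (nat_lit 24310) (nat_lit 564285554) (nat_lit 30668) (nat_lit 634779863713),Row.mk (nat_lit 29736) (nat_lit 23936) (nat_lit 305614390337) (nat_lit 24123) (nat_lit 715256213) (nat_lit 30481) (nat_lit 853887632118),Row.mk (nat_lit 29904)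 (nat_lit 23749) (nat_lit 305425831626) (nat_lit 23936) (nat_lit 903814925) (nat_lit 30294) (nat_lit 1127547949142),Row.mk (nat_lit 30072) (nat_lit 23562) (nat_lit 305190326344) (nat_lit 23749) (nat_lit 1139320207) (nat_lit 30107) (nat_lit 1469343083377),Row.mk (nat_lit 30240) (nat_lit 23375) (nat_lit 304896185928) (nat_lit 23562) (nat_lit 1433460622) (nat_lit 29920) (nat_lit 1896236960638),Row.mk (nat_lit 30408) (nat_lit 23188) (nat_lit 304528811644) (nat_lit 23375) (nat_lit 1800834906) (nat_lit 29733) (nat_lit 2429417115031),Row.mk (nat_lit 30576) (nat_lit 23001) (nat_lit 304069970026) (nat_lit 23188) (nat_lit 2259676524) (nat_lit 29546) (nat_lit 3095346265535),Row.mk (nat_lit 30744) (nat_lit 22814) (nat_lit 303496887915) (nat_lit 23001) (nat_lit 2832758635) (nat_lit 29359) (nat_lit 3927075709768),Row.mk (nat_lit 30912) (nat_lit 22627) (nat_lit 302781122182) (nat_lit 22814) (nat_lit 3548524368) (nat_lit 29172) (nat_lit 4965885721137),Row.mk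 (nat_lit 31080) (nat_lit 22440) (nat_lit 301887148049) (nat_lit 22627) (nat_lit 4442498501) (nat_lit 28985) (nat_lit 6263334365287),Row.mk (nat_lit 31248) (nat_lit 22253) (nat_lit 300770595923) (nat_lit 22440) (nat_lit 5559050627) (nat_lit 28798) (nat_lit 7883816422431),Row.mk (nat_lit 31416) (nat_lit 22066) (nat_lit 299376049254) (nat_lit 22253) (nat_lit 6953597296) (nat_lit 28611) (nat_lit 9907759419610),Row.mk (nat_lit 31584) (nat_lit 21879) (nat_lit 297634294105) (nat_lit 22066) (nat_lit 8695352445) (nat_lit 28424) (nat_lit 12435615397881),Row.mk (nat_lit 31752) (nat_lit 21692) (nat_lit 295458883942) (nat_lit 21879) (nat_lit 10870762608) (nat_lit 28237) (nat_lit 15592846533236),Row.mk (nat_lit 31920) (nat_lit 21505) (nat_lit 292741849127) (nat_lit 21692) (nat_lit 13587797423) (nat_lit 28050) (nat_lit 19536152056866),Row.mk (nat_lit 32088) (nat_lit 21318) (nat_lit 289348338189) (nat_lit 21505) (nat_lit 16981308361) (nat_lit 27863)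 (nat_lit 24461245528345),Row.mk (nat_lit 32256) (nat_lit 21131) (nat_lit 285109924892) (nat_lit 21318) (nat_lit 21219721658) (nat_lit 27676) (nat_lit 30612568462227),Row.mk (nat_lit 32424) (nat_lit 20944) (nat_lit 279816248931) (nat_lit 21131) (nat_lit 26513397619) (nat_lit 27489) (nat_lit 38295422413330),Row.mk (nat_lit 32592) (nat_lit 32912) (nat_lit 61081761422) (nat_lit 62084) (nat_lit 48075304559506) (nat_lit 0) (nat_lit 0),Row.mk (nat_lit 32760) (nat_lit 32912) (nat_lit 61081761422) (nat_lit 62084) (nat_lit 60060101432051) (nat_lit 0) (nat_lit 0)],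
[Row.mk (nat_lit 17640) (nat_lit 32912) (nat_lit 8511397) (nat_lit 61897) (nat_lit 76270780715) (nat_lit 0) (nat_lit 0),Row.mk (nat_lit 17808) (nat_lit 32912) (nat_lit 8541969) (nat_lit 61897) (nat_lit 76270780715) (nat_lit 0) (nat_lit 0),Row.mk (nat_lit 17976) (nat_lit 32912) (nat_lit 8580153) (nat_lit 61897) (nat_lit 76270780715) (nat_lit 0) (nat_lit 0),Row.mk (nat_lit 18144) (nat_lit 32912) (nat_lit 8627843) (nat_lit 61897) (nat_lit 76270780715) (nat_lit 0) (nat_lit 0),Row.mk (nat_lit 18312) (nat_lit 32912) (nat_lit 8687407) (nat_lit 61897) (nat_lit 76270780715) (nat_lit 0) (nat_lit 0),Row.mk (nat_lit 18480) (nat_lit 32912) (nat_lit 8761800) (nat_lit 61897) (nat_lit 76270780715) (nat_lit 0) (nat_lit 0),Row.mk (nat_lit 18648) (nat_lit 32912) (nat_lit 8854716) (nat_lit 61897) (nat_lit 76270780715) (nat_lit 0) (nat_lit 0),Row.mk (nat_lit 18816) (nat_lit 32912) (nat_lit 8970766) (nat_lit 61897) (nat_lit 76270780715) (nat_lit 0) (nat_lit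 0),Row.mk (nat_lit 18984) (nat_lit 32912) (nat_lit 9115710) (nat_lit 61897) (nat_lit 76270780715) (nat_lit 0) (nat_lit 0),Row.mk (nat_lit 19152) (nat_lit 32912) (nat_lit 9296740) (nat_lit 61897) (nat_lit 76270780715) (nat_lit 0) (nat_lit 0),Row.mk (nat_lit 19320) (nat_lit 32912) (nat_lit 9522844) (nat_lit 61897) (nat_lit 76270780715) (nat_lit 0) (nat_lit 0),Row.mk (nat_lit 19488) (nat_lit 32912) (nat_lit 9805241) (nat_lit 61897) (nat_lit 76270780715) (nat_lit 0) (nat_lit 0),Row.mk (nat_lit 19656) (nat_lit 32912) (nat_lit 10157949) (nat_lit 61897) (nat_lit 76270780715) (nat_lit 0) (nat_lit 0),Row.mk (nat_lit 19824) (nat_lit 32912) (nat_lit 10598472) (nat_lit 61897) (nat_lit 76270780715) (nat_lit 0) (nat_lit 0),Row.mk (nat_lit 19992) (nat_lit 32912) (nat_lit 11148675) (nat_lit 61897) (nat_lit 76270780715) (nat_lit 0) (nat_lit 0),Row.mk (nat_lit 20160) (nat_lit 32912) (nat_lit 11835865) (nat_lit 61897) (nat_lit 76270780715) (nat_lit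 0) (nat_lit 0),Row.mk (nat_lit 20328) (nat_lit 32912) (nat_lit 12694149) (nat_lit 61897) (nat_lit 76270780715) (nat_lit 0) (nat_lit 0),Row.mk (nat_lit 20496) (nat_lit 32912) (nat_lit 13766125) (nat_lit 61897) (nat_lit 76270780715) (nat_lit 0) (nat_lit 0),Row.mk (nat_lit 20664) (nat_lit 32912) (nat_lit 15104997) (nat_lit 61897) (nat_lit 76270780715) (nat_lit 0) (nat_lit 0),Row.mk (nat_lit 20832) (nat_lit 32912) (nat_lit 16777216) (nat_lit 61897) (nat_lit 76270780715) (nat_lit 0) (nat_lit 0),Row.mk (nat_lit 21000) (nat_lit 32912) (nat_lit 18865777) (nat_lit 61897) (nat_lit 76268692154) (nat_lit 0) (nat_lit 0),Row.mk (nat_lit 21168) (nat_lit 32912) (nat_lit 21474339) (nat_lit 61897) (nat_lit 76266083592) (nat_lit 0) (nat_lit 0),Row.mk (nat_lit 21336) (nat_lit 32912) (nat_lit 24732370) (nat_lit 61897) (nat_lit 76262825560) (nat_lit 0) (nat_lit 0),Row.mk (nat_lit 21504) (nat_lit 32912) (nat_lit 28801573) (nat_lit 61897) (nat_lit 76258756358)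 (nat_lit 0) (nat_lit 0),Row.mk (nat_lit 21672) (nat_lit 32912) (nat_lit 33883909) (nat_lit 61897) (nat_lit 76253674022) (nat_lit 0) (nat_lit 0),Row.mk (nat_lit 21840) (nat_lit 32912) (nat_lit 40231624) (nat_lit 61897) (nat_lit 76247326307) (nat_lit 0) (nat_lit 0),Row.mk (nat_lit 22008) (nat_lit 32912) (nat_lit 48159767) (nat_lit 61897) (nat_lit 76239398164) (nat_lit 0) (nat_lit 0),Row.mk (nat_lit 22176) (nat_lit 32912) (nat_lit 58061826) (nat_lit 61897) (nat_lit 76229496104) (nat_lit 0) (nat_lit 0),Row.mk (nat_lit 22344) (nat_lit 32912) (nat_lit 70429259) (nat_lit 61897) (nat_lit 76217128671) (nat_lit 0) (nat_lit 0),Row.mk (nat_lit 22512) (nat_lit 32912) (nat_lit 85875885) (nat_lit 61897) (nat_lit 76201682046) (nat_lit 0) (nat_lit 0),Row.mk (nat_lit 22680) (nat_lit 0) (nat_lit 443409993) (nat_lit 187) (nat_lit 49765771703) (nat_lit 748) (nat_lit 26166767366),Row.mk (nat_lit 22848) (nat_lit 561) (nat_lit 564285554) (nat_lit 748) (nat_lit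 55059447665) (nat_lit 1309) (nat_lit 20776311664),Row.mk (nat_lit 23016) (nat_lit 1122) (nat_lit 715256213) (nat_lit 1309) (nat_lit 59297860962) (nat_lit 1870) (nat_lit 16417022806),Row.mk (nat_lit 23184) (nat_lit 1683) (nat_lit 903814925) (nat_lit 1870) (nat_lit 62691371900) (nat_lit 2431) (nat_lit 12872541209),Row.mk (nat_lit 23352) (nat_lit 2244) (nat_lit 1139320207) (nat_lit 2431) (nat_lit 65408406714) (nat_lit 2992) (nat_lit 9966947683),Row.mk (nat_lit 23520) (nat_lit 2805) (nat_lit 1433460622) (nat_lit 2992) (nat_lit 67583816877) (nat_lit 3553) (nat_lit 7556032238),Row.mk (nat_lit 23688) (nat_lit 3366) (nat_lit 1800834906) (nat_lit 3553) (nat_lit 69325572026) (nat_lit 4114) (nat_lit 5520136673),Row.mk (nat_lit 23856) (nat_lit 3927) (nat_lit 2259676524) (nat_lit 4114) (nat_lit 70720118696) (nat_lit 4675) (nat_lit 3758215720),Row.mk (nat_lit 24024) (nat_lit 4488) (nat_lit 2832758635) (nat_lit 4675) (nat_lit 71836670822) (nat_lit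 5236) (nat_lit 2182821976),Row.mk (nat_lit 24192) (nat_lit 5049) (nat_lit 3548524368) (nat_lit 5236) (nat_lit 72730644955) (nat_lit 5797) (nat_lit 715765732),Row.mk (nat_lit 24360) (nat_lit 5049) (nat_lit 893974132) (nat_lit 5610) (nat_lit 3548524368) (nat_lit 5797) (nat_lit 72730644955),Row.mk (nat_lit 24528) (nat_lit 5610) (nat_lit 2726291991) (nat_lit 6171) (nat_lit 2832758635) (nat_lit 6358) (nat_lit 71836670822),Row.mk (nat_lit 24696) (nat_lit 6171) (nat_lit 4693920772) (nat_lit 6732) (nat_lit 2259676524) (nat_lit 6919) (nat_lit 70720118696),Row.mk (nat_lit 24864) (nat_lit 6732) (nat_lit 6894517539) (nat_lit 7293) (nat_lit 1800834906) (nat_lit 7480) (nat_lit 69325572026),Row.mk (nat_lit 25032) (nat_lit 7293) (nat_lit 9437301985) (nat_lit 7854) (nat_lit 1433460622) (nat_lit 8041) (nat_lit 67583816877),Row.mk (nat_lit 25200) (nat_lit 7854) (nat_lit 12448477216) (nat_lit 8415) (nat_lit 1139320207) (nat_lit 8602) (nat_lit 65408406714),Row.mk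 (nat_lit 25368) (nat_lit 8415) (nat_lit 16077493436) (nat_lit 8976) (nat_lit 903814925) (nat_lit 9163) (nat_lit 62691371900),Row.mk (nat_lit 25536) (nat_lit 8976) (nat_lit 20504465444) (nat_lit 9537) (nat_lit 715256213) (nat_lit 9724) (nat_lit 59297860962),Row.mk (nat_lit 25704) (nat_lit 9537) (nat_lit 25949112065) (nat_lit 10098) (nat_lit 564285554) (nat_lit 10285) (nat_lit 55059447665),Row.mk (nat_lit 25872) (nat_lit 10098) (nat_lit 32681661198) (nat_lit 10659) (nat_lit 443409993) (nat_lit 10846) (nat_lit 49765771703),Row.mk (nat_lit 26040) (nat_lit 10659) (nat_lit 41036261731) (nat_lit 11220) (nat_lit 346630253) (nat_lit 11407) (nat_lit 43154098131),Row.mk (nat_lit 26208) (nat_lit 11220) (nat_lit 51427567969) (nat_lit 11781) (nat_lit 269142976) (nat_lit 11968) (nat_lit 34896277338),Row.mk (nat_lit 26376) (nat_lit 11781) (nat_lit 64371319694) (nat_lit 12529) (nat_lit 207102324) (nat_lit 12716) (nat_lit 24582458377),Row.mk (nat_lit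 26544) (nat_lit 12529) (nat_lit 80509939287) (nat_lit 13277) (nat_lit 157429105) (nat_lit 13464) (nat_lit 11700747304),Row.mk (nat_lit 26712) (nat_lit 12342) (nat_lit 5333802841) (nat_lit 13090) (nat_lit 146951936) (nat_lit 13277) (nat_lit 90893120440),Row.mk (nat_lit 26880) (nat_lit 13090) (nat_lit 30471376903) (nat_lit 13838) (nat_lit 107180777) (nat_lit 14025) (nat_lit 70798414544),Row.mk (nat_lit 27048) (nat_lit 13838) (nat_lit 61849770290) (nat_lit 14960) (nat_lit 75337761) (nat_lit 15147) (nat_lit 45700611642),Row.mk (nat_lit 27216) (nat_lit 14960) (nat_lit 101026350806) (nat_lit 16269) (nat_lit 49842459) (nat_lit 16456) (nat_lit 14354061272),Row.mk (nat_lit 27384) (nat_lit 14773) (nat_lit 30934127977) (nat_lit 16082) (nat_lit 36756728) (nat_lit 16269) (nat_lit 94207045577),Row.mk (nat_lit 27552) (nat_lit 16082) (nat_lit 92027913757) (nat_lit 17578) (nat_lit 16343762) (nat_lit 17765) (nat_lit 45308284617),Row.mk (nat_lit 27720)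 (nat_lit 15895) (nat_lit 19690214844) (nat_lit 17578) (nat_lit 132868123803) (nat_lit 0) (nat_lit 0),Row.mk (nat_lit 27888) (nat_lit 17391) (nat_lit 114961057185) (nat_lit 17578) (nat_lit 16343762) (nat_lit 19635) (nat_lit 56572610716),Row.mk (nat_lit 28056) (nat_lit 17204) (nat_lit 48312744784) (nat_lit 17391) (nat_lit 36756728) (nat_lit 19448) (nat_lit 146920651599),Row.mk (nat_lit 28224) (nat_lit 19261) (nat_lit 196929613022) (nat_lit 19448) (nat_lit 49842459) (nat_lit 25806) (nat_lit 27916582078),Row.mk (nat_lit 28392) (nat_lit 19074) (nat_lit 150689493631) (nat_lit 19261) (nat_lit 75337761) (nat_lit 25619) (nat_lit 111133221154),Row.mk (nat_lit 28560) (nat_lit 18887) (nat_lit 92936700000) (nat_lit 19074) (nat_lit 107180777) (nat_lit 25432) (nat_lit 215068795858),Row.mk (nat_lit 28728) (nat_lit 18700) (nat_lit 20804853972) (nat_lit 18887) (nat_lit 146951936) (nat_lit 25245) (nat_lit 344881821341),Row.mk (nat_lit 28896) (nat_lit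 25058) (nat_lit 382451386768) (nat_lit 25245) (nat_lit 157429105) (nat_lit 31603) (nat_lit 55316886244),Row.mk (nat_lit 29064) (nat_lit 24871) (nat_lit 382401713550) (nat_lit 25058) (nat_lit 207102324) (nat_lit 31416) (nat_lit 145358148620),Row.mk (nat_lit 29232) (nat_lit 24684) (nat_lit 382339672898) (nat_lit 24871) (nat_lit 269142976) (nat_lit 31229) (nat_lit 257817513189),Row.mk (nat_lit 29400) (nat_lit 24497) (nat_lit 382262185621) (nat_lit 24684) (nat_lit 346630253) (nat_lit 31042) (nat_lit 398276546589),Row.mk (nat_lit 29568) (nat_lit 24310) (nat_lit 382165405881) (nat_lit 24497) (nat_lit 443409993) (nat_lit 30855) (nat_lit 573706490898),Row.mk (nat_lit 29736) (nat_lit 24123) (nat_lit 382044530320) (nat_lit 24310) (nat_lit 564285554) (nat_lit 30668) (nat_lit 792814259303),Row.mk (nat_lit 29904) (nat_lit 23936) (nat_lit 381893559661) (nat_lit 24123) (nat_lit 715256213) (nat_lit 30481) (nat_lit 1066474576327),Row.mk (nat_lit 30072)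 (nat_lit 23749) (nat_lit 381705000949) (nat_lit 23936) (nat_lit 903814925) (nat_lit 30294) (nat_lit 1408269710562),Row.mk (nat_lit 30240) (nat_lit 23562) (nat_lit 381469495667) (nat_lit 23749) (nat_lit 1139320207) (nat_lit 30107) (nat_lit 1835163587823),Row.mk (nat_lit 30408) (nat_lit 23375) (nat_lit 381175355251) (nat_lit 23562) (nat_lit 1433460622) (nat_lit 29920) (nat_lit 2368343742216),Row.mk (nat_lit 30576) (nat_lit 23188) (nat_lit 380807980968) (nat_lit 23375) (nat_lit 1800834906) (nat_lit 29733) (nat_lit 3034272892720),Row.mk (nat_lit 30744) (nat_lit 23001) (nat_lit 380349139350) (nat_lit 23188) (nat_lit 2259676524) (nat_lit 29546) (nat_lit 3866002336954),Row.mk (nat_lit 30912) (nat_lit 22814) (nat_lit 379776057238) (nat_lit 23001) (nat_lit 2832758635) (nat_lit 29359) (nat_lit 4904812348322),Row.mk (nat_lit 31080) (nat_lit 22627) (nat_lit 379060291506) (nat_lit 22814) (nat_lit 3548524368) (nat_lit 29172) (nat_lit 6202260992472),Row.mk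 (nat_lit 31248) (nat_lit 22440) (nat_lit 378166317373) (nat_lit 22627) (nat_lit 4442498501) (nat_lit 28985) (nat_lit 7822743049616),Row.mk (nat_lit 31416) (nat_lit 22253) (nat_lit 377049765247) (nat_lit 22440) (nat_lit 5559050627) (nat_lit 28798) (nat_lit 9846686046796),Row.mk (nat_lit 31584) (nat_lit 22066) (nat_lit 375655218577) (nat_lit 22253) (nat_lit 6953597296) (nat_lit 28611) (nat_lit 12374542025066),Row.mk (nat_lit 31752) (nat_lit 21879) (nat_lit 373913463429) (nat_lit 22066) (nat_lit 8695352445) (nat_lit 28424) (nat_lit 15531773160422),Row.mk (nat_lit 31920) (nat_lit 21692) (nat_lit 371738053265) (nat_lit 21879) (nat_lit 10870762608) (nat_lit 28237) (nat_lit 19475078684051),Row.mk (nat_lit 32088) (nat_lit 21505) (nat_lit 369021018451) (nat_lit 21692) (nat_lit 13587797423) (nat_lit 28050) (nat_lit 24400172155530),Row.mk (nat_lit 32256) (nat_lit 21318) (nat_lit 365627507513) (nat_lit 21505) (nat_lit 16981308361) (nat_lit 27863)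 (nat_lit 30551495089412),Row.mk (nat_lit 32424) (nat_lit 21131) (nat_lit 361389094216) (nat_lit 21318) (nat_lit 21219721658) (nat_lit 27676) (nat_lit 38234349040515),Row.mk (nat_lit 32592) (nat_lit 20944) (nat_lit 356095418254) (nat_lit 21131) (nat_lit 26513397619) (nat_lit 27489) (nat_lit 47830048285770),Row.mk (nat_lit 32760) (nat_lit 32912) (nat_lit 76287557931) (nat_lit 62084) (nat_lit 60044895635542) (nat_lit 0) (nat_lit 0),Row.mk (nat_lit 32928) (nat_lit 32912) (nat_lit 76287557931) (nat_lit 62084) (nat_lit 75013617810445) (nat_lit 0) (nat_lit 0)],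
[Row.mk (nat_lit 17808) (nat_lit 32912) (nat_lit 8541969) (nat_lit 61897) (nat_lit 95262453733) (nat_lit 0) (nat_lit 0),Row.mk (nat_lit 17976) (nat_lit 32912) (nat_lit 8580153) (nat_lit 61897) (nat_lit 95262453733) (nat_lit 0) (nat_lit 0),Row.mk (nat_lit 18144) (nat_lit 32912) (nat_lit 8627843) (nat_lit 61897) (nat_lit 95262453733) (nat_lit 0) (nat_lit 0),Row.mk (nat_lit 18312) (nat_lit 32912) (nat_lit 8687407) (nat_lit 61897) (nat_lit 95262453733) (nat_lit 0) (nat_lit 0),Row.mk (nat_lit 18480) (nat_lit 32912) (nat_lit 8761800) (nat_lit 61897) (nat_lit 95262453733) (nat_lit 0) (nat_lit 0),Row.mk (nat_lit 18648) (nat_lit 32912) (nat_lit 8854716) (nat_lit 61897) (nat_lit 95262453733) (nat_lit 0) (nat_lit 0),Row.mk (nat_lit 18816) (nat_lit 32912) (nat_lit 8970766) (nat_lit 61897) (nat_lit 95262453733) (nat_lit 0) (nat_lit 0),Row.mk (nat_lit 18984) (nat_lit 32912) (nat_lit 9115710) (nat_lit 61897) (nat_lit 95262453733) (nat_lit 0) (nat_lit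 0),Row.mk (nat_lit 19152) (nat_lit 32912) (nat_lit 9296740) (nat_lit 61897) (nat_lit 95262453733) (nat_lit 0) (nat_lit 0),Row.mk (nat_lit 19320) (nat_lit 32912) (nat_lit 9522844) (nat_lit 61897) (nat_lit 95262453733) (nat_lit 0) (nat_lit 0),Row.mk (nat_lit 19488) (nat_lit 32912) (nat_lit 9805241) (nat_lit 61897) (nat_lit 95262453733) (nat_lit 0) (nat_lit 0),Row.mk (nat_lit 19656) (nat_lit 32912) (nat_lit 10157949) (nat_lit 61897) (nat_lit 95262453733) (nat_lit 0) (nat_lit 0),Row.mk (nat_lit 19824) (nat_lit 32912) (nat_lit 10598472) (nat_lit 61897) (nat_lit 95262453733) (nat_lit 0) (nat_lit 0),Row.mk (nat_lit 19992) (nat_lit 32912) (nat_lit 11148675) (nat_lit 61897) (nat_lit 95262453733) (nat_lit 0) (nat_lit 0),Row.mk (nat_lit 20160) (nat_lit 32912) (nat_lit 11835865) (nat_lit 61897) (nat_lit 95262453733) (nat_lit 0) (nat_lit 0),Row.mk (nat_lit 20328) (nat_lit 32912) (nat_lit 12694149) (nat_lit 61897) (nat_lit 95262453733) (nat_lit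 0) (nat_lit 0),Row.mk (nat_lit 20496) (nat_lit 32912) (nat_lit 13766125) (nat_lit 61897) (nat_lit 95262453733) (nat_lit 0) (nat_lit 0),Row.mk (nat_lit 20664) (nat_lit 32912) (nat_lit 15104997) (nat_lit 61897) (nat_lit 95262453733) (nat_lit 0) (nat_lit 0),Row.mk (nat_lit 20832) (nat_lit 32912) (nat_lit 16777216) (nat_lit 61897) (nat_lit 95262453733) (nat_lit 0) (nat_lit 0),Row.mk (nat_lit 21000) (nat_lit 32912) (nat_lit 18865777) (nat_lit 61897) (nat_lit 95260365172) (nat_lit 0) (nat_lit 0),Row.mk (nat_lit 21168) (nat_lit 32912) (nat_lit 21474339) (nat_lit 61897) (nat_lit 95257756609) (nat_lit 0) (nat_lit 0),Row.mk (nat_lit 21336) (nat_lit 32912) (nat_lit 24732370) (nat_lit 61897) (nat_lit 95254498578) (nat_lit 0) (nat_lit 0),Row.mk (nat_lit 21504) (nat_lit 32912) (nat_lit 28801573) (nat_lit 61897) (nat_lit 95250429375) (nat_lit 0) (nat_lit 0),Row.mk (nat_lit 21672) (nat_lit 32912) (nat_lit 33883909) (nat_lit 61897) (nat_lit 95245347039)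 (nat_lit 0) (nat_lit 0),Row.mk (nat_lit 21840) (nat_lit 32912) (nat_lit 40231624) (nat_lit 61897) (nat_lit 95238999324) (nat_lit 0) (nat_lit 0),Row.mk (nat_lit 22008) (nat_lit 32912) (nat_lit 48159767) (nat_lit 61897) (nat_lit 95231071181) (nat_lit 0) (nat_lit 0),Row.mk (nat_lit 22176) (nat_lit 32912) (nat_lit 58061826) (nat_lit 61897) (nat_lit 95221169122) (nat_lit 0) (nat_lit 0),Row.mk (nat_lit 22344) (nat_lit 32912) (nat_lit 70429259) (nat_lit 61897) (nat_lit 95208801689) (nat_lit 0) (nat_lit 0),Row.mk (nat_lit 22512) (nat_lit 32912) (nat_lit 85875885) (nat_lit 61897) (nat_lit 95193355063) (nat_lit 0) (nat_lit 0),Row.mk (nat_lit 22680) (nat_lit 32912) (nat_lit 105168348) (nat_lit 61897) (nat_lit 95174062601) (nat_lit 0) (nat_lit 0),Row.mk (nat_lit 22848) (nat_lit 0) (nat_lit 564285554) (nat_lit 187) (nat_lit 68757444721) (nat_lit 748) (nat_lit 26069987626),Row.mk (nat_lit 23016) (nat_lit 561) (nat_lit 715256213) (nat_lit 748) (nat_lit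 74051120682) (nat_lit 1309) (nat_lit 20655436104),Row.mk (nat_lit 23184) (nat_lit 1122) (nat_lit 903814925) (nat_lit 1309) (nat_lit 78289533980) (nat_lit 1870) (nat_lit 16266052147),Row.mk (nat_lit 23352) (nat_lit 1683) (nat_lit 1139320207) (nat_lit 1870) (nat_lit 81683044918) (nat_lit 2431) (nat_lit 12683982498),Row.mk (nat_lit 23520) (nat_lit 2244) (nat_lit 1433460622) (nat_lit 2431) (nat_lit 84400079732) (nat_lit 2992) (nat_lit 9731442401),Row.mk (nat_lit 23688) (nat_lit 2805) (nat_lit 1800834906) (nat_lit 2992) (nat_lit 86575489895) (nat_lit 3553) (nat_lit 7261891822),Row.mk (nat_lit 23856) (nat_lit 3366) (nat_lit 2259676524) (nat_lit 3553) (nat_lit 88317245044) (nat_lit 4114) (nat_lit 5152762390),Row.mk (nat_lit 24024) (nat_lit 3927) (nat_lit 2832758635) (nat_lit 4114) (nat_lit 89711791714) (nat_lit 4675) (nat_lit 3299374102),Row.mk (nat_lit 24192) (nat_lit 4488) (nat_lit 3548524368) (nat_lit 4675) (nat_lit 90828343839) (nat_lit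 5236) (nat_lit 1609739865),Row.mk (nat_lit 24360) (nat_lit 5049) (nat_lit 4442498501) (nat_lit 5236) (nat_lit 91722317972) (nat_lit 0) (nat_lit 0),Row.mk (nat_lit 24528) (nat_lit 5049) (nat_lit 2010526258) (nat_lit 5610) (nat_lit 3548524368) (nat_lit 5797) (nat_lit 90828343839),Row.mk (nat_lit 24696) (nat_lit 5610) (nat_lit 4120838660) (nat_lit 6171) (nat_lit 2832758635) (nat_lit 6358) (nat_lit 89711791714),Row.mk (nat_lit 24864) (nat_lit 6171) (nat_lit 6435675921) (nat_lit 6732) (nat_lit 2259676524) (nat_lit 6919) (nat_lit 88317245044),Row.mk (nat_lit 25032) (nat_lit 6732) (nat_lit 9069927702) (nat_lit 7293) (nat_lit 1800834906) (nat_lit 7480) (nat_lit 86575489895),Row.mk (nat_lit 25200) (nat_lit 7293) (nat_lit 12154336800) (nat_lit 7854) (nat_lit 1433460622) (nat_lit 8041) (nat_lit 84400079732),Row.mk (nat_lit 25368) (nat_lit 7854) (nat_lit 15841988154) (nat_lit 8415) (nat_lit 1139320207) (nat_lit 8602) (nat_lit 81683044918),Row.mk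 (nat_lit 25536) (nat_lit 8415) (nat_lit 20315906733) (nat_lit 8976) (nat_lit 903814925) (nat_lit 9163) (nat_lit 78289533980),Row.mk (nat_lit 25704) (nat_lit 8976) (nat_lit 25798141406) (nat_lit 9537) (nat_lit 715256213) (nat_lit 9724) (nat_lit 74051120682),Row.mk (nat_lit 25872) (nat_lit 9537) (nat_lit 32560785637) (nat_lit 10098) (nat_lit 564285554) (nat_lit 10285) (nat_lit 68757444721),Row.mk (nat_lit 26040) (nat_lit 10098) (nat_lit 40939481991) (nat_lit 10659) (nat_lit 443409993) (nat_lit 10846) (nat_lit 62145771149),Row.mk (nat_lit 26208) (nat_lit 10659) (nat_lit 51350080692) (nat_lit 11220) (nat_lit 346630253) (nat_lit 11407) (nat_lit 53887950355),Row.mk (nat_lit 26376) (nat_lit 11220) (nat_lit 64309279043) (nat_lit 11781) (nat_lit 269142976) (nat_lit 11968) (nat_lit 43574131395),Row.mk (nat_lit 26544) (nat_lit 11781) (nat_lit 80460266069) (nat_lit 12529) (nat_lit 207102324) (nat_lit 12716) (nat_lit 30692420322),Row.mk (nat_lit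 26712) (nat_lit 12529) (nat_lit 100604645183) (nat_lit 13277) (nat_lit 157429105) (nat_lit 13464) (nat_lit 14603473947),Row.mk (nat_lit 26880) (nat_lit 12342) (nat_lit 6711464296) (nat_lit 13090) (nat_lit 146951936) (nat_lit 13277) (nat_lit 113510229010),Row.mk (nat_lit 27048) (nat_lit 13090) (nat_lit 38097785826) (nat_lit 13838) (nat_lit 107180777) (nat_lit 14025) (nat_lit 88412426108),Row.mk (nat_lit 27216) (nat_lit 13838) (nat_lit 77280714057) (nat_lit 14960) (nat_lit 75337761) (nat_lit 15147) (nat_lit 57065875737),Row.mk (nat_lit 27384) (nat_lit 14960) (nat_lit 126204970318) (nat_lit 16269) (nat_lit 49842459) (nat_lit 16456) (nat_lit 17914790522),Row.mk (nat_lit 27552) (nat_lit 14773) (nat_lit 38661474896) (nat_lit 16082) (nat_lit 36756728) (nat_lit 16269) (nat_lit 117645983531),Row.mk (nat_lit 27720) (nat_lit 16082) (nat_lit 114961057185) (nat_lit 17578) (nat_lit 16343762) (nat_lit 17765) (nat_lit 56572610716),Row.mk (nat_lit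 27888) (nat_lit 15895) (nat_lit 24613016302) (nat_lit 17578) (nat_lit 165928668379) (nat_lit 0) (nat_lit 0),Row.mk (nat_lit 28056) (nat_lit 17391) (nat_lit 143604000091) (nat_lit 17578) (nat_lit 16343762) (nat_lit 19635) (nat_lit 70641482275),Row.mk (nat_lit 28224) (nat_lit 17204) (nat_lit 60366948050) (nat_lit 17391) (nat_lit 36756728) (nat_lit 19448) (nat_lit 183484005799),Row.mk (nat_lit 28392) (nat_lit 19261) (nat_lit 245985831274) (nat_lit 19448) (nat_lit 49842459) (nat_lit 25806) (nat_lit 34854051831),Row.mk (nat_lit 28560) (nat_lit 19074) (nat_lit 188239385358) (nat_lit 19261) (nat_lit 75337761) (nat_lit 25619) (nat_lit 138789626534),Row.mk (nat_lit 28728) (nat_lit 18887) (nat_lit 116115467473) (nat_lit 19074) (nat_lit 107180777) (nat_lit 25432) (nat_lit 268602652017),Row.mk (nat_lit 28896) (nat_lit 18700) (nat_lit 26034433938) (nat_lit 18887) (nat_lit 146951936) (nat_lit 25245) (nat_lit 430735989261),Row.mk (nat_lit 29064)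 (nat_lit 25058) (nat_lit 477722229110) (nat_lit 25245) (nat_lit 157429105) (nat_lit 31603) (nat_lit 69078979296),Row.mk (nat_lit 29232) (nat_lit 24871) (nat_lit 477672555891) (nat_lit 25058) (nat_lit 207102324) (nat_lit 31416) (nat_lit 181538343866),Row.mk (nat_lit 29400) (nat_lit 24684) (nat_lit 477610515239) (nat_lit 24871) (nat_lit 269142976) (nat_lit 31229) (nat_lit 321997377265),Row.mk (nat_lit 29568) (nat_lit 24497) (nat_lit 477533027962) (nat_lit 24684) (nat_lit 346630253) (nat_lit 31042) (nat_lit 497427321575),Row.mk (nat_lit 29736) (nat_lit 24310) (nat_lit 477436248222) (nat_lit 24497) (nat_lit 443409993) (nat_lit 30855) (nat_lit 716535089979),Row.mk (nat_lit 29904) (nat_lit 24123) (nat_lit 477315372661) (nat_lit 24310) (nat_lit 564285554) (nat_lit 30668) (nat_lit 990195407004),Row.mk (nat_lit 30072) (nat_lit 23936) (nat_lit 477164402002) (nat_lit 24123) (nat_lit 715256213) (nat_lit 30481) (nat_lit 1331990541239),Row.mk (nat_lit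 30240) (nat_lit 23749) (nat_lit 476975843290) (nat_lit 23936) (nat_lit 903814925) (nat_lit 30294) (nat_lit 1758884418499),Row.mk (nat_lit 30408) (nat_lit 23562) (nat_lit 476740338008) (nat_lit 23749) (nat_lit 1139320207) (nat_lit 30107) (nat_lit 2292064572893),Row.mk (nat_lit 30576) (nat_lit 23375) (nat_lit 476446197593) (nat_lit 23562) (nat_lit 1433460622) (nat_lit 29920) (nat_lit 2957993723396),Row.mk (nat_lit 30744) (nat_lit 23188) (nat_lit 476078823309) (nat_lit 23375) (nat_lit 1800834906) (nat_lit 29733) (nat_lit 3789723167630),Row.mk (nat_lit 30912) (nat_lit 23001) (nat_lit 475619981691) (nat_lit 23188) (nat_lit 2259676524) (nat_lit 29546) (nat_lit 4828533178999),Row.mk (nat_lit 31080) (nat_lit 22814) (nat_lit 475046899580) (nat_lit 23001) (nat_lit 2832758635) (nat_lit 29359) (nat_lit 6125981823148),Row.mk (nat_lit 31248) (nat_lit 22627) (nat_lit 474331133847) (nat_lit 22814) (nat_lit 3548524368) (nat_lit 29172) (nat_lit 7746463880292),Row.mk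 (nat_lit 31416) (nat_lit 22440) (nat_lit 473437159714) (nat_lit 22627) (nat_lit 4442498501) (nat_lit 28985) (nat_lit 9770406877472),Row.mk (nat_lit 31584) (nat_lit 22253) (nat_lit 472320607588) (nat_lit 22440) (nat_lit 5559050627) (nat_lit 28798) (nat_lit 12298262855743),Row.mk (nat_lit 31752) (nat_lit 22066) (nat_lit 470926060919) (nat_lit 22253) (nat_lit 6953597296) (nat_lit 28611) (nat_lit 15455493991098),Row.mk (nat_lit 31920) (nat_lit 21879) (nat_lit 469184305770) (nat_lit 22066) (nat_lit 8695352445) (nat_lit 28424) (nat_lit 19398799514728),Row.mk (nat_lit 32088) (nat_lit 21692) (nat_lit 467008895607) (nat_lit 21879) (nat_lit 10870762608) (nat_lit 28237) (nat_lit 24323892986207),Row.mk (nat_lit 32256) (nat_lit 21505) (nat_lit 464291860792) (nat_lit 21692) (nat_lit 13587797423) (nat_lit 28050) (nat_lit 30475215920089),Row.mk (nat_lit 32424) (nat_lit 21318) (nat_lit 460898349854) (nat_lit 21505) (nat_lit 16981308361) (nat_lit 27863)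 (nat_lit 38158069871191),Row.mk (nat_lit 32592) (nat_lit 21131) (nat_lit 456659936557) (nat_lit 21318) (nat_lit 21219721658) (nat_lit 27676) (nat_lit 47753769116446),Row.mk (nat_lit 32760) (nat_lit 20944) (nat_lit 451366260596) (nat_lit 21131) (nat_lit 26513397619) (nat_lit 27489) (nat_lit 59738565988991),Row.mk (nat_lit 32928) (nat_lit 32912) (nat_lit 95279230949) (nat_lit 62084) (nat_lit 74994626137427) (nat_lit 0) (nat_lit 0),Row.mk (nat_lit 33096) (nat_lit 32912) (nat_lit 95279230949) (nat_lit 62084) (nat_lit 93690199031343) (nat_lit 0) (nat_lit 0)],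
[Row.mk (nat_lit 17976) (nat_lit 32912) (nat_lit 8580153) (nat_lit 61897) (nat_lit 118982595181) (nat_lit 0) (nat_lit 0),Row.mk (nat_lit 18144) (nat_lit 32912) (nat_lit 8627843) (nat_lit 61897) (nat_lit 118982595181) (nat_lit 0) (nat_lit 0),Row.mk (nat_lit 18312) (nat_lit 32912) (nat_lit 8687407) (nat_lit 61897) (nat_lit 118982595181) (nat_lit 0) (nat_lit 0),Row.mk (nat_lit 18480) (nat_lit 32912) (nat_lit 8761800) (nat_lit 61897) (nat_lit 118982595181) (nat_lit 0) (nat_lit 0),Row.mk (nat_lit 18648) (nat_lit 32912) (nat_lit 8854716) (nat_lit 61897) (nat_lit 118982595181) (nat_lit 0) (nat_lit 0),Row.mk (nat_lit 18816) (nat_lit 32912) (nat_lit 8970766) (nat_lit 61897) (nat_lit 118982595181) (nat_lit 0) (nat_lit 0),Row.mk (nat_lit 18984) (nat_lit 32912) (nat_lit 9115710) (nat_lit 61897) (nat_lit 118982595181) (nat_lit 0) (nat_lit 0),Row.mk (nat_lit 19152) (nat_lit 32912) (nat_lit 9296740) (nat_lit 61897) (nat_lit 118982595181) (nat_lit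 0) (nat_lit 0),Row.mk (nat_lit 19320) (nat_lit 32912) (nat_lit 9522844) (nat_lit 61897) (nat_lit 118982595181) (nat_lit 0) (nat_lit 0),Row.mk (nat_lit 19488) (nat_lit 32912) (nat_lit 9805241) (nat_lit 61897) (nat_lit 118982595181) (nat_lit 0) (nat_lit 0),Row.mk (nat_lit 19656) (nat_lit 32912) (nat_lit 10157949) (nat_lit 61897) (nat_lit 118982595181) (nat_lit 0) (nat_lit 0),Row.mk (nat_lit 19824) (nat_lit 32912) (nat_lit 10598472) (nat_lit 61897) (nat_lit 118982595181) (nat_lit 0) (nat_lit 0),Row.mk (nat_lit 19992) (nat_lit 32912) (nat_lit 11148675) (nat_lit 61897) (nat_lit 118982595181) (nat_lit 0) (nat_lit 0),Row.mk (nat_lit 20160) (nat_lit 32912) (nat_lit 11835865) (nat_lit 61897) (nat_lit 118982595181) (nat_lit 0) (nat_lit 0),Row.mk (nat_lit 20328) (nat_lit 32912) (nat_lit 12694149) (nat_lit 61897) (nat_lit 118982595181) (nat_lit 0) (nat_lit 0),Row.mk (nat_lit 20496) (nat_lit 32912) (nat_lit 13766125) (nat_lit 61897) (nat_lit 118982595181)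 (nat_lit 0) (nat_lit 0),Row.mk (nat_lit 20664) (nat_lit 32912) (nat_lit 15104997) (nat_lit 61897) (nat_lit 118982595181) (nat_lit 0) (nat_lit 0),Row.mk (nat_lit 20832) (nat_lit 32912) (nat_lit 16777216) (nat_lit 61897) (nat_lit 118982595181) (nat_lit 0) (nat_lit 0),Row.mk (nat_lit 21000) (nat_lit 32912) (nat_lit 18865777) (nat_lit 61897) (nat_lit 118980506620) (nat_lit 0) (nat_lit 0),Row.mk (nat_lit 21168) (nat_lit 32912) (nat_lit 21474339) (nat_lit 61897) (nat_lit 118977898057) (nat_lit 0) (nat_lit 0),Row.mk (nat_lit 21336) (nat_lit 32912) (nat_lit 24732370) (nat_lit 61897) (nat_lit 118974640026) (nat_lit 0) (nat_lit 0),Row.mk (nat_lit 21504) (nat_lit 32912) (nat_lit 28801573) (nat_lit 61897) (nat_lit 118970570823) (nat_lit 0) (nat_lit 0),Row.mk (nat_lit 21672) (nat_lit 32912) (nat_lit 33883909) (nat_lit 61897) (nat_lit 118965488487) (nat_lit 0) (nat_lit 0),Row.mk (nat_lit 21840) (nat_lit 32912) (nat_lit 40231624) (nat_lit 61897)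 (nat_lit 118959140772) (nat_lit 0) (nat_lit 0),Row.mk (nat_lit 22008) (nat_lit 32912) (nat_lit 48159767) (nat_lit 61897) (nat_lit 118951212629) (nat_lit 0) (nat_lit 0),Row.mk (nat_lit 22176) (nat_lit 32912) (nat_lit 58061826) (nat_lit 61897) (nat_lit 118941310570) (nat_lit 0) (nat_lit 0),Row.mk (nat_lit 22344) (nat_lit 32912) (nat_lit 70429259) (nat_lit 61897) (nat_lit 118928943137) (nat_lit 0) (nat_lit 0),Row.mk (nat_lit 22512) (nat_lit 32912) (nat_lit 85875885) (nat_lit 61897) (nat_lit 118913496511) (nat_lit 0) (nat_lit 0),Row.mk (nat_lit 22680) (nat_lit 32912) (nat_lit 105168348) (nat_lit 61897) (nat_lit 118894204048) (nat_lit 0) (nat_lit 0),Row.mk (nat_lit 22848) (nat_lit 32912) (nat_lit 129264168) (nat_lit 61897) (nat_lit 118870108228) (nat_lit 0) (nat_lit 0),Row.mk (nat_lit 23016) (nat_lit 0) (nat_lit 715256213) (nat_lit 187) (nat_lit 92477586169) (nat_lit 748) (nat_lit 25949112065),Row.mk (nat_lit 23184) (nat_lit 561) (nat_lit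 903814925) (nat_lit 748) (nat_lit 97771262130) (nat_lit 1309) (nat_lit 20504465444),Row.mk (nat_lit 23352) (nat_lit 1122) (nat_lit 1139320207) (nat_lit 1309) (nat_lit 102009675427) (nat_lit 1870) (nat_lit 16077493436),Row.mk (nat_lit 23520) (nat_lit 1683) (nat_lit 1433460622) (nat_lit 1870) (nat_lit 105403186365) (nat_lit 2431) (nat_lit 12448477216),Row.mk (nat_lit 23688) (nat_lit 2244) (nat_lit 1800834906) (nat_lit 2431) (nat_lit 108120221180) (nat_lit 2992) (nat_lit 9437301985),Row.mk (nat_lit 23856) (nat_lit 2805) (nat_lit 2259676524) (nat_lit 2992) (nat_lit 110295631343) (nat_lit 3553) (nat_lit 6894517539),Row.mk (nat_lit 24024) (nat_lit 3366) (nat_lit 2832758635) (nat_lit 3553) (nat_lit 112037386492) (nat_lit 4114) (nat_lit 4693920772),Row.mk (nat_lit 24192) (nat_lit 3927) (nat_lit 3548524368) (nat_lit 4114) (nat_lit 113431933161) (nat_lit 4675) (nat_lit 2726291991),Row.mk (nat_lit 24360) (nat_lit 4488) (nat_lit 4442498501) (nat_lit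 4675) (nat_lit 114548485287) (nat_lit 5236) (nat_lit 893974132),Row.mk (nat_lit 24528) (nat_lit 4488) (nat_lit 1116552125) (nat_lit 5049) (nat_lit 4442498501) (nat_lit 5236) (nat_lit 114548485287),Row.mk (nat_lit 24696) (nat_lit 5049) (nat_lit 3405072928) (nat_lit 5610) (nat_lit 3548524368) (nat_lit 5797) (nat_lit 113431933161),Row.mk (nat_lit 24864) (nat_lit 5610) (nat_lit 5862593809) (nat_lit 6171) (nat_lit 2832758635) (nat_lit 6358) (nat_lit 112037386492),Row.mk (nat_lit 25032) (nat_lit 6171) (nat_lit 8611086084) (nat_lit 6732) (nat_lit 2259676524) (nat_lit 6919) (nat_lit 110295631343),Row.mk (nat_lit 25200) (nat_lit 6732) (nat_lit 11786962516) (nat_lit 7293) (nat_lit 1800834906) (nat_lit 7480) (nat_lit 108120221180),Row.mk (nat_lit 25368) (nat_lit 7293) (nat_lit 15547847738) (nat_lit 7854) (nat_lit 1433460622) (nat_lit 8041) (nat_lit 105403186365),Row.mk (nat_lit 25536) (nat_lit 7854) (nat_lit 20080401451) (nat_lit 8415) (nat_lit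 1139320207) (nat_lit 8602) (nat_lit 102009675427),Row.mk (nat_lit 25704) (nat_lit 8415) (nat_lit 25609582694) (nat_lit 8976) (nat_lit 903814925) (nat_lit 9163) (nat_lit 97771262130),Row.mk (nat_lit 25872) (nat_lit 8976) (nat_lit 32409814978) (nat_lit 9537) (nat_lit 715256213) (nat_lit 9724) (nat_lit 92477586169),Row.mk (nat_lit 26040) (nat_lit 9537) (nat_lit 40818606431) (nat_lit 10098) (nat_lit 564285554) (nat_lit 10285) (nat_lit 85865912596),Row.mk (nat_lit 26208) (nat_lit 10098) (nat_lit 51253300952) (nat_lit 10659) (nat_lit 443409993) (nat_lit 10846) (nat_lit 77608091803),Row.mk (nat_lit 26376) (nat_lit 10659) (nat_lit 64231791765) (nat_lit 11220) (nat_lit 346630253) (nat_lit 11407) (nat_lit 67294272843),Row.mk (nat_lit 26544) (nat_lit 11220) (nat_lit 80398225417) (nat_lit 11781) (nat_lit 269142976) (nat_lit 11968) (nat_lit 54412561769),Row.mk (nat_lit 26712) (nat_lit 11781) (nat_lit 100554971964) (nat_lit 12529) (nat_lit 207102324)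 (nat_lit 12716) (nat_lit 38323615395),Row.mk (nat_lit 26880) (nat_lit 12529) (nat_lit 125702448085) (nat_lit 13277) (nat_lit 157429105) (nat_lit 13464) (nat_lit 18228909500),Row.mk (nat_lit 27048) (nat_lit 12342) (nat_lit 8432130218) (nat_lit 13090) (nat_lit 146951936) (nat_lit 13277) (nat_lit 141758452004),Row.mk (nat_lit 27216) (nat_lit 13090) (nat_lit 47622986592) (nat_lit 13838) (nat_lit 107180777) (nat_lit 14025) (nat_lit 110411901633),Row.mk (nat_lit 27384) (nat_lit 13838) (nat_lit 96553590569) (nat_lit 14960) (nat_lit 75337761) (nat_lit 15147) (nat_lit 71260816418),Row.mk (nat_lit 27552) (nat_lit 14960) (nat_lit 157652458685) (nat_lit 16269) (nat_lit 49842459) (nat_lit 16456) (nat_lit 22362055458),Row.mk (nat_lit 27720) (nat_lit 14773) (nat_lit 48312744784) (nat_lit 16082) (nat_lit 36756728) (nat_lit 16269) (nat_lit 146920651599),Row.mk (nat_lit 27888) (nat_lit 16082) (nat_lit 143604000091) (nat_lit 17578) (nat_lit 16343762)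 (nat_lit 17765) (nat_lit 70641482275),Row.mk (nat_lit 28056) (nat_lit 15895) (nat_lit 30761476567) (nat_lit 17578) (nat_lit 207220491010) (nat_lit 0) (nat_lit 0),Row.mk (nat_lit 28224) (nat_lit 17391) (nat_lit 179378344805) (nat_lit 17578) (nat_lit 16343762) (nat_lit 19635) (nat_lit 88213163458),Row.mk (nat_lit 28392) (nat_lit 17204) (nat_lit 75422357136) (nat_lit 17391) (nat_lit 36756728) (nat_lit 19448) (nat_lit 229150753148),Row.mk (nat_lit 28560) (nat_lit 19261) (nat_lit 307255864449) (nat_lit 19448) (nat_lit 49842459) (nat_lit 25806) (nat_lit 43518784193),Row.mk (nat_lit 28728) (nat_lit 19074) (nat_lit 235138294279) (nat_lit 19261) (nat_lit 75337761) (nat_lit 25619) (nat_lit 173331809676),Row.mk (nat_lit 28896) (nat_lit 18887) (nat_lit 145065188886) (nat_lit 19074) (nat_lit 107180777) (nat_lit 25432) (nat_lit 335465146920),Row.mk (nat_lit 29064) (nat_lit 18700) (nat_lit 32566053158) (nat_lit 18887) (nat_lit 146951936) (nat_lit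 25245) (nat_lit 537965773865),Row.mk (nat_lit 29232) (nat_lit 25058) (nat_lit 596713212899) (nat_lit 25245) (nat_lit 157429105) (nat_lit 31603) (nat_lit 86267501525),Row.mk (nat_lit 29400) (nat_lit 24871) (nat_lit 596663539680) (nat_lit 25058) (nat_lit 207102324) (nat_lit 31416) (nat_lit 226726534924),Row.mk (nat_lit 29568) (nat_lit 24684) (nat_lit 596601499028) (nat_lit 24871) (nat_lit 269142976) (nat_lit 31229) (nat_lit 402156479233),Row.mk (nat_lit 29736) (nat_lit 24497) (nat_lit 596524011751) (nat_lit 24684) (nat_lit 346630253) (nat_lit 31042) (nat_lit 621264247638),Row.mk (nat_lit 29904) (nat_lit 24310) (nat_lit 596427232011) (nat_lit 24497) (nat_lit 443409993) (nat_lit 30855) (nat_lit 894924564662),Row.mk (nat_lit 30072) (nat_lit 24123) (nat_lit 596306356450) (nat_lit 24310) (nat_lit 564285554) (nat_lit 30668) (nat_lit 1236719698897),Row.mk (nat_lit 30240) (nat_lit 23936) (nat_lit 596155385791) (nat_lit 24123) (nat_lit 715256213)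 (nat_lit 30481) (nat_lit 1663613576158),Row.mk (nat_lit 30408) (nat_lit 23749) (nat_lit 595966827079) (nat_lit 23936) (nat_lit 903814925) (nat_lit 30294) (nat_lit 2196793730552),Row.mk (nat_lit 30576) (nat_lit 23562) (nat_lit 595731321797) (nat_lit 23749) (nat_lit 1139320207) (nat_lit 30107) (nat_lit 2862722881055),Row.mk (nat_lit 30744) (nat_lit 23375) (nat_lit 595437181382) (nat_lit 23562) (nat_lit 1433460622) (nat_lit 29920) (nat_lit 3694452325289),Row.mk (nat_lit 30912) (nat_lit 23188) (nat_lit 595069807098) (nat_lit 23375) (nat_lit 1800834906) (nat_lit 29733) (nat_lit 4733262336658),Row.mk (nat_lit 31080) (nat_lit 23001) (nat_lit 594610965480) (nat_lit 23188) (nat_lit 2259676524) (nat_lit 29546) (nat_lit 6030710980807),Row.mk (nat_lit 31248) (nat_lit 22814) (nat_lit 594037883369) (nat_lit 23001) (nat_lit 2832758635) (nat_lit 29359) (nat_lit 7651193037951),Row.mk (nat_lit 31416) (nat_lit 22627) (nat_lit 593322117636) (nat_lit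 22814) (nat_lit 3548524368) (nat_lit 29172) (nat_lit 9675136035131),Row.mk (nat_lit 31584) (nat_lit 22440) (nat_lit 592428143503) (nat_lit 22627) (nat_lit 4442498501) (nat_lit 28985) (nat_lit 12202992013402),Row.mk (nat_lit 31752) (nat_lit 22253) (nat_lit 591311591377) (nat_lit 22440) (nat_lit 5559050627) (nat_lit 28798) (nat_lit 15360223148757),Row.mk (nat_lit 31920) (nat_lit 22066) (nat_lit 589917044708) (nat_lit 22253) (nat_lit 6953597296) (nat_lit 28611) (nat_lit 19303528672386),Row.mk (nat_lit 32088) (nat_lit 21879) (nat_lit 588175289559) (nat_lit 22066) (nat_lit 8695352445) (nat_lit 28424) (nat_lit 24228622143865),Row.mk (nat_lit 32256) (nat_lit 21692) (nat_lit 585999879396) (nat_lit 21879) (nat_lit 10870762608) (nat_lit 28237) (nat_lit 30379945077748),Row.mk (nat_lit 32424) (nat_lit 21505) (nat_lit 583282844581) (nat_lit 21692) (nat_lit 13587797423) (nat_lit 28050) (nat_lit 38062799028850),Row.mk (nat_lit 32592) (nat_lit 21318)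 (nat_lit 579889333643) (nat_lit 21505) (nat_lit 16981308361) (nat_lit 27863) (nat_lit 47658498274105),Row.mk (nat_lit 32760) (nat_lit 21131) (nat_lit 575650920346) (nat_lit 21318) (nat_lit 21219721658) (nat_lit 27676) (nat_lit 59643295146650),Row.mk (nat_lit 32928) (nat_lit 20944) (nat_lit 570357244385) (nat_lit 21131) (nat_lit 26513397619) (nat_lit 27489) (nat_lit 74612017321552),Row.mk (nat_lit 33096) (nat_lit 32912) (nat_lit 118999372397) (nat_lit 62084) (nat_lit 93666478889896) (nat_lit 0) (nat_lit 0),Row.mk (nat_lit 33264) (nat_lit 32912) (nat_lit 118999372397) (nat_lit 62084) (nat_lit 117016798426038) (nat_lit 0) (nat_lit 0)],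
[Row.mk (nat_lit 18144) (nat_lit 32912) (nat_lit 8627843) (nat_lit 61897) (nat_lit 148608479629) (nat_lit 0) (nat_lit 0),Row.mk (nat_lit 18312) (nat_lit 32912) (nat_lit 8687407) (nat_lit 61897) (nat_lit 148608479629) (nat_lit 0) (nat_lit 0),Row.mk (nat_lit 18480) (nat_lit 32912) (nat_lit 8761800) (nat_lit 61897) (nat_lit 148608479629) (nat_lit 0) (nat_lit 0),Row.mk (nat_lit 18648) (nat_lit 32912) (nat_lit 8854716) (nat_lit 61897) (nat_lit 148608479629) (nat_lit 0) (nat_lit 0),Row.mk (nat_lit 18816) (nat_lit 32912) (nat_lit 8970766) (nat_lit 61897) (nat_lit 148608479629) (nat_lit 0) (nat_lit 0),Row.mk (nat_lit 18984) (nat_lit 32912) (nat_lit 9115710) (nat_lit 61897) (nat_lit 148608479629) (nat_lit 0) (nat_lit 0),Row.mk (nat_lit 19152) (nat_lit 32912) (nat_lit 9296740) (nat_lit 61897) (nat_lit 148608479629) (nat_lit 0) (nat_lit 0),Row.mk (nat_lit 19320) (nat_lit 32912) (nat_lit 9522844) (nat_lit 61897) (nat_lit 148608479629) (nat_lit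 0) (nat_lit 0),Row.mk (nat_lit 19488) (nat_lit 32912) (nat_lit 9805241) (nat_lit 61897) (nat_lit 148608479629) (nat_lit 0) (nat_lit 0),Row.mk (nat_lit 19656) (nat_lit 32912) (nat_lit 10157949) (nat_lit 61897) (nat_lit 148608479629) (nat_lit 0) (nat_lit 0),Row.mk (nat_lit 19824) (nat_lit 32912) (nat_lit 10598472) (nat_lit 61897) (nat_lit 148608479629) (nat_lit 0) (nat_lit 0),Row.mk (nat_lit 19992) (nat_lit 32912) (nat_lit 11148675) (nat_lit 61897) (nat_lit 148608479629) (nat_lit 0) (nat_lit 0),Row.mk (nat_lit 20160) (nat_lit 32912) (nat_lit 11835865) (nat_lit 61897) (nat_lit 148608479629) (nat_lit 0) (nat_lit 0),Row.mk (nat_lit 20328) (nat_lit 32912) (nat_lit 12694149) (nat_lit 61897) (nat_lit 148608479629) (nat_lit 0) (nat_lit 0),Row.mk (nat_lit 20496) (nat_lit 32912) (nat_lit 13766125) (nat_lit 61897) (nat_lit 148608479629) (nat_lit 0) (nat_lit 0),Row.mk (nat_lit 20664) (nat_lit 32912) (nat_lit 15104997) (nat_lit 61897) (nat_lit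 148608479629) (nat_lit 0) (nat_lit 0),Row.mk (nat_lit 20832) (nat_lit 32912) (nat_lit 16777216) (nat_lit 61897) (nat_lit 148608479629) (nat_lit 0) (nat_lit 0),Row.mk (nat_lit 21000) (nat_lit 32912) (nat_lit 18865777) (nat_lit 61897) (nat_lit 148606391068) (nat_lit 0) (nat_lit 0),Row.mk (nat_lit 21168) (nat_lit 32912) (nat_lit 21474339) (nat_lit 61897) (nat_lit 148603782505) (nat_lit 0) (nat_lit 0),Row.mk (nat_lit 21336) (nat_lit 32912) (nat_lit 24732370) (nat_lit 61897) (nat_lit 148600524474) (nat_lit 0) (nat_lit 0),Row.mk (nat_lit 21504) (nat_lit 32912) (nat_lit 28801573) (nat_lit 61897) (nat_lit 148596455271) (nat_lit 0) (nat_lit 0),Row.mk (nat_lit 21672) (nat_lit 32912) (nat_lit 33883909) (nat_lit 61897) (nat_lit 148591372935) (nat_lit 0) (nat_lit 0),Row.mk (nat_lit 21840) (nat_lit 32912) (nat_lit 40231624) (nat_lit 61897) (nat_lit 148585025220) (nat_lit 0) (nat_lit 0),Row.mk (nat_lit 22008) (nat_lit 32912) (nat_lit 48159767) (nat_lit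 61897) (nat_lit 148577097077) (nat_lit 0) (nat_lit 0),Row.mk (nat_lit 22176) (nat_lit 32912) (nat_lit 58061826) (nat_lit 61897) (nat_lit 148567195018) (nat_lit 0) (nat_lit 0),Row.mk (nat_lit 22344) (nat_lit 32912) (nat_lit 70429259) (nat_lit 61897) (nat_lit 148554827585) (nat_lit 0) (nat_lit 0),Row.mk (nat_lit 22512) (nat_lit 32912) (nat_lit 85875885) (nat_lit 61897) (nat_lit 148539380959) (nat_lit 0) (nat_lit 0),Row.mk (nat_lit 22680) (nat_lit 32912) (nat_lit 105168348) (nat_lit 61897) (nat_lit 148520088497) (nat_lit 0) (nat_lit 0),Row.mk (nat_lit 22848) (nat_lit 32912) (nat_lit 129264168) (nat_lit 61897) (nat_lit 148495992676) (nat_lit 0) (nat_lit 0),Row.mk (nat_lit 23016) (nat_lit 32912) (nat_lit 159359267) (nat_lit 61897) (nat_lit 148465897577) (nat_lit 0) (nat_lit 0),Row.mk (nat_lit 23184) (nat_lit 0) (nat_lit 903814925) (nat_lit 187) (nat_lit 122103470617) (nat_lit 748) (nat_lit 25798141406),Row.mk (nat_lit 23352) (nat_lit 561)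 (nat_lit 1139320207) (nat_lit 748) (nat_lit 127397146578) (nat_lit 1309) (nat_lit 20315906733),Row.mk (nat_lit 23520) (nat_lit 1122) (nat_lit 1433460622) (nat_lit 1309) (nat_lit 131635559875) (nat_lit 1870) (nat_lit 15841988154),Row.mk (nat_lit 23688) (nat_lit 1683) (nat_lit 1800834906) (nat_lit 1870) (nat_lit 135029070814) (nat_lit 2431) (nat_lit 12154336800),Row.mk (nat_lit 23856) (nat_lit 2244) (nat_lit 2259676524) (nat_lit 2431) (nat_lit 137746105628) (nat_lit 2992) (nat_lit 9069927702),Row.mk (nat_lit 24024) (nat_lit 2805) (nat_lit 2832758635) (nat_lit 2992) (nat_lit 139921515791) (nat_lit 3553) (nat_lit 6435675921),Row.mk (nat_lit 24192) (nat_lit 3366) (nat_lit 3548524368) (nat_lit 3553) (nat_lit 141663270940) (nat_lit 4114) (nat_lit 4120838660),Row.mk (nat_lit 24360) (nat_lit 3927) (nat_lit 4442498501) (nat_lit 4114) (nat_lit 143057817609) (nat_lit 4675) (nat_lit 2010526258),Row.mk (nat_lit 24528) (nat_lit 4488) (nat_lit 5559050627)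 (nat_lit 4675) (nat_lit 144174369735) (nat_lit 0) (nat_lit 0),Row.mk (nat_lit 24696) (nat_lit 4488) (nat_lit 2511098795) (nat_lit 5049) (nat_lit 4442498501) (nat_lit 5236) (nat_lit 143057817609),Row.mk (nat_lit 24864) (nat_lit 5049) (nat_lit 5146828077) (nat_lit 5610) (nat_lit 3548524368) (nat_lit 5797) (nat_lit 141663270940),Row.mk (nat_lit 25032) (nat_lit 5610) (nat_lit 8038003972) (nat_lit 6171) (nat_lit 2832758635) (nat_lit 6358) (nat_lit 139921515791),Row.mk (nat_lit 25200) (nat_lit 6171) (nat_lit 11328120898) (nat_lit 6732) (nat_lit 2259676524) (nat_lit 6919) (nat_lit 137746105628),Row.mk (nat_lit 25368) (nat_lit 6732) (nat_lit 15180473454) (nat_lit 7293) (nat_lit 1800834906) (nat_lit 7480) (nat_lit 135029070814),Row.mk (nat_lit 25536) (nat_lit 7293) (nat_lit 19786261035) (nat_lit 7854) (nat_lit 1433460622) (nat_lit 8041) (nat_lit 131635559875),Row.mk (nat_lit 25704) (nat_lit 7854) (nat_lit 25374077412) (nat_lit 8415) (nat_lit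 1139320207) (nat_lit 8602) (nat_lit 127397146578),Row.mk (nat_lit 25872) (nat_lit 8415) (nat_lit 32221256267) (nat_lit 8976) (nat_lit 903814925) (nat_lit 9163) (nat_lit 122103470617),Row.mk (nat_lit 26040) (nat_lit 8976) (nat_lit 40667635771) (nat_lit 9537) (nat_lit 715256213) (nat_lit 9724) (nat_lit 115491797044),Row.mk (nat_lit 26208) (nat_lit 9537) (nat_lit 51132425391) (nat_lit 10098) (nat_lit 564285554) (nat_lit 10285) (nat_lit 107233976251),Row.mk (nat_lit 26376) (nat_lit 10098) (nat_lit 64135012025) (nat_lit 10659) (nat_lit 443409993) (nat_lit 10846) (nat_lit 96920157291),Row.mk (nat_lit 26544) (nat_lit 10659) (nat_lit 80320738140) (nat_lit 11220) (nat_lit 346630253) (nat_lit 11407) (nat_lit 84038446217),Row.mk (nat_lit 26712) (nat_lit 11220) (nat_lit 100492931312) (nat_lit 11781) (nat_lit 269142976) (nat_lit 11968) (nat_lit 67949499843),Row.mk (nat_lit 26880) (nat_lit 11781) (nat_lit 125652774866) (nat_lit 12529) (nat_lit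 207102324) (nat_lit 12716) (nat_lit 47854793948),Row.mk (nat_lit 27048) (nat_lit 12529) (nat_lit 157048998455) (nat_lit 13277) (nat_lit 157429105) (nat_lit 13464) (nat_lit 22756991045),Row.mk (nat_lit 27216) (nat_lit 12342) (nat_lit 10581200446) (nat_lit 13090) (nat_lit 146951936) (nat_lit 13277) (nat_lit 177039801068),Row.mk (nat_lit 27384) (nat_lit 13090) (nat_lit 59519732565) (nat_lit 13838) (nat_lit 107180777) (nat_lit 14025) (nat_lit 137888715853),Row.mk (nat_lit 27552) (nat_lit 13838) (nat_lit 120624948397) (nat_lit 14960) (nat_lit 75337761) (nat_lit 15147) (nat_lit 88989954893),Row.mk (nat_lit 27720) (nat_lit 14960) (nat_lit 196929613022) (nat_lit 16269) (nat_lit 49842459) (nat_lit 16456) (nat_lit 27916582078),Row.mk (nat_lit 27888) (nat_lit 14773) (nat_lit 60366948050) (nat_lit 16082) (nat_lit 36756728) (nat_lit 16269) (nat_lit 183484005799),Row.mk (nat_lit 28056) (nat_lit 16082) (nat_lit 179378344805) (nat_lit 17578) (nat_lit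 16343762) (nat_lit 17765) (nat_lit 88213163458),Row.mk (nat_lit 28224) (nat_lit 15895) (nat_lit 38440755114) (nat_lit 17578) (nat_lit 258792981359) (nat_lit 0) (nat_lit 0),Row.mk (nat_lit 28392) (nat_lit 17391) (nat_lit 224059638338) (nat_lit 17578) (nat_lit 16343762) (nat_lit 19635) (nat_lit 110159769359),Row.mk (nat_lit 28560) (nat_lit 17204) (nat_lit 94226199890) (nat_lit 17391) (nat_lit 36756728) (nat_lit 19448) (nat_lit 286187418931),Row.mk (nat_lit 28728) (nat_lit 19261) (nat_lit 383780657817) (nat_lit 19448) (nat_lit 49842459) (nat_lit 25806) (nat_lit 54340825887),Row.mk (nat_lit 28896) (nat_lit 19074) (nat_lit 293713900140) (nat_lit 19261) (nat_lit 75337761) (nat_lit 25619) (nat_lit 216474163131),Row.mk (nat_lit 29064) (nat_lit 18887) (nat_lit 181222692554) (nat_lit 19074) (nat_lit 107180777) (nat_lit 25432) (nat_lit 418974790076),Row.mk (nat_lit 29232) (nat_lit 18700) (nat_lit 40723887996) (nat_lit 18887) (nat_lit 146951936)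 (nat_lit 25245) (nat_lit 671893188045),Row.mk (nat_lit 29400) (nat_lit 25058) (nat_lit 745330081136) (nat_lit 25245) (nat_lit 157429105) (nat_lit 31603) (nat_lit 107735551135),Row.mk (nat_lit 29568) (nat_lit 24871) (nat_lit 745280407917) (nat_lit 25058) (nat_lit 207102324) (nat_lit 31416) (nat_lit 283165495444),Row.mk (nat_lit 29736) (nat_lit 24684) (nat_lit 745218367266) (nat_lit 24871) (nat_lit 269142976) (nat_lit 31229) (nat_lit 502273263849),Row.mk (nat_lit 29904) (nat_lit 24497) (nat_lit 745140879988) (nat_lit 24684) (nat_lit 346630253) (nat_lit 31042) (nat_lit 775933580873),Row.mk (nat_lit 30072) (nat_lit 24310) (nat_lit 745044100248) (nat_lit 24497) (nat_lit 443409993) (nat_lit 30855) (nat_lit 1117728715108),Row.mk (nat_lit 30240) (nat_lit 24123) (nat_lit 744923224687) (nat_lit 24310) (nat_lit 564285554) (nat_lit 30668) (nat_lit 1544622592369),Row.mk (nat_lit 30408) (nat_lit 23936) (nat_lit 744772254028) (nat_lit 24123) (nat_lit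 715256213) (nat_lit 30481) (nat_lit 2077802746762),Row.mk (nat_lit 30576) (nat_lit 23749) (nat_lit 744583695317) (nat_lit 23936) (nat_lit 903814925) (nat_lit 30294) (nat_lit 2743731897266),Row.mk (nat_lit 30744) (nat_lit 23562) (nat_lit 744348190035) (nat_lit 23749) (nat_lit 1139320207) (nat_lit 30107) (nat_lit 3575461341500),Row.mk (nat_lit 30912) (nat_lit 23375) (nat_lit 744054049619) (nat_lit 23562) (nat_lit 1433460622) (nat_lit 29920) (nat_lit 4614271352869),Row.mk (nat_lit 31080) (nat_lit 23188) (nat_lit 743686675335) (nat_lit 23375) (nat_lit 1800834906) (nat_lit 29733) (nat_lit 5911719997018),Row.mk (nat_lit 31248) (nat_lit 23001) (nat_lit 743227833717) (nat_lit 23188) (nat_lit 2259676524) (nat_lit 29546) (nat_lit 7532202054162),Row.mk (nat_lit 31416) (nat_lit 22814) (nat_lit 742654751606) (nat_lit 23001) (nat_lit 2832758635) (nat_lit 29359) (nat_lit 9556145051342),Row.mk (nat_lit 31584) (nat_lit 22627) (nat_lit 741938985873)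 (nat_lit 22814) (nat_lit 3548524368) (nat_lit 29172) (nat_lit 12084001029613),Row.mk (nat_lit 31752) (nat_lit 22440) (nat_lit 741045011740) (nat_lit 22627) (nat_lit 4442498501) (nat_lit 28985) (nat_lit 15241232164968),Row.mk (nat_lit 31920) (nat_lit 22253) (nat_lit 739928459615) (nat_lit 22440) (nat_lit 5559050627) (nat_lit 28798) (nat_lit 19184537688597),Row.mk (nat_lit 32088) (nat_lit 22066) (nat_lit 738533912945) (nat_lit 22253) (nat_lit 6953597296) (nat_lit 28611) (nat_lit 24109631160076),Row.mk (nat_lit 32256) (nat_lit 21879) (nat_lit 736792157796) (nat_lit 22066) (nat_lit 8695352445) (nat_lit 28424) (nat_lit 30260954093958),Row.mk (nat_lit 32424) (nat_lit 21692) (nat_lit 734616747633) (nat_lit 21879) (nat_lit 10870762608) (nat_lit 28237) (nat_lit 37943808045061),Row.mk (nat_lit 32592) (nat_lit 21505) (nat_lit 731899712819) (nat_lit 21692) (nat_lit 13587797423) (nat_lit 28050) (nat_lit 47539507290316),Row.mk (nat_lit 32760) (nat_lit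 21318) (nat_lit 728506201881) (nat_lit 21505) (nat_lit 16981308361) (nat_lit 27863) (nat_lit 59524304162861),Row.mk (nat_lit 32928) (nat_lit 21131) (nat_lit 724267788583) (nat_lit 21318) (nat_lit 21219721658) (nat_lit 27676) (nat_lit 74493026337763),Row.mk (nat_lit 33096) (nat_lit 20944) (nat_lit 718974112622) (nat_lit 21131) (nat_lit 26513397619) (nat_lit 27489) (nat_lit 93188599231680),Row.mk (nat_lit 33264) (nat_lit 32912) (nat_lit 148625256845) (nat_lit 62084) (nat_lit 116987172541590) (nat_lit 0) (nat_lit 0),Row.mk (nat_lit 33432) (nat_lit 32912) (nat_lit 148625256845) (nat_lit 62084) (nat_lit 146151158343673) (nat_lit 0) (nat_lit 0)],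
[Row.mk (nat_lit 18312) (nat_lit 32912) (nat_lit 8687407) (nat_lit 61897) (nat_lit 185610494615) (nat_lit 0) (nat_lit 0),Row.mk (nat_lit 18480) (nat_lit 32912) (nat_lit 8761800) (nat_lit 61897) (nat_lit 185610494615) (nat_lit 0) (nat_lit 0),Row.mk (nat_lit 18648) (nat_lit 32912) (nat_lit 8854716) (nat_lit 61897) (nat_lit 185610494615) (nat_lit 0) (nat_lit 0),Row.mk (nat_lit 18816) (nat_lit 32912) (nat_lit 8970766) (nat_lit 61897) (nat_lit 185610494615) (nat_lit 0) (nat_lit 0),Row.mk (nat_lit 18984) (nat_lit 32912) (nat_lit 9115710) (nat_lit 61897) (nat_lit 185610494615) (nat_lit 0) (nat_lit 0),Row.mk (nat_lit 19152) (nat_lit 32912) (nat_lit 9296740) (nat_lit 61897) (nat_lit 185610494615) (nat_lit 0) (nat_lit 0),Row.mk (nat_lit 19320) (nat_lit 32912) (nat_lit 9522844) (nat_lit 61897) (nat_lit 185610494615) (nat_lit 0) (nat_lit 0),Row.mk (nat_lit 19488) (nat_lit 32912) (nat_lit 9805241) (nat_lit 61897) (nat_lit 185610494615) (nat_lit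 0) (nat_lit 0),Row.mk (nat_lit 19656) (nat_lit 32912) (nat_lit 10157949) (nat_lit 61897) (nat_lit 185610494615) (nat_lit 0) (nat_lit 0),Row.mk (nat_lit 19824) (nat_lit 32912) (nat_lit 10598472) (nat_lit 61897) (nat_lit 185610494615) (nat_lit 0) (nat_lit 0),Row.mk (nat_lit 19992) (nat_lit 32912) (nat_lit 11148675) (nat_lit 61897) (nat_lit 185610494615) (nat_lit 0) (nat_lit 0),Row.mk (nat_lit 20160) (nat_lit 32912) (nat_lit 11835865) (nat_lit 61897) (nat_lit 185610494615) (nat_lit 0) (nat_lit 0),Row.mk (nat_lit 20328) (nat_lit 32912) (nat_lit 12694149) (nat_lit 61897) (nat_lit 185610494615) (nat_lit 0) (nat_lit 0),Row.mk (nat_lit 20496) (nat_lit 32912) (nat_lit 13766125) (nat_lit 61897) (nat_lit 185610494615) (nat_lit 0) (nat_lit 0),Row.mk (nat_lit 20664) (nat_lit 32912) (nat_lit 15104997) (nat_lit 61897) (nat_lit 185610494615) (nat_lit 0) (nat_lit 0),Row.mk (nat_lit 20832) (nat_lit 32912) (nat_lit 16777216) (nat_lit 61897) (nat_lit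 185610494615) (nat_lit 0) (nat_lit 0),Row.mk (nat_lit 21000) (nat_lit 32912) (nat_lit 18865777) (nat_lit 61897) (nat_lit 185608406054) (nat_lit 0) (nat_lit 0),Row.mk (nat_lit 21168) (nat_lit 32912) (nat_lit 21474339) (nat_lit 61897) (nat_lit 185605797492) (nat_lit 0) (nat_lit 0),Row.mk (nat_lit 21336) (nat_lit 32912) (nat_lit 24732370) (nat_lit 61897) (nat_lit 185602539461) (nat_lit 0) (nat_lit 0),Row.mk (nat_lit 21504) (nat_lit 32912) (nat_lit 28801573) (nat_lit 61897) (nat_lit 185598470258) (nat_lit 0) (nat_lit 0),Row.mk (nat_lit 21672) (nat_lit 32912) (nat_lit 33883909) (nat_lit 61897) (nat_lit 185593387922) (nat_lit 0) (nat_lit 0),Row.mk (nat_lit 21840) (nat_lit 32912) (nat_lit 40231624) (nat_lit 61897) (nat_lit 185587040207) (nat_lit 0) (nat_lit 0),Row.mk (nat_lit 22008) (nat_lit 32912) (nat_lit 48159767) (nat_lit 61897) (nat_lit 185579112064) (nat_lit 0) (nat_lit 0),Row.mk (nat_lit 22176) (nat_lit 32912) (nat_lit 58061826) (nat_lit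 61897) (nat_lit 185569210005) (nat_lit 0) (nat_lit 0),Row.mk (nat_lit 22344) (nat_lit 32912) (nat_lit 70429259) (nat_lit 61897) (nat_lit 185556842572) (nat_lit 0) (nat_lit 0),Row.mk (nat_lit 22512) (nat_lit 32912) (nat_lit 85875885) (nat_lit 61897) (nat_lit 185541395946) (nat_lit 0) (nat_lit 0),Row.mk (nat_lit 22680) (nat_lit 32912) (nat_lit 105168348) (nat_lit 61897) (nat_lit 185522103483) (nat_lit 0) (nat_lit 0),Row.mk (nat_lit 22848) (nat_lit 32912) (nat_lit 129264168) (nat_lit 61897) (nat_lit 185498007663) (nat_lit 0) (nat_lit 0),Row.mk (nat_lit 23016) (nat_lit 32912) (nat_lit 159359267) (nat_lit 61897) (nat_lit 185467912564) (nat_lit 0) (nat_lit 0),Row.mk (nat_lit 23184) (nat_lit 32912) (nat_lit 196947319) (nat_lit 61897) (nat_lit 185430324512) (nat_lit 0) (nat_lit 0),Row.mk (nat_lit 23352) (nat_lit 0) (nat_lit 1139320207) (nat_lit 187) (nat_lit 159105485603) (nat_lit 748) (nat_lit 25609582694),Row.mk (nat_lit 23520) (nat_lit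 561) (nat_lit 1433460622) (nat_lit 748) (nat_lit 164399161565) (nat_lit 1309) (nat_lit 20080401451),Row.mk (nat_lit 23688) (nat_lit 1122) (nat_lit 1800834906) (nat_lit 1309) (nat_lit 168637574862) (nat_lit 1870) (nat_lit 15547847738),Row.mk (nat_lit 23856) (nat_lit 1683) (nat_lit 2259676524) (nat_lit 1870) (nat_lit 172031085800) (nat_lit 2431) (nat_lit 11786962516),Row.mk (nat_lit 24024) (nat_lit 2244) (nat_lit 2832758635) (nat_lit 2431) (nat_lit 174748120615) (nat_lit 2992) (nat_lit 8611086084),Row.mk (nat_lit 24192) (nat_lit 2805) (nat_lit 3548524368) (nat_lit 2992) (nat_lit 176923530778) (nat_lit 3553) (nat_lit 5862593809),Row.mk (nat_lit 24360) (nat_lit 3366) (nat_lit 4442498501) (nat_lit 3553) (nat_lit 178665285926) (nat_lit 4114) (nat_lit 3405072928),Row.mk (nat_lit 24528) (nat_lit 3927) (nat_lit 5559050627) (nat_lit 4114) (nat_lit 180059832596) (nat_lit 4675) (nat_lit 1116552125),Row.mk (nat_lit 24696) (nat_lit 3927) (nat_lit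 1394546669) (nat_lit 4488) (nat_lit 5559050627) (nat_lit 4675) (nat_lit 180059832596),Row.mk (nat_lit 24864) (nat_lit 4488) (nat_lit 4252853944) (nat_lit 5049) (nat_lit 4442498501) (nat_lit 5236) (nat_lit 178665285926),Row.mk (nat_lit 25032) (nat_lit 5049) (nat_lit 7322238240) (nat_lit 5610) (nat_lit 3548524368) (nat_lit 5797) (nat_lit 176923530778),Row.mk (nat_lit 25200) (nat_lit 5610) (nat_lit 10755038787) (nat_lit 6171) (nat_lit 2832758635) (nat_lit 6358) (nat_lit 174748120615),Row.mk (nat_lit 25368) (nat_lit 6171) (nat_lit 14721631836) (nat_lit 6732) (nat_lit 2259676524) (nat_lit 6919) (nat_lit 172031085800),Row.mk (nat_lit 25536) (nat_lit 6732) (nat_lit 19418886751) (nat_lit 7293) (nat_lit 1800834906) (nat_lit 7480) (nat_lit 168637574862),Row.mk (nat_lit 25704) (nat_lit 7293) (nat_lit 25079936996) (nat_lit 7854) (nat_lit 1433460622) (nat_lit 8041) (nat_lit 164399161565),Row.mk (nat_lit 25872) (nat_lit 7854) (nat_lit 31985750985)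 (nat_lit 8415) (nat_lit 1139320207) (nat_lit 8602) (nat_lit 159105485603),Row.mk (nat_lit 26040) (nat_lit 8415) (nat_lit 40479077060) (nat_lit 8976) (nat_lit 903814925) (nat_lit 9163) (nat_lit 152493812031),Row.mk (nat_lit 26208) (nat_lit 8976) (nat_lit 50981454732) (nat_lit 9537) (nat_lit 715256213) (nat_lit 9724) (nat_lit 144235991238),Row.mk (nat_lit 26376) (nat_lit 9537) (nat_lit 64014136464) (nat_lit 10098) (nat_lit 564285554) (nat_lit 10285) (nat_lit 133922172277),Row.mk (nat_lit 26544) (nat_lit 10098) (nat_lit 80223958400) (nat_lit 10659) (nat_lit 443409993) (nat_lit 10846) (nat_lit 121040461204),Row.mk (nat_lit 26712) (nat_lit 10659) (nat_lit 100415444035) (nat_lit 11220) (nat_lit 346630253) (nat_lit 11407) (nat_lit 104951514830),Row.mk (nat_lit 26880) (nat_lit 11220) (nat_lit 125590734215) (nat_lit 11781) (nat_lit 269142976) (nat_lit 11968) (nat_lit 84856808934),Row.mk (nat_lit 27048) (nat_lit 11781) (nat_lit 156999325237)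 (nat_lit 12529) (nat_lit 207102324) (nat_lit 12716) (nat_lit 59759006032),Row.mk (nat_lit 27216) (nat_lit 12529) (nat_lit 196200083670) (nat_lit 13277) (nat_lit 157429105) (nat_lit 13464) (nat_lit 28412455662),Row.mk (nat_lit 27384) (nat_lit 12342) (nat_lit 13265337317) (nat_lit 13090) (nat_lit 146951936) (nat_lit 13277) (nat_lit 221105354929),Row.mk (nat_lit 27552) (nat_lit 13090) (nat_lit 74378481291) (nat_lit 13838) (nat_lit 107180777) (nat_lit 14025) (nat_lit 172206593969),Row.mk (nat_lit 27720) (nat_lit 13838) (nat_lit 150689493631) (nat_lit 14960) (nat_lit 75337761) (nat_lit 15147) (nat_lit 111133221154),Row.mk (nat_lit 27888) (nat_lit 14960) (nat_lit 245985831274) (nat_lit 16269) (nat_lit 49842459) (nat_lit 16456) (nat_lit 34854051831),Row.mk (nat_lit 28056) (nat_lit 14773) (nat_lit 75422357136) (nat_lit 16082) (nat_lit 36756728) (nat_lit 16269) (nat_lit 229150753148),Row.mk (nat_lit 28224) (nat_lit 16082) (nat_lit 224059638338)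 (nat_lit 17578) (nat_lit 16343762) (nat_lit 17765) (nat_lit 110159769359),Row.mk (nat_lit 28392) (nat_lit 15895) (nat_lit 48031988766) (nat_lit 17578) (nat_lit 323205777681) (nat_lit 0) (nat_lit 0),Row.mk (nat_lit 28560) (nat_lit 17391) (nat_lit 279865496079) (nat_lit 17578) (nat_lit 16343762) (nat_lit 19635) (nat_lit 137570550694),Row.mk (nat_lit 28728) (nat_lit 17204) (nat_lit 117711745869) (nat_lit 17391) (nat_lit 36756728) (nat_lit 19448) (nat_lit 357424838553),Row.mk (nat_lit 28896) (nat_lit 19261) (nat_lit 479358278665) (nat_lit 19448) (nat_lit 49842459) (nat_lit 25806) (nat_lit 67857294894),Row.mk (nat_lit 29064) (nat_lit 19074) (nat_lit 366873418795) (nat_lit 19261) (nat_lit 75337761) (nat_lit 25619) (nat_lit 270357921839),Row.mk (nat_lit 29232) (nat_lit 18887) (nat_lit 226382542379) (nat_lit 19074) (nat_lit 107180777) (nat_lit 25432) (nat_lit 523276319808),Row.mk (nat_lit 29400) (nat_lit 18700) (nat_lit 50912826910) (nat_lit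 18887) (nat_lit 146951936) (nat_lit 25245) (nat_lit 839165297516),Row.mk (nat_lit 29568) (nat_lit 25058) (nat_lit 930948964360) (nat_lit 25245) (nat_lit 157429105) (nat_lit 31603) (nat_lit 134548627207),Row.mk (nat_lit 29736) (nat_lit 24871) (nat_lit 930899291141) (nat_lit 25058) (nat_lit 207102324) (nat_lit 31416) (nat_lit 353656395612),Row.mk (nat_lit 29904) (nat_lit 24684) (nat_lit 930837250489) (nat_lit 24871) (nat_lit 269142976) (nat_lit 31229) (nat_lit 627316712636),Row.mk (nat_lit 30072) (nat_lit 24497) (nat_lit 930759763212) (nat_lit 24684) (nat_lit 346630253) (nat_lit 31042) (nat_lit 969111846871),Row.mk (nat_lit 30240) (nat_lit 24310) (nat_lit 930662983472) (nat_lit 24497) (nat_lit 443409993) (nat_lit 30855) (nat_lit 1396005724132),Row.mk (nat_lit 30408) (nat_lit 24123) (nat_lit 930542107911) (nat_lit 24310) (nat_lit 564285554) (nat_lit 30668) (nat_lit 1929185878525),Row.mk (nat_lit 30576) (nat_lit 23936) (nat_lit 930391137252)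 (nat_lit 24123) (nat_lit 715256213) (nat_lit 30481) (nat_lit 2595115029029),Row.mk (nat_lit 30744) (nat_lit 23749) (nat_lit 930202578540) (nat_lit 23936) (nat_lit 903814925) (nat_lit 30294) (nat_lit 3426844473262),Row.mk (nat_lit 30912) (nat_lit 23562) (nat_lit 929967073259) (nat_lit 23749) (nat_lit 1139320207) (nat_lit 30107) (nat_lit 4465654484631),Row.mk (nat_lit 31080) (nat_lit 23375) (nat_lit 929672932843) (nat_lit 23562) (nat_lit 1433460622) (nat_lit 29920) (nat_lit 5763103128781),Row.mk (nat_lit 31248) (nat_lit 23188) (nat_lit 929305558559) (nat_lit 23375) (nat_lit 1800834906) (nat_lit 29733) (nat_lit 7383585185925),Row.mk (nat_lit 31416) (nat_lit 23001) (nat_lit 928846716941) (nat_lit 23188) (nat_lit 2259676524) (nat_lit 29546) (nat_lit 9407528183105),Row.mk (nat_lit 31584) (nat_lit 22814) (nat_lit 928273634830) (nat_lit 23001) (nat_lit 2832758635) (nat_lit 29359) (nat_lit 11935384161375),Row.mk (nat_lit 31752) (nat_lit 22627)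 (nat_lit 927557869097) (nat_lit 22814) (nat_lit 3548524368) (nat_lit 29172) (nat_lit 15092615296730),Row.mk (nat_lit 31920) (nat_lit 22440) (nat_lit 926663894964) (nat_lit 22627) (nat_lit 4442498501) (nat_lit 28985) (nat_lit 19035920820360),Row.mk (nat_lit 32088) (nat_lit 22253) (nat_lit 925547342838) (nat_lit 22440) (nat_lit 5559050627) (nat_lit 28798) (nat_lit 23961014291839),Row.mk (nat_lit 32256) (nat_lit 22066) (nat_lit 924152796169) (nat_lit 22253) (nat_lit 6953597296) (nat_lit 28611) (nat_lit 30112337225721),Row.mk (nat_lit 32424) (nat_lit 21879) (nat_lit 922411041020) (nat_lit 22066) (nat_lit 8695352445) (nat_lit 28424) (nat_lit 37795191176824),Row.mk (nat_lit 32592) (nat_lit 21692) (nat_lit 920235630857) (nat_lit 21879) (nat_lit 10870762608) (nat_lit 28237) (nat_lit 47390890422079),Row.mk (nat_lit 32760) (nat_lit 21505) (nat_lit 917518596042) (nat_lit 21692) (nat_lit 13587797423) (nat_lit 28050) (nat_lit 59375687294623),Row.mk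 (nat_lit 32928) (nat_lit 21318) (nat_lit 914125085104) (nat_lit 21505) (nat_lit 16981308361) (nat_lit 27863) (nat_lit 74344409469526),Row.mk (nat_lit 33096) (nat_lit 21131) (nat_lit 909886671807) (nat_lit 21318) (nat_lit 21219721658) (nat_lit 27676) (nat_lit 93039982363442),Row.mk (nat_lit 33264) (nat_lit 20944) (nat_lit 904592995846) (nat_lit 21131) (nat_lit 26513397619) (nat_lit 27489) (nat_lit 116390301899585),Row.mk (nat_lit 33432) (nat_lit 32912) (nat_lit 185627271831) (nat_lit 62084) (nat_lit 146114156328686) (nat_lit 0) (nat_lit 0),Row.mk (nat_lit 33600) (nat_lit 32912) (nat_lit 185627271831) (nat_lit 62084) (nat_lit 182539271049176) (nat_lit 0) (nat_lit 0)],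
[Row.mk (nat_lit 18480) (nat_lit 32912) (nat_lit 8761800) (nat_lit 61897) (nat_lit 231825118704) (nat_lit 0) (nat_lit 0),Row.mk (nat_lit 18648) (nat_lit 32912) (nat_lit 8854716) (nat_lit 61897) (nat_lit 231825118704) (nat_lit 0) (nat_lit 0),Row.mk (nat_lit 18816) (nat_lit 32912) (nat_lit 8970766) (nat_lit 61897) (nat_lit 231825118704) (nat_lit 0) (nat_lit 0),Row.mk (nat_lit 18984) (nat_lit 32912) (nat_lit 9115710) (nat_lit 61897) (nat_lit 231825118704) (nat_lit 0) (nat_lit 0),Row.mk (nat_lit 19152) (nat_lit 32912) (nat_lit 9296740) (nat_lit 61897) (nat_lit 231825118704) (nat_lit 0) (nat_lit 0),Row.mk (nat_lit 19320) (nat_lit 32912) (nat_lit 9522844) (nat_lit 61897) (nat_lit 231825118704) (nat_lit 0) (nat_lit 0),Row.mk (nat_lit 19488) (nat_lit 32912) (nat_lit 9805241) (nat_lit 61897) (nat_lit 231825118704) (nat_lit 0) (nat_lit 0),Row.mk (nat_lit 19656) (nat_lit 32912) (nat_lit 10157949) (nat_lit 61897) (nat_lit 231825118704) (nat_lit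 0) (nat_lit 0),Row.mk (nat_lit 19824) (nat_lit 32912) (nat_lit 10598472) (nat_lit 61897) (nat_lit 231825118704) (nat_lit 0) (nat_lit 0),Row.mk (nat_lit 19992) (nat_lit 32912) (nat_lit 11148675) (nat_lit 61897) (nat_lit 231825118704) (nat_lit 0) (nat_lit 0),Row.mk (nat_lit 20160) (nat_lit 32912) (nat_lit 11835865) (nat_lit 61897) (nat_lit 231825118704) (nat_lit 0) (nat_lit 0),Row.mk (nat_lit 20328) (nat_lit 32912) (nat_lit 12694149) (nat_lit 61897) (nat_lit 231825118704) (nat_lit 0) (nat_lit 0),Row.mk (nat_lit 20496) (nat_lit 32912) (nat_lit 13766125) (nat_lit 61897) (nat_lit 231825118704) (nat_lit 0) (nat_lit 0),Row.mk (nat_lit 20664) (nat_lit 32912) (nat_lit 15104997) (nat_lit 61897) (nat_lit 231825118704) (nat_lit 0) (nat_lit 0),Row.mk (nat_lit 20832) (nat_lit 32912) (nat_lit 16777216) (nat_lit 61897) (nat_lit 231825118704) (nat_lit 0) (nat_lit 0),Row.mk (nat_lit 21000) (nat_lit 32912) (nat_lit 18865777) (nat_lit 61897) (nat_lit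 231823030143) (nat_lit 0) (nat_lit 0),Row.mk (nat_lit 21168) (nat_lit 32912) (nat_lit 21474339) (nat_lit 61897) (nat_lit 231820421581) (nat_lit 0) (nat_lit 0),Row.mk (nat_lit 21336) (nat_lit 32912) (nat_lit 24732370) (nat_lit 61897) (nat_lit 231817163550) (nat_lit 0) (nat_lit 0),Row.mk (nat_lit 21504) (nat_lit 32912) (nat_lit 28801573) (nat_lit 61897) (nat_lit 231813094347) (nat_lit 0) (nat_lit 0),Row.mk (nat_lit 21672) (nat_lit 32912) (nat_lit 33883909) (nat_lit 61897) (nat_lit 231808012011) (nat_lit 0) (nat_lit 0),Row.mk (nat_lit 21840) (nat_lit 32912) (nat_lit 40231624) (nat_lit 61897) (nat_lit 231801664296) (nat_lit 0) (nat_lit 0),Row.mk (nat_lit 22008) (nat_lit 32912) (nat_lit 48159767) (nat_lit 61897) (nat_lit 231793736153) (nat_lit 0) (nat_lit 0),Row.mk (nat_lit 22176) (nat_lit 32912) (nat_lit 58061826) (nat_lit 61897) (nat_lit 231783834094) (nat_lit 0) (nat_lit 0),Row.mk (nat_lit 22344) (nat_lit 32912) (nat_lit 70429259) (nat_lit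 61897) (nat_lit 231771466661) (nat_lit 0) (nat_lit 0),Row.mk (nat_lit 22512) (nat_lit 32912) (nat_lit 85875885) (nat_lit 61897) (nat_lit 231756020035) (nat_lit 0) (nat_lit 0),Row.mk (nat_lit 22680) (nat_lit 32912) (nat_lit 105168348) (nat_lit 61897) (nat_lit 231736727572) (nat_lit 0) (nat_lit 0),Row.mk (nat_lit 22848) (nat_lit 32912) (nat_lit 129264168) (nat_lit 61897) (nat_lit 231712631752) (nat_lit 0) (nat_lit 0),Row.mk (nat_lit 23016) (nat_lit 32912) (nat_lit 159359267) (nat_lit 61897) (nat_lit 231682536653) (nat_lit 0) (nat_lit 0),Row.mk (nat_lit 23184) (nat_lit 32912) (nat_lit 196947319) (nat_lit 61897) (nat_lit 231644948601) (nat_lit 0) (nat_lit 0),Row.mk (nat_lit 23352) (nat_lit 32912) (nat_lit 243893889) (nat_lit 61897) (nat_lit 231598002030) (nat_lit 0) (nat_lit 0),Row.mk (nat_lit 23520) (nat_lit 0) (nat_lit 1433460622) (nat_lit 187) (nat_lit 205320109692) (nat_lit 748) (nat_lit 25374077412),Row.mk (nat_lit 23688) (nat_lit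 561) (nat_lit 1800834906) (nat_lit 748) (nat_lit 210613785654) (nat_lit 1309) (nat_lit 19786261035),Row.mk (nat_lit 23856) (nat_lit 1122) (nat_lit 2259676524) (nat_lit 1309) (nat_lit 214852198951) (nat_lit 1870) (nat_lit 15180473454),Row.mk (nat_lit 24024) (nat_lit 1683) (nat_lit 2832758635) (nat_lit 1870) (nat_lit 218245709889) (nat_lit 2431) (nat_lit 11328120898),Row.mk (nat_lit 24192) (nat_lit 2244) (nat_lit 3548524368) (nat_lit 2431) (nat_lit 220962744704) (nat_lit 2992) (nat_lit 8038003972),Row.mk (nat_lit 24360) (nat_lit 2805) (nat_lit 4442498501) (nat_lit 2992) (nat_lit 223138154867) (nat_lit 3553) (nat_lit 5146828077),Row.mk (nat_lit 24528) (nat_lit 3366) (nat_lit 5559050627) (nat_lit 3553) (nat_lit 224879910015) (nat_lit 4114) (nat_lit 2511098795),Row.mk (nat_lit 24696) (nat_lit 3927) (nat_lit 6953597296) (nat_lit 4114) (nat_lit 226274456685) (nat_lit 0) (nat_lit 0),Row.mk (nat_lit 24864) (nat_lit 3927) (nat_lit 3136301818)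 (nat_lit 4488) (nat_lit 5559050627) (nat_lit 4675) (nat_lit 224879910015),Row.mk (nat_lit 25032) (nat_lit 4488) (nat_lit 6428264107) (nat_lit 5049) (nat_lit 4442498501) (nat_lit 5236) (nat_lit 223138154867),Row.mk (nat_lit 25200) (nat_lit 5049) (nat_lit 10039273054) (nat_lit 5610) (nat_lit 3548524368) (nat_lit 5797) (nat_lit 220962744704),Row.mk (nat_lit 25368) (nat_lit 5610) (nat_lit 14148549725) (nat_lit 6171) (nat_lit 2832758635) (nat_lit 6358) (nat_lit 218245709889),Row.mk (nat_lit 25536) (nat_lit 6171) (nat_lit 18960045134) (nat_lit 6732) (nat_lit 2259676524) (nat_lit 6919) (nat_lit 214852198951),Row.mk (nat_lit 25704) (nat_lit 6732) (nat_lit 24712562713) (nat_lit 7293) (nat_lit 1800834906) (nat_lit 7480) (nat_lit 210613785654),Row.mk (nat_lit 25872) (nat_lit 7293) (nat_lit 31691610569) (nat_lit 7854) (nat_lit 1433460622) (nat_lit 8041) (nat_lit 205320109692),Row.mk (nat_lit 26040) (nat_lit 7854) (nat_lit 40243571778) (nat_lit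 8415) (nat_lit 1139320207) (nat_lit 8602) (nat_lit 198708436120),Row.mk (nat_lit 26208) (nat_lit 8415) (nat_lit 50792896020) (nat_lit 8976) (nat_lit 903814925) (nat_lit 9163) (nat_lit 190450615327),Row.mk (nat_lit 26376) (nat_lit 8976) (nat_lit 63863165805) (nat_lit 9537) (nat_lit 715256213) (nat_lit 9724) (nat_lit 180136796366),Row.mk (nat_lit 26544) (nat_lit 9537) (nat_lit 80103082839) (nat_lit 10098) (nat_lit 564285554) (nat_lit 10285) (nat_lit 167255085293),Row.mk (nat_lit 26712) (nat_lit 10098) (nat_lit 100318664295) (nat_lit 10659) (nat_lit 443409993) (nat_lit 10846) (nat_lit 151166138919),Row.mk (nat_lit 26880) (nat_lit 10659) (nat_lit 125513246937) (nat_lit 11220) (nat_lit 346630253) (nat_lit 11407) (nat_lit 131071433023),Row.mk (nat_lit 27048) (nat_lit 11220) (nat_lit 156937284585) (nat_lit 11781) (nat_lit 269142976) (nat_lit 11968) (nat_lit 105973630121),Row.mk (nat_lit 27216) (nat_lit 11781) (nat_lit 196150410451) (nat_lit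 12529) (nat_lit 207102324) (nat_lit 12716) (nat_lit 74627079751),Row.mk (nat_lit 27384) (nat_lit 12529) (nat_lit 245098844630) (nat_lit 13277) (nat_lit 157429105) (nat_lit 13464) (nat_lit 35475994536),Row.mk (nat_lit 27552) (nat_lit 12342) (nat_lit 16617759517) (nat_lit 13090) (nat_lit 146951936) (nat_lit 13277) (nat_lit 276142168672),Row.mk (nat_lit 27720) (nat_lit 13090) (nat_lit 92936700000) (nat_lit 13838) (nat_lit 107180777) (nat_lit 14025) (nat_lit 215068795858),Row.mk (nat_lit 27888) (nat_lit 13838) (nat_lit 188239385358) (nat_lit 14960) (nat_lit 75337761) (nat_lit 15147) (nat_lit 138789626534),Row.mk (nat_lit 28056) (nat_lit 14960) (nat_lit 307255864449) (nat_lit 16269) (nat_lit 49842459) (nat_lit 16456) (nat_lit 43518784193),Row.mk (nat_lit 28224) (nat_lit 14773) (nat_lit 94226199890) (nat_lit 16082) (nat_lit 36756728) (nat_lit 16269) (nat_lit 286187418931),Row.mk (nat_lit 28392) (nat_lit 16082) (nat_lit 279865496079) (nat_lit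 17578) (nat_lit 16343762) (nat_lit 17765) (nat_lit 137570550694),Row.mk (nat_lit 28560) (nat_lit 15895) (nat_lit 60011208220) (nat_lit 17578) (nat_lit 403655806404) (nat_lit 0) (nat_lit 0),Row.mk (nat_lit 28728) (nat_lit 17391) (nat_lit 349565666148) (nat_lit 17578) (nat_lit 16343762) (nat_lit 19635) (nat_lit 171805955329),Row.mk (nat_lit 28896) (nat_lit 17204) (nat_lit 147044626237) (nat_lit 17391) (nat_lit 36756728) (nat_lit 19448) (nat_lit 446398657142),Row.mk (nat_lit 29064) (nat_lit 19261) (nat_lit 598732421409) (nat_lit 19448) (nat_lit 49842459) (nat_lit 25806) (nat_lit 84739038615),Row.mk (nat_lit 29232) (nat_lit 19074) (nat_lit 458247892708) (nat_lit 19261) (nat_lit 75337761) (nat_lit 25619) (nat_lit 337657436584),Row.mk (nat_lit 29400) (nat_lit 18887) (nat_lit 282786105382) (nat_lit 19074) (nat_lit 107180777) (nat_lit 25432) (nat_lit 653546414293),Row.mk (nat_lit 29568) (nat_lit 18700) (nat_lit 63638565818) (nat_lit 18887)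 (nat_lit 146951936) (nat_lit 25245) (nat_lit 1048084127007),Row.mk (nat_lit 29736) (nat_lit 25058) (nat_lit 1162782471673) (nat_lit 25245) (nat_lit 157429105) (nat_lit 31603) (nat_lit 168037512388),Row.mk (nat_lit 29904) (nat_lit 24871) (nat_lit 1162732798454) (nat_lit 25058) (nat_lit 207102324) (nat_lit 31416) (nat_lit 441697829412),Row.mk (nat_lit 30072) (nat_lit 24684) (nat_lit 1162670757802) (nat_lit 24871) (nat_lit 269142976) (nat_lit 31229) (nat_lit 783492963647),Row.mk (nat_lit 30240) (nat_lit 24497) (nat_lit 1162593270525) (nat_lit 24684) (nat_lit 346630253) (nat_lit 31042) (nat_lit 1210386840908),Row.mk (nat_lit 30408) (nat_lit 24310) (nat_lit 1162496490785) (nat_lit 24497) (nat_lit 443409993) (nat_lit 30855) (nat_lit 1743566995301),Row.mk (nat_lit 30576) (nat_lit 24123) (nat_lit 1162375615224) (nat_lit 24310) (nat_lit 564285554) (nat_lit 30668) (nat_lit 2409496145805),Row.mk (nat_lit 30744) (nat_lit 23936) (nat_lit 1162224644565)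 (nat_lit 24123) (nat_lit 715256213) (nat_lit 30481) (nat_lit 3241225590039),Row.mk (nat_lit 30912) (nat_lit 23749) (nat_lit 1162036085853) (nat_lit 23936) (nat_lit 903814925) (nat_lit 30294) (nat_lit 4280035601407),Row.mk (nat_lit 31080) (nat_lit 23562) (nat_lit 1161800580571) (nat_lit 23749) (nat_lit 1139320207) (nat_lit 30107) (nat_lit 5577484245557),Row.mk (nat_lit 31248) (nat_lit 23375) (nat_lit 1161506440156) (nat_lit 23562) (nat_lit 1433460622) (nat_lit 29920) (nat_lit 7197966302701),Row.mk (nat_lit 31416) (nat_lit 23188) (nat_lit 1161139065872) (nat_lit 23375) (nat_lit 1800834906) (nat_lit 29733) (nat_lit 9221909299881),Row.mk (nat_lit 31584) (nat_lit 23001) (nat_lit 1160680224254) (nat_lit 23188) (nat_lit 2259676524) (nat_lit 29546) (nat_lit 11749765278151),Row.mk (nat_lit 31752) (nat_lit 22814) (nat_lit 1160107142143) (nat_lit 23001) (nat_lit 2832758635) (nat_lit 29359) (nat_lit 14906996413507),Row.mk (nat_lit 31920) (nat_lit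 22627) (nat_lit 1159391376410) (nat_lit 22814) (nat_lit 3548524368) (nat_lit 29172) (nat_lit 18850301937136),Row.mk (nat_lit 32088) (nat_lit 22440) (nat_lit 1158497402277) (nat_lit 22627) (nat_lit 4442498501) (nat_lit 28985) (nat_lit 23775395408615),Row.mk (nat_lit 32256) (nat_lit 22253) (nat_lit 1157380850151) (nat_lit 22440) (nat_lit 5559050627) (nat_lit 28798) (nat_lit 29926718342497),Row.mk (nat_lit 32424) (nat_lit 22066) (nat_lit 1155986303482) (nat_lit 22253) (nat_lit 6953597296) (nat_lit 28611) (nat_lit 37609572293600),Row.mk (nat_lit 32592) (nat_lit 21879) (nat_lit 1154244548333) (nat_lit 22066) (nat_lit 8695352445) (nat_lit 28424) (nat_lit 47205271538855),Row.mk (nat_lit 32760) (nat_lit 21692) (nat_lit 1152069138170) (nat_lit 21879) (nat_lit 10870762608) (nat_lit 28237) (nat_lit 59190068411399),Row.mk (nat_lit 32928) (nat_lit 21505) (nat_lit 1149352103355) (nat_lit 21692) (nat_lit 13587797423) (nat_lit 28050) (nat_lit 74158790586302),Row.mk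 (nat_lit 33096) (nat_lit 21318) (nat_lit 1145958592417) (nat_lit 21505) (nat_lit 16981308361) (nat_lit 27863) (nat_lit 92854363480218),Row.mk (nat_lit 33264) (nat_lit 21131) (nat_lit 1141720179120) (nat_lit 21318) (nat_lit 21219721658) (nat_lit 27676) (nat_lit 116204683016361),Row.mk (nat_lit 33432) (nat_lit 20944) (nat_lit 1136426503159) (nat_lit 21131) (nat_lit 26513397619) (nat_lit 27489) (nat_lit 145368668818444),Row.mk (nat_lit 33600) (nat_lit 32912) (nat_lit 231841895920) (nat_lit 62084) (nat_lit 182493056425087) (nat_lit 0) (nat_lit 0)],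
[Row.mk (nat_lit 18648) (nat_lit 32912) (nat_lit 8854716) (nat_lit 61897) (nat_lit 289546069319) (nat_lit 0) (nat_lit 0),Row.mk (nat_lit 18816) (nat_lit 32912) (nat_lit 8970766) (nat_lit 61897) (nat_lit 289546069319) (nat_lit 0) (nat_lit 0),Row.mk (nat_lit 18984) (nat_lit 32912) (nat_lit 9115710) (nat_lit 61897) (nat_lit 289546069319) (nat_lit 0) (nat_lit 0),Row.mk (nat_lit 19152) (nat_lit 32912) (nat_lit 9296740) (nat_lit 61897) (nat_lit 289546069319) (nat_lit 0) (nat_lit 0),Row.mk (nat_lit 19320) (nat_lit 32912) (nat_lit 9522844) (nat_lit 61897) (nat_lit 289546069319) (nat_lit 0) (nat_lit 0),Row.mk (nat_lit 19488) (nat_lit 32912) (nat_lit 9805241) (nat_lit 61897) (nat_lit 289546069319) (nat_lit 0) (nat_lit 0),Row.mk (nat_lit 19656) (nat_lit 32912) (nat_lit 10157949) (nat_lit 61897) (nat_lit 289546069319) (nat_lit 0) (nat_lit 0),Row.mk (nat_lit 19824) (nat_lit 32912) (nat_lit 10598472) (nat_lit 61897) (nat_lit 289546069319) (nat_lit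 0) (nat_lit 0),Row.mk (nat_lit 19992) (nat_lit 32912) (nat_lit 11148675) (nat_lit 61897) (nat_lit 289546069319) (nat_lit 0) (nat_lit 0),Row.mk (nat_lit 20160) (nat_lit 32912) (nat_lit 11835865) (nat_lit 61897) (nat_lit 289546069319) (nat_lit 0) (nat_lit 0),Row.mk (nat_lit 20328) (nat_lit 32912) (nat_lit 12694149) (nat_lit 61897) (nat_lit 289546069319) (nat_lit 0) (nat_lit 0),Row.mk (nat_lit 20496) (nat_lit 32912) (nat_lit 13766125) (nat_lit 61897) (nat_lit 289546069319) (nat_lit 0) (nat_lit 0),Row.mk (nat_lit 20664) (nat_lit 32912) (nat_lit 15104997) (nat_lit 61897) (nat_lit 289546069319) (nat_lit 0) (nat_lit 0),Row.mk (nat_lit 20832) (nat_lit 32912) (nat_lit 16777216) (nat_lit 61897) (nat_lit 289546069319) (nat_lit 0) (nat_lit 0),Row.mk (nat_lit 21000) (nat_lit 32912) (nat_lit 18865777) (nat_lit 61897) (nat_lit 289543980758) (nat_lit 0) (nat_lit 0),Row.mk (nat_lit 21168) (nat_lit 32912) (nat_lit 21474339) (nat_lit 61897) (nat_lit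 289541372196) (nat_lit 0) (nat_lit 0),Row.mk (nat_lit 21336) (nat_lit 32912) (nat_lit 24732370) (nat_lit 61897) (nat_lit 289538114164) (nat_lit 0) (nat_lit 0),Row.mk (nat_lit 21504) (nat_lit 32912) (nat_lit 28801573) (nat_lit 61897) (nat_lit 289534044961) (nat_lit 0) (nat_lit 0),Row.mk (nat_lit 21672) (nat_lit 32912) (nat_lit 33883909) (nat_lit 61897) (nat_lit 289528962625) (nat_lit 0) (nat_lit 0),Row.mk (nat_lit 21840) (nat_lit 32912) (nat_lit 40231624) (nat_lit 61897) (nat_lit 289522614910) (nat_lit 0) (nat_lit 0),Row.mk (nat_lit 22008) (nat_lit 32912) (nat_lit 48159767) (nat_lit 61897) (nat_lit 289514686768) (nat_lit 0) (nat_lit 0),Row.mk (nat_lit 22176) (nat_lit 32912) (nat_lit 58061826) (nat_lit 61897) (nat_lit 289504784708) (nat_lit 0) (nat_lit 0),Row.mk (nat_lit 22344) (nat_lit 32912) (nat_lit 70429259) (nat_lit 61897) (nat_lit 289492417275) (nat_lit 0) (nat_lit 0),Row.mk (nat_lit 22512) (nat_lit 32912) (nat_lit 85875885) (nat_lit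 61897) (nat_lit 289476970650) (nat_lit 0) (nat_lit 0),Row.mk (nat_lit 22680) (nat_lit 32912) (nat_lit 105168348) (nat_lit 61897) (nat_lit 289457678187) (nat_lit 0) (nat_lit 0),Row.mk (nat_lit 22848) (nat_lit 32912) (nat_lit 129264168) (nat_lit 61897) (nat_lit 289433582366) (nat_lit 0) (nat_lit 0),Row.mk (nat_lit 23016) (nat_lit 32912) (nat_lit 159359267) (nat_lit 61897) (nat_lit 289403487268) (nat_lit 0) (nat_lit 0),Row.mk (nat_lit 23184) (nat_lit 32912) (nat_lit 196947319) (nat_lit 61897) (nat_lit 289365899215) (nat_lit 0) (nat_lit 0),Row.mk (nat_lit 23352) (nat_lit 32912) (nat_lit 243893889) (nat_lit 61897) (nat_lit 289318952645) (nat_lit 0) (nat_lit 0),Row.mk (nat_lit 23520) (nat_lit 32912) (nat_lit 302529023) (nat_lit 61897) (nat_lit 289260317511) (nat_lit 0) (nat_lit 0),Row.mk (nat_lit 23688) (nat_lit 0) (nat_lit 1800834906) (nat_lit 187) (nat_lit 263041060307) (nat_lit 748) (nat_lit 25079936996),Row.mk (nat_lit 23856) (nat_lit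 561) (nat_lit 2259676524) (nat_lit 748) (nat_lit 268334736268) (nat_lit 1309) (nat_lit 19418886751),Row.mk (nat_lit 24024) (nat_lit 1122) (nat_lit 2832758635) (nat_lit 1309) (nat_lit 272573149566) (nat_lit 1870) (nat_lit 14721631836),Row.mk (nat_lit 24192) (nat_lit 1683) (nat_lit 3548524368) (nat_lit 1870) (nat_lit 275966660504) (nat_lit 2431) (nat_lit 10755038787),Row.mk (nat_lit 24360) (nat_lit 2244) (nat_lit 4442498501) (nat_lit 2431) (nat_lit 278683695318) (nat_lit 2992) (nat_lit 7322238240),Row.mk (nat_lit 24528) (nat_lit 2805) (nat_lit 5559050627) (nat_lit 2992) (nat_lit 280859105481) (nat_lit 3553) (nat_lit 4252853944),Row.mk (nat_lit 24696) (nat_lit 3366) (nat_lit 6953597296) (nat_lit 3553) (nat_lit 282600860630) (nat_lit 4114) (nat_lit 1394546669),Row.mk (nat_lit 24864) (nat_lit 3366) (nat_lit 1741755148) (nat_lit 3927) (nat_lit 6953597296) (nat_lit 4114) (nat_lit 282600860630),Row.mk (nat_lit 25032) (nat_lit 3927) (nat_lit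 5311711981) (nat_lit 4488) (nat_lit 5559050627) (nat_lit 4675) (nat_lit 280859105481),Row.mk (nat_lit 25200) (nat_lit 4488) (nat_lit 9145298921) (nat_lit 5049) (nat_lit 4442498501) (nat_lit 5236) (nat_lit 278683695318),Row.mk (nat_lit 25368) (nat_lit 5049) (nat_lit 13432783992) (nat_lit 5610) (nat_lit 3548524368) (nat_lit 5797) (nat_lit 275966660504),Row.mk (nat_lit 25536) (nat_lit 5610) (nat_lit 18386963022) (nat_lit 6171) (nat_lit 2832758635) (nat_lit 6358) (nat_lit 272573149566),Row.mk (nat_lit 25704) (nat_lit 6171) (nat_lit 24253721095) (nat_lit 6732) (nat_lit 2259676524) (nat_lit 6919) (nat_lit 268334736268),Row.mk (nat_lit 25872) (nat_lit 6732) (nat_lit 31324236285) (nat_lit 7293) (nat_lit 1800834906) (nat_lit 7480) (nat_lit 263041060307),Row.mk (nat_lit 26040) (nat_lit 7293) (nat_lit 39949431362) (nat_lit 7854) (nat_lit 1433460622) (nat_lit 8041) (nat_lit 256429386735),Row.mk (nat_lit 26208) (nat_lit 7854) (nat_lit 50557390738)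 (nat_lit 8415) (nat_lit 1139320207) (nat_lit 8602) (nat_lit 248171565941),Row.mk (nat_lit 26376) (nat_lit 8415) (nat_lit 63674607094) (nat_lit 8976) (nat_lit 903814925) (nat_lit 9163) (nat_lit 237857746981),Row.mk (nat_lit 26544) (nat_lit 8976) (nat_lit 79952112180) (nat_lit 9537) (nat_lit 715256213) (nat_lit 9724) (nat_lit 224976035908),Row.mk (nat_lit 26712) (nat_lit 9537) (nat_lit 100197788734) (nat_lit 10098) (nat_lit 564285554) (nat_lit 10285) (nat_lit 208887089533),Row.mk (nat_lit 26880) (nat_lit 10098) (nat_lit 125416467197) (nat_lit 10659) (nat_lit 443409993) (nat_lit 10846) (nat_lit 188792383638),Row.mk (nat_lit 27048) (nat_lit 10659) (nat_lit 156859797308) (nat_lit 11220) (nat_lit 346630253) (nat_lit 11407) (nat_lit 163694580736),Row.mk (nat_lit 27216) (nat_lit 11220) (nat_lit 196088369800) (nat_lit 11781) (nat_lit 269142976) (nat_lit 11968) (nat_lit 132348030365),Row.mk (nat_lit 27384) (nat_lit 11781) (nat_lit 245049171411)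 (nat_lit 12529) (nat_lit 207102324) (nat_lit 12716) (nat_lit 93196945150),Row.mk (nat_lit 27552) (nat_lit 12529) (nat_lit 306172217445) (nat_lit 13277) (nat_lit 157429105) (nat_lit 13464) (nat_lit 44298184191),Row.mk (nat_lit 27720) (nat_lit 12342) (nat_lit 20804853972) (nat_lit 13090) (nat_lit 146951936) (nat_lit 13277) (nat_lit 344881821341),Row.mk (nat_lit 27888) (nat_lit 13090) (nat_lit 116115467473) (nat_lit 13838) (nat_lit 107180777) (nat_lit 14025) (nat_lit 268602652017),Row.mk (nat_lit 28056) (nat_lit 13838) (nat_lit 235138294279) (nat_lit 14960) (nat_lit 75337761) (nat_lit 15147) (nat_lit 173331809676),Row.mk (nat_lit 28224) (nat_lit 14960) (nat_lit 383780657817) (nat_lit 16269) (nat_lit 49842459) (nat_lit 16456) (nat_lit 54340825887),Row.mk (nat_lit 28392) (nat_lit 14773) (nat_lit 117711745869) (nat_lit 16082) (nat_lit 36756728) (nat_lit 16269) (nat_lit 357424838553),Row.mk (nat_lit 28560) (nat_lit 16082) (nat_lit 349565666148)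 (nat_lit 17578) (nat_lit 16343762) (nat_lit 17765) (nat_lit 171805955329),Row.mk (nat_lit 28728) (nat_lit 15895) (nat_lit 74972964334) (nat_lit 17578) (nat_lit 504135951520) (nat_lit 0) (nat_lit 0),Row.mk (nat_lit 28896) (nat_lit 17391) (nat_lit 436619497130) (nat_lit 17578) (nat_lit 16343762) (nat_lit 19635) (nat_lit 214565149830),Row.mk (nat_lit 29064) (nat_lit 17204) (nat_lit 183680686196) (nat_lit 17391) (nat_lit 36756728) (nat_lit 19448) (nat_lit 557524810174),Row.mk (nat_lit 29232) (nat_lit 19261) (nat_lit 747827845937) (nat_lit 19448) (nat_lit 49842459) (nat_lit 25806) (nat_lit 105823929271),Row.mk (nat_lit 29400) (nat_lit 19074) (nat_lit 572372406326) (nat_lit 19261) (nat_lit 75337761) (nat_lit 25619) (nat_lit 421712906980),Row.mk (nat_lit 29568) (nat_lit 18887) (nat_lit 353232794905) (nat_lit 19074) (nat_lit 107180777) (nat_lit 25432) (nat_lit 816250619694),Row.mk (nat_lit 29736) (nat_lit 18700) (nat_lit 79532706721) (nat_lit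 18887) (nat_lit 146951936) (nat_lit 25245) (nat_lit 1309018705123),Row.mk (nat_lit 29904) (nat_lit 25058) (nat_lit 1452336929600) (nat_lit 25245) (nat_lit 157429105) (nat_lit 31603) (nat_lit 209864322099),Row.mk (nat_lit 30072) (nat_lit 24871) (nat_lit 1452287256381) (nat_lit 25058) (nat_lit 207102324) (nat_lit 31416) (nat_lit 551659456334),Row.mk (nat_lit 30240) (nat_lit 24684) (nat_lit 1452225215730) (nat_lit 24871) (nat_lit 269142976) (nat_lit 31229) (nat_lit 978553333595),Row.mk (nat_lit 30408) (nat_lit 24497) (nat_lit 1452147728452) (nat_lit 24684) (nat_lit 346630253) (nat_lit 31042) (nat_lit 1511733487989),Row.mk (nat_lit 30576) (nat_lit 24310) (nat_lit 1452050948712) (nat_lit 24497) (nat_lit 443409993) (nat_lit 30855) (nat_lit 2177662638492),Row.mk (nat_lit 30744) (nat_lit 24123) (nat_lit 1451930073152) (nat_lit 24310) (nat_lit 564285554) (nat_lit 30668) (nat_lit 3009392082726),Row.mk (nat_lit 30912) (nat_lit 23936) (nat_lit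 1451779102492) (nat_lit 24123) (nat_lit 715256213) (nat_lit 30481) (nat_lit 4048202094095),Row.mk (nat_lit 31080) (nat_lit 23749) (nat_lit 1451590543781) (nat_lit 23936) (nat_lit 903814925) (nat_lit 30294) (nat_lit 5345650738244),Row.mk (nat_lit 31248) (nat_lit 23562) (nat_lit 1451355038499) (nat_lit 23749) (nat_lit 1139320207) (nat_lit 30107) (nat_lit 6966132795388),Row.mk (nat_lit 31416) (nat_lit 23375) (nat_lit 1451060898083) (nat_lit 23562) (nat_lit 1433460622) (nat_lit 29920) (nat_lit 8990075792568),Row.mk (nat_lit 31584) (nat_lit 23188) (nat_lit 1450693523799) (nat_lit 23375) (nat_lit 1800834906) (nat_lit 29733) (nat_lit 11517931770839),Row.mk (nat_lit 31752) (nat_lit 23001) (nat_lit 1450234682182) (nat_lit 23188) (nat_lit 2259676524) (nat_lit 29546) (nat_lit 14675162906194),Row.mk (nat_lit 31920) (nat_lit 22814) (nat_lit 1449661600070) (nat_lit 23001) (nat_lit 2832758635) (nat_lit 29359) (nat_lit 18618468429823),Row.mk (nat_lit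 32088) (nat_lit 22627) (nat_lit 1448945834337) (nat_lit 22814) (nat_lit 3548524368) (nat_lit 29172) (nat_lit 23543561901302),Row.mk (nat_lit 32256) (nat_lit 22440) (nat_lit 1448051860205) (nat_lit 22627) (nat_lit 4442498501) (nat_lit 28985) (nat_lit 29694884835185),Row.mk (nat_lit 32424) (nat_lit 22253) (nat_lit 1446935308079) (nat_lit 22440) (nat_lit 5559050627) (nat_lit 28798) (nat_lit 37377738786287),Row.mk (nat_lit 32592) (nat_lit 22066) (nat_lit 1445540761409) (nat_lit 22253) (nat_lit 6953597296) (nat_lit 28611) (nat_lit 46973438031542),Row.mk (nat_lit 32760) (nat_lit 21879) (nat_lit 1443799006260) (nat_lit 22066) (nat_lit 8695352445) (nat_lit 28424) (nat_lit 58958234904087),Row.mk (nat_lit 32928) (nat_lit 21692) (nat_lit 1441623596097) (nat_lit 21879) (nat_lit 10870762608) (nat_lit 28237) (nat_lit 73926957078990),Row.mk (nat_lit 33096) (nat_lit 21505) (nat_lit 1438906561283) (nat_lit 21692) (nat_lit 13587797423) (nat_lit 28050)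 (nat_lit 92622529972906),Row.mk (nat_lit 33264) (nat_lit 21318) (nat_lit 1435513050345) (nat_lit 21505) (nat_lit 16981308361) (nat_lit 27863) (nat_lit 115972849509048),Row.mk (nat_lit 33432) (nat_lit 21131) (nat_lit 1431274637048) (nat_lit 21318) (nat_lit 21219721658) (nat_lit 27676) (nat_lit 145136835311131),Row.mk (nat_lit 33600) (nat_lit 20944) (nat_lit 1425980961086) (nat_lit 21131) (nat_lit 26513397619) (nat_lit 27489) (nat_lit 181561950031621),Row.mk (nat_lit 33768) (nat_lit 32912) (nat_lit 289562846535) (nat_lit 62084) (nat_lit 227929425047992) (nat_lit 0) (nat_lit 0)],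
[Row.mk (nat_lit 18816) (nat_lit 32912) (nat_lit 8970766) (nat_lit 61897) (nat_lit 361638144187) (nat_lit 0) (nat_lit 0),Row.mk (nat_lit 18984) (nat_lit 32912) (nat_lit 9115710) (nat_lit 61897) (nat_lit 361638144187) (nat_lit 0) (nat_lit 0),Row.mk (nat_lit 19152) (nat_lit 32912) (nat_lit 9296740) (nat_lit 61897) (nat_lit 361638144187) (nat_lit 0) (nat_lit 0),Row.mk (nat_lit 19320) (nat_lit 32912) (nat_lit 9522844) (nat_lit 61897) (nat_lit 361638144187) (nat_lit 0) (nat_lit 0),Row.mk (nat_lit 19488) (nat_lit 32912) (nat_lit 9805241) (nat_lit 61897) (nat_lit 361638144187) (nat_lit 0) (nat_lit 0),Row.mk (nat_lit 19656) (nat_lit 32912) (nat_lit 10157949) (nat_lit 61897) (nat_lit 361638144187) (nat_lit 0) (nat_lit 0),Row.mk (nat_lit 19824) (nat_lit 32912) (nat_lit 10598472) (nat_lit 61897) (nat_lit 361638144187) (nat_lit 0) (nat_lit 0),Row.mk (nat_lit 19992) (nat_lit 32912) (nat_lit 11148675) (nat_lit 61897) (nat_lit 361638144187) (nat_lit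 0) (nat_lit 0),Row.mk (nat_lit 20160) (nat_lit 32912) (nat_lit 11835865) (nat_lit 61897) (nat_lit 361638144187) (nat_lit 0) (nat_lit 0),Row.mk (nat_lit 20328) (nat_lit 32912) (nat_lit 12694149) (nat_lit 61897) (nat_lit 361638144187) (nat_lit 0) (nat_lit 0),Row.mk (nat_lit 20496) (nat_lit 32912) (nat_lit 13766125) (nat_lit 61897) (nat_lit 361638144187) (nat_lit 0) (nat_lit 0),Row.mk (nat_lit 20664) (nat_lit 32912) (nat_lit 15104997) (nat_lit 61897) (nat_lit 361638144187) (nat_lit 0) (nat_lit 0),Row.mk (nat_lit 20832) (nat_lit 32912) (nat_lit 16777216) (nat_lit 61897) (nat_lit 361638144187) (nat_lit 0) (nat_lit 0),Row.mk (nat_lit 21000) (nat_lit 32912) (nat_lit 18865777) (nat_lit 61897) (nat_lit 361636055626) (nat_lit 0) (nat_lit 0),Row.mk (nat_lit 21168) (nat_lit 32912) (nat_lit 21474339) (nat_lit 61897) (nat_lit 361633447064) (nat_lit 0) (nat_lit 0),Row.mk (nat_lit 21336) (nat_lit 32912) (nat_lit 24732370) (nat_lit 61897) (nat_lit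 361630189033) (nat_lit 0) (nat_lit 0),Row.mk (nat_lit 21504) (nat_lit 32912) (nat_lit 28801573) (nat_lit 61897) (nat_lit 361626119830) (nat_lit 0) (nat_lit 0),Row.mk (nat_lit 21672) (nat_lit 32912) (nat_lit 33883909) (nat_lit 61897) (nat_lit 361621037494) (nat_lit 0) (nat_lit 0),Row.mk (nat_lit 21840) (nat_lit 32912) (nat_lit 40231624) (nat_lit 61897) (nat_lit 361614689779) (nat_lit 0) (nat_lit 0),Row.mk (nat_lit 22008) (nat_lit 32912) (nat_lit 48159767) (nat_lit 61897) (nat_lit 361606761636) (nat_lit 0) (nat_lit 0),Row.mk (nat_lit 22176) (nat_lit 32912) (nat_lit 58061826) (nat_lit 61897) (nat_lit 361596859577) (nat_lit 0) (nat_lit 0),Row.mk (nat_lit 22344) (nat_lit 32912) (nat_lit 70429259) (nat_lit 61897) (nat_lit 361584492144) (nat_lit 0) (nat_lit 0),Row.mk (nat_lit 22512) (nat_lit 32912) (nat_lit 85875885) (nat_lit 61897) (nat_lit 361569045518) (nat_lit 0) (nat_lit 0),Row.mk (nat_lit 22680) (nat_lit 32912) (nat_lit 105168348)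 (nat_lit 61897) (nat_lit 361549753055) (nat_lit 0) (nat_lit 0),Row.mk (nat_lit 22848) (nat_lit 32912) (nat_lit 129264168) (nat_lit 61897) (nat_lit 361525657235) (nat_lit 0) (nat_lit 0),Row.mk (nat_lit 23016) (nat_lit 32912) (nat_lit 159359267) (nat_lit 61897) (nat_lit 361495562136) (nat_lit 0) (nat_lit 0),Row.mk (nat_lit 23184) (nat_lit 32912) (nat_lit 196947319) (nat_lit 61897) (nat_lit 361457974084) (nat_lit 0) (nat_lit 0),Row.mk (nat_lit 23352) (nat_lit 32912) (nat_lit 243893889) (nat_lit 61897) (nat_lit 361411027514) (nat_lit 0) (nat_lit 0),Row.mk (nat_lit 23520) (nat_lit 32912) (nat_lit 302529023) (nat_lit 61897) (nat_lit 361352392380) (nat_lit 0) (nat_lit 0),Row.mk (nat_lit 23688) (nat_lit 32912) (nat_lit 375762891) (nat_lit 61897) (nat_lit 361279158512) (nat_lit 0) (nat_lit 0),Row.mk (nat_lit 23856) (nat_lit 0) (nat_lit 2259676524) (nat_lit 187) (nat_lit 335133135176) (nat_lit 748) (nat_lit 24712562713),Row.mk (nat_lit 24024)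 (nat_lit 561) (nat_lit 2832758635) (nat_lit 748) (nat_lit 340426811137) (nat_lit 1309) (nat_lit 18960045134),Row.mk (nat_lit 24192) (nat_lit 1122) (nat_lit 3548524368) (nat_lit 1309) (nat_lit 344665224434) (nat_lit 1870) (nat_lit 14148549725),Row.mk (nat_lit 24360) (nat_lit 1683) (nat_lit 4442498501) (nat_lit 1870) (nat_lit 348058735372) (nat_lit 2431) (nat_lit 10039273054),Row.mk (nat_lit 24528) (nat_lit 2244) (nat_lit 5559050627) (nat_lit 2431) (nat_lit 350775770187) (nat_lit 2992) (nat_lit 6428264107),Row.mk (nat_lit 24696) (nat_lit 2805) (nat_lit 6953597296) (nat_lit 2992) (nat_lit 352951180350) (nat_lit 3553) (nat_lit 3136301818),Row.mk (nat_lit 24864) (nat_lit 3366) (nat_lit 8695352445) (nat_lit 3553) (nat_lit 354692935499) (nat_lit 0) (nat_lit 0),Row.mk (nat_lit 25032) (nat_lit 3366) (nat_lit 3917165311) (nat_lit 3927) (nat_lit 6953597296) (nat_lit 4114) (nat_lit 352951180350),Row.mk (nat_lit 25200) (nat_lit 3927) (nat_lit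 8028746795) (nat_lit 4488) (nat_lit 5559050627) (nat_lit 4675) (nat_lit 350775770187),Row.mk (nat_lit 25368) (nat_lit 4488) (nat_lit 12538809859) (nat_lit 5049) (nat_lit 4442498501) (nat_lit 5236) (nat_lit 348058735372),Row.mk (nat_lit 25536) (nat_lit 5049) (nat_lit 17671197289) (nat_lit 5610) (nat_lit 3548524368) (nat_lit 5797) (nat_lit 344665224434),Row.mk (nat_lit 25704) (nat_lit 5610) (nat_lit 23680638983) (nat_lit 6171) (nat_lit 2832758635) (nat_lit 6358) (nat_lit 340426811137),Row.mk (nat_lit 25872) (nat_lit 6171) (nat_lit 30865394667) (nat_lit 6732) (nat_lit 2259676524) (nat_lit 6919) (nat_lit 335133135176),Row.mk (nat_lit 26040) (nat_lit 6732) (nat_lit 39582057078) (nat_lit 7293) (nat_lit 1800834906) (nat_lit 7480) (nat_lit 328521461603),Row.mk (nat_lit 26208) (nat_lit 7293) (nat_lit 50263250323) (nat_lit 7854) (nat_lit 1433460622) (nat_lit 8041) (nat_lit 320263640810),Row.mk (nat_lit 26376) (nat_lit 7854) (nat_lit 63439101812)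 (nat_lit 8415) (nat_lit 1139320207) (nat_lit 8602) (nat_lit 309949821849),Row.mk (nat_lit 26544) (nat_lit 8415) (nat_lit 79763553468) (nat_lit 8976) (nat_lit 903814925) (nat_lit 9163) (nat_lit 297068110776),Row.mk (nat_lit 26712) (nat_lit 8976) (nat_lit 100046818075) (nat_lit 9537) (nat_lit 715256213) (nat_lit 9724) (nat_lit 280979164402),Row.mk (nat_lit 26880) (nat_lit 9537) (nat_lit 125295591636) (nat_lit 10098) (nat_lit 564285554) (nat_lit 10285) (nat_lit 260884458507),Row.mk (nat_lit 27048) (nat_lit 10098) (nat_lit 156763017568) (nat_lit 10659) (nat_lit 443409993) (nat_lit 10846) (nat_lit 235786655604),Row.mk (nat_lit 27216) (nat_lit 10659) (nat_lit 196010882522) (nat_lit 11220) (nat_lit 346630253) (nat_lit 11407) (nat_lit 204440105234),Row.mk (nat_lit 27384) (nat_lit 11220) (nat_lit 244987130760) (nat_lit 11781) (nat_lit 269142976) (nat_lit 11968) (nat_lit 165289020019),Row.mk (nat_lit 27552) (nat_lit 11781) (nat_lit 306122544226)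 (nat_lit 12529) (nat_lit 207102324) (nat_lit 12716) (nat_lit 116390259059),Row.mk (nat_lit 27720) (nat_lit 12529) (nat_lit 382451386768) (nat_lit 13277) (nat_lit 157429105) (nat_lit 13464) (nat_lit 55316886244),Row.mk (nat_lit 27888) (nat_lit 12342) (nat_lit 26034433938) (nat_lit 13090) (nat_lit 146951936) (nat_lit 13277) (nat_lit 430735989261),Row.mk (nat_lit 28056) (nat_lit 13090) (nat_lit 145065188886) (nat_lit 13838) (nat_lit 107180777) (nat_lit 14025) (nat_lit 335465146920),Row.mk (nat_lit 28224) (nat_lit 13838) (nat_lit 293713900140) (nat_lit 14960) (nat_lit 75337761) (nat_lit 15147) (nat_lit 216474163131),Row.mk (nat_lit 28392) (nat_lit 14960) (nat_lit 479358278665) (nat_lit 16269) (nat_lit 49842459) (nat_lit 16456) (nat_lit 67857294894),Row.mk (nat_lit 28560) (nat_lit 14773) (nat_lit 147044626237) (nat_lit 16082) (nat_lit 36756728) (nat_lit 16269) (nat_lit 446398657142),Row.mk (nat_lit 28728) (nat_lit 16082) (nat_lit 436619497130)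 (nat_lit 17578) (nat_lit 16343762) (nat_lit 17765) (nat_lit 214565149830),Row.mk (nat_lit 28896) (nat_lit 15895) (nat_lit 93659836786) (nat_lit 17578) (nat_lit 629633228805) (nat_lit 0) (nat_lit 0),Row.mk (nat_lit 29064) (nat_lit 17391) (nat_lit 545347631957) (nat_lit 17578) (nat_lit 16343762) (nat_lit 19635) (nat_lit 267970352247),Row.mk (nat_lit 29232) (nat_lit 17204) (nat_lit 229438241283) (nat_lit 17391) (nat_lit 36756728) (nat_lit 19448) (nat_lit 696318694525),Row.mk (nat_lit 29400) (nat_lit 19261) (nat_lit 934044434423) (nat_lit 19448) (nat_lit 49842459) (nat_lit 25806) (nat_lit 132158449052),Row.mk (nat_lit 29568) (nat_lit 19074) (nat_lit 714911170717) (nat_lit 19261) (nat_lit 75337761) (nat_lit 25619) (nat_lit 526696161766),Row.mk (nat_lit 29736) (nat_lit 18887) (nat_lit 441219010677) (nat_lit 19074) (nat_lit 107180777) (nat_lit 25432) (nat_lit 1019464247195),Row.mk (nat_lit 29904) (nat_lit 18700) (nat_lit 99384105282) (nat_lit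 18887) (nat_lit 146951936) (nat_lit 25245) (nat_lit 1634919698455),Row.mk (nat_lit 30072) (nat_lit 25058) (nat_lit 1813983462396) (nat_lit 25245) (nat_lit 157429105) (nat_lit 31603) (nat_lit 262104998407),Row.mk (nat_lit 30240) (nat_lit 24871) (nat_lit 1813933789177) (nat_lit 25058) (nat_lit 207102324) (nat_lit 31416) (nat_lit 688998875668),Row.mk (nat_lit 30408) (nat_lit 24684) (nat_lit 1813871748526) (nat_lit 24871) (nat_lit 269142976) (nat_lit 31229) (nat_lit 1222179030061),Row.mk (nat_lit 30576) (nat_lit 24497) (nat_lit 1813794261248) (nat_lit 24684) (nat_lit 346630253) (nat_lit 31042) (nat_lit 1888108180565),Row.mk (nat_lit 30744) (nat_lit 24310) (nat_lit 1813697481508) (nat_lit 24497) (nat_lit 443409993) (nat_lit 30855) (nat_lit 2719837624798),Row.mk (nat_lit 30912) (nat_lit 24123) (nat_lit 1813576605948) (nat_lit 24310) (nat_lit 564285554) (nat_lit 30668) (nat_lit 3758647636167),Row.mk (nat_lit 31080) (nat_lit 23936) (nat_lit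 1813425635288) (nat_lit 24123) (nat_lit 715256213) (nat_lit 30481) (nat_lit 5056096280317),Row.mk (nat_lit 31248) (nat_lit 23749) (nat_lit 1813237076577) (nat_lit 23936) (nat_lit 903814925) (nat_lit 30294) (nat_lit 6676578337461),Row.mk (nat_lit 31416) (nat_lit 23562) (nat_lit 1813001571295) (nat_lit 23749) (nat_lit 1139320207) (nat_lit 30107) (nat_lit 8700521334640),Row.mk (nat_lit 31584) (nat_lit 23375) (nat_lit 1812707430879) (nat_lit 23562) (nat_lit 1433460622) (nat_lit 29920) (nat_lit 11228377312911),Row.mk (nat_lit 31752) (nat_lit 23188) (nat_lit 1812340056595) (nat_lit 23375) (nat_lit 1800834906) (nat_lit 29733) (nat_lit 14385608448266),Row.mk (nat_lit 31920) (nat_lit 23001) (nat_lit 1811881214977) (nat_lit 23188) (nat_lit 2259676524) (nat_lit 29546) (nat_lit 18328913971896),Row.mk (nat_lit 32088) (nat_lit 22814) (nat_lit 1811308132866) (nat_lit 23001) (nat_lit 2832758635) (nat_lit 29359) (nat_lit 23254007443375),Row.mk (nat_lit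 32256) (nat_lit 22627) (nat_lit 1810592367133) (nat_lit 22814) (nat_lit 3548524368) (nat_lit 29172) (nat_lit 29405330377257),Row.mk (nat_lit 32424) (nat_lit 22440) (nat_lit 1809698393001) (nat_lit 22627) (nat_lit 4442498501) (nat_lit 28985) (nat_lit 37088184328360),Row.mk (nat_lit 32592) (nat_lit 22253) (nat_lit 1808581840875) (nat_lit 22440) (nat_lit 5559050627) (nat_lit 28798) (nat_lit 46683883573615),Row.mk (nat_lit 32760) (nat_lit 22066) (nat_lit 1807187294205) (nat_lit 22253) (nat_lit 6953597296) (nat_lit 28611) (nat_lit 58668680446159),Row.mk (nat_lit 32928) (nat_lit 21879) (nat_lit 1805445539056) (nat_lit 22066) (nat_lit 8695352445) (nat_lit 28424) (nat_lit 73637402621062),Row.mk (nat_lit 33096) (nat_lit 21692) (nat_lit 1803270128893) (nat_lit 21879) (nat_lit 10870762608) (nat_lit 28237) (nat_lit 92332975514978),Row.mk (nat_lit 33264) (nat_lit 21505) (nat_lit 1800553094079) (nat_lit 21692) (nat_lit 13587797423) (nat_lit 28050)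 (nat_lit 115683295051121),Row.mk (nat_lit 33432) (nat_lit 21318) (nat_lit 1797159583141) (nat_lit 21505) (nat_lit 16981308361) (nat_lit 27863) (nat_lit 144847280853204),Row.mk (nat_lit 33600) (nat_lit 21131) (nat_lit 1792921169843) (nat_lit 21318) (nat_lit 21219721658) (nat_lit 27676) (nat_lit 181272395573693),Row.mk (nat_lit 33768) (nat_lit 20944) (nat_lit 1787627493882) (nat_lit 21131) (nat_lit 26513397619) (nat_lit 27489) (nat_lit 226766485147213),Row.mk (nat_lit 33936) (nat_lit 32912) (nat_lit 361654921403) (nat_lit 62084) (nat_lit 284678353359895) (nat_lit 0) (nat_lit 0)],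
[Row.mk (nat_lit 18984) (nat_lit 32912) (nat_lit 9115710) (nat_lit 61897) (nat_lit 451679406563) (nat_lit 0) (nat_lit 0),Row.mk (nat_lit 19152) (nat_lit 32912) (nat_lit 9296740) (nat_lit 61897) (nat_lit 451679406563) (nat_lit 0) (nat_lit 0),Row.mk (nat_lit 19320) (nat_lit 32912) (nat_lit 9522844) (nat_lit 61897) (nat_lit 451679406563) (nat_lit 0) (nat_lit 0),Row.mk (nat_lit 19488) (nat_lit 32912) (nat_lit 9805241) (nat_lit 61897) (nat_lit 451679406563) (nat_lit 0) (nat_lit 0),Row.mk (nat_lit 19656) (nat_lit 32912) (nat_lit 10157949) (nat_lit 61897) (nat_lit 451679406563) (nat_lit 0) (nat_lit 0),Row.mk (nat_lit 19824) (nat_lit 32912) (nat_lit 10598472) (nat_lit 61897) (nat_lit 451679406563) (nat_lit 0) (nat_lit 0),Row.mk (nat_lit 19992) (nat_lit 32912) (nat_lit 11148675) (nat_lit 61897) (nat_lit 451679406563) (nat_lit 0) (nat_lit 0),Row.mk (nat_lit 20160) (nat_lit 32912) (nat_lit 11835865) (nat_lit 61897) (nat_lit 451679406563) (nat_lit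 0) (nat_lit 0),Row.mk (nat_lit 20328) (nat_lit 32912) (nat_lit 12694149) (nat_lit 61897) (nat_lit 451679406563) (nat_lit 0) (nat_lit 0),Row.mk (nat_lit 20496) (nat_lit 32912) (nat_lit 13766125) (nat_lit 61897) (nat_lit 451679406563) (nat_lit 0) (nat_lit 0),Row.mk (nat_lit 20664) (nat_lit 32912) (nat_lit 15104997) (nat_lit 61897) (nat_lit 451679406563) (nat_lit 0) (nat_lit 0),Row.mk (nat_lit 20832) (nat_lit 32912) (nat_lit 16777216) (nat_lit 61897) (nat_lit 451679406563) (nat_lit 0) (nat_lit 0),Row.mk (nat_lit 21000) (nat_lit 32912) (nat_lit 18865777) (nat_lit 61897) (nat_lit 451677318002) (nat_lit 0) (nat_lit 0),Row.mk (nat_lit 21168) (nat_lit 32912) (nat_lit 21474339) (nat_lit 61897) (nat_lit 451674709440) (nat_lit 0) (nat_lit 0),Row.mk (nat_lit 21336) (nat_lit 32912) (nat_lit 24732370) (nat_lit 61897) (nat_lit 451671451408) (nat_lit 0) (nat_lit 0),Row.mk (nat_lit 21504) (nat_lit 32912) (nat_lit 28801573) (nat_lit 61897) (nat_lit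 451667382206) (nat_lit 0) (nat_lit 0),Row.mk (nat_lit 21672) (nat_lit 32912) (nat_lit 33883909) (nat_lit 61897) (nat_lit 451662299870) (nat_lit 0) (nat_lit 0),Row.mk (nat_lit 21840) (nat_lit 32912) (nat_lit 40231624) (nat_lit 61897) (nat_lit 451655952155) (nat_lit 0) (nat_lit 0),Row.mk (nat_lit 22008) (nat_lit 32912) (nat_lit 48159767) (nat_lit 61897) (nat_lit 451648024012) (nat_lit 0) (nat_lit 0),Row.mk (nat_lit 22176) (nat_lit 32912) (nat_lit 58061826) (nat_lit 61897) (nat_lit 451638121953) (nat_lit 0) (nat_lit 0),Row.mk (nat_lit 22344) (nat_lit 32912) (nat_lit 70429259) (nat_lit 61897) (nat_lit 451625754519) (nat_lit 0) (nat_lit 0),Row.mk (nat_lit 22512) (nat_lit 32912) (nat_lit 85875885) (nat_lit 61897) (nat_lit 451610307894) (nat_lit 0) (nat_lit 0),Row.mk (nat_lit 22680) (nat_lit 32912) (nat_lit 105168348) (nat_lit 61897) (nat_lit 451591015431) (nat_lit 0) (nat_lit 0),Row.mk (nat_lit 22848) (nat_lit 32912) (nat_lit 129264168)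 (nat_lit 61897) (nat_lit 451566919610) (nat_lit 0) (nat_lit 0),Row.mk (nat_lit 23016) (nat_lit 32912) (nat_lit 159359267) (nat_lit 61897) (nat_lit 451536824512) (nat_lit 0) (nat_lit 0),Row.mk (nat_lit 23184) (nat_lit 32912) (nat_lit 196947319) (nat_lit 61897) (nat_lit 451499236460) (nat_lit 0) (nat_lit 0),Row.mk (nat_lit 23352) (nat_lit 32912) (nat_lit 243893889) (nat_lit 61897) (nat_lit 451452289889) (nat_lit 0) (nat_lit 0),Row.mk (nat_lit 23520) (nat_lit 32912) (nat_lit 302529023) (nat_lit 61897) (nat_lit 451393654755) (nat_lit 0) (nat_lit 0),Row.mk (nat_lit 23688) (nat_lit 32912) (nat_lit 375762891) (nat_lit 61897) (nat_lit 451320420888) (nat_lit 0) (nat_lit 0),Row.mk (nat_lit 23856) (nat_lit 32912) (nat_lit 467230225) (nat_lit 61897) (nat_lit 451228953553) (nat_lit 0) (nat_lit 0),Row.mk (nat_lit 24024) (nat_lit 0) (nat_lit 2832758635) (nat_lit 187) (nat_lit 425174397551) (nat_lit 748) (nat_lit 24253721095),Row.mk (nat_lit 24192)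 (nat_lit 561) (nat_lit 3548524368) (nat_lit 748) (nat_lit 430468073513) (nat_lit 1309) (nat_lit 18386963022),Row.mk (nat_lit 24360) (nat_lit 1122) (nat_lit 4442498501) (nat_lit 1309) (nat_lit 434706486810) (nat_lit 1870) (nat_lit 13432783992),Row.mk (nat_lit 24528) (nat_lit 1683) (nat_lit 5559050627) (nat_lit 1870) (nat_lit 438099997748) (nat_lit 2431) (nat_lit 9145298921),Row.mk (nat_lit 24696) (nat_lit 2244) (nat_lit 6953597296) (nat_lit 2431) (nat_lit 440817032562) (nat_lit 2992) (nat_lit 5311711981),Row.mk (nat_lit 24864) (nat_lit 2805) (nat_lit 8695352445) (nat_lit 2992) (nat_lit 442992442725) (nat_lit 3553) (nat_lit 1741755148),Row.mk (nat_lit 25032) (nat_lit 2805) (nat_lit 2175410163) (nat_lit 3366) (nat_lit 8695352445) (nat_lit 3553) (nat_lit 442992442725),Row.mk (nat_lit 25200) (nat_lit 3366) (nat_lit 6634200126) (nat_lit 3927) (nat_lit 6953597296) (nat_lit 4114) (nat_lit 440817032562),Row.mk (nat_lit 25368) (nat_lit 3927)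 (nat_lit 11422257733) (nat_lit 4488) (nat_lit 5559050627) (nat_lit 4675) (nat_lit 438099997748),Row.mk (nat_lit 25536) (nat_lit 4488) (nat_lit 16777223157) (nat_lit 5049) (nat_lit 4442498501) (nat_lit 5236) (nat_lit 434706486810),Row.mk (nat_lit 25704) (nat_lit 5049) (nat_lit 22964873251) (nat_lit 5610) (nat_lit 3548524368) (nat_lit 5797) (nat_lit 430468073513),Row.mk (nat_lit 25872) (nat_lit 5610) (nat_lit 30292312556) (nat_lit 6171) (nat_lit 2832758635) (nat_lit 6358) (nat_lit 425174397551),Row.mk (nat_lit 26040) (nat_lit 6171) (nat_lit 39123215461) (nat_lit 6732) (nat_lit 2259676524) (nat_lit 6919) (nat_lit 418562723979),Row.mk (nat_lit 26208) (nat_lit 6732) (nat_lit 49895876039) (nat_lit 7293) (nat_lit 1800834906) (nat_lit 7480) (nat_lit 410304903186),Row.mk (nat_lit 26376) (nat_lit 7293) (nat_lit 63144961396) (nat_lit 7854) (nat_lit 1433460622) (nat_lit 8041) (nat_lit 399991084225),Row.mk (nat_lit 26544) (nat_lit 7854) (nat_lit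 79528048186) (nat_lit 8415) (nat_lit 1139320207) (nat_lit 8602) (nat_lit 387109373152),Row.mk (nat_lit 26712) (nat_lit 8415) (nat_lit 99858259363) (nat_lit 8976) (nat_lit 903814925) (nat_lit 9163) (nat_lit 371020426777),Row.mk (nat_lit 26880) (nat_lit 8976) (nat_lit 125144620977) (nat_lit 9537) (nat_lit 715256213) (nat_lit 9724) (nat_lit 350925720882),Row.mk (nat_lit 27048) (nat_lit 9537) (nat_lit 156642142007) (nat_lit 10098) (nat_lit 564285554) (nat_lit 10285) (nat_lit 325827917980),Row.mk (nat_lit 27216) (nat_lit 10098) (nat_lit 195914102782) (nat_lit 10659) (nat_lit 443409993) (nat_lit 10846) (nat_lit 294481367609),Row.mk (nat_lit 27384) (nat_lit 10659) (nat_lit 244909643482) (nat_lit 11220) (nat_lit 346630253) (nat_lit 11407) (nat_lit 255330282395),Row.mk (nat_lit 27552) (nat_lit 11220) (nat_lit 306060503575) (nat_lit 11781) (nat_lit 269142976) (nat_lit 11968) (nat_lit 206431521435),Row.mk (nat_lit 27720) (nat_lit 11781) (nat_lit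 382401713550) (nat_lit 12529) (nat_lit 207102324) (nat_lit 12716) (nat_lit 145358148620),Row.mk (nat_lit 27888) (nat_lit 12529) (nat_lit 477722229110) (nat_lit 13277) (nat_lit 157429105) (nat_lit 13464) (nat_lit 69078979296),Row.mk (nat_lit 28056) (nat_lit 12342) (nat_lit 32566053158) (nat_lit 13090) (nat_lit 146951936) (nat_lit 13277) (nat_lit 537965773865),Row.mk (nat_lit 28224) (nat_lit 13090) (nat_lit 181222692554) (nat_lit 13838) (nat_lit 107180777) (nat_lit 14025) (nat_lit 418974790076),Row.mk (nat_lit 28392) (nat_lit 13838) (nat_lit 366873418795) (nat_lit 14960) (nat_lit 75337761) (nat_lit 15147) (nat_lit 270357921839),Row.mk (nat_lit 28560) (nat_lit 14960) (nat_lit 598732421409) (nat_lit 16269) (nat_lit 49842459) (nat_lit 16456) (nat_lit 84739038615),Row.mk (nat_lit 28728) (nat_lit 14773) (nat_lit 183680686196) (nat_lit 16082) (nat_lit 36756728) (nat_lit 16269) (nat_lit 557524810174),Row.mk (nat_lit 28896) (nat_lit 16082)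 (nat_lit 545347631957) (nat_lit 17578) (nat_lit 16343762) (nat_lit 17765) (nat_lit 267970352247),Row.mk (nat_lit 29064) (nat_lit 15895) (nat_lit 116999289679) (nat_lit 17578) (nat_lit 786376300663) (nat_lit 0) (nat_lit 0),Row.mk (nat_lit 29232) (nat_lit 17391) (nat_lit 681146449420) (nat_lit 17578) (nat_lit 16343762) (nat_lit 19635) (nat_lit 334672161729),Row.mk (nat_lit 29400) (nat_lit 17204) (nat_lit 286588323741) (nat_lit 17391) (nat_lit 36756728) (nat_lit 19448) (nat_lit 869668907842),Row.mk (nat_lit 29568) (nat_lit 19261) (nat_lit 1166624461190) (nat_lit 19448) (nat_lit 49842459) (nat_lit 25806) (nat_lit 165049628970),Row.mk (nat_lit 29736) (nat_lit 19074) (nat_lit 892938648865) (nat_lit 19261) (nat_lit 75337761) (nat_lit 25619) (nat_lit 657817714399),Row.mk (nat_lit 29904) (nat_lit 18887) (nat_lit 551111671613) (nat_lit 19074) (nat_lit 107180777) (nat_lit 25432) (nat_lit 1273273165659),Row.mk (nat_lit 30072) (nat_lit 18700)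 (nat_lit 124178023193) (nat_lit 18887) (nat_lit 146951936) (nat_lit 25245) (nat_lit 2041962177154),Row.mk (nat_lit 30240) (nat_lit 25058) (nat_lit 2265671257568) (nat_lit 25245) (nat_lit 157429105) (nat_lit 31603) (nat_lit 327352342872),Row.mk (nat_lit 30408) (nat_lit 24871) (nat_lit 2265621584349) (nat_lit 25058) (nat_lit 207102324) (nat_lit 31416) (nat_lit 860532497265),Row.mk (nat_lit 30576) (nat_lit 24684) (nat_lit 2265559543697) (nat_lit 24871) (nat_lit 269142976) (nat_lit 31229) (nat_lit 1526461647769),Row.mk (nat_lit 30744) (nat_lit 24497) (nat_lit 2265482056420) (nat_lit 24684) (nat_lit 346630253) (nat_lit 31042) (nat_lit 2358191092002),Row.mk (nat_lit 30912) (nat_lit 24310) (nat_lit 2265385276680) (nat_lit 24497) (nat_lit 443409993) (nat_lit 30855) (nat_lit 3397001103371),Row.mk (nat_lit 31080) (nat_lit 24123) (nat_lit 2265264401119) (nat_lit 24310) (nat_lit 564285554) (nat_lit 30668) (nat_lit 4694449747521),Row.mk (nat_lit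 31248) (nat_lit 23936) (nat_lit 2265113430460) (nat_lit 24123) (nat_lit 715256213) (nat_lit 30481) (nat_lit 6314931804665),Row.mk (nat_lit 31416) (nat_lit 23749) (nat_lit 2264924871748) (nat_lit 23936) (nat_lit 903814925) (nat_lit 30294) (nat_lit 8338874801844),Row.mk (nat_lit 31584) (nat_lit 23562) (nat_lit 2264689366466) (nat_lit 23749) (nat_lit 1139320207) (nat_lit 30107) (nat_lit 10866730780115),Row.mk (nat_lit 31752) (nat_lit 23375) (nat_lit 2264395226051) (nat_lit 23562) (nat_lit 1433460622) (nat_lit 29920) (nat_lit 14023961915470),Row.mk (nat_lit 31920) (nat_lit 23188) (nat_lit 2264027851767) (nat_lit 23375) (nat_lit 1800834906) (nat_lit 29733) (nat_lit 17967267439100),Row.mk (nat_lit 32088) (nat_lit 23001) (nat_lit 2263569010149) (nat_lit 23188) (nat_lit 2259676524) (nat_lit 29546) (nat_lit 22892360910579),Row.mk (nat_lit 32256) (nat_lit 22814) (nat_lit 2262995928038) (nat_lit 23001) (nat_lit 2832758635) (nat_lit 29359) (nat_lit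 29043683844461),Row.mk (nat_lit 32424) (nat_lit 22627) (nat_lit 2262280162305) (nat_lit 22814) (nat_lit 3548524368) (nat_lit 29172) (nat_lit 36726537795564),Row.mk (nat_lit 32592) (nat_lit 22440) (nat_lit 2261386188172) (nat_lit 22627) (nat_lit 4442498501) (nat_lit 28985) (nat_lit 46322237040819),Row.mk (nat_lit 32760) (nat_lit 22253) (nat_lit 2260269636046) (nat_lit 22440) (nat_lit 5559050627) (nat_lit 28798) (nat_lit 58307033913363),Row.mk (nat_lit 32928) (nat_lit 22066) (nat_lit 2258875089377) (nat_lit 22253) (nat_lit 6953597296) (nat_lit 28611) (nat_lit 73275756088266),Row.mk (nat_lit 33096) (nat_lit 21879) (nat_lit 2257133334228) (nat_lit 22066) (nat_lit 8695352445) (nat_lit 28424) (nat_lit 91971328982182),Row.mk (nat_lit 33264) (nat_lit 21692) (nat_lit 2254957924065) (nat_lit 21879) (nat_lit 10870762608) (nat_lit 28237) (nat_lit 115321648518325),Row.mk (nat_lit 33432) (nat_lit 21505) (nat_lit 2252240889250) (nat_lit 21692) (nat_lit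 13587797423) (nat_lit 28050) (nat_lit 144485634320408),Row.mk (nat_lit 33600) (nat_lit 21318) (nat_lit 2248847378312) (nat_lit 21505) (nat_lit 16981308361) (nat_lit 27863) (nat_lit 180910749040897),Row.mk (nat_lit 33768) (nat_lit 21131) (nat_lit 2244608965015) (nat_lit 21318) (nat_lit 21219721658) (nat_lit 27676) (nat_lit 226404838614417),Row.mk (nat_lit 33936) (nat_lit 20944) (nat_lit 2239315289054) (nat_lit 21131) (nat_lit 26513397619) (nat_lit 27489) (nat_lit 283225859001189),Row.mk (nat_lit 34104) (nat_lit 32912) (nat_lit 451696183779) (nat_lit 62084) (nat_lit 355556395821371) (nat_lit 0) (nat_lit 0)],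
[Row.mk (nat_lit 19152) (nat_lit 32912) (nat_lit 9296740) (nat_lit 61897) (nat_lit 564138771133) (nat_lit 0) (nat_lit 0),Row.mk (nat_lit 19320) (nat_lit 32912) (nat_lit 9522844) (nat_lit 61897) (nat_lit 564138771133) (nat_lit 0) (nat_lit 0),Row.mk (nat_lit 19488) (nat_lit 32912) (nat_lit 9805241) (nat_lit 61897) (nat_lit 564138771133) (nat_lit 0) (nat_lit 0),Row.mk (nat_lit 19656) (nat_lit 32912) (nat_lit 10157949) (nat_lit 61897) (nat_lit 564138771133) (nat_lit 0) (nat_lit 0),Row.mk (nat_lit 19824) (nat_lit 32912) (nat_lit 10598472) (nat_lit 61897) (nat_lit 564138771133) (nat_lit 0) (nat_lit 0),Row.mk (nat_lit 19992) (nat_lit 32912) (nat_lit 11148675) (nat_lit 61897) (nat_lit 564138771133) (nat_lit 0) (nat_lit 0),Row.mk (nat_lit 20160) (nat_lit 32912) (nat_lit 11835865) (nat_lit 61897) (nat_lit 564138771133) (nat_lit 0) (nat_lit 0),Row.mk (nat_lit 20328) (nat_lit 32912) (nat_lit 12694149) (nat_lit 61897) (nat_lit 564138771133) (nat_lit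 0) (nat_lit 0),Row.mk (nat_lit 20496) (nat_lit 32912) (nat_lit 13766125) (nat_lit 61897) (nat_lit 564138771133) (nat_lit 0) (nat_lit 0),Row.mk (nat_lit 20664) (nat_lit 32912) (nat_lit 15104997) (nat_lit 61897) (nat_lit 564138771133) (nat_lit 0) (nat_lit 0),Row.mk (nat_lit 20832) (nat_lit 32912) (nat_lit 16777216) (nat_lit 61897) (nat_lit 564138771133) (nat_lit 0) (nat_lit 0),Row.mk (nat_lit 21000) (nat_lit 32912) (nat_lit 18865777) (nat_lit 61897) (nat_lit 564136682572) (nat_lit 0) (nat_lit 0),Row.mk (nat_lit 21168) (nat_lit 32912) (nat_lit 21474339) (nat_lit 61897) (nat_lit 564134074009) (nat_lit 0) (nat_lit 0),Row.mk (nat_lit 21336) (nat_lit 32912) (nat_lit 24732370) (nat_lit 61897) (nat_lit 564130815978) (nat_lit 0) (nat_lit 0),Row.mk (nat_lit 21504) (nat_lit 32912) (nat_lit 28801573) (nat_lit 61897) (nat_lit 564126746775) (nat_lit 0) (nat_lit 0),Row.mk (nat_lit 21672) (nat_lit 32912) (nat_lit 33883909) (nat_lit 61897) (nat_lit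 564121664439) (nat_lit 0) (nat_lit 0),Row.mk (nat_lit 21840) (nat_lit 32912) (nat_lit 40231624) (nat_lit 61897) (nat_lit 564115316724) (nat_lit 0) (nat_lit 0),Row.mk (nat_lit 22008) (nat_lit 32912) (nat_lit 48159767) (nat_lit 61897) (nat_lit 564107388581) (nat_lit 0) (nat_lit 0),Row.mk (nat_lit 22176) (nat_lit 32912) (nat_lit 58061826) (nat_lit 61897) (nat_lit 564097486522) (nat_lit 0) (nat_lit 0),Row.mk (nat_lit 22344) (nat_lit 32912) (nat_lit 70429259) (nat_lit 61897) (nat_lit 564085119089) (nat_lit 0) (nat_lit 0),Row.mk (nat_lit 22512) (nat_lit 32912) (nat_lit 85875885) (nat_lit 61897) (nat_lit 564069672463) (nat_lit 0) (nat_lit 0),Row.mk (nat_lit 22680) (nat_lit 32912) (nat_lit 105168348) (nat_lit 61897) (nat_lit 564050380000) (nat_lit 0) (nat_lit 0),Row.mk (nat_lit 22848) (nat_lit 32912) (nat_lit 129264168) (nat_lit 61897) (nat_lit 564026284180) (nat_lit 0) (nat_lit 0),Row.mk (nat_lit 23016) (nat_lit 32912) (nat_lit 159359267)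 (nat_lit 61897) (nat_lit 563996189081) (nat_lit 0) (nat_lit 0),Row.mk (nat_lit 23184) (nat_lit 32912) (nat_lit 196947319) (nat_lit 61897) (nat_lit 563958601029) (nat_lit 0) (nat_lit 0),Row.mk (nat_lit 23352) (nat_lit 32912) (nat_lit 243893889) (nat_lit 61897) (nat_lit 563911654459) (nat_lit 0) (nat_lit 0),Row.mk (nat_lit 23520) (nat_lit 32912) (nat_lit 302529023) (nat_lit 61897) (nat_lit 563853019325) (nat_lit 0) (nat_lit 0),Row.mk (nat_lit 23688) (nat_lit 32912) (nat_lit 375762891) (nat_lit 61897) (nat_lit 563779785457) (nat_lit 0) (nat_lit 0),Row.mk (nat_lit 23856) (nat_lit 32912) (nat_lit 467230225) (nat_lit 61897) (nat_lit 563688318123) (nat_lit 0) (nat_lit 0),Row.mk (nat_lit 24024) (nat_lit 32912) (nat_lit 581470719) (nat_lit 61897) (nat_lit 563574077629) (nat_lit 0) (nat_lit 0),Row.mk (nat_lit 24192) (nat_lit 0) (nat_lit 3548524368) (nat_lit 187) (nat_lit 537633762121) (nat_lit 748) (nat_lit 23680638983),Row.mk (nat_lit 24360)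 (nat_lit 561) (nat_lit 4442498501) (nat_lit 748) (nat_lit 542927438082) (nat_lit 1309) (nat_lit 17671197289),Row.mk (nat_lit 24528) (nat_lit 1122) (nat_lit 5559050627) (nat_lit 1309) (nat_lit 547165851379) (nat_lit 1870) (nat_lit 12538809859),Row.mk (nat_lit 24696) (nat_lit 1683) (nat_lit 6953597296) (nat_lit 1870) (nat_lit 550559362317) (nat_lit 2431) (nat_lit 8028746795),Row.mk (nat_lit 24864) (nat_lit 2244) (nat_lit 8695352445) (nat_lit 2431) (nat_lit 553276397132) (nat_lit 2992) (nat_lit 3917165311),Row.mk (nat_lit 25032) (nat_lit 2805) (nat_lit 10870762608) (nat_lit 2992) (nat_lit 555451807295) (nat_lit 0) (nat_lit 0),Row.mk (nat_lit 25200) (nat_lit 2805) (nat_lit 4892444977) (nat_lit 3366) (nat_lit 8695352445) (nat_lit 3553) (nat_lit 553276397132),Row.mk (nat_lit 25368) (nat_lit 3366) (nat_lit 10027711064) (nat_lit 3927) (nat_lit 6953597296) (nat_lit 4114) (nat_lit 550559362317),Row.mk (nat_lit 25536) (nat_lit 3927) (nat_lit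 15660671031) (nat_lit 4488) (nat_lit 5559050627) (nat_lit 4675) (nat_lit 547165851379),Row.mk (nat_lit 25704) (nat_lit 4488) (nat_lit 22070899118) (nat_lit 5049) (nat_lit 4442498501) (nat_lit 5236) (nat_lit 542927438082),Row.mk (nat_lit 25872) (nat_lit 5049) (nat_lit 29576546823) (nat_lit 5610) (nat_lit 3548524368) (nat_lit 5797) (nat_lit 537633762121),Row.mk (nat_lit 26040) (nat_lit 5610) (nat_lit 38550133349) (nat_lit 6171) (nat_lit 2832758635) (nat_lit 6358) (nat_lit 531022088548),Row.mk (nat_lit 26208) (nat_lit 6171) (nat_lit 49437034421) (nat_lit 6732) (nat_lit 2259676524) (nat_lit 6919) (nat_lit 522764267755),Row.mk (nat_lit 26376) (nat_lit 6732) (nat_lit 62777587112) (nat_lit 7293) (nat_lit 1800834906) (nat_lit 7480) (nat_lit 512450448795),Row.mk (nat_lit 26544) (nat_lit 7293) (nat_lit 79233907770) (nat_lit 7854) (nat_lit 1433460622) (nat_lit 8041) (nat_lit 499568737721),Row.mk (nat_lit 26712) (nat_lit 7854) (nat_lit 99622754081)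 (nat_lit 8415) (nat_lit 1139320207) (nat_lit 8602) (nat_lit 483479791347),Row.mk (nat_lit 26880) (nat_lit 8415) (nat_lit 124956062266) (nat_lit 8976) (nat_lit 903814925) (nat_lit 9163) (nat_lit 463385085452),Row.mk (nat_lit 27048) (nat_lit 8976) (nat_lit 156491171348) (nat_lit 9537) (nat_lit 715256213) (nat_lit 9724) (nat_lit 438287282549),Row.mk (nat_lit 27216) (nat_lit 9537) (nat_lit 195793227222) (nat_lit 10098) (nat_lit 564285554) (nat_lit 10285) (nat_lit 406940732179),Row.mk (nat_lit 27384) (nat_lit 10098) (nat_lit 244812863742) (nat_lit 10659) (nat_lit 443409993) (nat_lit 10846) (nat_lit 367789646964),Row.mk (nat_lit 27552) (nat_lit 10659) (nat_lit 305983016297) (nat_lit 11220) (nat_lit 346630253) (nat_lit 11407) (nat_lit 318890886004),Row.mk (nat_lit 27720) (nat_lit 11220) (nat_lit 382339672898) (nat_lit 11781) (nat_lit 269142976) (nat_lit 11968) (nat_lit 257817513189),Row.mk (nat_lit 27888) (nat_lit 11781) (nat_lit 477672555891)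 (nat_lit 12529) (nat_lit 207102324) (nat_lit 12716) (nat_lit 181538343866),Row.mk (nat_lit 28056) (nat_lit 12529) (nat_lit 596713212899) (nat_lit 13277) (nat_lit 157429105) (nat_lit 13464) (nat_lit 86267501525),Row.mk (nat_lit 28224) (nat_lit 12342) (nat_lit 40723887996) (nat_lit 13090) (nat_lit 146951936) (nat_lit 13277) (nat_lit 671893188045),Row.mk (nat_lit 28392) (nat_lit 13090) (nat_lit 226382542379) (nat_lit 13838) (nat_lit 107180777) (nat_lit 14025) (nat_lit 523276319808),Row.mk (nat_lit 28560) (nat_lit 13838) (nat_lit 458247892708) (nat_lit 14960) (nat_lit 75337761) (nat_lit 15147) (nat_lit 337657436584),Row.mk (nat_lit 28728) (nat_lit 14960) (nat_lit 747827845937) (nat_lit 16269) (nat_lit 49842459) (nat_lit 16456) (nat_lit 105823929271),Row.mk (nat_lit 28896) (nat_lit 14773) (nat_lit 229438241283) (nat_lit 16082) (nat_lit 36756728) (nat_lit 16269) (nat_lit 696318694525),Row.mk (nat_lit 29064) (nat_lit 16082) (nat_lit 681146449420)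 (nat_lit 17578) (nat_lit 16343762) (nat_lit 17765) (nat_lit 334672161729),Row.mk (nat_lit 29232) (nat_lit 15895) (nat_lit 146149703307) (nat_lit 17578) (nat_lit 982144616174) (nat_lit 0) (nat_lit 0),Row.mk (nat_lit 29400) (nat_lit 17391) (nat_lit 850755896447) (nat_lit 17578) (nat_lit 16343762) (nat_lit 19635) (nat_lit 417981112670),Row.mk (nat_lit 29568) (nat_lit 17204) (nat_lit 357967398053) (nat_lit 17391) (nat_lit 36756728) (nat_lit 19448) (nat_lit 1086179142409),Row.mk (nat_lit 29736) (nat_lit 19261) (nat_lit 1457111303907) (nat_lit 19448) (nat_lit 49842459) (nat_lit 25806) (nat_lit 206129919228),Row.mk (nat_lit 29904) (nat_lit 19074) (nat_lit 1115290674371) (nat_lit 19261) (nat_lit 75337761) (nat_lit 25619) (nat_lit 821585370487),Row.mk (nat_lit 30072) (nat_lit 18887) (nat_lit 688364954094) (nat_lit 19074) (nat_lit 107180777) (nat_lit 25432) (nat_lit 1590274381983),Row.mk (nat_lit 30240) (nat_lit 18700) (nat_lit 155145028541)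 (nat_lit 18887) (nat_lit 146951936) (nat_lit 25245) (nat_lit 2550348413637),Row.mk (nat_lit 30408) (nat_lit 25058) (nat_lit 2829818417309) (nat_lit 25245) (nat_lit 157429105) (nat_lit 31603) (nat_lit 408844702093),Row.mk (nat_lit 30576) (nat_lit 24871) (nat_lit 2829768744090) (nat_lit 25058) (nat_lit 207102324) (nat_lit 31416) (nat_lit 1074773852597),Row.mk (nat_lit 30744) (nat_lit 24684) (nat_lit 2829706703438) (nat_lit 24871) (nat_lit 269142976) (nat_lit 31229) (nat_lit 1906503296831),Row.mk (nat_lit 30912) (nat_lit 24497) (nat_lit 2829629216161) (nat_lit 24684) (nat_lit 346630253) (nat_lit 31042) (nat_lit 2945313308200),Row.mk (nat_lit 31080) (nat_lit 24310) (nat_lit 2829532436421) (nat_lit 24497) (nat_lit 443409993) (nat_lit 30855) (nat_lit 4242761952349),Row.mk (nat_lit 31248) (nat_lit 24123) (nat_lit 2829411560860) (nat_lit 24310) (nat_lit 564285554) (nat_lit 30668) (nat_lit 5863244009493),Row.mk (nat_lit 31416) (nat_lit 23936)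 (nat_lit 2829260590201) (nat_lit 24123) (nat_lit 715256213) (nat_lit 30481) (nat_lit 7887187006673),Row.mk (nat_lit 31584) (nat_lit 23749) (nat_lit 2829072031489) (nat_lit 23936) (nat_lit 903814925) (nat_lit 30294) (nat_lit 10415042984944),Row.mk (nat_lit 31752) (nat_lit 23562) (nat_lit 2828836526207) (nat_lit 23749) (nat_lit 1139320207) (nat_lit 30107) (nat_lit 13572274120299),Row.mk (nat_lit 31920) (nat_lit 23375) (nat_lit 2828542385792) (nat_lit 23562) (nat_lit 1433460622) (nat_lit 29920) (nat_lit 17515579643928),Row.mk (nat_lit 32088) (nat_lit 23188) (nat_lit 2828175011508) (nat_lit 23375) (nat_lit 1800834906) (nat_lit 29733) (nat_lit 22440673115407),Row.mk (nat_lit 32256) (nat_lit 23001) (nat_lit 2827716169890) (nat_lit 23188) (nat_lit 2259676524) (nat_lit 29546) (nat_lit 28591996049290),Row.mk (nat_lit 32424) (nat_lit 22814) (nat_lit 2827143087779) (nat_lit 23001) (nat_lit 2832758635) (nat_lit 29359) (nat_lit 36274850000392),Row.mk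 (nat_lit 32592) (nat_lit 22627) (nat_lit 2826427322046) (nat_lit 22814) (nat_lit 3548524368) (nat_lit 29172) (nat_lit 45870549245647),Row.mk (nat_lit 32760) (nat_lit 22440) (nat_lit 2825533347913) (nat_lit 22627) (nat_lit 4442498501) (nat_lit 28985) (nat_lit 57855346118192),Row.mk (nat_lit 32928) (nat_lit 22253) (nat_lit 2824416795787) (nat_lit 22440) (nat_lit 5559050627) (nat_lit 28798) (nat_lit 72824068293094),Row.mk (nat_lit 33096) (nat_lit 22066) (nat_lit 2823022249118) (nat_lit 22253) (nat_lit 6953597296) (nat_lit 28611) (nat_lit 91519641187011),Row.mk (nat_lit 33264) (nat_lit 21879) (nat_lit 2821280493969) (nat_lit 22066) (nat_lit 8695352445) (nat_lit 28424) (nat_lit 114869960723153),Row.mk (nat_lit 33432) (nat_lit 21692) (nat_lit 2819105083806) (nat_lit 21879) (nat_lit 10870762608) (nat_lit 28237) (nat_lit 144033946525236),Row.mk (nat_lit 33600) (nat_lit 21505) (nat_lit 2816388048991) (nat_lit 21692) (nat_lit 13587797423) (nat_lit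 28050) (nat_lit 180459061245726),Row.mk (nat_lit 33768) (nat_lit 21318) (nat_lit 2812994538053) (nat_lit 21505) (nat_lit 16981308361) (nat_lit 27863) (nat_lit 225953150819245),Row.mk (nat_lit 33936) (nat_lit 21131) (nat_lit 2808756124756) (nat_lit 21318) (nat_lit 21219721658) (nat_lit 27676) (nat_lit 282774171206017),Row.mk (nat_lit 34104) (nat_lit 20944) (nat_lit 2803462448795) (nat_lit 21131) (nat_lit 26513397619) (nat_lit 27489) (nat_lit 353742254929869),Row.mk (nat_lit 34272) (nat_lit 32912) (nat_lit 564155548349) (nat_lit 62084) (nat_lit 444081361007667) (nat_lit 0) (nat_lit 0)],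
[Row.mk (nat_lit 19320) (nat_lit 32912) (nat_lit 9522844) (nat_lit 61897) (nat_lit 704597804532) (nat_lit 0) (nat_lit 0),Row.mk (nat_lit 19488) (nat_lit 32912) (nat_lit 9805241) (nat_lit 61897) (nat_lit 704597804532) (nat_lit 0) (nat_lit 0),Row.mk (nat_lit 19656) (nat_lit 32912) (nat_lit 10157949) (nat_lit 61897) (nat_lit 704597804532) (nat_lit 0) (nat_lit 0),Row.mk (nat_lit 19824) (nat_lit 32912) (nat_lit 10598472) (nat_lit 61897) (nat_lit 704597804532) (nat_lit 0) (nat_lit 0),Row.mk (nat_lit 19992) (nat_lit 32912) (nat_lit 11148675) (nat_lit 61897) (nat_lit 704597804532) (nat_lit 0) (nat_lit 0),Row.mk (nat_lit 20160) (nat_lit 32912) (nat_lit 11835865) (nat_lit 61897) (nat_lit 704597804532) (nat_lit 0) (nat_lit 0),Row.mk (nat_lit 20328) (nat_lit 32912) (nat_lit 12694149) (nat_lit 61897) (nat_lit 704597804532) (nat_lit 0) (nat_lit 0),Row.mk (nat_lit 20496) (nat_lit 32912) (nat_lit 13766125) (nat_lit 61897) (nat_lit 704597804532) (nat_lit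 0) (nat_lit 0),Row.mk (nat_lit 20664) (nat_lit 32912) (nat_lit 15104997) (nat_lit 61897) (nat_lit 704597804532) (nat_lit 0) (nat_lit 0),Row.mk (nat_lit 20832) (nat_lit 32912) (nat_lit 16777216) (nat_lit 61897) (nat_lit 704597804532) (nat_lit 0) (nat_lit 0),Row.mk (nat_lit 21000) (nat_lit 32912) (nat_lit 18865777) (nat_lit 61897) (nat_lit 704595715971) (nat_lit 0) (nat_lit 0),Row.mk (nat_lit 21168) (nat_lit 32912) (nat_lit 21474339) (nat_lit 61897) (nat_lit 704593107409) (nat_lit 0) (nat_lit 0),Row.mk (nat_lit 21336) (nat_lit 32912) (nat_lit 24732370) (nat_lit 61897) (nat_lit 704589849377) (nat_lit 0) (nat_lit 0),Row.mk (nat_lit 21504) (nat_lit 32912) (nat_lit 28801573) (nat_lit 61897) (nat_lit 704585780174) (nat_lit 0) (nat_lit 0),Row.mk (nat_lit 21672) (nat_lit 32912) (nat_lit 33883909) (nat_lit 61897) (nat_lit 704580697838) (nat_lit 0) (nat_lit 0),Row.mk (nat_lit 21840) (nat_lit 32912) (nat_lit 40231624) (nat_lit 61897) (nat_lit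 704574350123) (nat_lit 0) (nat_lit 0),Row.mk (nat_lit 22008) (nat_lit 32912) (nat_lit 48159767) (nat_lit 61897) (nat_lit 704566421981) (nat_lit 0) (nat_lit 0),Row.mk (nat_lit 22176) (nat_lit 32912) (nat_lit 58061826) (nat_lit 61897) (nat_lit 704556519921) (nat_lit 0) (nat_lit 0),Row.mk (nat_lit 22344) (nat_lit 32912) (nat_lit 70429259) (nat_lit 61897) (nat_lit 704544152488) (nat_lit 0) (nat_lit 0),Row.mk (nat_lit 22512) (nat_lit 32912) (nat_lit 85875885) (nat_lit 61897) (nat_lit 704528705863) (nat_lit 0) (nat_lit 0),Row.mk (nat_lit 22680) (nat_lit 32912) (nat_lit 105168348) (nat_lit 61897) (nat_lit 704509413400) (nat_lit 0) (nat_lit 0),Row.mk (nat_lit 22848) (nat_lit 32912) (nat_lit 129264168) (nat_lit 61897) (nat_lit 704485317579) (nat_lit 0) (nat_lit 0),Row.mk (nat_lit 23016) (nat_lit 32912) (nat_lit 159359267) (nat_lit 61897) (nat_lit 704455222481) (nat_lit 0) (nat_lit 0),Row.mk (nat_lit 23184) (nat_lit 32912) (nat_lit 196947319)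 (nat_lit 61897) (nat_lit 704417634428) (nat_lit 0) (nat_lit 0),Row.mk (nat_lit 23352) (nat_lit 32912) (nat_lit 243893889) (nat_lit 61897) (nat_lit 704370687858) (nat_lit 0) (nat_lit 0),Row.mk (nat_lit 23520) (nat_lit 32912) (nat_lit 302529023) (nat_lit 61897) (nat_lit 704312052724) (nat_lit 0) (nat_lit 0),Row.mk (nat_lit 23688) (nat_lit 32912) (nat_lit 375762891) (nat_lit 61897) (nat_lit 704238818856) (nat_lit 0) (nat_lit 0),Row.mk (nat_lit 23856) (nat_lit 32912) (nat_lit 467230225) (nat_lit 61897) (nat_lit 704147351522) (nat_lit 0) (nat_lit 0),Row.mk (nat_lit 24024) (nat_lit 32912) (nat_lit 581470719) (nat_lit 61897) (nat_lit 704033111028) (nat_lit 0) (nat_lit 0),Row.mk (nat_lit 24192) (nat_lit 32912) (nat_lit 724154340) (nat_lit 61897) (nat_lit 703890427407) (nat_lit 0) (nat_lit 0),Row.mk (nat_lit 24360) (nat_lit 0) (nat_lit 4442498501) (nat_lit 187) (nat_lit 678092795520) (nat_lit 748) (nat_lit 22964873251),Row.mk (nat_lit 24528)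 (nat_lit 561) (nat_lit 5559050627) (nat_lit 748) (nat_lit 683386471481) (nat_lit 1309) (nat_lit 16777223157),Row.mk (nat_lit 24696) (nat_lit 1122) (nat_lit 6953597296) (nat_lit 1309) (nat_lit 687624884779) (nat_lit 1870) (nat_lit 11422257733),Row.mk (nat_lit 24864) (nat_lit 1683) (nat_lit 8695352445) (nat_lit 1870) (nat_lit 691018395717) (nat_lit 2431) (nat_lit 6634200126),Row.mk (nat_lit 25032) (nat_lit 2244) (nat_lit 10870762608) (nat_lit 2431) (nat_lit 693735430531) (nat_lit 2992) (nat_lit 2175410163),Row.mk (nat_lit 25200) (nat_lit 2244) (nat_lit 2717034814) (nat_lit 2805) (nat_lit 10870762608) (nat_lit 2992) (nat_lit 693735430531),Row.mk (nat_lit 25368) (nat_lit 2805) (nat_lit 8285955915) (nat_lit 3366) (nat_lit 8695352445) (nat_lit 3553) (nat_lit 691018395717),Row.mk (nat_lit 25536) (nat_lit 3366) (nat_lit 14266124361) (nat_lit 3927) (nat_lit 6953597296) (nat_lit 4114) (nat_lit 687624884779),Row.mk (nat_lit 25704) (nat_lit 3927)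 (nat_lit 20954346992) (nat_lit 4488) (nat_lit 5559050627) (nat_lit 4675) (nat_lit 683386471481),Row.mk (nat_lit 25872) (nat_lit 4488) (nat_lit 28682572690) (nat_lit 5049) (nat_lit 4442498501) (nat_lit 5236) (nat_lit 678092795520),Row.mk (nat_lit 26040) (nat_lit 5049) (nat_lit 37834367616) (nat_lit 5610) (nat_lit 3548524368) (nat_lit 5797) (nat_lit 671481121948),Row.mk (nat_lit 26208) (nat_lit 5610) (nat_lit 48863952310) (nat_lit 6171) (nat_lit 2832758635) (nat_lit 6358) (nat_lit 663223301154),Row.mk (nat_lit 26376) (nat_lit 6171) (nat_lit 62318745494) (nat_lit 6732) (nat_lit 2259676524) (nat_lit 6919) (nat_lit 652909482194),Row.mk (nat_lit 26544) (nat_lit 6732) (nat_lit 78866533487) (nat_lit 7293) (nat_lit 1800834906) (nat_lit 7480) (nat_lit 640027771121),Row.mk (nat_lit 26712) (nat_lit 7293) (nat_lit 99328613665) (nat_lit 7854) (nat_lit 1433460622) (nat_lit 8041) (nat_lit 623938824746),Row.mk (nat_lit 26880) (nat_lit 7854) (nat_lit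 124720556984) (nat_lit 8415) (nat_lit 1139320207) (nat_lit 8602) (nat_lit 603844118851),Row.mk (nat_lit 27048) (nat_lit 8415) (nat_lit 156302612636) (nat_lit 8976) (nat_lit 903814925) (nat_lit 9163) (nat_lit 578746315949),Row.mk (nat_lit 27216) (nat_lit 8976) (nat_lit 195642256562) (nat_lit 9537) (nat_lit 715256213) (nat_lit 9724) (nat_lit 547399765578),Row.mk (nat_lit 27384) (nat_lit 9537) (nat_lit 244691988182) (nat_lit 10098) (nat_lit 564285554) (nat_lit 10285) (nat_lit 508248680363),Row.mk (nat_lit 27552) (nat_lit 10098) (nat_lit 305886236557) (nat_lit 10659) (nat_lit 443409993) (nat_lit 10846) (nat_lit 459349919404),Row.mk (nat_lit 27720) (nat_lit 10659) (nat_lit 382262185621) (nat_lit 11220) (nat_lit 346630253) (nat_lit 11407) (nat_lit 398276546589),Row.mk (nat_lit 27888) (nat_lit 11220) (nat_lit 477610515239) (nat_lit 11781) (nat_lit 269142976) (nat_lit 11968) (nat_lit 321997377265),Row.mk (nat_lit 28056) (nat_lit 11781) (nat_lit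 596663539680) (nat_lit 12529) (nat_lit 207102324) (nat_lit 12716) (nat_lit 226726534924),Row.mk (nat_lit 28224) (nat_lit 12529) (nat_lit 745330081136) (nat_lit 13277) (nat_lit 157429105) (nat_lit 13464) (nat_lit 107735551135),Row.mk (nat_lit 28392) (nat_lit 12342) (nat_lit 50912826910) (nat_lit 13090) (nat_lit 146951936) (nat_lit 13277) (nat_lit 839165297516),Row.mk (nat_lit 28560) (nat_lit 13090) (nat_lit 282786105382) (nat_lit 13838) (nat_lit 107180777) (nat_lit 14025) (nat_lit 653546414293),Row.mk (nat_lit 28728) (nat_lit 13838) (nat_lit 572372406326) (nat_lit 14960) (nat_lit 75337761) (nat_lit 15147) (nat_lit 421712906980),Row.mk (nat_lit 28896) (nat_lit 14960) (nat_lit 934044434423) (nat_lit 16269) (nat_lit 49842459) (nat_lit 16456) (nat_lit 132158449052),Row.mk (nat_lit 29064) (nat_lit 14773) (nat_lit 286588323741) (nat_lit 16082) (nat_lit 36756728) (nat_lit 16269) (nat_lit 869668907842),Row.mk (nat_lit 29232) (nat_lit 16082)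 (nat_lit 850755896447) (nat_lit 17578) (nat_lit 16343762) (nat_lit 17765) (nat_lit 417981112670),Row.mk (nat_lit 29400) (nat_lit 15895) (nat_lit 182557866709) (nat_lit 17578) (nat_lit 1226654519571) (nat_lit 0) (nat_lit 0),Row.mk (nat_lit 29568) (nat_lit 17391) (nat_lit 1062594004159) (nat_lit 17578) (nat_lit 16343762) (nat_lit 19635) (nat_lit 522031982668),Row.mk (nat_lit 29736) (nat_lit 17204) (nat_lit 447118139934) (nat_lit 17391) (nat_lit 36756728) (nat_lit 19448) (nat_lit 1356595202332),Row.mk (nat_lit 29904) (nat_lit 19261) (nat_lit 1819922362812) (nat_lit 19448) (nat_lit 49842459) (nat_lit 25806) (nat_lit 257438210746),Row.mk (nat_lit 30072) (nat_lit 19074) (nat_lit 1393002990250) (nat_lit 19261) (nat_lit 75337761) (nat_lit 25619) (nat_lit 1026127222242),Row.mk (nat_lit 30240) (nat_lit 18887) (nat_lit 859790992840) (nat_lit 19074) (nat_lit 107180777) (nat_lit 25432) (nat_lit 1986201253896),Row.mk (nat_lit 30408) (nat_lit 18700)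 (nat_lit 193822071178) (nat_lit 18887) (nat_lit 146951936) (nat_lit 25245) (nat_lit 3185310558793),Row.mk (nat_lit 30576) (nat_lit 25058) (nat_lit 3534424610449) (nat_lit 25245) (nat_lit 157429105) (nat_lit 31603) (nat_lit 510626692856),Row.mk (nat_lit 30744) (nat_lit 24871) (nat_lit 3534374937230) (nat_lit 25058) (nat_lit 207102324) (nat_lit 31416) (nat_lit 1342356137090),Row.mk (nat_lit 30912) (nat_lit 24684) (nat_lit 3534312896579) (nat_lit 24871) (nat_lit 269142976) (nat_lit 31229) (nat_lit 2381166148459),Row.mk (nat_lit 31080) (nat_lit 24497) (nat_lit 3534235409301) (nat_lit 24684) (nat_lit 346630253) (nat_lit 31042) (nat_lit 3678614792608),Row.mk (nat_lit 31248) (nat_lit 24310) (nat_lit 3534138629561) (nat_lit 24497) (nat_lit 443409993) (nat_lit 30855) (nat_lit 5299096849752),Row.mk (nat_lit 31416) (nat_lit 24123) (nat_lit 3534017754001) (nat_lit 24310) (nat_lit 564285554) (nat_lit 30668) (nat_lit 7323039846932),Row.mk (nat_lit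 31584) (nat_lit 23936) (nat_lit 3533866783341) (nat_lit 24123) (nat_lit 715256213) (nat_lit 30481) (nat_lit 9850895825203),Row.mk (nat_lit 31752) (nat_lit 23749) (nat_lit 3533678224630) (nat_lit 23936) (nat_lit 903814925) (nat_lit 30294) (nat_lit 13008126960558),Row.mk (nat_lit 31920) (nat_lit 23562) (nat_lit 3533442719348) (nat_lit 23749) (nat_lit 1139320207) (nat_lit 30107) (nat_lit 16951432484187),Row.mk (nat_lit 32088) (nat_lit 23375) (nat_lit 3533148578932) (nat_lit 23562) (nat_lit 1433460622) (nat_lit 29920) (nat_lit 21876525955666),Row.mk (nat_lit 32256) (nat_lit 23188) (nat_lit 3532781204648) (nat_lit 23375) (nat_lit 1800834906) (nat_lit 29733) (nat_lit 28027848889548),Row.mk (nat_lit 32424) (nat_lit 23001) (nat_lit 3532322363031) (nat_lit 23188) (nat_lit 2259676524) (nat_lit 29546) (nat_lit 35710702840651),Row.mk (nat_lit 32592) (nat_lit 22814) (nat_lit 3531749280919) (nat_lit 23001) (nat_lit 2832758635) (nat_lit 29359) (nat_lit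 45306402085906),Row.mk (nat_lit 32760) (nat_lit 22627) (nat_lit 3531033515186) (nat_lit 22814) (nat_lit 3548524368) (nat_lit 29172) (nat_lit 57291198958451),Row.mk (nat_lit 32928) (nat_lit 22440) (nat_lit 3530139541054) (nat_lit 22627) (nat_lit 4442498501) (nat_lit 28985) (nat_lit 72259921133353),Row.mk (nat_lit 33096) (nat_lit 22253) (nat_lit 3529022988928) (nat_lit 22440) (nat_lit 5559050627) (nat_lit 28798) (nat_lit 90955494027270),Row.mk (nat_lit 33264) (nat_lit 22066) (nat_lit 3527628442258) (nat_lit 22253) (nat_lit 6953597296) (nat_lit 28611) (nat_lit 114305813563412),Row.mk (nat_lit 33432) (nat_lit 21879) (nat_lit 3525886687109) (nat_lit 22066) (nat_lit 8695352445) (nat_lit 28424) (nat_lit 143469799365495),Row.mk (nat_lit 33600) (nat_lit 21692) (nat_lit 3523711276946) (nat_lit 21879) (nat_lit 10870762608) (nat_lit 28237) (nat_lit 179894914085984),Row.mk (nat_lit 33768) (nat_lit 21505) (nat_lit 3520994242132) (nat_lit 21692)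 (nat_lit 13587797423) (nat_lit 28050) (nat_lit 225389003659504),Row.mk (nat_lit 33936) (nat_lit 21318) (nat_lit 3517600731194) (nat_lit 21505) (nat_lit 16981308361) (nat_lit 27863) (nat_lit 282210024046276),Row.mk (nat_lit 34104) (nat_lit 21131) (nat_lit 3513362317897) (nat_lit 21318) (nat_lit 21219721658) (nat_lit 27676) (nat_lit 353178107770128),Row.mk (nat_lit 34272) (nat_lit 20944) (nat_lit 3508068641935) (nat_lit 21131) (nat_lit 26513397619) (nat_lit 27489) (nat_lit 441815532320993),Row.mk (nat_lit 34440) (nat_lit 32912) (nat_lit 704614581748) (nat_lit 62084) (nat_lit 554646906966335) (nat_lit 0) (nat_lit 0)],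
[Row.mk (nat_lit 19488) (nat_lit 32912) (nat_lit 9805241) (nat_lit 61897) (nat_lit 880027748841) (nat_lit 0) (nat_lit 0),Row.mk (nat_lit 19656) (nat_lit 32912) (nat_lit 10157949) (nat_lit 61897) (nat_lit 880027748841) (nat_lit 0) (nat_lit 0),Row.mk (nat_lit 19824) (nat_lit 32912) (nat_lit 10598472) (nat_lit 61897) (nat_lit 880027748841) (nat_lit 0) (nat_lit 0),Row.mk (nat_lit 19992) (nat_lit 32912) (nat_lit 11148675) (nat_lit 61897) (nat_lit 880027748841) (nat_lit 0) (nat_lit 0),Row.mk (nat_lit 20160) (nat_lit 32912) (nat_lit 11835865) (nat_lit 61897) (nat_lit 880027748841) (nat_lit 0) (nat_lit 0),Row.mk (nat_lit 20328) (nat_lit 32912) (nat_lit 12694149) (nat_lit 61897) (nat_lit 880027748841) (nat_lit 0) (nat_lit 0),Row.mk (nat_lit 20496) (nat_lit 32912) (nat_lit 13766125) (nat_lit 61897) (nat_lit 880027748841) (nat_lit 0) (nat_lit 0),Row.mk (nat_lit 20664) (nat_lit 32912) (nat_lit 15104997) (nat_lit 61897) (nat_lit 880027748841)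 (nat_lit 0) (nat_lit 0),Row.mk (nat_lit 20832) (nat_lit 32912) (nat_lit 16777216) (nat_lit 61897) (nat_lit 880027748841) (nat_lit 0) (nat_lit 0),Row.mk (nat_lit 21000) (nat_lit 32912) (nat_lit 18865777) (nat_lit 61897) (nat_lit 880025660280) (nat_lit 0) (nat_lit 0),Row.mk (nat_lit 21168) (nat_lit 32912) (nat_lit 21474339) (nat_lit 61897) (nat_lit 880023051718) (nat_lit 0) (nat_lit 0),Row.mk (nat_lit 21336) (nat_lit 32912) (nat_lit 24732370) (nat_lit 61897) (nat_lit 880019793686) (nat_lit 0) (nat_lit 0),Row.mk (nat_lit 21504) (nat_lit 32912) (nat_lit 28801573) (nat_lit 61897) (nat_lit 880015724484) (nat_lit 0) (nat_lit 0),Row.mk (nat_lit 21672) (nat_lit 32912) (nat_lit 33883909) (nat_lit 61897) (nat_lit 880010642148) (nat_lit 0) (nat_lit 0),Row.mk (nat_lit 21840) (nat_lit 32912) (nat_lit 40231624) (nat_lit 61897) (nat_lit 880004294433) (nat_lit 0) (nat_lit 0),Row.mk (nat_lit 22008) (nat_lit 32912) (nat_lit 48159767) (nat_lit 61897)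 (nat_lit 879996366290) (nat_lit 0) (nat_lit 0),Row.mk (nat_lit 22176) (nat_lit 32912) (nat_lit 58061826) (nat_lit 61897) (nat_lit 879986464231) (nat_lit 0) (nat_lit 0),Row.mk (nat_lit 22344) (nat_lit 32912) (nat_lit 70429259) (nat_lit 61897) (nat_lit 879974096798) (nat_lit 0) (nat_lit 0),Row.mk (nat_lit 22512) (nat_lit 32912) (nat_lit 85875885) (nat_lit 61897) (nat_lit 879958650172) (nat_lit 0) (nat_lit 0),Row.mk (nat_lit 22680) (nat_lit 32912) (nat_lit 105168348) (nat_lit 61897) (nat_lit 879939357709) (nat_lit 0) (nat_lit 0),Row.mk (nat_lit 22848) (nat_lit 32912) (nat_lit 129264168) (nat_lit 61897) (nat_lit 879915261889) (nat_lit 0) (nat_lit 0),Row.mk (nat_lit 23016) (nat_lit 32912) (nat_lit 159359267) (nat_lit 61897) (nat_lit 879885166790) (nat_lit 0) (nat_lit 0),Row.mk (nat_lit 23184) (nat_lit 32912) (nat_lit 196947319) (nat_lit 61897) (nat_lit 879847578738) (nat_lit 0) (nat_lit 0),Row.mk (nat_lit 23352) (nat_lit 32912) (nat_lit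 243893889) (nat_lit 61897) (nat_lit 879800632167) (nat_lit 0) (nat_lit 0),Row.mk (nat_lit 23520) (nat_lit 32912) (nat_lit 302529023) (nat_lit 61897) (nat_lit 879741997033) (nat_lit 0) (nat_lit 0),Row.mk (nat_lit 23688) (nat_lit 32912) (nat_lit 375762891) (nat_lit 61897) (nat_lit 879668763166) (nat_lit 0) (nat_lit 0),Row.mk (nat_lit 23856) (nat_lit 32912) (nat_lit 467230225) (nat_lit 61897) (nat_lit 879577295832) (nat_lit 0) (nat_lit 0),Row.mk (nat_lit 24024) (nat_lit 32912) (nat_lit 581470719) (nat_lit 61897) (nat_lit 879463055338) (nat_lit 0) (nat_lit 0),Row.mk (nat_lit 24192) (nat_lit 32912) (nat_lit 724154340) (nat_lit 61897) (nat_lit 879320371717) (nat_lit 0) (nat_lit 0),Row.mk (nat_lit 24360) (nat_lit 32912) (nat_lit 902362740) (nat_lit 61897) (nat_lit 879142163316) (nat_lit 0) (nat_lit 0),Row.mk (nat_lit 24528) (nat_lit 0) (nat_lit 5559050627) (nat_lit 187) (nat_lit 853522739829) (nat_lit 748) (nat_lit 22070899118),Row.mk (nat_lit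 24696) (nat_lit 561) (nat_lit 6953597296) (nat_lit 748) (nat_lit 858816415791) (nat_lit 1309) (nat_lit 15660671031),Row.mk (nat_lit 24864) (nat_lit 1122) (nat_lit 8695352445) (nat_lit 1309) (nat_lit 863054829088) (nat_lit 1870) (nat_lit 10027711064),Row.mk (nat_lit 25032) (nat_lit 1683) (nat_lit 10870762608) (nat_lit 1870) (nat_lit 866448340026) (nat_lit 2431) (nat_lit 4892444977),Row.mk (nat_lit 25200) (nat_lit 2244) (nat_lit 13587797423) (nat_lit 2431) (nat_lit 869165374841) (nat_lit 0) (nat_lit 0),Row.mk (nat_lit 25368) (nat_lit 2244) (nat_lit 6110545752) (nat_lit 2805) (nat_lit 10870762608) (nat_lit 2992) (nat_lit 866448340026),Row.mk (nat_lit 25536) (nat_lit 2805) (nat_lit 12524369212) (nat_lit 3366) (nat_lit 8695352445) (nat_lit 3553) (nat_lit 863054829088),Row.mk (nat_lit 25704) (nat_lit 3366) (nat_lit 19559800322) (nat_lit 3927) (nat_lit 6953597296) (nat_lit 4114) (nat_lit 858816415791),Row.mk (nat_lit 25872) (nat_lit 3927)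 (nat_lit 27566020565) (nat_lit 4488) (nat_lit 5559050627) (nat_lit 4675) (nat_lit 853522739829),Row.mk (nat_lit 26040) (nat_lit 4488) (nat_lit 36940393484) (nat_lit 5049) (nat_lit 4442498501) (nat_lit 5236) (nat_lit 846911066257),Row.mk (nat_lit 26208) (nat_lit 5049) (nat_lit 48148186577) (nat_lit 5610) (nat_lit 3548524368) (nat_lit 5797) (nat_lit 838653245464),Row.mk (nat_lit 26376) (nat_lit 5610) (nat_lit 61745663383) (nat_lit 6171) (nat_lit 2832758635) (nat_lit 6358) (nat_lit 828339426503),Row.mk (nat_lit 26544) (nat_lit 6171) (nat_lit 78407691869) (nat_lit 6732) (nat_lit 2259676524) (nat_lit 6919) (nat_lit 815457715430),Row.mk (nat_lit 26712) (nat_lit 6732) (nat_lit 98961239382) (nat_lit 7293) (nat_lit 1800834906) (nat_lit 7480) (nat_lit 799368769056),Row.mk (nat_lit 26880) (nat_lit 7293) (nat_lit 124426416568) (nat_lit 7854) (nat_lit 1433460622) (nat_lit 8041) (nat_lit 779274063160),Row.mk (nat_lit 27048) (nat_lit 7854) (nat_lit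 156067107354) (nat_lit 8415) (nat_lit 1139320207) (nat_lit 8602) (nat_lit 754176260258),Row.mk (nat_lit 27216) (nat_lit 8415) (nat_lit 195453697851) (nat_lit 8976) (nat_lit 903814925) (nat_lit 9163) (nat_lit 722829709888),Row.mk (nat_lit 27384) (nat_lit 8976) (nat_lit 244541017522) (nat_lit 9537) (nat_lit 715256213) (nat_lit 9724) (nat_lit 683678624673),Row.mk (nat_lit 27552) (nat_lit 9537) (nat_lit 305765360996) (nat_lit 10098) (nat_lit 564285554) (nat_lit 10285) (nat_lit 634779863713),Row.mk (nat_lit 27720) (nat_lit 10098) (nat_lit 382165405881) (nat_lit 10659) (nat_lit 443409993) (nat_lit 10846) (nat_lit 573706490898),Row.mk (nat_lit 27888) (nat_lit 10659) (nat_lit 477533027962) (nat_lit 11220) (nat_lit 346630253) (nat_lit 11407) (nat_lit 497427321575),Row.mk (nat_lit 28056) (nat_lit 11220) (nat_lit 596601499028) (nat_lit 11781) (nat_lit 269142976) (nat_lit 11968) (nat_lit 402156479233),Row.mk (nat_lit 28224) (nat_lit 11781) (nat_lit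 745280407917) (nat_lit 12529) (nat_lit 207102324) (nat_lit 12716) (nat_lit 283165495444),Row.mk (nat_lit 28392) (nat_lit 12529) (nat_lit 930948964360) (nat_lit 13277) (nat_lit 157429105) (nat_lit 13464) (nat_lit 134548627207),Row.mk (nat_lit 28560) (nat_lit 12342) (nat_lit 63638565818) (nat_lit 13090) (nat_lit 146951936) (nat_lit 13277) (nat_lit 1048084127007),Row.mk (nat_lit 28728) (nat_lit 13090) (nat_lit 353232794905) (nat_lit 13838) (nat_lit 107180777) (nat_lit 14025) (nat_lit 816250619694),Row.mk (nat_lit 28896) (nat_lit 13838) (nat_lit 714911170717) (nat_lit 14960) (nat_lit 75337761) (nat_lit 15147) (nat_lit 526696161766),Row.mk (nat_lit 29064) (nat_lit 14960) (nat_lit 1166624461190) (nat_lit 16269) (nat_lit 49842459) (nat_lit 16456) (nat_lit 165049628970),Row.mk (nat_lit 29232) (nat_lit 14773) (nat_lit 357967398053) (nat_lit 16082) (nat_lit 36756728) (nat_lit 16269) (nat_lit 1086179142409),Row.mk (nat_lit 29400) (nat_lit 16082)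 (nat_lit 1062594004159) (nat_lit 17578) (nat_lit 16343762) (nat_lit 17765) (nat_lit 522031982668),Row.mk (nat_lit 29568) (nat_lit 15895) (nat_lit 228030784494) (nat_lit 17578) (nat_lit 1532041490404) (nat_lit 0) (nat_lit 0),Row.mk (nat_lit 29736) (nat_lit 17391) (nat_lit 1327174690349) (nat_lit 17578) (nat_lit 16343762) (nat_lit 19635) (nat_lit 651989009192),Row.mk (nat_lit 29904) (nat_lit 17204) (nat_lit 558465265888) (nat_lit 17391) (nat_lit 36756728) (nat_lit 19448) (nat_lit 1694338337712),Row.mk (nat_lit 30072) (nat_lit 19261) (nat_lit 2273064623002) (nat_lit 19448) (nat_lit 49842459) (nat_lit 25806) (nat_lit 321521029101),Row.mk (nat_lit 30240) (nat_lit 19074) (nat_lit 1739858973307) (nat_lit 19261) (nat_lit 75337761) (nat_lit 25619) (nat_lit 1281595060756),Row.mk (nat_lit 30408) (nat_lit 18887) (nat_lit 1073897979787) (nat_lit 19074) (nat_lit 107180777) (nat_lit 25432) (nat_lit 2480704365653),Row.mk (nat_lit 30576) (nat_lit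 18700) (nat_lit 242128764394) (nat_lit 18887) (nat_lit 146951936) (nat_lit 25245) (nat_lit 3978362960390),Row.mk (nat_lit 30744) (nat_lit 25058) (nat_lit 4414460747899) (nat_lit 25245) (nat_lit 157429105) (nat_lit 31603) (nat_lit 637749943949),Row.mk (nat_lit 30912) (nat_lit 24871) (nat_lit 4414411074680) (nat_lit 25058) (nat_lit 207102324) (nat_lit 31416) (nat_lit 1676559955318),Row.mk (nat_lit 31080) (nat_lit 24684) (nat_lit 4414349034029) (nat_lit 24871) (nat_lit 269142976) (nat_lit 31229) (nat_lit 2974008599467),Row.mk (nat_lit 31248) (nat_lit 24497) (nat_lit 4414271546751) (nat_lit 24684) (nat_lit 346630253) (nat_lit 31042) (nat_lit 4594490656612),Row.mk (nat_lit 31416) (nat_lit 24310) (nat_lit 4414174767011) (nat_lit 24497) (nat_lit 443409993) (nat_lit 30855) (nat_lit 6618433653791),Row.mk (nat_lit 31584) (nat_lit 24123) (nat_lit 4414053891450) (nat_lit 24310) (nat_lit 564285554) (nat_lit 30668) (nat_lit 9146289632062),Row.mk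 (nat_lit 31752) (nat_lit 23936) (nat_lit 4413902920791) (nat_lit 24123) (nat_lit 715256213) (nat_lit 30481) (nat_lit 12303520767417),Row.mk (nat_lit 31920) (nat_lit 23749) (nat_lit 4413714362080) (nat_lit 23936) (nat_lit 903814925) (nat_lit 30294) (nat_lit 16246826291047),Row.mk (nat_lit 32088) (nat_lit 23562) (nat_lit 4413478856798) (nat_lit 23749) (nat_lit 1139320207) (nat_lit 30107) (nat_lit 21171919762526),Row.mk (nat_lit 32256) (nat_lit 23375) (nat_lit 4413184716382) (nat_lit 23562) (nat_lit 1433460622) (nat_lit 29920) (nat_lit 27323242696408),Row.mk (nat_lit 32424) (nat_lit 23188) (nat_lit 4412817342098) (nat_lit 23375) (nat_lit 1800834906) (nat_lit 29733) (nat_lit 35006096647511),Row.mk (nat_lit 32592) (nat_lit 23001) (nat_lit 4412358500480) (nat_lit 23188) (nat_lit 2259676524) (nat_lit 29546) (nat_lit 44601795892766),Row.mk (nat_lit 32760) (nat_lit 22814) (nat_lit 4411785418369) (nat_lit 23001) (nat_lit 2832758635) (nat_lit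 29359) (nat_lit 56586592765310),Row.mk (nat_lit 32928) (nat_lit 22627) (nat_lit 4411069652636) (nat_lit 22814) (nat_lit 3548524368) (nat_lit 29172) (nat_lit 71555314940213),Row.mk (nat_lit 33096) (nat_lit 22440) (nat_lit 4410175678503) (nat_lit 22627) (nat_lit 4442498501) (nat_lit 28985) (nat_lit 90250887834129),Row.mk (nat_lit 33264) (nat_lit 22253) (nat_lit 4409059126378) (nat_lit 22440) (nat_lit 5559050627) (nat_lit 28798) (nat_lit 113601207370272),Row.mk (nat_lit 33432) (nat_lit 22066) (nat_lit 4407664579708) (nat_lit 22253) (nat_lit 6953597296) (nat_lit 28611) (nat_lit 142765193172355),Row.mk (nat_lit 33600) (nat_lit 21879) (nat_lit 4405922824559) (nat_lit 22066) (nat_lit 8695352445) (nat_lit 28424) (nat_lit 179190307892844),Row.mk (nat_lit 33768) (nat_lit 21692) (nat_lit 4403747414396) (nat_lit 21879) (nat_lit 10870762608) (nat_lit 28237) (nat_lit 224684397466364),Row.mk (nat_lit 33936) (nat_lit 21505) (nat_lit 4401030379582)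 (nat_lit 21692) (nat_lit 13587797423) (nat_lit 28050) (nat_lit 281505417853136),Row.mk (nat_lit 34104) (nat_lit 21318) (nat_lit 4397636868644) (nat_lit 21505) (nat_lit 16981308361) (nat_lit 27863) (nat_lit 352473501576988),Row.mk (nat_lit 34272) (nat_lit 21131) (nat_lit 4393398455346) (nat_lit 21318) (nat_lit 21219721658) (nat_lit 27676) (nat_lit 441110926127852),Row.mk (nat_lit 34440) (nat_lit 20944) (nat_lit 4388104779385) (nat_lit 21131) (nat_lit 26513397619) (nat_lit 27489) (nat_lit 551816931119920),Row.mk (nat_lit 34608) (nat_lit 32912) (nat_lit 880044526057) (nat_lit 62084) (nat_lit 692740606607020) (nat_lit 0) (nat_lit 0)],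
[Row.mk (nat_lit 19824) (nat_lit 32912) (nat_lit 10598472) (nat_lit 61897) (nat_lit 1099135517246) (nat_lit 0) (nat_lit 0),Row.mk (nat_lit 19992) (nat_lit 32912) (nat_lit 11148675) (nat_lit 61897) (nat_lit 1099135517246) (nat_lit 0) (nat_lit 0),Row.mk (nat_lit 20160) (nat_lit 32912) (nat_lit 11835865) (nat_lit 61897) (nat_lit 1099135517246) (nat_lit 0) (nat_lit 0),Row.mk (nat_lit 20328) (nat_lit 32912) (nat_lit 12694149) (nat_lit 61897) (nat_lit 1099135517246) (nat_lit 0) (nat_lit 0),Row.mk (nat_lit 20496) (nat_lit 32912) (nat_lit 13766125) (nat_lit 61897) (nat_lit 1099135517246) (nat_lit 0) (nat_lit 0),Row.mk (nat_lit 20664) (nat_lit 32912) (nat_lit 15104997) (nat_lit 61897) (nat_lit 1099135517246) (nat_lit 0) (nat_lit 0),Row.mk (nat_lit 20832) (nat_lit 32912) (nat_lit 16777216) (nat_lit 61897) (nat_lit 1099135517246) (nat_lit 0) (nat_lit 0),Row.mk (nat_lit 21000) (nat_lit 32912) (nat_lit 18865777) (nat_lit 61897) (nat_lit 1099133428685)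 (nat_lit 0) (nat_lit 0),Row.mk (nat_lit 21168) (nat_lit 32912) (nat_lit 21474339) (nat_lit 61897) (nat_lit 1099130820123) (nat_lit 0) (nat_lit 0),Row.mk (nat_lit 21336) (nat_lit 32912) (nat_lit 24732370) (nat_lit 61897) (nat_lit 1099127562091) (nat_lit 0) (nat_lit 0),Row.mk (nat_lit 21504) (nat_lit 32912) (nat_lit 28801573) (nat_lit 61897) (nat_lit 1099123492888) (nat_lit 0) (nat_lit 0),Row.mk (nat_lit 21672) (nat_lit 32912) (nat_lit 33883909) (nat_lit 61897) (nat_lit 1099118410553) (nat_lit 0) (nat_lit 0),Row.mk (nat_lit 21840) (nat_lit 32912) (nat_lit 40231624) (nat_lit 61897) (nat_lit 1099112062838) (nat_lit 0) (nat_lit 0),Row.mk (nat_lit 22008) (nat_lit 32912) (nat_lit 48159767) (nat_lit 61897) (nat_lit 1099104134695) (nat_lit 0) (nat_lit 0),Row.mk (nat_lit 22176) (nat_lit 32912) (nat_lit 58061826) (nat_lit 61897) (nat_lit 1099094232635) (nat_lit 0) (nat_lit 0),Row.mk (nat_lit 22344) (nat_lit 32912) (nat_lit 70429259) (nat_lit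 61897) (nat_lit 1099081865202) (nat_lit 0) (nat_lit 0),Row.mk (nat_lit 22512) (nat_lit 32912) (nat_lit 85875885) (nat_lit 61897) (nat_lit 1099066418577) (nat_lit 0) (nat_lit 0),Row.mk (nat_lit 22680) (nat_lit 32912) (nat_lit 105168348) (nat_lit 61897) (nat_lit 1099047126114) (nat_lit 0) (nat_lit 0),Row.mk (nat_lit 22848) (nat_lit 32912) (nat_lit 129264168) (nat_lit 61897) (nat_lit 1099023030293) (nat_lit 0) (nat_lit 0),Row.mk (nat_lit 23016) (nat_lit 32912) (nat_lit 159359267) (nat_lit 61897) (nat_lit 1098992935195) (nat_lit 0) (nat_lit 0),Row.mk (nat_lit 23184) (nat_lit 32912) (nat_lit 196947319) (nat_lit 61897) (nat_lit 1098955347142) (nat_lit 0) (nat_lit 0),Row.mk (nat_lit 23352) (nat_lit 32912) (nat_lit 243893889) (nat_lit 61897) (nat_lit 1098908400572) (nat_lit 0) (nat_lit 0),Row.mk (nat_lit 23520) (nat_lit 32912) (nat_lit 302529023) (nat_lit 61897) (nat_lit 1098849765438) (nat_lit 0) (nat_lit 0),Row.mk (nat_lit 23688) (nat_lit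 32912) (nat_lit 375762891) (nat_lit 61897) (nat_lit 1098776531570) (nat_lit 0) (nat_lit 0),Row.mk (nat_lit 23856) (nat_lit 32912) (nat_lit 467230225) (nat_lit 61897) (nat_lit 1098685064236) (nat_lit 0) (nat_lit 0),Row.mk (nat_lit 24024) (nat_lit 32912) (nat_lit 581470719) (nat_lit 61897) (nat_lit 1098570823742) (nat_lit 0) (nat_lit 0),Row.mk (nat_lit 24192) (nat_lit 32912) (nat_lit 724154340) (nat_lit 61897) (nat_lit 1098428140121) (nat_lit 0) (nat_lit 0),Row.mk (nat_lit 24360) (nat_lit 32912) (nat_lit 902362740) (nat_lit 61897) (nat_lit 1098249931721) (nat_lit 0) (nat_lit 0),Row.mk (nat_lit 24528) (nat_lit 32912) (nat_lit 1124940733) (nat_lit 61897) (nat_lit 1098027353728) (nat_lit 0) (nat_lit 0),Row.mk (nat_lit 24696) (nat_lit 0) (nat_lit 6953597296) (nat_lit 187) (nat_lit 1072630508234) (nat_lit 748) (nat_lit 20954346992),Row.mk (nat_lit 24864) (nat_lit 561) (nat_lit 8695352445) (nat_lit 748) (nat_lit 1077924184196) (nat_lit 1309)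 (nat_lit 14266124361),Row.mk (nat_lit 25032) (nat_lit 1122) (nat_lit 10870762608) (nat_lit 1309) (nat_lit 1082162597493) (nat_lit 1870) (nat_lit 8285955915),Row.mk (nat_lit 25200) (nat_lit 1683) (nat_lit 13587797423) (nat_lit 1870) (nat_lit 1085556108431) (nat_lit 2431) (nat_lit 2717034814),Row.mk (nat_lit 25368) (nat_lit 1683) (nat_lit 3393510938) (nat_lit 2244) (nat_lit 13587797423) (nat_lit 2431) (nat_lit 1085556108431),Row.mk (nat_lit 25536) (nat_lit 2244) (nat_lit 10348959049) (nat_lit 2805) (nat_lit 10870762608) (nat_lit 2992) (nat_lit 1082162597493),Row.mk (nat_lit 25704) (nat_lit 2805) (nat_lit 17818045174) (nat_lit 3366) (nat_lit 8695352445) (nat_lit 3553) (nat_lit 1077924184196),Row.mk (nat_lit 25872) (nat_lit 3366) (nat_lit 26171473895) (nat_lit 3927) (nat_lit 6953597296) (nat_lit 4114) (nat_lit 1072630508234),Row.mk (nat_lit 26040) (nat_lit 3927) (nat_lit 35823841358) (nat_lit 4488) (nat_lit 5559050627) (nat_lit 4675)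 (nat_lit 1066018834662),Row.mk (nat_lit 26208) (nat_lit 4488) (nat_lit 47254212444) (nat_lit 5049) (nat_lit 4442498501) (nat_lit 5236) (nat_lit 1057761013869),Row.mk (nat_lit 26376) (nat_lit 5049) (nat_lit 61029897650) (nat_lit 5610) (nat_lit 3548524368) (nat_lit 5797) (nat_lit 1047447194908),Row.mk (nat_lit 26544) (nat_lit 5610) (nat_lit 77834609757) (nat_lit 6171) (nat_lit 2832758635) (nat_lit 6358) (nat_lit 1034565483835),Row.mk (nat_lit 26712) (nat_lit 6171) (nat_lit 98502397764) (nat_lit 6732) (nat_lit 2259676524) (nat_lit 6919) (nat_lit 1018476537460),Row.mk (nat_lit 26880) (nat_lit 6732) (nat_lit 124059042284) (nat_lit 7293) (nat_lit 1800834906) (nat_lit 7480) (nat_lit 998381831565),Row.mk (nat_lit 27048) (nat_lit 7293) (nat_lit 155772966938) (nat_lit 7854) (nat_lit 1433460622) (nat_lit 8041) (nat_lit 973284028663),Row.mk (nat_lit 27216) (nat_lit 7854) (nat_lit 195218192569) (nat_lit 8415) (nat_lit 1139320207) (nat_lit 8602)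 (nat_lit 941937478292),Row.mk (nat_lit 27384) (nat_lit 8415) (nat_lit 244352458811) (nat_lit 8976) (nat_lit 903814925) (nat_lit 9163) (nat_lit 902786393078),Row.mk (nat_lit 27552) (nat_lit 8976) (nat_lit 305614390337) (nat_lit 9537) (nat_lit 715256213) (nat_lit 9724) (nat_lit 853887632118),Row.mk (nat_lit 27720) (nat_lit 9537) (nat_lit 382044530320) (nat_lit 10098) (nat_lit 564285554) (nat_lit 10285) (nat_lit 792814259303),Row.mk (nat_lit 27888) (nat_lit 10098) (nat_lit 477436248222) (nat_lit 10659) (nat_lit 443409993) (nat_lit 10846) (nat_lit 716535089979),Row.mk (nat_lit 28056) (nat_lit 10659) (nat_lit 596524011751) (nat_lit 11220) (nat_lit 346630253) (nat_lit 11407) (nat_lit 621264247638),Row.mk (nat_lit 28224) (nat_lit 11220) (nat_lit 745218367266) (nat_lit 11781) (nat_lit 269142976) (nat_lit 11968) (nat_lit 502273263849),Row.mk (nat_lit 28392) (nat_lit 11781) (nat_lit 930899291141) (nat_lit 12529) (nat_lit 207102324) (nat_lit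 12716) (nat_lit 353656395612),Row.mk (nat_lit 28560) (nat_lit 12529) (nat_lit 1162782471673) (nat_lit 13277) (nat_lit 157429105) (nat_lit 13464) (nat_lit 168037512388),Row.mk (nat_lit 28728) (nat_lit 12342) (nat_lit 79532706721) (nat_lit 13090) (nat_lit 146951936) (nat_lit 13277) (nat_lit 1309018705123),Row.mk (nat_lit 28896) (nat_lit 13090) (nat_lit 441219010677) (nat_lit 13838) (nat_lit 107180777) (nat_lit 14025) (nat_lit 1019464247195),Row.mk (nat_lit 29064) (nat_lit 13838) (nat_lit 892938648865) (nat_lit 14960) (nat_lit 75337761) (nat_lit 15147) (nat_lit 657817714399),Row.mk (nat_lit 29232) (nat_lit 14960) (nat_lit 1457111303907) (nat_lit 16269) (nat_lit 49842459) (nat_lit 16456) (nat_lit 206129919228),Row.mk (nat_lit 29400) (nat_lit 14773) (nat_lit 447118139934) (nat_lit 16082) (nat_lit 36756728) (nat_lit 16269) (nat_lit 1356595202332),Row.mk (nat_lit 29568) (nat_lit 16082) (nat_lit 1327174690349) (nat_lit 17578) (nat_lit 16343762)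 (nat_lit 17765) (nat_lit 651989009192),Row.mk (nat_lit 29736) (nat_lit 15895) (nat_lit 284825361829) (nat_lit 17578) (nat_lit 1913462449879) (nat_lit 0) (nat_lit 0),Row.mk (nat_lit 29904) (nat_lit 17391) (nat_lit 1657629584708) (nat_lit 17578) (nat_lit 16343762) (nat_lit 19635) (nat_lit 814302200262),Row.mk (nat_lit 30072) (nat_lit 17204) (nat_lit 697535140088) (nat_lit 17391) (nat_lit 36756728) (nat_lit 19448) (nat_lit 2116171366151),Row.mk (nat_lit 30240) (nat_lit 19261) (nat_lit 2839028374462) (nat_lit 19448) (nat_lit 49842459) (nat_lit 25806) (nat_lit 401558923306),Row.mk (nat_lit 30408) (nat_lit 19074) (nat_lit 2173073728658) (nat_lit 19261) (nat_lit 75337761) (nat_lit 25619) (nat_lit 1600668228203),Row.mk (nat_lit 30576) (nat_lit 18887) (nat_lit 1341312441407) (nat_lit 19074) (nat_lit 107180777) (nat_lit 25432) (nat_lit 3098326822940),Row.mk (nat_lit 30744) (nat_lit 18700) (nat_lit 302462658879) (nat_lit 18887) (nat_lit 146951936)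 (nat_lit 25245) (nat_lit 4968866278543),Row.mk (nat_lit 30912) (nat_lit 25058) (nat_lit 5513604653753) (nat_lit 25245) (nat_lit 157429105) (nat_lit 31603) (nat_lit 796523817868),Row.mk (nat_lit 31080) (nat_lit 24871) (nat_lit 5513554980535) (nat_lit 25058) (nat_lit 207102324) (nat_lit 31416) (nat_lit 2093972462018),Row.mk (nat_lit 31248) (nat_lit 24684) (nat_lit 5513492939883) (nat_lit 24871) (nat_lit 269142976) (nat_lit 31229) (nat_lit 3714454519162),Row.mk (nat_lit 31416) (nat_lit 24497) (nat_lit 5513415452606) (nat_lit 24684) (nat_lit 346630253) (nat_lit 31042) (nat_lit 5738397516342),Row.mk (nat_lit 31584) (nat_lit 24310) (nat_lit 5513318672866) (nat_lit 24497) (nat_lit 443409993) (nat_lit 30855) (nat_lit 8266253494612),Row.mk (nat_lit 31752) (nat_lit 24123) (nat_lit 5513197797305) (nat_lit 24310) (nat_lit 564285554) (nat_lit 30668) (nat_lit 11423484629967),Row.mk (nat_lit 31920) (nat_lit 23936) (nat_lit 5513046826646) (nat_lit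 24123) (nat_lit 715256213) (nat_lit 30481) (nat_lit 15366790153597),Row.mk (nat_lit 32088) (nat_lit 23749) (nat_lit 5512858267934) (nat_lit 23936) (nat_lit 903814925) (nat_lit 30294) (nat_lit 20291883625076),Row.mk (nat_lit 32256) (nat_lit 23562) (nat_lit 5512622762652) (nat_lit 23749) (nat_lit 1139320207) (nat_lit 30107) (nat_lit 26443206558958),Row.mk (nat_lit 32424) (nat_lit 23375) (nat_lit 5512328622236) (nat_lit 23562) (nat_lit 1433460622) (nat_lit 29920) (nat_lit 34126060510061),Row.mk (nat_lit 32592) (nat_lit 23188) (nat_lit 5511961247953) (nat_lit 23375) (nat_lit 1800834906) (nat_lit 29733) (nat_lit 43721759755316),Row.mk (nat_lit 32760) (nat_lit 23001) (nat_lit 5511502406335) (nat_lit 23188) (nat_lit 2259676524) (nat_lit 29546) (nat_lit 55706556627860),Row.mk (nat_lit 32928) (nat_lit 22814) (nat_lit 5510929324223) (nat_lit 23001) (nat_lit 2832758635) (nat_lit 29359) (nat_lit 70675278802763),Row.mk (nat_lit 33096) (nat_lit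 22627) (nat_lit 5510213558491) (nat_lit 22814) (nat_lit 3548524368) (nat_lit 29172) (nat_lit 89370851696679),Row.mk (nat_lit 33264) (nat_lit 22440) (nat_lit 5509319584358) (nat_lit 22627) (nat_lit 4442498501) (nat_lit 28985) (nat_lit 112721171232822),Row.mk (nat_lit 33432) (nat_lit 22253) (nat_lit 5508203032232) (nat_lit 22440) (nat_lit 5559050627) (nat_lit 28798) (nat_lit 141885157034905),Row.mk (nat_lit 33600) (nat_lit 22066) (nat_lit 5506808485562) (nat_lit 22253) (nat_lit 6953597296) (nat_lit 28611) (nat_lit 178310271755394),Row.mk (nat_lit 33768) (nat_lit 21879) (nat_lit 5505066730413) (nat_lit 22066) (nat_lit 8695352445) (nat_lit 28424) (nat_lit 223804361328914),Row.mk (nat_lit 33936) (nat_lit 21692) (nat_lit 5502891320250) (nat_lit 21879) (nat_lit 10870762608) (nat_lit 28237) (nat_lit 280625381715686),Row.mk (nat_lit 34104) (nat_lit 21505) (nat_lit 5500174285436) (nat_lit 21692) (nat_lit 13587797423) (nat_lit 28050) (nat_lit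 351593465439538),Row.mk (nat_lit 34272) (nat_lit 21318) (nat_lit 5496780774498) (nat_lit 21505) (nat_lit 16981308361) (nat_lit 27863) (nat_lit 440230889990402),Row.mk (nat_lit 34440) (nat_lit 21131) (nat_lit 5492542361201) (nat_lit 21318) (nat_lit 21219721658) (nat_lit 27676) (nat_lit 550936894982470),Row.mk (nat_lit 34608) (nat_lit 20944) (nat_lit 5487248685239) (nat_lit 21131) (nat_lit 26513397619) (nat_lit 27489) (nat_lit 689206024567464),Row.mk (nat_lit 34776) (nat_lit 32912) (nat_lit 1099152294462) (nat_lit 62084) (nat_lit 865216306112728) (nat_lit 0) (nat_lit 0)],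
[Row.mk (nat_lit 19992) (nat_lit 32912) (nat_lit 11148675) (nat_lit 61897) (nat_lit 1372795834270) (nat_lit 0) (nat_lit 0),Row.mk (nat_lit 20160) (nat_lit 32912) (nat_lit 11835865) (nat_lit 61897) (nat_lit 1372795834270) (nat_lit 0) (nat_lit 0),Row.mk (nat_lit 20328) (nat_lit 32912) (nat_lit 12694149) (nat_lit 61897) (nat_lit 1372795834270) (nat_lit 0) (nat_lit 0),Row.mk (nat_lit 20496) (nat_lit 32912) (nat_lit 13766125) (nat_lit 61897) (nat_lit 1372795834270) (nat_lit 0) (nat_lit 0),Row.mk (nat_lit 20664) (nat_lit 32912) (nat_lit 15104997) (nat_lit 61897) (nat_lit 1372795834270) (nat_lit 0) (nat_lit 0),Row.mk (nat_lit 20832) (nat_lit 32912) (nat_lit 16777216) (nat_lit 61897) (nat_lit 1372795834270) (nat_lit 0) (nat_lit 0),Row.mk (nat_lit 21000) (nat_lit 32912) (nat_lit 18865777) (nat_lit 61897) (nat_lit 1372793745709) (nat_lit 0) (nat_lit 0),Row.mk (nat_lit 21168) (nat_lit 32912) (nat_lit 21474339) (nat_lit 61897) (nat_lit 1372791137147)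 (nat_lit 0) (nat_lit 0),Row.mk (nat_lit 21336) (nat_lit 32912) (nat_lit 24732370) (nat_lit 61897) (nat_lit 1372787879115) (nat_lit 0) (nat_lit 0),Row.mk (nat_lit 21504) (nat_lit 32912) (nat_lit 28801573) (nat_lit 61897) (nat_lit 1372783809913) (nat_lit 0) (nat_lit 0),Row.mk (nat_lit 21672) (nat_lit 32912) (nat_lit 33883909) (nat_lit 61897) (nat_lit 1372778727577) (nat_lit 0) (nat_lit 0),Row.mk (nat_lit 21840) (nat_lit 32912) (nat_lit 40231624) (nat_lit 61897) (nat_lit 1372772379862) (nat_lit 0) (nat_lit 0),Row.mk (nat_lit 22008) (nat_lit 32912) (nat_lit 48159767) (nat_lit 61897) (nat_lit 1372764451719) (nat_lit 0) (nat_lit 0),Row.mk (nat_lit 22176) (nat_lit 32912) (nat_lit 58061826) (nat_lit 61897) (nat_lit 1372754549660) (nat_lit 0) (nat_lit 0),Row.mk (nat_lit 22344) (nat_lit 32912) (nat_lit 70429259) (nat_lit 61897) (nat_lit 1372742182227) (nat_lit 0) (nat_lit 0),Row.mk (nat_lit 22512) (nat_lit 32912) (nat_lit 85875885) (nat_lit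 61897) (nat_lit 1372726735601) (nat_lit 0) (nat_lit 0),Row.mk (nat_lit 22680) (nat_lit 32912) (nat_lit 105168348) (nat_lit 61897) (nat_lit 1372707443138) (nat_lit 0) (nat_lit 0),Row.mk (nat_lit 22848) (nat_lit 32912) (nat_lit 129264168) (nat_lit 61897) (nat_lit 1372683347318) (nat_lit 0) (nat_lit 0),Row.mk (nat_lit 23016) (nat_lit 32912) (nat_lit 159359267) (nat_lit 61897) (nat_lit 1372653252219) (nat_lit 0) (nat_lit 0),Row.mk (nat_lit 23184) (nat_lit 32912) (nat_lit 196947319) (nat_lit 61897) (nat_lit 1372615664167) (nat_lit 0) (nat_lit 0),Row.mk (nat_lit 23352) (nat_lit 32912) (nat_lit 243893889) (nat_lit 61897) (nat_lit 1372568717596) (nat_lit 0) (nat_lit 0),Row.mk (nat_lit 23520) (nat_lit 32912) (nat_lit 302529023) (nat_lit 61897) (nat_lit 1372510082462) (nat_lit 0) (nat_lit 0),Row.mk (nat_lit 23688) (nat_lit 32912) (nat_lit 375762891) (nat_lit 61897) (nat_lit 1372436848595) (nat_lit 0) (nat_lit 0),Row.mk (nat_lit 23856) (nat_lit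 32912) (nat_lit 467230225) (nat_lit 61897) (nat_lit 1372345381260) (nat_lit 0) (nat_lit 0),Row.mk (nat_lit 24024) (nat_lit 32912) (nat_lit 581470719) (nat_lit 61897) (nat_lit 1372231140767) (nat_lit 0) (nat_lit 0),Row.mk (nat_lit 24192) (nat_lit 32912) (nat_lit 724154340) (nat_lit 61897) (nat_lit 1372088457146) (nat_lit 0) (nat_lit 0),Row.mk (nat_lit 24360) (nat_lit 32912) (nat_lit 902362740) (nat_lit 61897) (nat_lit 1371910248745) (nat_lit 0) (nat_lit 0),Row.mk (nat_lit 24528) (nat_lit 32912) (nat_lit 1124940733) (nat_lit 61897) (nat_lit 1371687670752) (nat_lit 0) (nat_lit 0),Row.mk (nat_lit 24696) (nat_lit 32912) (nat_lit 1402935277) (nat_lit 61897) (nat_lit 1371409676208) (nat_lit 0) (nat_lit 0),Row.mk (nat_lit 24864) (nat_lit 0) (nat_lit 8695352445) (nat_lit 187) (nat_lit 1346290825258) (nat_lit 748) (nat_lit 19559800322),Row.mk (nat_lit 25032) (nat_lit 561) (nat_lit 10870762608) (nat_lit 748) (nat_lit 1351584501220) (nat_lit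 1309) (nat_lit 12524369212),Row.mk (nat_lit 25200) (nat_lit 1122) (nat_lit 13587797423) (nat_lit 1309) (nat_lit 1355822914517) (nat_lit 1870) (nat_lit 6110545752),Row.mk (nat_lit 25368) (nat_lit 1683) (nat_lit 16981308361) (nat_lit 1870) (nat_lit 1359216425455) (nat_lit 0) (nat_lit 0),Row.mk (nat_lit 25536) (nat_lit 1683) (nat_lit 7631924235) (nat_lit 2244) (nat_lit 13587797423) (nat_lit 2431) (nat_lit 1355822914517),Row.mk (nat_lit 25704) (nat_lit 2244) (nat_lit 15642635011) (nat_lit 2805) (nat_lit 10870762608) (nat_lit 2992) (nat_lit 1351584501220),Row.mk (nat_lit 25872) (nat_lit 2805) (nat_lit 24429718746) (nat_lit 3366) (nat_lit 8695352445) (nat_lit 3553) (nat_lit 1346290825258),Row.mk (nat_lit 26040) (nat_lit 3366) (nat_lit 34429294688) (nat_lit 3927) (nat_lit 6953597296) (nat_lit 4114) (nat_lit 1339679151686),Row.mk (nat_lit 26208) (nat_lit 3927) (nat_lit 46137660318) (nat_lit 4488) (nat_lit 5559050627) (nat_lit 4675) (nat_lit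 1331421330893),Row.mk (nat_lit 26376) (nat_lit 4488) (nat_lit 60135923517) (nat_lit 5049) (nat_lit 4442498501) (nat_lit 5236) (nat_lit 1321107511932),Row.mk (nat_lit 26544) (nat_lit 5049) (nat_lit 77118844025) (nat_lit 5610) (nat_lit 3548524368) (nat_lit 5797) (nat_lit 1308225800859),Row.mk (nat_lit 26712) (nat_lit 5610) (nat_lit 97929315652) (nat_lit 6171) (nat_lit 2832758635) (nat_lit 6358) (nat_lit 1292136854485),Row.mk (nat_lit 26880) (nat_lit 6171) (nat_lit 123600200666) (nat_lit 6732) (nat_lit 2259676524) (nat_lit 6919) (nat_lit 1272042148589),Row.mk (nat_lit 27048) (nat_lit 6732) (nat_lit 155405592655) (nat_lit 7293) (nat_lit 1800834906) (nat_lit 7480) (nat_lit 1246944345687),Row.mk (nat_lit 27216) (nat_lit 7293) (nat_lit 194924052153) (nat_lit 7854) (nat_lit 1433460622) (nat_lit 8041) (nat_lit 1215597795317),Row.mk (nat_lit 27384) (nat_lit 7854) (nat_lit 244116953529) (nat_lit 8415) (nat_lit 1139320207) (nat_lit 8602) (nat_lit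 1176446710102),Row.mk (nat_lit 27552) (nat_lit 8415) (nat_lit 305425831626) (nat_lit 8976) (nat_lit 903814925) (nat_lit 9163) (nat_lit 1127547949142),Row.mk (nat_lit 27720) (nat_lit 8976) (nat_lit 381893559661) (nat_lit 9537) (nat_lit 715256213) (nat_lit 9724) (nat_lit 1066474576327),Row.mk (nat_lit 27888) (nat_lit 9537) (nat_lit 477315372661) (nat_lit 10098) (nat_lit 564285554) (nat_lit 10285) (nat_lit 990195407004),Row.mk (nat_lit 28056) (nat_lit 10098) (nat_lit 596427232011) (nat_lit 10659) (nat_lit 443409993) (nat_lit 10846) (nat_lit 894924564662),Row.mk (nat_lit 28224) (nat_lit 10659) (nat_lit 745140879988) (nat_lit 11220) (nat_lit 346630253) (nat_lit 11407) (nat_lit 775933580873),Row.mk (nat_lit 28392) (nat_lit 11220) (nat_lit 930837250489) (nat_lit 11781) (nat_lit 269142976) (nat_lit 11968) (nat_lit 627316712636),Row.mk (nat_lit 28560) (nat_lit 11781) (nat_lit 1162732798454) (nat_lit 12529) (nat_lit 207102324) (nat_lit 12716)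 (nat_lit 441697829412),Row.mk (nat_lit 28728) (nat_lit 12529) (nat_lit 1452336929600) (nat_lit 13277) (nat_lit 157429105) (nat_lit 13464) (nat_lit 209864322099),Row.mk (nat_lit 28896) (nat_lit 12342) (nat_lit 99384105282) (nat_lit 13090) (nat_lit 146951936) (nat_lit 13277) (nat_lit 1634919698455),Row.mk (nat_lit 29064) (nat_lit 13090) (nat_lit 551111671613) (nat_lit 13838) (nat_lit 107180777) (nat_lit 14025) (nat_lit 1273273165659),Row.mk (nat_lit 29232) (nat_lit 13838) (nat_lit 1115290674371) (nat_lit 14960) (nat_lit 75337761) (nat_lit 15147) (nat_lit 821585370487),Row.mk (nat_lit 29400) (nat_lit 14960) (nat_lit 1819922362812) (nat_lit 16269) (nat_lit 49842459) (nat_lit 16456) (nat_lit 257438210746),Row.mk (nat_lit 29568) (nat_lit 14773) (nat_lit 558465265888) (nat_lit 16082) (nat_lit 36756728) (nat_lit 16269) (nat_lit 1694338337712),Row.mk (nat_lit 29736) (nat_lit 16082) (nat_lit 1657629584708) (nat_lit 17578) (nat_lit 16343762)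 (nat_lit 17765) (nat_lit 814302200262),Row.mk (nat_lit 29904) (nat_lit 15895) (nat_lit 355760418818) (nat_lit 17578) (nat_lit 2389848026938) (nat_lit 0) (nat_lit 0),Row.mk (nat_lit 30072) (nat_lit 17391) (nat_lit 2070359775932) (nat_lit 17578) (nat_lit 16343762) (nat_lit 19635) (nat_lit 1017027460297),Row.mk (nat_lit 30240) (nat_lit 17204) (nat_lit 871230058070) (nat_lit 17391) (nat_lit 36756728) (nat_lit 19448) (nat_lit 2643030642454),Row.mk (nat_lit 30408) (nat_lit 19261) (nat_lit 3545903446838) (nat_lit 19448) (nat_lit 49842459) (nat_lit 25806) (nat_lit 501524322348),Row.mk (nat_lit 30576) (nat_lit 19074) (nat_lit 2714148507303) (nat_lit 19261) (nat_lit 75337761) (nat_lit 25619) (nat_lit 1999182917086),Row.mk (nat_lit 30744) (nat_lit 18887) (nat_lit 1675306652917) (nat_lit 19074) (nat_lit 107180777) (nat_lit 25432) (nat_lit 3869722372688),Row.mk (nat_lit 30912) (nat_lit 18700) (nat_lit 377818237609) (nat_lit 18887) (nat_lit 146951936)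 (nat_lit 25245) (nat_lit 6205981028206),Row.mk (nat_lit 31080) (nat_lit 25058) (nat_lit 6886408876632) (nat_lit 25245) (nat_lit 157429105) (nat_lit 31603) (nat_lit 994828556163),Row.mk (nat_lit 31248) (nat_lit 24871) (nat_lit 6886359203413) (nat_lit 25058) (nat_lit 207102324) (nat_lit 31416) (nat_lit 2615310613307),Row.mk (nat_lit 31416) (nat_lit 24684) (nat_lit 6886297162762) (nat_lit 24871) (nat_lit 269142976) (nat_lit 31229) (nat_lit 4639253610487),Row.mk (nat_lit 31584) (nat_lit 24497) (nat_lit 6886219675484) (nat_lit 24684) (nat_lit 346630253) (nat_lit 31042) (nat_lit 7167109588758),Row.mk (nat_lit 31752) (nat_lit 24310) (nat_lit 6886122895744) (nat_lit 24497) (nat_lit 443409993) (nat_lit 30855) (nat_lit 10324340724113),Row.mk (nat_lit 31920) (nat_lit 24123) (nat_lit 6886002020184) (nat_lit 24310) (nat_lit 564285554) (nat_lit 30668) (nat_lit 14267646247743),Row.mk (nat_lit 32088) (nat_lit 23936) (nat_lit 6885851049524) (nat_lit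 24123) (nat_lit 715256213) (nat_lit 30481) (nat_lit 19192739719222),Row.mk (nat_lit 32256) (nat_lit 23749) (nat_lit 6885662490813) (nat_lit 23936) (nat_lit 903814925) (nat_lit 30294) (nat_lit 25344062653104),Row.mk (nat_lit 32424) (nat_lit 23562) (nat_lit 6885426985531) (nat_lit 23749) (nat_lit 1139320207) (nat_lit 30107) (nat_lit 33026916604206),Row.mk (nat_lit 32592) (nat_lit 23375) (nat_lit 6885132845115) (nat_lit 23562) (nat_lit 1433460622) (nat_lit 29920) (nat_lit 42622615849462),Row.mk (nat_lit 32760) (nat_lit 23188) (nat_lit 6884765470831) (nat_lit 23375) (nat_lit 1800834906) (nat_lit 29733) (nat_lit 54607412722006),Row.mk (nat_lit 32928) (nat_lit 23001) (nat_lit 6884306629214) (nat_lit 23188) (nat_lit 2259676524) (nat_lit 29546) (nat_lit 69576134896909),Row.mk (nat_lit 33096) (nat_lit 22814) (nat_lit 6883733547102) (nat_lit 23001) (nat_lit 2832758635) (nat_lit 29359) (nat_lit 88271707790825),Row.mk (nat_lit 33264) (nat_lit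 22627) (nat_lit 6883017781369) (nat_lit 22814) (nat_lit 3548524368) (nat_lit 29172) (nat_lit 111622027326968),Row.mk (nat_lit 33432) (nat_lit 22440) (nat_lit 6882123807237) (nat_lit 22627) (nat_lit 4442498501) (nat_lit 28985) (nat_lit 140786013129051),Row.mk (nat_lit 33600) (nat_lit 22253) (nat_lit 6881007255111) (nat_lit 22440) (nat_lit 5559050627) (nat_lit 28798) (nat_lit 177211127849540),Row.mk (nat_lit 33768) (nat_lit 22066) (nat_lit 6879612708441) (nat_lit 22253) (nat_lit 6953597296) (nat_lit 28611) (nat_lit 222705217423060),Row.mk (nat_lit 33936) (nat_lit 21879) (nat_lit 6877870953292) (nat_lit 22066) (nat_lit 8695352445) (nat_lit 28424) (nat_lit 279526237809832),Row.mk (nat_lit 34104) (nat_lit 21692) (nat_lit 6875695543129) (nat_lit 21879) (nat_lit 10870762608) (nat_lit 28237) (nat_lit 350494321533683),Row.mk (nat_lit 34272) (nat_lit 21505) (nat_lit 6872978508315) (nat_lit 21692) (nat_lit 13587797423) (nat_lit 28050) (nat_lit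 439131746084548),Row.mk (nat_lit 34440) (nat_lit 21318) (nat_lit 6869584997377) (nat_lit 21505) (nat_lit 16981308361) (nat_lit 27863) (nat_lit 549837751076615),Row.mk (nat_lit 34608) (nat_lit 21131) (nat_lit 6865346584080) (nat_lit 21318) (nat_lit 21219721658) (nat_lit 27676) (nat_lit 688106880661610),Row.mk (nat_lit 34776) (nat_lit 20944) (nat_lit 6860052908118) (nat_lit 21131) (nat_lit 26513397619) (nat_lit 27489) (nat_lit 860801687935723),Row.mk (nat_lit 34944) (nat_lit 32912) (nat_lit 1372812611486) (nat_lit 62084) (nat_lit 1080634294025182) (nat_lit 0) (nat_lit 0)],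
[Row.mk (nat_lit 20160) (nat_lit 32912) (nat_lit 11835865) (nat_lit 61897) (nat_lit 1714590968505) (nat_lit 0) (nat_lit 0),Row.mk (nat_lit 20328) (nat_lit 32912) (nat_lit 12694149) (nat_lit 61897) (nat_lit 1714590968505) (nat_lit 0) (nat_lit 0),Row.mk (nat_lit 20496) (nat_lit 32912) (nat_lit 13766125) (nat_lit 61897) (nat_lit 1714590968505) (nat_lit 0) (nat_lit 0),Row.mk (nat_lit 20664) (nat_lit 32912) (nat_lit 15104997) (nat_lit 61897) (nat_lit 1714590968505) (nat_lit 0) (nat_lit 0),Row.mk (nat_lit 20832) (nat_lit 32912) (nat_lit 16777216) (nat_lit 61897) (nat_lit 1714590968505) (nat_lit 0) (nat_lit 0),Row.mk (nat_lit 21000) (nat_lit 32912) (nat_lit 18865777) (nat_lit 61897) (nat_lit 1714588879944) (nat_lit 0) (nat_lit 0),Row.mk (nat_lit 21168) (nat_lit 32912) (nat_lit 21474339) (nat_lit 61897) (nat_lit 1714586271382) (nat_lit 0) (nat_lit 0),Row.mk (nat_lit 21336) (nat_lit 32912) (nat_lit 24732370) (nat_lit 61897) (nat_lit 1714583013351)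 (nat_lit 0) (nat_lit 0),Row.mk (nat_lit 21504) (nat_lit 32912) (nat_lit 28801573) (nat_lit 61897) (nat_lit 1714578944148) (nat_lit 0) (nat_lit 0),Row.mk (nat_lit 21672) (nat_lit 32912) (nat_lit 33883909) (nat_lit 61897) (nat_lit 1714573861812) (nat_lit 0) (nat_lit 0),Row.mk (nat_lit 21840) (nat_lit 32912) (nat_lit 40231624) (nat_lit 61897) (nat_lit 1714567514097) (nat_lit 0) (nat_lit 0),Row.mk (nat_lit 22008) (nat_lit 32912) (nat_lit 48159767) (nat_lit 61897) (nat_lit 1714559585954) (nat_lit 0) (nat_lit 0),Row.mk (nat_lit 22176) (nat_lit 32912) (nat_lit 58061826) (nat_lit 61897) (nat_lit 1714549683895) (nat_lit 0) (nat_lit 0),Row.mk (nat_lit 22344) (nat_lit 32912) (nat_lit 70429259) (nat_lit 61897) (nat_lit 1714537316462) (nat_lit 0) (nat_lit 0),Row.mk (nat_lit 22512) (nat_lit 32912) (nat_lit 85875885) (nat_lit 61897) (nat_lit 1714521869836) (nat_lit 0) (nat_lit 0),Row.mk (nat_lit 22680) (nat_lit 32912) (nat_lit 105168348) (nat_lit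 61897) (nat_lit 1714502577373) (nat_lit 0) (nat_lit 0),Row.mk (nat_lit 22848) (nat_lit 32912) (nat_lit 129264168) (nat_lit 61897) (nat_lit 1714478481553) (nat_lit 0) (nat_lit 0),Row.mk (nat_lit 23016) (nat_lit 32912) (nat_lit 159359267) (nat_lit 61897) (nat_lit 1714448386454) (nat_lit 0) (nat_lit 0),Row.mk (nat_lit 23184) (nat_lit 32912) (nat_lit 196947319) (nat_lit 61897) (nat_lit 1714410798402) (nat_lit 0) (nat_lit 0),Row.mk (nat_lit 23352) (nat_lit 32912) (nat_lit 243893889) (nat_lit 61897) (nat_lit 1714363851831) (nat_lit 0) (nat_lit 0),Row.mk (nat_lit 23520) (nat_lit 32912) (nat_lit 302529023) (nat_lit 61897) (nat_lit 1714305216698) (nat_lit 0) (nat_lit 0),Row.mk (nat_lit 23688) (nat_lit 32912) (nat_lit 375762891) (nat_lit 61897) (nat_lit 1714231982830) (nat_lit 0) (nat_lit 0),Row.mk (nat_lit 23856) (nat_lit 32912) (nat_lit 467230225) (nat_lit 61897) (nat_lit 1714140515496) (nat_lit 0) (nat_lit 0),Row.mk (nat_lit 24024) (nat_lit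 32912) (nat_lit 581470719) (nat_lit 61897) (nat_lit 1714026275002) (nat_lit 0) (nat_lit 0),Row.mk (nat_lit 24192) (nat_lit 32912) (nat_lit 724154340) (nat_lit 61897) (nat_lit 1713883591381) (nat_lit 0) (nat_lit 0),Row.mk (nat_lit 24360) (nat_lit 32912) (nat_lit 902362740) (nat_lit 61897) (nat_lit 1713705382981) (nat_lit 0) (nat_lit 0),Row.mk (nat_lit 24528) (nat_lit 32912) (nat_lit 1124940733) (nat_lit 61897) (nat_lit 1713482804988) (nat_lit 0) (nat_lit 0),Row.mk (nat_lit 24696) (nat_lit 32912) (nat_lit 1402935277) (nat_lit 61897) (nat_lit 1713204810444) (nat_lit 0) (nat_lit 0),Row.mk (nat_lit 24864) (nat_lit 32912) (nat_lit 1750143756) (nat_lit 61897) (nat_lit 1712857601965) (nat_lit 0) (nat_lit 0),Row.mk (nat_lit 25032) (nat_lit 0) (nat_lit 10870762608) (nat_lit 187) (nat_lit 1688085959493) (nat_lit 748) (nat_lit 17818045174),Row.mk (nat_lit 25200) (nat_lit 561) (nat_lit 13587797423) (nat_lit 748) (nat_lit 1693379635455) (nat_lit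 1309) (nat_lit 10348959049),Row.mk (nat_lit 25368) (nat_lit 1122) (nat_lit 16981308361) (nat_lit 1309) (nat_lit 1697618048752) (nat_lit 1870) (nat_lit 3393510938),Row.mk (nat_lit 25536) (nat_lit 1122) (nat_lit 4238413297) (nat_lit 1683) (nat_lit 16981308361) (nat_lit 1870) (nat_lit 1697618048752),Row.mk (nat_lit 25704) (nat_lit 1683) (nat_lit 12925600196) (nat_lit 2244) (nat_lit 13587797423) (nat_lit 2431) (nat_lit 1693379635455),Row.mk (nat_lit 25872) (nat_lit 2244) (nat_lit 22254308583) (nat_lit 2805) (nat_lit 10870762608) (nat_lit 2992) (nat_lit 1688085959493),Row.mk (nat_lit 26040) (nat_lit 2805) (nat_lit 32687539539) (nat_lit 3366) (nat_lit 8695352445) (nat_lit 3553) (nat_lit 1681474285921),Row.mk (nat_lit 26208) (nat_lit 3366) (nat_lit 44743113649) (nat_lit 3927) (nat_lit 6953597296) (nat_lit 4114) (nat_lit 1673216465128),Row.mk (nat_lit 26376) (nat_lit 3927) (nat_lit 59019371391) (nat_lit 4488) (nat_lit 5559050627) (nat_lit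 4675) (nat_lit 1662902646167),Row.mk (nat_lit 26544) (nat_lit 4488) (nat_lit 76224869892) (nat_lit 5049) (nat_lit 4442498501) (nat_lit 5236) (nat_lit 1650020935094),Row.mk (nat_lit 26712) (nat_lit 5049) (nat_lit 97213549920) (nat_lit 5610) (nat_lit 3548524368) (nat_lit 5797) (nat_lit 1633931988720),Row.mk (nat_lit 26880) (nat_lit 5610) (nat_lit 123027118555) (nat_lit 6171) (nat_lit 2832758635) (nat_lit 6358) (nat_lit 1613837282824),Row.mk (nat_lit 27048) (nat_lit 6171) (nat_lit 154946751037) (nat_lit 6732) (nat_lit 2259676524) (nat_lit 6919) (nat_lit 1588739479922),Row.mk (nat_lit 27216) (nat_lit 6732) (nat_lit 194556677869) (nat_lit 7293) (nat_lit 1800834906) (nat_lit 7480) (nat_lit 1557392929552),Row.mk (nat_lit 27384) (nat_lit 7293) (nat_lit 243822813113) (nat_lit 7854) (nat_lit 1433460622) (nat_lit 8041) (nat_lit 1518241844337),Row.mk (nat_lit 27552) (nat_lit 7854) (nat_lit 305190326344) (nat_lit 8415) (nat_lit 1139320207) (nat_lit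 8602) (nat_lit 1469343083377),Row.mk (nat_lit 27720) (nat_lit 8415) (nat_lit 381705000949) (nat_lit 8976) (nat_lit 903814925) (nat_lit 9163) (nat_lit 1408269710562),Row.mk (nat_lit 27888) (nat_lit 8976) (nat_lit 477164402002) (nat_lit 9537) (nat_lit 715256213) (nat_lit 9724) (nat_lit 1331990541239),Row.mk (nat_lit 28056) (nat_lit 9537) (nat_lit 596306356450) (nat_lit 10098) (nat_lit 564285554) (nat_lit 10285) (nat_lit 1236719698897),Row.mk (nat_lit 28224) (nat_lit 10098) (nat_lit 745044100248) (nat_lit 10659) (nat_lit 443409993) (nat_lit 10846) (nat_lit 1117728715108),Row.mk (nat_lit 28392) (nat_lit 10659) (nat_lit 930759763212) (nat_lit 11220) (nat_lit 346630253) (nat_lit 11407) (nat_lit 969111846871),Row.mk (nat_lit 28560) (nat_lit 11220) (nat_lit 1162670757802) (nat_lit 11781) (nat_lit 269142976) (nat_lit 11968) (nat_lit 783492963647),Row.mk (nat_lit 28728) (nat_lit 11781) (nat_lit 1452287256381) (nat_lit 12529) (nat_lit 207102324)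 (nat_lit 12716) (nat_lit 551659456334),Row.mk (nat_lit 28896) (nat_lit 12529) (nat_lit 1813983462396) (nat_lit 13277) (nat_lit 157429105) (nat_lit 13464) (nat_lit 262104998407),Row.mk (nat_lit 29064) (nat_lit 12342) (nat_lit 124178023193) (nat_lit 13090) (nat_lit 146951936) (nat_lit 13277) (nat_lit 2041962177154),Row.mk (nat_lit 29232) (nat_lit 13090) (nat_lit 688364954094) (nat_lit 13838) (nat_lit 107180777) (nat_lit 14025) (nat_lit 1590274381983),Row.mk (nat_lit 29400) (nat_lit 13838) (nat_lit 1393002990250) (nat_lit 14960) (nat_lit 75337761) (nat_lit 15147) (nat_lit 1026127222242),Row.mk (nat_lit 29568) (nat_lit 14960) (nat_lit 2273064623002) (nat_lit 16269) (nat_lit 49842459) (nat_lit 16456) (nat_lit 321521029101),Row.mk (nat_lit 29736) (nat_lit 14773) (nat_lit 697535140088) (nat_lit 16082) (nat_lit 36756728) (nat_lit 16269) (nat_lit 2116171366151),Row.mk (nat_lit 29904) (nat_lit 16082) (nat_lit 2070359775932) (nat_lit 17578)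 (nat_lit 16343762) (nat_lit 17765) (nat_lit 1017027460297),Row.mk (nat_lit 30072) (nat_lit 15895) (nat_lit 444356593775) (nat_lit 17578) (nat_lit 2984842120452) (nat_lit 0) (nat_lit 0),Row.mk (nat_lit 30240) (nat_lit 17391) (nat_lit 2585849828149) (nat_lit 17578) (nat_lit 16343762) (nat_lit 19635) (nat_lit 1270226419575),Row.mk (nat_lit 30408) (nat_lit 17204) (nat_lit 1088170820446) (nat_lit 17391) (nat_lit 36756728) (nat_lit 19448) (nat_lit 3301065168706),Row.mk (nat_lit 30576) (nat_lit 19261) (nat_lit 4428773359718) (nat_lit 19448) (nat_lit 49842459) (nat_lit 25806) (nat_lit 626378694207),Row.mk (nat_lit 30744) (nat_lit 19074) (nat_lit 3389937853048) (nat_lit 19261) (nat_lit 75337761) (nat_lit 25619) (nat_lit 2496918149809),Row.mk (nat_lit 30912) (nat_lit 18887) (nat_lit 2092457365882) (nat_lit 19074) (nat_lit 107180777) (nat_lit 25432) (nat_lit 4833176805328),Row.mk (nat_lit 31080) (nat_lit 18700) (nat_lit 471935537578) (nat_lit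 18887) (nat_lit 146951936) (nat_lit 25245) (nat_lit 7751107506621),Row.mk (nat_lit 31248) (nat_lit 25058) (nat_lit 8601008233746) (nat_lit 25245) (nat_lit 157429105) (nat_lit 31603) (nat_lit 1242506390429),Row.mk (nat_lit 31416) (nat_lit 24871) (nat_lit 8600958560527) (nat_lit 25058) (nat_lit 207102324) (nat_lit 31416) (nat_lit 3266449387608),Row.mk (nat_lit 31584) (nat_lit 24684) (nat_lit 8600896519876) (nat_lit 24871) (nat_lit 269142976) (nat_lit 31229) (nat_lit 5794305365879),Row.mk (nat_lit 31752) (nat_lit 24497) (nat_lit 8600819032598) (nat_lit 24684) (nat_lit 346630253) (nat_lit 31042) (nat_lit 8951536501234),Row.mk (nat_lit 31920) (nat_lit 24310) (nat_lit 8600722252858) (nat_lit 24497) (nat_lit 443409993) (nat_lit 30855) (nat_lit 12894842024864),Row.mk (nat_lit 32088) (nat_lit 24123) (nat_lit 8600601377298) (nat_lit 24310) (nat_lit 564285554) (nat_lit 30668) (nat_lit 17819935496343),Row.mk (nat_lit 32256) (nat_lit 23936) (nat_lit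 8600450406638) (nat_lit 24123) (nat_lit 715256213) (nat_lit 30481) (nat_lit 23971258430225),Row.mk (nat_lit 32424) (nat_lit 23749) (nat_lit 8600261847927) (nat_lit 23936) (nat_lit 903814925) (nat_lit 30294) (nat_lit 31654112381328),Row.mk (nat_lit 32592) (nat_lit 23562) (nat_lit 8600026342645) (nat_lit 23749) (nat_lit 1139320207) (nat_lit 30107) (nat_lit 41249811626583),Row.mk (nat_lit 32760) (nat_lit 23375) (nat_lit 8599732202229) (nat_lit 23562) (nat_lit 1433460622) (nat_lit 29920) (nat_lit 53234608499127),Row.mk (nat_lit 32928) (nat_lit 23188) (nat_lit 8599364827945) (nat_lit 23375) (nat_lit 1800834906) (nat_lit 29733) (nat_lit 68203330674030),Row.mk (nat_lit 33096) (nat_lit 23001) (nat_lit 8598905986327) (nat_lit 23188) (nat_lit 2259676524) (nat_lit 29546) (nat_lit 86898903567946),Row.mk (nat_lit 33264) (nat_lit 22814) (nat_lit 8598332904216) (nat_lit 23001) (nat_lit 2832758635) (nat_lit 29359) (nat_lit 110249223104089),Row.mk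 (nat_lit 33432) (nat_lit 22627) (nat_lit 8597617138483) (nat_lit 22814) (nat_lit 3548524368) (nat_lit 29172) (nat_lit 139413208906172),Row.mk (nat_lit 33600) (nat_lit 22440) (nat_lit 8596723164350) (nat_lit 22627) (nat_lit 4442498501) (nat_lit 28985) (nat_lit 175838323626661),Row.mk (nat_lit 33768) (nat_lit 22253) (nat_lit 8595606612225) (nat_lit 22440) (nat_lit 5559050627) (nat_lit 28798) (nat_lit 221332413200181),Row.mk (nat_lit 33936) (nat_lit 22066) (nat_lit 8594212065555) (nat_lit 22253) (nat_lit 6953597296) (nat_lit 28611) (nat_lit 278153433586953),Row.mk (nat_lit 34104) (nat_lit 21879) (nat_lit 8592470310406) (nat_lit 22066) (nat_lit 8695352445) (nat_lit 28424) (nat_lit 349121517310805),Row.mk (nat_lit 34272) (nat_lit 21692) (nat_lit 8590294900243) (nat_lit 21879) (nat_lit 10870762608) (nat_lit 28237) (nat_lit 437758941861669),Row.mk (nat_lit 34440) (nat_lit 21505) (nat_lit 8587577865429) (nat_lit 21692) (nat_lit 13587797423)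 (nat_lit 28050) (nat_lit 548464946853737),Row.mk (nat_lit 34608) (nat_lit 21318) (nat_lit 8584184354491) (nat_lit 21505) (nat_lit 16981308361) (nat_lit 27863) (nat_lit 686734076438731),Row.mk (nat_lit 34776) (nat_lit 21131) (nat_lit 8579945941193) (nat_lit 21318) (nat_lit 21219721658) (nat_lit 27676) (nat_lit 859428883712844),Row.mk (nat_lit 34944) (nat_lit 20944) (nat_lit 8574652265232) (nat_lit 21131) (nat_lit 26513397619) (nat_lit 27489) (nat_lit 1075120531942323),Row.mk (nat_lit 35112) (nat_lit 32912) (nat_lit 1714607745721) (nat_lit 62084) (nat_lit 1349686164226263) (nat_lit 0) (nat_lit 0)],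
[Row.mk (nat_lit 20328) (nat_lit 32912) (nat_lit 12694149) (nat_lit 61897) (nat_lit 2141484845766) (nat_lit 0) (nat_lit 0),Row.mk (nat_lit 20496) (nat_lit 32912) (nat_lit 13766125) (nat_lit 61897) (nat_lit 2141484845766) (nat_lit 0) (nat_lit 0),Row.mk (nat_lit 20664) (nat_lit 32912) (nat_lit 15104997) (nat_lit 61897) (nat_lit 2141484845766) (nat_lit 0) (nat_lit 0),Row.mk (nat_lit 20832) (nat_lit 32912) (nat_lit 16777216) (nat_lit 61897) (nat_lit 2141484845766) (nat_lit 0) (nat_lit 0),Row.mk (nat_lit 21000) (nat_lit 32912) (nat_lit 18865777) (nat_lit 61897) (nat_lit 2141482757205) (nat_lit 0) (nat_lit 0),Row.mk (nat_lit 21168) (nat_lit 32912) (nat_lit 21474339) (nat_lit 61897) (nat_lit 2141480148643) (nat_lit 0) (nat_lit 0),Row.mk (nat_lit 21336) (nat_lit 32912) (nat_lit 24732370) (nat_lit 61897) (nat_lit 2141476890611) (nat_lit 0) (nat_lit 0),Row.mk (nat_lit 21504) (nat_lit 32912) (nat_lit 28801573) (nat_lit 61897) (nat_lit 2141472821408)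 (nat_lit 0) (nat_lit 0),Row.mk (nat_lit 21672) (nat_lit 32912) (nat_lit 33883909) (nat_lit 61897) (nat_lit 2141467739072) (nat_lit 0) (nat_lit 0),Row.mk (nat_lit 21840) (nat_lit 32912) (nat_lit 40231624) (nat_lit 61897) (nat_lit 2141461391357) (nat_lit 0) (nat_lit 0),Row.mk (nat_lit 22008) (nat_lit 32912) (nat_lit 48159767) (nat_lit 61897) (nat_lit 2141453463215) (nat_lit 0) (nat_lit 0),Row.mk (nat_lit 22176) (nat_lit 32912) (nat_lit 58061826) (nat_lit 61897) (nat_lit 2141443561155) (nat_lit 0) (nat_lit 0),Row.mk (nat_lit 22344) (nat_lit 32912) (nat_lit 70429259) (nat_lit 61897) (nat_lit 2141431193722) (nat_lit 0) (nat_lit 0),Row.mk (nat_lit 22512) (nat_lit 32912) (nat_lit 85875885) (nat_lit 61897) (nat_lit 2141415747097) (nat_lit 0) (nat_lit 0),Row.mk (nat_lit 22680) (nat_lit 32912) (nat_lit 105168348) (nat_lit 61897) (nat_lit 2141396454634) (nat_lit 0) (nat_lit 0),Row.mk (nat_lit 22848) (nat_lit 32912) (nat_lit 129264168) (nat_lit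 61897) (nat_lit 2141372358813) (nat_lit 0) (nat_lit 0),Row.mk (nat_lit 23016) (nat_lit 32912) (nat_lit 159359267) (nat_lit 61897) (nat_lit 2141342263715) (nat_lit 0) (nat_lit 0),Row.mk (nat_lit 23184) (nat_lit 32912) (nat_lit 196947319) (nat_lit 61897) (nat_lit 2141304675662) (nat_lit 0) (nat_lit 0),Row.mk (nat_lit 23352) (nat_lit 32912) (nat_lit 243893889) (nat_lit 61897) (nat_lit 2141257729092) (nat_lit 0) (nat_lit 0),Row.mk (nat_lit 23520) (nat_lit 32912) (nat_lit 302529023) (nat_lit 61897) (nat_lit 2141199093958) (nat_lit 0) (nat_lit 0),Row.mk (nat_lit 23688) (nat_lit 32912) (nat_lit 375762891) (nat_lit 61897) (nat_lit 2141125860090) (nat_lit 0) (nat_lit 0),Row.mk (nat_lit 23856) (nat_lit 32912) (nat_lit 467230225) (nat_lit 61897) (nat_lit 2141034392756) (nat_lit 0) (nat_lit 0),Row.mk (nat_lit 24024) (nat_lit 32912) (nat_lit 581470719) (nat_lit 61897) (nat_lit 2140920152262) (nat_lit 0) (nat_lit 0),Row.mk (nat_lit 24192) (nat_lit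 32912) (nat_lit 724154340) (nat_lit 61897) (nat_lit 2140777468641) (nat_lit 0) (nat_lit 0),Row.mk (nat_lit 24360) (nat_lit 32912) (nat_lit 902362740) (nat_lit 61897) (nat_lit 2140599260241) (nat_lit 0) (nat_lit 0),Row.mk (nat_lit 24528) (nat_lit 32912) (nat_lit 1124940733) (nat_lit 61897) (nat_lit 2140376682248) (nat_lit 0) (nat_lit 0),Row.mk (nat_lit 24696) (nat_lit 32912) (nat_lit 1402935277) (nat_lit 61897) (nat_lit 2140098687704) (nat_lit 0) (nat_lit 0),Row.mk (nat_lit 24864) (nat_lit 32912) (nat_lit 1750143756) (nat_lit 61897) (nat_lit 2139751479225) (nat_lit 0) (nat_lit 0),Row.mk (nat_lit 25032) (nat_lit 32912) (nat_lit 2183798771) (nat_lit 61897) (nat_lit 2139317824211) (nat_lit 0) (nat_lit 0),Row.mk (nat_lit 25200) (nat_lit 0) (nat_lit 13587797423) (nat_lit 187) (nat_lit 2114979836754) (nat_lit 748) (nat_lit 15642635011),Row.mk (nat_lit 25368) (nat_lit 561) (nat_lit 16981308361) (nat_lit 748) (nat_lit 2120273512716) (nat_lit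 1309) (nat_lit 7631924235),Row.mk (nat_lit 25536) (nat_lit 1122) (nat_lit 21219721658) (nat_lit 1309) (nat_lit 2124511926013) (nat_lit 0) (nat_lit 0),Row.mk (nat_lit 25704) (nat_lit 1122) (nat_lit 9532089258) (nat_lit 1683) (nat_lit 16981308361) (nat_lit 1870) (nat_lit 2120273512716),Row.mk (nat_lit 25872) (nat_lit 1683) (nat_lit 19537273769) (nat_lit 2244) (nat_lit 13587797423) (nat_lit 2431) (nat_lit 2114979836754),Row.mk (nat_lit 26040) (nat_lit 2244) (nat_lit 30512129376) (nat_lit 2805) (nat_lit 10870762608) (nat_lit 2992) (nat_lit 2108368163182),Row.mk (nat_lit 26208) (nat_lit 2805) (nat_lit 43001358500) (nat_lit 3366) (nat_lit 8695352445) (nat_lit 3553) (nat_lit 2100110342388),Row.mk (nat_lit 26376) (nat_lit 3366) (nat_lit 57624824722) (nat_lit 3927) (nat_lit 6953597296) (nat_lit 4114) (nat_lit 2089796523428),Row.mk (nat_lit 26544) (nat_lit 3927) (nat_lit 75108317766) (nat_lit 4488) (nat_lit 5559050627) (nat_lit 4675) (nat_lit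 2076914812355),Row.mk (nat_lit 26712) (nat_lit 4488) (nat_lit 96319575787) (nat_lit 5049) (nat_lit 4442498501) (nat_lit 5236) (nat_lit 2060825865980),Row.mk (nat_lit 26880) (nat_lit 5049) (nat_lit 122311352822) (nat_lit 5610) (nat_lit 3548524368) (nat_lit 5797) (nat_lit 2040731160085),Row.mk (nat_lit 27048) (nat_lit 5610) (nat_lit 154373668925) (nat_lit 6171) (nat_lit 2832758635) (nat_lit 6358) (nat_lit 2015633357183),Row.mk (nat_lit 27216) (nat_lit 6171) (nat_lit 194097836252) (nat_lit 6732) (nat_lit 2259676524) (nat_lit 6919) (nat_lit 1984286806812),Row.mk (nat_lit 27384) (nat_lit 6732) (nat_lit 243455438829) (nat_lit 7293) (nat_lit 1800834906) (nat_lit 7480) (nat_lit 1945135721598),Row.mk (nat_lit 27552) (nat_lit 7293) (nat_lit 304896185928) (nat_lit 7854) (nat_lit 1433460622) (nat_lit 8041) (nat_lit 1896236960638),Row.mk (nat_lit 27720) (nat_lit 7854) (nat_lit 381469495667) (nat_lit 8415) (nat_lit 1139320207) (nat_lit 8602) (nat_lit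 1835163587823),Row.mk (nat_lit 27888) (nat_lit 8415) (nat_lit 476975843290) (nat_lit 8976) (nat_lit 903814925) (nat_lit 9163) (nat_lit 1758884418499),Row.mk (nat_lit 28056) (nat_lit 8976) (nat_lit 596155385791) (nat_lit 9537) (nat_lit 715256213) (nat_lit 9724) (nat_lit 1663613576158),Row.mk (nat_lit 28224) (nat_lit 9537) (nat_lit 744923224687) (nat_lit 10098) (nat_lit 564285554) (nat_lit 10285) (nat_lit 1544622592369),Row.mk (nat_lit 28392) (nat_lit 10098) (nat_lit 930662983472) (nat_lit 10659) (nat_lit 443409993) (nat_lit 10846) (nat_lit 1396005724132),Row.mk (nat_lit 28560) (nat_lit 10659) (nat_lit 1162593270525) (nat_lit 11220) (nat_lit 346630253) (nat_lit 11407) (nat_lit 1210386840908),Row.mk (nat_lit 28728) (nat_lit 11220) (nat_lit 1452225215730) (nat_lit 11781) (nat_lit 269142976) (nat_lit 11968) (nat_lit 978553333595),Row.mk (nat_lit 28896) (nat_lit 11781) (nat_lit 1813933789177) (nat_lit 12529) (nat_lit 207102324) (nat_lit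 12716) (nat_lit 688998875668),Row.mk (nat_lit 29064) (nat_lit 12529) (nat_lit 2265671257568) (nat_lit 13277) (nat_lit 157429105) (nat_lit 13464) (nat_lit 327352342872),Row.mk (nat_lit 29232) (nat_lit 12342) (nat_lit 155145028541) (nat_lit 13090) (nat_lit 146951936) (nat_lit 13277) (nat_lit 2550348413637),Row.mk (nat_lit 29400) (nat_lit 13090) (nat_lit 859790992840) (nat_lit 13838) (nat_lit 107180777) (nat_lit 14025) (nat_lit 1986201253896),Row.mk (nat_lit 29568) (nat_lit 13838) (nat_lit 1739858973307) (nat_lit 14960) (nat_lit 75337761) (nat_lit 15147) (nat_lit 1281595060756),Row.mk (nat_lit 29736) (nat_lit 14960) (nat_lit 2839028374462) (nat_lit 16269) (nat_lit 49842459) (nat_lit 16456) (nat_lit 401558923306),Row.mk (nat_lit 29904) (nat_lit 14773) (nat_lit 871230058070) (nat_lit 16082) (nat_lit 36756728) (nat_lit 16269) (nat_lit 2643030642454),Row.mk (nat_lit 30072) (nat_lit 16082) (nat_lit 2585849828149) (nat_lit 17578) (nat_lit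 16343762) (nat_lit 17765) (nat_lit 1270226419575),Row.mk (nat_lit 30240) (nat_lit 15895) (nat_lit 555011079018) (nat_lit 17578) (nat_lit 3727975389730) (nat_lit 0) (nat_lit 0),Row.mk (nat_lit 30408) (nat_lit 17391) (nat_lit 3229684467786) (nat_lit 17578) (nat_lit 16343762) (nat_lit 19635) (nat_lit 1586465811592),Row.mk (nat_lit 30576) (nat_lit 17204) (nat_lit 1359124599218) (nat_lit 17391) (nat_lit 36756728) (nat_lit 19448) (nat_lit 4122934417698),Row.mk (nat_lit 30744) (nat_lit 19261) (nat_lit 5531456582723) (nat_lit 19448) (nat_lit 49842459) (nat_lit 25806) (nat_lit 782318792696),Row.mk (nat_lit 30912) (nat_lit 19074) (nat_lit 4233982443273) (nat_lit 19261) (nat_lit 75337761) (nat_lit 25619) (nat_lit 3118577448214),Row.mk (nat_lit 31080) (nat_lit 18887) (nat_lit 2613468543112) (nat_lit 19074) (nat_lit 107180777) (nat_lit 25432) (nat_lit 6036508149507),Row.mk (nat_lit 31248) (nat_lit 18700) (nat_lit 589485774773) (nat_lit 18887)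 (nat_lit 146951936) (nat_lit 25245) (nat_lit 9680933203831),Row.mk (nat_lit 31416) (nat_lit 25058) (nat_lit 10742501468120) (nat_lit 25245) (nat_lit 157429105) (nat_lit 31603) (nat_lit 1551850030494),Row.mk (nat_lit 31584) (nat_lit 24871) (nat_lit 10742451794902) (nat_lit 25058) (nat_lit 207102324) (nat_lit 31416) (nat_lit 4079706008765),Row.mk (nat_lit 31752) (nat_lit 24684) (nat_lit 10742389754250) (nat_lit 24871) (nat_lit 269142976) (nat_lit 31229) (nat_lit 7236937144120),Row.mk (nat_lit 31920) (nat_lit 24497) (nat_lit 10742312266973) (nat_lit 24684) (nat_lit 346630253) (nat_lit 31042) (nat_lit 11180242667750),Row.mk (nat_lit 32088) (nat_lit 24310) (nat_lit 10742215487233) (nat_lit 24497) (nat_lit 443409993) (nat_lit 30855) (nat_lit 16105336139229),Row.mk (nat_lit 32256) (nat_lit 24123) (nat_lit 10742094611672) (nat_lit 24310) (nat_lit 564285554) (nat_lit 30668) (nat_lit 22256659073111),Row.mk (nat_lit 32424) (nat_lit 23936) (nat_lit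 10741943641013) (nat_lit 24123) (nat_lit 715256213) (nat_lit 30481) (nat_lit 29939513024214),Row.mk (nat_lit 32592) (nat_lit 23749) (nat_lit 10741755082301) (nat_lit 23936) (nat_lit 903814925) (nat_lit 30294) (nat_lit 39535212269469),Row.mk (nat_lit 32760) (nat_lit 23562) (nat_lit 10741519577019) (nat_lit 23749) (nat_lit 1139320207) (nat_lit 30107) (nat_lit 51520009142013),Row.mk (nat_lit 32928) (nat_lit 23375) (nat_lit 10741225436603) (nat_lit 23562) (nat_lit 1433460622) (nat_lit 29920) (nat_lit 66488731316916),Row.mk (nat_lit 33096) (nat_lit 23188) (nat_lit 10740858062320) (nat_lit 23375) (nat_lit 1800834906) (nat_lit 29733) (nat_lit 85184304210832),Row.mk (nat_lit 33264) (nat_lit 23001) (nat_lit 10740399220702) (nat_lit 23188) (nat_lit 2259676524) (nat_lit 29546) (nat_lit 108534623746975),Row.mk (nat_lit 33432) (nat_lit 22814) (nat_lit 10739826138590) (nat_lit 23001) (nat_lit 2832758635) (nat_lit 29359) (nat_lit 137698609549058),Row.mk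 (nat_lit 33600) (nat_lit 22627) (nat_lit 10739110372858) (nat_lit 22814) (nat_lit 3548524368) (nat_lit 29172) (nat_lit 174123724269547),Row.mk (nat_lit 33768) (nat_lit 22440) (nat_lit 10738216398725) (nat_lit 22627) (nat_lit 4442498501) (nat_lit 28985) (nat_lit 219617813843067),Row.mk (nat_lit 33936) (nat_lit 22253) (nat_lit 10737099846599) (nat_lit 22440) (nat_lit 5559050627) (nat_lit 28798) (nat_lit 276438834229839),Row.mk (nat_lit 34104) (nat_lit 22066) (nat_lit 10735705299929) (nat_lit 22253) (nat_lit 6953597296) (nat_lit 28611) (nat_lit 347406917953691),Row.mk (nat_lit 34272) (nat_lit 21879) (nat_lit 10733963544781) (nat_lit 22066) (nat_lit 8695352445) (nat_lit 28424) (nat_lit 436044342504555),Row.mk (nat_lit 34440) (nat_lit 21692) (nat_lit 10731788134617) (nat_lit 21879) (nat_lit 10870762608) (nat_lit 28237) (nat_lit 546750347496623),Row.mk (nat_lit 34608) (nat_lit 21505) (nat_lit 10729071099803) (nat_lit 21692) (nat_lit 13587797423)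 (nat_lit 28050) (nat_lit 685019477081617),Row.mk (nat_lit 34776) (nat_lit 21318) (nat_lit 10725677588865) (nat_lit 21505) (nat_lit 16981308361) (nat_lit 27863) (nat_lit 857714284355730),Row.mk (nat_lit 34944) (nat_lit 21131) (nat_lit 10721439175568) (nat_lit 21318) (nat_lit 21219721658) (nat_lit 27676) (nat_lit 1073405932585209),Row.mk (nat_lit 35112) (nat_lit 20944) (nat_lit 10716145499606) (nat_lit 21131) (nat_lit 26513397619) (nat_lit 27489) (nat_lit 1342799597920525),Row.mk (nat_lit 35280) (nat_lit 32912) (nat_lit 2141501622982) (nat_lit 62084) (nat_lit 1685725459552511) (nat_lit 0) (nat_lit 0)],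
[Row.mk (nat_lit 20496) (nat_lit 32912) (nat_lit 13766125) (nat_lit 61897) (nat_lit 2674665000160) (nat_lit 0) (nat_lit 0),Row.mk (nat_lit 20664) (nat_lit 32912) (nat_lit 15104997) (nat_lit 61897) (nat_lit 2674665000160) (nat_lit 0) (nat_lit 0),Row.mk (nat_lit 20832) (nat_lit 32912) (nat_lit 16777216) (nat_lit 61897) (nat_lit 2674665000160) (nat_lit 0) (nat_lit 0),Row.mk (nat_lit 21000) (nat_lit 32912) (nat_lit 18865777) (nat_lit 61897) (nat_lit 2674662911599) (nat_lit 0) (nat_lit 0),Row.mk (nat_lit 21168) (nat_lit 32912) (nat_lit 21474339) (nat_lit 61897) (nat_lit 2674660303036) (nat_lit 0) (nat_lit 0),Row.mk (nat_lit 21336) (nat_lit 32912) (nat_lit 24732370) (nat_lit 61897) (nat_lit 2674657045005) (nat_lit 0) (nat_lit 0),Row.mk (nat_lit 21504) (nat_lit 32912) (nat_lit 28801573) (nat_lit 61897) (nat_lit 2674652975802) (nat_lit 0) (nat_lit 0),Row.mk (nat_lit 21672) (nat_lit 32912) (nat_lit 33883909) (nat_lit 61897) (nat_lit 2674647893466)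 (nat_lit 0) (nat_lit 0),Row.mk (nat_lit 21840) (nat_lit 32912) (nat_lit 40231624) (nat_lit 61897) (nat_lit 2674641545751) (nat_lit 0) (nat_lit 0),Row.mk (nat_lit 22008) (nat_lit 32912) (nat_lit 48159767) (nat_lit 61897) (nat_lit 2674633617608) (nat_lit 0) (nat_lit 0),Row.mk (nat_lit 22176) (nat_lit 32912) (nat_lit 58061826) (nat_lit 61897) (nat_lit 2674623715549) (nat_lit 0) (nat_lit 0),Row.mk (nat_lit 22344) (nat_lit 32912) (nat_lit 70429259) (nat_lit 61897) (nat_lit 2674611348116) (nat_lit 0) (nat_lit 0),Row.mk (nat_lit 22512) (nat_lit 32912) (nat_lit 85875885) (nat_lit 61897) (nat_lit 2674595901490) (nat_lit 0) (nat_lit 0),Row.mk (nat_lit 22680) (nat_lit 32912) (nat_lit 105168348) (nat_lit 61897) (nat_lit 2674576609027) (nat_lit 0) (nat_lit 0),Row.mk (nat_lit 22848) (nat_lit 32912) (nat_lit 129264168) (nat_lit 61897) (nat_lit 2674552513207) (nat_lit 0) (nat_lit 0),Row.mk (nat_lit 23016) (nat_lit 32912) (nat_lit 159359267) (nat_lit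 61897) (nat_lit 2674522418108) (nat_lit 0) (nat_lit 0),Row.mk (nat_lit 23184) (nat_lit 32912) (nat_lit 196947319) (nat_lit 61897) (nat_lit 2674484830056) (nat_lit 0) (nat_lit 0),Row.mk (nat_lit 23352) (nat_lit 32912) (nat_lit 243893889) (nat_lit 61897) (nat_lit 2674437883486) (nat_lit 0) (nat_lit 0),Row.mk (nat_lit 23520) (nat_lit 32912) (nat_lit 302529023) (nat_lit 61897) (nat_lit 2674379248352) (nat_lit 0) (nat_lit 0),Row.mk (nat_lit 23688) (nat_lit 32912) (nat_lit 375762891) (nat_lit 61897) (nat_lit 2674306014484) (nat_lit 0) (nat_lit 0),Row.mk (nat_lit 23856) (nat_lit 32912) (nat_lit 467230225) (nat_lit 61897) (nat_lit 2674214547150) (nat_lit 0) (nat_lit 0),Row.mk (nat_lit 24024) (nat_lit 32912) (nat_lit 581470719) (nat_lit 61897) (nat_lit 2674100306656) (nat_lit 0) (nat_lit 0),Row.mk (nat_lit 24192) (nat_lit 32912) (nat_lit 724154340) (nat_lit 61897) (nat_lit 2673957623035) (nat_lit 0) (nat_lit 0),Row.mk (nat_lit 24360) (nat_lit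 32912) (nat_lit 902362740) (nat_lit 61897) (nat_lit 2673779414635) (nat_lit 0) (nat_lit 0),Row.mk (nat_lit 24528) (nat_lit 32912) (nat_lit 1124940733) (nat_lit 61897) (nat_lit 2673556836642) (nat_lit 0) (nat_lit 0),Row.mk (nat_lit 24696) (nat_lit 32912) (nat_lit 1402935277) (nat_lit 61897) (nat_lit 2673278842098) (nat_lit 0) (nat_lit 0),Row.mk (nat_lit 24864) (nat_lit 32912) (nat_lit 1750143756) (nat_lit 61897) (nat_lit 2672931633619) (nat_lit 0) (nat_lit 0),Row.mk (nat_lit 25032) (nat_lit 32912) (nat_lit 2183798771) (nat_lit 61897) (nat_lit 2672497978605) (nat_lit 0) (nat_lit 0),Row.mk (nat_lit 25200) (nat_lit 32912) (nat_lit 2725423422) (nat_lit 61897) (nat_lit 2671956353953) (nat_lit 0) (nat_lit 0),Row.mk (nat_lit 25368) (nat_lit 0) (nat_lit 16981308361) (nat_lit 187) (nat_lit 2648159991148) (nat_lit 748) (nat_lit 12925600196),Row.mk (nat_lit 25536) (nat_lit 561) (nat_lit 21219721658) (nat_lit 748) (nat_lit 2653453667109) (nat_lit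 1309) (nat_lit 4238413297),Row.mk (nat_lit 25704) (nat_lit 561) (nat_lit 5293675961) (nat_lit 1122) (nat_lit 21219721658) (nat_lit 1309) (nat_lit 2653453667109),Row.mk (nat_lit 25872) (nat_lit 1122) (nat_lit 16143762831) (nat_lit 1683) (nat_lit 16981308361) (nat_lit 1870) (nat_lit 2648159991148),Row.mk (nat_lit 26040) (nat_lit 1683) (nat_lit 27795094562) (nat_lit 2244) (nat_lit 13587797423) (nat_lit 2431) (nat_lit 2641548317575),Row.mk (nat_lit 26208) (nat_lit 2244) (nat_lit 40825948337) (nat_lit 2805) (nat_lit 10870762608) (nat_lit 2992) (nat_lit 2633290496782),Row.mk (nat_lit 26376) (nat_lit 2805) (nat_lit 55883069573) (nat_lit 3366) (nat_lit 8695352445) (nat_lit 3553) (nat_lit 2622976677822),Row.mk (nat_lit 26544) (nat_lit 3366) (nat_lit 73713771096) (nat_lit 3927) (nat_lit 6953597296) (nat_lit 4114) (nat_lit 2610094966748),Row.mk (nat_lit 26712) (nat_lit 3927) (nat_lit 95203023661) (nat_lit 4488) (nat_lit 5559050627) (nat_lit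 4675) (nat_lit 2594006020374),Row.mk (nat_lit 26880) (nat_lit 4488) (nat_lit 121417378689) (nat_lit 5049) (nat_lit 4442498501) (nat_lit 5236) (nat_lit 2573911314479),Row.mk (nat_lit 27048) (nat_lit 5049) (nat_lit 153657903193) (nat_lit 5610) (nat_lit 3548524368) (nat_lit 5797) (nat_lit 2548813511576),Row.mk (nat_lit 27216) (nat_lit 5610) (nat_lit 193524754140) (nat_lit 6171) (nat_lit 2832758635) (nat_lit 6358) (nat_lit 2517466961206),Row.mk (nat_lit 27384) (nat_lit 6171) (nat_lit 242996597211) (nat_lit 6732) (nat_lit 2259676524) (nat_lit 6919) (nat_lit 2478315875991),Row.mk (nat_lit 27552) (nat_lit 6732) (nat_lit 304528811644) (nat_lit 7293) (nat_lit 1800834906) (nat_lit 7480) (nat_lit 2429417115031),Row.mk (nat_lit 27720) (nat_lit 7293) (nat_lit 381175355251) (nat_lit 7854) (nat_lit 1433460622) (nat_lit 8041) (nat_lit 2368343742216),Row.mk (nat_lit 27888) (nat_lit 7854) (nat_lit 476740338008) (nat_lit 8415) (nat_lit 1139320207) (nat_lit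 8602) (nat_lit 2292064572893),Row.mk (nat_lit 28056) (nat_lit 8415) (nat_lit 595966827079) (nat_lit 8976) (nat_lit 903814925) (nat_lit 9163) (nat_lit 2196793730552),Row.mk (nat_lit 28224) (nat_lit 8976) (nat_lit 744772254028) (nat_lit 9537) (nat_lit 715256213) (nat_lit 9724) (nat_lit 2077802746762),Row.mk (nat_lit 28392) (nat_lit 9537) (nat_lit 930542107911) (nat_lit 10098) (nat_lit 564285554) (nat_lit 10285) (nat_lit 1929185878525),Row.mk (nat_lit 28560) (nat_lit 10098) (nat_lit 1162496490785) (nat_lit 10659) (nat_lit 443409993) (nat_lit 10846) (nat_lit 1743566995301),Row.mk (nat_lit 28728) (nat_lit 10659) (nat_lit 1452147728452) (nat_lit 11220) (nat_lit 346630253) (nat_lit 11407) (nat_lit 1511733487989),Row.mk (nat_lit 28896) (nat_lit 11220) (nat_lit 1813871748526) (nat_lit 11781) (nat_lit 269142976) (nat_lit 11968) (nat_lit 1222179030061),Row.mk (nat_lit 29064) (nat_lit 11781) (nat_lit 2265621584349) (nat_lit 12529) (nat_lit 207102324)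 (nat_lit 12716) (nat_lit 860532497265),Row.mk (nat_lit 29232) (nat_lit 12529) (nat_lit 2829818417309) (nat_lit 13277) (nat_lit 157429105) (nat_lit 13464) (nat_lit 408844702093),Row.mk (nat_lit 29400) (nat_lit 12342) (nat_lit 193822071178) (nat_lit 13090) (nat_lit 146951936) (nat_lit 13277) (nat_lit 3185310558793),Row.mk (nat_lit 29568) (nat_lit 13090) (nat_lit 1073897979787) (nat_lit 13838) (nat_lit 107180777) (nat_lit 14025) (nat_lit 2480704365653),Row.mk (nat_lit 29736) (nat_lit 13838) (nat_lit 2173073728658) (nat_lit 14960) (nat_lit 75337761) (nat_lit 15147) (nat_lit 1600668228203),Row.mk (nat_lit 29904) (nat_lit 14960) (nat_lit 3545903446838) (nat_lit 16269) (nat_lit 49842459) (nat_lit 16456) (nat_lit 501524322348),Row.mk (nat_lit 30072) (nat_lit 14773) (nat_lit 1088170820446) (nat_lit 16082) (nat_lit 36756728) (nat_lit 16269) (nat_lit 3301065168706),Row.mk (nat_lit 30240) (nat_lit 16082) (nat_lit 3229684467786) (nat_lit 17578)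 (nat_lit 16343762) (nat_lit 17765) (nat_lit 1586465811592),Row.mk (nat_lit 30408) (nat_lit 15895) (nat_lit 693215861680) (nat_lit 17578) (nat_lit 4656130915855) (nat_lit 0) (nat_lit 0),Row.mk (nat_lit 30576) (nat_lit 17391) (nat_lit 4033818400952) (nat_lit 17578) (nat_lit 16343762) (nat_lit 19635) (nat_lit 1981441183324),Row.mk (nat_lit 30744) (nat_lit 17204) (nat_lit 1697539332468) (nat_lit 17391) (nat_lit 36756728) (nat_lit 19448) (nat_lit 5149429283076),Row.mk (nat_lit 30912) (nat_lit 19261) (nat_lit 6908681327342) (nat_lit 19448) (nat_lit 49842459) (nat_lit 25806) (nat_lit 977084213839),Row.mk (nat_lit 31080) (nat_lit 19074) (nat_lit 5288173774897) (nat_lit 19261) (nat_lit 75337761) (nat_lit 25619) (nat_lit 3895014915133),Row.mk (nat_lit 31248) (nat_lit 18887) (nat_lit 3264198934700) (nat_lit 19074) (nat_lit 107180777) (nat_lit 25432) (nat_lit 7539439969457),Row.mk (nat_lit 31416) (nat_lit 18700) (nat_lit 736303185270) (nat_lit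 18887) (nat_lit 146951936) (nat_lit 25245) (nat_lit 12091238944907),Row.mk (nat_lit 31584) (nat_lit 25058) (nat_lit 13417174856888) (nat_lit 25245) (nat_lit 157429105) (nat_lit 31603) (nat_lit 1938212774391),Row.mk (nat_lit 31752) (nat_lit 24871) (nat_lit 13417125183670) (nat_lit 25058) (nat_lit 207102324) (nat_lit 31416) (nat_lit 5095443909746),Row.mk (nat_lit 31920) (nat_lit 24684) (nat_lit 13417063143018) (nat_lit 24871) (nat_lit 269142976) (nat_lit 31229) (nat_lit 9038749433376),Row.mk (nat_lit 32088) (nat_lit 24497) (nat_lit 13416985655741) (nat_lit 24684) (nat_lit 346630253) (nat_lit 31042) (nat_lit 13963842904855),Row.mk (nat_lit 32256) (nat_lit 24310) (nat_lit 13416888876001) (nat_lit 24497) (nat_lit 443409993) (nat_lit 30855) (nat_lit 20115165838737),Row.mk (nat_lit 32424) (nat_lit 24123) (nat_lit 13416768000440) (nat_lit 24310) (nat_lit 564285554) (nat_lit 30668) (nat_lit 27798019789839),Row.mk (nat_lit 32592) (nat_lit 23936)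 (nat_lit 13416617029781) (nat_lit 24123) (nat_lit 715256213) (nat_lit 30481) (nat_lit 37393719035094),Row.mk (nat_lit 32760) (nat_lit 23749) (nat_lit 13416428471069) (nat_lit 23936) (nat_lit 903814925) (nat_lit 30294) (nat_lit 49378515907639),Row.mk (nat_lit 32928) (nat_lit 23562) (nat_lit 13416192965787) (nat_lit 23749) (nat_lit 1139320207) (nat_lit 30107) (nat_lit 64347238082542),Row.mk (nat_lit 33096) (nat_lit 23375) (nat_lit 13415898825371) (nat_lit 23562) (nat_lit 1433460622) (nat_lit 29920) (nat_lit 83042810976458),Row.mk (nat_lit 33264) (nat_lit 23188) (nat_lit 13415531451088) (nat_lit 23375) (nat_lit 1800834906) (nat_lit 29733) (nat_lit 106393130512601),Row.mk (nat_lit 33432) (nat_lit 23001) (nat_lit 13415072609470) (nat_lit 23188) (nat_lit 2259676524) (nat_lit 29546) (nat_lit 135557116314683),Row.mk (nat_lit 33600) (nat_lit 22814) (nat_lit 13414499527358) (nat_lit 23001) (nat_lit 2832758635) (nat_lit 29359) (nat_lit 171982231035173),Row.mk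 (nat_lit 33768) (nat_lit 22627) (nat_lit 13413783761626) (nat_lit 22814) (nat_lit 3548524368) (nat_lit 29172) (nat_lit 217476320608693),Row.mk (nat_lit 33936) (nat_lit 22440) (nat_lit 13412889787493) (nat_lit 22627) (nat_lit 4442498501) (nat_lit 28985) (nat_lit 274297340995465),Row.mk (nat_lit 34104) (nat_lit 22253) (nat_lit 13411773235367) (nat_lit 22440) (nat_lit 5559050627) (nat_lit 28798) (nat_lit 345265424719316),Row.mk (nat_lit 34272) (nat_lit 22066) (nat_lit 13410378688697) (nat_lit 22253) (nat_lit 6953597296) (nat_lit 28611) (nat_lit 433902849270181),Row.mk (nat_lit 34440) (nat_lit 21879) (nat_lit 13408636933549) (nat_lit 22066) (nat_lit 8695352445) (nat_lit 28424) (nat_lit 544608854262248),Row.mk (nat_lit 34608) (nat_lit 21692) (nat_lit 13406461523386) (nat_lit 21879) (nat_lit 10870762608) (nat_lit 28237) (nat_lit 682877983847243),Row.mk (nat_lit 34776) (nat_lit 21505) (nat_lit 13403744488571) (nat_lit 21692) (nat_lit 13587797423)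 (nat_lit 28050) (nat_lit 855572791121356),Row.mk (nat_lit 34944) (nat_lit 21318) (nat_lit 13400350977633) (nat_lit 21505) (nat_lit 16981308361) (nat_lit 27863) (nat_lit 1071264439350834),Row.mk (nat_lit 35112) (nat_lit 21131) (nat_lit 13396112564336) (nat_lit 21318) (nat_lit 21219721658) (nat_lit 27676) (nat_lit 1340658104686150),Row.mk (nat_lit 35280) (nat_lit 20944) (nat_lit 13390818888374) (nat_lit 21131) (nat_lit 26513397619) (nat_lit 27489) (nat_lit 1677124293889659)],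
[Row.mk (nat_lit 20832) (nat_lit 32912) (nat_lit 16777216) (nat_lit 61897) (nat_lit 3340594150663) (nat_lit 0) (nat_lit 0),Row.mk (nat_lit 21000) (nat_lit 32912) (nat_lit 18865777) (nat_lit 61897) (nat_lit 3340592062102) (nat_lit 0) (nat_lit 0),Row.mk (nat_lit 21168) (nat_lit 32912) (nat_lit 21474339) (nat_lit 61897) (nat_lit 3340589453540) (nat_lit 0) (nat_lit 0),Row.mk (nat_lit 21336) (nat_lit 32912) (nat_lit 24732370) (nat_lit 61897) (nat_lit 3340586195508) (nat_lit 0) (nat_lit 0),Row.mk (nat_lit 21504) (nat_lit 32912) (nat_lit 28801573) (nat_lit 61897) (nat_lit 3340582126306) (nat_lit 0) (nat_lit 0),Row.mk (nat_lit 21672) (nat_lit 32912) (nat_lit 33883909) (nat_lit 61897) (nat_lit 3340577043970) (nat_lit 0) (nat_lit 0),Row.mk (nat_lit 21840) (nat_lit 32912) (nat_lit 40231624) (nat_lit 61897) (nat_lit 3340570696255) (nat_lit 0) (nat_lit 0),Row.mk (nat_lit 22008) (nat_lit 32912) (nat_lit 48159767) (nat_lit 61897) (nat_lit 3340562768112)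 (nat_lit 0) (nat_lit 0),Row.mk (nat_lit 22176) (nat_lit 32912) (nat_lit 58061826) (nat_lit 61897) (nat_lit 3340552866052) (nat_lit 0) (nat_lit 0),Row.mk (nat_lit 22344) (nat_lit 32912) (nat_lit 70429259) (nat_lit 61897) (nat_lit 3340540498619) (nat_lit 0) (nat_lit 0),Row.mk (nat_lit 22512) (nat_lit 32912) (nat_lit 85875885) (nat_lit 61897) (nat_lit 3340525051994) (nat_lit 0) (nat_lit 0),Row.mk (nat_lit 22680) (nat_lit 32912) (nat_lit 105168348) (nat_lit 61897) (nat_lit 3340505759531) (nat_lit 0) (nat_lit 0),Row.mk (nat_lit 22848) (nat_lit 32912) (nat_lit 129264168) (nat_lit 61897) (nat_lit 3340481663710) (nat_lit 0) (nat_lit 0),Row.mk (nat_lit 23016) (nat_lit 32912) (nat_lit 159359267) (nat_lit 61897) (nat_lit 3340451568612) (nat_lit 0) (nat_lit 0),Row.mk (nat_lit 23184) (nat_lit 32912) (nat_lit 196947319) (nat_lit 61897) (nat_lit 3340413980559) (nat_lit 0) (nat_lit 0),Row.mk (nat_lit 23352) (nat_lit 32912) (nat_lit 243893889) (nat_lit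 61897) (nat_lit 3340367033989) (nat_lit 0) (nat_lit 0),Row.mk (nat_lit 23520) (nat_lit 32912) (nat_lit 302529023) (nat_lit 61897) (nat_lit 3340308398855) (nat_lit 0) (nat_lit 0),Row.mk (nat_lit 23688) (nat_lit 32912) (nat_lit 375762891) (nat_lit 61897) (nat_lit 3340235164987) (nat_lit 0) (nat_lit 0),Row.mk (nat_lit 23856) (nat_lit 32912) (nat_lit 467230225) (nat_lit 61897) (nat_lit 3340143697653) (nat_lit 0) (nat_lit 0),Row.mk (nat_lit 24024) (nat_lit 32912) (nat_lit 581470719) (nat_lit 61897) (nat_lit 3340029457159) (nat_lit 0) (nat_lit 0),Row.mk (nat_lit 24192) (nat_lit 32912) (nat_lit 724154340) (nat_lit 61897) (nat_lit 3339886773539) (nat_lit 0) (nat_lit 0),Row.mk (nat_lit 24360) (nat_lit 32912) (nat_lit 902362740) (nat_lit 61897) (nat_lit 3339708565138) (nat_lit 0) (nat_lit 0),Row.mk (nat_lit 24528) (nat_lit 32912) (nat_lit 1124940733) (nat_lit 61897) (nat_lit 3339485987145) (nat_lit 0) (nat_lit 0),Row.mk (nat_lit 24696) (nat_lit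 32912) (nat_lit 1402935277) (nat_lit 61897) (nat_lit 3339207992601) (nat_lit 0) (nat_lit 0),Row.mk (nat_lit 24864) (nat_lit 32912) (nat_lit 1750143756) (nat_lit 61897) (nat_lit 3338860784122) (nat_lit 0) (nat_lit 0),Row.mk (nat_lit 25032) (nat_lit 32912) (nat_lit 2183798771) (nat_lit 61897) (nat_lit 3338427129108) (nat_lit 0) (nat_lit 0),Row.mk (nat_lit 25200) (nat_lit 32912) (nat_lit 2725423422) (nat_lit 61897) (nat_lit 3337885504457) (nat_lit 0) (nat_lit 0),Row.mk (nat_lit 25368) (nat_lit 32912) (nat_lit 3401899546) (nat_lit 61897) (nat_lit 3337209028333) (nat_lit 0) (nat_lit 0),Row.mk (nat_lit 25536) (nat_lit 0) (nat_lit 21219721658) (nat_lit 187) (nat_lit 3314089141651) (nat_lit 748) (nat_lit 9532089258),Row.mk (nat_lit 25704) (nat_lit 561) (nat_lit 26513397619) (nat_lit 748) (nat_lit 3319382817613) (nat_lit 0) (nat_lit 0),Row.mk (nat_lit 25872) (nat_lit 561) (nat_lit 11905349533) (nat_lit 1122) (nat_lit 21219721658) (nat_lit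 1309) (nat_lit 3314089141651),Row.mk (nat_lit 26040) (nat_lit 1122) (nat_lit 24401583624) (nat_lit 1683) (nat_lit 16981308361) (nat_lit 1870) (nat_lit 3307477468079),Row.mk (nat_lit 26208) (nat_lit 1683) (nat_lit 38108913522) (nat_lit 2244) (nat_lit 13587797423) (nat_lit 2431) (nat_lit 3299219647286),Row.mk (nat_lit 26376) (nat_lit 2244) (nat_lit 53707659410) (nat_lit 2805) (nat_lit 10870762608) (nat_lit 2992) (nat_lit 3288905828325),Row.mk (nat_lit 26544) (nat_lit 2805) (nat_lit 71972015948) (nat_lit 3366) (nat_lit 8695352445) (nat_lit 3553) (nat_lit 3276024117252),Row.mk (nat_lit 26712) (nat_lit 3366) (nat_lit 93808476991) (nat_lit 3927) (nat_lit 6953597296) (nat_lit 4114) (nat_lit 3259935170877),Row.mk (nat_lit 26880) (nat_lit 3927) (nat_lit 120300826564) (nat_lit 4488) (nat_lit 5559050627) (nat_lit 4675) (nat_lit 3239840464982),Row.mk (nat_lit 27048) (nat_lit 4488) (nat_lit 152763929060) (nat_lit 5049) (nat_lit 4442498501) (nat_lit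 5236) (nat_lit 3214742662080),Row.mk (nat_lit 27216) (nat_lit 5049) (nat_lit 192808988407) (nat_lit 5610) (nat_lit 3548524368) (nat_lit 5797) (nat_lit 3183396111709),Row.mk (nat_lit 27384) (nat_lit 5610) (nat_lit 242423515100) (nat_lit 6171) (nat_lit 2832758635) (nat_lit 6358) (nat_lit 3144245026495),Row.mk (nat_lit 27552) (nat_lit 6171) (nat_lit 304069970026) (nat_lit 6732) (nat_lit 2259676524) (nat_lit 6919) (nat_lit 3095346265535),Row.mk (nat_lit 27720) (nat_lit 6732) (nat_lit 380807980968) (nat_lit 7293) (nat_lit 1800834906) (nat_lit 7480) (nat_lit 3034272892720),Row.mk (nat_lit 27888) (nat_lit 7293) (nat_lit 476446197593) (nat_lit 7854) (nat_lit 1433460622) (nat_lit 8041) (nat_lit 2957993723396),Row.mk (nat_lit 28056) (nat_lit 7854) (nat_lit 595731321797) (nat_lit 8415) (nat_lit 1139320207) (nat_lit 8602) (nat_lit 2862722881055),Row.mk (nat_lit 28224) (nat_lit 8415) (nat_lit 744583695317) (nat_lit 8976) (nat_lit 903814925) (nat_lit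 9163) (nat_lit 2743731897266),Row.mk (nat_lit 28392) (nat_lit 8976) (nat_lit 930391137252) (nat_lit 9537) (nat_lit 715256213) (nat_lit 9724) (nat_lit 2595115029029),Row.mk (nat_lit 28560) (nat_lit 9537) (nat_lit 1162375615224) (nat_lit 10098) (nat_lit 564285554) (nat_lit 10285) (nat_lit 2409496145805),Row.mk (nat_lit 28728) (nat_lit 10098) (nat_lit 1452050948712) (nat_lit 10659) (nat_lit 443409993) (nat_lit 10846) (nat_lit 2177662638492),Row.mk (nat_lit 28896) (nat_lit 10659) (nat_lit 1813794261248) (nat_lit 11220) (nat_lit 346630253) (nat_lit 11407) (nat_lit 1888108180565),Row.mk (nat_lit 29064) (nat_lit 11220) (nat_lit 2265559543697) (nat_lit 11781) (nat_lit 269142976) (nat_lit 11968) (nat_lit 1526461647769),Row.mk (nat_lit 29232) (nat_lit 11781) (nat_lit 2829768744090) (nat_lit 12529) (nat_lit 207102324) (nat_lit 12716) (nat_lit 1074773852597),Row.mk (nat_lit 29400) (nat_lit 12529) (nat_lit 3534424610449) (nat_lit 13277) (nat_lit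 157429105) (nat_lit 13464) (nat_lit 510626692856),Row.mk (nat_lit 29568) (nat_lit 12342) (nat_lit 242128764394) (nat_lit 13090) (nat_lit 146951936) (nat_lit 13277) (nat_lit 3978362960390),Row.mk (nat_lit 29736) (nat_lit 13090) (nat_lit 1341312441407) (nat_lit 13838) (nat_lit 107180777) (nat_lit 14025) (nat_lit 3098326822940),Row.mk (nat_lit 29904) (nat_lit 13838) (nat_lit 2714148507303) (nat_lit 14960) (nat_lit 75337761) (nat_lit 15147) (nat_lit 1999182917086),Row.mk (nat_lit 30072) (nat_lit 14960) (nat_lit 4428773359718) (nat_lit 16269) (nat_lit 49842459) (nat_lit 16456) (nat_lit 626378694207),Row.mk (nat_lit 30240) (nat_lit 14773) (nat_lit 1359124599218) (nat_lit 16082) (nat_lit 36756728) (nat_lit 16269) (nat_lit 4122934417698),Row.mk (nat_lit 30408) (nat_lit 16082) (nat_lit 4033818400952) (nat_lit 17578) (nat_lit 16343762) (nat_lit 17765) (nat_lit 1981441183324),Row.mk (nat_lit 30576) (nat_lit 15895) (nat_lit 865830301200) (nat_lit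 17578) (nat_lit 5815374777342) (nat_lit 0) (nat_lit 0),Row.mk (nat_lit 30744) (nat_lit 17391) (nat_lit 5038162284705) (nat_lit 17578) (nat_lit 16343762) (nat_lit 19635) (nat_lit 2474755894308),Row.mk (nat_lit 30912) (nat_lit 17204) (nat_lit 2120211170446) (nat_lit 17391) (nat_lit 36756728) (nat_lit 19448) (nat_lit 6431496606970),Row.mk (nat_lit 31080) (nat_lit 19261) (nat_lit 8628801809469) (nat_lit 19448) (nat_lit 49842459) (nat_lit 25806) (nat_lit 1220341526365),Row.mk (nat_lit 31248) (nat_lit 19074) (nat_lit 6604833316988) (nat_lit 19261) (nat_lit 75337761) (nat_lit 25619) (nat_lit 4864766580689),Row.mk (nat_lit 31416) (nat_lit 18887) (nat_lit 4076945495701) (nat_lit 19074) (nat_lit 107180777) (nat_lit 25432) (nat_lit 9416565556139),Row.mk (nat_lit 31584) (nat_lit 18700) (nat_lit 919674589187) (nat_lit 18887) (nat_lit 146951936) (nat_lit 25245) (nat_lit 15101652669765),Row.mk (nat_lit 31752) (nat_lit 25058) (nat_lit 16757777396160)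 (nat_lit 25245) (nat_lit 157429105) (nat_lit 31603) (nat_lit 2420770520978),Row.mk (nat_lit 31920) (nat_lit 24871) (nat_lit 16757727722941) (nat_lit 25058) (nat_lit 207102324) (nat_lit 31416) (nat_lit 6364076044608),Row.mk (nat_lit 32088) (nat_lit 24684) (nat_lit 16757665682290) (nat_lit 24871) (nat_lit 269142976) (nat_lit 31229) (nat_lit 11289169516087),Row.mk (nat_lit 32256) (nat_lit 24497) (nat_lit 16757588195012) (nat_lit 24684) (nat_lit 346630253) (nat_lit 31042) (nat_lit 17440492449969),Row.mk (nat_lit 32424) (nat_lit 24310) (nat_lit 16757491415272) (nat_lit 24497) (nat_lit 443409993) (nat_lit 30855) (nat_lit 25123346401071),Row.mk (nat_lit 32592) (nat_lit 24123) (nat_lit 16757370539711) (nat_lit 24310) (nat_lit 564285554) (nat_lit 30668) (nat_lit 34719045646326),Row.mk (nat_lit 32760) (nat_lit 23936) (nat_lit 16757219569052) (nat_lit 24123) (nat_lit 715256213) (nat_lit 30481) (nat_lit 46703842518871),Row.mk (nat_lit 32928)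 (nat_lit 23749) (nat_lit 16757031010341) (nat_lit 23936) (nat_lit 903814925) (nat_lit 30294) (nat_lit 61672564693774),Row.mk (nat_lit 33096) (nat_lit 23562) (nat_lit 16756795505059) (nat_lit 23749) (nat_lit 1139320207) (nat_lit 30107) (nat_lit 80368137587690),Row.mk (nat_lit 33264) (nat_lit 23375) (nat_lit 16756501364643) (nat_lit 23562) (nat_lit 1433460622) (nat_lit 29920) (nat_lit 103718457123833),Row.mk (nat_lit 33432) (nat_lit 23188) (nat_lit 16756133990359) (nat_lit 23375) (nat_lit 1800834906) (nat_lit 29733) (nat_lit 132882442925915),Row.mk (nat_lit 33600) (nat_lit 23001) (nat_lit 16755675148741) (nat_lit 23188) (nat_lit 2259676524) (nat_lit 29546) (nat_lit 169307557646405),Row.mk (nat_lit 33768) (nat_lit 22814) (nat_lit 16755102066630) (nat_lit 23001) (nat_lit 2832758635) (nat_lit 29359) (nat_lit 214801647219925),Row.mk (nat_lit 33936) (nat_lit 22627) (nat_lit 16754386300897) (nat_lit 22814) (nat_lit 3548524368) (nat_lit 29172)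 (nat_lit 271622667606697),Row.mk (nat_lit 34104) (nat_lit 22440) (nat_lit 16753492326764) (nat_lit 22627) (nat_lit 4442498501) (nat_lit 28985) (nat_lit 342590751330548),Row.mk (nat_lit 34272) (nat_lit 22253) (nat_lit 16752375774639) (nat_lit 22440) (nat_lit 5559050627) (nat_lit 28798) (nat_lit 431228175881413),Row.mk (nat_lit 34440) (nat_lit 22066) (nat_lit 16750981227969) (nat_lit 22253) (nat_lit 6953597296) (nat_lit 28611) (nat_lit 541934180873480),Row.mk (nat_lit 34608) (nat_lit 21879) (nat_lit 16749239472820) (nat_lit 22066) (nat_lit 8695352445) (nat_lit 28424) (nat_lit 680203310458475),Row.mk (nat_lit 34776) (nat_lit 21692) (nat_lit 16747064062657) (nat_lit 21879) (nat_lit 10870762608) (nat_lit 28237) (nat_lit 852898117732587),Row.mk (nat_lit 34944) (nat_lit 21505) (nat_lit 16744347027843) (nat_lit 21692) (nat_lit 13587797423) (nat_lit 28050) (nat_lit 1068589765962066),Row.mk (nat_lit 35112) (nat_lit 21318) (nat_lit 16740953516905)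 (nat_lit 21505) (nat_lit 16981308361) (nat_lit 27863) (nat_lit 1337983431297382),Row.mk (nat_lit 35280) (nat_lit 21131) (nat_lit 16736715103607) (nat_lit 21318) (nat_lit 21219721658) (nat_lit 27676) (nat_lit 1674449620500891),Row.mk (nat_lit 35448) (nat_lit 20944) (nat_lit 16731421427646) (nat_lit 21131) (nat_lit 26513397619) (nat_lit 27489) (nat_lit 2094687773971271)],
[Row.mk (nat_lit 21000) (nat_lit 32912) (nat_lit 18865777) (nat_lit 61897) (nat_lit 4172321506336) (nat_lit 0) (nat_lit 0),Row.mk (nat_lit 21168) (nat_lit 32912) (nat_lit 21474339) (nat_lit 61897) (nat_lit 4172318897773) (nat_lit 0) (nat_lit 0),Row.mk (nat_lit 21336) (nat_lit 32912) (nat_lit 24732370) (nat_lit 61897) (nat_lit 4172315639742) (nat_lit 0) (nat_lit 0),Row.mk (nat_lit 21504) (nat_lit 32912) (nat_lit 28801573) (nat_lit 61897) (nat_lit 4172311570539) (nat_lit 0) (nat_lit 0),Row.mk (nat_lit 21672) (nat_lit 32912) (nat_lit 33883909) (nat_lit 61897) (nat_lit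 4172306488203) (nat_lit 0) (nat_lit 0),Row.mk (nat_lit 21840) (nat_lit 32912) (nat_lit 40231624) (nat_lit 61897) (nat_lit 4172300140488) (nat_lit 0) (nat_lit 0),Row.mk (nat_lit 22008) (nat_lit 32912) (nat_lit 48159767) (nat_lit 61897) (nat_lit 4172292212345) (nat_lit 0) (nat_lit 0),Row.mk (nat_lit 22176) (nat_lit 32912) (nat_lit 58061826) (nat_lit 61897) (nat_lit 4172282310286) (nat_lit 0) (nat_lit 0),Row.mk (nat_lit 22344) (nat_lit 32912) (nat_lit 70429259) (nat_lit 61897) (nat_lit 4172269942853) (nat_lit 0) (nat_lit 0),Row.mk (nat_lit 22512) (nat_lit 32912) (nat_lit 85875885) (nat_lit 61897) (nat_lit 4172254496227) (nat_lit 0) (nat_lit 0),Row.mk (nat_lit 22680) (nat_lit 32912) (nat_lit 105168348) (nat_lit 61897) (nat_lit 4172235203765) (nat_lit 0) (nat_lit 0),Row.mk (nat_lit 22848) (nat_lit 32912) (nat_lit 129264168) (nat_lit 61897) (nat_lit 4172211107944) (nat_lit 0) (nat_lit 0),Row.mk (nat_lit 23016) (nat_lit 32912) (nat_lit 159359267)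 (nat_lit 61897) (nat_lit 4172181012845) (nat_lit 0) (nat_lit 0),Row.mk (nat_lit 23184) (nat_lit 32912) (nat_lit 196947319) (nat_lit 61897) (nat_lit 4172143424793) (nat_lit 0) (nat_lit 0),Row.mk (nat_lit 23352) (nat_lit 32912) (nat_lit 243893889) (nat_lit 61897) (nat_lit 4172096478223) (nat_lit 0) (nat_lit 0),Row.mk (nat_lit 23520) (nat_lit 32912) (nat_lit 302529023) (nat_lit 61897) (nat_lit 4172037843089) (nat_lit 0) (nat_lit 0),Row.mk (nat_lit 23688) (nat_lit 32912) (nat_lit 375762891) (nat_lit 61897) (nat_lit 4171964609221) (nat_lit 0) (nat_lit 0),Row.mk (nat_lit 23856) (nat_lit 32912) (nat_lit 467230225) (nat_lit 61897) (nat_lit 4171873141887) (nat_lit 0) (nat_lit 0),Row.mk (nat_lit 24024) (nat_lit 32912) (nat_lit 581470719) (nat_lit 61897) (nat_lit 4171758901393) (nat_lit 0) (nat_lit 0),Row.mk (nat_lit 24192) (nat_lit 32912) (nat_lit 724154340) (nat_lit 61897) (nat_lit 4171616217772) (nat_lit 0) (nat_lit 0),Row.mk (nat_lit 24360)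 (nat_lit 32912) (nat_lit 902362740) (nat_lit 61897) (nat_lit 4171438009372) (nat_lit 0) (nat_lit 0),Row.mk (nat_lit 24528) (nat_lit 32912) (nat_lit 1124940733) (nat_lit 61897) (nat_lit 4171215431379) (nat_lit 0) (nat_lit 0),Row.mk (nat_lit 24696) (nat_lit 32912) (nat_lit 1402935277) (nat_lit 61897) (nat_lit 4170937436835) (nat_lit 0) (nat_lit 0),Row.mk (nat_lit 24864) (nat_lit 32912) (nat_lit 1750143756) (nat_lit 61897) (nat_lit 4170590228356) (nat_lit 0) (nat_lit 0),Row.mk (nat_lit 25032) (nat_lit 32912) (nat_lit 2183798771) (nat_lit 61897) (nat_lit 4170156573342) (nat_lit 0) (nat_lit 0),Row.mk (nat_lit 25200) (nat_lit 32912) (nat_lit 2725423422) (nat_lit 61897) (nat_lit 4169614948690) (nat_lit 0) (nat_lit 0),Row.mk (nat_lit 25368) (nat_lit 32912) (nat_lit 3401899546) (nat_lit 61897) (nat_lit 4168938472567) (nat_lit 0) (nat_lit 0),Row.mk (nat_lit 25536) (nat_lit 32912) (nat_lit 4246801905) (nat_lit 61897) (nat_lit 4168093570208)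 (nat_lit 0) (nat_lit 0),Row.mk (nat_lit 25704) (nat_lit 0) (nat_lit 26513397619) (nat_lit 187) (nat_lit 4145818585885) (nat_lit 748) (nat_lit 5293675961),Row.mk (nat_lit 25872) (nat_lit 0) (nat_lit 6611673572) (nat_lit 561) (nat_lit 26513397619) (nat_lit 748) (nat_lit 4145818585885),Row.mk (nat_lit 26040) (nat_lit 561) (nat_lit 20163170327) (nat_lit 1122) (nat_lit 21219721658) (nat_lit 1309) (nat_lit 4139206912312),Row.mk (nat_lit 26208) (nat_lit 1122) (nat_lit 34715402584) (nat_lit 1683) (nat_lit 16981308361) (nat_lit 1870) (nat_lit 4130949091519),Row.mk (nat_lit 26376) (nat_lit 1683) (nat_lit 50990624596) (nat_lit 2244) (nat_lit 13587797423) (nat_lit 2431) (nat_lit 4120635272559),Row.mk (nat_lit 26544) (nat_lit 2244) (nat_lit 69796605784) (nat_lit 2805) (nat_lit 10870762608) (nat_lit 2992) (nat_lit 4107753561486),Row.mk (nat_lit 26712) (nat_lit 2805) (nat_lit 92066721843) (nat_lit 3366) (nat_lit 8695352445) (nat_lit 3553) (nat_lit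 4091664615111),Row.mk (nat_lit 26880) (nat_lit 3366) (nat_lit 118906279894) (nat_lit 3927) (nat_lit 6953597296) (nat_lit 4114) (nat_lit 4071569909216),Row.mk (nat_lit 27048) (nat_lit 3927) (nat_lit 151647376934) (nat_lit 4488) (nat_lit 5559050627) (nat_lit 4675) (nat_lit 4046472106313),Row.mk (nat_lit 27216) (nat_lit 4488) (nat_lit 191915014275) (nat_lit 5049) (nat_lit 4442498501) (nat_lit 5236) (nat_lit 4015125555943),Row.mk (nat_lit 27384) (nat_lit 5049) (nat_lit 241707749367) (nat_lit 5610) (nat_lit 3548524368) (nat_lit 5797) (nat_lit 3975974470728),Row.mk (nat_lit 27552) (nat_lit 5610) (nat_lit 303496887915) (nat_lit 6171) (nat_lit 2832758635) (nat_lit 6358) (nat_lit 3927075709768),Row.mk (nat_lit 27720) (nat_lit 6171) (nat_lit 380349139350) (nat_lit 6732) (nat_lit 2259676524) (nat_lit 6919) (nat_lit 3866002336954),Row.mk (nat_lit 27888) (nat_lit 6732) (nat_lit 476078823309) (nat_lit 7293) (nat_lit 1800834906) (nat_lit 7480) (nat_lit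 3789723167630),Row.mk (nat_lit 28056) (nat_lit 7293) (nat_lit 595437181382) (nat_lit 7854) (nat_lit 1433460622) (nat_lit 8041) (nat_lit 3694452325289),Row.mk (nat_lit 28224) (nat_lit 7854) (nat_lit 744348190035) (nat_lit 8415) (nat_lit 1139320207) (nat_lit 8602) (nat_lit 3575461341500),Row.mk (nat_lit 28392) (nat_lit 8415) (nat_lit 930202578540) (nat_lit 8976) (nat_lit 903814925) (nat_lit 9163) (nat_lit 3426844473262),Row.mk (nat_lit 28560) (nat_lit 8976) (nat_lit 1162224644565) (nat_lit 9537) (nat_lit 715256213) (nat_lit 9724) (nat_lit 3241225590039),Row.mk (nat_lit 28728) (nat_lit 9537) (nat_lit 1451930073152) (nat_lit 10098) (nat_lit 564285554) (nat_lit 10285) (nat_lit 3009392082726),Row.mk (nat_lit 28896) (nat_lit 10098) (nat_lit 1813697481508) (nat_lit 10659) (nat_lit 443409993) (nat_lit 10846) (nat_lit 2719837624798),Row.mk (nat_lit 29064) (nat_lit 10659) (nat_lit 2265482056420) (nat_lit 11220) (nat_lit 346630253) (nat_lit 11407)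 (nat_lit 2358191092002),Row.mk (nat_lit 29232) (nat_lit 11220) (nat_lit 2829706703438) (nat_lit 11781) (nat_lit 269142976) (nat_lit 11968) (nat_lit 1906503296831),Row.mk (nat_lit 29400) (nat_lit 11781) (nat_lit 3534374937230) (nat_lit 12529) (nat_lit 207102324) (nat_lit 12716) (nat_lit 1342356137090),Row.mk (nat_lit 29568) (nat_lit 12529) (nat_lit 4414460747899) (nat_lit 13277) (nat_lit 157429105) (nat_lit 13464) (nat_lit 637749943949),Row.mk (nat_lit 29736) (nat_lit 12342) (nat_lit 302462658879) (nat_lit 13090) (nat_lit 146951936) (nat_lit 13277) (nat_lit 4968866278543),Row.mk (nat_lit 29904) (nat_lit 13090) (nat_lit 1675306652917) (nat_lit 13838) (nat_lit 107180777) (nat_lit 14025) (nat_lit 3869722372688),Row.mk (nat_lit 30072) (nat_lit 13838) (nat_lit 3389937853048) (nat_lit 14960) (nat_lit 75337761) (nat_lit 15147) (nat_lit 2496918149809),Row.mk (nat_lit 30240) (nat_lit 14960) (nat_lit 5531456582723) (nat_lit 16269) (nat_lit 49842459)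 (nat_lit 16456) (nat_lit 782318792696),Row.mk (nat_lit 30408) (nat_lit 14773) (nat_lit 1697539332468) (nat_lit 16082) (nat_lit 36756728) (nat_lit 16269) (nat_lit 5149429283076),Row.mk (nat_lit 30576) (nat_lit 16082) (nat_lit 5038162284705) (nat_lit 17578) (nat_lit 16343762) (nat_lit 17765) (nat_lit 2474755894308),Row.mk (nat_lit 30744) (nat_lit 15895) (nat_lit 1081421572043) (nat_lit 17578) (nat_lit 7263242394967) (nat_lit 0) (nat_lit 0),Row.mk (nat_lit 30912) (nat_lit 17391) (nat_lit 6292563566917) (nat_lit 17578) (nat_lit 16343762) (nat_lit 19635) (nat_lit 3090894067699),Row.mk (nat_lit 31080) (nat_lit 17204) (nat_lit 2648118099627) (nat_lit 17391) (nat_lit 36756728) (nat_lit 19448) (nat_lit 8032767766172),Row.mk (nat_lit 31248) (nat_lit 19261) (nat_lit 10777190795795) (nat_lit 19448) (nat_lit 49842459) (nat_lit 25806) (nat_lit 1524164041417),Row.mk (nat_lit 31416) (nat_lit 19074) (nat_lit 8249309322223) (nat_lit 19261) (nat_lit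 75337761) (nat_lit 25619) (nat_lit 6075963016868),Row.mk (nat_lit 31584) (nat_lit 18887) (nat_lit 5092046343851) (nat_lit 19074) (nat_lit 107180777) (nat_lit 25432) (nat_lit 11761050130494),Row.mk (nat_lit 31752) (nat_lit 18700) (nat_lit 1148701049062) (nat_lit 18887) (nat_lit 146951936) (nat_lit 25245) (nat_lit 18861586789478),Row.mk (nat_lit 31920) (nat_lit 25058) (nat_lit 20930109379665) (nat_lit 25245) (nat_lit 157429105) (nat_lit 31603) (nat_lit 3023473505336),Row.mk (nat_lit 32088) (nat_lit 24871) (nat_lit 20930059706447) (nat_lit 25058) (nat_lit 207102324) (nat_lit 31416) (nat_lit 7948566976815),Row.mk (nat_lit 32256) (nat_lit 24684) (nat_lit 20929997665795) (nat_lit 24871) (nat_lit 269142976) (nat_lit 31229) (nat_lit 14099889910697),Row.mk (nat_lit 32424) (nat_lit 24497) (nat_lit 20929920178517) (nat_lit 24684) (nat_lit 346630253) (nat_lit 31042) (nat_lit 21782743861800),Row.mk (nat_lit 32592) (nat_lit 24310) (nat_lit 20929823398777)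 (nat_lit 24497) (nat_lit 443409993) (nat_lit 30855) (nat_lit 31378443107055),Row.mk (nat_lit 32760) (nat_lit 24123) (nat_lit 20929702523217) (nat_lit 24310) (nat_lit 564285554) (nat_lit 30668) (nat_lit 43363239979599),Row.mk (nat_lit 32928) (nat_lit 23936) (nat_lit 20929551552557) (nat_lit 24123) (nat_lit 715256213) (nat_lit 30481) (nat_lit 58331962154502),Row.mk (nat_lit 33096) (nat_lit 23749) (nat_lit 20929362993846) (nat_lit 23936) (nat_lit 903814925) (nat_lit 30294) (nat_lit 77027535048418),Row.mk (nat_lit 33264) (nat_lit 23562) (nat_lit 20929127488564) (nat_lit 23749) (nat_lit 1139320207) (nat_lit 30107) (nat_lit 100377854584561),Row.mk (nat_lit 33432) (nat_lit 23375) (nat_lit 20928833348148) (nat_lit 23562) (nat_lit 1433460622) (nat_lit 29920) (nat_lit 129541840386644),Row.mk (nat_lit 33600) (nat_lit 23188) (nat_lit 20928465973864) (nat_lit 23375) (nat_lit 1800834906) (nat_lit 29733) (nat_lit 165966955107133),Row.mk (nat_lit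 33768) (nat_lit 23001) (nat_lit 20928007132247) (nat_lit 23188) (nat_lit 2259676524) (nat_lit 29546) (nat_lit 211461044680653),Row.mk (nat_lit 33936) (nat_lit 22814) (nat_lit 20927434050135) (nat_lit 23001) (nat_lit 2832758635) (nat_lit 29359) (nat_lit 268282065067425),Row.mk (nat_lit 34104) (nat_lit 22627) (nat_lit 20926718284403) (nat_lit 22814) (nat_lit 3548524368) (nat_lit 29172) (nat_lit 339250148791277),Row.mk (nat_lit 34272) (nat_lit 22440) (nat_lit 20925824310270) (nat_lit 22627) (nat_lit 4442498501) (nat_lit 28985) (nat_lit 427887573342141),Row.mk (nat_lit 34440) (nat_lit 22253) (nat_lit 20924707758144) (nat_lit 22440) (nat_lit 5559050627) (nat_lit 28798) (nat_lit 538593578334209),Row.mk (nat_lit 34608) (nat_lit 22066) (nat_lit 20923313211474) (nat_lit 22253) (nat_lit 6953597296) (nat_lit 28611) (nat_lit 676862707919203),Row.mk (nat_lit 34776) (nat_lit 21879) (nat_lit 20921571456325) (nat_lit 22066) (nat_lit 8695352445) (nat_lit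 28424) (nat_lit 849557515193316),Row.mk (nat_lit 34944) (nat_lit 21692) (nat_lit 20919396046162) (nat_lit 21879) (nat_lit 10870762608) (nat_lit 28237) (nat_lit 1065249163422795),Row.mk (nat_lit 35112) (nat_lit 21505) (nat_lit 20916679011348) (nat_lit 21692) (nat_lit 13587797423) (nat_lit 28050) (nat_lit 1334642828758111),Row.mk (nat_lit 35280) (nat_lit 21318) (nat_lit 20913285500410) (nat_lit 21505) (nat_lit 16981308361) (nat_lit 27863) (nat_lit 1671109017961619),Row.mk (nat_lit 35448) (nat_lit 21131) (nat_lit 20909047087113) (nat_lit 21318) (nat_lit 21219721658) (nat_lit 27676) (nat_lit 2091347171432000),Row.mk (nat_lit 35616) (nat_lit 20944) (nat_lit 20903753411151) (nat_lit 21131) (nat_lit 26513397619) (nat_lit 27489) (nat_lit 2616214487373158)],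
[Row.mk (nat_lit 21504) (nat_lit 32912) (nat_lit 28801573) (nat_lit 61897) (nat_lit 5211121581908) (nat_lit 0) (nat_lit 0),Row.mk (nat_lit 21672) (nat_lit 32912) (nat_lit 33883909) (nat_lit 61897) (nat_lit 5211116499572) (nat_lit 0) (nat_lit 0),Row.mk (nat_lit 21840) (nat_lit 32912) (nat_lit 40231624) (nat_lit 61897) (nat_lit 5211110151857) (nat_lit 0) (nat_lit 0),Row.mk (nat_lit 22008) (nat_lit 32912) (nat_lit 48159767) (nat_lit 61897) (nat_lit 5211102223714) (nat_lit 0) (nat_lit 0),Row.mk (nat_lit 22176) (nat_lit 32912) (nat_lit 58061826) (nat_lit 61897) (nat_lit 5211092321655) (nat_lit 0) (nat_lit 0),Row.mk (nat_lit 22344) (nat_lit 32912) (nat_lit 70429259) (nat_lit 61897) (nat_lit 5211079954222) (nat_lit 0) (nat_lit 0),Row.mk (nat_lit 22512) (nat_lit 32912) (nat_lit 85875885) (nat_lit 61897) (nat_lit 5211064507596) (nat_lit 0) (nat_lit 0),Row.mk (nat_lit 22680) (nat_lit 32912) (nat_lit 105168348) (nat_lit 61897) (nat_lit 5211045215133)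 (nat_lit 0) (nat_lit 0),Row.mk (nat_lit 22848) (nat_lit 32912) (nat_lit 129264168) (nat_lit 61897) (nat_lit 5211021119313) (nat_lit 0) (nat_lit 0),Row.mk (nat_lit 23016) (nat_lit 32912) (nat_lit 159359267) (nat_lit 61897) (nat_lit 5210991024214) (nat_lit 0) (nat_lit 0),Row.mk (nat_lit 23184) (nat_lit 32912) (nat_lit 196947319) (nat_lit 61897) (nat_lit 5210953436162) (nat_lit 0) (nat_lit 0),Row.mk (nat_lit 23352) (nat_lit 32912) (nat_lit 243893889) (nat_lit 61897) (nat_lit 5210906489592) (nat_lit 0) (nat_lit 0),Row.mk (nat_lit 23520) (nat_lit 32912) (nat_lit 302529023) (nat_lit 61897) (nat_lit 5210847854458) (nat_lit 0) (nat_lit 0),Row.mk (nat_lit 23688) (nat_lit 32912) (nat_lit 375762891) (nat_lit 61897) (nat_lit 5210774620590) (nat_lit 0) (nat_lit 0),Row.mk (nat_lit 23856) (nat_lit 32912) (nat_lit 467230225) (nat_lit 61897) (nat_lit 5210683153256) (nat_lit 0) (nat_lit 0),Row.mk (nat_lit 24024) (nat_lit 32912) (nat_lit 581470719)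 (nat_lit 61897) (nat_lit 5210568912762) (nat_lit 0) (nat_lit 0),Row.mk (nat_lit 24192) (nat_lit 32912) (nat_lit 724154340) (nat_lit 61897) (nat_lit 5210426229141) (nat_lit 0) (nat_lit 0),Row.mk (nat_lit 24360) (nat_lit 32912) (nat_lit 902362740) (nat_lit 61897) (nat_lit 5210248020741) (nat_lit 0) (nat_lit 0),Row.mk (nat_lit 24528) (nat_lit 32912) (nat_lit 1124940733) (nat_lit 61897) (nat_lit 5210025442748) (nat_lit 0) (nat_lit 0),Row.mk (nat_lit 24696) (nat_lit 32912) (nat_lit 1402935277) (nat_lit 61897) (nat_lit 5209747448204) (nat_lit 0) (nat_lit 0),Row.mk (nat_lit 24864) (nat_lit 32912) (nat_lit 1750143756) (nat_lit 61897) (nat_lit 5209400239725) (nat_lit 0) (nat_lit 0),Row.mk (nat_lit 25032) (nat_lit 32912) (nat_lit 2183798771) (nat_lit 61897) (nat_lit 5208966584711) (nat_lit 0) (nat_lit 0),Row.mk (nat_lit 25200) (nat_lit 32912) (nat_lit 2725423422) (nat_lit 61897) (nat_lit 5208424960059) (nat_lit 0) (nat_lit 0),Row.mk (nat_lit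 25368) (nat_lit 32912) (nat_lit 3401899546) (nat_lit 61897) (nat_lit 5207748483936) (nat_lit 0) (nat_lit 0),Row.mk (nat_lit 25536) (nat_lit 32912) (nat_lit 4246801905) (nat_lit 61897) (nat_lit 5206903581576) (nat_lit 0) (nat_lit 0),Row.mk (nat_lit 25704) (nat_lit 32912) (nat_lit 5302064569) (nat_lit 61897) (nat_lit 5205848318912) (nat_lit 0) (nat_lit 0),Row.mk (nat_lit 25872) (nat_lit 0) (nat_lit 33125071192) (nat_lit 187) (nat_lit 5184628597254) (nat_lit 0) (nat_lit 0),Row.mk (nat_lit 26040) (nat_lit 0) (nat_lit 14869494365) (nat_lit 561) (nat_lit 26513397619) (nat_lit 748) (nat_lit 5178016923681),Row.mk (nat_lit 26208) (nat_lit 561) (nat_lit 30476989287) (nat_lit 1122) (nat_lit 21219721658) (nat_lit 1309) (nat_lit 5169759102888),Row.mk (nat_lit 26376) (nat_lit 1122) (nat_lit 47597113657) (nat_lit 1683) (nat_lit 16981308361) (nat_lit 1870) (nat_lit 5159445283928),Row.mk (nat_lit 26544) (nat_lit 1683) (nat_lit 67079570970) (nat_lit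 2244) (nat_lit 13587797423) (nat_lit 2431) (nat_lit 5146563572854),Row.mk (nat_lit 26712) (nat_lit 2244) (nat_lit 89891311680) (nat_lit 2805) (nat_lit 10870762608) (nat_lit 2992) (nat_lit 5130474626480),Row.mk (nat_lit 26880) (nat_lit 2805) (nat_lit 117164524745) (nat_lit 3366) (nat_lit 8695352445) (nat_lit 3553) (nat_lit 5110379920585),Row.mk (nat_lit 27048) (nat_lit 3366) (nat_lit 150252830264) (nat_lit 3927) (nat_lit 6953597296) (nat_lit 4114) (nat_lit 5085282117682),Row.mk (nat_lit 27216) (nat_lit 3927) (nat_lit 190798462149) (nat_lit 4488) (nat_lit 5559050627) (nat_lit 4675) (nat_lit 5053935567312),Row.mk (nat_lit 27384) (nat_lit 4488) (nat_lit 240813775235) (nat_lit 5049) (nat_lit 4442498501) (nat_lit 5236) (nat_lit 5014784482097),Row.mk (nat_lit 27552) (nat_lit 5049) (nat_lit 302781122182) (nat_lit 5610) (nat_lit 3548524368) (nat_lit 5797) (nat_lit 4965885721137),Row.mk (nat_lit 27720) (nat_lit 5610) (nat_lit 379776057238)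 (nat_lit 6171) (nat_lit 2832758635) (nat_lit 6358) (nat_lit 4904812348322),Row.mk (nat_lit 27888) (nat_lit 6171) (nat_lit 475619981691) (nat_lit 6732) (nat_lit 2259676524) (nat_lit 6919) (nat_lit 4828533178999),Row.mk (nat_lit 28056) (nat_lit 6732) (nat_lit 595069807098) (nat_lit 7293) (nat_lit 1800834906) (nat_lit 7480) (nat_lit 4733262336658),Row.mk (nat_lit 28224) (nat_lit 7293) (nat_lit 744054049619) (nat_lit 7854) (nat_lit 1433460622) (nat_lit 8041) (nat_lit 4614271352869),Row.mk (nat_lit 28392) (nat_lit 7854) (nat_lit 929967073259) (nat_lit 8415) (nat_lit 1139320207) (nat_lit 8602) (nat_lit 4465654484631),Row.mk (nat_lit 28560) (nat_lit 8415) (nat_lit 1162036085853) (nat_lit 8976) (nat_lit 903814925) (nat_lit 9163) (nat_lit 4280035601407),Row.mk (nat_lit 28728) (nat_lit 8976) (nat_lit 1451779102492) (nat_lit 9537) (nat_lit 715256213) (nat_lit 9724) (nat_lit 4048202094095),Row.mk (nat_lit 28896) (nat_lit 9537) (nat_lit 1813576605948)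 (nat_lit 10098) (nat_lit 564285554) (nat_lit 10285) (nat_lit 3758647636167),Row.mk (nat_lit 29064) (nat_lit 10098) (nat_lit 2265385276680) (nat_lit 10659) (nat_lit 443409993) (nat_lit 10846) (nat_lit 3397001103371),Row.mk (nat_lit 29232) (nat_lit 10659) (nat_lit 2829629216161) (nat_lit 11220) (nat_lit 346630253) (nat_lit 11407) (nat_lit 2945313308200),Row.mk (nat_lit 29400) (nat_lit 11220) (nat_lit 3534312896579) (nat_lit 11781) (nat_lit 269142976) (nat_lit 11968) (nat_lit 2381166148459),Row.mk (nat_lit 29568) (nat_lit 11781) (nat_lit 4414411074680) (nat_lit 12529) (nat_lit 207102324) (nat_lit 12716) (nat_lit 1676559955318),Row.mk (nat_lit 29736) (nat_lit 12529) (nat_lit 5513604653753) (nat_lit 13277) (nat_lit 157429105) (nat_lit 13464) (nat_lit 796523817868),Row.mk (nat_lit 29904) (nat_lit 12342) (nat_lit 377818237609) (nat_lit 13090) (nat_lit 146951936) (nat_lit 13277) (nat_lit 6205981028206),Row.mk (nat_lit 30072) (nat_lit 13090)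 (nat_lit 2092457365882) (nat_lit 13838) (nat_lit 107180777) (nat_lit 14025) (nat_lit 4833176805328),Row.mk (nat_lit 30240) (nat_lit 13838) (nat_lit 4233982443273) (nat_lit 14960) (nat_lit 75337761) (nat_lit 15147) (nat_lit 3118577448214),Row.mk (nat_lit 30408) (nat_lit 14960) (nat_lit 6908681327342) (nat_lit 16269) (nat_lit 49842459) (nat_lit 16456) (nat_lit 977084213839),Row.mk (nat_lit 30576) (nat_lit 14773) (nat_lit 2120211170446) (nat_lit 16082) (nat_lit 36756728) (nat_lit 16269) (nat_lit 6431496606970),Row.mk (nat_lit 30744) (nat_lit 16082) (nat_lit 6292563566917) (nat_lit 17578) (nat_lit 16343762) (nat_lit 17765) (nat_lit 3090894067699),Row.mk (nat_lit 30912) (nat_lit 15895) (nat_lit 1350689868444) (nat_lit 17578) (nat_lit 9071594121304) (nat_lit 0) (nat_lit 0),Row.mk (nat_lit 31080) (nat_lit 17391) (nat_lit 7859280507467) (nat_lit 17578) (nat_lit 16343762) (nat_lit 19635) (nat_lit 3860435782667),Row.mk (nat_lit 31248) (nat_lit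 17204) (nat_lit 3307461119051) (nat_lit 17391) (nat_lit 36756728) (nat_lit 19448) (nat_lit 10032716815261),Row.mk (nat_lit 31416) (nat_lit 19261) (nat_lit 13460476812398) (nat_lit 19448) (nat_lit 49842459) (nat_lit 25806) (nat_lit 1903631033362),Row.mk (nat_lit 31584) (nat_lit 19074) (nat_lit 10303220181742) (nat_lit 19261) (nat_lit 75337761) (nat_lit 25619) (nat_lit 7588718146988),Row.mk (nat_lit 31752) (nat_lit 18887) (nat_lit 6359882815096) (nat_lit 19074) (nat_lit 107180777) (nat_lit 25432) (nat_lit 14689254805973),Row.mk (nat_lit 31920) (nat_lit 18700) (nat_lit 1434749572457) (nat_lit 18887) (nat_lit 146951936) (nat_lit 25245) (nat_lit 23557653801082),Row.mk (nat_lit 32088) (nat_lit 25058) (nat_lit 26141251374539) (nat_lit 25245) (nat_lit 157429105) (nat_lit 31603) (nat_lit 3776234993310),Row.mk (nat_lit 32256) (nat_lit 24871) (nat_lit 26141201701321) (nat_lit 25058) (nat_lit 207102324) (nat_lit 31416) (nat_lit 9927557927192),Row.mk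 (nat_lit 32424) (nat_lit 24684) (nat_lit 26141139660669) (nat_lit 24871) (nat_lit 269142976) (nat_lit 31229) (nat_lit 17610411878295),Row.mk (nat_lit 32592) (nat_lit 24497) (nat_lit 26141062173392) (nat_lit 24684) (nat_lit 346630253) (nat_lit 31042) (nat_lit 27206111123550),Row.mk (nat_lit 32760) (nat_lit 24310) (nat_lit 26140965393651) (nat_lit 24497) (nat_lit 443409993) (nat_lit 30855) (nat_lit 39190907996094),Row.mk (nat_lit 32928) (nat_lit 24123) (nat_lit 26140844518091) (nat_lit 24310) (nat_lit 564285554) (nat_lit 30668) (nat_lit 54159630170997),Row.mk (nat_lit 33096) (nat_lit 23936) (nat_lit 26140693547431) (nat_lit 24123) (nat_lit 715256213) (nat_lit 30481) (nat_lit 72855203064913),Row.mk (nat_lit 33264) (nat_lit 23749) (nat_lit 26140504988720) (nat_lit 23936) (nat_lit 903814925) (nat_lit 30294) (nat_lit 96205522601056),Row.mk (nat_lit 33432) (nat_lit 23562) (nat_lit 26140269483438) (nat_lit 23749) (nat_lit 1139320207) (nat_lit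 30107) (nat_lit 125369508403139),Row.mk (nat_lit 33600) (nat_lit 23375) (nat_lit 26139975343022) (nat_lit 23562) (nat_lit 1433460622) (nat_lit 29920) (nat_lit 161794623123628),Row.mk (nat_lit 33768) (nat_lit 23188) (nat_lit 26139607968738) (nat_lit 23375) (nat_lit 1800834906) (nat_lit 29733) (nat_lit 207288712697148),Row.mk (nat_lit 33936) (nat_lit 23001) (nat_lit 26139149127121) (nat_lit 23188) (nat_lit 2259676524) (nat_lit 29546) (nat_lit 264109733083920),Row.mk (nat_lit 34104) (nat_lit 22814) (nat_lit 26138576045009) (nat_lit 23001) (nat_lit 2832758635) (nat_lit 29359) (nat_lit 335077816807772),Row.mk (nat_lit 34272) (nat_lit 22627) (nat_lit 26137860279277) (nat_lit 22814) (nat_lit 3548524368) (nat_lit 29172) (nat_lit 423715241358636),Row.mk (nat_lit 34440) (nat_lit 22440) (nat_lit 26136966305144) (nat_lit 22627) (nat_lit 4442498501) (nat_lit 28985) (nat_lit 534421246350704),Row.mk (nat_lit 34608) (nat_lit 22253) (nat_lit 26135849753018)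 (nat_lit 22440) (nat_lit 5559050627) (nat_lit 28798) (nat_lit 672690375935698),Row.mk (nat_lit 34776) (nat_lit 22066) (nat_lit 26134455206348) (nat_lit 22253) (nat_lit 6953597296) (nat_lit 28611) (nat_lit 845385183209811),Row.mk (nat_lit 34944) (nat_lit 21879) (nat_lit 26132713451199) (nat_lit 22066) (nat_lit 8695352445) (nat_lit 28424) (nat_lit 1061076831439289),Row.mk (nat_lit 35112) (nat_lit 21692) (nat_lit 26130538041036) (nat_lit 21879) (nat_lit 10870762608) (nat_lit 28237) (nat_lit 1330470496774606),Row.mk (nat_lit 35280) (nat_lit 21505) (nat_lit 26127821006222) (nat_lit 21692) (nat_lit 13587797423) (nat_lit 28050) (nat_lit 1666936685978114),Row.mk (nat_lit 35448) (nat_lit 21318) (nat_lit 26124427495284) (nat_lit 21505) (nat_lit 16981308361) (nat_lit 27863) (nat_lit 2087174839448495),Row.mk (nat_lit 35616) (nat_lit 21131) (nat_lit 26120189081987) (nat_lit 21318) (nat_lit 21219721658) (nat_lit 27676) (nat_lit 2612042155389653)],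
[Row.mk (nat_lit 22512) (nat_lit 32912) (nat_lit 85875885) (nat_lit 61897) (nat_lit 6508513151746) (nat_lit 0) (nat_lit 0),Row.mk (nat_lit 22680) (nat_lit 32912) (nat_lit 105168348) (nat_lit 61897) (nat_lit 6508493859283) (nat_lit 0) (nat_lit 0),Row.mk (nat_lit 22848) (nat_lit 32912) (nat_lit 129264168) (nat_lit 61897) (nat_lit 6508469763462) (nat_lit 0) (nat_lit 0),Row.mk (nat_lit 23016) (nat_lit 32912) (nat_lit 159359267) (nat_lit 61897) (nat_lit 6508439668364) (nat_lit 0) (nat_lit 0),Row.mk (nat_lit 23184) (nat_lit 32912) (nat_lit 196947319) (nat_lit 61897) (nat_lit 6508402080311) (nat_lit 0) (nat_lit 0),Row.mk (nat_lit 23352) (nat_lit 32912) (nat_lit 243893889) (nat_lit 61897) (nat_lit 6508355133741) (nat_lit 0) (nat_lit 0),Row.mk (nat_lit 23520) (nat_lit 32912) (nat_lit 302529023) (nat_lit 61897) (nat_lit 6508296498607) (nat_lit 0) (nat_lit 0),Row.mk (nat_lit 23688) (nat_lit 32912) (nat_lit 375762891) (nat_lit 61897) (nat_lit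 6508223264739) (nat_lit 0) (nat_lit 0),Row.mk (nat_lit 23856) (nat_lit 32912) (nat_lit 467230225) (nat_lit 61897) (nat_lit 6508131797405) (nat_lit 0) (nat_lit 0),Row.mk (nat_lit 24024) (nat_lit 32912) (nat_lit 581470719) (nat_lit 61897) (nat_lit 6508017556911) (nat_lit 0) (nat_lit 0),Row.mk (nat_lit 24192) (nat_lit 32912) (nat_lit 724154340) (nat_lit 61897) (nat_lit 6507874873290) (nat_lit 0) (nat_lit 0),Row.mk (nat_lit 24360) (nat_lit 32912) (nat_lit 902362740) (nat_lit 61897) (nat_lit 6507696664890) (nat_lit 0) (nat_lit 0),Row.mk (nat_lit 24528) (nat_lit 32912) (nat_lit 1124940733) (nat_lit 61897) (nat_lit 6507474086897) (nat_lit 0) (nat_lit 0),Row.mk (nat_lit 24696) (nat_lit 32912) (nat_lit 1402935277) (nat_lit 61897) (nat_lit 6507196092353) (nat_lit 0) (nat_lit 0),Row.mk (nat_lit 24864) (nat_lit 32912) (nat_lit 1750143756) (nat_lit 61897) (nat_lit 6506848883874) (nat_lit 0) (nat_lit 0),Row.mk (nat_lit 25032) (nat_lit 32912) (nat_lit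 2183798771) (nat_lit 61897) (nat_lit 6506415228860) (nat_lit 0) (nat_lit 0),Row.mk (nat_lit 25200) (nat_lit 32912) (nat_lit 2725423422) (nat_lit 61897) (nat_lit 6505873604208) (nat_lit 0) (nat_lit 0),Row.mk (nat_lit 25368) (nat_lit 32912) (nat_lit 3401899546) (nat_lit 61897) (nat_lit 6505197128085) (nat_lit 0) (nat_lit 0),Row.mk (nat_lit 25536) (nat_lit 32912) (nat_lit 4246801905) (nat_lit 61897) (nat_lit 6504352225726) (nat_lit 0) (nat_lit 0),Row.mk (nat_lit 25704) (nat_lit 32912) (nat_lit 5302064569) (nat_lit 61897) (nat_lit 6503296963061) (nat_lit 0) (nat_lit 0),Row.mk (nat_lit 25872) (nat_lit 32912) (nat_lit 6620062180) (nat_lit 61897) (nat_lit 6501978965451) (nat_lit 0) (nat_lit 0),Row.mk (nat_lit 26040) (nat_lit 32912) (nat_lit 8266209401) (nat_lit 61897) (nat_lit 6500332818230) (nat_lit 0) (nat_lit 0),Row.mk (nat_lit 26208) (nat_lit 0) (nat_lit 25183313326) (nat_lit 561) (nat_lit 26513397619) (nat_lit 748) (nat_lit 6467207747038),Row.mk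 (nat_lit 26376) (nat_lit 561) (nat_lit 43358700360) (nat_lit 1122) (nat_lit 21219721658) (nat_lit 1309) (nat_lit 6456893928077),Row.mk (nat_lit 26544) (nat_lit 1122) (nat_lit 63686060032) (nat_lit 1683) (nat_lit 16981308361) (nat_lit 1870) (nat_lit 6444012217004),Row.mk (nat_lit 26712) (nat_lit 1683) (nat_lit 87174276865) (nat_lit 2244) (nat_lit 13587797423) (nat_lit 2431) (nat_lit 6427923270629),Row.mk (nat_lit 26880) (nat_lit 2244) (nat_lit 114989114582) (nat_lit 2805) (nat_lit 10870762608) (nat_lit 2992) (nat_lit 6407828564734),Row.mk (nat_lit 27048) (nat_lit 2805) (nat_lit 148511075116) (nat_lit 3366) (nat_lit 8695352445) (nat_lit 3553) (nat_lit 6382730761832),Row.mk (nat_lit 27216) (nat_lit 3366) (nat_lit 189403915479) (nat_lit 3927) (nat_lit 6953597296) (nat_lit 4114) (nat_lit 6351384211461),Row.mk (nat_lit 27384) (nat_lit 3927) (nat_lit 239697223109) (nat_lit 4488) (nat_lit 5559050627) (nat_lit 4675) (nat_lit 6312233126247),Row.mk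 (nat_lit 27552) (nat_lit 4488) (nat_lit 301887148049) (nat_lit 5049) (nat_lit 4442498501) (nat_lit 5236) (nat_lit 6263334365287),Row.mk (nat_lit 27720) (nat_lit 5049) (nat_lit 379060291506) (nat_lit 5610) (nat_lit 3548524368) (nat_lit 5797) (nat_lit 6202260992472),Row.mk (nat_lit 27888) (nat_lit 5610) (nat_lit 475046899580) (nat_lit 6171) (nat_lit 2832758635) (nat_lit 6358) (nat_lit 6125981823148),Row.mk (nat_lit 28056) (nat_lit 6171) (nat_lit 594610965480) (nat_lit 6732) (nat_lit 2259676524) (nat_lit 6919) (nat_lit 6030710980807),Row.mk (nat_lit 28224) (nat_lit 6732) (nat_lit 743686675335) (nat_lit 7293) (nat_lit 1800834906) (nat_lit 7480) (nat_lit 5911719997018),Row.mk (nat_lit 28392) (nat_lit 7293) (nat_lit 929672932843) (nat_lit 7854) (nat_lit 1433460622) (nat_lit 8041) (nat_lit 5763103128781),Row.mk (nat_lit 28560) (nat_lit 7854) (nat_lit 1161800580571) (nat_lit 8415) (nat_lit 1139320207) (nat_lit 8602) (nat_lit 5577484245557),Row.mk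 (nat_lit 28728) (nat_lit 8415) (nat_lit 1451590543781) (nat_lit 8976) (nat_lit 903814925) (nat_lit 9163) (nat_lit 5345650738244),Row.mk (nat_lit 28896) (nat_lit 8976) (nat_lit 1813425635288) (nat_lit 9537) (nat_lit 715256213) (nat_lit 9724) (nat_lit 5056096280317),Row.mk (nat_lit 29064) (nat_lit 9537) (nat_lit 2265264401119) (nat_lit 10098) (nat_lit 564285554) (nat_lit 10285) (nat_lit 4694449747521),Row.mk (nat_lit 29232) (nat_lit 10098) (nat_lit 2829532436421) (nat_lit 10659) (nat_lit 443409993) (nat_lit 10846) (nat_lit 4242761952349),Row.mk (nat_lit 29400) (nat_lit 10659) (nat_lit 3534235409301) (nat_lit 11220) (nat_lit 346630253) (nat_lit 11407) (nat_lit 3678614792608),Row.mk (nat_lit 29568) (nat_lit 11220) (nat_lit 4414349034029) (nat_lit 11781) (nat_lit 269142976) (nat_lit 11968) (nat_lit 2974008599467),Row.mk (nat_lit 29736) (nat_lit 11781) (nat_lit 5513554980535) (nat_lit 12529) (nat_lit 207102324) (nat_lit 12716) (nat_lit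 2093972462018),Row.mk (nat_lit 29904) (nat_lit 12529) (nat_lit 6886408876632) (nat_lit 13277) (nat_lit 157429105) (nat_lit 13464) (nat_lit 994828556163),Row.mk (nat_lit 30072) (nat_lit 12342) (nat_lit 471935537578) (nat_lit 13090) (nat_lit 146951936) (nat_lit 13277) (nat_lit 7751107506621),Row.mk (nat_lit 30240) (nat_lit 13090) (nat_lit 2613468543112) (nat_lit 13838) (nat_lit 107180777) (nat_lit 14025) (nat_lit 6036508149507),Row.mk (nat_lit 30408) (nat_lit 13838) (nat_lit 5288173774897) (nat_lit 14960) (nat_lit 75337761) (nat_lit 15147) (nat_lit 3895014915133),Row.mk (nat_lit 30576) (nat_lit 14960) (nat_lit 8628801809469) (nat_lit 16269) (nat_lit 49842459) (nat_lit 16456) (nat_lit 1220341526365),Row.mk (nat_lit 30744) (nat_lit 14773) (nat_lit 2648118099627) (nat_lit 16082) (nat_lit 36756728) (nat_lit 16269) (nat_lit 8032767766172),Row.mk (nat_lit 30912) (nat_lit 16082) (nat_lit 7859280507467) (nat_lit 17578) (nat_lit 16343762) (nat_lit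 17765) (nat_lit 3860435782667),Row.mk (nat_lit 31080) (nat_lit 15895) (nat_lit 1686999474872) (nat_lit 17578) (nat_lit 11330181803174) (nat_lit 0) (nat_lit 0),Row.mk (nat_lit 31248) (nat_lit 17391) (nat_lit 9816072171040) (nat_lit 17578) (nat_lit 16343762) (nat_lit 19635) (nat_lit 4821574820387),Row.mk (nat_lit 31416) (nat_lit 17204) (nat_lit 4130964644449) (nat_lit 17391) (nat_lit 36756728) (nat_lit 19448) (nat_lit 12530604931193),Row.mk (nat_lit 31584) (nat_lit 19261) (nat_lit 16811836316067) (nat_lit 19448) (nat_lit 49842459) (nat_lit 25806) (nat_lit 2377576152114),Row.mk (nat_lit 31752) (nat_lit 19074) (nat_lit 12868505297136) (nat_lit 19261) (nat_lit 75337761) (nat_lit 25619) (nat_lit 9478112811099),Row.mk (nat_lit 31920) (nat_lit 18887) (nat_lit 7943379982640) (nat_lit 19074) (nat_lit 107180777) (nat_lit 25432) (nat_lit 18346511806208),Row.mk (nat_lit 32088) (nat_lit 18700) (nat_lit 1792017277599) (nat_lit 18887) (nat_lit 146951936)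 (nat_lit 25245) (nat_lit 29422928211569),Row.mk (nat_lit 32256) (nat_lit 25058) (nat_lit 32649842013563) (nat_lit 25245) (nat_lit 157429105) (nat_lit 31603) (nat_lit 4716415932318),Row.mk (nat_lit 32424) (nat_lit 24871) (nat_lit 32649792340344) (nat_lit 25058) (nat_lit 207102324) (nat_lit 31416) (nat_lit 12399269883421),Row.mk (nat_lit 32592) (nat_lit 24684) (nat_lit 32649730299692) (nat_lit 24871) (nat_lit 269142976) (nat_lit 31229) (nat_lit 21994969128676),Row.mk (nat_lit 32760) (nat_lit 24497) (nat_lit 32649652812415) (nat_lit 24684) (nat_lit 346630253) (nat_lit 31042) (nat_lit 33979766001220),Row.mk (nat_lit 32928) (nat_lit 24310) (nat_lit 32649556032675) (nat_lit 24497) (nat_lit 443409993) (nat_lit 30855) (nat_lit 48948488176123),Row.mk (nat_lit 33096) (nat_lit 24123) (nat_lit 32649435157114) (nat_lit 24310) (nat_lit 564285554) (nat_lit 30668) (nat_lit 67644061070039),Row.mk (nat_lit 33264) (nat_lit 23936) (nat_lit 32649284186455)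 (nat_lit 24123) (nat_lit 715256213) (nat_lit 30481) (nat_lit 90994380606182),Row.mk (nat_lit 33432) (nat_lit 23749) (nat_lit 32649095627743) (nat_lit 23936) (nat_lit 903814925) (nat_lit 30294) (nat_lit 120158366408265),Row.mk (nat_lit 33600) (nat_lit 23562) (nat_lit 32648860122461) (nat_lit 23749) (nat_lit 1139320207) (nat_lit 30107) (nat_lit 156583481128754),Row.mk (nat_lit 33768) (nat_lit 23375) (nat_lit 32648565982046) (nat_lit 23562) (nat_lit 1433460622) (nat_lit 29920) (nat_lit 202077570702274),Row.mk (nat_lit 33936) (nat_lit 23188) (nat_lit 32648198607762) (nat_lit 23375) (nat_lit 1800834906) (nat_lit 29733) (nat_lit 258898591089046),Row.mk (nat_lit 34104) (nat_lit 23001) (nat_lit 32647739766144) (nat_lit 23188) (nat_lit 2259676524) (nat_lit 29546) (nat_lit 329866674812898),Row.mk (nat_lit 34272) (nat_lit 22814) (nat_lit 32647166684033) (nat_lit 23001) (nat_lit 2832758635) (nat_lit 29359) (nat_lit 418504099363762),Row.mk (nat_lit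 34440) (nat_lit 22627) (nat_lit 32646450918300) (nat_lit 22814) (nat_lit 3548524368) (nat_lit 29172) (nat_lit 529210104355830),Row.mk (nat_lit 34608) (nat_lit 22440) (nat_lit 32645556944167) (nat_lit 22627) (nat_lit 4442498501) (nat_lit 28985) (nat_lit 667479233940824),Row.mk (nat_lit 34776) (nat_lit 22253) (nat_lit 32644440392041) (nat_lit 22440) (nat_lit 5559050627) (nat_lit 28798) (nat_lit 840174041214937),Row.mk (nat_lit 34944) (nat_lit 22066) (nat_lit 32643045845372) (nat_lit 22253) (nat_lit 6953597296) (nat_lit 28611) (nat_lit 1055865689444415),Row.mk (nat_lit 35112) (nat_lit 21879) (nat_lit 32641304090223) (nat_lit 22066) (nat_lit 8695352445) (nat_lit 28424) (nat_lit 1325259354779732),Row.mk (nat_lit 35280) (nat_lit 21692) (nat_lit 32639128680060) (nat_lit 21879) (nat_lit 10870762608) (nat_lit 28237) (nat_lit 1661725543983240),Row.mk (nat_lit 35448) (nat_lit 21505) (nat_lit 32636411645245) (nat_lit 21692) (nat_lit 13587797423)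 (nat_lit 28050) (nat_lit 2081963697453621),Row.mk (nat_lit 35616) (nat_lit 21318) (nat_lit 32633018134307) (nat_lit 21505) (nat_lit 16981308361) (nat_lit 27863) (nat_lit 2606831013394779)],
[Row.mk (nat_lit 24696) (nat_lit 32912) (nat_lit 1402935277) (nat_lit 61897) (nat_lit 8127678149497) (nat_lit 0) (nat_lit 0),Row.mk (nat_lit 24864) (nat_lit 32912) (nat_lit 1750143756) (nat_lit 61897) (nat_lit 8127330941018) (nat_lit 0) (nat_lit 0),Row.mk (nat_lit 25032) (nat_lit 32912) (nat_lit 2183798771) (nat_lit 61897) (nat_lit 8126897286004) (nat_lit 0) (nat_lit 0),Row.mk (nat_lit 25200) (nat_lit 32912) (nat_lit 2725423422) (nat_lit 61897) (nat_lit 8126355661353) (nat_lit 0) (nat_lit 0),Row.mk (nat_lit 25368) (nat_lit 32912) (nat_lit 3401899546) (nat_lit 61897) (nat_lit 8125679185229) (nat_lit 0) (nat_lit 0),Row.mk (nat_lit 25536) (nat_lit 32912) (nat_lit 4246801905) (nat_lit 61897) (nat_lit 8124834282870) (nat_lit 0) (nat_lit 0),Row.mk (nat_lit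 25704) (nat_lit 32912) (nat_lit 5302064569) (nat_lit 61897) (nat_lit 8123779020206) (nat_lit 0) (nat_lit 0),Row.mk (nat_lit 25872) (nat_lit 32912) (nat_lit 6620062180) (nat_lit 61897) (nat_lit 8122461022595) (nat_lit 0) (nat_lit 0),Row.mk (nat_lit 26040) (nat_lit 32912) (nat_lit 8266209401) (nat_lit 61897) (nat_lit 8120814875374) (nat_lit 0) (nat_lit 0),Row.mk (nat_lit 26208) (nat_lit 32912) (nat_lit 10322207568) (nat_lit 61897) (nat_lit 8118758877207) (nat_lit 0) (nat_lit 0),Row.mk (nat_lit 26376) (nat_lit 0) (nat_lit 38065024399) (nat_lit 561) (nat_lit 26513397619) (nat_lit 748) (nat_lit 8077375985221),Row.mk (nat_lit 26544) (nat_lit 561) (nat_lit 59447646735) (nat_lit 1122) (nat_lit 21219721658) (nat_lit 1309) (nat_lit 8064494274148),Row.mk (nat_lit 26712) (nat_lit 1122) (nat_lit 83780765927) (nat_lit 1683) (nat_lit 16981308361) (nat_lit 1870) (nat_lit 8048405327773),Row.mk (nat_lit 26880) (nat_lit 1683) (nat_lit 112272079768)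 (nat_lit 2244) (nat_lit 13587797423) (nat_lit 2431) (nat_lit 8028310621878),Row.mk (nat_lit 27048) (nat_lit 2244) (nat_lit 146335664952) (nat_lit 2805) (nat_lit 10870762608) (nat_lit 2992) (nat_lit 8003212818976),Row.mk (nat_lit 27216) (nat_lit 2805) (nat_lit 187662160330) (nat_lit 3366) (nat_lit 8695352445) (nat_lit 3553) (nat_lit 7971866268605),Row.mk (nat_lit 27384) (nat_lit 3366) (nat_lit 238302676439) (nat_lit 3927) (nat_lit 6953597296) (nat_lit 4114) (nat_lit 7932715183391),Row.mk (nat_lit 27552) (nat_lit 3927) (nat_lit 300770595923) (nat_lit 4488) (nat_lit 5559050627) (nat_lit 4675) (nat_lit 7883816422431),Row.mk (nat_lit 27720) (nat_lit 4488) (nat_lit 378166317373) (nat_lit 5049) (nat_lit 4442498501) (nat_lit 5236) (nat_lit 7822743049616),Row.mk (nat_lit 27888) (nat_lit 5049) (nat_lit 474331133847) (nat_lit 5610) (nat_lit 3548524368) (nat_lit 5797) (nat_lit 7746463880292),Row.mk (nat_lit 28056) (nat_lit 5610) (nat_lit 594037883369)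 (nat_lit 6171) (nat_lit 2832758635) (nat_lit 6358) (nat_lit 7651193037951),Row.mk (nat_lit 28224) (nat_lit 6171) (nat_lit 743227833717) (nat_lit 6732) (nat_lit 2259676524) (nat_lit 6919) (nat_lit 7532202054162),Row.mk (nat_lit 28392) (nat_lit 6732) (nat_lit 929305558559) (nat_lit 7293) (nat_lit 1800834906) (nat_lit 7480) (nat_lit 7383585185925),Row.mk (nat_lit 28560) (nat_lit 7293) (nat_lit 1161506440156) (nat_lit 7854) (nat_lit 1433460622) (nat_lit 8041) (nat_lit 7197966302701),Row.mk (nat_lit 28728) (nat_lit 7854) (nat_lit 1451355038499) (nat_lit 8415) (nat_lit 1139320207) (nat_lit 8602) (nat_lit 6966132795388),Row.mk (nat_lit 28896) (nat_lit 8415) (nat_lit 1813237076577) (nat_lit 8976) (nat_lit 903814925) (nat_lit 9163) (nat_lit 6676578337461),Row.mk (nat_lit 29064) (nat_lit 8976) (nat_lit 2265113430460) (nat_lit 9537) (nat_lit 715256213) (nat_lit 9724) (nat_lit 6314931804665),Row.mk (nat_lit 29232) (nat_lit 9537) (nat_lit 2829411560860)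 (nat_lit 10098) (nat_lit 564285554) (nat_lit 10285) (nat_lit 5863244009493),Row.mk (nat_lit 29400) (nat_lit 10098) (nat_lit 3534138629561) (nat_lit 10659) (nat_lit 443409993) (nat_lit 10846) (nat_lit 5299096849752),Row.mk (nat_lit 29568) (nat_lit 10659) (nat_lit 4414271546751) (nat_lit 11220) (nat_lit 346630253) (nat_lit 11407) (nat_lit 4594490656612),Row.mk (nat_lit 29736) (nat_lit 11220) (nat_lit 5513492939883) (nat_lit 11781) (nat_lit 269142976) (nat_lit 11968) (nat_lit 3714454519162),Row.mk (nat_lit 29904) (nat_lit 11781) (nat_lit 6886359203413) (nat_lit 12529) (nat_lit 207102324) (nat_lit 12716) (nat_lit 2615310613307),Row.mk (nat_lit 30072) (nat_lit 12529) (nat_lit 8601008233746) (nat_lit 13277) (nat_lit 157429105) (nat_lit 13464) (nat_lit 1242506390429),Row.mk (nat_lit 30240) (nat_lit 12342) (nat_lit 589485774773) (nat_lit 13090) (nat_lit 146951936) (nat_lit 13277) (nat_lit 9680933203831),Row.mk (nat_lit 30408) (nat_lit 13090)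 (nat_lit 3264198934700) (nat_lit 13838) (nat_lit 107180777) (nat_lit 14025) (nat_lit 7539439969457),Row.mk (nat_lit 30576) (nat_lit 13838) (nat_lit 6604833316988) (nat_lit 14960) (nat_lit 75337761) (nat_lit 15147) (nat_lit 4864766580689),Row.mk (nat_lit 30744) (nat_lit 14960) (nat_lit 10777190795795) (nat_lit 16269) (nat_lit 49842459) (nat_lit 16456) (nat_lit 1524164041417),Row.mk (nat_lit 30912) (nat_lit 14773) (nat_lit 3307461119051) (nat_lit 16082) (nat_lit 36756728) (nat_lit 16269) (nat_lit 10032716815261),Row.mk (nat_lit 31080) (nat_lit 16082) (nat_lit 9816072171040) (nat_lit 17578) (nat_lit 16343762) (nat_lit 17765) (nat_lit 4821574820387),Row.mk (nat_lit 31248) (nat_lit 15895) (nat_lit 2107042060234) (nat_lit 17578) (nat_lit 14151103332100) (nat_lit 0) (nat_lit 0),Row.mk (nat_lit 31416) (nat_lit 17391) (nat_lit 12260057753582) (nat_lit 17578) (nat_lit 16343762) (nat_lit 19635) (nat_lit 6022014292169),Row.mk (nat_lit 31584)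 (nat_lit 17204) (nat_lit 5159500681632) (nat_lit 17391) (nat_lit 36756728) (nat_lit 19448) (nat_lit 15650406929425),Row.mk (nat_lit 31752) (nat_lit 19261) (nat_lit 20997603488605) (nat_lit 19448) (nat_lit 49842459) (nat_lit 25806) (nat_lit 2969522172076),Row.mk (nat_lit 31920) (nat_lit 19074) (nat_lit 16072484521824) (nat_lit 19261) (nat_lit 75337761) (nat_lit 25619) (nat_lit 11837921167184),Row.mk (nat_lit 32088) (nat_lit 18887) (nat_lit 9921129744926) (nat_lit 19074) (nat_lit 107180777) (nat_lit 25432) (nat_lit 22914337572546),Row.mk (nat_lit 32256) (nat_lit 18700) (nat_lit 2238236022664) (nat_lit 18887) (nat_lit 146951936) (nat_lit 25245) (nat_lit 36748514457530),Row.mk (nat_lit 32424) (nat_lit 25058) (nat_lit 40778914709730) (nat_lit 25245) (nat_lit 157429105) (nat_lit 31603) (nat_lit 5890679244397),Row.mk (nat_lit 32592) (nat_lit 24871) (nat_lit 40778865036512) (nat_lit 25058) (nat_lit 207102324) (nat_lit 31416) (nat_lit 15486378489652),Row.mk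 (nat_lit 32760) (nat_lit 24684) (nat_lit 40778802995860) (nat_lit 24871) (nat_lit 269142976) (nat_lit 31229) (nat_lit 27471175362197),Row.mk (nat_lit 32928) (nat_lit 24497) (nat_lit 40778725508583) (nat_lit 24684) (nat_lit 346630253) (nat_lit 31042) (nat_lit 42439897537099),Row.mk (nat_lit 33096) (nat_lit 24310) (nat_lit 40778628728843) (nat_lit 24497) (nat_lit 443409993) (nat_lit 30855) (nat_lit 61135470431016),Row.mk (nat_lit 33264) (nat_lit 24123) (nat_lit 40778507853282) (nat_lit 24310) (nat_lit 564285554) (nat_lit 30668) (nat_lit 84485789967158),Row.mk (nat_lit 33432) (nat_lit 23936) (nat_lit 40778356882623) (nat_lit 24123) (nat_lit 715256213) (nat_lit 30481) (nat_lit 113649775769241),Row.mk (nat_lit 33600) (nat_lit 23749) (nat_lit 40778168323911) (nat_lit 23936) (nat_lit 903814925) (nat_lit 30294) (nat_lit 150074890489731),Row.mk (nat_lit 33768) (nat_lit 23562) (nat_lit 40777932818629) (nat_lit 23749) (nat_lit 1139320207) (nat_lit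 30107) (nat_lit 195568980063250),Row.mk (nat_lit 33936) (nat_lit 23375) (nat_lit 40777638678213) (nat_lit 23562) (nat_lit 1433460622) (nat_lit 29920) (nat_lit 252390000450022),Row.mk (nat_lit 34104) (nat_lit 23188) (nat_lit 40777271303930) (nat_lit 23375) (nat_lit 1800834906) (nat_lit 29733) (nat_lit 323358084173874),Row.mk (nat_lit 34272) (nat_lit 23001) (nat_lit 40776812462312) (nat_lit 23188) (nat_lit 2259676524) (nat_lit 29546) (nat_lit 411995508724739),Row.mk (nat_lit 34440) (nat_lit 22814) (nat_lit 40776239380200) (nat_lit 23001) (nat_lit 2832758635) (nat_lit 29359) (nat_lit 522701513716806),Row.mk (nat_lit 34608) (nat_lit 22627) (nat_lit 40775523614468) (nat_lit 22814) (nat_lit 3548524368) (nat_lit 29172) (nat_lit 660970643301801),Row.mk (nat_lit 34776) (nat_lit 22440) (nat_lit 40774629640335) (nat_lit 22627) (nat_lit 4442498501) (nat_lit 28985) (nat_lit 833665450575913),Row.mk (nat_lit 34944) (nat_lit 22253) (nat_lit 40773513088209)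 (nat_lit 22440) (nat_lit 5559050627) (nat_lit 28798) (nat_lit 1049357098805392),Row.mk (nat_lit 35112) (nat_lit 22066) (nat_lit 40772118541539) (nat_lit 22253) (nat_lit 6953597296) (nat_lit 28611) (nat_lit 1318750764140708),Row.mk (nat_lit 35280) (nat_lit 21879) (nat_lit 40770376786390) (nat_lit 22066) (nat_lit 8695352445) (nat_lit 28424) (nat_lit 1655216953344216),Row.mk (nat_lit 35448) (nat_lit 21692) (nat_lit 40768201376227) (nat_lit 21879) (nat_lit 10870762608) (nat_lit 28237) (nat_lit 2075455106814597),Row.mk (nat_lit 35616) (nat_lit 21505) (nat_lit 40765484341413) (nat_lit 21692) (nat_lit 13587797423) (nat_lit 28050) (nat_lit 2600322422755755)],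
[Row.mk (nat_lit 25704) (nat_lit 32912) (nat_lit 5302064569) (nat_lit 61897) (nat_lit 10147722017385) (nat_lit 0) (nat_lit 0),Row.mk (nat_lit 25872) (nat_lit 32912) (nat_lit 6620062180) (nat_lit 61897) (nat_lit 10146404019774) (nat_lit 0) (nat_lit 0),Row.mk (nat_lit 26040) (nat_lit 32912) (nat_lit 8266209401) (nat_lit 61897) (nat_lit 10144757872554) (nat_lit 0) (nat_lit 0),Row.mk (nat_lit 26208) (nat_lit 32912) (nat_lit 10322207568) (nat_lit 61897) (nat_lit 10142701874386) (nat_lit 0) (nat_lit 0),Row.mk (nat_lit 26376) (nat_lit 32912) (nat_lit 12890099681) (nat_lit 61897) (nat_lit 10140133982274) (nat_lit 0) (nat_lit 0),Row.mk (nat_lit 26544) (nat_lit 0) (nat_lit 54153970773) (nat_lit 561) (nat_lit 26513397619) (nat_lit 748) (nat_lit 10088437271328),Row.mk (nat_lit 26712) (nat_lit 561) (nat_lit 79542352630) (nat_lit 1122) (nat_lit 21219721658) (nat_lit 1309) (nat_lit 10072348324953),Row.mk (nat_lit 26880) (nat_lit 1122) (nat_lit 108878568830)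 (nat_lit 1683) (nat_lit 16981308361) (nat_lit 1870) (nat_lit 10052253619058),Row.mk (nat_lit 27048) (nat_lit 1683) (nat_lit 143618630138) (nat_lit 2244) (nat_lit 13587797423) (nat_lit 2431) (nat_lit 10027155816156),Row.mk (nat_lit 27216) (nat_lit 2244) (nat_lit 185486750167) (nat_lit 2805) (nat_lit 10870762608) (nat_lit 2992) (nat_lit 9995809265785),Row.mk (nat_lit 27384) (nat_lit 2805) (nat_lit 236560921290) (nat_lit 3366) (nat_lit 8695352445) (nat_lit 3553) (nat_lit 9956658180570),Row.mk (nat_lit 27552) (nat_lit 3366) (nat_lit 299376049254) (nat_lit 3927) (nat_lit 6953597296) (nat_lit 4114) (nat_lit 9907759419610),Row.mk (nat_lit 27720) (nat_lit 3927) (nat_lit 377049765247) (nat_lit 4488) (nat_lit 5559050627) (nat_lit 4675) (nat_lit 9846686046796),Row.mk (nat_lit 27888) (nat_lit 4488) (nat_lit 473437159714) (nat_lit 5049) (nat_lit 4442498501) (nat_lit 5236) (nat_lit 9770406877472),Row.mk (nat_lit 28056) (nat_lit 5049) (nat_lit 593322117636)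 (nat_lit 5610) (nat_lit 3548524368) (nat_lit 5797) (nat_lit 9675136035131),Row.mk (nat_lit 28224) (nat_lit 5610) (nat_lit 742654751606) (nat_lit 6171) (nat_lit 2832758635) (nat_lit 6358) (nat_lit 9556145051342),Row.mk (nat_lit 28392) (nat_lit 6171) (nat_lit 928846716941) (nat_lit 6732) (nat_lit 2259676524) (nat_lit 6919) (nat_lit 9407528183105),Row.mk (nat_lit 28560) (nat_lit 6732) (nat_lit 1161139065872) (nat_lit 7293) (nat_lit 1800834906) (nat_lit 7480) (nat_lit 9221909299881),Row.mk (nat_lit 28728) (nat_lit 7293) (nat_lit 1451060898083) (nat_lit 7854) (nat_lit 1433460622) (nat_lit 8041) (nat_lit 8990075792568),Row.mk (nat_lit 28896) (nat_lit 7854) (nat_lit 1813001571295) (nat_lit 8415) (nat_lit 1139320207) (nat_lit 8602) (nat_lit 8700521334640),Row.mk (nat_lit 29064) (nat_lit 8415) (nat_lit 2264924871748) (nat_lit 8976) (nat_lit 903814925) (nat_lit 9163) (nat_lit 8338874801844),Row.mk (nat_lit 29232) (nat_lit 8976) (nat_lit 2829260590201)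 (nat_lit 9537) (nat_lit 715256213) (nat_lit 9724) (nat_lit 7887187006673),Row.mk (nat_lit 29400) (nat_lit 9537) (nat_lit 3534017754001) (nat_lit 10098) (nat_lit 564285554) (nat_lit 10285) (nat_lit 7323039846932),Row.mk (nat_lit 29568) (nat_lit 10098) (nat_lit 4414174767011) (nat_lit 10659) (nat_lit 443409993) (nat_lit 10846) (nat_lit 6618433653791),Row.mk (nat_lit 29736) (nat_lit 10659) (nat_lit 5513415452606) (nat_lit 11220) (nat_lit 346630253) (nat_lit 11407) (nat_lit 5738397516342),Row.mk (nat_lit 29904) (nat_lit 11220) (nat_lit 6886297162762) (nat_lit 11781) (nat_lit 269142976) (nat_lit 11968) (nat_lit 4639253610487),Row.mk (nat_lit 30072) (nat_lit 11781) (nat_lit 8600958560527) (nat_lit 12529) (nat_lit 207102324) (nat_lit 12716) (nat_lit 3266449387608),Row.mk (nat_lit 30240) (nat_lit 12529) (nat_lit 10742501468120) (nat_lit 13277) (nat_lit 157429105) (nat_lit 13464) (nat_lit 1551850030494),Row.mk (nat_lit 30408) (nat_lit 12342)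 (nat_lit 736303185270) (nat_lit 13090) (nat_lit 146951936) (nat_lit 13277) (nat_lit 12091238944907),Row.mk (nat_lit 30576) (nat_lit 13090) (nat_lit 4076945495701) (nat_lit 13838) (nat_lit 107180777) (nat_lit 14025) (nat_lit 9416565556139),Row.mk (nat_lit 30744) (nat_lit 13838) (nat_lit 8249309322223) (nat_lit 14960) (nat_lit 75337761) (nat_lit 15147) (nat_lit 6075963016868),Row.mk (nat_lit 30912) (nat_lit 14960) (nat_lit 13460476812398) (nat_lit 16269) (nat_lit 49842459) (nat_lit 16456) (nat_lit 1903631033362),Row.mk (nat_lit 31080) (nat_lit 14773) (nat_lit 4130964644449) (nat_lit 16082) (nat_lit 36756728) (nat_lit 16269) (nat_lit 12530604931193),Row.mk (nat_lit 31248) (nat_lit 16082) (nat_lit 12260057753582) (nat_lit 17578) (nat_lit 16343762) (nat_lit 17765) (nat_lit 6022014292169),Row.mk (nat_lit 31416) (nat_lit 15895) (nat_lit 2631665116326) (nat_lit 17578) (nat_lit 17674366270367) (nat_lit 0) (nat_lit 0),Row.mk (nat_lit 31584)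 (nat_lit 17391) (nat_lit 15312536787944) (nat_lit 17578) (nat_lit 16343762) (nat_lit 19635) (nat_lit 7521334233257),Row.mk (nat_lit 31752) (nat_lit 17204) (nat_lit 6444117379870) (nat_lit 17391) (nat_lit 36756728) (nat_lit 19448) (nat_lit 19546964363721),Row.mk (nat_lit 31920) (nat_lit 19261) (nat_lit 26225525710473) (nat_lit 19448) (nat_lit 49842459) (nat_lit 25806) (nat_lit 3708848471017),Row.mk (nat_lit 32088) (nat_lit 19074) (nat_lit 20074177281289) (nat_lit 19261) (nat_lit 75337761) (nat_lit 25619) (nat_lit 14785264876378),Row.mk (nat_lit 32256) (nat_lit 18887) (nat_lit 12391291487170) (nat_lit 19074) (nat_lit 107180777) (nat_lit 25432) (nat_lit 28619441761363),Row.mk (nat_lit 32424) (nat_lit 18700) (nat_lit 2795552470756) (nat_lit 18887) (nat_lit 146951936) (nat_lit 25245) (nat_lit 45897994957720),Row.mk (nat_lit 32592) (nat_lit 25058) (nat_lit 50931930403078) (nat_lit 25245) (nat_lit 157429105) (nat_lit 31603) (nat_lit 7357305793485),Row.mk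 (nat_lit 32760) (nat_lit 24871) (nat_lit 50931880729859) (nat_lit 25058) (nat_lit 207102324) (nat_lit 31416) (nat_lit 19342102666029),Row.mk (nat_lit 32928) (nat_lit 24684) (nat_lit 50931818689207) (nat_lit 24871) (nat_lit 269142976) (nat_lit 31229) (nat_lit 34310824840932),Row.mk (nat_lit 33096) (nat_lit 24497) (nat_lit 50931741201930) (nat_lit 24684) (nat_lit 346630253) (nat_lit 31042) (nat_lit 53006397734848),Row.mk (nat_lit 33264) (nat_lit 24310) (nat_lit 50931644422190) (nat_lit 24497) (nat_lit 443409993) (nat_lit 30855) (nat_lit 76356717270991),Row.mk (nat_lit 33432) (nat_lit 24123) (nat_lit 50931523546629) (nat_lit 24310) (nat_lit 564285554) (nat_lit 30668) (nat_lit 105520703073074),Row.mk (nat_lit 33600) (nat_lit 23936) (nat_lit 50931372575970) (nat_lit 24123) (nat_lit 715256213) (nat_lit 30481) (nat_lit 141945817793563),Row.mk (nat_lit 33768) (nat_lit 23749) (nat_lit 50931184017258) (nat_lit 23936) (nat_lit 903814925) (nat_lit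 30294) (nat_lit 187439907367083),Row.mk (nat_lit 33936) (nat_lit 23562) (nat_lit 50930948511976) (nat_lit 23749) (nat_lit 1139320207) (nat_lit 30107) (nat_lit 244260927753855),Row.mk (nat_lit 34104) (nat_lit 23375) (nat_lit 50930654371560) (nat_lit 23562) (nat_lit 1433460622) (nat_lit 29920) (nat_lit 315229011477706),Row.mk (nat_lit 34272) (nat_lit 23188) (nat_lit 50930286997277) (nat_lit 23375) (nat_lit 1800834906) (nat_lit 29733) (nat_lit 403866436028571),Row.mk (nat_lit 34440) (nat_lit 23001) (nat_lit 50929828155659) (nat_lit 23188) (nat_lit 2259676524) (nat_lit 29546) (nat_lit 514572441020638),Row.mk (nat_lit 34608) (nat_lit 22814) (nat_lit 50929255073547) (nat_lit 23001) (nat_lit 2832758635) (nat_lit 29359) (nat_lit 652841570605633),Row.mk (nat_lit 34776) (nat_lit 22627) (nat_lit 50928539307815) (nat_lit 22814) (nat_lit 3548524368) (nat_lit 29172) (nat_lit 825536377879746),Row.mk (nat_lit 34944) (nat_lit 22440) (nat_lit 50927645333682)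 (nat_lit 22627) (nat_lit 4442498501) (nat_lit 28985) (nat_lit 1041228026109224),Row.mk (nat_lit 35112) (nat_lit 22253) (nat_lit 50926528781556) (nat_lit 22440) (nat_lit 5559050627) (nat_lit 28798) (nat_lit 1310621691444540),Row.mk (nat_lit 35280) (nat_lit 22066) (nat_lit 50925134234886) (nat_lit 22253) (nat_lit 6953597296) (nat_lit 28611) (nat_lit 1647087880648049),Row.mk (nat_lit 35448) (nat_lit 21879) (nat_lit 50923392479738) (nat_lit 22066) (nat_lit 8695352445) (nat_lit 28424) (nat_lit 2067326034118429),Row.mk (nat_lit 35616) (nat_lit 21692) (nat_lit 50921217069575) (nat_lit 21879) (nat_lit 10870762608) (nat_lit 28237) (nat_lit 2592193350059588)],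
[Row.mk (nat_lit 26040) (nat_lit 32912) (nat_lit 8266209401) (nat_lit 61897) (nat_lit 12672613850824) (nat_lit 0) (nat_lit 0),Row.mk (nat_lit 26208) (nat_lit 32912) (nat_lit 10322207568) (nat_lit 61897) (nat_lit 12670557852657) (nat_lit 0) (nat_lit 0),Row.mk (nat_lit 26376) (nat_lit 32912) (nat_lit 12890099681) (nat_lit 61897) (nat_lit 12667989960544) (nat_lit 0) (nat_lit 0),Row.mk (nat_lit 26544) (nat_lit 32912) (nat_lit 16097334982) (nat_lit 61897) (nat_lit 12664782725243) (nat_lit 0) (nat_lit 0),Row.mk (nat_lit 26712) (nat_lit 0) (nat_lit 74248676668) (nat_lit 561) (nat_lit 26513397619) (nat_lit 748) (nat_lit 12600204303224),Row.mk (nat_lit 26880) (nat_lit 561) (nat_lit 104640155532) (nat_lit 1122) (nat_lit 21219721658) (nat_lit 1309) (nat_lit 12580109597329),Row.mk (nat_lit 27048) (nat_lit 1122) (nat_lit 140225119200) (nat_lit 1683) (nat_lit 16981308361) (nat_lit 1870) (nat_lit 12555011794426),Row.mk (nat_lit 27216) (nat_lit 1683)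 (nat_lit 182769715353) (nat_lit 2244) (nat_lit 13587797423) (nat_lit 2431) (nat_lit 12523665244056),Row.mk (nat_lit 27384) (nat_lit 2244) (nat_lit 234385511127) (nat_lit 2805) (nat_lit 10870762608) (nat_lit 2992) (nat_lit 12484514158841),Row.mk (nat_lit 27552) (nat_lit 2805) (nat_lit 297634294105) (nat_lit 3366) (nat_lit 8695352445) (nat_lit 3553) (nat_lit 12435615397881),Row.mk (nat_lit 27720) (nat_lit 3366) (nat_lit 375655218577) (nat_lit 3927) (nat_lit 6953597296) (nat_lit 4114) (nat_lit 12374542025066),Row.mk (nat_lit 27888) (nat_lit 3927) (nat_lit 472320607588) (nat_lit 4488) (nat_lit 5559050627) (nat_lit 4675) (nat_lit 12298262855743),Row.mk (nat_lit 28056) (nat_lit 4488) (nat_lit 592428143503) (nat_lit 5049) (nat_lit 4442498501) (nat_lit 5236) (nat_lit 12202992013402),Row.mk (nat_lit 28224) (nat_lit 5049) (nat_lit 741938985873) (nat_lit 5610) (nat_lit 3548524368) (nat_lit 5797) (nat_lit 12084001029613),Row.mk (nat_lit 28392)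 (nat_lit 5610) (nat_lit 928273634830) (nat_lit 6171) (nat_lit 2832758635) (nat_lit 6358) (nat_lit 11935384161375),Row.mk (nat_lit 28560) (nat_lit 6171) (nat_lit 1160680224254) (nat_lit 6732) (nat_lit 2259676524) (nat_lit 6919) (nat_lit 11749765278151),Row.mk (nat_lit 28728) (nat_lit 6732) (nat_lit 1450693523799) (nat_lit 7293) (nat_lit 1800834906) (nat_lit 7480) (nat_lit 11517931770839),Row.mk (nat_lit 28896) (nat_lit 7293) (nat_lit 1812707430879) (nat_lit 7854) (nat_lit 1433460622) (nat_lit 8041) (nat_lit 11228377312911),Row.mk (nat_lit 29064) (nat_lit 7854) (nat_lit 2264689366466) (nat_lit 8415) (nat_lit 1139320207) (nat_lit 8602) (nat_lit 10866730780115),Row.mk (nat_lit 29232) (nat_lit 8415) (nat_lit 2829072031489) (nat_lit 8976) (nat_lit 903814925) (nat_lit 9163) (nat_lit 10415042984944),Row.mk (nat_lit 29400) (nat_lit 8976) (nat_lit 3533866783341) (nat_lit 9537) (nat_lit 715256213) (nat_lit 9724) (nat_lit 9850895825203),Row.mk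 (nat_lit 29568) (nat_lit 9537) (nat_lit 4414053891450) (nat_lit 10098) (nat_lit 564285554) (nat_lit 10285) (nat_lit 9146289632062),Row.mk (nat_lit 29736) (nat_lit 10098) (nat_lit 5513318672866) (nat_lit 10659) (nat_lit 443409993) (nat_lit 10846) (nat_lit 8266253494612),Row.mk (nat_lit 29904) (nat_lit 10659) (nat_lit 6886219675484) (nat_lit 11220) (nat_lit 346630253) (nat_lit 11407) (nat_lit 7167109588758),Row.mk (nat_lit 30072) (nat_lit 11220) (nat_lit 8600896519876) (nat_lit 11781) (nat_lit 269142976) (nat_lit 11968) (nat_lit 5794305365879),Row.mk (nat_lit 30240) (nat_lit 11781) (nat_lit 10742451794902) (nat_lit 12529) (nat_lit 207102324) (nat_lit 12716) (nat_lit 4079706008765),Row.mk (nat_lit 30408) (nat_lit 12529) (nat_lit 13417174856888) (nat_lit 13277) (nat_lit 157429105) (nat_lit 13464) (nat_lit 1938212774391),Row.mk (nat_lit 30576) (nat_lit 12342) (nat_lit 919674589187) (nat_lit 13090) (nat_lit 146951936) (nat_lit 13277) (nat_lit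 15101652669765),Row.mk (nat_lit 30744) (nat_lit 13090) (nat_lit 5092046343851) (nat_lit 13838) (nat_lit 107180777) (nat_lit 14025) (nat_lit 11761050130494),Row.mk (nat_lit 30912) (nat_lit 13838) (nat_lit 10303220181742) (nat_lit 14960) (nat_lit 75337761) (nat_lit 15147) (nat_lit 7588718146988),Row.mk (nat_lit 31080) (nat_lit 14960) (nat_lit 16811836316067) (nat_lit 16269) (nat_lit 49842459) (nat_lit 16456) (nat_lit 2377576152114),Row.mk (nat_lit 31248) (nat_lit 14773) (nat_lit 5159500681632) (nat_lit 16082) (nat_lit 36756728) (nat_lit 16269) (nat_lit 15650406929425),Row.mk (nat_lit 31416) (nat_lit 16082) (nat_lit 15312536787944) (nat_lit 17578) (nat_lit 16343762) (nat_lit 17765) (nat_lit 7521334233257),Row.mk (nat_lit 31584) (nat_lit 15895) (nat_lit 3286906657480) (nat_lit 17578) (nat_lit 22074836685755) (nat_lit 0) (nat_lit 0),Row.mk (nat_lit 31752) (nat_lit 17391) (nat_lit 19125009464454) (nat_lit 17578) (nat_lit 16343762) (nat_lit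 19635) (nat_lit 9393948670374),Row.mk (nat_lit 31920) (nat_lit 17204) (nat_lit 8048572646127) (nat_lit 17391) (nat_lit 36756728) (nat_lit 19448) (nat_lit 24413670599365),Row.mk (nat_lit 32088) (nat_lit 19261) (nat_lit 32755074448209) (nat_lit 19448) (nat_lit 49842459) (nat_lit 25806) (nat_lit 4632249183031),Row.mk (nat_lit 32256) (nat_lit 19074) (nat_lit 25072195001805) (nat_lit 19261) (nat_lit 75337761) (nat_lit 25619) (nat_lit 18466426068015),Row.mk (nat_lit 32424) (nat_lit 18887) (nat_lit 15476463913533) (nat_lit 19074) (nat_lit 107180777) (nat_lit 25432) (nat_lit 35744979264373),Row.mk (nat_lit 32592) (nat_lit 18700) (nat_lit 3491627269830) (nat_lit 18887) (nat_lit 146951936) (nat_lit 25245) (nat_lit 57325475382172),Row.mk (nat_lit 32760) (nat_lit 25058) (nat_lit 63612802074696) (nat_lit 25245) (nat_lit 157429105) (nat_lit 31603) (nat_lit 9189086972682),Row.mk (nat_lit 32928) (nat_lit 24871) (nat_lit 63612752401477) (nat_lit 25058)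 (nat_lit 207102324) (nat_lit 31416) (nat_lit 24157809147585),Row.mk (nat_lit 33096) (nat_lit 24684) (nat_lit 63612690360825) (nat_lit 24871) (nat_lit 269142976) (nat_lit 31229) (nat_lit 42853382041501),Row.mk (nat_lit 33264) (nat_lit 24497) (nat_lit 63612612873548) (nat_lit 24684) (nat_lit 346630253) (nat_lit 31042) (nat_lit 66203701577643),Row.mk (nat_lit 33432) (nat_lit 24310) (nat_lit 63612516093808) (nat_lit 24497) (nat_lit 443409993) (nat_lit 30855) (nat_lit 95367687379726),Row.mk (nat_lit 33600) (nat_lit 24123) (nat_lit 63612395218247) (nat_lit 24310) (nat_lit 564285554) (nat_lit 30668) (nat_lit 131792802100216),Row.mk (nat_lit 33768) (nat_lit 23936) (nat_lit 63612244247588) (nat_lit 24123) (nat_lit 715256213) (nat_lit 30481) (nat_lit 177286891673735),Row.mk (nat_lit 33936) (nat_lit 23749) (nat_lit 63612055688876) (nat_lit 23936) (nat_lit 903814925) (nat_lit 30294) (nat_lit 234107912060507),Row.mk (nat_lit 34104) (nat_lit 23562)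 (nat_lit 63611820183594) (nat_lit 23749) (nat_lit 1139320207) (nat_lit 30107) (nat_lit 305075995784359),Row.mk (nat_lit 34272) (nat_lit 23375) (nat_lit 63611526043179) (nat_lit 23562) (nat_lit 1433460622) (nat_lit 29920) (nat_lit 393713420335224),Row.mk (nat_lit 34440) (nat_lit 23188) (nat_lit 63611158668895) (nat_lit 23375) (nat_lit 1800834906) (nat_lit 29733) (nat_lit 504419425327291),Row.mk (nat_lit 34608) (nat_lit 23001) (nat_lit 63610699827277) (nat_lit 23188) (nat_lit 2259676524) (nat_lit 29546) (nat_lit 642688554912286),Row.mk (nat_lit 34776) (nat_lit 22814) (nat_lit 63610126745166) (nat_lit 23001) (nat_lit 2832758635) (nat_lit 29359) (nat_lit 815383362186398),Row.mk (nat_lit 34944) (nat_lit 22627) (nat_lit 63609410979433) (nat_lit 22814) (nat_lit 3548524368) (nat_lit 29172) (nat_lit 1031075010415877),Row.mk (nat_lit 35112) (nat_lit 22440) (nat_lit 63608517005300) (nat_lit 22627) (nat_lit 4442498501) (nat_lit 28985) (nat_lit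 1300468675751193),Row.mk (nat_lit 35280) (nat_lit 22253) (nat_lit 63607400453174) (nat_lit 22440) (nat_lit 5559050627) (nat_lit 28798) (nat_lit 1636934864954701),Row.mk (nat_lit 35448) (nat_lit 22066) (nat_lit 63606005906505) (nat_lit 22253) (nat_lit 6953597296) (nat_lit 28611) (nat_lit 2057173018425082),Row.mk (nat_lit 35616) (nat_lit 21879) (nat_lit 63604264151356) (nat_lit 22066) (nat_lit 8695352445) (nat_lit 28424) (nat_lit 2582040334366241)],
[Row.mk (nat_lit 26376) (nat_lit 32912) (nat_lit 12890099681) (nat_lit 61897) (nat_lit 15825221095899) (nat_lit 0) (nat_lit 0),Row.mk (nat_lit 26544) (nat_lit 32912) (nat_lit 16097334982) (nat_lit 61897) (nat_lit 15822013860598) (nat_lit 0) (nat_lit 0),Row.mk (nat_lit 26712) (nat_lit 32912) (nat_lit 20103094503) (nat_lit 61897) (nat_lit 15818008101077) (nat_lit 0) (nat_lit 0),Row.mk (nat_lit 26880) (nat_lit 0) (nat_lit 99346479571) (nat_lit 561) (nat_lit 26513397619) (nat_lit 748) (nat_lit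 15737340732684),Row.mk (nat_lit 27048) (nat_lit 561) (nat_lit 135986705903) (nat_lit 1122) (nat_lit 21219721658) (nat_lit 1309) (nat_lit 15712242929781),Row.mk (nat_lit 27216) (nat_lit 1122) (nat_lit 179376204415) (nat_lit 1683) (nat_lit 16981308361) (nat_lit 1870) (nat_lit 15680896379411),Row.mk (nat_lit 27384) (nat_lit 1683) (nat_lit 231668476313) (nat_lit 2244) (nat_lit 13587797423) (nat_lit 2431) (nat_lit 15641745294196),Row.mk (nat_lit 27552) (nat_lit 2244) (nat_lit 295458883942) (nat_lit 2805) (nat_lit 10870762608) (nat_lit 2992) (nat_lit 15592846533236),Row.mk (nat_lit 27720) (nat_lit 2805) (nat_lit 373913463429) (nat_lit 3366) (nat_lit 8695352445) (nat_lit 3553) (nat_lit 15531773160422),Row.mk (nat_lit 27888) (nat_lit 3366) (nat_lit 470926060919) (nat_lit 3927) (nat_lit 6953597296) (nat_lit 4114) (nat_lit 15455493991098),Row.mk (nat_lit 28056) (nat_lit 3927) (nat_lit 591311591377) (nat_lit 4488) (nat_lit 5559050627) (nat_lit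 4675) (nat_lit 15360223148757),Row.mk (nat_lit 28224) (nat_lit 4488) (nat_lit 741045011740) (nat_lit 5049) (nat_lit 4442498501) (nat_lit 5236) (nat_lit 15241232164968),Row.mk (nat_lit 28392) (nat_lit 5049) (nat_lit 927557869097) (nat_lit 5610) (nat_lit 3548524368) (nat_lit 5797) (nat_lit 15092615296730),Row.mk (nat_lit 28560) (nat_lit 5610) (nat_lit 1160107142143) (nat_lit 6171) (nat_lit 2832758635) (nat_lit 6358) (nat_lit 14906996413507),Row.mk (nat_lit 28728) (nat_lit 6171) (nat_lit 1450234682182) (nat_lit 6732) (nat_lit 2259676524) (nat_lit 6919) (nat_lit 14675162906194),Row.mk (nat_lit 28896) (nat_lit 6732) (nat_lit 1812340056595) (nat_lit 7293) (nat_lit 1800834906) (nat_lit 7480) (nat_lit 14385608448266),Row.mk (nat_lit 29064) (nat_lit 7293) (nat_lit 2264395226051) (nat_lit 7854) (nat_lit 1433460622) (nat_lit 8041) (nat_lit 14023961915470),Row.mk (nat_lit 29232) (nat_lit 7854) (nat_lit 2828836526207) (nat_lit 8415) (nat_lit 1139320207)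 (nat_lit 8602) (nat_lit 13572274120299),Row.mk (nat_lit 29400) (nat_lit 8415) (nat_lit 3533678224630) (nat_lit 8976) (nat_lit 903814925) (nat_lit 9163) (nat_lit 13008126960558),Row.mk (nat_lit 29568) (nat_lit 8976) (nat_lit 4413902920791) (nat_lit 9537) (nat_lit 715256213) (nat_lit 9724) (nat_lit 12303520767417),Row.mk (nat_lit 29736) (nat_lit 9537) (nat_lit 5513197797305) (nat_lit 10098) (nat_lit 564285554) (nat_lit 10285) (nat_lit 11423484629967),Row.mk (nat_lit 29904) (nat_lit 10098) (nat_lit 6886122895744) (nat_lit 10659) (nat_lit 443409993) (nat_lit 10846) (nat_lit 10324340724113),Row.mk (nat_lit 30072) (nat_lit 10659) (nat_lit 8600819032598) (nat_lit 11220) (nat_lit 346630253) (nat_lit 11407) (nat_lit 8951536501234),Row.mk (nat_lit 30240) (nat_lit 11220) (nat_lit 10742389754250) (nat_lit 11781) (nat_lit 269142976) (nat_lit 11968) (nat_lit 7236937144120),Row.mk (nat_lit 30408) (nat_lit 11781) (nat_lit 13417125183670) (nat_lit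 12529) (nat_lit 207102324) (nat_lit 12716) (nat_lit 5095443909746),Row.mk (nat_lit 30576) (nat_lit 12529) (nat_lit 16757777396160) (nat_lit 13277) (nat_lit 157429105) (nat_lit 13464) (nat_lit 2420770520978),Row.mk (nat_lit 30744) (nat_lit 12342) (nat_lit 1148701049062) (nat_lit 13090) (nat_lit 146951936) (nat_lit 13277) (nat_lit 18861586789478),Row.mk (nat_lit 30912) (nat_lit 13090) (nat_lit 6359882815096) (nat_lit 13838) (nat_lit 107180777) (nat_lit 14025) (nat_lit 14689254805973),Row.mk (nat_lit 31080) (nat_lit 13838) (nat_lit 12868505297136) (nat_lit 14960) (nat_lit 75337761) (nat_lit 15147) (nat_lit 9478112811099),Row.mk (nat_lit 31248) (nat_lit 14960) (nat_lit 20997603488605) (nat_lit 16269) (nat_lit 49842459) (nat_lit 16456) (nat_lit 2969522172076),Row.mk (nat_lit 31416) (nat_lit 14773) (nat_lit 6444117379870) (nat_lit 16082) (nat_lit 36756728) (nat_lit 16269) (nat_lit 19546964363721),Row.mk (nat_lit 31584) (nat_lit 16082) (nat_lit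 19125009464454) (nat_lit 17578) (nat_lit 16343762) (nat_lit 17765) (nat_lit 9393948670374),Row.mk (nat_lit 31752) (nat_lit 15895) (nat_lit 4105287535463) (nat_lit 17578) (nat_lit 27570918078483) (nat_lit 0) (nat_lit 0),Row.mk (nat_lit 31920) (nat_lit 17391) (nat_lit 23886695866066) (nat_lit 17578) (nat_lit 16343762) (nat_lit 19635) (nat_lit 11732798927747),Row.mk (nat_lit 32088) (nat_lit 17204) (nat_lit 10052498568115) (nat_lit 17391) (nat_lit 36756728) (nat_lit 19448) (nat_lit 30492069284210),Row.mk (nat_lit 32256) (nat_lit 19261) (nat_lit 40910323304079) (nat_lit 19448) (nat_lit 49842459) (nat_lit 25806) (nat_lit 5785554396397),Row.mk (nat_lit 32424) (nat_lit 19074) (nat_lit 31314598563523) (nat_lit 19261) (nat_lit 75337761) (nat_lit 25619) (nat_lit 23064107592755),Row.mk (nat_lit 32592) (nat_lit 18887) (nat_lit 19329769847962) (nat_lit 19074) (nat_lit 107180777) (nat_lit 25432) (nat_lit 44644603710554),Row.mk (nat_lit 32760) (nat_lit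 18700) (nat_lit 4361007901900) (nat_lit 18887) (nat_lit 146951936) (nat_lit 25245) (nat_lit 71598122758002),Row.mk (nat_lit 32928) (nat_lit 25058) (nat_lit 79450904881669) (nat_lit 25245) (nat_lit 157429105) (nat_lit 31603) (nat_lit 11476937475966),Row.mk (nat_lit 33096) (nat_lit 24871) (nat_lit 79450855208450) (nat_lit 25058) (nat_lit 207102324) (nat_lit 31416) (nat_lit 30172510369883),Row.mk (nat_lit 33264) (nat_lit 24684) (nat_lit 79450793167799) (nat_lit 24871) (nat_lit 269142976) (nat_lit 31229) (nat_lit 53522829906025),Row.mk (nat_lit 33432) (nat_lit 24497) (nat_lit 79450715680521) (nat_lit 24684) (nat_lit 346630253) (nat_lit 31042) (nat_lit 82686815708108),Row.mk (nat_lit 33600) (nat_lit 24310) (nat_lit 79450618900781) (nat_lit 24497) (nat_lit 443409993) (nat_lit 30855) (nat_lit 119111930428597),Row.mk (nat_lit 33768) (nat_lit 24123) (nat_lit 79450498025220) (nat_lit 24310) (nat_lit 564285554) (nat_lit 30668) (nat_lit 164606020002117),Row.mk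 (nat_lit 33936) (nat_lit 23936) (nat_lit 79450347054561) (nat_lit 24123) (nat_lit 715256213) (nat_lit 30481) (nat_lit 221427040388889),Row.mk (nat_lit 34104) (nat_lit 23749) (nat_lit 79450158495850) (nat_lit 23936) (nat_lit 903814925) (nat_lit 30294) (nat_lit 292395124112741),Row.mk (nat_lit 34272) (nat_lit 23562) (nat_lit 79449922990568) (nat_lit 23749) (nat_lit 1139320207) (nat_lit 30107) (nat_lit 381032548663606),Row.mk (nat_lit 34440) (nat_lit 23375) (nat_lit 79449628850152) (nat_lit 23562) (nat_lit 1433460622) (nat_lit 29920) (nat_lit 491738553655673),Row.mk (nat_lit 34608) (nat_lit 23188) (nat_lit 79449261475868) (nat_lit 23375) (nat_lit 1800834906) (nat_lit 29733) (nat_lit 630007683240668),Row.mk (nat_lit 34776) (nat_lit 23001) (nat_lit 79448802634250) (nat_lit 23188) (nat_lit 2259676524) (nat_lit 29546) (nat_lit 802702490514780),Row.mk (nat_lit 34944) (nat_lit 22814) (nat_lit 79448229552139) (nat_lit 23001) (nat_lit 2832758635)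 (nat_lit 29359) (nat_lit 1018394138744259),Row.mk (nat_lit 35112) (nat_lit 22627) (nat_lit 79447513786406) (nat_lit 22814) (nat_lit 3548524368) (nat_lit 29172) (nat_lit 1287787804079575),Row.mk (nat_lit 35280) (nat_lit 22440) (nat_lit 79446619812273) (nat_lit 22627) (nat_lit 4442498501) (nat_lit 28985) (nat_lit 1624253993283083),Row.mk (nat_lit 35448) (nat_lit 22253) (nat_lit 79445503260148) (nat_lit 22440) (nat_lit 5559050627) (nat_lit 28798) (nat_lit 2044492146753464),Row.mk (nat_lit 35616) (nat_lit 22066) (nat_lit 79444108713478) (nat_lit 22253) (nat_lit 6953597296) (nat_lit 28611) (nat_lit 2569359462694622)],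
[Row.mk (nat_lit 26544) (nat_lit 32912) (nat_lit 16097334982) (nat_lit 61897) (nat_lit 19765319384228) (nat_lit 0) (nat_lit 0),Row.mk (nat_lit 26712) (nat_lit 32912) (nat_lit 20103094503) (nat_lit 61897) (nat_lit 19761313624707) (nat_lit 0) (nat_lit 0),Row.mk (nat_lit 26880) (nat_lit 32912) (nat_lit 25106191510) (nat_lit 61897) (nat_lit 19756310527700) (nat_lit 0) (nat_lit 0),Row.mk (nat_lit 27048) (nat_lit 0) (nat_lit 130693029941) (nat_lit 561) (nat_lit 26513397619) (nat_lit 748) (nat_lit 19655548453411),Row.mk (nat_lit 27216) (nat_lit 561) (nat_lit 175137791118) (nat_lit 1122) (nat_lit 21219721658) (nat_lit 1309) (nat_lit 19624201903041),Row.mk (nat_lit 27384) (nat_lit 1122) (nat_lit 228274965375) (nat_lit 1683) (nat_lit 16981308361) (nat_lit 1870) (nat_lit 19585050817826),Row.mk (nat_lit 27552) (nat_lit 1683) (nat_lit 292741849127) (nat_lit 2244) (nat_lit 13587797423) (nat_lit 2431) (nat_lit 19536152056866),Row.mk (nat_lit 27720)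 (nat_lit 2244) (nat_lit 371738053265) (nat_lit 2805) (nat_lit 10870762608) (nat_lit 2992) (nat_lit 19475078684051),Row.mk (nat_lit 27888) (nat_lit 2805) (nat_lit 469184305770) (nat_lit 3366) (nat_lit 8695352445) (nat_lit 3553) (nat_lit 19398799514728),Row.mk (nat_lit 28056) (nat_lit 3366) (nat_lit 589917044708) (nat_lit 3927) (nat_lit 6953597296) (nat_lit 4114) (nat_lit 19303528672386),Row.mk (nat_lit 28224) (nat_lit 3927) (nat_lit 739928459615) (nat_lit 4488) (nat_lit 5559050627) (nat_lit 4675) (nat_lit 19184537688597),Row.mk (nat_lit 28392) (nat_lit 4488) (nat_lit 926663894964) (nat_lit 5049) (nat_lit 4442498501) (nat_lit 5236) (nat_lit 19035920820360),Row.mk (nat_lit 28560) (nat_lit 5049) (nat_lit 1159391376410) (nat_lit 5610) (nat_lit 3548524368) (nat_lit 5797) (nat_lit 18850301937136),Row.mk (nat_lit 28728) (nat_lit 5610) (nat_lit 1449661600070) (nat_lit 6171) (nat_lit 2832758635) (nat_lit 6358) (nat_lit 18618468429823),Row.mk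 (nat_lit 28896) (nat_lit 6171) (nat_lit 1811881214977) (nat_lit 6732) (nat_lit 2259676524) (nat_lit 6919) (nat_lit 18328913971896),Row.mk (nat_lit 29064) (nat_lit 6732) (nat_lit 2264027851767) (nat_lit 7293) (nat_lit 1800834906) (nat_lit 7480) (nat_lit 17967267439100),Row.mk (nat_lit 29232) (nat_lit 7293) (nat_lit 2828542385792) (nat_lit 7854) (nat_lit 1433460622) (nat_lit 8041) (nat_lit 17515579643928),Row.mk (nat_lit 29400) (nat_lit 7854) (nat_lit 3533442719348) (nat_lit 8415) (nat_lit 1139320207) (nat_lit 8602) (nat_lit 16951432484187),Row.mk (nat_lit 29568) (nat_lit 8415) (nat_lit 4413714362080) (nat_lit 8976) (nat_lit 903814925) (nat_lit 9163) (nat_lit 16246826291047),Row.mk (nat_lit 29736) (nat_lit 8976) (nat_lit 5513046826646) (nat_lit 9537) (nat_lit 715256213) (nat_lit 9724) (nat_lit 15366790153597),Row.mk (nat_lit 29904) (nat_lit 9537) (nat_lit 6886002020184) (nat_lit 10098) (nat_lit 564285554) (nat_lit 10285) (nat_lit 14267646247743),Row.mk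 (nat_lit 30072) (nat_lit 10098) (nat_lit 8600722252858) (nat_lit 10659) (nat_lit 443409993) (nat_lit 10846) (nat_lit 12894842024864),Row.mk (nat_lit 30240) (nat_lit 10659) (nat_lit 10742312266973) (nat_lit 11220) (nat_lit 346630253) (nat_lit 11407) (nat_lit 11180242667750),Row.mk (nat_lit 30408) (nat_lit 11220) (nat_lit 13417063143018) (nat_lit 11781) (nat_lit 269142976) (nat_lit 11968) (nat_lit 9038749433376),Row.mk (nat_lit 30576) (nat_lit 11781) (nat_lit 16757727722941) (nat_lit 12529) (nat_lit 207102324) (nat_lit 12716) (nat_lit 6364076044608),Row.mk (nat_lit 30744) (nat_lit 12529) (nat_lit 20930109379665) (nat_lit 13277) (nat_lit 157429105) (nat_lit 13464) (nat_lit 3023473505336),Row.mk (nat_lit 30912) (nat_lit 12342) (nat_lit 1434749572457) (nat_lit 13090) (nat_lit 146951936) (nat_lit 13277) (nat_lit 23557653801082),Row.mk (nat_lit 31080) (nat_lit 13090) (nat_lit 7943379982640) (nat_lit 13838) (nat_lit 107180777) (nat_lit 14025)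 (nat_lit 18346511806208),Row.mk (nat_lit 31248) (nat_lit 13838) (nat_lit 16072484521824) (nat_lit 14960) (nat_lit 75337761) (nat_lit 15147) (nat_lit 11837921167184),Row.mk (nat_lit 31416) (nat_lit 14960) (nat_lit 26225525710473) (nat_lit 16269) (nat_lit 49842459) (nat_lit 16456) (nat_lit 3708848471017),Row.mk (nat_lit 31584) (nat_lit 14773) (nat_lit 8048572646127) (nat_lit 16082) (nat_lit 36756728) (nat_lit 16269) (nat_lit 24413670599365),Row.mk (nat_lit 31752) (nat_lit 16082) (nat_lit 23886695866066) (nat_lit 17578) (nat_lit 16343762) (nat_lit 17765) (nat_lit 11732798927747),Row.mk (nat_lit 31920) (nat_lit 15895) (nat_lit 5127425509602) (nat_lit 17578) (nat_lit 34435391151603) (nat_lit 0) (nat_lit 0),Row.mk (nat_lit 32088) (nat_lit 17391) (nat_lit 29833927311684) (nat_lit 17578) (nat_lit 16343762) (nat_lit 19635) (nat_lit 14653966477237),Row.mk (nat_lit 32256) (nat_lit 17204) (nat_lit 12555353702361) (nat_lit 17391) (nat_lit 36756728)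 (nat_lit 19448) (nat_lit 38083842607477),Row.mk (nat_lit 32424) (nat_lit 19261) (nat_lit 51096032389427) (nat_lit 19448) (nat_lit 49842459) (nat_lit 25806) (nat_lit 7226004785782),Row.mk (nat_lit 32592) (nat_lit 19074) (nat_lit 39111210021581) (nat_lit 19261) (nat_lit 75337761) (nat_lit 25619) (nat_lit 28806500903581),Row.mk (nat_lit 32760) (nat_lit 18887) (nat_lit 24142456003662) (nat_lit 19074) (nat_lit 107180777) (nat_lit 25432) (nat_lit 55760019951028),Row.mk (nat_lit 32928) (nat_lit 18700) (nat_lit 5446843338587) (nat_lit 18887) (nat_lit 146951936) (nat_lit 25245) (nat_lit 89424315019847),Row.mk (nat_lit 33096) (nat_lit 25058) (nat_lit 99232313212272) (nat_lit 25245) (nat_lit 157429105) (nat_lit 31603) (nat_lit 14334407562909),Row.mk (nat_lit 33264) (nat_lit 24871) (nat_lit 99232263539053) (nat_lit 25058) (nat_lit 207102324) (nat_lit 31416) (nat_lit 37684727099052),Row.mk (nat_lit 33432) (nat_lit 24684) (nat_lit 99232201498401)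 (nat_lit 24871) (nat_lit 269142976) (nat_lit 31229) (nat_lit 66848712901135),Row.mk (nat_lit 33600) (nat_lit 24497) (nat_lit 99232124011124) (nat_lit 24684) (nat_lit 346630253) (nat_lit 31042) (nat_lit 103273827621624),Row.mk (nat_lit 33768) (nat_lit 24310) (nat_lit 99232027231384) (nat_lit 24497) (nat_lit 443409993) (nat_lit 30855) (nat_lit 148767917195144),Row.mk (nat_lit 33936) (nat_lit 24123) (nat_lit 99231906355823) (nat_lit 24310) (nat_lit 564285554) (nat_lit 30668) (nat_lit 205588937581916),Row.mk (nat_lit 34104) (nat_lit 23936) (nat_lit 99231755385164) (nat_lit 24123) (nat_lit 715256213) (nat_lit 30481) (nat_lit 276557021305768),Row.mk (nat_lit 34272) (nat_lit 23749) (nat_lit 99231566826452) (nat_lit 23936) (nat_lit 903814925) (nat_lit 30294) (nat_lit 365194445856632),Row.mk (nat_lit 34440) (nat_lit 23562) (nat_lit 99231331321170) (nat_lit 23749) (nat_lit 1139320207) (nat_lit 30107) (nat_lit 475900450848700),Row.mk (nat_lit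 34608) (nat_lit 23375) (nat_lit 99231037180755) (nat_lit 23562) (nat_lit 1433460622) (nat_lit 29920) (nat_lit 614169580433694),Row.mk (nat_lit 34776) (nat_lit 23188) (nat_lit 99230669806471) (nat_lit 23375) (nat_lit 1800834906) (nat_lit 29733) (nat_lit 786864387707807),Row.mk (nat_lit 34944) (nat_lit 23001) (nat_lit 99230210964853) (nat_lit 23188) (nat_lit 2259676524) (nat_lit 29546) (nat_lit 1002556035937286),Row.mk (nat_lit 35112) (nat_lit 22814) (nat_lit 99229637882742) (nat_lit 23001) (nat_lit 2832758635) (nat_lit 29359) (nat_lit 1271949701272602),Row.mk (nat_lit 35280) (nat_lit 22627) (nat_lit 99228922117009) (nat_lit 22814) (nat_lit 3548524368) (nat_lit 29172) (nat_lit 1608415890476110),Row.mk (nat_lit 35448) (nat_lit 22440) (nat_lit 99228028142876) (nat_lit 22627) (nat_lit 4442498501) (nat_lit 28985) (nat_lit 2028654043946491),Row.mk (nat_lit 35616) (nat_lit 22253) (nat_lit 99226911590750) (nat_lit 22440) (nat_lit 5559050627)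 (nat_lit 28798) (nat_lit 2553521359887649)],
[Row.mk (nat_lit 26880) (nat_lit 32912) (nat_lit 25106191510) (nat_lit 61897) (nat_lit 24681403999179) (nat_lit 0) (nat_lit 0),Row.mk (nat_lit 27048) (nat_lit 32912) (nat_lit 31354938978) (nat_lit 61897) (nat_lit 24675155251711) (nat_lit 0) (nat_lit 0),Row.mk (nat_lit 27216) (nat_lit 0) (nat_lit 169844115156) (nat_lit 561) (nat_lit 26513397619) (nat_lit 748) (nat_lit 24549295374520),Row.mk (nat_lit 27384) (nat_lit 561) (nat_lit 224036552077) (nat_lit 1122) (nat_lit 21219721658) (nat_lit 1309) (nat_lit 24510144289305),Row.mk (nat_lit 27552) (nat_lit 1122) (nat_lit 289348338189) (nat_lit 1683) (nat_lit 16981308361) (nat_lit 1870) (nat_lit 24461245528345),Row.mk (nat_lit 27720) (nat_lit 1683) (nat_lit 369021018451) (nat_lit 2244) (nat_lit 13587797423) (nat_lit 2431) (nat_lit 24400172155530),Row.mk (nat_lit 27888) (nat_lit 2244) (nat_lit 467008895607) (nat_lit 2805) (nat_lit 10870762608) (nat_lit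 2992) (nat_lit 24323892986207),Row.mk (nat_lit 28056) (nat_lit 2805) (nat_lit 588175289559) (nat_lit 3366) (nat_lit 8695352445) (nat_lit 3553) (nat_lit 24228622143865),Row.mk (nat_lit 28224) (nat_lit 3366) (nat_lit 738533912945) (nat_lit 3927) (nat_lit 6953597296) (nat_lit 4114) (nat_lit 24109631160076),Row.mk (nat_lit 28392) (nat_lit 3927) (nat_lit 925547342838) (nat_lit 4488) (nat_lit 5559050627) (nat_lit 4675) (nat_lit 23961014291839),Row.mk (nat_lit 28560) (nat_lit 4488) (nat_lit 1158497402277) (nat_lit 5049) (nat_lit 4442498501) (nat_lit 5236) (nat_lit 23775395408615),Row.mk (nat_lit 28728) (nat_lit 5049) (nat_lit 1448945834337) (nat_lit 5610) (nat_lit 3548524368) (nat_lit 5797) (nat_lit 23543561901302),Row.mk (nat_lit 28896) (nat_lit 5610) (nat_lit 1811308132866) (nat_lit 6171) (nat_lit 2832758635) (nat_lit 6358) (nat_lit 23254007443375),Row.mk (nat_lit 29064) (nat_lit 6171) (nat_lit 2263569010149) (nat_lit 6732) (nat_lit 2259676524)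 (nat_lit 6919) (nat_lit 22892360910579),Row.mk (nat_lit 29232) (nat_lit 6732) (nat_lit 2828175011508) (nat_lit 7293) (nat_lit 1800834906) (nat_lit 7480) (nat_lit 22440673115407),Row.mk (nat_lit 29400) (nat_lit 7293) (nat_lit 3533148578932) (nat_lit 7854) (nat_lit 1433460622) (nat_lit 8041) (nat_lit 21876525955666),Row.mk (nat_lit 29568) (nat_lit 7854) (nat_lit 4413478856798) (nat_lit 8415) (nat_lit 1139320207) (nat_lit 8602) (nat_lit 21171919762526),Row.mk (nat_lit 29736) (nat_lit 8415) (nat_lit 5512858267934) (nat_lit 8976) (nat_lit 903814925) (nat_lit 9163) (nat_lit 20291883625076),Row.mk (nat_lit 29904) (nat_lit 8976) (nat_lit 6885851049524) (nat_lit 9537) (nat_lit 715256213) (nat_lit 9724) (nat_lit 19192739719222),Row.mk (nat_lit 30072) (nat_lit 9537) (nat_lit 8600601377298) (nat_lit 10098) (nat_lit 564285554) (nat_lit 10285) (nat_lit 17819935496343),Row.mk (nat_lit 30240) (nat_lit 10098) (nat_lit 10742215487233) (nat_lit 10659)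 (nat_lit 443409993) (nat_lit 10846) (nat_lit 16105336139229),Row.mk (nat_lit 30408) (nat_lit 10659) (nat_lit 13416985655741) (nat_lit 11220) (nat_lit 346630253) (nat_lit 11407) (nat_lit 13963842904855),Row.mk (nat_lit 30576) (nat_lit 11220) (nat_lit 16757665682290) (nat_lit 11781) (nat_lit 269142976) (nat_lit 11968) (nat_lit 11289169516087),Row.mk (nat_lit 30744) (nat_lit 11781) (nat_lit 20930059706447) (nat_lit 12529) (nat_lit 207102324) (nat_lit 12716) (nat_lit 7948566976815),Row.mk (nat_lit 30912) (nat_lit 12529) (nat_lit 26141251374539) (nat_lit 13277) (nat_lit 157429105) (nat_lit 13464) (nat_lit 3776234993310),Row.mk (nat_lit 31080) (nat_lit 12342) (nat_lit 1792017277599) (nat_lit 13090) (nat_lit 146951936) (nat_lit 13277) (nat_lit 29422928211569),Row.mk (nat_lit 31248) (nat_lit 13090) (nat_lit 9921129744926) (nat_lit 13838) (nat_lit 107180777) (nat_lit 14025) (nat_lit 22914337572546),Row.mk (nat_lit 31416) (nat_lit 13838) (nat_lit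 20074177281289) (nat_lit 14960) (nat_lit 75337761) (nat_lit 15147) (nat_lit 14785264876378),Row.mk (nat_lit 31584) (nat_lit 14960) (nat_lit 32755074448209) (nat_lit 16269) (nat_lit 49842459) (nat_lit 16456) (nat_lit 4632249183031),Row.mk (nat_lit 31752) (nat_lit 14773) (nat_lit 10052498568115) (nat_lit 16082) (nat_lit 36756728) (nat_lit 16269) (nat_lit 30492069284210),Row.mk (nat_lit 31920) (nat_lit 16082) (nat_lit 29833927311684) (nat_lit 17578) (nat_lit 16343762) (nat_lit 17765) (nat_lit 14653966477237),Row.mk (nat_lit 32088) (nat_lit 15895) (nat_lit 6404051181444) (nat_lit 17578) (nat_lit 43008952422719) (nat_lit 0) (nat_lit 0),Row.mk (nat_lit 32256) (nat_lit 17391) (nat_lit 37261875917408) (nat_lit 17578) (nat_lit 16343762) (nat_lit 19635) (nat_lit 18302434276874),Row.mk (nat_lit 32424) (nat_lit 17204) (nat_lit 15681359386643) (nat_lit 17391) (nat_lit 36756728) (nat_lit 19448) (nat_lit 47565784345776),Row.mk (nat_lit 32592) (nat_lit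 19261) (nat_lit 63817737318965) (nat_lit 19448) (nat_lit 49842459) (nat_lit 25806) (nat_lit 9025092572978),Row.mk (nat_lit 32760) (nat_lit 19074) (nat_lit 48848989648761) (nat_lit 19261) (nat_lit 75337761) (nat_lit 25619) (nat_lit 35978611620426),Row.mk (nat_lit 32928) (nat_lit 18887) (nat_lit 30153384911828) (nat_lit 19074) (nat_lit 107180777) (nat_lit 25432) (nat_lit 69642906689245),Row.mk (nat_lit 33096) (nat_lit 18700) (nat_lit 6803025604526) (nat_lit 18887) (nat_lit 146951936) (nat_lit 25245) (nat_lit 111688799119303),Row.mk (nat_lit 33264) (nat_lit 25058) (nat_lit 123938815014354) (nat_lit 25245) (nat_lit 157429105) (nat_lit 31603) (nat_lit 17903318768449),Row.mk (nat_lit 33432) (nat_lit 24871) (nat_lit 123938765341135) (nat_lit 25058) (nat_lit 207102324) (nat_lit 31416) (nat_lit 47067304570532),Row.mk (nat_lit 33600) (nat_lit 24684) (nat_lit 123938703300483) (nat_lit 24871) (nat_lit 269142976) (nat_lit 31229) (nat_lit 83492419291021),Row.mk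 (nat_lit 33768) (nat_lit 24497) (nat_lit 123938625813206) (nat_lit 24684) (nat_lit 346630253) (nat_lit 31042) (nat_lit 128986508864541),Row.mk (nat_lit 33936) (nat_lit 24310) (nat_lit 123938529033466) (nat_lit 24497) (nat_lit 443409993) (nat_lit 30855) (nat_lit 185807529251313),Row.mk (nat_lit 34104) (nat_lit 24123) (nat_lit 123938408157905) (nat_lit 24310) (nat_lit 564285554) (nat_lit 30668) (nat_lit 256775612975165),Row.mk (nat_lit 34272) (nat_lit 23936) (nat_lit 123938257187246) (nat_lit 24123) (nat_lit 715256213) (nat_lit 30481) (nat_lit 345413037526030),Row.mk (nat_lit 34440) (nat_lit 23749) (nat_lit 123938068628534) (nat_lit 23936) (nat_lit 903814925) (nat_lit 30294) (nat_lit 456119042518097),Row.mk (nat_lit 34608) (nat_lit 23562) (nat_lit 123937833123252) (nat_lit 23749) (nat_lit 1139320207) (nat_lit 30107) (nat_lit 594388172103092),Row.mk (nat_lit 34776) (nat_lit 23375) (nat_lit 123937538982837) (nat_lit 23562) (nat_lit 1433460622)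 (nat_lit 29920) (nat_lit 767082979377204),Row.mk (nat_lit 34944) (nat_lit 23188) (nat_lit 123937171608553) (nat_lit 23375) (nat_lit 1800834906) (nat_lit 29733) (nat_lit 982774627606683),Row.mk (nat_lit 35112) (nat_lit 23001) (nat_lit 123936712766935) (nat_lit 23188) (nat_lit 2259676524) (nat_lit 29546) (nat_lit 1252168292941999),Row.mk (nat_lit 35280) (nat_lit 22814) (nat_lit 123936139684824) (nat_lit 23001) (nat_lit 2832758635) (nat_lit 29359) (nat_lit 1588634482145507),Row.mk (nat_lit 35448) (nat_lit 22627) (nat_lit 123935423919091) (nat_lit 22814) (nat_lit 3548524368) (nat_lit 29172) (nat_lit 2008872635615888),Row.mk (nat_lit 35616) (nat_lit 22440) (nat_lit 123934529944958) (nat_lit 22627) (nat_lit 4442498501) (nat_lit 28985) (nat_lit 2533739951557046),Row.mk (nat_lit 35784) (nat_lit 22253) (nat_lit 123933413392832) (nat_lit 22440) (nat_lit 5559050627) (nat_lit 28798) (nat_lit 3189286567370673)],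
[Row.mk (nat_lit 27048) (nat_lit 32912) (nat_lit 31354938978) (nat_lit 61897) (nat_lit 30826478185593) (nat_lit 0) (nat_lit 0),Row.mk (nat_lit 27216) (nat_lit 32912) (nat_lit 39159473822) (nat_lit 61897) (nat_lit 30818673650749) (nat_lit 0) (nat_lit 0),Row.mk (nat_lit 27384) (nat_lit 0) (nat_lit 218742876116) (nat_lit 561) (nat_lit 26513397619) (nat_lit 748) (nat_lit 30661467223187),Row.mk (nat_lit 27552) (nat_lit 561) (nat_lit 285109924892) (nat_lit 1122) (nat_lit 21219721658) (nat_lit 1309) (nat_lit 30612568462227),Row.mk (nat_lit 27720) (nat_lit 1122) (nat_lit 365627507513) (nat_lit 1683) (nat_lit 16981308361) (nat_lit 1870) (nat_lit 30551495089412),Row.mk (nat_lit 27888) (nat_lit 1683) (nat_lit 464291860792) (nat_lit 2244) (nat_lit 13587797423) (nat_lit 2431) (nat_lit 30475215920089),Row.mk (nat_lit 28056) (nat_lit 2244) (nat_lit 585999879396) (nat_lit 2805) (nat_lit 10870762608) (nat_lit 2992) (nat_lit 30379945077748),Row.mk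 (nat_lit 28224) (nat_lit 2805) (nat_lit 736792157796) (nat_lit 3366) (nat_lit 8695352445) (nat_lit 3553) (nat_lit 30260954093958),Row.mk (nat_lit 28392) (nat_lit 3366) (nat_lit 924152796169) (nat_lit 3927) (nat_lit 6953597296) (nat_lit 4114) (nat_lit 30112337225721),Row.mk (nat_lit 28560) (nat_lit 3927) (nat_lit 1157380850151) (nat_lit 4488) (nat_lit 5559050627) (nat_lit 4675) (nat_lit 29926718342497),Row.mk (nat_lit 28728) (nat_lit 4488) (nat_lit 1448051860205) (nat_lit 5049) (nat_lit 4442498501) (nat_lit 5236) (nat_lit 29694884835185),Row.mk (nat_lit 28896) (nat_lit 5049) (nat_lit 1810592367133) (nat_lit 5610) (nat_lit 3548524368) (nat_lit 5797) (nat_lit 29405330377257),Row.mk (nat_lit 29064) (nat_lit 5610) (nat_lit 2262995928038) (nat_lit 6171) (nat_lit 2832758635) (nat_lit 6358) (nat_lit 29043683844461),Row.mk (nat_lit 29232) (nat_lit 6171) (nat_lit 2827716169890) (nat_lit 6732) (nat_lit 2259676524) (nat_lit 6919) (nat_lit 28591996049290),Row.mk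 (nat_lit 29400) (nat_lit 6732) (nat_lit 3532781204648) (nat_lit 7293) (nat_lit 1800834906) (nat_lit 7480) (nat_lit 28027848889548),Row.mk (nat_lit 29568) (nat_lit 7293) (nat_lit 4413184716382) (nat_lit 7854) (nat_lit 1433460622) (nat_lit 8041) (nat_lit 27323242696408),Row.mk (nat_lit 29736) (nat_lit 7854) (nat_lit 5512622762652) (nat_lit 8415) (nat_lit 1139320207) (nat_lit 8602) (nat_lit 26443206558958),Row.mk (nat_lit 29904) (nat_lit 8415) (nat_lit 6885662490813) (nat_lit 8976) (nat_lit 903814925) (nat_lit 9163) (nat_lit 25344062653104),Row.mk (nat_lit 30072) (nat_lit 8976) (nat_lit 8600450406638) (nat_lit 9537) (nat_lit 715256213) (nat_lit 9724) (nat_lit 23971258430225),Row.mk (nat_lit 30240) (nat_lit 9537) (nat_lit 10742094611672) (nat_lit 10098) (nat_lit 564285554) (nat_lit 10285) (nat_lit 22256659073111),Row.mk (nat_lit 30408) (nat_lit 10098) (nat_lit 13416888876001) (nat_lit 10659) (nat_lit 443409993) (nat_lit 10846) (nat_lit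 20115165838737),Row.mk (nat_lit 30576) (nat_lit 10659) (nat_lit 16757588195012) (nat_lit 11220) (nat_lit 346630253) (nat_lit 11407) (nat_lit 17440492449969),Row.mk (nat_lit 30744) (nat_lit 11220) (nat_lit 20929997665795) (nat_lit 11781) (nat_lit 269142976) (nat_lit 11968) (nat_lit 14099889910697),Row.mk (nat_lit 30912) (nat_lit 11781) (nat_lit 26141201701321) (nat_lit 12529) (nat_lit 207102324) (nat_lit 12716) (nat_lit 9927557927192),Row.mk (nat_lit 31080) (nat_lit 12529) (nat_lit 32649842013563) (nat_lit 13277) (nat_lit 157429105) (nat_lit 13464) (nat_lit 4716415932318),Row.mk (nat_lit 31248) (nat_lit 12342) (nat_lit 2238236022664) (nat_lit 13090) (nat_lit 146951936) (nat_lit 13277) (nat_lit 36748514457530),Row.mk (nat_lit 31416) (nat_lit 13090) (nat_lit 12391291487170) (nat_lit 13838) (nat_lit 107180777) (nat_lit 14025) (nat_lit 28619441761363),Row.mk (nat_lit 31584) (nat_lit 13838) (nat_lit 25072195001805) (nat_lit 14960) (nat_lit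 75337761) (nat_lit 15147) (nat_lit 18466426068015),Row.mk (nat_lit 31752) (nat_lit 14960) (nat_lit 40910323304079) (nat_lit 16269) (nat_lit 49842459) (nat_lit 16456) (nat_lit 5785554396397),Row.mk (nat_lit 31920) (nat_lit 14773) (nat_lit 12555353702361) (nat_lit 16082) (nat_lit 36756728) (nat_lit 16269) (nat_lit 38083842607477),Row.mk (nat_lit 32088) (nat_lit 16082) (nat_lit 37261875917408) (nat_lit 17578) (nat_lit 16343762) (nat_lit 17765) (nat_lit 18302434276874),Row.mk (nat_lit 32256) (nat_lit 15895) (nat_lit 7998525848506) (nat_lit 17578) (nat_lit 53717123623421) (nat_lit 0) (nat_lit 0),Row.mk (nat_lit 32424) (nat_lit 17391) (nat_lit 46539204535573) (nat_lit 17578) (nat_lit 16343762) (nat_lit 19635) (nat_lit 22859282543694),Row.mk (nat_lit 32592) (nat_lit 17204) (nat_lit 19585665075160) (nat_lit 17391) (nat_lit 36756728) (nat_lit 19448) (nat_lit 59408500836397),Row.mk (nat_lit 32760) (nat_lit 19261) (nat_lit 79706839880026) (nat_lit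 19448) (nat_lit 49842459) (nat_lit 25806) (nat_lit 11272109818344),Row.mk (nat_lit 32928) (nat_lit 19074) (nat_lit 61011241490808) (nat_lit 19261) (nat_lit 75337761) (nat_lit 25619) (nat_lit 44936404887163),Row.mk (nat_lit 33096) (nat_lit 18887) (nat_lit 37660890111649) (nat_lit 19074) (nat_lit 107180777) (nat_lit 25432) (nat_lit 86982297317221),Row.mk (nat_lit 33264) (nat_lit 18700) (nat_lit 8496864538407) (nat_lit 18887) (nat_lit 146951936) (nat_lit 25245) (nat_lit 139496602655447),Row.mk (nat_lit 33432) (nat_lit 25058) (nat_lit 154796639750318) (nat_lit 25245) (nat_lit 157429105) (nat_lit 31603) (nat_lit 22360802768450),Row.mk (nat_lit 33600) (nat_lit 24871) (nat_lit 154796590077099) (nat_lit 25058) (nat_lit 207102324) (nat_lit 31416) (nat_lit 58785917488939),Row.mk (nat_lit 33768) (nat_lit 24684) (nat_lit 154796528036447) (nat_lit 24871) (nat_lit 269142976) (nat_lit 31229) (nat_lit 104280007062459),Row.mk (nat_lit 33936) (nat_lit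 24497) (nat_lit 154796450549170) (nat_lit 24684) (nat_lit 346630253) (nat_lit 31042) (nat_lit 161101027449231),Row.mk (nat_lit 34104) (nat_lit 24310) (nat_lit 154796353769430) (nat_lit 24497) (nat_lit 443409993) (nat_lit 30855) (nat_lit 232069111173083),Row.mk (nat_lit 34272) (nat_lit 24123) (nat_lit 154796232893869) (nat_lit 24310) (nat_lit 564285554) (nat_lit 30668) (nat_lit 320706535723948),Row.mk (nat_lit 34440) (nat_lit 23936) (nat_lit 154796081923210) (nat_lit 24123) (nat_lit 715256213) (nat_lit 30481) (nat_lit 431412540716015),Row.mk (nat_lit 34608) (nat_lit 23749) (nat_lit 154795893364498) (nat_lit 23936) (nat_lit 903814925) (nat_lit 30294) (nat_lit 569681670301010),Row.mk (nat_lit 34776) (nat_lit 23562) (nat_lit 154795657859217) (nat_lit 23749) (nat_lit 1139320207) (nat_lit 30107) (nat_lit 742376477575122),Row.mk (nat_lit 34944) (nat_lit 23375) (nat_lit 154795363718801) (nat_lit 23562) (nat_lit 1433460622) (nat_lit 29920)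 (nat_lit 958068125804601),Row.mk (nat_lit 35112) (nat_lit 23188) (nat_lit 154794996344517) (nat_lit 23375) (nat_lit 1800834906) (nat_lit 29733) (nat_lit 1227461791139917),Row.mk (nat_lit 35280) (nat_lit 23001) (nat_lit 154794537502899) (nat_lit 23188) (nat_lit 2259676524) (nat_lit 29546) (nat_lit 1563927980343425),Row.mk (nat_lit 35448) (nat_lit 22814) (nat_lit 154793964420788) (nat_lit 23001) (nat_lit 2832758635) (nat_lit 29359) (nat_lit 1984166133813806),Row.mk (nat_lit 35616) (nat_lit 22627) (nat_lit 154793248655055) (nat_lit 22814) (nat_lit 3548524368) (nat_lit 29172) (nat_lit 2509033449754964),Row.mk (nat_lit 35784) (nat_lit 22440) (nat_lit 154792354680922) (nat_lit 22627) (nat_lit 4442498501) (nat_lit 28985) (nat_lit 3164580065568591)],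
[Row.mk (nat_lit 27216) (nat_lit 32912) (nat_lit 39159473822) (nat_lit 61897) (nat_lit 38501527601851) (nat_lit 0) (nat_lit 0),Row.mk (nat_lit 27384) (nat_lit 32912) (nat_lit 48907149567) (nat_lit 61897) (nat_lit 38491779926106) (nat_lit 0) (nat_lit 0),Row.mk (nat_lit 27552) (nat_lit 0) (nat_lit 279816248931) (nat_lit 561) (nat_lit 26513397619) (nat_lit 748) (nat_lit 38295422413330),Row.mk (nat_lit 27720) (nat_lit 561) (nat_lit 361389094216) (nat_lit 1122) (nat_lit 21219721658) (nat_lit 1309) (nat_lit 38234349040515),Row.mk (nat_lit 27888) (nat_lit 1122) (nat_lit 460898349854) (nat_lit 1683) (nat_lit 16981308361) (nat_lit 1870) (nat_lit 38158069871191),Row.mk (nat_lit 28056) (nat_lit 1683) (nat_lit 583282844581) (nat_lit 2244) (nat_lit 13587797423) (nat_lit 2431) (nat_lit 38062799028850),Row.mk (nat_lit 28224) (nat_lit 2244) (nat_lit 734616747633) (nat_lit 2805) (nat_lit 10870762608) (nat_lit 2992) (nat_lit 37943808045061),Row.mk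 (nat_lit 28392) (nat_lit 2805) (nat_lit 922411041020) (nat_lit 3366) (nat_lit 8695352445) (nat_lit 3553) (nat_lit 37795191176824),Row.mk (nat_lit 28560) (nat_lit 3366) (nat_lit 1155986303482) (nat_lit 3927) (nat_lit 6953597296) (nat_lit 4114) (nat_lit 37609572293600),Row.mk (nat_lit 28728) (nat_lit 3927) (nat_lit 1446935308079) (nat_lit 4488) (nat_lit 5559050627) (nat_lit 4675) (nat_lit 37377738786287),Row.mk (nat_lit 28896) (nat_lit 4488) (nat_lit 1809698393001) (nat_lit 5049) (nat_lit 4442498501) (nat_lit 5236) (nat_lit 37088184328360),Row.mk (nat_lit 29064) (nat_lit 5049) (nat_lit 2262280162305) (nat_lit 5610) (nat_lit 3548524368) (nat_lit 5797) (nat_lit 36726537795564),Row.mk (nat_lit 29232) (nat_lit 5610) (nat_lit 2827143087779) (nat_lit 6171) (nat_lit 2832758635) (nat_lit 6358) (nat_lit 36274850000392),Row.mk (nat_lit 29400) (nat_lit 6171) (nat_lit 3532322363031) (nat_lit 6732) (nat_lit 2259676524) (nat_lit 6919) (nat_lit 35710702840651),Row.mk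 (nat_lit 29568) (nat_lit 6732) (nat_lit 4412817342098) (nat_lit 7293) (nat_lit 1800834906) (nat_lit 7480) (nat_lit 35006096647511),Row.mk (nat_lit 29736) (nat_lit 7293) (nat_lit 5512328622236) (nat_lit 7854) (nat_lit 1433460622) (nat_lit 8041) (nat_lit 34126060510061),Row.mk (nat_lit 29904) (nat_lit 7854) (nat_lit 6885426985531) (nat_lit 8415) (nat_lit 1139320207) (nat_lit 8602) (nat_lit 33026916604206),Row.mk (nat_lit 30072) (nat_lit 8415) (nat_lit 8600261847927) (nat_lit 8976) (nat_lit 903814925) (nat_lit 9163) (nat_lit 31654112381328),Row.mk (nat_lit 30240) (nat_lit 8976) (nat_lit 10741943641013) (nat_lit 9537) (nat_lit 715256213) (nat_lit 9724) (nat_lit 29939513024214),Row.mk (nat_lit 30408) (nat_lit 9537) (nat_lit 13416768000440) (nat_lit 10098) (nat_lit 564285554) (nat_lit 10285) (nat_lit 27798019789839),Row.mk (nat_lit 30576) (nat_lit 10098) (nat_lit 16757491415272) (nat_lit 10659) (nat_lit 443409993) (nat_lit 10846) (nat_lit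 25123346401071),Row.mk (nat_lit 30744) (nat_lit 10659) (nat_lit 20929920178517) (nat_lit 11220) (nat_lit 346630253) (nat_lit 11407) (nat_lit 21782743861800),Row.mk (nat_lit 30912) (nat_lit 11220) (nat_lit 26141139660669) (nat_lit 11781) (nat_lit 269142976) (nat_lit 11968) (nat_lit 17610411878295),Row.mk (nat_lit 31080) (nat_lit 11781) (nat_lit 32649792340344) (nat_lit 12529) (nat_lit 207102324) (nat_lit 12716) (nat_lit 12399269883421),Row.mk (nat_lit 31248) (nat_lit 12529) (nat_lit 40778914709730) (nat_lit 13277) (nat_lit 157429105) (nat_lit 13464) (nat_lit 5890679244397),Row.mk (nat_lit 31416) (nat_lit 12342) (nat_lit 2795552470756) (nat_lit 13090) (nat_lit 146951936) (nat_lit 13277) (nat_lit 45897994957720),Row.mk (nat_lit 31584) (nat_lit 13090) (nat_lit 15476463913533) (nat_lit 13838) (nat_lit 107180777) (nat_lit 14025) (nat_lit 35744979264373),Row.mk (nat_lit 31752) (nat_lit 13838) (nat_lit 31314598563523) (nat_lit 14960) (nat_lit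 75337761) (nat_lit 15147) (nat_lit 23064107592755),Row.mk (nat_lit 31920) (nat_lit 14960) (nat_lit 51096032389427) (nat_lit 16269) (nat_lit 49842459) (nat_lit 16456) (nat_lit 7226004785782),Row.mk (nat_lit 32088) (nat_lit 14773) (nat_lit 15681359386643) (nat_lit 16082) (nat_lit 36756728) (nat_lit 16269) (nat_lit 47565784345776),Row.mk (nat_lit 32256) (nat_lit 16082) (nat_lit 46539204535573) (nat_lit 17578) (nat_lit 16343762) (nat_lit 17765) (nat_lit 22859282543694),Row.mk (nat_lit 32424) (nat_lit 15895) (nat_lit 9989986242870) (nat_lit 17578) (nat_lit 67091371131262) (nat_lit 0) (nat_lit 0),Row.mk (nat_lit 32592) (nat_lit 17391) (nat_lit 58126364175192) (nat_lit 17578) (nat_lit 16343762) (nat_lit 19635) (nat_lit 28550676100433),Row.mk (nat_lit 32760) (nat_lit 17204) (nat_lit 24462048693407) (nat_lit 17391) (nat_lit 36756728) (nat_lit 19448) (nat_lit 74199768041796),Row.mk (nat_lit 32928) (nat_lit 19261) (nat_lit 99551945673177) (nat_lit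 19448) (nat_lit 49842459) (nat_lit 25806) (nat_lit 14078580151198),Row.mk (nat_lit 33096) (nat_lit 19074) (nat_lit 76201600641732) (nat_lit 19261) (nat_lit 75337761) (nat_lit 25619) (nat_lit 56124472581257),Row.mk (nat_lit 33264) (nat_lit 18887) (nat_lit 47037582996633) (nat_lit 19074) (nat_lit 107180777) (nat_lit 25432) (nat_lit 108638777919483),Row.mk (nat_lit 33432) (nat_lit 18700) (nat_lit 10612428504984) (nat_lit 18887) (nat_lit 146951936) (nat_lit 25245) (nat_lit 174227878442055),Row.mk (nat_lit 33600) (nat_lit 25058) (nat_lit 193337318437384) (nat_lit 25245) (nat_lit 157429105) (nat_lit 31603) (nat_lit 27928092752975),Row.mk (nat_lit 33768) (nat_lit 24871) (nat_lit 193337268764166) (nat_lit 25058) (nat_lit 207102324) (nat_lit 31416) (nat_lit 73422182326495),Row.mk (nat_lit 33936) (nat_lit 24684) (nat_lit 193337206723514) (nat_lit 24871) (nat_lit 269142976) (nat_lit 31229) (nat_lit 130243202713267),Row.mk (nat_lit 34104) (nat_lit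 24497) (nat_lit 193337129236237) (nat_lit 24684) (nat_lit 346630253) (nat_lit 31042) (nat_lit 201211286437119),Row.mk (nat_lit 34272) (nat_lit 24310) (nat_lit 193337032456497) (nat_lit 24497) (nat_lit 443409993) (nat_lit 30855) (nat_lit 289848710987983),Row.mk (nat_lit 34440) (nat_lit 24123) (nat_lit 193336911580936) (nat_lit 24310) (nat_lit 564285554) (nat_lit 30668) (nat_lit 400554715980051),Row.mk (nat_lit 34608) (nat_lit 23936) (nat_lit 193336760610277) (nat_lit 24123) (nat_lit 715256213) (nat_lit 30481) (nat_lit 538823845565046),Row.mk (nat_lit 34776) (nat_lit 23749) (nat_lit 193336572051565) (nat_lit 23936) (nat_lit 903814925) (nat_lit 30294) (nat_lit 711518652839158),Row.mk (nat_lit 34944) (nat_lit 23562) (nat_lit 193336336546283) (nat_lit 23749) (nat_lit 1139320207) (nat_lit 30107) (nat_lit 927210301068637),Row.mk (nat_lit 35112) (nat_lit 23375) (nat_lit 193336042405867) (nat_lit 23562) (nat_lit 1433460622) (nat_lit 29920)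 (nat_lit 1196603966403953),Row.mk (nat_lit 35280) (nat_lit 23188) (nat_lit 193335675031584) (nat_lit 23375) (nat_lit 1800834906) (nat_lit 29733) (nat_lit 1533070155607461),Row.mk (nat_lit 35448) (nat_lit 23001) (nat_lit 193335216189966) (nat_lit 23188) (nat_lit 2259676524) (nat_lit 29546) (nat_lit 1953308309077842),Row.mk (nat_lit 35616) (nat_lit 22814) (nat_lit 193334643107854) (nat_lit 23001) (nat_lit 2832758635) (nat_lit 29359) (nat_lit 2478175625019000),Row.mk (nat_lit 35784) (nat_lit 22627) (nat_lit 193333927342122) (nat_lit 22814) (nat_lit 3548524368) (nat_lit 29172) (nat_lit 3133722240832627)],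
[Row.mk (nat_lit 27384) (nat_lit 32912) (nat_lit 48907149567) (nat_lit 61897) (nat_lit 48087479171361) (nat_lit 0) (nat_lit 0),Row.mk (nat_lit 27552) (nat_lit 32912) (nat_lit 61081761422) (nat_lit 61897) (nat_lit 48075304559506) (nat_lit 0) (nat_lit 0),Row.mk (nat_lit 27720) (nat_lit 0) (nat_lit 356095418254) (nat_lit 561) (nat_lit 26513397619) (nat_lit 748) (nat_lit 47830048285770),Row.mk (nat_lit 27888) (nat_lit 561) (nat_lit 456659936557) (nat_lit 1122) (nat_lit 21219721658) (nat_lit 1309) (nat_lit 47753769116446),Row.mk (nat_lit 28056) (nat_lit 1122) (nat_lit 579889333643) (nat_lit 1683) (nat_lit 16981308361) (nat_lit 1870) (nat_lit 47658498274105),Row.mk (nat_lit 28224) (nat_lit 1683) (nat_lit 731899712819) (nat_lit 2244) (nat_lit 13587797423) (nat_lit 2431) (nat_lit 47539507290316),Row.mk (nat_lit 28392) (nat_lit 2244) (nat_lit 920235630857) (nat_lit 2805) (nat_lit 10870762608) (nat_lit 2992) (nat_lit 47390890422079),Row.mk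 (nat_lit 28560) (nat_lit 2805) (nat_lit 1154244548333) (nat_lit 3366) (nat_lit 8695352445) (nat_lit 3553) (nat_lit 47205271538855),Row.mk (nat_lit 28728) (nat_lit 3366) (nat_lit 1445540761409) (nat_lit 3927) (nat_lit 6953597296) (nat_lit 4114) (nat_lit 46973438031542),Row.mk (nat_lit 28896) (nat_lit 3927) (nat_lit 1808581840875) (nat_lit 4488) (nat_lit 5559050627) (nat_lit 4675) (nat_lit 46683883573615),Row.mk (nat_lit 29064) (nat_lit 4488) (nat_lit 2261386188172) (nat_lit 5049) (nat_lit 4442498501) (nat_lit 5236) (nat_lit 46322237040819),Row.mk (nat_lit 29232) (nat_lit 5049) (nat_lit 2826427322046) (nat_lit 5610) (nat_lit 3548524368) (nat_lit 5797) (nat_lit 45870549245647),Row.mk (nat_lit 29400) (nat_lit 5610) (nat_lit 3531749280919) (nat_lit 6171) (nat_lit 2832758635) (nat_lit 6358) (nat_lit 45306402085906),Row.mk (nat_lit 29568) (nat_lit 6171) (nat_lit 4412358500480) (nat_lit 6732) (nat_lit 2259676524) (nat_lit 6919) (nat_lit 44601795892766),Row.mk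 (nat_lit 29736) (nat_lit 6732) (nat_lit 5511961247953) (nat_lit 7293) (nat_lit 1800834906) (nat_lit 7480) (nat_lit 43721759755316),Row.mk (nat_lit 29904) (nat_lit 7293) (nat_lit 6885132845115) (nat_lit 7854) (nat_lit 1433460622) (nat_lit 8041) (nat_lit 42622615849462),Row.mk (nat_lit 30072) (nat_lit 7854) (nat_lit 8600026342645) (nat_lit 8415) (nat_lit 1139320207) (nat_lit 8602) (nat_lit 41249811626583),Row.mk (nat_lit 30240) (nat_lit 8415) (nat_lit 10741755082301) (nat_lit 8976) (nat_lit 903814925) (nat_lit 9163) (nat_lit 39535212269469),Row.mk (nat_lit 30408) (nat_lit 8976) (nat_lit 13416617029781) (nat_lit 9537) (nat_lit 715256213) (nat_lit 9724) (nat_lit 37393719035094),Row.mk (nat_lit 30576) (nat_lit 9537) (nat_lit 16757370539711) (nat_lit 10098) (nat_lit 564285554) (nat_lit 10285) (nat_lit 34719045646326),Row.mk (nat_lit 30744) (nat_lit 10098) (nat_lit 20929823398777) (nat_lit 10659) (nat_lit 443409993) (nat_lit 10846) (nat_lit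 31378443107055),Row.mk (nat_lit 30912) (nat_lit 10659) (nat_lit 26141062173392) (nat_lit 11220) (nat_lit 346630253) (nat_lit 11407) (nat_lit 27206111123550),Row.mk (nat_lit 31080) (nat_lit 11220) (nat_lit 32649730299692) (nat_lit 11781) (nat_lit 269142976) (nat_lit 11968) (nat_lit 21994969128676),Row.mk (nat_lit 31248) (nat_lit 11781) (nat_lit 40778865036512) (nat_lit 12529) (nat_lit 207102324) (nat_lit 12716) (nat_lit 15486378489652),Row.mk (nat_lit 31416) (nat_lit 12529) (nat_lit 50931930403078) (nat_lit 13277) (nat_lit 157429105) (nat_lit 13464) (nat_lit 7357305793485),Row.mk (nat_lit 31584) (nat_lit 12342) (nat_lit 3491627269830) (nat_lit 13090) (nat_lit 146951936) (nat_lit 13277) (nat_lit 57325475382172),Row.mk (nat_lit 31752) (nat_lit 13090) (nat_lit 19329769847962) (nat_lit 13838) (nat_lit 107180777) (nat_lit 14025) (nat_lit 44644603710554),Row.mk (nat_lit 31920) (nat_lit 13838) (nat_lit 39111210021581) (nat_lit 14960) (nat_lit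 75337761) (nat_lit 15147) (nat_lit 28806500903581),Row.mk (nat_lit 32088) (nat_lit 14960) (nat_lit 63817737318965) (nat_lit 16269) (nat_lit 49842459) (nat_lit 16456) (nat_lit 9025092572978),Row.mk (nat_lit 32256) (nat_lit 14773) (nat_lit 19585665075160) (nat_lit 16082) (nat_lit 36756728) (nat_lit 16269) (nat_lit 59408500836397),Row.mk (nat_lit 32424) (nat_lit 16082) (nat_lit 58126364175192) (nat_lit 17578) (nat_lit 16343762) (nat_lit 17765) (nat_lit 28550676100433),Row.mk (nat_lit 32592) (nat_lit 15895) (nat_lit 12477272233829) (nat_lit 17578) (nat_lit 83795483630814) (nat_lit 0) (nat_lit 0),Row.mk (nat_lit 32760) (nat_lit 17391) (nat_lit 72598447038695) (nat_lit 17578) (nat_lit 16343762) (nat_lit 19635) (nat_lit 35659089354729),Row.mk (nat_lit 32928) (nat_lit 17204) (nat_lit 30552534195670) (nat_lit 17391) (nat_lit 36756728) (nat_lit 19448) (nat_lit 92673703959691),Row.mk (nat_lit 33096) (nat_lit 19261) (nat_lit 124338004069355)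 (nat_lit 19448) (nat_lit 49842459) (nat_lit 25806) (nat_lit 17583793894191),Row.mk (nat_lit 33264) (nat_lit 19074) (nat_lit 95173992771971) (nat_lit 19261) (nat_lit 75337761) (nat_lit 25619) (nat_lit 70098099232416),Row.mk (nat_lit 33432) (nat_lit 18887) (nat_lit 58748846208465) (nat_lit 19074) (nat_lit 107180777) (nat_lit 25432) (nat_lit 135687199754989),Row.mk (nat_lit 33600) (nat_lit 18700) (nat_lit 13254716863786) (nat_lit 18887) (nat_lit 146951936) (nat_lit 25245) (nat_lit 217606404048998),Row.mk (nat_lit 33768) (nat_lit 25058) (nat_lit 241473696369706) (nat_lit 25245) (nat_lit 157429105) (nat_lit 31603) (nat_lit 34881503639429),Row.mk (nat_lit 33936) (nat_lit 24871) (nat_lit 241473646696488) (nat_lit 25058) (nat_lit 207102324) (nat_lit 31416) (nat_lit 91702524026201),Row.mk (nat_lit 34104) (nat_lit 24684) (nat_lit 241473584655836) (nat_lit 24871) (nat_lit 269142976) (nat_lit 31229) (nat_lit 162670607750052),Row.mk (nat_lit 34272)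 (nat_lit 24497) (nat_lit 241473507168558) (nat_lit 24684) (nat_lit 346630253) (nat_lit 31042) (nat_lit 251308032300917),Row.mk (nat_lit 34440) (nat_lit 24310) (nat_lit 241473410388818) (nat_lit 24497) (nat_lit 443409993) (nat_lit 30855) (nat_lit 362014037292984),Row.mk (nat_lit 34608) (nat_lit 24123) (nat_lit 241473289513258) (nat_lit 24310) (nat_lit 564285554) (nat_lit 30668) (nat_lit 500283166877979),Row.mk (nat_lit 34776) (nat_lit 23936) (nat_lit 241473138542598) (nat_lit 24123) (nat_lit 715256213) (nat_lit 30481) (nat_lit 672977974152091),Row.mk (nat_lit 34944) (nat_lit 23749) (nat_lit 241472949983887) (nat_lit 23936) (nat_lit 903814925) (nat_lit 30294) (nat_lit 888669622381570),Row.mk (nat_lit 35112) (nat_lit 23562) (nat_lit 241472714478605) (nat_lit 23749) (nat_lit 1139320207) (nat_lit 30107) (nat_lit 1158063287716886),Row.mk (nat_lit 35280) (nat_lit 23375) (nat_lit 241472420338189) (nat_lit 23562) (nat_lit 1433460622) (nat_lit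 29920) (nat_lit 1494529476920395),Row.mk (nat_lit 35448) (nat_lit 23188) (nat_lit 241472052963905) (nat_lit 23375) (nat_lit 1800834906) (nat_lit 29733) (nat_lit 1914767630390775),Row.mk (nat_lit 35616) (nat_lit 23001) (nat_lit 241471594122288) (nat_lit 23188) (nat_lit 2259676524) (nat_lit 29546) (nat_lit 2439634946331934),Row.mk (nat_lit 35784) (nat_lit 22814) (nat_lit 241471021040176) (nat_lit 23001) (nat_lit 2832758635) (nat_lit 29359) (nat_lit 3095181562145561)],
[Row.mk (nat_lit 27552) (nat_lit 32912) (nat_lit 61081761422) (nat_lit 61897) (nat_lit 60060101432051) (nat_lit 0) (nat_lit 0),Row.mk (nat_lit 27720) (nat_lit 32912) (nat_lit 76287557931) (nat_lit 61897) (nat_lit 60044895635542) (nat_lit 0) (nat_lit 0),Row.mk (nat_lit 27888) (nat_lit 0) (nat_lit 451366260596) (nat_lit 561) (nat_lit 26513397619) (nat_lit 748) (nat_lit 59738565988991),Row.mk (nat_lit 28056) (nat_lit 561) (nat_lit 575650920346) (nat_lit 1122) (nat_lit 21219721658)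 (nat_lit 1309) (nat_lit 59643295146650),Row.mk (nat_lit 28224) (nat_lit 1122) (nat_lit 728506201881) (nat_lit 1683) (nat_lit 16981308361) (nat_lit 1870) (nat_lit 59524304162861),Row.mk (nat_lit 28392) (nat_lit 1683) (nat_lit 917518596042) (nat_lit 2244) (nat_lit 13587797423) (nat_lit 2431) (nat_lit 59375687294623),Row.mk (nat_lit 28560) (nat_lit 2244) (nat_lit 1152069138170) (nat_lit 2805) (nat_lit 10870762608) (nat_lit 2992) (nat_lit 59190068411399),Row.mk (nat_lit 28728) (nat_lit 2805) (nat_lit 1443799006260) (nat_lit 3366) (nat_lit 8695352445) (nat_lit 3553) (nat_lit 58958234904087),Row.mk (nat_lit 28896) (nat_lit 3366) (nat_lit 1807187294205) (nat_lit 3927) (nat_lit 6953597296) (nat_lit 4114) (nat_lit 58668680446159),Row.mk (nat_lit 29064) (nat_lit 3927) (nat_lit 2260269636046) (nat_lit 4488) (nat_lit 5559050627) (nat_lit 4675) (nat_lit 58307033913363),Row.mk (nat_lit 29232) (nat_lit 4488) (nat_lit 2825533347913) (nat_lit 5049)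 (nat_lit 4442498501) (nat_lit 5236) (nat_lit 57855346118192),Row.mk (nat_lit 29400) (nat_lit 5049) (nat_lit 3531033515186) (nat_lit 5610) (nat_lit 3548524368) (nat_lit 5797) (nat_lit 57291198958451),Row.mk (nat_lit 29568) (nat_lit 5610) (nat_lit 4411785418369) (nat_lit 6171) (nat_lit 2832758635) (nat_lit 6358) (nat_lit 56586592765310),Row.mk (nat_lit 29736) (nat_lit 6171) (nat_lit 5511502406335) (nat_lit 6732) (nat_lit 2259676524) (nat_lit 6919) (nat_lit 55706556627860),Row.mk (nat_lit 29904) (nat_lit 6732) (nat_lit 6884765470831) (nat_lit 7293) (nat_lit 1800834906) (nat_lit 7480) (nat_lit 54607412722006),Row.mk (nat_lit 30072) (nat_lit 7293) (nat_lit 8599732202229) (nat_lit 7854) (nat_lit 1433460622) (nat_lit 8041) (nat_lit 53234608499127),Row.mk (nat_lit 30240) (nat_lit 7854) (nat_lit 10741519577019) (nat_lit 8415) (nat_lit 1139320207) (nat_lit 8602) (nat_lit 51520009142013),Row.mk (nat_lit 30408) (nat_lit 8415) (nat_lit 13416428471069)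 (nat_lit 8976) (nat_lit 903814925) (nat_lit 9163) (nat_lit 49378515907639),Row.mk (nat_lit 30576) (nat_lit 8976) (nat_lit 16757219569052) (nat_lit 9537) (nat_lit 715256213) (nat_lit 9724) (nat_lit 46703842518871),Row.mk (nat_lit 30744) (nat_lit 9537) (nat_lit 20929702523217) (nat_lit 10098) (nat_lit 564285554) (nat_lit 10285) (nat_lit 43363239979599),Row.mk (nat_lit 30912) (nat_lit 10098) (nat_lit 26140965393651) (nat_lit 10659) (nat_lit 443409993) (nat_lit 10846) (nat_lit 39190907996094),Row.mk (nat_lit 31080) (nat_lit 10659) (nat_lit 32649652812415) (nat_lit 11220) (nat_lit 346630253) (nat_lit 11407) (nat_lit 33979766001220),Row.mk (nat_lit 31248) (nat_lit 11220) (nat_lit 40778802995860) (nat_lit 11781) (nat_lit 269142976) (nat_lit 11968) (nat_lit 27471175362197),Row.mk (nat_lit 31416) (nat_lit 11781) (nat_lit 50931880729859) (nat_lit 12529) (nat_lit 207102324) (nat_lit 12716) (nat_lit 19342102666029),Row.mk (nat_lit 31584) (nat_lit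 12529) (nat_lit 63612802074696) (nat_lit 13277) (nat_lit 157429105) (nat_lit 13464) (nat_lit 9189086972682),Row.mk (nat_lit 31752) (nat_lit 12342) (nat_lit 4361007901900) (nat_lit 13090) (nat_lit 146951936) (nat_lit 13277) (nat_lit 71598122758002),Row.mk (nat_lit 31920) (nat_lit 13090) (nat_lit 24142456003662) (nat_lit 13838) (nat_lit 107180777) (nat_lit 14025) (nat_lit 55760019951028),Row.mk (nat_lit 32088) (nat_lit 13838) (nat_lit 48848989648761) (nat_lit 14960) (nat_lit 75337761) (nat_lit 15147) (nat_lit 35978611620426),Row.mk (nat_lit 32256) (nat_lit 14960) (nat_lit 79706839880026) (nat_lit 16269) (nat_lit 49842459) (nat_lit 16456) (nat_lit 11272109818344),Row.mk (nat_lit 32424) (nat_lit 14773) (nat_lit 24462048693407) (nat_lit 16082) (nat_lit 36756728) (nat_lit 16269) (nat_lit 74199768041796),Row.mk (nat_lit 32592) (nat_lit 16082) (nat_lit 72598447038695) (nat_lit 17578) (nat_lit 16343762) (nat_lit 17765) (nat_lit 35659089354729),Row.mk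 (nat_lit 32760) (nat_lit 15895) (nat_lit 15583832433733) (nat_lit 17578) (nat_lit 104658517175998) (nat_lit 0) (nat_lit 0),Row.mk (nat_lit 32928) (nat_lit 17391) (nat_lit 90673729413502) (nat_lit 17578) (nat_lit 16343762) (nat_lit 19635) (nat_lit 44537326027369),Row.mk (nat_lit 33096) (nat_lit 17204) (nat_lit 38159403662311) (nat_lit 17391) (nat_lit 36756728) (nat_lit 19448) (nat_lit 115747204259511),Row.mk (nat_lit 33264) (nat_lit 19261) (nat_lit 155295193072139) (nat_lit 19448) (nat_lit 49842459) (nat_lit 25806) (nat_lit 21961721300095),Row.mk (nat_lit 33432) (nat_lit 19074) (nat_lit 118870052856348) (nat_lit 19261) (nat_lit 75337761) (nat_lit 25619) (nat_lit 87550821822667),Row.mk (nat_lit 33600) (nat_lit 18887) (nat_lit 73375931439812) (nat_lit 19074) (nat_lit 107180777) (nat_lit 25432) (nat_lit 169470026116676),Row.mk (nat_lit 33768) (nat_lit 18700) (nat_lit 16554871281880) (nat_lit 18887) (nat_lit 146951936) (nat_lit 25245)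 (nat_lit 271785136076968),Row.mk (nat_lit 33936) (nat_lit 25058) (nat_lit 301594871174572) (nat_lit 25245) (nat_lit 157429105) (nat_lit 31603) (nat_lit 43566146093879),Row.mk (nat_lit 34104) (nat_lit 24871) (nat_lit 301594821501354) (nat_lit 25058) (nat_lit 207102324) (nat_lit 31416) (nat_lit 114534229817731),Row.mk (nat_lit 34272) (nat_lit 24684) (nat_lit 301594759460702) (nat_lit 24871) (nat_lit 269142976) (nat_lit 31229) (nat_lit 203171654368595),Row.mk (nat_lit 34440) (nat_lit 24497) (nat_lit 301594681973425) (nat_lit 24684) (nat_lit 346630253) (nat_lit 31042) (nat_lit 313877659360663),Row.mk (nat_lit 34608) (nat_lit 24310) (nat_lit 301594585193684) (nat_lit 24497) (nat_lit 443409993) (nat_lit 30855) (nat_lit 452146788945657),Row.mk (nat_lit 34776) (nat_lit 24123) (nat_lit 301594464318124) (nat_lit 24310) (nat_lit 564285554) (nat_lit 30668) (nat_lit 624841596219770),Row.mk (nat_lit 34944) (nat_lit 23936) (nat_lit 301594313347464)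 (nat_lit 24123) (nat_lit 715256213) (nat_lit 30481) (nat_lit 840533244449249),Row.mk (nat_lit 35112) (nat_lit 23749) (nat_lit 301594124788753) (nat_lit 23936) (nat_lit 903814925) (nat_lit 30294) (nat_lit 1109926909784565),Row.mk (nat_lit 35280) (nat_lit 23562) (nat_lit 301593889283471) (nat_lit 23749) (nat_lit 1139320207) (nat_lit 30107) (nat_lit 1446393098988073),Row.mk (nat_lit 35448) (nat_lit 23375) (nat_lit 301593595143055) (nat_lit 23562) (nat_lit 1433460622) (nat_lit 29920) (nat_lit 1866631252458454),Row.mk (nat_lit 35616) (nat_lit 23188) (nat_lit 301593227768771) (nat_lit 23375) (nat_lit 1800834906) (nat_lit 29733) (nat_lit 2391498568399612),Row.mk (nat_lit 35784) (nat_lit 23001) (nat_lit 301592768927154) (nat_lit 23188) (nat_lit 2259676524) (nat_lit 29546) (nat_lit 3047045184213239)],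
[Row.mk (nat_lit 27720) (nat_lit 32912) (nat_lit 76287557931) (nat_lit 61897) (nat_lit 75013617810445) (nat_lit 0) (nat_lit 0),Row.mk (nat_lit 27888) (nat_lit 32912) (nat_lit 95279230949) (nat_lit 61897) (nat_lit 74994626137427) (nat_lit 0) (nat_lit 0),Row.mk (nat_lit 28056) (nat_lit 0) (nat_lit 570357244385) (nat_lit 561) (nat_lit 26513397619) (nat_lit 748) (nat_lit 74612017321552),Row.mk (nat_lit 28224) (nat_lit 561) (nat_lit 724267788583) (nat_lit 1122) (nat_lit 21219721658) (nat_lit 1309) (nat_lit 74493026337763),Row.mk (nat_lit 28392) (nat_lit 1122) (nat_lit 914125085104) (nat_lit 1683) (nat_lit 16981308361) (nat_lit 1870) (nat_lit 74344409469526),Row.mk (nat_lit 28560) (nat_lit 1683) (nat_lit 1149352103355) (nat_lit 2244) (nat_lit 13587797423) (nat_lit 2431) (nat_lit 74158790586302),Row.mk (nat_lit 28728) (nat_lit 2244) (nat_lit 1441623596097) (nat_lit 2805) (nat_lit 10870762608) (nat_lit 2992) (nat_lit 73926957078990),Row.mk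 (nat_lit 28896) (nat_lit 2805) (nat_lit 1805445539056) (nat_lit 3366) (nat_lit 8695352445) (nat_lit 3553) (nat_lit 73637402621062),Row.mk (nat_lit 29064) (nat_lit 3366) (nat_lit 2258875089377) (nat_lit 3927) (nat_lit 6953597296) (nat_lit 4114) (nat_lit 73275756088266),Row.mk (nat_lit 29232) (nat_lit 3927) (nat_lit 2824416795787) (nat_lit 4488) (nat_lit 5559050627) (nat_lit 4675) (nat_lit 72824068293094),Row.mk (nat_lit 29400) (nat_lit 4488) (nat_lit 3530139541054) (nat_lit 5049) (nat_lit 4442498501) (nat_lit 5236) (nat_lit 72259921133353),Row.mk (nat_lit 29568) (nat_lit 5049) (nat_lit 4411069652636) (nat_lit 5610) (nat_lit 3548524368) (nat_lit 5797) (nat_lit 71555314940213),Row.mk (nat_lit 29736) (nat_lit 5610) (nat_lit 5510929324223) (nat_lit 6171) (nat_lit 2832758635) (nat_lit 6358) (nat_lit 70675278802763),Row.mk (nat_lit 29904) (nat_lit 6171) (nat_lit 6884306629214) (nat_lit 6732) (nat_lit 2259676524) (nat_lit 6919) (nat_lit 69576134896909),Row.mk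 (nat_lit 30072) (nat_lit 6732) (nat_lit 8599364827945) (nat_lit 7293) (nat_lit 1800834906) (nat_lit 7480) (nat_lit 68203330674030),Row.mk (nat_lit 30240) (nat_lit 7293) (nat_lit 10741225436603) (nat_lit 7854) (nat_lit 1433460622) (nat_lit 8041) (nat_lit 66488731316916),Row.mk (nat_lit 30408) (nat_lit 7854) (nat_lit 13416192965787) (nat_lit 8415) (nat_lit 1139320207) (nat_lit 8602) (nat_lit 64347238082542),Row.mk (nat_lit 30576) (nat_lit 8415) (nat_lit 16757031010341) (nat_lit 8976) (nat_lit 903814925) (nat_lit 9163) (nat_lit 61672564693774),Row.mk (nat_lit 30744) (nat_lit 8976) (nat_lit 20929551552557) (nat_lit 9537) (nat_lit 715256213) (nat_lit 9724) (nat_lit 58331962154502),Row.mk (nat_lit 30912) (nat_lit 9537) (nat_lit 26140844518091) (nat_lit 10098) (nat_lit 564285554) (nat_lit 10285) (nat_lit 54159630170997),Row.mk (nat_lit 31080) (nat_lit 10098) (nat_lit 32649556032675) (nat_lit 10659) (nat_lit 443409993) (nat_lit 10846) (nat_lit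 48948488176123),Row.mk (nat_lit 31248) (nat_lit 10659) (nat_lit 40778725508583) (nat_lit 11220) (nat_lit 346630253) (nat_lit 11407) (nat_lit 42439897537099),Row.mk (nat_lit 31416) (nat_lit 11220) (nat_lit 50931818689207) (nat_lit 11781) (nat_lit 269142976) (nat_lit 11968) (nat_lit 34310824840932),Row.mk (nat_lit 31584) (nat_lit 11781) (nat_lit 63612752401477) (nat_lit 12529) (nat_lit 207102324) (nat_lit 12716) (nat_lit 24157809147585),Row.mk (nat_lit 31752) (nat_lit 12529) (nat_lit 79450904881669) (nat_lit 13277) (nat_lit 157429105) (nat_lit 13464) (nat_lit 11476937475966),Row.mk (nat_lit 31920) (nat_lit 12342) (nat_lit 5446843338587) (nat_lit 13090) (nat_lit 146951936) (nat_lit 13277) (nat_lit 89424315019847),Row.mk (nat_lit 32088) (nat_lit 13090) (nat_lit 30153384911828) (nat_lit 13838) (nat_lit 107180777) (nat_lit 14025) (nat_lit 69642906689245),Row.mk (nat_lit 32256) (nat_lit 13838) (nat_lit 61011241490808) (nat_lit 14960) (nat_lit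 75337761) (nat_lit 15147) (nat_lit 44936404887163),Row.mk (nat_lit 32424) (nat_lit 14960) (nat_lit 99551945673177) (nat_lit 16269) (nat_lit 49842459) (nat_lit 16456) (nat_lit 14078580151198),Row.mk (nat_lit 32592) (nat_lit 14773) (nat_lit 30552534195670) (nat_lit 16082) (nat_lit 36756728) (nat_lit 16269) (nat_lit 92673703959691),Row.mk (nat_lit 32760) (nat_lit 16082) (nat_lit 90673729413502) (nat_lit 17578) (nat_lit 16343762) (nat_lit 17765) (nat_lit 44537326027369),Row.mk (nat_lit 32928) (nat_lit 15895) (nat_lit 19463851181360) (nat_lit 17578) (nat_lit 130715942778177) (nat_lit 0) (nat_lit 0),Row.mk (nat_lit 33096) (nat_lit 17391) (nat_lit 113249321055045) (nat_lit 17578) (nat_lit 16343762) (nat_lit 19635) (nat_lit 55626029454645),Row.mk (nat_lit 33264) (nat_lit 17204) (nat_lit 47660200119508) (nat_lit 17391) (nat_lit 36756728) (nat_lit 19448) (nat_lit 144565449513360),Row.mk (nat_lit 33432) (nat_lit 19261) (nat_lit 193959975331418)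 (nat_lit 19448) (nat_lit 49842459) (nat_lit 25806) (nat_lit 27429647017801),Row.mk (nat_lit 33600) (nat_lit 19074) (nat_lit 148465860262597) (nat_lit 19261) (nat_lit 75337761) (nat_lit 25619) (nat_lit 109348851311810),Row.mk (nat_lit 33768) (nat_lit 18887) (nat_lit 91644808032809) (nat_lit 19074) (nat_lit 107180777) (nat_lit 25432) (nat_lit 211663961272102),Row.mk (nat_lit 33936) (nat_lit 18700) (nat_lit 20676684537798) (nat_lit 18887) (nat_lit 146951936) (nat_lit 25245) (nat_lit 339453065382725),Row.mk (nat_lit 34104) (nat_lit 25058) (nat_lit 376684768154341) (nat_lit 25245) (nat_lit 157429105) (nat_lit 31603) (nat_lit 54413055012865),Row.mk (nat_lit 34272) (nat_lit 24871) (nat_lit 376684718481123) (nat_lit 25058) (nat_lit 207102324) (nat_lit 31416) (nat_lit 143050479563729),Row.mk (nat_lit 34440) (nat_lit 24684) (nat_lit 376684656440471) (nat_lit 24871) (nat_lit 269142976) (nat_lit 31229) (nat_lit 253756484555797),Row.mk (nat_lit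 34608) (nat_lit 24497) (nat_lit 376684578953194) (nat_lit 24684) (nat_lit 346630253) (nat_lit 31042) (nat_lit 392025614140791),Row.mk (nat_lit 34776) (nat_lit 24310) (nat_lit 376684482173453) (nat_lit 24497) (nat_lit 443409993) (nat_lit 30855) (nat_lit 564720421414904),Row.mk (nat_lit 34944) (nat_lit 24123) (nat_lit 376684361297893) (nat_lit 24310) (nat_lit 564285554) (nat_lit 30668) (nat_lit 780412069644382),Row.mk (nat_lit 35112) (nat_lit 23936) (nat_lit 376684210327233) (nat_lit 24123) (nat_lit 715256213) (nat_lit 30481) (nat_lit 1049805734979699),Row.mk (nat_lit 35280) (nat_lit 23749) (nat_lit 376684021768522) (nat_lit 23936) (nat_lit 903814925) (nat_lit 30294) (nat_lit 1386271924183207),Row.mk (nat_lit 35448) (nat_lit 23562) (nat_lit 376683786263240) (nat_lit 23749) (nat_lit 1139320207) (nat_lit 30107) (nat_lit 1806510077653588),Row.mk (nat_lit 35616) (nat_lit 23375) (nat_lit 376683492122824) (nat_lit 23562) (nat_lit 1433460622)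 (nat_lit 29920) (nat_lit 2331377393594746),Row.mk (nat_lit 35784) (nat_lit 23188) (nat_lit 376683124748540) (nat_lit 23375) (nat_lit 1800834906) (nat_lit 29733) (nat_lit 2986924009408373)],
[Row.mk (nat_lit 27888) (nat_lit 32912) (nat_lit 95279230949) (nat_lit 61897) (nat_lit 93690199031343) (nat_lit 0) (nat_lit 0),Row.mk (nat_lit 28056) (nat_lit 32912) (nat_lit 118999372397) (nat_lit 61897) (nat_lit 93666478889896) (nat_lit 0) (nat_lit 0),Row.mk (nat_lit 28224) (nat_lit 0) (nat_lit 718974112622) (nat_lit 561) (nat_lit 26513397619) (nat_lit 748) (nat_lit 93188599231680),Row.mk (nat_lit 28392) (nat_lit 561) (nat_lit 909886671807) (nat_lit 1122) (nat_lit 21219721658) (nat_lit 1309) (nat_lit 93039982363442),Row.mk (nat_lit 28560) (nat_lit 1122) (nat_lit 1145958592417) (nat_lit 1683) (nat_lit 16981308361) (nat_lit 1870) (nat_lit 92854363480218),Row.mk (nat_lit 28728) (nat_lit 1683) (nat_lit 1438906561283) (nat_lit 2244) (nat_lit 13587797423)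 (nat_lit 2431) (nat_lit 92622529972906),Row.mk (nat_lit 28896) (nat_lit 2244) (nat_lit 1803270128893) (nat_lit 2805) (nat_lit 10870762608) (nat_lit 2992) (nat_lit 92332975514978),Row.mk (nat_lit 29064) (nat_lit 2805) (nat_lit 2257133334228) (nat_lit 3366) (nat_lit 8695352445) (nat_lit 3553) (nat_lit 91971328982182),Row.mk (nat_lit 29232) (nat_lit 3366) (nat_lit 2823022249118) (nat_lit 3927) (nat_lit 6953597296) (nat_lit 4114) (nat_lit 91519641187011),Row.mk (nat_lit 29400) (nat_lit 3927) (nat_lit 3529022988928) (nat_lit 4488) (nat_lit 5559050627) (nat_lit 4675) (nat_lit 90955494027270),Row.mk (nat_lit 29568) (nat_lit 4488) (nat_lit 4410175678503) (nat_lit 5049) (nat_lit 4442498501) (nat_lit 5236) (nat_lit 90250887834129),Row.mk (nat_lit 29736) (nat_lit 5049) (nat_lit 5510213558491) (nat_lit 5610) (nat_lit 3548524368) (nat_lit 5797) (nat_lit 89370851696679),Row.mk (nat_lit 29904) (nat_lit 5610) (nat_lit 6883733547102) (nat_lit 6171)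 (nat_lit 2832758635) (nat_lit 6358) (nat_lit 88271707790825),Row.mk (nat_lit 30072) (nat_lit 6171) (nat_lit 8598905986327) (nat_lit 6732) (nat_lit 2259676524) (nat_lit 6919) (nat_lit 86898903567946),Row.mk (nat_lit 30240) (nat_lit 6732) (nat_lit 10740858062320) (nat_lit 7293) (nat_lit 1800834906) (nat_lit 7480) (nat_lit 85184304210832),Row.mk (nat_lit 30408) (nat_lit 7293) (nat_lit 13415898825371) (nat_lit 7854) (nat_lit 1433460622) (nat_lit 8041) (nat_lit 83042810976458),Row.mk (nat_lit 30576) (nat_lit 7854) (nat_lit 16756795505059) (nat_lit 8415) (nat_lit 1139320207) (nat_lit 8602) (nat_lit 80368137587690),Row.mk (nat_lit 30744) (nat_lit 8415) (nat_lit 20929362993846) (nat_lit 8976) (nat_lit 903814925) (nat_lit 9163) (nat_lit 77027535048418),Row.mk (nat_lit 30912) (nat_lit 8976) (nat_lit 26140693547431) (nat_lit 9537) (nat_lit 715256213) (nat_lit 9724) (nat_lit 72855203064913),Row.mk (nat_lit 31080) (nat_lit 9537) (nat_lit 32649435157114)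 (nat_lit 10098) (nat_lit 564285554) (nat_lit 10285) (nat_lit 67644061070039),Row.mk (nat_lit 31248) (nat_lit 10098) (nat_lit 40778628728843) (nat_lit 10659) (nat_lit 443409993) (nat_lit 10846) (nat_lit 61135470431016),Row.mk (nat_lit 31416) (nat_lit 10659) (nat_lit 50931741201930) (nat_lit 11220) (nat_lit 346630253) (nat_lit 11407) (nat_lit 53006397734848),Row.mk (nat_lit 31584) (nat_lit 11220) (nat_lit 63612690360825) (nat_lit 11781) (nat_lit 269142976) (nat_lit 11968) (nat_lit 42853382041501),Row.mk (nat_lit 31752) (nat_lit 11781) (nat_lit 79450855208450) (nat_lit 12529) (nat_lit 207102324) (nat_lit 12716) (nat_lit 30172510369883),Row.mk (nat_lit 31920) (nat_lit 12529) (nat_lit 99232313212272) (nat_lit 13277) (nat_lit 157429105) (nat_lit 13464) (nat_lit 14334407562909),Row.mk (nat_lit 32088) (nat_lit 12342) (nat_lit 6803025604526) (nat_lit 13090) (nat_lit 146951936) (nat_lit 13277) (nat_lit 111688799119303),Row.mk (nat_lit 32256)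 (nat_lit 13090) (nat_lit 37660890111649) (nat_lit 13838) (nat_lit 107180777) (nat_lit 14025) (nat_lit 86982297317221),Row.mk (nat_lit 32424) (nat_lit 13838) (nat_lit 76201600641732) (nat_lit 14960) (nat_lit 75337761) (nat_lit 15147) (nat_lit 56124472581257),Row.mk (nat_lit 32592) (nat_lit 14960) (nat_lit 124338004069355) (nat_lit 16269) (nat_lit 49842459) (nat_lit 16456) (nat_lit 17583793894191),Row.mk (nat_lit 32760) (nat_lit 14773) (nat_lit 38159403662311) (nat_lit 16082) (nat_lit 36756728) (nat_lit 16269) (nat_lit 115747204259511),Row.mk (nat_lit 32928) (nat_lit 16082) (nat_lit 113249321055045) (nat_lit 17578) (nat_lit 16343762) (nat_lit 17765) (nat_lit 55626029454645),Row.mk (nat_lit 33096) (nat_lit 15895) (nat_lit 24309900996330) (nat_lit 17578) (nat_lit 163261038751039) (nat_lit 0) (nat_lit 0),Row.mk (nat_lit 33264) (nat_lit 17391) (nat_lit 141445690406158) (nat_lit 17578) (nat_lit 16343762) (nat_lit 19635) (nat_lit 69475552533591),Row.mk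 (nat_lit 33432) (nat_lit 17204) (nat_lit 59526465699184) (nat_lit 17391) (nat_lit 36756728) (nat_lit 19448) (nat_lit 180558742629683),Row.mk (nat_lit 33600) (nat_lit 19261) (nat_lit 242251355631584) (nat_lit 19448) (nat_lit 49842459) (nat_lit 25806) (nat_lit 34258954332041),Row.mk (nat_lit 33768) (nat_lit 19074) (nat_lit 185430309749510) (nat_lit 19261) (nat_lit 75337761) (nat_lit 25619) (nat_lit 136574064292333),Row.mk (nat_lit 33936) (nat_lit 18887) (nat_lit 114462194182642) (nat_lit 19074) (nat_lit 107180777) (nat_lit 25432) (nat_lit 264363168402956),Row.mk (nat_lit 34104) (nat_lit 18700) (nat_lit 25824729860618) (nat_lit 18887) (nat_lit 146951936) (nat_lit 25245) (nat_lit 423968676677673),Row.mk (nat_lit 34272) (nat_lit 25058) (nat_lit 470470238028026) (nat_lit 25245) (nat_lit 157429105) (nat_lit 31603) (nat_lit 67960582583960),Row.mk (nat_lit 34440) (nat_lit 24871) (nat_lit 470470188354808) (nat_lit 25058) (nat_lit 207102324)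 (nat_lit 31416) (nat_lit 178666587576028),Row.mk (nat_lit 34608) (nat_lit 24684) (nat_lit 470470126314156) (nat_lit 24871) (nat_lit 269142976) (nat_lit 31229) (nat_lit 316935717161022),Row.mk (nat_lit 34776) (nat_lit 24497) (nat_lit 470470048826879) (nat_lit 24684) (nat_lit 346630253) (nat_lit 31042) (nat_lit 489630524435135),Row.mk (nat_lit 34944) (nat_lit 24310) (nat_lit 470469952047139) (nat_lit 24497) (nat_lit 443409993) (nat_lit 30855) (nat_lit 705322172664613),Row.mk (nat_lit 35112) (nat_lit 24123) (nat_lit 470469831171578) (nat_lit 24310) (nat_lit 564285554) (nat_lit 30668) (nat_lit 974715837999930),Row.mk (nat_lit 35280) (nat_lit 23936) (nat_lit 470469680200919) (nat_lit 24123) (nat_lit 715256213) (nat_lit 30481) (nat_lit 1311182027203438),Row.mk (nat_lit 35448) (nat_lit 23749) (nat_lit 470469491642207) (nat_lit 23936) (nat_lit 903814925) (nat_lit 30294) (nat_lit 1731420180673819),Row.mk (nat_lit 35616) (nat_lit 23562) (nat_lit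 470469256136925) (nat_lit 23749) (nat_lit 1139320207) (nat_lit 30107) (nat_lit 2256287496614977),Row.mk (nat_lit 35784) (nat_lit 23375) (nat_lit 470468961996509) (nat_lit 23562) (nat_lit 1433460622) (nat_lit 29920) (nat_lit 2911834112428604)],
[Row.mk (nat_lit 28056) (nat_lit 32912) (nat_lit 118999372397) (nat_lit 61897) (nat_lit 117016798426038) (nat_lit 0) (nat_lit 0),Row.mk (nat_lit 28224) (nat_lit 32912) (nat_lit 148625256845) (nat_lit 61897) (nat_lit 116987172541590) (nat_lit 0) (nat_lit 0),Row.mk (nat_lit 28392) (nat_lit 0) (nat_lit 904592995846) (nat_lit 561) (nat_lit 26513397619) (nat_lit 748) (nat_lit 116390301899585),Row.mk (nat_lit 28560) (nat_lit 561) (nat_lit 1141720179120) (nat_lit 1122) (nat_lit 21219721658) (nat_lit 1309) (nat_lit 116204683016361),Row.mk (nat_lit 28728) (nat_lit 1122) (nat_lit 1435513050345) (nat_lit 1683) (nat_lit 16981308361) (nat_lit 1870) (nat_lit 115972849509048),Row.mk (nat_lit 28896) (nat_lit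 1683) (nat_lit 1800553094079) (nat_lit 2244) (nat_lit 13587797423) (nat_lit 2431) (nat_lit 115683295051121),Row.mk (nat_lit 29064) (nat_lit 2244) (nat_lit 2254957924065) (nat_lit 2805) (nat_lit 10870762608) (nat_lit 2992) (nat_lit 115321648518325),Row.mk (nat_lit 29232) (nat_lit 2805) (nat_lit 2821280493969) (nat_lit 3366) (nat_lit 8695352445) (nat_lit 3553) (nat_lit 114869960723153),Row.mk (nat_lit 29400) (nat_lit 3366) (nat_lit 3527628442258) (nat_lit 3927) (nat_lit 6953597296) (nat_lit 4114) (nat_lit 114305813563412),Row.mk (nat_lit 29568) (nat_lit 3927) (nat_lit 4409059126378) (nat_lit 4488) (nat_lit 5559050627) (nat_lit 4675) (nat_lit 113601207370272),Row.mk (nat_lit 29736) (nat_lit 4488) (nat_lit 5509319584358) (nat_lit 5049) (nat_lit 4442498501) (nat_lit 5236) (nat_lit 112721171232822),Row.mk (nat_lit 29904) (nat_lit 5049) (nat_lit 6883017781369) (nat_lit 5610) (nat_lit 3548524368) (nat_lit 5797) (nat_lit 111622027326968),Row.mk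 (nat_lit 30072) (nat_lit 5610) (nat_lit 8598332904216) (nat_lit 6171) (nat_lit 2832758635) (nat_lit 6358) (nat_lit 110249223104089),Row.mk (nat_lit 30240) (nat_lit 6171) (nat_lit 10740399220702) (nat_lit 6732) (nat_lit 2259676524) (nat_lit 6919) (nat_lit 108534623746975),Row.mk (nat_lit 30408) (nat_lit 6732) (nat_lit 13415531451088) (nat_lit 7293) (nat_lit 1800834906) (nat_lit 7480) (nat_lit 106393130512601),Row.mk (nat_lit 30576) (nat_lit 7293) (nat_lit 16756501364643) (nat_lit 7854) (nat_lit 1433460622) (nat_lit 8041) (nat_lit 103718457123833),Row.mk (nat_lit 30744) (nat_lit 7854) (nat_lit 20929127488564) (nat_lit 8415) (nat_lit 1139320207) (nat_lit 8602) (nat_lit 100377854584561),Row.mk (nat_lit 30912) (nat_lit 8415) (nat_lit 26140504988720) (nat_lit 8976) (nat_lit 903814925) (nat_lit 9163) (nat_lit 96205522601056),Row.mk (nat_lit 31080) (nat_lit 8976) (nat_lit 32649284186455) (nat_lit 9537) (nat_lit 715256213) (nat_lit 9724) (nat_lit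 90994380606182),Row.mk (nat_lit 31248) (nat_lit 9537) (nat_lit 40778507853282) (nat_lit 10098) (nat_lit 564285554) (nat_lit 10285) (nat_lit 84485789967158),Row.mk (nat_lit 31416) (nat_lit 10098) (nat_lit 50931644422190) (nat_lit 10659) (nat_lit 443409993) (nat_lit 10846) (nat_lit 76356717270991),Row.mk (nat_lit 31584) (nat_lit 10659) (nat_lit 63612612873548) (nat_lit 11220) (nat_lit 346630253) (nat_lit 11407) (nat_lit 66203701577643),Row.mk (nat_lit 31752) (nat_lit 11220) (nat_lit 79450793167799) (nat_lit 11781) (nat_lit 269142976) (nat_lit 11968) (nat_lit 53522829906025),Row.mk (nat_lit 31920) (nat_lit 11781) (nat_lit 99232263539053) (nat_lit 12529) (nat_lit 207102324) (nat_lit 12716) (nat_lit 37684727099052),Row.mk (nat_lit 32088) (nat_lit 12529) (nat_lit 123938815014354) (nat_lit 13277) (nat_lit 157429105) (nat_lit 13464) (nat_lit 17903318768449),Row.mk (nat_lit 32256) (nat_lit 12342) (nat_lit 8496864538407) (nat_lit 13090) (nat_lit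 146951936) (nat_lit 13277) (nat_lit 139496602655447),Row.mk (nat_lit 32424) (nat_lit 13090) (nat_lit 47037582996633) (nat_lit 13838) (nat_lit 107180777) (nat_lit 14025) (nat_lit 108638777919483),Row.mk (nat_lit 32592) (nat_lit 13838) (nat_lit 95173992771971) (nat_lit 14960) (nat_lit 75337761) (nat_lit 15147) (nat_lit 70098099232416),Row.mk (nat_lit 32760) (nat_lit 14960) (nat_lit 155295193072139) (nat_lit 16269) (nat_lit 49842459) (nat_lit 16456) (nat_lit 21961721300095),Row.mk (nat_lit 32928) (nat_lit 14773) (nat_lit 47660200119508) (nat_lit 16082) (nat_lit 36756728) (nat_lit 16269) (nat_lit 144565449513360),Row.mk (nat_lit 33096) (nat_lit 16082) (nat_lit 141445690406158) (nat_lit 17578) (nat_lit 16343762) (nat_lit 17765) (nat_lit 69475552533591),Row.mk (nat_lit 33264) (nat_lit 15895) (nat_lit 30362500310066) (nat_lit 17578) (nat_lit 203909078509588) (nat_lit 0) (nat_lit 0),Row.mk (nat_lit 33432) (nat_lit 17391) (nat_lit 176662275521977)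 (nat_lit 17578) (nat_lit 16343762) (nat_lit 19635) (nat_lit 86773272755998),Row.mk (nat_lit 33600) (nat_lit 17204) (nat_lit 74347145148720) (nat_lit 17391) (nat_lit 36756728) (nat_lit 19448) (nat_lit 225513497436779),Row.mk (nat_lit 33768) (nat_lit 19261) (nat_lit 302566124654640) (nat_lit 19448) (nat_lit 49842459) (nat_lit 25806) (nat_lit 42788594418647),Row.mk (nat_lit 33936) (nat_lit 19074) (nat_lit 231598015435486) (nat_lit 19261) (nat_lit 75337761) (nat_lit 25619) (nat_lit 170577698529271),Row.mk (nat_lit 34104) (nat_lit 18887) (nat_lit 142960559041605) (nat_lit 19074) (nat_lit 107180777) (nat_lit 25432) (nat_lit 330183206803988),Row.mk (nat_lit 34272) (nat_lit 18700) (nat_lit 32254514278379) (nat_lit 18887) (nat_lit 146951936) (nat_lit 25245) (nat_lit 529526636346920),Row.mk (nat_lit 34440) (nat_lit 25058) (nat_lit 587606027437854) (nat_lit 25245) (nat_lit 157429105) (nat_lit 31603) (nat_lit 84881117702342),Row.mk (nat_lit 34608)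 (nat_lit 24871) (nat_lit 587605977764636) (nat_lit 25058) (nat_lit 207102324) (nat_lit 31416) (nat_lit 223150247287337),Row.mk (nat_lit 34776) (nat_lit 24684) (nat_lit 587605915723984) (nat_lit 24871) (nat_lit 269142976) (nat_lit 31229) (nat_lit 395845054561450),Row.mk (nat_lit 34944) (nat_lit 24497) (nat_lit 587605838236707) (nat_lit 24684) (nat_lit 346630253) (nat_lit 31042) (nat_lit 611536702790928),Row.mk (nat_lit 35112) (nat_lit 24310) (nat_lit 587605741456966) (nat_lit 24497) (nat_lit 443409993) (nat_lit 30855) (nat_lit 880930368126244),Row.mk (nat_lit 35280) (nat_lit 24123) (nat_lit 587605620581406) (nat_lit 24310) (nat_lit 564285554) (nat_lit 30668) (nat_lit 1217396557329753),Row.mk (nat_lit 35448) (nat_lit 23936) (nat_lit 587605469610746) (nat_lit 24123) (nat_lit 715256213) (nat_lit 30481) (nat_lit 1637634710800133),Row.mk (nat_lit 35616) (nat_lit 23749) (nat_lit 587605281052035) (nat_lit 23936) (nat_lit 903814925) (nat_lit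 30294) (nat_lit 2162502026741292),Row.mk (nat_lit 35784) (nat_lit 23562) (nat_lit 587605045546753) (nat_lit 23749) (nat_lit 1139320207) (nat_lit 30107) (nat_lit 2818048642554919)],
[Row.mk (nat_lit 28224) (nat_lit 32912) (nat_lit 148625256845) (nat_lit 61897) (nat_lit 146151158343673) (nat_lit 0) (nat_lit 0),Row.mk (nat_lit 28392) (nat_lit 32912) (nat_lit 185627271831) (nat_lit 61897) (nat_lit 146114156328686) (nat_lit 0) (nat_lit 0),Row.mk (nat_lit 28560) (nat_lit 0) (nat_lit 1136426503159) (nat_lit 561) (nat_lit 26513397619) (nat_lit 748) (nat_lit 145368668818444),Row.mk (nat_lit 28728) (nat_lit 561) (nat_lit 1431274637048) (nat_lit 1122) (nat_lit 21219721658) (nat_lit 1309) (nat_lit 145136835311131),Row.mk (nat_lit 28896) (nat_lit 1122) (nat_lit 1797159583141) (nat_lit 1683) (nat_lit 16981308361) (nat_lit 1870) (nat_lit 144847280853204),Row.mk (nat_lit 29064) (nat_lit 1683) (nat_lit 2252240889250) (nat_lit 2244) (nat_lit 13587797423)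 (nat_lit 2431) (nat_lit 144485634320408),Row.mk (nat_lit 29232) (nat_lit 2244) (nat_lit 2819105083806) (nat_lit 2805) (nat_lit 10870762608) (nat_lit 2992) (nat_lit 144033946525236),Row.mk (nat_lit 29400) (nat_lit 2805) (nat_lit 3525886687109) (nat_lit 3366) (nat_lit 8695352445) (nat_lit 3553) (nat_lit 143469799365495),Row.mk (nat_lit 29568) (nat_lit 3366) (nat_lit 4407664579708) (nat_lit 3927) (nat_lit 6953597296) (nat_lit 4114) (nat_lit 142765193172355),Row.mk (nat_lit 29736) (nat_lit 3927) (nat_lit 5508203032232) (nat_lit 4488) (nat_lit 5559050627) (nat_lit 4675) (nat_lit 141885157034905),Row.mk (nat_lit 29904) (nat_lit 4488) (nat_lit 6882123807237) (nat_lit 5049) (nat_lit 4442498501) (nat_lit 5236) (nat_lit 140786013129051),Row.mk (nat_lit 30072) (nat_lit 5049) (nat_lit 8597617138483) (nat_lit 5610) (nat_lit 3548524368) (nat_lit 5797) (nat_lit 139413208906172),Row.mk (nat_lit 30240) (nat_lit 5610) (nat_lit 10739826138590) (nat_lit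 6171) (nat_lit 2832758635) (nat_lit 6358) (nat_lit 137698609549058),Row.mk (nat_lit 30408) (nat_lit 6171) (nat_lit 13415072609470) (nat_lit 6732) (nat_lit 2259676524) (nat_lit 6919) (nat_lit 135557116314683),Row.mk (nat_lit 30576) (nat_lit 6732) (nat_lit 16756133990359) (nat_lit 7293) (nat_lit 1800834906) (nat_lit 7480) (nat_lit 132882442925915),Row.mk (nat_lit 30744) (nat_lit 7293) (nat_lit 20928833348148) (nat_lit 7854) (nat_lit 1433460622) (nat_lit 8041) (nat_lit 129541840386644),Row.mk (nat_lit 30912) (nat_lit 7854) (nat_lit 26140269483438) (nat_lit 8415) (nat_lit 1139320207) (nat_lit 8602) (nat_lit 125369508403139),Row.mk (nat_lit 31080) (nat_lit 8415) (nat_lit 32649095627743) (nat_lit 8976) (nat_lit 903814925) (nat_lit 9163) (nat_lit 120158366408265),Row.mk (nat_lit 31248) (nat_lit 8976) (nat_lit 40778356882623) (nat_lit 9537) (nat_lit 715256213) (nat_lit 9724) (nat_lit 113649775769241),Row.mk (nat_lit 31416) (nat_lit 9537)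 (nat_lit 50931523546629) (nat_lit 10098) (nat_lit 564285554) (nat_lit 10285) (nat_lit 105520703073074),Row.mk (nat_lit 31584) (nat_lit 10098) (nat_lit 63612516093808) (nat_lit 10659) (nat_lit 443409993) (nat_lit 10846) (nat_lit 95367687379726),Row.mk (nat_lit 31752) (nat_lit 10659) (nat_lit 79450715680521) (nat_lit 11220) (nat_lit 346630253) (nat_lit 11407) (nat_lit 82686815708108),Row.mk (nat_lit 31920) (nat_lit 11220) (nat_lit 99232201498401) (nat_lit 11781) (nat_lit 269142976) (nat_lit 11968) (nat_lit 66848712901135),Row.mk (nat_lit 32088) (nat_lit 11781) (nat_lit 123938765341135) (nat_lit 12529) (nat_lit 207102324) (nat_lit 12716) (nat_lit 47067304570532),Row.mk (nat_lit 32256) (nat_lit 12529) (nat_lit 154796639750318) (nat_lit 13277) (nat_lit 157429105) (nat_lit 13464) (nat_lit 22360802768450),Row.mk (nat_lit 32424) (nat_lit 12342) (nat_lit 10612428504984) (nat_lit 13090) (nat_lit 146951936) (nat_lit 13277) (nat_lit 174227878442055),Row.mk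 (nat_lit 32592) (nat_lit 13090) (nat_lit 58748846208465) (nat_lit 13838) (nat_lit 107180777) (nat_lit 14025) (nat_lit 135687199754989),Row.mk (nat_lit 32760) (nat_lit 13838) (nat_lit 118870052856348) (nat_lit 14960) (nat_lit 75337761) (nat_lit 15147) (nat_lit 87550821822667),Row.mk (nat_lit 32928) (nat_lit 14960) (nat_lit 193959975331418) (nat_lit 16269) (nat_lit 49842459) (nat_lit 16456) (nat_lit 27429647017801),Row.mk (nat_lit 33096) (nat_lit 14773) (nat_lit 59526465699184) (nat_lit 16082) (nat_lit 36756728) (nat_lit 16269) (nat_lit 180558742629683),Row.mk (nat_lit 33264) (nat_lit 16082) (nat_lit 176662275521977) (nat_lit 17578) (nat_lit 16343762) (nat_lit 17765) (nat_lit 86773272755998),Row.mk (nat_lit 33432) (nat_lit 15895) (nat_lit 37922050841196) (nat_lit 17578) (nat_lit 254677499582624) (nat_lit 0) (nat_lit 0),Row.mk (nat_lit 33600) (nat_lit 17391) (nat_lit 220646940773596) (nat_lit 17578) (nat_lit 16343762) (nat_lit 19635)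 (nat_lit 108377708026951),Row.mk (nat_lit 33768) (nat_lit 17204) (nat_lit 92857816250007) (nat_lit 17391) (nat_lit 36756728) (nat_lit 19448) (nat_lit 281660901711095),Row.mk (nat_lit 33936) (nat_lit 19261) (nat_lit 377897816142699) (nat_lit 19448) (nat_lit 49842459) (nat_lit 25806) (nat_lit 53441909119443),Row.mk (nat_lit 34104) (nat_lit 19074) (nat_lit 289260366096533) (nat_lit 19261) (nat_lit 75337761) (nat_lit 25619) (nat_lit 213047417394160),Row.mk (nat_lit 34272) (nat_lit 18887) (nat_lit 178554329261449) (nat_lit 19074) (nat_lit 107180777) (nat_lit 25432) (nat_lit 412390846937092),Row.mk (nat_lit 34440) (nat_lit 18700) (nat_lit 40285159905295) (nat_lit 18887) (nat_lit 146951936) (nat_lit 25245) (nat_lit 661365981514154),Row.mk (nat_lit 34608) (nat_lit 25058) (nat_lit 733905802649765) (nat_lit 25245) (nat_lit 157429105) (nat_lit 31603) (nat_lit 106014457877509),Row.mk (nat_lit 34776) (nat_lit 24871) (nat_lit 733905752976546) (nat_lit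 25058) (nat_lit 207102324) (nat_lit 31416) (nat_lit 278709265151622),Row.mk (nat_lit 34944) (nat_lit 24684) (nat_lit 733905690935895) (nat_lit 24871) (nat_lit 269142976) (nat_lit 31229) (nat_lit 494400913381100),Row.mk (nat_lit 35112) (nat_lit 24497) (nat_lit 733905613448617) (nat_lit 24684) (nat_lit 346630253) (nat_lit 31042) (nat_lit 763794578716417),Row.mk (nat_lit 35280) (nat_lit 24310) (nat_lit 733905516668877) (nat_lit 24497) (nat_lit 443409993) (nat_lit 30855) (nat_lit 1100260767919925),Row.mk (nat_lit 35448) (nat_lit 24123) (nat_lit 733905395793316) (nat_lit 24310) (nat_lit 564285554) (nat_lit 30668) (nat_lit 1520498921390306),Row.mk (nat_lit 35616) (nat_lit 23936) (nat_lit 733905244822657) (nat_lit 24123) (nat_lit 715256213) (nat_lit 30481) (nat_lit 2045366237331464),Row.mk (nat_lit 35784) (nat_lit 23749) (nat_lit 733905056263946) (nat_lit 23936) (nat_lit 903814925) (nat_lit 30294) (nat_lit 2700912853145091)],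
[Row.mk (nat_lit 28392) (nat_lit 32912) (nat_lit 185627271831) (nat_lit 61897) (nat_lit 182539271049176) (nat_lit 0) (nat_lit 0),Row.mk (nat_lit 28560) (nat_lit 32912) (nat_lit 231841895920) (nat_lit 61897) (nat_lit 182493056425087) (nat_lit 0) (nat_lit 0),Row.mk (nat_lit 28728) (nat_lit 0) (nat_lit 1425980961086) (nat_lit 561) (nat_lit 26513397619) (nat_lit 748) (nat_lit 181561950031621),Row.mk (nat_lit 28896) (nat_lit 561) (nat_lit 1792921169843) (nat_lit 1122) (nat_lit 21219721658) (nat_lit 1309) (nat_lit 181272395573693),Row.mk (nat_lit 29064) (nat_lit 1122) (nat_lit 2248847378312) (nat_lit 1683) (nat_lit 16981308361) (nat_lit 1870) (nat_lit 180910749040897),Row.mk (nat_lit 29232) (nat_lit 1683) (nat_lit 2816388048991) (nat_lit 2244) (nat_lit 13587797423) (nat_lit 2431) (nat_lit 180459061245726),Row.mk (nat_lit 29400) (nat_lit 2244) (nat_lit 3523711276946) (nat_lit 2805) (nat_lit 10870762608) (nat_lit 2992) (nat_lit 179894914085984),Row.mk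 (nat_lit 29568) (nat_lit 2805) (nat_lit 4405922824559) (nat_lit 3366) (nat_lit 8695352445) (nat_lit 3553) (nat_lit 179190307892844),Row.mk (nat_lit 29736) (nat_lit 3366) (nat_lit 5506808485562) (nat_lit 3927) (nat_lit 6953597296) (nat_lit 4114) (nat_lit 178310271755394),Row.mk (nat_lit 29904) (nat_lit 3927) (nat_lit 6881007255111) (nat_lit 4488) (nat_lit 5559050627) (nat_lit 4675) (nat_lit 177211127849540),Row.mk (nat_lit 30072) (nat_lit 4488) (nat_lit 8596723164350) (nat_lit 5049) (nat_lit 4442498501) (nat_lit 5236) (nat_lit 175838323626661),Row.mk (nat_lit 30240) (nat_lit 5049) (nat_lit 10739110372858) (nat_lit 5610) (nat_lit 3548524368) (nat_lit 5797) (nat_lit 174123724269547),Row.mk (nat_lit 30408) (nat_lit 5610) (nat_lit 13414499527358) (nat_lit 6171) (nat_lit 2832758635) (nat_lit 6358) (nat_lit 171982231035173),Row.mk (nat_lit 30576) (nat_lit 6171) (nat_lit 16755675148741) (nat_lit 6732) (nat_lit 2259676524) (nat_lit 6919) (nat_lit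 169307557646405),Row.mk (nat_lit 30744) (nat_lit 6732) (nat_lit 20928465973864) (nat_lit 7293) (nat_lit 1800834906) (nat_lit 7480) (nat_lit 165966955107133),Row.mk (nat_lit 30912) (nat_lit 7293) (nat_lit 26139975343022) (nat_lit 7854) (nat_lit 1433460622) (nat_lit 8041) (nat_lit 161794623123628),Row.mk (nat_lit 31080) (nat_lit 7854) (nat_lit 32648860122461) (nat_lit 8415) (nat_lit 1139320207) (nat_lit 8602) (nat_lit 156583481128754),Row.mk (nat_lit 31248) (nat_lit 8415) (nat_lit 40778168323911) (nat_lit 8976) (nat_lit 903814925) (nat_lit 9163) (nat_lit 150074890489731),Row.mk (nat_lit 31416) (nat_lit 8976) (nat_lit 50931372575970) (nat_lit 9537) (nat_lit 715256213) (nat_lit 9724) (nat_lit 141945817793563),Row.mk (nat_lit 31584) (nat_lit 9537) (nat_lit 63612395218247) (nat_lit 10098) (nat_lit 564285554) (nat_lit 10285) (nat_lit 131792802100216),Row.mk (nat_lit 31752) (nat_lit 10098) (nat_lit 79450618900781) (nat_lit 10659) (nat_lit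 443409993) (nat_lit 10846) (nat_lit 119111930428597),Row.mk (nat_lit 31920) (nat_lit 10659) (nat_lit 99232124011124) (nat_lit 11220) (nat_lit 346630253) (nat_lit 11407) (nat_lit 103273827621624),Row.mk (nat_lit 32088) (nat_lit 11220) (nat_lit 123938703300483) (nat_lit 11781) (nat_lit 269142976) (nat_lit 11968) (nat_lit 83492419291021),Row.mk (nat_lit 32256) (nat_lit 11781) (nat_lit 154796590077099) (nat_lit 12529) (nat_lit 207102324) (nat_lit 12716) (nat_lit 58785917488939),Row.mk (nat_lit 32424) (nat_lit 12529) (nat_lit 193337318437384) (nat_lit 13277) (nat_lit 157429105) (nat_lit 13464) (nat_lit 27928092752975),Row.mk (nat_lit 32592) (nat_lit 12342) (nat_lit 13254716863786) (nat_lit 13090) (nat_lit 146951936) (nat_lit 13277) (nat_lit 217606404048998),Row.mk (nat_lit 32760) (nat_lit 13090) (nat_lit 73375931439812) (nat_lit 13838) (nat_lit 107180777) (nat_lit 14025) (nat_lit 169470026116676),Row.mk (nat_lit 32928) (nat_lit 13838)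 (nat_lit 148465860262597) (nat_lit 14960) (nat_lit 75337761) (nat_lit 15147) (nat_lit 109348851311810),Row.mk (nat_lit 33096) (nat_lit 14960) (nat_lit 242251355631584) (nat_lit 16269) (nat_lit 49842459) (nat_lit 16456) (nat_lit 34258954332041),Row.mk (nat_lit 33264) (nat_lit 14773) (nat_lit 74347145148720) (nat_lit 16082) (nat_lit 36756728) (nat_lit 16269) (nat_lit 225513497436779),Row.mk (nat_lit 33432) (nat_lit 16082) (nat_lit 220646940773596) (nat_lit 17578) (nat_lit 16343762) (nat_lit 17765) (nat_lit 108377708026951),Row.mk (nat_lit 33600) (nat_lit 15895) (nat_lit 47363747089452) (nat_lit 17578) (nat_lit 318086032775347) (nat_lit 0) (nat_lit 0),Row.mk (nat_lit 33768) (nat_lit 17391) (nat_lit 275582726595372) (nat_lit 17578) (nat_lit 16343762) (nat_lit 19635) (nat_lit 135361126499184),Row.mk (nat_lit 33936) (nat_lit 17204) (nat_lit 115977197907690) (nat_lit 17391) (nat_lit 36756728) (nat_lit 19448) (nat_lit 351787655160672),Row.mk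 (nat_lit 34104) (nat_lit 19261) (nat_lit 471985281524234) (nat_lit 19448) (nat_lit 49842459) (nat_lit 25806) (nat_lit 66747642182249),Row.mk (nat_lit 34272) (nat_lit 19074) (nat_lit 361279251036865) (nat_lit 19261) (nat_lit 75337761) (nat_lit 25619) (nat_lit 266091071725181),Row.mk (nat_lit 34440) (nat_lit 18887) (nat_lit 223010089608854) (nat_lit 19074) (nat_lit 107180777) (nat_lit 25432) (nat_lit 515066206302243),Row.mk (nat_lit 34608) (nat_lit 18700) (nat_lit 50315242563582) (nat_lit 18887) (nat_lit 146951936) (nat_lit 25245) (nat_lit 826030143161350),Row.mk (nat_lit 34776) (nat_lit 25058) (nat_lit 916630692582165) (nat_lit 25245) (nat_lit 157429105) (nat_lit 31603) (nat_lit 132409489939711),Row.mk (nat_lit 34944) (nat_lit 24871) (nat_lit 916630642908946) (nat_lit 25058) (nat_lit 207102324) (nat_lit 31416) (nat_lit 348101138169190),Row.mk (nat_lit 35112) (nat_lit 24684) (nat_lit 916630580868295) (nat_lit 24871) (nat_lit 269142976)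 (nat_lit 31229) (nat_lit 617494803504506),Row.mk (nat_lit 35280) (nat_lit 24497) (nat_lit 916630503381017) (nat_lit 24684) (nat_lit 346630253) (nat_lit 31042) (nat_lit 953960992708014),Row.mk (nat_lit 35448) (nat_lit 24310) (nat_lit 916630406601277) (nat_lit 24497) (nat_lit 443409993) (nat_lit 30855) (nat_lit 1374199146178395),Row.mk (nat_lit 35616) (nat_lit 24123) (nat_lit 916630285725717) (nat_lit 24310) (nat_lit 564285554) (nat_lit 30668) (nat_lit 1899066462119553),Row.mk (nat_lit 35784) (nat_lit 23936) (nat_lit 916630134755057) (nat_lit 24123) (nat_lit 715256213) (nat_lit 30481) (nat_lit 2554613077933180)],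
[Row.mk (nat_lit 28728) (nat_lit 32912) (nat_lit 289562846535) (nat_lit 61897) (nat_lit 227929425047992) (nat_lit 0) (nat_lit 0),Row.mk (nat_lit 28896) (nat_lit 0) (nat_lit 1787627493882) (nat_lit 561) (nat_lit 26513397619) (nat_lit 748) (nat_lit 226766485147213),Row.mk (nat_lit 29064) (nat_lit 561) (nat_lit 2244608965015) (nat_lit 1122) (nat_lit 21219721658) (nat_lit 1309) (nat_lit 226404838614417),Row.mk (nat_lit 29232) (nat_lit 1122) (nat_lit 2812994538053) (nat_lit 1683) (nat_lit 16981308361) (nat_lit 1870) (nat_lit 225953150819245),Row.mk (nat_lit 29400) (nat_lit 1683) (nat_lit 3520994242132) (nat_lit 2244) (nat_lit 13587797423) (nat_lit 2431) (nat_lit 225389003659504),Row.mk (nat_lit 29568) (nat_lit 2244) (nat_lit 4403747414396) (nat_lit 2805) (nat_lit 10870762608) (nat_lit 2992) (nat_lit 224684397466364),Row.mk (nat_lit 29736) (nat_lit 2805) (nat_lit 5505066730413) (nat_lit 3366) (nat_lit 8695352445) (nat_lit 3553) (nat_lit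 223804361328914),Row.mk (nat_lit 29904) (nat_lit 3366) (nat_lit 6879612708441) (nat_lit 3927) (nat_lit 6953597296) (nat_lit 4114) (nat_lit 222705217423060),Row.mk (nat_lit 30072) (nat_lit 3927) (nat_lit 8595606612225) (nat_lit 4488) (nat_lit 5559050627) (nat_lit 4675) (nat_lit 221332413200181),Row.mk (nat_lit 30240) (nat_lit 4488) (nat_lit 10738216398725) (nat_lit 5049) (nat_lit 4442498501) (nat_lit 5236) (nat_lit 219617813843067),Row.mk (nat_lit 30408) (nat_lit 5049) (nat_lit 13413783761626) (nat_lit 5610) (nat_lit 3548524368) (nat_lit 5797) (nat_lit 217476320608693),Row.mk (nat_lit 30576) (nat_lit 5610) (nat_lit 16755102066630) (nat_lit 6171) (nat_lit 2832758635) (nat_lit 6358) (nat_lit 214801647219925),Row.mk (nat_lit 30744) (nat_lit 6171) (nat_lit 20928007132247) (nat_lit 6732) (nat_lit 2259676524) (nat_lit 6919) (nat_lit 211461044680653),Row.mk (nat_lit 30912) (nat_lit 6732) (nat_lit 26139607968738) (nat_lit 7293) (nat_lit 1800834906)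 (nat_lit 7480) (nat_lit 207288712697148),Row.mk (nat_lit 31080) (nat_lit 7293) (nat_lit 32648565982046) (nat_lit 7854) (nat_lit 1433460622) (nat_lit 8041) (nat_lit 202077570702274),Row.mk (nat_lit 31248) (nat_lit 7854) (nat_lit 40777932818629) (nat_lit 8415) (nat_lit 1139320207) (nat_lit 8602) (nat_lit 195568980063250),Row.mk (nat_lit 31416) (nat_lit 8415) (nat_lit 50931184017258) (nat_lit 8976) (nat_lit 903814925) (nat_lit 9163) (nat_lit 187439907367083),Row.mk (nat_lit 31584) (nat_lit 8976) (nat_lit 63612244247588) (nat_lit 9537) (nat_lit 715256213) (nat_lit 9724) (nat_lit 177286891673735),Row.mk (nat_lit 31752) (nat_lit 9537) (nat_lit 79450498025220) (nat_lit 10098) (nat_lit 564285554) (nat_lit 10285) (nat_lit 164606020002117),Row.mk (nat_lit 31920) (nat_lit 10098) (nat_lit 99232027231384) (nat_lit 10659) (nat_lit 443409993) (nat_lit 10846) (nat_lit 148767917195144),Row.mk (nat_lit 32088) (nat_lit 10659) (nat_lit 123938625813206)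 (nat_lit 11220) (nat_lit 346630253) (nat_lit 11407) (nat_lit 128986508864541),Row.mk (nat_lit 32256) (nat_lit 11220) (nat_lit 154796528036447) (nat_lit 11781) (nat_lit 269142976) (nat_lit 11968) (nat_lit 104280007062459),Row.mk (nat_lit 32424) (nat_lit 11781) (nat_lit 193337268764166) (nat_lit 12529) (nat_lit 207102324) (nat_lit 12716) (nat_lit 73422182326495),Row.mk (nat_lit 32592) (nat_lit 12529) (nat_lit 241473696369706) (nat_lit 13277) (nat_lit 157429105) (nat_lit 13464) (nat_lit 34881503639429),Row.mk (nat_lit 32760) (nat_lit 12342) (nat_lit 16554871281880) (nat_lit 13090) (nat_lit 146951936) (nat_lit 13277) (nat_lit 271785136076968),Row.mk (nat_lit 32928) (nat_lit 13090) (nat_lit 91644808032809) (nat_lit 13838) (nat_lit 107180777) (nat_lit 14025) (nat_lit 211663961272102),Row.mk (nat_lit 33096) (nat_lit 13838) (nat_lit 185430309749510) (nat_lit 14960) (nat_lit 75337761) (nat_lit 15147) (nat_lit 136574064292333),Row.mk (nat_lit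 33264) (nat_lit 14960) (nat_lit 302566124654640) (nat_lit 16269) (nat_lit 49842459) (nat_lit 16456) (nat_lit 42788594418647),Row.mk (nat_lit 33432) (nat_lit 14773) (nat_lit 92857816250007) (nat_lit 16082) (nat_lit 36756728) (nat_lit 16269) (nat_lit 281660901711095),Row.mk (nat_lit 33600) (nat_lit 16082) (nat_lit 275582726595372) (nat_lit 17578) (nat_lit 16343762) (nat_lit 17765) (nat_lit 135361126499184),Row.mk (nat_lit 33768) (nat_lit 15895) (nat_lit 59156197933884) (nat_lit 17578) (nat_lit 397281761077955) (nat_lit 0) (nat_lit 0),Row.mk (nat_lit 33936) (nat_lit 17391) (nat_lit 344196197826576) (nat_lit 17578) (nat_lit 16343762) (nat_lit 19635) (nat_lit 169062765228272),Row.mk (nat_lit 34104) (nat_lit 17204) (nat_lit 144852747870678) (nat_lit 17391) (nat_lit 36756728) (nat_lit 19448) (nat_lit 439374278495056),Row.mk (nat_lit 34272) (nat_lit 19261) (nat_lit 589498256038086) (nat_lit 19448) (nat_lit 49842459) (nat_lit 25806) (nat_lit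 83366181792781),Row.mk (nat_lit 34440) (nat_lit 19074) (nat_lit 451229100957790) (nat_lit 19261) (nat_lit 75337761) (nat_lit 25619) (nat_lit 332341316369843),Row.mk (nat_lit 34608) (nat_lit 18887) (nat_lit 278534261840661) (nat_lit 19074) (nat_lit 107180777) (nat_lit 25432) (nat_lit 643305253228950),Row.mk (nat_lit 34776) (nat_lit 18700) (nat_lit 62842573840023) (nat_lit 18887) (nat_lit 146951936) (nat_lit 25245) (nat_lit 1031691708732541),Row.mk (nat_lit 34944) (nat_lit 25058) (nat_lit 1144849672088085) (nat_lit 25245) (nat_lit 157429105) (nat_lit 31603) (nat_lit 165376248236790),Row.mk (nat_lit 35112) (nat_lit 24871) (nat_lit 1144849622414866) (nat_lit 25058) (nat_lit 207102324) (nat_lit 31416) (nat_lit 434769913572106),Row.mk (nat_lit 35280) (nat_lit 24684) (nat_lit 1144849560374214) (nat_lit 24871) (nat_lit 269142976) (nat_lit 31229) (nat_lit 771236102775614),Row.mk (nat_lit 35448) (nat_lit 24497) (nat_lit 1144849482886937) (nat_lit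 24684) (nat_lit 346630253) (nat_lit 31042) (nat_lit 1191474256245995),Row.mk (nat_lit 35616) (nat_lit 24310) (nat_lit 1144849386107197) (nat_lit 24497) (nat_lit 443409993) (nat_lit 30855) (nat_lit 1716341572187153),Row.mk (nat_lit 35784) (nat_lit 24123) (nat_lit 1144849265231636) (nat_lit 24310) (nat_lit 564285554) (nat_lit 30668) (nat_lit 2371888188000780)],
[Row.mk (nat_lit 28896) (nat_lit 32912) (nat_lit 361654921403) (nat_lit 61897) (nat_lit 284678353359895) (nat_lit 0) (nat_lit 0),Row.mk (nat_lit 29064) (nat_lit 0) (nat_lit 2239315289054) (nat_lit 561) (nat_lit 26513397619) (nat_lit 748) (nat_lit 283225859001189),Row.mk (nat_lit 29232) (nat_lit 561) (nat_lit 2808756124756) (nat_lit 1122) (nat_lit 21219721658) (nat_lit 1309) (nat_lit 282774171206017),Row.mk (nat_lit 29400) (nat_lit 1122) (nat_lit 3517600731194) (nat_lit 1683) (nat_lit 16981308361) (nat_lit 1870) (nat_lit 282210024046276),Row.mk (nat_lit 29568) (nat_lit 1683) (nat_lit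 4401030379582) (nat_lit 2244) (nat_lit 13587797423) (nat_lit 2431) (nat_lit 281505417853136),Row.mk (nat_lit 29736) (nat_lit 2244) (nat_lit 5502891320250) (nat_lit 2805) (nat_lit 10870762608) (nat_lit 2992) (nat_lit 280625381715686),Row.mk (nat_lit 29904) (nat_lit 2805) (nat_lit 6877870953292) (nat_lit 3366) (nat_lit 8695352445) (nat_lit 3553) (nat_lit 279526237809832),Row.mk (nat_lit 30072) (nat_lit 3366) (nat_lit 8594212065555) (nat_lit 3927) (nat_lit 6953597296) (nat_lit 4114) (nat_lit 278153433586953),Row.mk (nat_lit 30240) (nat_lit 3927) (nat_lit 10737099846599) (nat_lit 4488) (nat_lit 5559050627) (nat_lit 4675) (nat_lit 276438834229839),Row.mk (nat_lit 30408) (nat_lit 4488) (nat_lit 13412889787493) (nat_lit 5049) (nat_lit 4442498501) (nat_lit 5236) (nat_lit 274297340995465),Row.mk (nat_lit 30576) (nat_lit 5049) (nat_lit 16754386300897) (nat_lit 5610) (nat_lit 3548524368) (nat_lit 5797) (nat_lit 271622667606697),Row.mk (nat_lit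 30744) (nat_lit 5610) (nat_lit 20927434050135) (nat_lit 6171) (nat_lit 2832758635) (nat_lit 6358) (nat_lit 268282065067425),Row.mk (nat_lit 30912) (nat_lit 6171) (nat_lit 26139149127121) (nat_lit 6732) (nat_lit 2259676524) (nat_lit 6919) (nat_lit 264109733083920),Row.mk (nat_lit 31080) (nat_lit 6732) (nat_lit 32648198607762) (nat_lit 7293) (nat_lit 1800834906) (nat_lit 7480) (nat_lit 258898591089046),Row.mk (nat_lit 31248) (nat_lit 7293) (nat_lit 40777638678213) (nat_lit 7854) (nat_lit 1433460622) (nat_lit 8041) (nat_lit 252390000450022),Row.mk (nat_lit 31416) (nat_lit 7854) (nat_lit 50930948511976) (nat_lit 8415) (nat_lit 1139320207) (nat_lit 8602) (nat_lit 244260927753855),Row.mk (nat_lit 31584) (nat_lit 8415) (nat_lit 63612055688876) (nat_lit 8976) (nat_lit 903814925) (nat_lit 9163) (nat_lit 234107912060507),Row.mk (nat_lit 31752) (nat_lit 8976) (nat_lit 79450347054561) (nat_lit 9537) (nat_lit 715256213) (nat_lit 9724) (nat_lit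 221427040388889),Row.mk (nat_lit 31920) (nat_lit 9537) (nat_lit 99231906355823) (nat_lit 10098) (nat_lit 564285554) (nat_lit 10285) (nat_lit 205588937581916),Row.mk (nat_lit 32088) (nat_lit 10098) (nat_lit 123938529033466) (nat_lit 10659) (nat_lit 443409993) (nat_lit 10846) (nat_lit 185807529251313),Row.mk (nat_lit 32256) (nat_lit 10659) (nat_lit 154796450549170) (nat_lit 11220) (nat_lit 346630253) (nat_lit 11407) (nat_lit 161101027449231),Row.mk (nat_lit 32424) (nat_lit 11220) (nat_lit 193337206723514) (nat_lit 11781) (nat_lit 269142976) (nat_lit 11968) (nat_lit 130243202713267),Row.mk (nat_lit 32592) (nat_lit 11781) (nat_lit 241473646696488) (nat_lit 12529) (nat_lit 207102324) (nat_lit 12716) (nat_lit 91702524026201),Row.mk (nat_lit 32760) (nat_lit 12529) (nat_lit 301594871174572) (nat_lit 13277) (nat_lit 157429105) (nat_lit 13464) (nat_lit 43566146093879),Row.mk (nat_lit 32928) (nat_lit 12342) (nat_lit 20676684537798) (nat_lit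 13090) (nat_lit 146951936) (nat_lit 13277) (nat_lit 339453065382725),Row.mk (nat_lit 33096) (nat_lit 13090) (nat_lit 114462194182642) (nat_lit 13838) (nat_lit 107180777) (nat_lit 14025) (nat_lit 264363168402956),Row.mk (nat_lit 33264) (nat_lit 13838) (nat_lit 231598015435486) (nat_lit 14960) (nat_lit 75337761) (nat_lit 15147) (nat_lit 170577698529271),Row.mk (nat_lit 33432) (nat_lit 14960) (nat_lit 377897816142699) (nat_lit 16269) (nat_lit 49842459) (nat_lit 16456) (nat_lit 53441909119443),Row.mk (nat_lit 33600) (nat_lit 14773) (nat_lit 115977197907690) (nat_lit 16082) (nat_lit 36756728) (nat_lit 16269) (nat_lit 351787655160672),Row.mk (nat_lit 33768) (nat_lit 16082) (nat_lit 344196197826576) (nat_lit 17578) (nat_lit 16343762) (nat_lit 17765) (nat_lit 169062765228272),Row.mk (nat_lit 33936) (nat_lit 15895) (nat_lit 73884684559792) (nat_lit 17578) (nat_lit 496195315225591) (nat_lit 0) (nat_lit 0),Row.mk (nat_lit 34104) (nat_lit 17391)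 (nat_lit 429892768176335) (nat_lit 17578) (nat_lit 16343762) (nat_lit 19635) (nat_lit 211155298989136),Row.mk (nat_lit 34272) (nat_lit 17204) (nat_lit 180917613186308) (nat_lit 17391) (nat_lit 36756728) (nat_lit 19448) (nat_lit 548767858117063),Row.mk (nat_lit 34440) (nat_lit 19261) (nat_lit 736269126345784) (nat_lit 19448) (nat_lit 49842459) (nat_lit 25806) (nat_lit 104122336863923),Row.mk (nat_lit 34608) (nat_lit 19074) (nat_lit 563574293576370) (nat_lit 19261) (nat_lit 75337761) (nat_lit 25619) (nat_lit 415086273723030),Row.mk (nat_lit 34776) (nat_lit 18887) (nat_lit 347882613503874) (nat_lit 19074) (nat_lit 107180777) (nat_lit 25432) (nat_lit 803472729226622),Row.mk (nat_lit 34944) (nat_lit 18700) (nat_lit 78488908397399) (nat_lit 18887) (nat_lit 146951936) (nat_lit 25245) (nat_lit 1288558042791417),Row.mk (nat_lit 35112) (nat_lit 25058) (nat_lit 1429889671980777) (nat_lit 25245) (nat_lit 157429105) (nat_lit 31603) (nat_lit 206550934066186),Row.mk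 (nat_lit 35280) (nat_lit 24871) (nat_lit 1429889622307558) (nat_lit 25058) (nat_lit 207102324) (nat_lit 31416) (nat_lit 543017123269694),Row.mk (nat_lit 35448) (nat_lit 24684) (nat_lit 1429889560266906) (nat_lit 24871) (nat_lit 269142976) (nat_lit 31229) (nat_lit 963255276740075),Row.mk (nat_lit 35616) (nat_lit 24497) (nat_lit 1429889482779629) (nat_lit 24684) (nat_lit 346630253) (nat_lit 31042) (nat_lit 1488122592681233),Row.mk (nat_lit 35784) (nat_lit 24310) (nat_lit 1429889385999889) (nat_lit 24497) (nat_lit 443409993) (nat_lit 30855) (nat_lit 2143669208494860)],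
[Row.mk (nat_lit 29064) (nat_lit 32912) (nat_lit 451696183779) (nat_lit 61897) (nat_lit 355556395821371) (nat_lit 0) (nat_lit 0),Row.mk (nat_lit 29232) (nat_lit 0) (nat_lit 2803462448795) (nat_lit 561) (nat_lit 26513397619) (nat_lit 748) (nat_lit 353742254929869),Row.mk (nat_lit 29400) (nat_lit 561) (nat_lit 3513362317897) (nat_lit 1122) (nat_lit 21219721658) (nat_lit 1309) (nat_lit 353178107770128),Row.mk (nat_lit 29568) (nat_lit 1122) (nat_lit 4397636868644) (nat_lit 1683) (nat_lit 16981308361) (nat_lit 1870) (nat_lit 352473501576988),Row.mk (nat_lit 29736) (nat_lit 1683) (nat_lit 5500174285436) (nat_lit 2244) (nat_lit 13587797423) (nat_lit 2431) (nat_lit 351593465439538),Row.mk (nat_lit 29904) (nat_lit 2244) (nat_lit 6875695543129) (nat_lit 2805) (nat_lit 10870762608) (nat_lit 2992) (nat_lit 350494321533683),Row.mk (nat_lit 30072) (nat_lit 2805) (nat_lit 8592470310406) (nat_lit 3366) (nat_lit 8695352445) (nat_lit 3553) (nat_lit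 349121517310805),Row.mk (nat_lit 30240) (nat_lit 3366) (nat_lit 10735705299929) (nat_lit 3927) (nat_lit 6953597296) (nat_lit 4114) (nat_lit 347406917953691),Row.mk (nat_lit 30408) (nat_lit 3927) (nat_lit 13411773235367) (nat_lit 4488) (nat_lit 5559050627) (nat_lit 4675) (nat_lit 345265424719316),Row.mk (nat_lit 30576) (nat_lit 4488) (nat_lit 16753492326764) (nat_lit 5049) (nat_lit 4442498501) (nat_lit 5236) (nat_lit 342590751330548),Row.mk (nat_lit 30744) (nat_lit 5049) (nat_lit 20926718284403) (nat_lit 5610) (nat_lit 3548524368) (nat_lit 5797) (nat_lit 339250148791277),Row.mk (nat_lit 30912) (nat_lit 5610) (nat_lit 26138576045009) (nat_lit 6171) (nat_lit 2832758635) (nat_lit 6358) (nat_lit 335077816807772),Row.mk (nat_lit 31080) (nat_lit 6171) (nat_lit 32647739766144) (nat_lit 6732) (nat_lit 2259676524) (nat_lit 6919) (nat_lit 329866674812898),Row.mk (nat_lit 31248) (nat_lit 6732) (nat_lit 40777271303930) (nat_lit 7293) (nat_lit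 1800834906) (nat_lit 7480) (nat_lit 323358084173874),Row.mk (nat_lit 31416) (nat_lit 7293) (nat_lit 50930654371560) (nat_lit 7854) (nat_lit 1433460622) (nat_lit 8041) (nat_lit 315229011477706),Row.mk (nat_lit 31584) (nat_lit 7854) (nat_lit 63611820183594) (nat_lit 8415) (nat_lit 1139320207) (nat_lit 8602) (nat_lit 305075995784359),Row.mk (nat_lit 31752) (nat_lit 8415) (nat_lit 79450158495850) (nat_lit 8976) (nat_lit 903814925) (nat_lit 9163) (nat_lit 292395124112741),Row.mk (nat_lit 31920) (nat_lit 8976) (nat_lit 99231755385164) (nat_lit 9537) (nat_lit 715256213) (nat_lit 9724) (nat_lit 276557021305768),Row.mk (nat_lit 32088) (nat_lit 9537) (nat_lit 123938408157905) (nat_lit 10098) (nat_lit 564285554) (nat_lit 10285) (nat_lit 256775612975165),Row.mk (nat_lit 32256) (nat_lit 10098) (nat_lit 154796353769430) (nat_lit 10659) (nat_lit 443409993) (nat_lit 10846) (nat_lit 232069111173083),Row.mk (nat_lit 32424) (nat_lit 10659) (nat_lit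 193337129236237) (nat_lit 11220) (nat_lit 346630253) (nat_lit 11407) (nat_lit 201211286437119),Row.mk (nat_lit 32592) (nat_lit 11220) (nat_lit 241473584655836) (nat_lit 11781) (nat_lit 269142976) (nat_lit 11968) (nat_lit 162670607750052),Row.mk (nat_lit 32760) (nat_lit 11781) (nat_lit 301594821501354) (nat_lit 12529) (nat_lit 207102324) (nat_lit 12716) (nat_lit 114534229817731),Row.mk (nat_lit 32928) (nat_lit 12529) (nat_lit 376684768154341) (nat_lit 13277) (nat_lit 157429105) (nat_lit 13464) (nat_lit 54413055012865),Row.mk (nat_lit 33096) (nat_lit 12342) (nat_lit 25824729860618) (nat_lit 13090) (nat_lit 146951936) (nat_lit 13277) (nat_lit 423968676677673),Row.mk (nat_lit 33264) (nat_lit 13090) (nat_lit 142960559041605) (nat_lit 13838) (nat_lit 107180777) (nat_lit 14025) (nat_lit 330183206803988),Row.mk (nat_lit 33432) (nat_lit 13838) (nat_lit 289260366096533) (nat_lit 14960) (nat_lit 75337761) (nat_lit 15147) (nat_lit 213047417394160),Row.mk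 (nat_lit 33600) (nat_lit 14960) (nat_lit 471985281524234) (nat_lit 16269) (nat_lit 49842459) (nat_lit 16456) (nat_lit 66747642182249),Row.mk (nat_lit 33768) (nat_lit 14773) (nat_lit 144852747870678) (nat_lit 16082) (nat_lit 36756728) (nat_lit 16269) (nat_lit 439374278495056),Row.mk (nat_lit 33936) (nat_lit 16082) (nat_lit 429892768176335) (nat_lit 17578) (nat_lit 16343762) (nat_lit 17765) (nat_lit 211155298989136),Row.mk (nat_lit 34104) (nat_lit 15895) (nat_lit 92280209048409) (nat_lit 17578) (nat_lit 619735958184677) (nat_lit 0) (nat_lit 0),Row.mk (nat_lit 34272) (nat_lit 17391) (nat_lit 536925717215817) (nat_lit 17578) (nat_lit 16343762) (nat_lit 19635) (nat_lit 263727858224371),Row.mk (nat_lit 34440) (nat_lit 17204) (nat_lit 225961759943744) (nat_lit 17391) (nat_lit 36756728) (nat_lit 19448) (nat_lit 685397800075546),Row.mk (nat_lit 34608) (nat_lit 19261) (nat_lit 919582402688215) (nat_lit 19448) (nat_lit 49842459) (nat_lit 25806)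 (nat_lit 130046273830339),Row.mk (nat_lit 34776) (nat_lit 19074) (nat_lit 703890728963435) (nat_lit 19261) (nat_lit 75337761) (nat_lit 25619) (nat_lit 518432729333930),Row.mk (nat_lit 34944) (nat_lit 18887) (nat_lit 434497031785102) (nat_lit 19074) (nat_lit 107180777) (nat_lit 25432) (nat_lit 1003518042898725),Row.mk (nat_lit 35112) (nat_lit 18700) (nat_lit 98030802810434) (nat_lit 18887) (nat_lit 146951936) (nat_lit 25245) (nat_lit 1609377897437549),Row.mk (nat_lit 35280) (nat_lit 25058) (nat_lit 1785897755597320) (nat_lit 25245) (nat_lit 157429105) (nat_lit 31603) (nat_lit 257977123377002),Row.mk (nat_lit 35448) (nat_lit 24871) (nat_lit 1785897705924102) (nat_lit 25058) (nat_lit 207102324) (nat_lit 31416) (nat_lit 678215276847383),Row.mk (nat_lit 35616) (nat_lit 24684) (nat_lit 1785897643883450) (nat_lit 24871) (nat_lit 269142976) (nat_lit 31229) (nat_lit 1203082592788542),Row.mk (nat_lit 35784) (nat_lit 24497) (nat_lit 1785897566396173)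 (nat_lit 24684) (nat_lit 346630253) (nat_lit 31042) (nat_lit 1858629208602169)],
[Row.mk (nat_lit 29232) (nat_lit 32912) (nat_lit 564155548349) (nat_lit 61897) (nat_lit 444081361007667) (nat_lit 0) (nat_lit 0),Row.mk (nat_lit 29400) (nat_lit 0) (nat_lit 3508068641935) (nat_lit 561) (nat_lit 26513397619) (nat_lit 748) (nat_lit 441815532320993),Row.mk (nat_lit 29568) (nat_lit 561) (nat_lit 4393398455346) (nat_lit 1122) (nat_lit 21219721658) (nat_lit 1309) (nat_lit 441110926127852),Row.mk (nat_lit 29736) (nat_lit 1122) (nat_lit 5496780774498) (nat_lit 1683) (nat_lit 16981308361) (nat_lit 1870) (nat_lit 440230889990402),Row.mk (nat_lit 29904) (nat_lit 1683) (nat_lit 6872978508315) (nat_lit 2244) (nat_lit 13587797423) (nat_lit 2431) (nat_lit 439131746084548),Row.mk (nat_lit 30072) (nat_lit 2244) (nat_lit 8590294900243) (nat_lit 2805) (nat_lit 10870762608) (nat_lit 2992) (nat_lit 437758941861669),Row.mk (nat_lit 30240) (nat_lit 2805) (nat_lit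 10733963544781) (nat_lit 3366) (nat_lit 8695352445) (nat_lit 3553) (nat_lit 436044342504555),Row.mk (nat_lit 30408) (nat_lit 3366) (nat_lit 13410378688697) (nat_lit 3927) (nat_lit 6953597296) (nat_lit 4114) (nat_lit 433902849270181),Row.mk (nat_lit 30576) (nat_lit 3927) (nat_lit 16752375774639) (nat_lit 4488) (nat_lit 5559050627) (nat_lit 4675) (nat_lit 431228175881413),Row.mk (nat_lit 30744) (nat_lit 4488) (nat_lit 20925824310270) (nat_lit 5049) (nat_lit 4442498501) (nat_lit 5236) (nat_lit 427887573342141),Row.mk (nat_lit 30912) (nat_lit 5049) (nat_lit 26137860279277) (nat_lit 5610) (nat_lit 3548524368) (nat_lit 5797) (nat_lit 423715241358636),Row.mk (nat_lit 31080) (nat_lit 5610) (nat_lit 32647166684033) (nat_lit 6171) (nat_lit 2832758635) (nat_lit 6358) (nat_lit 418504099363762),Row.mk (nat_lit 31248) (nat_lit 6171) (nat_lit 40776812462312) (nat_lit 6732) (nat_lit 2259676524) (nat_lit 6919) (nat_lit 411995508724739),Row.mk (nat_lit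 31416) (nat_lit 6732) (nat_lit 50930286997277) (nat_lit 7293) (nat_lit 1800834906) (nat_lit 7480) (nat_lit 403866436028571),Row.mk (nat_lit 31584) (nat_lit 7293) (nat_lit 63611526043179) (nat_lit 7854) (nat_lit 1433460622) (nat_lit 8041) (nat_lit 393713420335224),Row.mk (nat_lit 31752) (nat_lit 7854) (nat_lit 79449922990568) (nat_lit 8415) (nat_lit 1139320207) (nat_lit 8602) (nat_lit 381032548663606),Row.mk (nat_lit 31920) (nat_lit 8415) (nat_lit 99231566826452) (nat_lit 8976) (nat_lit 903814925) (nat_lit 9163) (nat_lit 365194445856632),Row.mk (nat_lit 32088) (nat_lit 8976) (nat_lit 123938257187246) (nat_lit 9537) (nat_lit 715256213) (nat_lit 9724) (nat_lit 345413037526030),Row.mk (nat_lit 32256) (nat_lit 9537) (nat_lit 154796232893869) (nat_lit 10098) (nat_lit 564285554) (nat_lit 10285) (nat_lit 320706535723948),Row.mk (nat_lit 32424) (nat_lit 10098) (nat_lit 193337032456497) (nat_lit 10659) (nat_lit 443409993) (nat_lit 10846) (nat_lit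 289848710987983),Row.mk (nat_lit 32592) (nat_lit 10659) (nat_lit 241473507168558) (nat_lit 11220) (nat_lit 346630253) (nat_lit 11407) (nat_lit 251308032300917),Row.mk (nat_lit 32760) (nat_lit 11220) (nat_lit 301594759460702) (nat_lit 11781) (nat_lit 269142976) (nat_lit 11968) (nat_lit 203171654368595),Row.mk (nat_lit 32928) (nat_lit 11781) (nat_lit 376684718481123) (nat_lit 12529) (nat_lit 207102324) (nat_lit 12716) (nat_lit 143050479563729),Row.mk (nat_lit 33096) (nat_lit 12529) (nat_lit 470470238028026) (nat_lit 13277) (nat_lit 157429105) (nat_lit 13464) (nat_lit 67960582583960),Row.mk (nat_lit 33264) (nat_lit 12342) (nat_lit 32254514278379) (nat_lit 13090) (nat_lit 146951936) (nat_lit 13277) (nat_lit 529526636346920),Row.mk (nat_lit 33432) (nat_lit 13090) (nat_lit 178554329261449) (nat_lit 13838) (nat_lit 107180777) (nat_lit 14025) (nat_lit 412390846937092),Row.mk (nat_lit 33600) (nat_lit 13838) (nat_lit 361279251036865) (nat_lit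 14960) (nat_lit 75337761) (nat_lit 15147) (nat_lit 266091071725181),Row.mk (nat_lit 33768) (nat_lit 14960) (nat_lit 589498256038086) (nat_lit 16269) (nat_lit 49842459) (nat_lit 16456) (nat_lit 83366181792781),Row.mk (nat_lit 33936) (nat_lit 14773) (nat_lit 180917613186308) (nat_lit 16082) (nat_lit 36756728) (nat_lit 16269) (nat_lit 548767858117063),Row.mk (nat_lit 34104) (nat_lit 16082) (nat_lit 536925717215817) (nat_lit 17578) (nat_lit 16343762) (nat_lit 17765) (nat_lit 263727858224371),Row.mk (nat_lit 34272) (nat_lit 15895) (nat_lit 115255775364642) (nat_lit 17578) (nat_lit 774035240970173) (nat_lit 0) (nat_lit 0),Row.mk (nat_lit 34440) (nat_lit 17391) (nat_lit 670607288524118) (nat_lit 17578) (nat_lit 16343762) (nat_lit 19635) (nat_lit 329389716459002),Row.mk (nat_lit 34608) (nat_lit 17204) (nat_lit 282220812607561) (nat_lit 17391) (nat_lit 36756728) (nat_lit 19448) (nat_lit 856045301547588),Row.mk (nat_lit 34776) (nat_lit 19261)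 (nat_lit 1148536262626144) (nat_lit 19448) (nat_lit 49842459) (nat_lit 25806) (nat_lit 162424645717386),Row.mk (nat_lit 34944) (nat_lit 19074) (nat_lit 879142571795526) (nat_lit 19261) (nat_lit 75337761) (nat_lit 25619) (nat_lit 647509959282181),Row.mk (nat_lit 35112) (nat_lit 18887) (nat_lit 542676350749002) (nat_lit 19074) (nat_lit 107180777) (nat_lit 25432) (nat_lit 1253369813821005),Row.mk (nat_lit 35280) (nat_lit 18700) (nat_lit 122438157507462) (nat_lit 18887) (nat_lit 146951936) (nat_lit 25245) (nat_lit 2010074156494895),Row.mk (nat_lit 35448) (nat_lit 25058) (nat_lit 2230543263764728) (nat_lit 25245) (nat_lit 157429105) (nat_lit 31603) (nat_lit 322207193230840),Row.mk (nat_lit 35616) (nat_lit 24871) (nat_lit 2230543214091510) (nat_lit 25058) (nat_lit 207102324) (nat_lit 31416) (nat_lit 847074509171998),Row.mk (nat_lit 35784) (nat_lit 24684) (nat_lit 2230543152050858) (nat_lit 24871) (nat_lit 269142976) (nat_lit 31229) (nat_lit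 1502621124985625)],
[Row.mk (nat_lit 29400) (nat_lit 32912) (nat_lit 704614581748) (nat_lit 61897) (nat_lit 554646906966335) (nat_lit 0) (nat_lit 0),Row.mk (nat_lit 29568) (nat_lit 0) (nat_lit 4388104779385) (nat_lit 561) (nat_lit 26513397619) (nat_lit 748) (nat_lit 551816931119920),Row.mk (nat_lit 29736) (nat_lit 561) (nat_lit 5492542361201) (nat_lit 1122) (nat_lit 21219721658) (nat_lit 1309) (nat_lit 550936894982470),Row.mk (nat_lit 29904) (nat_lit 1122) (nat_lit 6869584997377) (nat_lit 1683) (nat_lit 16981308361) (nat_lit 1870) (nat_lit 549837751076615),Row.mk (nat_lit 30072) (nat_lit 1683) (nat_lit 8587577865429) (nat_lit 2244) (nat_lit 13587797423) (nat_lit 2431) (nat_lit 548464946853737),Row.mk (nat_lit 30240) (nat_lit 2244) (nat_lit 10731788134617) (nat_lit 2805) (nat_lit 10870762608) (nat_lit 2992) (nat_lit 546750347496623),Row.mk (nat_lit 30408) (nat_lit 2805) (nat_lit 13408636933549) (nat_lit 3366) (nat_lit 8695352445) (nat_lit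 3553) (nat_lit 544608854262248),Row.mk (nat_lit 30576) (nat_lit 3366) (nat_lit 16750981227969) (nat_lit 3927) (nat_lit 6953597296) (nat_lit 4114) (nat_lit 541934180873480),Row.mk (nat_lit 30744) (nat_lit 3927) (nat_lit 20924707758144) (nat_lit 4488) (nat_lit 5559050627) (nat_lit 4675) (nat_lit 538593578334209),Row.mk (nat_lit 30912) (nat_lit 4488) (nat_lit 26136966305144) (nat_lit 5049) (nat_lit 4442498501) (nat_lit 5236) (nat_lit 534421246350704),Row.mk (nat_lit 31080) (nat_lit 5049) (nat_lit 32646450918300) (nat_lit 5610) (nat_lit 3548524368) (nat_lit 5797) (nat_lit 529210104355830),Row.mk (nat_lit 31248) (nat_lit 5610) (nat_lit 40776239380200) (nat_lit 6171) (nat_lit 2832758635) (nat_lit 6358) (nat_lit 522701513716806),Row.mk (nat_lit 31416) (nat_lit 6171) (nat_lit 50929828155659) (nat_lit 6732) (nat_lit 2259676524) (nat_lit 6919) (nat_lit 514572441020638),Row.mk (nat_lit 31584) (nat_lit 6732) (nat_lit 63611158668895) (nat_lit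 7293) (nat_lit 1800834906) (nat_lit 7480) (nat_lit 504419425327291),Row.mk (nat_lit 31752) (nat_lit 7293) (nat_lit 79449628850152) (nat_lit 7854) (nat_lit 1433460622) (nat_lit 8041) (nat_lit 491738553655673),Row.mk (nat_lit 31920) (nat_lit 7854) (nat_lit 99231331321170) (nat_lit 8415) (nat_lit 1139320207) (nat_lit 8602) (nat_lit 475900450848700),Row.mk (nat_lit 32088) (nat_lit 8415) (nat_lit 123938068628534) (nat_lit 8976) (nat_lit 903814925) (nat_lit 9163) (nat_lit 456119042518097),Row.mk (nat_lit 32256) (nat_lit 8976) (nat_lit 154796081923210) (nat_lit 9537) (nat_lit 715256213) (nat_lit 9724) (nat_lit 431412540716015),Row.mk (nat_lit 32424) (nat_lit 9537) (nat_lit 193336911580936) (nat_lit 10098) (nat_lit 564285554) (nat_lit 10285) (nat_lit 400554715980051),Row.mk (nat_lit 32592) (nat_lit 10098) (nat_lit 241473410388818) (nat_lit 10659) (nat_lit 443409993) (nat_lit 10846) (nat_lit 362014037292984),Row.mk (nat_lit 32760) (nat_lit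 10659) (nat_lit 301594681973425) (nat_lit 11220) (nat_lit 346630253) (nat_lit 11407) (nat_lit 313877659360663),Row.mk (nat_lit 32928) (nat_lit 11220) (nat_lit 376684656440471) (nat_lit 11781) (nat_lit 269142976) (nat_lit 11968) (nat_lit 253756484555797),Row.mk (nat_lit 33096) (nat_lit 11781) (nat_lit 470470188354808) (nat_lit 12529) (nat_lit 207102324) (nat_lit 12716) (nat_lit 178666587576028),Row.mk (nat_lit 33264) (nat_lit 12529) (nat_lit 587606027437854) (nat_lit 13277) (nat_lit 157429105) (nat_lit 13464) (nat_lit 84881117702342),Row.mk (nat_lit 33432) (nat_lit 12342) (nat_lit 40285159905295) (nat_lit 13090) (nat_lit 146951936) (nat_lit 13277) (nat_lit 661365981514154),Row.mk (nat_lit 33600) (nat_lit 13090) (nat_lit 223010089608854) (nat_lit 13838) (nat_lit 107180777) (nat_lit 14025) (nat_lit 515066206302243),Row.mk (nat_lit 33768) (nat_lit 13838) (nat_lit 451229100957790) (nat_lit 14960) (nat_lit 75337761) (nat_lit 15147) (nat_lit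 332341316369843),Row.mk (nat_lit 33936) (nat_lit 14960) (nat_lit 736269126345784) (nat_lit 16269) (nat_lit 49842459) (nat_lit 16456) (nat_lit 104122336863923),Row.mk (nat_lit 34104) (nat_lit 14773) (nat_lit 225961759943744) (nat_lit 16082) (nat_lit 36756728) (nat_lit 16269) (nat_lit 685397800075546),Row.mk (nat_lit 34272) (nat_lit 16082) (nat_lit 670607288524118) (nat_lit 17578) (nat_lit 16343762) (nat_lit 17765) (nat_lit 329389716459002),Row.mk (nat_lit 34440) (nat_lit 15895) (nat_lit 143951703435532) (nat_lit 17578) (nat_lit 966751322883418) (nat_lit 0) (nat_lit 0),Row.mk (nat_lit 34608) (nat_lit 17391) (nat_lit 837572346180002) (nat_lit 17578) (nat_lit 16343762) (nat_lit 19635) (nat_lit 411399793380180),Row.mk (nat_lit 34776) (nat_lit 17204) (nat_lit 352487012202242) (nat_lit 17391) (nat_lit 36756728) (nat_lit 19448) (nat_lit 1069179914219087),Row.mk (nat_lit 34944) (nat_lit 19261) (nat_lit 1434494110450304) (nat_lit 19448) (nat_lit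 49842459) (nat_lit 25806) (nat_lit 202864451114773),Row.mk (nat_lit 35112) (nat_lit 19074) (nat_lit 1098027895751494) (nat_lit 19261) (nat_lit 75337761) (nat_lit 25619) (nat_lit 808724305653597),Row.mk (nat_lit 35280) (nat_lit 18887) (nat_lit 677789710438097) (nat_lit 19074) (nat_lit 107180777) (nat_lit 25432) (nat_lit 1565428648327486),Row.mk (nat_lit 35448) (nat_lit 18700) (nat_lit 152922354725779) (nat_lit 18887) (nat_lit 146951936) (nat_lit 25245) (nat_lit 2510534117739025),Row.mk (nat_lit 35616) (nat_lit 25058) (nat_lit 2785894776924204) (nat_lit 25245) (nat_lit 157429105) (nat_lit 31603) (nat_lit 402429001004590),Row.mk (nat_lit 35784) (nat_lit 24871) (nat_lit 2785894727250985) (nat_lit 25058) (nat_lit 207102324) (nat_lit 31416) (nat_lit 1057975616818217),Row.mk (nat_lit 35952) (nat_lit 24684) (nat_lit 2785894665210334) (nat_lit 24871) (nat_lit 269142976) (nat_lit 31229) (nat_lit 1876737525690585)],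
[Row.mk (nat_lit 29568) (nat_lit 32912) (nat_lit 880044526057) (nat_lit 61897) (nat_lit 692740606607020) (nat_lit 0) (nat_lit 0),Row.mk (nat_lit 29736) (nat_lit 0) (nat_lit 5487248685239) (nat_lit 561) (nat_lit 26513397619) (nat_lit 748) (nat_lit 689206024567464),Row.mk (nat_lit 29904) (nat_lit 561) (nat_lit 6865346584080) (nat_lit 1122) (nat_lit 21219721658) (nat_lit 1309) (nat_lit 688106880661610),Row.mk (nat_lit 30072) (nat_lit 1122) (nat_lit 8584184354491) (nat_lit 1683) (nat_lit 16981308361) (nat_lit 1870) (nat_lit 686734076438731),Row.mk (nat_lit 30240) (nat_lit 1683) (nat_lit 10729071099803) (nat_lit 2244) (nat_lit 13587797423) (nat_lit 2431) (nat_lit 685019477081617),Row.mk (nat_lit 30408) (nat_lit 2244) (nat_lit 13406461523386) (nat_lit 2805) (nat_lit 10870762608) (nat_lit 2992) (nat_lit 682877983847243),Row.mk (nat_lit 30576) (nat_lit 2805) (nat_lit 16749239472820) (nat_lit 3366) (nat_lit 8695352445) (nat_lit 3553) (nat_lit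 680203310458475),Row.mk (nat_lit 30744) (nat_lit 3366) (nat_lit 20923313211474) (nat_lit 3927) (nat_lit 6953597296) (nat_lit 4114) (nat_lit 676862707919203),Row.mk (nat_lit 30912) (nat_lit 3927) (nat_lit 26135849753018) (nat_lit 4488) (nat_lit 5559050627) (nat_lit 4675) (nat_lit 672690375935698),Row.mk (nat_lit 31080) (nat_lit 4488) (nat_lit 32645556944167) (nat_lit 5049) (nat_lit 4442498501) (nat_lit 5236) (nat_lit 667479233940824),Row.mk (nat_lit 31248) (nat_lit 5049) (nat_lit 40775523614468) (nat_lit 5610) (nat_lit 3548524368) (nat_lit 5797) (nat_lit 660970643301801),Row.mk (nat_lit 31416) (nat_lit 5610) (nat_lit 50929255073547) (nat_lit 6171) (nat_lit 2832758635) (nat_lit 6358) (nat_lit 652841570605633),Row.mk (nat_lit 31584) (nat_lit 6171) (nat_lit 63610699827277) (nat_lit 6732) (nat_lit 2259676524) (nat_lit 6919) (nat_lit 642688554912286),Row.mk (nat_lit 31752) (nat_lit 6732) (nat_lit 79449261475868) (nat_lit 7293) (nat_lit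 1800834906) (nat_lit 7480) (nat_lit 630007683240668),Row.mk (nat_lit 31920) (nat_lit 7293) (nat_lit 99231037180755) (nat_lit 7854) (nat_lit 1433460622) (nat_lit 8041) (nat_lit 614169580433694),Row.mk (nat_lit 32088) (nat_lit 7854) (nat_lit 123937833123252) (nat_lit 8415) (nat_lit 1139320207) (nat_lit 8602) (nat_lit 594388172103092),Row.mk (nat_lit 32256) (nat_lit 8415) (nat_lit 154795893364498) (nat_lit 8976) (nat_lit 903814925) (nat_lit 9163) (nat_lit 569681670301010),Row.mk (nat_lit 32424) (nat_lit 8976) (nat_lit 193336760610277) (nat_lit 9537) (nat_lit 715256213) (nat_lit 9724) (nat_lit 538823845565046),Row.mk (nat_lit 32592) (nat_lit 9537) (nat_lit 241473289513258) (nat_lit 10098) (nat_lit 564285554) (nat_lit 10285) (nat_lit 500283166877979),Row.mk (nat_lit 32760) (nat_lit 10098) (nat_lit 301594585193684) (nat_lit 10659) (nat_lit 443409993) (nat_lit 10846) (nat_lit 452146788945657),Row.mk (nat_lit 32928) (nat_lit 10659) (nat_lit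 376684578953194) (nat_lit 11220) (nat_lit 346630253) (nat_lit 11407) (nat_lit 392025614140791),Row.mk (nat_lit 33096) (nat_lit 11220) (nat_lit 470470126314156) (nat_lit 11781) (nat_lit 269142976) (nat_lit 11968) (nat_lit 316935717161022),Row.mk (nat_lit 33264) (nat_lit 11781) (nat_lit 587605977764636) (nat_lit 12529) (nat_lit 207102324) (nat_lit 12716) (nat_lit 223150247287337),Row.mk (nat_lit 33432) (nat_lit 12529) (nat_lit 733905802649765) (nat_lit 13277) (nat_lit 157429105) (nat_lit 13464) (nat_lit 106014457877509),Row.mk (nat_lit 33600) (nat_lit 12342) (nat_lit 50315242563582) (nat_lit 13090) (nat_lit 146951936) (nat_lit 13277) (nat_lit 826030143161350),Row.mk (nat_lit 33768) (nat_lit 13090) (nat_lit 278534261840661) (nat_lit 13838) (nat_lit 107180777) (nat_lit 14025) (nat_lit 643305253228950),Row.mk (nat_lit 33936) (nat_lit 13838) (nat_lit 563574293576370) (nat_lit 14960) (nat_lit 75337761) (nat_lit 15147) (nat_lit 415086273723030),Row.mk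 (nat_lit 34104) (nat_lit 14960) (nat_lit 919582402688215) (nat_lit 16269) (nat_lit 49842459) (nat_lit 16456) (nat_lit 130046273830339),Row.mk (nat_lit 34272) (nat_lit 14773) (nat_lit 282220812607561) (nat_lit 16082) (nat_lit 36756728) (nat_lit 16269) (nat_lit 856045301547588),Row.mk (nat_lit 34440) (nat_lit 16082) (nat_lit 837572346180002) (nat_lit 17578) (nat_lit 16343762) (nat_lit 17765) (nat_lit 411399793380180),Row.mk (nat_lit 34608) (nat_lit 15895) (nat_lit 179792225341095) (nat_lit 17578) (nat_lit 1207449060147844) (nat_lit 0) (nat_lit 0),Row.mk (nat_lit 34776) (nat_lit 17391) (nat_lit 1046107675359678) (nat_lit 17578) (nat_lit 16343762) (nat_lit 19635) (nat_lit 513828401059611),Row.mk (nat_lit 34944) (nat_lit 17204) (nat_lit 440247800407888) (nat_lit 17391) (nat_lit 36756728) (nat_lit 19448) (nat_lit 1335379903827915),Row.mk (nat_lit 35112) (nat_lit 19261) (nat_lit 1791648563991266) (nat_lit 19448) (nat_lit 49842459) (nat_lit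 25806) (nat_lit 253372792494122),Row.mk (nat_lit 35280) (nat_lit 19074) (nat_lit 1371410385025583) (nat_lit 19261) (nat_lit 75337761) (nat_lit 25619) (nat_lit 1010077135168011),Row.mk (nat_lit 35448) (nat_lit 18887) (nat_lit 846543037241409) (nat_lit 19074) (nat_lit 107180777) (nat_lit 25432) (nat_lit 1955182604579550),Row.mk (nat_lit 35616) (nat_lit 18700) (nat_lit 190996381656622) (nat_lit 18887) (nat_lit 146951936) (nat_lit 25245) (nat_lit 3135596536334335),Row.mk (nat_lit 35784) (nat_lit 25058) (nat_lit 3479515419668674) (nat_lit 25245) (nat_lit 157429105) (nat_lit 31603) (nat_lit 502624103658741),Row.mk (nat_lit 35952) (nat_lit 24871) (nat_lit 3479515369995456) (nat_lit 25058) (nat_lit 207102324) (nat_lit 31416) (nat_lit 1321386012531109)],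
[Row.mk (nat_lit 29736) (nat_lit 32912) (nat_lit 1099152294462) (nat_lit 61897) (nat_lit 865216306112728) (nat_lit 0) (nat_lit 0),Row.mk (nat_lit 29904) (nat_lit 0) (nat_lit 6860052908118) (nat_lit 561) (nat_lit 26513397619) (nat_lit 748) (nat_lit 860801687935723),Row.mk (nat_lit 30072) (nat_lit 561) (nat_lit 8579945941193) (nat_lit 1122) (nat_lit 21219721658) (nat_lit 1309) (nat_lit 859428883712844),Row.mk (nat_lit 30240) (nat_lit 1122) (nat_lit 10725677588865) (nat_lit 1683) (nat_lit 16981308361) (nat_lit 1870) (nat_lit 857714284355730),Row.mk (nat_lit 30408) (nat_lit 1683) (nat_lit 13403744488571) (nat_lit 2244) (nat_lit 13587797423) (nat_lit 2431) (nat_lit 855572791121356),Row.mk (nat_lit 30576) (nat_lit 2244) (nat_lit 16747064062657) (nat_lit 2805) (nat_lit 10870762608) (nat_lit 2992) (nat_lit 852898117732587),Row.mk (nat_lit 30744) (nat_lit 2805) (nat_lit 20921571456325) (nat_lit 3366) (nat_lit 8695352445) (nat_lit 3553) (nat_lit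 849557515193316),Row.mk (nat_lit 30912) (nat_lit 3366) (nat_lit 26134455206348) (nat_lit 3927) (nat_lit 6953597296) (nat_lit 4114) (nat_lit 845385183209811),Row.mk (nat_lit 31080) (nat_lit 3927) (nat_lit 32644440392041) (nat_lit 4488) (nat_lit 5559050627) (nat_lit 4675) (nat_lit 840174041214937),Row.mk (nat_lit 31248) (nat_lit 4488) (nat_lit 40774629640335) (nat_lit 5049) (nat_lit 4442498501) (nat_lit 5236) (nat_lit 833665450575913),Row.mk (nat_lit 31416) (nat_lit 5049) (nat_lit 50928539307815) (nat_lit 5610) (nat_lit 3548524368) (nat_lit 5797) (nat_lit 825536377879746),Row.mk (nat_lit 31584) (nat_lit 5610) (nat_lit 63610126745166) (nat_lit 6171) (nat_lit 2832758635) (nat_lit 6358) (nat_lit 815383362186398),Row.mk (nat_lit 31752) (nat_lit 6171) (nat_lit 79448802634250) (nat_lit 6732) (nat_lit 2259676524) (nat_lit 6919) (nat_lit 802702490514780),Row.mk (nat_lit 31920) (nat_lit 6732) (nat_lit 99230669806471) (nat_lit 7293) (nat_lit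 1800834906) (nat_lit 7480) (nat_lit 786864387707807),Row.mk (nat_lit 32088) (nat_lit 7293) (nat_lit 123937538982837) (nat_lit 7854) (nat_lit 1433460622) (nat_lit 8041) (nat_lit 767082979377204),Row.mk (nat_lit 32256) (nat_lit 7854) (nat_lit 154795657859217) (nat_lit 8415) (nat_lit 1139320207) (nat_lit 8602) (nat_lit 742376477575122),Row.mk (nat_lit 32424) (nat_lit 8415) (nat_lit 193336572051565) (nat_lit 8976) (nat_lit 903814925) (nat_lit 9163) (nat_lit 711518652839158),Row.mk (nat_lit 32592) (nat_lit 8976) (nat_lit 241473138542598) (nat_lit 9537) (nat_lit 715256213) (nat_lit 9724) (nat_lit 672977974152091),Row.mk (nat_lit 32760) (nat_lit 9537) (nat_lit 301594464318124) (nat_lit 10098) (nat_lit 564285554) (nat_lit 10285) (nat_lit 624841596219770),Row.mk (nat_lit 32928) (nat_lit 10098) (nat_lit 376684482173453) (nat_lit 10659) (nat_lit 443409993) (nat_lit 10846) (nat_lit 564720421414904),Row.mk (nat_lit 33096) (nat_lit 10659) (nat_lit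 470470048826879) (nat_lit 11220) (nat_lit 346630253) (nat_lit 11407) (nat_lit 489630524435135),Row.mk (nat_lit 33264) (nat_lit 11220) (nat_lit 587605915723984) (nat_lit 11781) (nat_lit 269142976) (nat_lit 11968) (nat_lit 395845054561450),Row.mk (nat_lit 33432) (nat_lit 11781) (nat_lit 733905752976546) (nat_lit 12529) (nat_lit 207102324) (nat_lit 12716) (nat_lit 278709265151622),Row.mk (nat_lit 33600) (nat_lit 12529) (nat_lit 916630692582165) (nat_lit 13277) (nat_lit 157429105) (nat_lit 13464) (nat_lit 132409489939711),Row.mk (nat_lit 33768) (nat_lit 12342) (nat_lit 62842573840023) (nat_lit 13090) (nat_lit 146951936) (nat_lit 13277) (nat_lit 1031691708732541),Row.mk (nat_lit 33936) (nat_lit 13090) (nat_lit 347882613503874) (nat_lit 13838) (nat_lit 107180777) (nat_lit 14025) (nat_lit 803472729226622),Row.mk (nat_lit 34104) (nat_lit 13838) (nat_lit 703890728963435) (nat_lit 14960) (nat_lit 75337761) (nat_lit 15147) (nat_lit 518432729333930),Row.mk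 (nat_lit 34272) (nat_lit 14960) (nat_lit 1148536262626144) (nat_lit 16269) (nat_lit 49842459) (nat_lit 16456) (nat_lit 162424645717386),Row.mk (nat_lit 34440) (nat_lit 14773) (nat_lit 352487012202242) (nat_lit 16082) (nat_lit 36756728) (nat_lit 16269) (nat_lit 1069179914219087),Row.mk (nat_lit 34608) (nat_lit 16082) (nat_lit 1046107675359678) (nat_lit 17578) (nat_lit 16343762) (nat_lit 17765) (nat_lit 513828401059611),Row.mk (nat_lit 34776) (nat_lit 15895) (nat_lit 224556172591375) (nat_lit 17578) (nat_lit 1508074727445790) (nat_lit 0) (nat_lit 0),Row.mk (nat_lit 34944) (nat_lit 17391) (nat_lit 1306563270839436) (nat_lit 17578) (nat_lit 16343762) (nat_lit 19635) (nat_lit 641759261083444),Row.mk (nat_lit 35112) (nat_lit 17204) (nat_lit 549858907752582) (nat_lit 17391) (nat_lit 36756728) (nat_lit 19448) (nat_lit 1667857269092650),Row.mk (nat_lit 35280) (nat_lit 19261) (nat_lit 2237725860539467) (nat_lit 19448) (nat_lit 49842459) (nat_lit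 25806) (nat_lit 316456492423541),Row.mk (nat_lit 35448) (nat_lit 19074) (nat_lit 1712858519103008) (nat_lit 19261) (nat_lit 75337761) (nat_lit 25619) (nat_lit 1261561961835080),Row.mk (nat_lit 35616) (nat_lit 18887) (nat_lit 1057311871446364) (nat_lit 19074) (nat_lit 107180777) (nat_lit 25432) (nat_lit 2441975893589865),Row.mk (nat_lit 35784) (nat_lit 18700) (nat_lit 238549922802837) (nat_lit 18887) (nat_lit 146951936) (nat_lit 25245) (nat_lit 3916284418275860),Row.mk (nat_lit 35952) (nat_lit 25058) (nat_lit 4345830869687257) (nat_lit 25245) (nat_lit 157429105) (nat_lit 31603) (nat_lit 627765369786639)],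
[Row.mk (nat_lit 29904) (nat_lit 32912) (nat_lit 1372812611486) (nat_lit 61897) (nat_lit 1080634294025182) (nat_lit 0) (nat_lit 0),Row.mk (nat_lit 30072) (nat_lit 0) (nat_lit 8574652265232) (nat_lit 561) (nat_lit 26513397619) (nat_lit 748) (nat_lit 1075120531942323),Row.mk (nat_lit 30240) (nat_lit 561) (nat_lit 10721439175568) (nat_lit 1122) (nat_lit 21219721658) (nat_lit 1309) (nat_lit 1073405932585209),Row.mk (nat_lit 30408) (nat_lit 1122) (nat_lit 13400350977633) (nat_lit 1683) (nat_lit 16981308361) (nat_lit 1870) (nat_lit 1071264439350834),Row.mk (nat_lit 30576) (nat_lit 1683) (nat_lit 16744347027843) (nat_lit 2244) (nat_lit 13587797423) (nat_lit 2431) (nat_lit 1068589765962066),Row.mk (nat_lit 30744) (nat_lit 2244) (nat_lit 20919396046162) (nat_lit 2805) (nat_lit 10870762608) (nat_lit 2992) (nat_lit 1065249163422795),Row.mk (nat_lit 30912) (nat_lit 2805) (nat_lit 26132713451199) (nat_lit 3366) (nat_lit 8695352445) (nat_lit 3553)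 (nat_lit 1061076831439289),Row.mk (nat_lit 31080) (nat_lit 3366) (nat_lit 32643045845372) (nat_lit 3927) (nat_lit 6953597296) (nat_lit 4114) (nat_lit 1055865689444415),Row.mk (nat_lit 31248) (nat_lit 3927) (nat_lit 40773513088209) (nat_lit 4488) (nat_lit 5559050627) (nat_lit 4675) (nat_lit 1049357098805392),Row.mk (nat_lit 31416) (nat_lit 4488) (nat_lit 50927645333682) (nat_lit 5049) (nat_lit 4442498501) (nat_lit 5236) (nat_lit 1041228026109224),Row.mk (nat_lit 31584) (nat_lit 5049) (nat_lit 63609410979433) (nat_lit 5610) (nat_lit 3548524368) (nat_lit 5797) (nat_lit 1031075010415877),Row.mk (nat_lit 31752) (nat_lit 5610) (nat_lit 79448229552139) (nat_lit 6171) (nat_lit 2832758635) (nat_lit 6358) (nat_lit 1018394138744259),Row.mk (nat_lit 31920) (nat_lit 6171) (nat_lit 99230210964853) (nat_lit 6732) (nat_lit 2259676524) (nat_lit 6919) (nat_lit 1002556035937286),Row.mk (nat_lit 32088) (nat_lit 6732) (nat_lit 123937171608553) (nat_lit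 7293) (nat_lit 1800834906) (nat_lit 7480) (nat_lit 982774627606683),Row.mk (nat_lit 32256) (nat_lit 7293) (nat_lit 154795363718801) (nat_lit 7854) (nat_lit 1433460622) (nat_lit 8041) (nat_lit 958068125804601),Row.mk (nat_lit 32424) (nat_lit 7854) (nat_lit 193336336546283) (nat_lit 8415) (nat_lit 1139320207) (nat_lit 8602) (nat_lit 927210301068637),Row.mk (nat_lit 32592) (nat_lit 8415) (nat_lit 241472949983887) (nat_lit 8976) (nat_lit 903814925) (nat_lit 9163) (nat_lit 888669622381570),Row.mk (nat_lit 32760) (nat_lit 8976) (nat_lit 301594313347464) (nat_lit 9537) (nat_lit 715256213) (nat_lit 9724) (nat_lit 840533244449249),Row.mk (nat_lit 32928) (nat_lit 9537) (nat_lit 376684361297893) (nat_lit 10098) (nat_lit 564285554) (nat_lit 10285) (nat_lit 780412069644382),Row.mk (nat_lit 33096) (nat_lit 10098) (nat_lit 470469952047139) (nat_lit 10659) (nat_lit 443409993) (nat_lit 10846) (nat_lit 705322172664613),Row.mk (nat_lit 33264) (nat_lit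 10659) (nat_lit 587605838236707) (nat_lit 11220) (nat_lit 346630253) (nat_lit 11407) (nat_lit 611536702790928),Row.mk (nat_lit 33432) (nat_lit 11220) (nat_lit 733905690935895) (nat_lit 11781) (nat_lit 269142976) (nat_lit 11968) (nat_lit 494400913381100),Row.mk (nat_lit 33600) (nat_lit 11781) (nat_lit 916630642908946) (nat_lit 12529) (nat_lit 207102324) (nat_lit 12716) (nat_lit 348101138169190),Row.mk (nat_lit 33768) (nat_lit 12529) (nat_lit 1144849672088085) (nat_lit 13277) (nat_lit 157429105) (nat_lit 13464) (nat_lit 165376248236790),Row.mk (nat_lit 33936) (nat_lit 12342) (nat_lit 78488908397399) (nat_lit 13090) (nat_lit 146951936) (nat_lit 13277) (nat_lit 1288558042791417),Row.mk (nat_lit 34104) (nat_lit 13090) (nat_lit 434497031785102) (nat_lit 13838) (nat_lit 107180777) (nat_lit 14025) (nat_lit 1003518042898725),Row.mk (nat_lit 34272) (nat_lit 13838) (nat_lit 879142571795526) (nat_lit 14960) (nat_lit 75337761) (nat_lit 15147)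 (nat_lit 647509959282181),Row.mk (nat_lit 34440) (nat_lit 14960) (nat_lit 1434494110450304) (nat_lit 16269) (nat_lit 49842459) (nat_lit 16456) (nat_lit 202864451114773),Row.mk (nat_lit 34608) (nat_lit 14773) (nat_lit 440247800407888) (nat_lit 16082) (nat_lit 36756728) (nat_lit 16269) (nat_lit 1335379903827915),Row.mk (nat_lit 34776) (nat_lit 16082) (nat_lit 1306563270839436) (nat_lit 17578) (nat_lit 16343762) (nat_lit 17765) (nat_lit 641759261083444),Row.mk (nat_lit 34944) (nat_lit 15895) (nat_lit 280465262830231) (nat_lit 17578) (nat_lit 1883548933665891) (nat_lit 0) (nat_lit 0),Row.mk (nat_lit 35112) (nat_lit 17391) (nat_lit 1631866026413609) (nat_lit 17578) (nat_lit 16343762) (nat_lit 19635) (nat_lit 801541819074067),Row.mk (nat_lit 35280) (nat_lit 17204) (nat_lit 686760536589104) (nat_lit 17391) (nat_lit 36756728) (nat_lit 19448) (nat_lit 2083113477689114),Row.mk (nat_lit 35448) (nat_lit 19261) (nat_lit 2794865642846371) (nat_lit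 19448) (nat_lit 49842459) (nat_lit 25806) (nat_lit 395246511816497),Row.mk (nat_lit 35616) (nat_lit 19074) (nat_lit 2139319001537442) (nat_lit 19261) (nat_lit 75337761) (nat_lit 25619) (nat_lit 1575660443571282),Row.mk (nat_lit 35784) (nat_lit 18887) (nat_lit 1320557060822058) (nat_lit 19074) (nat_lit 107180777) (nat_lit 25432) (nat_lit 3049968968257277),Row.mk (nat_lit 35952) (nat_lit 18700) (nat_lit 297943148522097) (nat_lit 18887) (nat_lit 146951936) (nat_lit 25245) (nat_lit 4891344749658447)],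
[Row.mk (nat_lit 30072) (nat_lit 32912) (nat_lit 1714607745721) (nat_lit 61897) (nat_lit 1349686164226263) (nat_lit 0) (nat_lit 0),Row.mk (nat_lit 30240) (nat_lit 0) (nat_lit 10716145499606) (nat_lit 561) (nat_lit 26513397619) (nat_lit 748) (nat_lit 1342799597920525),Row.mk (nat_lit 30408) (nat_lit 561) (nat_lit 13396112564336) (nat_lit 1122) (nat_lit 21219721658) (nat_lit 1309) (nat_lit 1340658104686150),Row.mk (nat_lit 30576) (nat_lit 1122) (nat_lit 16740953516905) (nat_lit 1683) (nat_lit 16981308361) (nat_lit 1870) (nat_lit 1337983431297382),Row.mk (nat_lit 30744) (nat_lit 1683) (nat_lit 20916679011348) (nat_lit 2244) (nat_lit 13587797423) (nat_lit 2431) (nat_lit 1334642828758111),Row.mk (nat_lit 30912) (nat_lit 2244) (nat_lit 26130538041036) (nat_lit 2805) (nat_lit 10870762608) (nat_lit 2992) (nat_lit 1330470496774606),Row.mk (nat_lit 31080) (nat_lit 2805) (nat_lit 32641304090223) (nat_lit 3366) (nat_lit 8695352445) (nat_lit 3553)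 (nat_lit 1325259354779732),Row.mk (nat_lit 31248) (nat_lit 3366) (nat_lit 40772118541539) (nat_lit 3927) (nat_lit 6953597296) (nat_lit 4114) (nat_lit 1318750764140708),Row.mk (nat_lit 31416) (nat_lit 3927) (nat_lit 50926528781556) (nat_lit 4488) (nat_lit 5559050627) (nat_lit 4675) (nat_lit 1310621691444540),Row.mk (nat_lit 31584) (nat_lit 4488) (nat_lit 63608517005300) (nat_lit 5049) (nat_lit 4442498501) (nat_lit 5236) (nat_lit 1300468675751193),Row.mk (nat_lit 31752) (nat_lit 5049) (nat_lit 79447513786406) (nat_lit 5610) (nat_lit 3548524368) (nat_lit 5797) (nat_lit 1287787804079575),Row.mk (nat_lit 31920) (nat_lit 5610) (nat_lit 99229637882742) (nat_lit 6171) (nat_lit 2832758635) (nat_lit 6358) (nat_lit 1271949701272602),Row.mk (nat_lit 32088) (nat_lit 6171) (nat_lit 123936712766935) (nat_lit 6732) (nat_lit 2259676524) (nat_lit 6919) (nat_lit 1252168292941999),Row.mk (nat_lit 32256) (nat_lit 6732) (nat_lit 154794996344517) (nat_lit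 7293) (nat_lit 1800834906) (nat_lit 7480) (nat_lit 1227461791139917),Row.mk (nat_lit 32424) (nat_lit 7293) (nat_lit 193336042405867) (nat_lit 7854) (nat_lit 1433460622) (nat_lit 8041) (nat_lit 1196603966403953),Row.mk (nat_lit 32592) (nat_lit 7854) (nat_lit 241472714478605) (nat_lit 8415) (nat_lit 1139320207) (nat_lit 8602) (nat_lit 1158063287716886),Row.mk (nat_lit 32760) (nat_lit 8415) (nat_lit 301594124788753) (nat_lit 8976) (nat_lit 903814925) (nat_lit 9163) (nat_lit 1109926909784565),Row.mk (nat_lit 32928) (nat_lit 8976) (nat_lit 376684210327233) (nat_lit 9537) (nat_lit 715256213) (nat_lit 9724) (nat_lit 1049805734979699),Row.mk (nat_lit 33096) (nat_lit 9537) (nat_lit 470469831171578) (nat_lit 10098) (nat_lit 564285554) (nat_lit 10285) (nat_lit 974715837999930),Row.mk (nat_lit 33264) (nat_lit 10098) (nat_lit 587605741456966) (nat_lit 10659) (nat_lit 443409993) (nat_lit 10846) (nat_lit 880930368126244),Row.mk (nat_lit 33432) (nat_lit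 10659) (nat_lit 733905613448617) (nat_lit 11220) (nat_lit 346630253) (nat_lit 11407) (nat_lit 763794578716417),Row.mk (nat_lit 33600) (nat_lit 11220) (nat_lit 916630580868295) (nat_lit 11781) (nat_lit 269142976) (nat_lit 11968) (nat_lit 617494803504506),Row.mk (nat_lit 33768) (nat_lit 11781) (nat_lit 1144849622414866) (nat_lit 12529) (nat_lit 207102324) (nat_lit 12716) (nat_lit 434769913572106),Row.mk (nat_lit 33936) (nat_lit 12529) (nat_lit 1429889671980777) (nat_lit 13277) (nat_lit 157429105) (nat_lit 13464) (nat_lit 206550934066186),Row.mk (nat_lit 34104) (nat_lit 12342) (nat_lit 98030802810434) (nat_lit 13090) (nat_lit 146951936) (nat_lit 13277) (nat_lit 1609377897437549),Row.mk (nat_lit 34272) (nat_lit 13090) (nat_lit 542676350749002) (nat_lit 13838) (nat_lit 107180777) (nat_lit 14025) (nat_lit 1253369813821005),Row.mk (nat_lit 34440) (nat_lit 13838) (nat_lit 1098027895751494) (nat_lit 14960) (nat_lit 75337761) (nat_lit 15147)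 (nat_lit 808724305653597),Row.mk (nat_lit 34608) (nat_lit 14960) (nat_lit 1791648563991266) (nat_lit 16269) (nat_lit 49842459) (nat_lit 16456) (nat_lit 253372792494122),Row.mk (nat_lit 34776) (nat_lit 14773) (nat_lit 549858907752582) (nat_lit 16082) (nat_lit 36756728) (nat_lit 16269) (nat_lit 1667857269092650),Row.mk (nat_lit 34944) (nat_lit 16082) (nat_lit 1631866026413609) (nat_lit 17578) (nat_lit 16343762) (nat_lit 17765) (nat_lit 801541819074067),Row.mk (nat_lit 35112) (nat_lit 15895) (nat_lit 350294367798561) (nat_lit 17578) (nat_lit 2352507159368193) (nat_lit 0) (nat_lit 0),Row.mk (nat_lit 35280) (nat_lit 17391) (nat_lit 2038161320585447) (nat_lit 17578) (nat_lit 16343762) (nat_lit 19635) (nat_lit 1001106379441053),Row.mk (nat_lit 35448) (nat_lit 17204) (nat_lit 857747368417696) (nat_lit 17391) (nat_lit 36756728) (nat_lit 19448) (nat_lit 2601758464666219),Row.mk (nat_lit 35616) (nat_lit 19261) (nat_lit 3490719790616121) (nat_lit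 19448) (nat_lit 49842459) (nat_lit 25806) (nat_lit 493653345323221),Row.mk (nat_lit 35784) (nat_lit 19074) (nat_lit 2671957856248452) (nat_lit 19261) (nat_lit 75337761) (nat_lit 25619) (nat_lit 1967961870009216),Row.mk (nat_lit 35952) (nat_lit 18887) (nat_lit 1649343951876634) (nat_lit 19074) (nat_lit 107180777) (nat_lit 25432) (nat_lit 3809337651410386),Row.mk (nat_lit 36120) (nat_lit 18700) (nat_lit 372123854654845) (nat_lit 18887) (nat_lit 146951936) (nat_lit 25245) (nat_lit 6109171581389817)],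
[Row.mk (nat_lit 30240) (nat_lit 32912) (nat_lit 2141501622982) (nat_lit 61897) (nat_lit 1685725459552511) (nat_lit 0) (nat_lit 0),Row.mk (nat_lit 30408) (nat_lit 0) (nat_lit 13390818888374) (nat_lit 561) (nat_lit 26513397619) (nat_lit 748) (nat_lit 1677124293889659),Row.mk (nat_lit 30576) (nat_lit 561) (nat_lit 16736715103607) (nat_lit 1122) (nat_lit 21219721658) (nat_lit 1309) (nat_lit 1674449620500891),Row.mk (nat_lit 30744) (nat_lit 1122) (nat_lit 20913285500410) (nat_lit 1683) (nat_lit 16981308361) (nat_lit 1870) (nat_lit 1671109017961619),Row.mk (nat_lit 30912) (nat_lit 1683) (nat_lit 26127821006222) (nat_lit 2244) (nat_lit 13587797423) (nat_lit 2431) (nat_lit 1666936685978114),Row.mk (nat_lit 31080) (nat_lit 2244) (nat_lit 32639128680060) (nat_lit 2805) (nat_lit 10870762608) (nat_lit 2992) (nat_lit 1661725543983240),Row.mk (nat_lit 31248) (nat_lit 2805) (nat_lit 40770376786390) (nat_lit 3366) (nat_lit 8695352445) (nat_lit 3553)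 (nat_lit 1655216953344216),Row.mk (nat_lit 31416) (nat_lit 3366) (nat_lit 50925134234886) (nat_lit 3927) (nat_lit 6953597296) (nat_lit 4114) (nat_lit 1647087880648049),Row.mk (nat_lit 31584) (nat_lit 3927) (nat_lit 63607400453174) (nat_lit 4488) (nat_lit 5559050627) (nat_lit 4675) (nat_lit 1636934864954701),Row.mk (nat_lit 31752) (nat_lit 4488) (nat_lit 79446619812273) (nat_lit 5049) (nat_lit 4442498501) (nat_lit 5236) (nat_lit 1624253993283083),Row.mk (nat_lit 31920) (nat_lit 5049) (nat_lit 99228922117009) (nat_lit 5610) (nat_lit 3548524368) (nat_lit 5797) (nat_lit 1608415890476110),Row.mk (nat_lit 32088) (nat_lit 5610) (nat_lit 123936139684824) (nat_lit 6171) (nat_lit 2832758635) (nat_lit 6358) (nat_lit 1588634482145507),Row.mk (nat_lit 32256) (nat_lit 6171) (nat_lit 154794537502899) (nat_lit 6732) (nat_lit 2259676524) (nat_lit 6919) (nat_lit 1563927980343425),Row.mk (nat_lit 32424) (nat_lit 6732) (nat_lit 193335675031584) (nat_lit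 7293) (nat_lit 1800834906) (nat_lit 7480) (nat_lit 1533070155607461),Row.mk (nat_lit 32592) (nat_lit 7293) (nat_lit 241472420338189) (nat_lit 7854) (nat_lit 1433460622) (nat_lit 8041) (nat_lit 1494529476920395),Row.mk (nat_lit 32760) (nat_lit 7854) (nat_lit 301593889283471) (nat_lit 8415) (nat_lit 1139320207) (nat_lit 8602) (nat_lit 1446393098988073),Row.mk (nat_lit 32928) (nat_lit 8415) (nat_lit 376684021768522) (nat_lit 8976) (nat_lit 903814925) (nat_lit 9163) (nat_lit 1386271924183207),Row.mk (nat_lit 33096) (nat_lit 8976) (nat_lit 470469680200919) (nat_lit 9537) (nat_lit 715256213) (nat_lit 9724) (nat_lit 1311182027203438),Row.mk (nat_lit 33264) (nat_lit 9537) (nat_lit 587605620581406) (nat_lit 10098) (nat_lit 564285554) (nat_lit 10285) (nat_lit 1217396557329753),Row.mk (nat_lit 33432) (nat_lit 10098) (nat_lit 733905516668877) (nat_lit 10659) (nat_lit 443409993) (nat_lit 10846) (nat_lit 1100260767919925),Row.mk (nat_lit 33600)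 (nat_lit 10659) (nat_lit 916630503381017) (nat_lit 11220) (nat_lit 346630253) (nat_lit 11407) (nat_lit 953960992708014),Row.mk (nat_lit 33768) (nat_lit 11220) (nat_lit 1144849560374214) (nat_lit 11781) (nat_lit 269142976) (nat_lit 11968) (nat_lit 771236102775614),Row.mk (nat_lit 33936) (nat_lit 11781) (nat_lit 1429889622307558) (nat_lit 12529) (nat_lit 207102324) (nat_lit 12716) (nat_lit 543017123269694),Row.mk (nat_lit 34104) (nat_lit 12529) (nat_lit 1785897755597320) (nat_lit 13277) (nat_lit 157429105) (nat_lit 13464) (nat_lit 257977123377002),Row.mk (nat_lit 34272) (nat_lit 12342) (nat_lit 122438157507462) (nat_lit 13090) (nat_lit 146951936) (nat_lit 13277) (nat_lit 2010074156494895),Row.mk (nat_lit 34440) (nat_lit 13090) (nat_lit 677789710438097) (nat_lit 13838) (nat_lit 107180777) (nat_lit 14025) (nat_lit 1565428648327486),Row.mk (nat_lit 34608) (nat_lit 13838) (nat_lit 1371410385025583) (nat_lit 14960) (nat_lit 75337761) (nat_lit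 15147) (nat_lit 1010077135168011),Row.mk (nat_lit 34776) (nat_lit 14960) (nat_lit 2237725860539467) (nat_lit 16269) (nat_lit 49842459) (nat_lit 16456) (nat_lit 316456492423541),Row.mk (nat_lit 34944) (nat_lit 14773) (nat_lit 686760536589104) (nat_lit 16082) (nat_lit 36756728) (nat_lit 16269) (nat_lit 2083113477689114),Row.mk (nat_lit 35112) (nat_lit 16082) (nat_lit 2038161320585447) (nat_lit 17578) (nat_lit 16343762) (nat_lit 17765) (nat_lit 1001106379441053),Row.mk (nat_lit 35280) (nat_lit 15895) (nat_lit 437509235360281) (nat_lit 17578) (nat_lit 2938224670213490) (nat_lit 0) (nat_lit 0),Row.mk (nat_lit 35448) (nat_lit 17391) (nat_lit 2545614341617548) (nat_lit 17578) (nat_lit 16343762) (nat_lit 19635) (nat_lit 1250357701082841),Row.mk (nat_lit 35616) (nat_lit 17204) (nat_lit 1071305796518587) (nat_lit 17391) (nat_lit 36756728) (nat_lit 19448) (nat_lit 3249533541709994),Row.mk (nat_lit 35784) (nat_lit 19261) (nat_lit 4359824834530639)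 (nat_lit 19448) (nat_lit 49842459) (nat_lit 25806) (nat_lit 616561106425838),Row.mk (nat_lit 35952) (nat_lit 19074) (nat_lit 3337210936506536) (nat_lit 19261) (nat_lit 75337761) (nat_lit 25619) (nat_lit 2457936887827008),Row.mk (nat_lit 36120) (nat_lit 18887) (nat_lit 2059990847212890) (nat_lit 19074) (nat_lit 107180777) (nat_lit 25432) (nat_lit 4757770817806439)],
[Row.mk (nat_lit 30576) (nat_lit 0) (nat_lit 16731421427646) (nat_lit 561) (nat_lit 26513397619) (nat_lit 748) (nat_lit 2094687773971271),Row.mk (nat_lit 30744) (nat_lit 561) (nat_lit 20909047087113) (nat_lit 1122) (nat_lit 21219721658) (nat_lit 1309) (nat_lit 2091347171432000),Row.mk (nat_lit 30912) (nat_lit 1122) (nat_lit 26124427495284) (nat_lit 1683) (nat_lit 16981308361) (nat_lit 1870) (nat_lit 2087174839448495),Row.mk (nat_lit 31080) (nat_lit 1683) (nat_lit 32636411645245) (nat_lit 2244) (nat_lit 13587797423) (nat_lit 2431) (nat_lit 2081963697453621),Row.mk (nat_lit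 31248) (nat_lit 2244) (nat_lit 40768201376227) (nat_lit 2805) (nat_lit 10870762608) (nat_lit 2992) (nat_lit 2075455106814597),Row.mk (nat_lit 31416) (nat_lit 2805) (nat_lit 50923392479738) (nat_lit 3366) (nat_lit 8695352445) (nat_lit 3553) (nat_lit 2067326034118429),Row.mk (nat_lit 31584) (nat_lit 3366) (nat_lit 63606005906505) (nat_lit 3927) (nat_lit 6953597296) (nat_lit 4114) (nat_lit 2057173018425082),Row.mk (nat_lit 31752) (nat_lit 3927) (nat_lit 79445503260148) (nat_lit 4488) (nat_lit 5559050627) (nat_lit 4675) (nat_lit 2044492146753464),Row.mk (nat_lit 31920) (nat_lit 4488) (nat_lit 99228028142876) (nat_lit 5049) (nat_lit 4442498501) (nat_lit 5236) (nat_lit 2028654043946491),Row.mk (nat_lit 32088) (nat_lit 5049) (nat_lit 123935423919091) (nat_lit 5610) (nat_lit 3548524368) (nat_lit 5797) (nat_lit 2008872635615888),Row.mk (nat_lit 32256) (nat_lit 5610) (nat_lit 154793964420788) (nat_lit 6171) (nat_lit 2832758635) (nat_lit 6358)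 (nat_lit 1984166133813806),Row.mk (nat_lit 32424) (nat_lit 6171) (nat_lit 193335216189966) (nat_lit 6732) (nat_lit 2259676524) (nat_lit 6919) (nat_lit 1953308309077842),Row.mk (nat_lit 32592) (nat_lit 6732) (nat_lit 241472052963905) (nat_lit 7293) (nat_lit 1800834906) (nat_lit 7480) (nat_lit 1914767630390775),Row.mk (nat_lit 32760) (nat_lit 7293) (nat_lit 301593595143055) (nat_lit 7854) (nat_lit 1433460622) (nat_lit 8041) (nat_lit 1866631252458454),Row.mk (nat_lit 32928) (nat_lit 7854) (nat_lit 376683786263240) (nat_lit 8415) (nat_lit 1139320207) (nat_lit 8602) (nat_lit 1806510077653588),Row.mk (nat_lit 33096) (nat_lit 8415) (nat_lit 470469491642207) (nat_lit 8976) (nat_lit 903814925) (nat_lit 9163) (nat_lit 1731420180673819),Row.mk (nat_lit 33264) (nat_lit 8976) (nat_lit 587605469610746) (nat_lit 9537) (nat_lit 715256213) (nat_lit 9724) (nat_lit 1637634710800133),Row.mk (nat_lit 33432) (nat_lit 9537) (nat_lit 733905395793316) (nat_lit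 10098) (nat_lit 564285554) (nat_lit 10285) (nat_lit 1520498921390306),Row.mk (nat_lit 33600) (nat_lit 10098) (nat_lit 916630406601277) (nat_lit 10659) (nat_lit 443409993) (nat_lit 10846) (nat_lit 1374199146178395),Row.mk (nat_lit 33768) (nat_lit 10659) (nat_lit 1144849482886937) (nat_lit 11220) (nat_lit 346630253) (nat_lit 11407) (nat_lit 1191474256245995),Row.mk (nat_lit 33936) (nat_lit 11220) (nat_lit 1429889560266906) (nat_lit 11781) (nat_lit 269142976) (nat_lit 11968) (nat_lit 963255276740075),Row.mk (nat_lit 34104) (nat_lit 11781) (nat_lit 1785897705924102) (nat_lit 12529) (nat_lit 207102324) (nat_lit 12716) (nat_lit 678215276847383),Row.mk (nat_lit 34272) (nat_lit 12529) (nat_lit 2230543263764728) (nat_lit 13277) (nat_lit 157429105) (nat_lit 13464) (nat_lit 322207193230840),Row.mk (nat_lit 34440) (nat_lit 12342) (nat_lit 152922354725779) (nat_lit 13090) (nat_lit 146951936) (nat_lit 13277) (nat_lit 2510534117739025),Row.mk (nat_lit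 34608) (nat_lit 13090) (nat_lit 846543037241409) (nat_lit 13838) (nat_lit 107180777) (nat_lit 14025) (nat_lit 1955182604579550),Row.mk (nat_lit 34776) (nat_lit 13838) (nat_lit 1712858519103008) (nat_lit 14960) (nat_lit 75337761) (nat_lit 15147) (nat_lit 1261561961835080),Row.mk (nat_lit 34944) (nat_lit 14960) (nat_lit 2794865642846371) (nat_lit 16269) (nat_lit 49842459) (nat_lit 16456) (nat_lit 395246511816497),Row.mk (nat_lit 35112) (nat_lit 14773) (nat_lit 857747368417696) (nat_lit 16082) (nat_lit 36756728) (nat_lit 16269) (nat_lit 2601758464666219),Row.mk (nat_lit 35280) (nat_lit 16082) (nat_lit 2545614341617548) (nat_lit 17578) (nat_lit 16343762) (nat_lit 17765) (nat_lit 1250357701082841),Row.mk (nat_lit 35448) (nat_lit 15895) (nat_lit 546438500990394) (nat_lit 17578) (nat_lit 3669771711524138) (nat_lit 0) (nat_lit 0),Row.mk (nat_lit 35616) (nat_lit 17391) (nat_lit 3179410923188819) (nat_lit 17578) (nat_lit 16343762) (nat_lit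 19635) (nat_lit 1561666588923109),Row.mk (nat_lit 35784) (nat_lit 17204) (nat_lit 1338035121374684) (nat_lit 17391) (nat_lit 36756728) (nat_lit 19448) (nat_lit 4058588986137905),Row.mk (nat_lit 35952) (nat_lit 19261) (nat_lit 5445316068259104) (nat_lit 19448) (nat_lit 49842459) (nat_lit 25806) (nat_lit 770069935040122),Row.mk (nat_lit 36120) (nat_lit 19074) (nat_lit 4168095985313173) (nat_lit 19261) (nat_lit 75337761) (nat_lit 25619) (nat_lit 3069903865019553),Row.mk (nat_lit 36288) (nat_lit 18887) (nat_lit 2572878913122170) (nat_lit 19074) (nat_lit 107180777) (nat_lit 25432) (nat_lit 5942340962818169)],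
[Row.mk (nat_lit 30744) (nat_lit 0) (nat_lit 20903753411151) (nat_lit 561) (nat_lit 26513397619) (nat_lit 748) (nat_lit 2616214487373158),Row.mk (nat_lit 30912) (nat_lit 561) (nat_lit 26120189081987) (nat_lit 1122) (nat_lit 21219721658) (nat_lit 1309) (nat_lit 2612042155389653),Row.mk (nat_lit 31080) (nat_lit 1122) (nat_lit 32633018134307) (nat_lit 1683) (nat_lit 16981308361) (nat_lit 1870) (nat_lit 2606831013394779),Row.mk (nat_lit 31248) (nat_lit 1683) (nat_lit 40765484341413) (nat_lit 2244) (nat_lit 13587797423) (nat_lit 2431) (nat_lit 2600322422755755),Row.mk (nat_lit 31416) (nat_lit 2244) (nat_lit 50921217069575) (nat_lit 2805) (nat_lit 10870762608) (nat_lit 2992) (nat_lit 2592193350059588),Row.mk (nat_lit 31584) (nat_lit 2805) (nat_lit 63604264151356) (nat_lit 3366) (nat_lit 8695352445) (nat_lit 3553) (nat_lit 2582040334366241),Row.mk (nat_lit 31752) (nat_lit 3366) (nat_lit 79444108713478) (nat_lit 3927) (nat_lit 6953597296)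 (nat_lit 4114) (nat_lit 2569359462694622),Row.mk (nat_lit 31920) (nat_lit 3927) (nat_lit 99226911590750) (nat_lit 4488) (nat_lit 5559050627) (nat_lit 4675) (nat_lit 2553521359887649),Row.mk (nat_lit 32088) (nat_lit 4488) (nat_lit 123934529944958) (nat_lit 5049) (nat_lit 4442498501) (nat_lit 5236) (nat_lit 2533739951557046),Row.mk (nat_lit 32256) (nat_lit 5049) (nat_lit 154793248655055) (nat_lit 5610) (nat_lit 3548524368) (nat_lit 5797) (nat_lit 2509033449754964),Row.mk (nat_lit 32424) (nat_lit 5610) (nat_lit 193334643107854) (nat_lit 6171) (nat_lit 2832758635) (nat_lit 6358) (nat_lit 2478175625019000),Row.mk (nat_lit 32592) (nat_lit 6171) (nat_lit 241471594122288) (nat_lit 6732) (nat_lit 2259676524) (nat_lit 6919) (nat_lit 2439634946331934),Row.mk (nat_lit 32760) (nat_lit 6732) (nat_lit 301593227768771) (nat_lit 7293) (nat_lit 1800834906) (nat_lit 7480) (nat_lit 2391498568399612),Row.mk (nat_lit 32928) (nat_lit 7293) (nat_lit 376683492122824)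 (nat_lit 7854) (nat_lit 1433460622) (nat_lit 8041) (nat_lit 2331377393594746),Row.mk (nat_lit 33096) (nat_lit 7854) (nat_lit 470469256136925) (nat_lit 8415) (nat_lit 1139320207) (nat_lit 8602) (nat_lit 2256287496614977),Row.mk (nat_lit 33264) (nat_lit 8415) (nat_lit 587605281052035) (nat_lit 8976) (nat_lit 903814925) (nat_lit 9163) (nat_lit 2162502026741292),Row.mk (nat_lit 33432) (nat_lit 8976) (nat_lit 733905244822657) (nat_lit 9537) (nat_lit 715256213) (nat_lit 9724) (nat_lit 2045366237331464),Row.mk (nat_lit 33600) (nat_lit 9537) (nat_lit 916630285725717) (nat_lit 10098) (nat_lit 564285554) (nat_lit 10285) (nat_lit 1899066462119553),Row.mk (nat_lit 33768) (nat_lit 10098) (nat_lit 1144849386107197) (nat_lit 10659) (nat_lit 443409993) (nat_lit 10846) (nat_lit 1716341572187153),Row.mk (nat_lit 33936) (nat_lit 10659) (nat_lit 1429889482779629) (nat_lit 11220) (nat_lit 346630253) (nat_lit 11407) (nat_lit 1488122592681233),Row.mk (nat_lit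 34104) (nat_lit 11220) (nat_lit 1785897643883450) (nat_lit 11781) (nat_lit 269142976) (nat_lit 11968) (nat_lit 1203082592788542),Row.mk (nat_lit 34272) (nat_lit 11781) (nat_lit 2230543214091510) (nat_lit 12529) (nat_lit 207102324) (nat_lit 12716) (nat_lit 847074509171998),Row.mk (nat_lit 34440) (nat_lit 12529) (nat_lit 2785894776924204) (nat_lit 13277) (nat_lit 157429105) (nat_lit 13464) (nat_lit 402429001004590),Row.mk (nat_lit 34608) (nat_lit 12342) (nat_lit 190996381656622) (nat_lit 13090) (nat_lit 146951936) (nat_lit 13277) (nat_lit 3135596536334335),Row.mk (nat_lit 34776) (nat_lit 13090) (nat_lit 1057311871446364) (nat_lit 13838) (nat_lit 107180777) (nat_lit 14025) (nat_lit 2441975893589865),Row.mk (nat_lit 34944) (nat_lit 13838) (nat_lit 2139319001537442) (nat_lit 14960) (nat_lit 75337761) (nat_lit 15147) (nat_lit 1575660443571282),Row.mk (nat_lit 35112) (nat_lit 14960) (nat_lit 3490719790616121) (nat_lit 16269) (nat_lit 49842459)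 (nat_lit 16456) (nat_lit 493653345323221),Row.mk (nat_lit 35280) (nat_lit 14773) (nat_lit 1071305796518587) (nat_lit 16082) (nat_lit 36756728) (nat_lit 16269) (nat_lit 3249533541709994),Row.mk (nat_lit 35448) (nat_lit 16082) (nat_lit 3179410923188819) (nat_lit 17578) (nat_lit 16343762) (nat_lit 17765) (nat_lit 1561666588923109),Row.mk (nat_lit 35616) (nat_lit 15895) (nat_lit 682488525974023) (nat_lit 17578) (nat_lit 4583456318422826) (nat_lit 0) (nat_lit 0),Row.mk (nat_lit 35784) (nat_lit 17391) (nat_lit 3971007563986074) (nat_lit 17578) (nat_lit 16343762) (nat_lit 19635) (nat_lit 1950483879880639),Row.mk (nat_lit 35952) (nat_lit 17204) (nat_lit 1671173613593678) (nat_lit 17391) (nat_lit 36756728) (nat_lit 19448) (nat_lit 5069079718732438),Row.mk (nat_lit 36120) (nat_lit 19261) (nat_lit 6801068433006900) (nat_lit 19448) (nat_lit 49842459) (nat_lit 25806) (nat_lit 961798758762286),Row.mk (nat_lit 36288) (nat_lit 19074) (nat_lit 5205851367163612)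 (nat_lit 19261) (nat_lit 75337761) (nat_lit 25619) (nat_lit 3834235856560902)],
[Row.mk (nat_lit 32088) (nat_lit 3927) (nat_lit 123933413392832) (nat_lit 4488) (nat_lit 5559050627) (nat_lit 4675) (nat_lit 3189286567370673),Row.mk (nat_lit 32256) (nat_lit 4488) (nat_lit 154792354680922) (nat_lit 5049) (nat_lit 4442498501) (nat_lit 5236) (nat_lit 3164580065568591),Row.mk (nat_lit 32424) (nat_lit 5049) (nat_lit 193333927342122) (nat_lit 5610) (nat_lit 3548524368) (nat_lit 5797) (nat_lit 3133722240832627),Row.mk (nat_lit 32592) (nat_lit 5610) (nat_lit 241471021040176) (nat_lit 6171) (nat_lit 2832758635) (nat_lit 6358) (nat_lit 3095181562145561),Row.mk (nat_lit 32760) (nat_lit 6171) (nat_lit 301592768927154) (nat_lit 6732) (nat_lit 2259676524) (nat_lit 6919) (nat_lit 3047045184213239),Row.mk (nat_lit 32928) (nat_lit 6732) (nat_lit 376683124748540) (nat_lit 7293) (nat_lit 1800834906) (nat_lit 7480) (nat_lit 2986924009408373),Row.mk (nat_lit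 33096) (nat_lit 7293) (nat_lit 470468961996509) (nat_lit 7854) (nat_lit 1433460622) (nat_lit 8041) (nat_lit 2911834112428604),Row.mk (nat_lit 33264) (nat_lit 7854) (nat_lit 587605045546753) (nat_lit 8415) (nat_lit 1139320207) (nat_lit 8602) (nat_lit 2818048642554919),Row.mk (nat_lit 33432) (nat_lit 8415) (nat_lit 733905056263946) (nat_lit 8976) (nat_lit 903814925) (nat_lit 9163) (nat_lit 2700912853145091),Row.mk (nat_lit 33600) (nat_lit 8976) (nat_lit 916630134755057) (nat_lit 9537) (nat_lit 715256213) (nat_lit 9724) (nat_lit 2554613077933180),Row.mk (nat_lit 33768) (nat_lit 9537) (nat_lit 1144849265231636) (nat_lit 10098) (nat_lit 564285554) (nat_lit 10285) (nat_lit 2371888188000780),Row.mk (nat_lit 33936) (nat_lit 10098) (nat_lit 1429889385999889) (nat_lit 10659) (nat_lit 443409993) (nat_lit 10846) (nat_lit 2143669208494860),Row.mk (nat_lit 34104) (nat_lit 10659) (nat_lit 1785897566396173) (nat_lit 11220) (nat_lit 346630253) (nat_lit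 11407) (nat_lit 1858629208602169),Row.mk (nat_lit 34272) (nat_lit 11220) (nat_lit 2230543152050858) (nat_lit 11781) (nat_lit 269142976) (nat_lit 11968) (nat_lit 1502621124985625),Row.mk (nat_lit 34440) (nat_lit 11781) (nat_lit 2785894727250985) (nat_lit 12529) (nat_lit 207102324) (nat_lit 12716) (nat_lit 1057975616818217),Row.mk (nat_lit 34608) (nat_lit 12529) (nat_lit 3479515419668674) (nat_lit 13277) (nat_lit 157429105) (nat_lit 13464) (nat_lit 502624103658741),Row.mk (nat_lit 34776) (nat_lit 12342) (nat_lit 238549922802837) (nat_lit 13090) (nat_lit 146951936) (nat_lit 13277) (nat_lit 3916284418275860),Row.mk (nat_lit 34944) (nat_lit 13090) (nat_lit 1320557060822058) (nat_lit 13838) (nat_lit 107180777) (nat_lit 14025) (nat_lit 3049968968257277),Row.mk (nat_lit 35112) (nat_lit 13838) (nat_lit 2671957856248452) (nat_lit 14960) (nat_lit 75337761) (nat_lit 15147) (nat_lit 1967961870009216),Row.mk (nat_lit 35280) (nat_lit 14960) (nat_lit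 4359824834530639) (nat_lit 16269) (nat_lit 49842459) (nat_lit 16456) (nat_lit 616561106425838),Row.mk (nat_lit 35448) (nat_lit 14773) (nat_lit 1338035121374684) (nat_lit 16082) (nat_lit 36756728) (nat_lit 16269) (nat_lit 4058588986137905),Row.mk (nat_lit 35616) (nat_lit 16082) (nat_lit 3971007563986074) (nat_lit 17578) (nat_lit 16343762) (nat_lit 17765) (nat_lit 1950483879880639),Row.mk (nat_lit 35784) (nat_lit 15895) (nat_lit 852411725134275) (nat_lit 17578) (nat_lit 5724626350889827) (nat_lit 0) (nat_lit 0),Row.mk (nat_lit 35952) (nat_lit 17391) (nat_lit 4959692672018695) (nat_lit 17578) (nat_lit 16343762) (nat_lit 19635) (nat_lit 2436107296534013),Row.mk (nat_lit 36120) (nat_lit 17204) (nat_lit 2087255553807114) (nat_lit 17391) (nat_lit 36756728) (nat_lit 19448) (nat_lit 6331158266861430),Row.mk (nat_lit 36288) (nat_lit 19261) (nat_lit 8494370430670965) (nat_lit 19448) (nat_lit 49842459) (nat_lit 25806) (nat_lit 1201263434362477),Row.mk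 (nat_lit 36456) (nat_lit 19074) (nat_lit 6501982804486144) (nat_lit 19261) (nat_lit 75337761) (nat_lit 25619) (nat_lit 4788868075399984)],
[Row.mk (nat_lit 34440) (nat_lit 11220) (nat_lit 2785894665210334) (nat_lit 11781) (nat_lit 269142976) (nat_lit 11968) (nat_lit 1876737525690585),Row.mk (nat_lit 34608) (nat_lit 11781) (nat_lit 3479515369995456) (nat_lit 12529) (nat_lit 207102324) (nat_lit 12716) (nat_lit 1321386012531109),Row.mk (nat_lit 34776) (nat_lit 12529) (nat_lit 4345830869687257) (nat_lit 13277) (nat_lit 157429105) (nat_lit 13464) (nat_lit 627765369786639),Row.mk (nat_lit 34944) (nat_lit 12342) (nat_lit 297943148522097) (nat_lit 13090) (nat_lit 146951936) (nat_lit 13277) (nat_lit 4891344749658447),Row.mk (nat_lit 35112) (nat_lit 13090) (nat_lit 1649343951876634) (nat_lit 13838) (nat_lit 107180777) (nat_lit 14025) (nat_lit 3809337651410386),Row.mk (nat_lit 35280) (nat_lit 13838) (nat_lit 3337210936506536) (nat_lit 14960)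 (nat_lit 75337761) (nat_lit 15147) (nat_lit 2457936887827008),Row.mk (nat_lit 35448) (nat_lit 14960) (nat_lit 5445316068259104) (nat_lit 16269) (nat_lit 49842459) (nat_lit 16456) (nat_lit 770069935040122),Row.mk (nat_lit 35616) (nat_lit 14773) (nat_lit 1671173613593678) (nat_lit 16082) (nat_lit 36756728) (nat_lit 16269) (nat_lit 5069079718732438),Row.mk (nat_lit 35784) (nat_lit 16082) (nat_lit 4959692672018695) (nat_lit 17578) (nat_lit 16343762) (nat_lit 17765) (nat_lit 2436107296534013),Row.mk (nat_lit 35952) (nat_lit 15895) (nat_lit 1064641701691278) (nat_lit 17578) (nat_lit 7149920192077561) (nat_lit 0) (nat_lit 0),Row.mk (nat_lit 36120) (nat_lit 17391) (nat_lit 6194536521104500) (nat_lit 17578) (nat_lit 16343762) (nat_lit 19635) (nat_lit 3042639228849378),Row.mk (nat_lit 36288) (nat_lit 17204) (nat_lit 2606931859654028) (nat_lit 17391) (nat_lit 36756728) (nat_lit 19448) (nat_lit 7907463927337514),Row.mk (nat_lit 36456) (nat_lit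 19261) (nat_lit 10609263776865865) (nat_lit 19448) (nat_lit 49842459) (nat_lit 25806) (nat_lit 1500349037387932)],
[Row.mk (nat_lit 35112) (nat_lit 12342) (nat_lit 372123854654845) (nat_lit 13090) (nat_lit 146951936) (nat_lit 13277) (nat_lit 6109171581389817),Row.mk (nat_lit 35280) (nat_lit 13090) (nat_lit 2059990847212890) (nat_lit 13838) (nat_lit 107180777) (nat_lit 14025) (nat_lit 4757770817806439),Row.mk (nat_lit 35448) (nat_lit 13838) (nat_lit 4168095985313173) (nat_lit 14960) (nat_lit 75337761) (nat_lit 15147) (nat_lit 3069903865019553),Row.mk (nat_lit 35616) (nat_lit 14960) (nat_lit 6801068433006900) (nat_lit 16269) (nat_lit 49842459) (nat_lit 16456) (nat_lit 961798758762286),Row.mk (nat_lit 35784) (nat_lit 14773) (nat_lit 2087255553807114) (nat_lit 16082) (nat_lit 36756728) (nat_lit 16269) (nat_lit 6331158266861430),Row.mk (nat_lit 35952) (nat_lit 16082) (nat_lit 6194536521104500) (nat_lit 17578) (nat_lit 16343762) (nat_lit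 17765) (nat_lit 3042639228849378),Row.mk (nat_lit 36120) (nat_lit 15895) (nat_lit 1329711822616364) (nat_lit 17578) (nat_lit 8930077816210079) (nat_lit 0) (nat_lit 0),Row.mk (nat_lit 36288) (nat_lit 17391) (nat_lit 7736826699480215) (nat_lit 17578) (nat_lit 16343762) (nat_lit 19635) (nat_lit 3800182980453094),Row.mk (nat_lit 36456) (nat_lit 17204) (nat_lit 3255995029086859) (nat_lit 17391) (nat_lit 36756728) (nat_lit 19448) (nat_lit 9876231670781471),Row.mk (nat_lit 36624) (nat_lit 19261) (nat_lit 13250714546988217) (nat_lit 19448) (nat_lit 49842459) (nat_lit 25806) (nat_lit 1873899740483902)],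
[Row.mk (nat_lit 35448) (nat_lit 13090) (nat_lit 2572878913122170) (nat_lit 13838) (nat_lit 107180777) (nat_lit 14025) (nat_lit 5942340962818169),Row.mk (nat_lit 35616) (nat_lit 13838) (nat_lit 5205851367163612) (nat_lit 14960) (nat_lit 75337761) (nat_lit 15147) (nat_lit 3834235856560902),Row.mk (nat_lit 35784) (nat_lit 14960) (nat_lit 8494370430670965) (nat_lit 16269) (nat_lit 49842459) (nat_lit 16456) (nat_lit 1201263434362477),Row.mk (nat_lit 35952) (nat_lit 14773) (nat_lit 2606931859654028) (nat_lit 16082) (nat_lit 36756728) (nat_lit 16269) (nat_lit 7907463927337514),Row.mk (nat_lit 36120) (nat_lit 16082) (nat_lit 7736826699480215) (nat_lit 17578) (nat_lit 16343762) (nat_lit 17765) (nat_lit 3800182980453094),Row.mk (nat_lit 36288) (nat_lit 15895) (nat_lit 1660778009151838) (nat_lit 17578) (nat_lit 11153451744575863) (nat_lit 0) (nat_lit 0),Row.mk (nat_lit 36456) (nat_lit 17391) (nat_lit 9663109926363676) (nat_lit 17578) (nat_lit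 16343762) (nat_lit 19635) (nat_lit 4746336851368249),Row.mk (nat_lit 36624) (nat_lit 17204) (nat_lit 4066659269835011) (nat_lit 17391) (nat_lit 36756728) (nat_lit 19448) (nat_lit 12335175088173468)],
[Row.mk (nat_lit 35784) (nat_lit 13838) (nat_lit 6501982804486144) (nat_lit 14960) (nat_lit 75337761) (nat_lit 15147) (nat_lit 4788868075399984),Row.mk (nat_lit 35952) (nat_lit 14960) (nat_lit 10609263776865865) (nat_lit 16269) (nat_lit 49842459) (nat_lit 16456) (nat_lit 1500349037387932),Row.mk (nat_lit 36120) (nat_lit 14773) (nat_lit 3255995029086859) (nat_lit 16082) (nat_lit 36756728) (nat_lit 16269) (nat_lit 9876231670781471),Row.mk (nat_lit 36288) (nat_lit 16082) (nat_lit 9663109926363676) (nat_lit 17578) (nat_lit 16343762) (nat_lit 17765) (nat_lit 4746336851368249),Row.mk (nat_lit 36456) (nat_lit 15895) (nat_lit 2074271689558456) (nat_lit 17578) (nat_lit 13930392144865218) (nat_lit 0) (nat_lit 0),Row.mk (nat_lit 36624) (nat_lit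 17391) (nat_lit 12068991207459814) (nat_lit 17578) (nat_lit 16343762) (nat_lit 19635) (nat_lit 5928060211309617),Row.mk (nat_lit 36792) (nat_lit 17204) (nat_lit 5079159350223235) (nat_lit 17391) (nat_lit 36756728) (nat_lit 19448) (nat_lit 15406336097424101)],
[Row.mk (nat_lit 36120) (nat_lit 14960) (nat_lit 13250714546988217) (nat_lit 16269) (nat_lit 49842459) (nat_lit 16456) (nat_lit 1873899740483902),Row.mk (nat_lit 36288) (nat_lit 14773) (nat_lit 4066659269835011) (nat_lit 16082) (nat_lit 36756728) (nat_lit 16269) (nat_lit 12335175088173468),Row.mk (nat_lit 36456) (nat_lit 16082) (nat_lit 12068991207459814) (nat_lit 17578) (nat_lit 16343762) (nat_lit 17765) (nat_lit 5928060211309617),Row.mk (nat_lit 36624) (nat_lit 15895) (nat_lit 2590715321345330) (nat_lit 17578) (nat_lit 17398723714457384) (nat_lit 0) (nat_lit 0),Row.mk (nat_lit 36792) (nat_lit 17391) (nat_lit 15073878888537558) (nat_lit 17578) (nat_lit 16343762) (nat_lit 19635)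 (nat_lit 7404004180212264),Row.mk (nat_lit 36960) (nat_lit 17204) (nat_lit 6343747525273434) (nat_lit 17391) (nat_lit 36756728) (nat_lit 19448) (nat_lit 19242142109888251)],
[Row.mk (nat_lit 36456) (nat_lit 14773) (nat_lit 5079159350223235) (nat_lit 16082) (nat_lit 36756728) (nat_lit 16269) (nat_lit 15406336097424101),Row.mk (nat_lit 36624) (nat_lit 16082) (nat_lit 15073878888537558) (nat_lit 17578) (nat_lit 16343762) (nat_lit 17765) (nat_lit 7404004180212264),Row.mk (nat_lit 36792) (nat_lit 15895) (nat_lit 3235740958861571) (nat_lit 17578) (nat_lit 21730586175522884) (nat_lit 0) (nat_lit 0),Row.mk (nat_lit 36960) (nat_lit 17391) (nat_lit 18826911112878627) (nat_lit 17578) (nat_lit 16343762) (nat_lit 19635) (nat_lit 9247422591986893),Row.mk (nat_lit 37128) (nat_lit 17204) (nat_lit 7923187649232353) (nat_lit 17391) (nat_lit 36756728) (nat_lit 19448) (nat_lit 24032971285218987)],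
[Row.mk (nat_lit 36624) (nat_lit 14773) (nat_lit 6343747525273434) (nat_lit 16082) (nat_lit 36756728) (nat_lit 16269) (nat_lit 19242142109888251),Row.mk (nat_lit 36792) (nat_lit 16082) (nat_lit 18826911112878627) (nat_lit 17578) (nat_lit 16343762) (nat_lit 17765) (nat_lit 9247422591986893),Row.mk (nat_lit 36960) (nat_lit 15895) (nat_lit 4041362419646534) (nat_lit 17578) (nat_lit 27140977888387578) (nat_lit 0) (nat_lit 0),Row.mk (nat_lit 37128) (nat_lit 17391) (nat_lit 23514357823662375) (nat_lit 17578) (nat_lit 16343762) (nat_lit 19635) (nat_lit 11549807718026759),Row.mk (nat_lit 37296) (nat_lit 17204) (nat_lit 9895870261951186) (nat_lit 17391) (nat_lit 36756728) (nat_lit 19448) (nat_lit 30016601352177357)],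
[Row.mk (nat_lit 36792) (nat_lit 14773) (nat_lit 7923187649232353) (nat_lit 16082) (nat_lit 36756728) (nat_lit 16269) (nat_lit 24032971285218987),Row.mk (nat_lit 36960) (nat_lit 16082) (nat_lit 23514357823662375) (nat_lit 17578) (nat_lit 16343762) (nat_lit 17765) (nat_lit 11549807718026759),Row.mk (nat_lit 37128) (nat_lit 15895) (nat_lit 5047564189511777) (nat_lit 17578) (nat_lit 33898426618519904) (nat_lit 0) (nat_lit 0),Row.mk (nat_lit 37296) (nat_lit 17391) (nat_lit 29368865686379993) (nat_lit 17578) (nat_lit 16343762) (nat_lit 19635) (nat_lit 14425431198160300)],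
[Row.mk (nat_lit 36960) (nat_lit 14773) (nat_lit 9895870261951186) (nat_lit 16082) (nat_lit 36756728) (nat_lit 16269) (nat_lit 30016601352177357),Row.mk (nat_lit 37128) (nat_lit 16082) (nat_lit 29368865686379993) (nat_lit 17578) (nat_lit 16343762) (nat_lit 17765) (nat_lit 14425431198160300),Row.mk (nat_lit 37296) (nat_lit 15895) (nat_lit 6304285926657989) (nat_lit 17578) (nat_lit 42338317067078440) (nat_lit 0) (nat_lit 0),Row.mk (nat_lit 37464) (nat_lit 17391) (nat_lit 36681004773907139) (nat_lit 17578) (nat_lit 16343762) (nat_lit 19635) (nat_lit 18017015553866462)],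
[Row.mk (nat_lit 37296) (nat_lit 16082) (nat_lit 36681004773907139) (nat_lit 17578) (nat_lit 16343762) (nat_lit 17765) (nat_lit 18017015553866462),Row.mk (nat_lit 37464) (nat_lit 15895) (nat_lit 7873901059443244) (nat_lit 17578) (nat_lit 52879536635055054) (nat_lit 0) (nat_lit 0),Row.mk (nat_lit 37632) (nat_lit 17391) (nat_lit 45813690097609684) (nat_lit 17578) (nat_lit 16343762) (nat_lit 19635) (nat_lit 22502817771462142)],
[Row.mk (nat_lit 37464) (nat_lit 16082) (nat_lit 45813690097609684) (nat_lit 17578) (nat_lit 16343762) (nat_lit 17765) (nat_lit 22502817771462142),Row.mk (nat_lit 37632) (nat_lit 15895) (nat_lit 9834312495202343) (nat_lit 17578) (nat_lit 66045265581130534) (nat_lit 0) (nat_lit 0),Row.mk (nat_lit 37800) (nat_lit 17391) (nat_lit 57220193751792562) (nat_lit 17578) (nat_lit 16343762) (nat_lit 19635) (nat_lit 28105476526620332)],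
[Row.mk (nat_lit 37632) (nat_lit 16082) (nat_lit 57220193751792562) (nat_lit 17578) (nat_lit 16343762) (nat_lit 17765) (nat_lit 28105476526620332),Row.mk (nat_lit 37800) (nat_lit 15895) (nat_lit 12282819085881891) (nat_lit 17578) (nat_lit 82488943427298544) (nat_lit 0) (nat_lit 0),Row.mk (nat_lit 37968) (nat_lit 17391) (nat_lit 71466641647594936) (nat_lit 17578) (nat_lit 16343762) (nat_lit 19635) (nat_lit 35103062154364563)],
[Row.mk (nat_lit 37800) (nat_lit 16082) (nat_lit 71466641647594936) (nat_lit 17578) (nat_lit 16343762) (nat_lit 17765) (nat_lit 35103062154364563),Row.mk (nat_lit 37968) (nat_lit 15895) (nat_lit 15340944750344650) (nat_lit 17578) (nat_lit 103026700373081438) (nat_lit 0) (nat_lit 0),Row.mk (nat_lit 38136) (nat_lit 17391) (nat_lit 89260111390918430) (nat_lit 17578) (nat_lit 16343762) (nat_lit 19635) (nat_lit 43842877795024631)],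
[Row.mk (nat_lit 37968) (nat_lit 16082) (nat_lit 89260111390918430) (nat_lit 17578) (nat_lit 16343762) (nat_lit 17765) (nat_lit 43842877795024631),Row.mk (nat_lit 38136) (nat_lit 15895) (nat_lit 19160469931630862) (nat_lit 17578) (nat_lit 128677863349516697) (nat_lit 0) (nat_lit 0),Row.mk (nat_lit 38304) (nat_lit 17391) (nat_lit 111483725854131751) (nat_lit 17578) (nat_lit 16343762) (nat_lit 19635) (nat_lit 54758696692599154)],
[Row.mk (nat_lit 38136) (nat_lit 16082) (nat_lit 111483725854131751) (nat_lit 17578) (nat_lit 16343762) (nat_lit 17765) (nat_lit 54758696692599154),Row.mk (nat_lit 38304) (nat_lit 15895) (nat_lit 23930964741575954) (nat_lit 17578) (nat_lit 160715547103425822) (nat_lit 0) (nat_lit 0),Row.mk (nat_lit 38472) (nat_lit 17391) (nat_lit 139240484200539285) (nat_lit 17578) (nat_lit 16343762) (nat_lit 19635) (nat_lit 68392291164581171)],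
[Row.mk (nat_lit 38304) (nat_lit 16082) (nat_lit 139240484200539285) (nat_lit 17578) (nat_lit 16343762) (nat_lit 17765) (nat_lit 68392291164581171),Row.mk (nat_lit 38472) (nat_lit 15895) (nat_lit 29889197676709924) (nat_lit 17578) (nat_lit 200729841241216737) (nat_lit 0) (nat_lit 0),Row.mk (nat_lit 38640) (nat_lit 17391) (nat_lit 173908005776571272) (nat_lit 17578) (nat_lit 16343762) (nat_lit 19635) (nat_lit 85420321765909643)],
[Row.mk (nat_lit 38472) (nat_lit 16082) (nat_lit 173908005776571272) (nat_lit 17578) (nat_lit 16343762) (nat_lit 17765) (nat_lit 85420321765909643),Row.mk (nat_lit 38640) (nat_lit 15895) (nat_lit 37330886877441656) (nat_lit 17578) (nat_lit 250706729322281038) (nat_lit 0) (nat_lit 0),Row.mk (nat_lit 38808) (nat_lit 17391) (nat_lit 217206903912498341) (nat_lit 17578) (nat_lit 16343762) (nat_lit 19635) (nat_lit 106687921206075928)],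
[Row.mk (nat_lit 38640) (nat_lit 16082) (nat_lit 217206903912498341) (nat_lit 17578) (nat_lit 16343762) (nat_lit 17765) (nat_lit 106687921206075928),Row.mk (nat_lit 38808) (nat_lit 15895) (nat_lit 46625377167295034) (nat_lit 17578) (nat_lit 313126656902818336) (nat_lit 0) (nat_lit 0),Row.mk (nat_lit 38976) (nat_lit 17391) (nat_lit 271286183150087725) (nat_lit 17578) (nat_lit 16343762) (nat_lit 19635) (nat_lit 133250639851417888)],
[Row.mk (nat_lit 38808) (nat_lit 16082) (nat_lit 271286183150087725) (nat_lit 17578) (nat_lit 16343762) (nat_lit 17765) (nat_lit 133250639851417888),Row.mk (nat_lit 38976) (nat_lit 15895) (nat_lit 58233971320848820) (nat_lit 17578) (nat_lit 391087640644736563) (nat_lit 0) (nat_lit 0),Row.mk (nat_lit 39144) (nat_lit 17391) (nat_lit 338829898319839783) (nat_lit 17578) (nat_lit 16343762) (nat_lit 19635) (nat_lit 166426834645600108)],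
[Row.mk (nat_lit 38976) (nat_lit 16082) (nat_lit 338829898319839783) (nat_lit 17578) (nat_lit 16343762) (nat_lit 17765) (nat_lit 166426834645600108),Row.mk (nat_lit 39144) (nat_lit 15895) (nat_lit 72732825375173622) (nat_lit 17578) (nat_lit 488459028622808303) (nat_lit 0) (nat_lit 0),Row.mk (nat_lit 39312) (nat_lit 17391) (nat_lit 423190369155433614) (nat_lit 17578) (nat_lit 16343762) (nat_lit 19635) (nat_lit 207863101607473577)],
[Row.mk (nat_lit 39144) (nat_lit 16082) (nat_lit 423190369155433614) (nat_lit 17578) (nat_lit 16343762) (nat_lit 17765) (nat_lit 207863101607473577),Row.mk (nat_lit 39312) (nat_lit 15895) (nat_lit 90841544321494631) (nat_lit 17578) (nat_lit 610073543239025353) (nat_lit 0) (nat_lit 0)],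
[Row.mk (nat_lit 39480) (nat_lit 15895) (nat_lit 113458897434241489) (nat_lit 17578) (nat_lit 761967138189821704) (nat_lit 0) (nat_lit 0)],
[Row.mk (nat_lit 39648) (nat_lit 15895) (nat_lit 141707425855441936) (nat_lit 17578) (nat_lit 951678574031872312) (nat_lit 0) (nat_lit 0)],
[Row.mk (nat_lit 39816) (nat_lit 15895) (nat_lit 176989156391524787) (nat_lit 17578) (nat_lit 1188623580836873163) (nat_lit 0) (nat_lit 0)],
[Row.mk (nat_lit 39984) (nat_lit 15895) (nat_lit 221055186701498088) (nat_lit 17578) (nat_lit 1484562178321134582) (nat_lit 0) (nat_lit 0)],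
[Row.mk (nat_lit 40152) (nat_lit 15895) (nat_lit 276092595518324097) (nat_lit 17578) (nat_lit 1854182347413903508) (nat_lit 0) (nat_lit 0)],
[Row.mk (nat_lit 40320) (nat_lit 15895) (nat_lit 344832991418811382) (nat_lit 17578) (nat_lit 2315829021965818817) (nat_lit 0) (nat_lit 0)],
[Row.mk (nat_lit 40488) (nat_lit 15895) (nat_lit 430688087618600691) (nat_lit 17578) (nat_lit 2892414581806718047) (nat_lit 0) (nat_lit 0)],
[Row.mk (nat_lit 40656) (nat_lit 15895) (nat_lit 537919031620522340) (nat_lit 17578) (nat_lit 3612556036610280854) (nat_lit 0) (nat_lit 0)],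
[],
[],
[],
[],
[],
[]]

/-- A table of rows. -/
noncomputable def tb1 : List (List Row) := [[],
[],
[],
[],
[],
[],
[],
[],
[],
[],
[],
[],
[],
[],
[],
[],
[],
[],
[],
[],
[],
[],
[],
[],
[],
[],
[],
[],
[],
[],
[],
[],
[],
[],
[],
[Row.mk (nat_lit 20832) (nat_lit 62084) (nat_lit 8388607) (nat_lit 0) (nat_lit 0) (nat_lit 0) (nat_lit 0)],
[Row.mk (nat_lit 20832) (nat_lit 62084) (nat_lit 8388607) (nat_lit 0) (nat_lit 0) (nat_lit 0) (nat_lit 0)],
[Row.mk (nat_lit 20832) (nat_lit 62084) (nat_lit 8388607) (nat_lit 0) (nat_lit 0) (nat_lit 0) (nat_lit 0)],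
[Row.mk (nat_lit 20832) (nat_lit 62084) (nat_lit 8388607) (nat_lit 0) (nat_lit 0) (nat_lit 0) (nat_lit 0)],
[Row.mk (nat_lit 20832) (nat_lit 62084) (nat_lit 8388607) (nat_lit 0) (nat_lit 0) (nat_lit 0) (nat_lit 0)],
[Row.mk (nat_lit 20664) (nat_lit 62084) (nat_lit 6716389) (nat_lit 0) (nat_lit 0) (nat_lit 0) (nat_lit 0),Row.mk (nat_lit 20832) (nat_lit 62084) (nat_lit 8388607) (nat_lit 0) (nat_lit 0) (nat_lit 0) (nat_lit 0),Row.mk (nat_lit 21000) (nat_lit 62084) (nat_lit 10477168) (nat_lit 0) (nat_lit 0) (nat_lit 0) (nat_lit 0)],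
[Row.mk (nat_lit 20664) (nat_lit 62084) (nat_lit 6716389) (nat_lit 0) (nat_lit 0) (nat_lit 0) (nat_lit 0),Row.mk (nat_lit 20832) (nat_lit 62084) (nat_lit 8388607) (nat_lit 0) (nat_lit 0) (nat_lit 0) (nat_lit 0),Row.mk (nat_lit 21000) (nat_lit 62084) (nat_lit 10477168) (nat_lit 0) (nat_lit 0) (nat_lit 0) (nat_lit 0)],
[Row.mk (nat_lit 20664) (nat_lit 62084) (nat_lit 6716389) (nat_lit 0) (nat_lit 0) (nat_lit 0) (nat_lit 0),Row.mk (nat_lit 20832) (nat_lit 62084) (nat_lit 8388607) (nat_lit 0) (nat_lit 0) (nat_lit 0) (nat_lit 0),Row.mk (nat_lit 21000) (nat_lit 62084) (nat_lit 10477168) (nat_lit 0) (nat_lit 0) (nat_lit 0) (nat_lit 0)],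
[Row.mk (nat_lit 20664) (nat_lit 62084) (nat_lit 6716389) (nat_lit 0) (nat_lit 0) (nat_lit 0) (nat_lit 0),Row.mk (nat_lit 20832) (nat_lit 62084) (nat_lit 8388607) (nat_lit 0) (nat_lit 0) (nat_lit 0) (nat_lit 0),Row.mk (nat_lit 21000) (nat_lit 62084) (nat_lit 10477168) (nat_lit 0) (nat_lit 0) (nat_lit 0) (nat_lit 0)],
[Row.mk (nat_lit 20664) (nat_lit 62084) (nat_lit 6716388) (nat_lit 0) (nat_lit 0) (nat_lit 0) (nat_lit 0),Row.mk (nat_lit 20832) (nat_lit 62084) (nat_lit 8388607) (nat_lit 0) (nat_lit 0) (nat_lit 0) (nat_lit 0),Row.mk (nat_lit 21000) (nat_lit 62084) (nat_lit 10477168) (nat_lit 0) (nat_lit 0) (nat_lit 0) (nat_lit 0)],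
[Row.mk (nat_lit 20664) (nat_lit 62084) (nat_lit 6716388) (nat_lit 0) (nat_lit 0) (nat_lit 0) (nat_lit 0),Row.mk (nat_lit 20832) (nat_lit 62084) (nat_lit 8388607) (nat_lit 0) (nat_lit 0) (nat_lit 0) (nat_lit 0),Row.mk (nat_lit 21000) (nat_lit 62084) (nat_lit 10477168) (nat_lit 0) (nat_lit 0) (nat_lit 0) (nat_lit 0)],
[Row.mk (nat_lit 20664) (nat_lit 62084) (nat_lit 6716388) (nat_lit 0) (nat_lit 0) (nat_lit 0) (nat_lit 0),Row.mk (nat_lit 20832) (nat_lit 62084) (nat_lit 8388607) (nat_lit 0) (nat_lit 0) (nat_lit 0) (nat_lit 0),Row.mk (nat_lit 21000) (nat_lit 62084) (nat_lit 10477168) (nat_lit 0) (nat_lit 0) (nat_lit 0) (nat_lit 0)],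
[Row.mk (nat_lit 20664) (nat_lit 62084) (nat_lit 6716388) (nat_lit 0) (nat_lit 0) (nat_lit 0) (nat_lit 0),Row.mk (nat_lit 20832) (nat_lit 62084) (nat_lit 8388607) (nat_lit 0) (nat_lit 0) (nat_lit 0) (nat_lit 0),Row.mk (nat_lit 21000) (nat_lit 62084) (nat_lit 10477168) (nat_lit 0) (nat_lit 0) (nat_lit 0) (nat_lit 0)],
[Row.mk (nat_lit 20664) (nat_lit 62084) (nat_lit 6716388) (nat_lit 0) (nat_lit 0) (nat_lit 0) (nat_lit 0),Row.mk (nat_lit 20832) (nat_lit 62084) (nat_lit 8388607) (nat_lit 0) (nat_lit 0) (nat_lit 0) (nat_lit 0),Row.mk (nat_lit 21000) (nat_lit 62084) (nat_lit 10477168) (nat_lit 0) (nat_lit 0) (nat_lit 0) (nat_lit 0)],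
[Row.mk (nat_lit 20664) (nat_lit 62084) (nat_lit 6716388) (nat_lit 0) (nat_lit 0) (nat_lit 0) (nat_lit 0),Row.mk (nat_lit 20832) (nat_lit 62084) (nat_lit 8388607) (nat_lit 0) (nat_lit 0) (nat_lit 0) (nat_lit 0),Row.mk (nat_lit 21000) (nat_lit 62084) (nat_lit 10477168) (nat_lit 0) (nat_lit 0) (nat_lit 0) (nat_lit 0)],
[Row.mk (nat_lit 20664) (nat_lit 62084) (nat_lit 6716388) (nat_lit 0) (nat_lit 0) (nat_lit 0) (nat_lit 0),Row.mk (nat_lit 20832) (nat_lit 62084) (nat_lit 8388607) (nat_lit 0) (nat_lit 0) (nat_lit 0) (nat_lit 0),Row.mk (nat_lit 21000) (nat_lit 62084) (nat_lit 10477168) (nat_lit 0) (nat_lit 0) (nat_lit 0) (nat_lit 0)],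
[Row.mk (nat_lit 20664) (nat_lit 62084) (nat_lit 6716388) (nat_lit 0) (nat_lit 0) (nat_lit 0) (nat_lit 0),Row.mk (nat_lit 20832) (nat_lit 62084) (nat_lit 8388607) (nat_lit 0) (nat_lit 0) (nat_lit 0) (nat_lit 0),Row.mk (nat_lit 21000) (nat_lit 62084) (nat_lit 10477168) (nat_lit 0) (nat_lit 0) (nat_lit 0) (nat_lit 0)],
[Row.mk (nat_lit 20664) (nat_lit 62084) (nat_lit 6716388) (nat_lit 0) (nat_lit 0) (nat_lit 0) (nat_lit 0),Row.mk (nat_lit 20832) (nat_lit 62084) (nat_lit 8388607) (nat_lit 0) (nat_lit 0) (nat_lit 0) (nat_lit 0),Row.mk (nat_lit 21000) (nat_lit 62084) (nat_lit 10477168) (nat_lit 0) (nat_lit 0) (nat_lit 0) (nat_lit 0)],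
[Row.mk (nat_lit 20664) (nat_lit 32912) (nat_lit 1) (nat_lit 62084) (nat_lit 6716387) (nat_lit 0) (nat_lit 0),Row.mk (nat_lit 20832) (nat_lit 32912) (nat_lit 1) (nat_lit 62084) (nat_lit 8388606) (nat_lit 0) (nat_lit 0),Row.mk (nat_lit 21000) (nat_lit 32912) (nat_lit 1) (nat_lit 62084) (nat_lit 10477167) (nat_lit 0) (nat_lit 0)],
[Row.mk (nat_lit 20496) (nat_lit 32912) (nat_lit 1) (nat_lit 62084) (nat_lit 5377515) (nat_lit 0) (nat_lit 0),Row.mk (nat_lit 20664) (nat_lit 32912) (nat_lit 1) (nat_lit 62084) (nat_lit 6716387) (nat_lit 0) (nat_lit 0),Row.mk (nat_lit 20832) (nat_lit 32912) (nat_lit 1) (nat_lit 62084) (nat_lit 8388606) (nat_lit 0) (nat_lit 0),Row.mk (nat_lit 21000) (nat_lit 32912) (nat_lit 1) (nat_lit 62084) (nat_lit 10477167) (nat_lit 0) (nat_lit 0),Row.mk (nat_lit 21168) (nat_lit 32912) (nat_lit 1) (nat_lit 62084) (nat_lit 13085729) (nat_lit 0) (nat_lit 0)],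
[Row.mk (nat_lit 20496) (nat_lit 32912) (nat_lit 1) (nat_lit 62084) (nat_lit 5377515) (nat_lit 0) (nat_lit 0),Row.mk (nat_lit 20664) (nat_lit 32912) (nat_lit 1) (nat_lit 62084) (nat_lit 6716387) (nat_lit 0) (nat_lit 0),Row.mk (nat_lit 20832) (nat_lit 32912) (nat_lit 1) (nat_lit 62084) (nat_lit 8388606) (nat_lit 0) (nat_lit 0),Row.mk (nat_lit 21000) (nat_lit 32912) (nat_lit 1) (nat_lit 62084) (nat_lit 10477167) (nat_lit 0) (nat_lit 0),Row.mk (nat_lit 21168) (nat_lit 32912) (nat_lit 1) (nat_lit 62084) (nat_lit 13085729) (nat_lit 0) (nat_lit 0)],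
[Row.mk (nat_lit 20496) (nat_lit 32912) (nat_lit 2) (nat_lit 62084) (nat_lit 5377514) (nat_lit 0) (nat_lit 0),Row.mk (nat_lit 20664) (nat_lit 32912) (nat_lit 2) (nat_lit 62084) (nat_lit 6716386) (nat_lit 0) (nat_lit 0),Row.mk (nat_lit 20832) (nat_lit 32912) (nat_lit 2) (nat_lit 62084) (nat_lit 8388605) (nat_lit 0) (nat_lit 0),Row.mk (nat_lit 21000) (nat_lit 32912) (nat_lit 2) (nat_lit 62084) (nat_lit 10477166) (nat_lit 0) (nat_lit 0),Row.mk (nat_lit 21168) (nat_lit 32912) (nat_lit 2) (nat_lit 62084) (nat_lit 13085729) (nat_lit 0) (nat_lit 0)],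
[Row.mk (nat_lit 20496) (nat_lit 32912) (nat_lit 2) (nat_lit 62084) (nat_lit 5377514) (nat_lit 0) (nat_lit 0),Row.mk (nat_lit 20664) (nat_lit 32912) (nat_lit 2) (nat_lit 62084) (nat_lit 6716386) (nat_lit 0) (nat_lit 0),Row.mk (nat_lit 20832) (nat_lit 32912) (nat_lit 2) (nat_lit 62084) (nat_lit 8388605) (nat_lit 0) (nat_lit 0),Row.mk (nat_lit 21000) (nat_lit 32912) (nat_lit 2) (nat_lit 62084) (nat_lit 10477166) (nat_lit 0) (nat_lit 0),Row.mk (nat_lit 21168) (nat_lit 32912) (nat_lit 2) (nat_lit 62084) (nat_lit 13085728) (nat_lit 0) (nat_lit 0)],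
[Row.mk (nat_lit 20496) (nat_lit 32912) (nat_lit 3) (nat_lit 62084) (nat_lit 5377513) (nat_lit 0) (nat_lit 0),Row.mk (nat_lit 20664) (nat_lit 32912) (nat_lit 3) (nat_lit 62084) (nat_lit 6716385) (nat_lit 0) (nat_lit 0),Row.mk (nat_lit 20832) (nat_lit 32912) (nat_lit 3) (nat_lit 62084) (nat_lit 8388604) (nat_lit 0) (nat_lit 0),Row.mk (nat_lit 21000) (nat_lit 32912) (nat_lit 3) (nat_lit 62084) (nat_lit 10477165) (nat_lit 0) (nat_lit 0),Row.mk (nat_lit 21168) (nat_lit 32912) (nat_lit 3) (nat_lit 62084) (nat_lit 13085727) (nat_lit 0) (nat_lit 0)],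
[Row.mk (nat_lit 20496) (nat_lit 32912) (nat_lit 4) (nat_lit 62084) (nat_lit 5377512) (nat_lit 0) (nat_lit 0),Row.mk (nat_lit 20664) (nat_lit 32912) (nat_lit 4) (nat_lit 62084) (nat_lit 6716384) (nat_lit 0) (nat_lit 0),Row.mk (nat_lit 20832) (nat_lit 32912) (nat_lit 4) (nat_lit 62084) (nat_lit 8388603) (nat_lit 0) (nat_lit 0),Row.mk (nat_lit 21000) (nat_lit 32912) (nat_lit 4) (nat_lit 62084) (nat_lit 10477164) (nat_lit 0) (nat_lit 0),Row.mk (nat_lit 21168) (nat_lit 32912) (nat_lit 4) (nat_lit 62084) (nat_lit 13085726) (nat_lit 0) (nat_lit 0)],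
[Row.mk (nat_lit 20328) (nat_lit 32912) (nat_lit 5) (nat_lit 62084) (nat_lit 4305535) (nat_lit 0) (nat_lit 0),Row.mk (nat_lit 20496) (nat_lit 32912) (nat_lit 5) (nat_lit 62084) (nat_lit 5377511) (nat_lit 0) (nat_lit 0),Row.mk (nat_lit 20664) (nat_lit 32912) (nat_lit 5) (nat_lit 62084) (nat_lit 6716383) (nat_lit 0) (nat_lit 0),Row.mk (nat_lit 20832) (nat_lit 32912) (nat_lit 5) (nat_lit 62084) (nat_lit 8388602) (nat_lit 0) (nat_lit 0),Row.mk (nat_lit 21000) (nat_lit 32912) (nat_lit 5) (nat_lit 62084) (nat_lit 10477163) (nat_lit 0) (nat_lit 0),Row.mk (nat_lit 21168) (nat_lit 32912) (nat_lit 5) (nat_lit 62084) (nat_lit 13085725) (nat_lit 0) (nat_lit 0)],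
[Row.mk (nat_lit 20160) (nat_lit 32912) (nat_lit 6) (nat_lit 62084) (nat_lit 3447250) (nat_lit 0) (nat_lit 0),Row.mk (nat_lit 20328) (nat_lit 32912) (nat_lit 6) (nat_lit 62084) (nat_lit 4305534) (nat_lit 0) (nat_lit 0),Row.mk (nat_lit 20496) (nat_lit 32912) (nat_lit 6) (nat_lit 62084) (nat_lit 5377510) (nat_lit 0) (nat_lit 0),Row.mk (nat_lit 20664) (nat_lit 32912) (nat_lit 6) (nat_lit 62084) (nat_lit 6716382) (nat_lit 0) (nat_lit 0),Row.mk (nat_lit 20832) (nat_lit 32912) (nat_lit 6) (nat_lit 62084) (nat_lit 8388601) (nat_lit 0) (nat_lit 0),Row.mk (nat_lit 21000) (nat_lit 32912) (nat_lit 6) (nat_lit 62084) (nat_lit 10477162) (nat_lit 0) (nat_lit 0),Row.mk (nat_lit 21168) (nat_lit 32912) (nat_lit 6) (nat_lit 62084) (nat_lit 13085724) (nat_lit 0) (nat_lit 0)],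
[Row.mk (nat_lit 19992) (nat_lit 32912) (nat_lit 8) (nat_lit 62084) (nat_lit 2760058) (nat_lit 0) (nat_lit 0),Row.mk (nat_lit 20160) (nat_lit 32912) (nat_lit 8) (nat_lit 62084) (nat_lit 3447248) (nat_lit 0) (nat_lit 0),Row.mk (nat_lit 20328) (nat_lit 32912) (nat_lit 8) (nat_lit 62084) (nat_lit 4305532) (nat_lit 0) (nat_lit 0),Row.mk (nat_lit 20496) (nat_lit 32912) (nat_lit 8) (nat_lit 62084) (nat_lit 5377508) (nat_lit 0) (nat_lit 0),Row.mk (nat_lit 20664) (nat_lit 32912) (nat_lit 8) (nat_lit 62084) (nat_lit 6716380) (nat_lit 0) (nat_lit 0),Row.mk (nat_lit 20832) (nat_lit 32912) (nat_lit 8) (nat_lit 62084) (nat_lit 8388599) (nat_lit 0) (nat_lit 0),Row.mk (nat_lit 21000) (nat_lit 32912) (nat_lit 8) (nat_lit 62084) (nat_lit 10477160) (nat_lit 0) (nat_lit 0),Row.mk (nat_lit 21168) (nat_lit 32912) (nat_lit 8) (nat_lit 62084) (nat_lit 13085722) (nat_lit 0) (nat_lit 0),Row.mk (nat_lit 21336) (nat_lit 32912) (nat_lit 8) (nat_lit 62084) (nat_lit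 16343754) (nat_lit 0) (nat_lit 0)],
[Row.mk (nat_lit 19656) (nat_lit 32912) (nat_lit 10) (nat_lit 62084) (nat_lit 1769330) (nat_lit 0) (nat_lit 0),Row.mk (nat_lit 19824) (nat_lit 32912) (nat_lit 10) (nat_lit 62084) (nat_lit 2209853) (nat_lit 0) (nat_lit 0),Row.mk (nat_lit 19992) (nat_lit 32912) (nat_lit 10) (nat_lit 62084) (nat_lit 2760056) (nat_lit 0) (nat_lit 0),Row.mk (nat_lit 20160) (nat_lit 32912) (nat_lit 10) (nat_lit 62084) (nat_lit 3447246) (nat_lit 0) (nat_lit 0),Row.mk (nat_lit 20328) (nat_lit 32912) (nat_lit 10) (nat_lit 62084) (nat_lit 4305530) (nat_lit 0) (nat_lit 0),Row.mk (nat_lit 20496) (nat_lit 32912) (nat_lit 10) (nat_lit 62084) (nat_lit 5377506) (nat_lit 0) (nat_lit 0),Row.mk (nat_lit 20664) (nat_lit 32912) (nat_lit 10) (nat_lit 62084) (nat_lit 6716378) (nat_lit 0) (nat_lit 0),Row.mk (nat_lit 20832) (nat_lit 32912) (nat_lit 10) (nat_lit 62084) (nat_lit 8388597) (nat_lit 0) (nat_lit 0),Row.mk (nat_lit 21000) (nat_lit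 32912) (nat_lit 10) (nat_lit 62084) (nat_lit 10477158) (nat_lit 0) (nat_lit 0),Row.mk (nat_lit 21168) (nat_lit 32912) (nat_lit 10) (nat_lit 62084) (nat_lit 13085720) (nat_lit 0) (nat_lit 0),Row.mk (nat_lit 21336) (nat_lit 32912) (nat_lit 10) (nat_lit 62084) (nat_lit 16343751) (nat_lit 0) (nat_lit 0)],
[Row.mk (nat_lit 19152) (nat_lit 32912) (nat_lit 13) (nat_lit 62084) (nat_lit 908119) (nat_lit 0) (nat_lit 0),Row.mk (nat_lit 19320) (nat_lit 32912) (nat_lit 13) (nat_lit 62084) (nat_lit 1134222) (nat_lit 0) (nat_lit 0),Row.mk (nat_lit 19488) (nat_lit 32912) (nat_lit 13) (nat_lit 62084) (nat_lit 1416619) (nat_lit 0) (nat_lit 0),Row.mk (nat_lit 19656) (nat_lit 32912) (nat_lit 13) (nat_lit 62084) (nat_lit 1769327) (nat_lit 0) (nat_lit 0),Row.mk (nat_lit 19824) (nat_lit 32912) (nat_lit 13) (nat_lit 62084) (nat_lit 2209850) (nat_lit 0) (nat_lit 0),Row.mk (nat_lit 19992) (nat_lit 32912) (nat_lit 13) (nat_lit 62084) (nat_lit 2760053) (nat_lit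 0) (nat_lit 0),Row.mk (nat_lit 20160) (nat_lit 32912) (nat_lit 13) (nat_lit 62084) (nat_lit 3447243) (nat_lit 0) (nat_lit 0),Row.mk (nat_lit 20328) (nat_lit 32912) (nat_lit 13) (nat_lit 62084) (nat_lit 4305527) (nat_lit 0) (nat_lit 0),Row.mk (nat_lit 20496) (nat_lit 32912) (nat_lit 13) (nat_lit 62084) (nat_lit 5377503) (nat_lit 0) (nat_lit 0),Row.mk (nat_lit 20664) (nat_lit 32912) (nat_lit 13) (nat_lit 62084) (nat_lit 6716375) (nat_lit 0) (nat_lit 0),Row.mk (nat_lit 20832) (nat_lit 32912) (nat_lit 13) (nat_lit 62084) (nat_lit 8388594) (nat_lit 0) (nat_lit 0),Row.mk (nat_lit 21000) (nat_lit 32912) (nat_lit 13) (nat_lit 62084) (nat_lit 10477155) (nat_lit 0) (nat_lit 0),Row.mk (nat_lit 21168) (nat_lit 32912) (nat_lit 13) (nat_lit 62084) (nat_lit 13085717) (nat_lit 0) (nat_lit 0),Row.mk (nat_lit 21336) (nat_lit 32912) (nat_lit 13) (nat_lit 62084) (nat_lit 16343749) (nat_lit 0) (nat_lit 0),Row.mk (nat_lit 21504) (nat_lit 32912) (nat_lit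 13) (nat_lit 62084) (nat_lit 20412951) (nat_lit 0) (nat_lit 0)],
[Row.mk (nat_lit 18648) (nat_lit 32912) (nat_lit 16) (nat_lit 62084) (nat_lit 466091) (nat_lit 0) (nat_lit 0),Row.mk (nat_lit 18816) (nat_lit 32912) (nat_lit 16) (nat_lit 62084) (nat_lit 582141) (nat_lit 0) (nat_lit 0),Row.mk (nat_lit 18984) (nat_lit 32912) (nat_lit 16) (nat_lit 62084) (nat_lit 727085) (nat_lit 0) (nat_lit 0),Row.mk (nat_lit 19152) (nat_lit 32912) (nat_lit 16) (nat_lit 62084) (nat_lit 908116) (nat_lit 0) (nat_lit 0),Row.mk (nat_lit 19320) (nat_lit 32912) (nat_lit 16) (nat_lit 62084) (nat_lit 1134219) (nat_lit 0) (nat_lit 0),Row.mk (nat_lit 19488) (nat_lit 32912) (nat_lit 16) (nat_lit 62084) (nat_lit 1416616) (nat_lit 0) (nat_lit 0),Row.mk (nat_lit 19656) (nat_lit 32912) (nat_lit 16) (nat_lit 62084) (nat_lit 1769324) (nat_lit 0) (nat_lit 0),Row.mk (nat_lit 19824) (nat_lit 32912) (nat_lit 16) (nat_lit 62084) (nat_lit 2209847) (nat_lit 0) (nat_lit 0),Row.mk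 (nat_lit 19992) (nat_lit 32912) (nat_lit 16) (nat_lit 62084) (nat_lit 2760050) (nat_lit 0) (nat_lit 0),Row.mk (nat_lit 20160) (nat_lit 32912) (nat_lit 16) (nat_lit 62084) (nat_lit 3447240) (nat_lit 0) (nat_lit 0),Row.mk (nat_lit 20328) (nat_lit 32912) (nat_lit 16) (nat_lit 62084) (nat_lit 4305524) (nat_lit 0) (nat_lit 0),Row.mk (nat_lit 20496) (nat_lit 32912) (nat_lit 16) (nat_lit 62084) (nat_lit 5377500) (nat_lit 0) (nat_lit 0),Row.mk (nat_lit 20664) (nat_lit 32912) (nat_lit 16) (nat_lit 62084) (nat_lit 6716372) (nat_lit 0) (nat_lit 0),Row.mk (nat_lit 20832) (nat_lit 32912) (nat_lit 16) (nat_lit 62084) (nat_lit 8388591) (nat_lit 0) (nat_lit 0),Row.mk (nat_lit 21000) (nat_lit 32912) (nat_lit 16) (nat_lit 62084) (nat_lit 10477152) (nat_lit 0) (nat_lit 0),Row.mk (nat_lit 21168) (nat_lit 32912) (nat_lit 16) (nat_lit 62084) (nat_lit 13085714) (nat_lit 0) (nat_lit 0),Row.mk (nat_lit 21336) (nat_lit 32912) (nat_lit 16) (nat_lit 62084) (nat_lit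 16343745) (nat_lit 0) (nat_lit 0),Row.mk (nat_lit 21504) (nat_lit 32912) (nat_lit 16) (nat_lit 62084) (nat_lit 20412948) (nat_lit 0) (nat_lit 0)],
[Row.mk (nat_lit 18144) (nat_lit 32912) (nat_lit 21) (nat_lit 62084) (nat_lit 239214) (nat_lit 0) (nat_lit 0),Row.mk (nat_lit 18312) (nat_lit 32912) (nat_lit 21) (nat_lit 62084) (nat_lit 298777) (nat_lit 0) (nat_lit 0),Row.mk (nat_lit 18480) (nat_lit 32912) (nat_lit 21) (nat_lit 62084) (nat_lit 373171) (nat_lit 0) (nat_lit 0),Row.mk (nat_lit 18648) (nat_lit 32912) (nat_lit 21) (nat_lit 62084) (nat_lit 466087) (nat_lit 0) (nat_lit 0),Row.mk (nat_lit 18816) (nat_lit 32912) (nat_lit 21) (nat_lit 62084) (nat_lit 582137) (nat_lit 0) (nat_lit 0),Row.mk (nat_lit 18984) (nat_lit 32912) (nat_lit 21) (nat_lit 62084) (nat_lit 727080) (nat_lit 0) (nat_lit 0),Row.mk (nat_lit 19152) (nat_lit 32912) (nat_lit 21) (nat_lit 62084) (nat_lit 908111) (nat_lit 0) (nat_lit 0),Row.mk (nat_lit 19320) (nat_lit 32912)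 (nat_lit 21) (nat_lit 62084) (nat_lit 1134214) (nat_lit 0) (nat_lit 0),Row.mk (nat_lit 19488) (nat_lit 32912) (nat_lit 21) (nat_lit 62084) (nat_lit 1416612) (nat_lit 0) (nat_lit 0),Row.mk (nat_lit 19656) (nat_lit 32912) (nat_lit 21) (nat_lit 62084) (nat_lit 1769319) (nat_lit 0) (nat_lit 0),Row.mk (nat_lit 19824) (nat_lit 32912) (nat_lit 21) (nat_lit 62084) (nat_lit 2209843) (nat_lit 0) (nat_lit 0),Row.mk (nat_lit 19992) (nat_lit 32912) (nat_lit 21) (nat_lit 62084) (nat_lit 2760046) (nat_lit 0) (nat_lit 0),Row.mk (nat_lit 20160) (nat_lit 32912) (nat_lit 21) (nat_lit 62084) (nat_lit 3447236) (nat_lit 0) (nat_lit 0),Row.mk (nat_lit 20328) (nat_lit 32912) (nat_lit 21) (nat_lit 62084) (nat_lit 4305520) (nat_lit 0) (nat_lit 0),Row.mk (nat_lit 20496) (nat_lit 32912) (nat_lit 21) (nat_lit 62084) (nat_lit 5377496) (nat_lit 0) (nat_lit 0),Row.mk (nat_lit 20664) (nat_lit 32912) (nat_lit 21) (nat_lit 62084) (nat_lit 6716368) (nat_lit 0) (nat_lit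 0),Row.mk (nat_lit 20832) (nat_lit 32912) (nat_lit 21) (nat_lit 62084) (nat_lit 8388586) (nat_lit 0) (nat_lit 0),Row.mk (nat_lit 21000) (nat_lit 32912) (nat_lit 21) (nat_lit 62084) (nat_lit 10477147) (nat_lit 0) (nat_lit 0),Row.mk (nat_lit 21168) (nat_lit 32912) (nat_lit 21) (nat_lit 62084) (nat_lit 13085710) (nat_lit 0) (nat_lit 0),Row.mk (nat_lit 21336) (nat_lit 32912) (nat_lit 21) (nat_lit 62084) (nat_lit 16343741) (nat_lit 0) (nat_lit 0),Row.mk (nat_lit 21504) (nat_lit 32912) (nat_lit 21) (nat_lit 62084) (nat_lit 20412944) (nat_lit 0) (nat_lit 0),Row.mk (nat_lit 21672) (nat_lit 32912) (nat_lit 21) (nat_lit 62084) (nat_lit 25495280) (nat_lit 0) (nat_lit 0)],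
[Row.mk (nat_lit 17808) (nat_lit 32912) (nat_lit 26) (nat_lit 62084) (nat_lit 153335) (nat_lit 0) (nat_lit 0),Row.mk (nat_lit 17976) (nat_lit 32912) (nat_lit 26) (nat_lit 62084) (nat_lit 191518) (nat_lit 0) (nat_lit 0),Row.mk (nat_lit 18144) (nat_lit 32912) (nat_lit 26) (nat_lit 62084) (nat_lit 239208) (nat_lit 0) (nat_lit 0),Row.mk (nat_lit 18312) (nat_lit 32912) (nat_lit 26) (nat_lit 62084) (nat_lit 298772) (nat_lit 0) (nat_lit 0),Row.mk (nat_lit 18480) (nat_lit 32912) (nat_lit 26) (nat_lit 62084) (nat_lit 373166) (nat_lit 0) (nat_lit 0),Row.mk (nat_lit 18648) (nat_lit 32912) (nat_lit 26) (nat_lit 62084) (nat_lit 466082) (nat_lit 0) (nat_lit 0),Row.mk (nat_lit 18816) (nat_lit 32912) (nat_lit 26) (nat_lit 62084) (nat_lit 582132) (nat_lit 0) (nat_lit 0),Row.mk (nat_lit 18984) (nat_lit 32912) (nat_lit 26) (nat_lit 62084) (nat_lit 727075) (nat_lit 0) (nat_lit 0),Row.mk (nat_lit 19152) (nat_lit 32912) (nat_lit 26) (nat_lit 62084) (nat_lit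 908106) (nat_lit 0) (nat_lit 0),Row.mk (nat_lit 19320) (nat_lit 32912) (nat_lit 26) (nat_lit 62084) (nat_lit 1134209) (nat_lit 0) (nat_lit 0),Row.mk (nat_lit 19488) (nat_lit 32912) (nat_lit 26) (nat_lit 62084) (nat_lit 1416607) (nat_lit 0) (nat_lit 0),Row.mk (nat_lit 19656) (nat_lit 32912) (nat_lit 26) (nat_lit 62084) (nat_lit 1769314) (nat_lit 0) (nat_lit 0),Row.mk (nat_lit 19824) (nat_lit 32912) (nat_lit 26) (nat_lit 62084) (nat_lit 2209837) (nat_lit 0) (nat_lit 0),Row.mk (nat_lit 19992) (nat_lit 32912) (nat_lit 26) (nat_lit 62084) (nat_lit 2760040) (nat_lit 0) (nat_lit 0),Row.mk (nat_lit 20160) (nat_lit 32912) (nat_lit 26) (nat_lit 62084) (nat_lit 3447230) (nat_lit 0) (nat_lit 0),Row.mk (nat_lit 20328) (nat_lit 32912) (nat_lit 26) (nat_lit 62084) (nat_lit 4305514) (nat_lit 0) (nat_lit 0),Row.mk (nat_lit 20496) (nat_lit 32912) (nat_lit 26) (nat_lit 62084) (nat_lit 5377490) (nat_lit 0) (nat_lit 0),Row.mk (nat_lit 20664) (nat_lit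 32912) (nat_lit 26) (nat_lit 62084) (nat_lit 6716362) (nat_lit 0) (nat_lit 0),Row.mk (nat_lit 20832) (nat_lit 32912) (nat_lit 26) (nat_lit 62084) (nat_lit 8388581) (nat_lit 0) (nat_lit 0),Row.mk (nat_lit 21000) (nat_lit 32912) (nat_lit 26) (nat_lit 62084) (nat_lit 10477142) (nat_lit 0) (nat_lit 0),Row.mk (nat_lit 21168) (nat_lit 32912) (nat_lit 26) (nat_lit 62084) (nat_lit 13085705) (nat_lit 0) (nat_lit 0),Row.mk (nat_lit 21336) (nat_lit 32912) (nat_lit 26) (nat_lit 62084) (nat_lit 16343736) (nat_lit 0) (nat_lit 0),Row.mk (nat_lit 21504) (nat_lit 32912) (nat_lit 26) (nat_lit 62084) (nat_lit 20412939) (nat_lit 0) (nat_lit 0),Row.mk (nat_lit 21672) (nat_lit 32912) (nat_lit 26) (nat_lit 62084) (nat_lit 25495275) (nat_lit 0) (nat_lit 0)],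
[Row.mk (nat_lit 17640) (nat_lit 32912) (nat_lit 32) (nat_lit 62084) (nat_lit 122757) (nat_lit 0) (nat_lit 0),Row.mk (nat_lit 17808) (nat_lit 32912) (nat_lit 32) (nat_lit 62084) (nat_lit 153328) (nat_lit 0) (nat_lit 0),Row.mk (nat_lit 17976) (nat_lit 32912) (nat_lit 32) (nat_lit 62084) (nat_lit 191512) (nat_lit 0) (nat_lit 0),Row.mk (nat_lit 18144) (nat_lit 32912) (nat_lit 32) (nat_lit 62084) (nat_lit 239202) (nat_lit 0) (nat_lit 0),Row.mk (nat_lit 18312) (nat_lit 32912) (nat_lit 32) (nat_lit 62084) (nat_lit 298766) (nat_lit 0) (nat_lit 0),Row.mk (nat_lit 18480) (nat_lit 32912) (nat_lit 32) (nat_lit 62084) (nat_lit 373159) (nat_lit 0) (nat_lit 0),Row.mk (nat_lit 18648) (nat_lit 32912) (nat_lit 32) (nat_lit 62084) (nat_lit 466075) (nat_lit 0) (nat_lit 0),Row.mk (nat_lit 18816) (nat_lit 32912) (nat_lit 32) (nat_lit 62084) (nat_lit 582125) (nat_lit 0) (nat_lit 0),Row.mk (nat_lit 18984) (nat_lit 32912) (nat_lit 32) (nat_lit 62084) (nat_lit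 727069) (nat_lit 0) (nat_lit 0),Row.mk (nat_lit 19152) (nat_lit 32912) (nat_lit 32) (nat_lit 62084) (nat_lit 908100) (nat_lit 0) (nat_lit 0),Row.mk (nat_lit 19320) (nat_lit 32912) (nat_lit 32) (nat_lit 62084) (nat_lit 1134203) (nat_lit 0) (nat_lit 0),Row.mk (nat_lit 19488) (nat_lit 32912) (nat_lit 32) (nat_lit 62084) (nat_lit 1416600) (nat_lit 0) (nat_lit 0),Row.mk (nat_lit 19656) (nat_lit 32912) (nat_lit 32) (nat_lit 62084) (nat_lit 1769308) (nat_lit 0) (nat_lit 0),Row.mk (nat_lit 19824) (nat_lit 32912) (nat_lit 32) (nat_lit 62084) (nat_lit 2209831) (nat_lit 0) (nat_lit 0),Row.mk (nat_lit 19992) (nat_lit 32912) (nat_lit 32) (nat_lit 62084) (nat_lit 2760034) (nat_lit 0) (nat_lit 0),Row.mk (nat_lit 20160) (nat_lit 32912) (nat_lit 32) (nat_lit 62084) (nat_lit 3447224) (nat_lit 0) (nat_lit 0),Row.mk (nat_lit 20328) (nat_lit 32912) (nat_lit 32) (nat_lit 62084) (nat_lit 4305508) (nat_lit 0) (nat_lit 0),Row.mk (nat_lit 20496) (nat_lit 32912)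 (nat_lit 32) (nat_lit 62084) (nat_lit 5377484) (nat_lit 0) (nat_lit 0),Row.mk (nat_lit 20664) (nat_lit 32912) (nat_lit 32) (nat_lit 62084) (nat_lit 6716356) (nat_lit 0) (nat_lit 0),Row.mk (nat_lit 20832) (nat_lit 32912) (nat_lit 32) (nat_lit 62084) (nat_lit 8388575) (nat_lit 0) (nat_lit 0),Row.mk (nat_lit 21000) (nat_lit 32912) (nat_lit 32) (nat_lit 62084) (nat_lit 10477136) (nat_lit 0) (nat_lit 0),Row.mk (nat_lit 21168) (nat_lit 32912) (nat_lit 32) (nat_lit 62084) (nat_lit 13085698) (nat_lit 0) (nat_lit 0),Row.mk (nat_lit 21336) (nat_lit 32912) (nat_lit 32) (nat_lit 62084) (nat_lit 16343729) (nat_lit 0) (nat_lit 0),Row.mk (nat_lit 21504) (nat_lit 32912) (nat_lit 32) (nat_lit 62084) (nat_lit 20412932) (nat_lit 0) (nat_lit 0),Row.mk (nat_lit 21672) (nat_lit 32912) (nat_lit 32) (nat_lit 62084) (nat_lit 25495268) (nat_lit 0) (nat_lit 0),Row.mk (nat_lit 21840) (nat_lit 32912) (nat_lit 32) (nat_lit 62084) (nat_lit 31842983) (nat_lit 0)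 (nat_lit 0)],
[Row.mk (nat_lit 17472) (nat_lit 32912) (nat_lit 41) (nat_lit 62084) (nat_lit 98271) (nat_lit 0) (nat_lit 0),Row.mk (nat_lit 17640) (nat_lit 32912) (nat_lit 41) (nat_lit 62084) (nat_lit 122748) (nat_lit 0) (nat_lit 0),Row.mk (nat_lit 17808) (nat_lit 32912) (nat_lit 41) (nat_lit 62084) (nat_lit 153320) (nat_lit 0) (nat_lit 0),Row.mk (nat_lit 17976) (nat_lit 32912) (nat_lit 41) (nat_lit 62084) (nat_lit 191504) (nat_lit 0) (nat_lit 0),Row.mk (nat_lit 18144) (nat_lit 32912) (nat_lit 41) (nat_lit 62084) (nat_lit 239194) (nat_lit 0) (nat_lit 0),Row.mk (nat_lit 18312) (nat_lit 32912) (nat_lit 41) (nat_lit 62084) (nat_lit 298757) (nat_lit 0) (nat_lit 0),Row.mk (nat_lit 18480) (nat_lit 32912) (nat_lit 41) (nat_lit 62084) (nat_lit 373151) (nat_lit 0) (nat_lit 0),Row.mk (nat_lit 18648) (nat_lit 32912) (nat_lit 41) (nat_lit 62084) (nat_lit 466067) (nat_lit 0) (nat_lit 0),Row.mk (nat_lit 18816) (nat_lit 32912) (nat_lit 41) (nat_lit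 62084) (nat_lit 582117) (nat_lit 0) (nat_lit 0),Row.mk (nat_lit 18984) (nat_lit 32912) (nat_lit 41) (nat_lit 62084) (nat_lit 727060) (nat_lit 0) (nat_lit 0),Row.mk (nat_lit 19152) (nat_lit 32912) (nat_lit 41) (nat_lit 62084) (nat_lit 908091) (nat_lit 0) (nat_lit 0),Row.mk (nat_lit 19320) (nat_lit 32912) (nat_lit 41) (nat_lit 62084) (nat_lit 1134195) (nat_lit 0) (nat_lit 0),Row.mk (nat_lit 19488) (nat_lit 32912) (nat_lit 41) (nat_lit 62084) (nat_lit 1416592) (nat_lit 0) (nat_lit 0),Row.mk (nat_lit 19656) (nat_lit 32912) (nat_lit 41) (nat_lit 62084) (nat_lit 1769299) (nat_lit 0) (nat_lit 0),Row.mk (nat_lit 19824) (nat_lit 32912) (nat_lit 41) (nat_lit 62084) (nat_lit 2209823) (nat_lit 0) (nat_lit 0),Row.mk (nat_lit 19992) (nat_lit 32912) (nat_lit 41) (nat_lit 62084) (nat_lit 2760026) (nat_lit 0) (nat_lit 0),Row.mk (nat_lit 20160) (nat_lit 32912) (nat_lit 41) (nat_lit 62084) (nat_lit 3447216) (nat_lit 0) (nat_lit 0),Row.mk (nat_lit 20328)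 (nat_lit 32912) (nat_lit 41) (nat_lit 62084) (nat_lit 4305500) (nat_lit 0) (nat_lit 0),Row.mk (nat_lit 20496) (nat_lit 32912) (nat_lit 41) (nat_lit 62084) (nat_lit 5377476) (nat_lit 0) (nat_lit 0),Row.mk (nat_lit 20664) (nat_lit 32912) (nat_lit 41) (nat_lit 62084) (nat_lit 6716348) (nat_lit 0) (nat_lit 0),Row.mk (nat_lit 20832) (nat_lit 32912) (nat_lit 41) (nat_lit 62084) (nat_lit 8388566) (nat_lit 0) (nat_lit 0),Row.mk (nat_lit 21000) (nat_lit 32912) (nat_lit 41) (nat_lit 62084) (nat_lit 10477127) (nat_lit 0) (nat_lit 0),Row.mk (nat_lit 21168) (nat_lit 32912) (nat_lit 41) (nat_lit 62084) (nat_lit 13085690) (nat_lit 0) (nat_lit 0),Row.mk (nat_lit 21336) (nat_lit 32912) (nat_lit 41) (nat_lit 62084) (nat_lit 16343721) (nat_lit 0) (nat_lit 0),Row.mk (nat_lit 21504) (nat_lit 32912) (nat_lit 41) (nat_lit 62084) (nat_lit 20412924) (nat_lit 0) (nat_lit 0),Row.mk (nat_lit 21672) (nat_lit 32912) (nat_lit 41) (nat_lit 62084) (nat_lit 25495260)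 (nat_lit 0) (nat_lit 0),Row.mk (nat_lit 21840) (nat_lit 32912) (nat_lit 41) (nat_lit 62084) (nat_lit 31842975) (nat_lit 0) (nat_lit 0),Row.mk (nat_lit 22008) (nat_lit 32912) (nat_lit 41) (nat_lit 62084) (nat_lit 39771118) (nat_lit 0) (nat_lit 0)],
[Row.mk (nat_lit 17304) (nat_lit 32912) (nat_lit 51) (nat_lit 62084) (nat_lit 78663) (nat_lit 0) (nat_lit 0),Row.mk (nat_lit 17472) (nat_lit 32912) (nat_lit 51) (nat_lit 62084) (nat_lit 98261) (nat_lit 0) (nat_lit 0),Row.mk (nat_lit 17640) (nat_lit 32912) (nat_lit 51) (nat_lit 62084) (nat_lit 122738) (nat_lit 0) (nat_lit 0),Row.mk (nat_lit 17808) (nat_lit 32912) (nat_lit 51) (nat_lit 62084) (nat_lit 153310) (nat_lit 0) (nat_lit 0),Row.mk (nat_lit 17976) (nat_lit 32912) (nat_lit 51) (nat_lit 62084) (nat_lit 191493) (nat_lit 0) (nat_lit 0),Row.mk (nat_lit 18144) (nat_lit 32912) (nat_lit 51) (nat_lit 62084) (nat_lit 239183) (nat_lit 0) (nat_lit 0),Row.mk (nat_lit 18312) (nat_lit 32912) (nat_lit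 51) (nat_lit 62084) (nat_lit 298747) (nat_lit 0) (nat_lit 0),Row.mk (nat_lit 18480) (nat_lit 32912) (nat_lit 51) (nat_lit 62084) (nat_lit 373141) (nat_lit 0) (nat_lit 0),Row.mk (nat_lit 18648) (nat_lit 32912) (nat_lit 51) (nat_lit 62084) (nat_lit 466057) (nat_lit 0) (nat_lit 0),Row.mk (nat_lit 18816) (nat_lit 32912) (nat_lit 51) (nat_lit 62084) (nat_lit 582107) (nat_lit 0) (nat_lit 0),Row.mk (nat_lit 18984) (nat_lit 32912) (nat_lit 51) (nat_lit 62084) (nat_lit 727050) (nat_lit 0) (nat_lit 0),Row.mk (nat_lit 19152) (nat_lit 32912) (nat_lit 51) (nat_lit 62084) (nat_lit 908081) (nat_lit 0) (nat_lit 0),Row.mk (nat_lit 19320) (nat_lit 32912) (nat_lit 51) (nat_lit 62084) (nat_lit 1134184) (nat_lit 0) (nat_lit 0),Row.mk (nat_lit 19488) (nat_lit 32912) (nat_lit 51) (nat_lit 62084) (nat_lit 1416582) (nat_lit 0) (nat_lit 0),Row.mk (nat_lit 19656) (nat_lit 32912) (nat_lit 51) (nat_lit 62084) (nat_lit 1769289) (nat_lit 0) (nat_lit 0),Row.mk (nat_lit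 19824) (nat_lit 32912) (nat_lit 51) (nat_lit 62084) (nat_lit 2209813) (nat_lit 0) (nat_lit 0),Row.mk (nat_lit 19992) (nat_lit 32912) (nat_lit 51) (nat_lit 62084) (nat_lit 2760015) (nat_lit 0) (nat_lit 0),Row.mk (nat_lit 20160) (nat_lit 32912) (nat_lit 51) (nat_lit 62084) (nat_lit 3447206) (nat_lit 0) (nat_lit 0),Row.mk (nat_lit 20328) (nat_lit 32912) (nat_lit 51) (nat_lit 62084) (nat_lit 4305489) (nat_lit 0) (nat_lit 0),Row.mk (nat_lit 20496) (nat_lit 32912) (nat_lit 51) (nat_lit 62084) (nat_lit 5377465) (nat_lit 0) (nat_lit 0),Row.mk (nat_lit 20664) (nat_lit 32912) (nat_lit 51) (nat_lit 62084) (nat_lit 6716337) (nat_lit 0) (nat_lit 0),Row.mk (nat_lit 20832) (nat_lit 32912) (nat_lit 51) (nat_lit 62084) (nat_lit 8388556) (nat_lit 0) (nat_lit 0),Row.mk (nat_lit 21000) (nat_lit 32912) (nat_lit 51) (nat_lit 62084) (nat_lit 10477117) (nat_lit 0) (nat_lit 0),Row.mk (nat_lit 21168) (nat_lit 32912) (nat_lit 51) (nat_lit 62084) (nat_lit 13085680)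 (nat_lit 0) (nat_lit 0),Row.mk (nat_lit 21336) (nat_lit 32912) (nat_lit 51) (nat_lit 62084) (nat_lit 16343711) (nat_lit 0) (nat_lit 0),Row.mk (nat_lit 21504) (nat_lit 32912) (nat_lit 51) (nat_lit 62084) (nat_lit 20412914) (nat_lit 0) (nat_lit 0),Row.mk (nat_lit 21672) (nat_lit 32912) (nat_lit 51) (nat_lit 62084) (nat_lit 25495250) (nat_lit 0) (nat_lit 0),Row.mk (nat_lit 21840) (nat_lit 32912) (nat_lit 51) (nat_lit 62084) (nat_lit 31842965) (nat_lit 0) (nat_lit 0),Row.mk (nat_lit 22008) (nat_lit 32912) (nat_lit 51) (nat_lit 62084) (nat_lit 39771108) (nat_lit 0) (nat_lit 0)],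
[Row.mk (nat_lit 17136) (nat_lit 32912) (nat_lit 64) (nat_lit 62084) (nat_lit 62959) (nat_lit 0) (nat_lit 0),Row.mk (nat_lit 17304) (nat_lit 32912) (nat_lit 64) (nat_lit 62084) (nat_lit 78650) (nat_lit 0) (nat_lit 0),Row.mk (nat_lit 17472) (nat_lit 32912) (nat_lit 64) (nat_lit 62084) (nat_lit 98248) (nat_lit 0) (nat_lit 0),Row.mk (nat_lit 17640) (nat_lit 32912) (nat_lit 64) (nat_lit 62084) (nat_lit 122725) (nat_lit 0) (nat_lit 0),Row.mk (nat_lit 17808) (nat_lit 32912) (nat_lit 64) (nat_lit 62084) (nat_lit 153297) (nat_lit 0) (nat_lit 0),Row.mk (nat_lit 17976) (nat_lit 32912) (nat_lit 64) (nat_lit 62084) (nat_lit 191481) (nat_lit 0) (nat_lit 0),Row.mk (nat_lit 18144) (nat_lit 32912) (nat_lit 64) (nat_lit 62084) (nat_lit 239171) (nat_lit 0) (nat_lit 0),Row.mk (nat_lit 18312) (nat_lit 32912) (nat_lit 64) (nat_lit 62084) (nat_lit 298734) (nat_lit 0) (nat_lit 0),Row.mk (nat_lit 18480) (nat_lit 32912) (nat_lit 64) (nat_lit 62084) (nat_lit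 373128) (nat_lit 0) (nat_lit 0),Row.mk (nat_lit 18648) (nat_lit 32912) (nat_lit 64) (nat_lit 62084) (nat_lit 466044) (nat_lit 0) (nat_lit 0),Row.mk (nat_lit 18816) (nat_lit 32912) (nat_lit 64) (nat_lit 62084) (nat_lit 582094) (nat_lit 0) (nat_lit 0),Row.mk (nat_lit 18984) (nat_lit 32912) (nat_lit 64) (nat_lit 62084) (nat_lit 727037) (nat_lit 0) (nat_lit 0),Row.mk (nat_lit 19152) (nat_lit 32912) (nat_lit 64) (nat_lit 62084) (nat_lit 908068) (nat_lit 0) (nat_lit 0),Row.mk (nat_lit 19320) (nat_lit 32912) (nat_lit 64) (nat_lit 62084) (nat_lit 1134172) (nat_lit 0) (nat_lit 0),Row.mk (nat_lit 19488) (nat_lit 32912) (nat_lit 64) (nat_lit 62084) (nat_lit 1416569) (nat_lit 0) (nat_lit 0),Row.mk (nat_lit 19656) (nat_lit 32912) (nat_lit 64) (nat_lit 62084) (nat_lit 1769277) (nat_lit 0) (nat_lit 0),Row.mk (nat_lit 19824) (nat_lit 32912) (nat_lit 64) (nat_lit 62084) (nat_lit 2209800) (nat_lit 0) (nat_lit 0),Row.mk (nat_lit 19992) (nat_lit 32912)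 (nat_lit 64) (nat_lit 62084) (nat_lit 2760003) (nat_lit 0) (nat_lit 0),Row.mk (nat_lit 20160) (nat_lit 32912) (nat_lit 64) (nat_lit 62084) (nat_lit 3447193) (nat_lit 0) (nat_lit 0),Row.mk (nat_lit 20328) (nat_lit 32912) (nat_lit 64) (nat_lit 62084) (nat_lit 4305477) (nat_lit 0) (nat_lit 0),Row.mk (nat_lit 20496) (nat_lit 32912) (nat_lit 64) (nat_lit 62084) (nat_lit 5377453) (nat_lit 0) (nat_lit 0),Row.mk (nat_lit 20664) (nat_lit 32912) (nat_lit 64) (nat_lit 62084) (nat_lit 6716325) (nat_lit 0) (nat_lit 0),Row.mk (nat_lit 20832) (nat_lit 32912) (nat_lit 64) (nat_lit 62084) (nat_lit 8388543) (nat_lit 0) (nat_lit 0),Row.mk (nat_lit 21000) (nat_lit 32912) (nat_lit 64) (nat_lit 62084) (nat_lit 10477105) (nat_lit 0) (nat_lit 0),Row.mk (nat_lit 21168) (nat_lit 32912) (nat_lit 64) (nat_lit 62084) (nat_lit 13085667) (nat_lit 0) (nat_lit 0),Row.mk (nat_lit 21336) (nat_lit 32912) (nat_lit 64) (nat_lit 62084) (nat_lit 16343698) (nat_lit 0) (nat_lit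 0),Row.mk (nat_lit 21504) (nat_lit 32912) (nat_lit 64) (nat_lit 62084) (nat_lit 20412901) (nat_lit 0) (nat_lit 0),Row.mk (nat_lit 21672) (nat_lit 32912) (nat_lit 64) (nat_lit 62084) (nat_lit 25495237) (nat_lit 0) (nat_lit 0),Row.mk (nat_lit 21840) (nat_lit 32912) (nat_lit 64) (nat_lit 62084) (nat_lit 31842952) (nat_lit 0) (nat_lit 0),Row.mk (nat_lit 22008) (nat_lit 32912) (nat_lit 64) (nat_lit 62084) (nat_lit 39771095) (nat_lit 0) (nat_lit 0),Row.mk (nat_lit 22176) (nat_lit 32912) (nat_lit 64) (nat_lit 62084) (nat_lit 49673154) (nat_lit 0) (nat_lit 0)],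
[Row.mk (nat_lit 16968) (nat_lit 20944) (nat_lit 401) (nat_lit 27489) (nat_lit 50138) (nat_lit 0) (nat_lit 0),Row.mk (nat_lit 17136) (nat_lit 32912) (nat_lit 79) (nat_lit 62084) (nat_lit 62943) (nat_lit 0) (nat_lit 0),Row.mk (nat_lit 17304) (nat_lit 32912) (nat_lit 79) (nat_lit 62084) (nat_lit 78634) (nat_lit 0) (nat_lit 0),Row.mk (nat_lit 17472) (nat_lit 32912) (nat_lit 79) (nat_lit 62084) (nat_lit 98232) (nat_lit 0) (nat_lit 0),Row.mk (nat_lit 17640) (nat_lit 32912) (nat_lit 79) (nat_lit 62084) (nat_lit 122710) (nat_lit 0) (nat_lit 0),Row.mk (nat_lit 17808) (nat_lit 32912) (nat_lit 79) (nat_lit 62084) (nat_lit 153281) (nat_lit 0) (nat_lit 0),Row.mk (nat_lit 17976) (nat_lit 32912) (nat_lit 79) (nat_lit 62084) (nat_lit 191465) (nat_lit 0) (nat_lit 0),Row.mk (nat_lit 18144) (nat_lit 32912) (nat_lit 79) (nat_lit 62084) (nat_lit 239155) (nat_lit 0) (nat_lit 0),Row.mk (nat_lit 18312) (nat_lit 32912) (nat_lit 79) (nat_lit 62084) (nat_lit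 298719) (nat_lit 0) (nat_lit 0),Row.mk (nat_lit 18480) (nat_lit 32912) (nat_lit 79) (nat_lit 62084) (nat_lit 373112) (nat_lit 0) (nat_lit 0),Row.mk (nat_lit 18648) (nat_lit 32912) (nat_lit 79) (nat_lit 62084) (nat_lit 466028) (nat_lit 0) (nat_lit 0),Row.mk (nat_lit 18816) (nat_lit 32912) (nat_lit 79) (nat_lit 62084) (nat_lit 582078) (nat_lit 0) (nat_lit 0),Row.mk (nat_lit 18984) (nat_lit 32912) (nat_lit 79) (nat_lit 62084) (nat_lit 727022) (nat_lit 0) (nat_lit 0),Row.mk (nat_lit 19152) (nat_lit 32912) (nat_lit 79) (nat_lit 62084) (nat_lit 908052) (nat_lit 0) (nat_lit 0),Row.mk (nat_lit 19320) (nat_lit 32912) (nat_lit 79) (nat_lit 62084) (nat_lit 1134156) (nat_lit 0) (nat_lit 0),Row.mk (nat_lit 19488) (nat_lit 32912) (nat_lit 79) (nat_lit 62084) (nat_lit 1416553) (nat_lit 0) (nat_lit 0),Row.mk (nat_lit 19656) (nat_lit 32912) (nat_lit 79) (nat_lit 62084) (nat_lit 1769261) (nat_lit 0) (nat_lit 0),Row.mk (nat_lit 19824) (nat_lit 32912)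 (nat_lit 79) (nat_lit 62084) (nat_lit 2209784) (nat_lit 0) (nat_lit 0),Row.mk (nat_lit 19992) (nat_lit 32912) (nat_lit 79) (nat_lit 62084) (nat_lit 2759987) (nat_lit 0) (nat_lit 0),Row.mk (nat_lit 20160) (nat_lit 32912) (nat_lit 79) (nat_lit 62084) (nat_lit 3447177) (nat_lit 0) (nat_lit 0),Row.mk (nat_lit 20328) (nat_lit 32912) (nat_lit 79) (nat_lit 62084) (nat_lit 4305461) (nat_lit 0) (nat_lit 0),Row.mk (nat_lit 20496) (nat_lit 32912) (nat_lit 79) (nat_lit 62084) (nat_lit 5377437) (nat_lit 0) (nat_lit 0),Row.mk (nat_lit 20664) (nat_lit 32912) (nat_lit 79) (nat_lit 62084) (nat_lit 6716309) (nat_lit 0) (nat_lit 0),Row.mk (nat_lit 20832) (nat_lit 32912) (nat_lit 79) (nat_lit 62084) (nat_lit 8388528) (nat_lit 0) (nat_lit 0),Row.mk (nat_lit 21000) (nat_lit 32912) (nat_lit 79) (nat_lit 62084) (nat_lit 10477089) (nat_lit 0) (nat_lit 0),Row.mk (nat_lit 21168) (nat_lit 32912) (nat_lit 79) (nat_lit 62084) (nat_lit 13085651) (nat_lit 0) (nat_lit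 0),Row.mk (nat_lit 21336) (nat_lit 32912) (nat_lit 79) (nat_lit 62084) (nat_lit 16343682) (nat_lit 0) (nat_lit 0),Row.mk (nat_lit 21504) (nat_lit 32912) (nat_lit 79) (nat_lit 62084) (nat_lit 20412885) (nat_lit 0) (nat_lit 0),Row.mk (nat_lit 21672) (nat_lit 32912) (nat_lit 79) (nat_lit 62084) (nat_lit 25495221) (nat_lit 0) (nat_lit 0),Row.mk (nat_lit 21840) (nat_lit 32912) (nat_lit 79) (nat_lit 62084) (nat_lit 31842936) (nat_lit 0) (nat_lit 0),Row.mk (nat_lit 22008) (nat_lit 32912) (nat_lit 79) (nat_lit 62084) (nat_lit 39771079) (nat_lit 0) (nat_lit 0),Row.mk (nat_lit 22176) (nat_lit 32912) (nat_lit 79) (nat_lit 62084) (nat_lit 49673138) (nat_lit 0) (nat_lit 0),Row.mk (nat_lit 22344) (nat_lit 32912) (nat_lit 79) (nat_lit 62084) (nat_lit 62040571) (nat_lit 0) (nat_lit 0)],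
[Row.mk (nat_lit 16968) (nat_lit 21131) (nat_lit 500) (nat_lit 27676) (nat_lit 50058) (nat_lit 0) (nat_lit 0),Row.mk (nat_lit 17136) (nat_lit 20944) (nat_lit 500) (nat_lit 27489) (nat_lit 62622) (nat_lit 0) (nat_lit 0),Row.mk (nat_lit 17304) (nat_lit 32912) (nat_lit 99) (nat_lit 62084) (nat_lit 78614) (nat_lit 0) (nat_lit 0),Row.mk (nat_lit 17472) (nat_lit 32912) (nat_lit 99) (nat_lit 62084) (nat_lit 98212) (nat_lit 0) (nat_lit 0),Row.mk (nat_lit 17640) (nat_lit 32912) (nat_lit 99) (nat_lit 62084) (nat_lit 122690) (nat_lit 0) (nat_lit 0),Row.mk (nat_lit 17808) (nat_lit 32912) (nat_lit 99) (nat_lit 62084) (nat_lit 153261) (nat_lit 0) (nat_lit 0),Row.mk (nat_lit 17976) (nat_lit 32912) (nat_lit 99) (nat_lit 62084) (nat_lit 191445) (nat_lit 0) (nat_lit 0),Row.mk (nat_lit 18144) (nat_lit 32912) (nat_lit 99) (nat_lit 62084) (nat_lit 239135) (nat_lit 0) (nat_lit 0),Row.mk (nat_lit 18312) (nat_lit 32912) (nat_lit 99) (nat_lit 62084) (nat_lit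 298699) (nat_lit 0) (nat_lit 0),Row.mk (nat_lit 18480) (nat_lit 32912) (nat_lit 99) (nat_lit 62084) (nat_lit 373092) (nat_lit 0) (nat_lit 0),Row.mk (nat_lit 18648) (nat_lit 32912) (nat_lit 99) (nat_lit 62084) (nat_lit 466008) (nat_lit 0) (nat_lit 0),Row.mk (nat_lit 18816) (nat_lit 32912) (nat_lit 99) (nat_lit 62084) (nat_lit 582058) (nat_lit 0) (nat_lit 0),Row.mk (nat_lit 18984) (nat_lit 32912) (nat_lit 99) (nat_lit 62084) (nat_lit 727002) (nat_lit 0) (nat_lit 0),Row.mk (nat_lit 19152) (nat_lit 32912) (nat_lit 99) (nat_lit 62084) (nat_lit 908033) (nat_lit 0) (nat_lit 0),Row.mk (nat_lit 19320) (nat_lit 32912) (nat_lit 99) (nat_lit 62084) (nat_lit 1134136) (nat_lit 0) (nat_lit 0),Row.mk (nat_lit 19488) (nat_lit 32912) (nat_lit 99) (nat_lit 62084) (nat_lit 1416533) (nat_lit 0) (nat_lit 0),Row.mk (nat_lit 19656) (nat_lit 32912) (nat_lit 99) (nat_lit 62084) (nat_lit 1769241) (nat_lit 0) (nat_lit 0),Row.mk (nat_lit 19824) (nat_lit 32912)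 (nat_lit 99) (nat_lit 62084) (nat_lit 2209764) (nat_lit 0) (nat_lit 0),Row.mk (nat_lit 19992) (nat_lit 32912) (nat_lit 99) (nat_lit 62084) (nat_lit 2759967) (nat_lit 0) (nat_lit 0),Row.mk (nat_lit 20160) (nat_lit 32912) (nat_lit 99) (nat_lit 62084) (nat_lit 3447157) (nat_lit 0) (nat_lit 0),Row.mk (nat_lit 20328) (nat_lit 32912) (nat_lit 99) (nat_lit 62084) (nat_lit 4305441) (nat_lit 0) (nat_lit 0),Row.mk (nat_lit 20496) (nat_lit 32912) (nat_lit 99) (nat_lit 62084) (nat_lit 5377417) (nat_lit 0) (nat_lit 0),Row.mk (nat_lit 20664) (nat_lit 32912) (nat_lit 99) (nat_lit 62084) (nat_lit 6716289) (nat_lit 0) (nat_lit 0),Row.mk (nat_lit 20832) (nat_lit 32912) (nat_lit 99) (nat_lit 62084) (nat_lit 8388508) (nat_lit 0) (nat_lit 0),Row.mk (nat_lit 21000) (nat_lit 32912) (nat_lit 99) (nat_lit 62084) (nat_lit 10477069) (nat_lit 0) (nat_lit 0),Row.mk (nat_lit 21168) (nat_lit 32912) (nat_lit 99) (nat_lit 62084) (nat_lit 13085631) (nat_lit 0) (nat_lit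 0),Row.mk (nat_lit 21336) (nat_lit 32912) (nat_lit 99) (nat_lit 62084) (nat_lit 16343662) (nat_lit 0) (nat_lit 0),Row.mk (nat_lit 21504) (nat_lit 32912) (nat_lit 99) (nat_lit 62084) (nat_lit 20412865) (nat_lit 0) (nat_lit 0),Row.mk (nat_lit 21672) (nat_lit 32912) (nat_lit 99) (nat_lit 62084) (nat_lit 25495201) (nat_lit 0) (nat_lit 0),Row.mk (nat_lit 21840) (nat_lit 32912) (nat_lit 99) (nat_lit 62084) (nat_lit 31842916) (nat_lit 0) (nat_lit 0),Row.mk (nat_lit 22008) (nat_lit 32912) (nat_lit 99) (nat_lit 62084) (nat_lit 39771059) (nat_lit 0) (nat_lit 0),Row.mk (nat_lit 22176) (nat_lit 32912) (nat_lit 99) (nat_lit 62084) (nat_lit 49673118) (nat_lit 0) (nat_lit 0),Row.mk (nat_lit 22344) (nat_lit 32912) (nat_lit 99) (nat_lit 62084) (nat_lit 62040551) (nat_lit 0) (nat_lit 0),Row.mk (nat_lit 22512) (nat_lit 32912) (nat_lit 99) (nat_lit 62084) (nat_lit 77487177) (nat_lit 0) (nat_lit 0)],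
[Row.mk (nat_lit 16800) (nat_lit 21505) (nat_lit 625) (nat_lit 28050) (nat_lit 39900) (nat_lit 0) (nat_lit 0),Row.mk (nat_lit 16968) (nat_lit 21318) (nat_lit 625) (nat_lit 27863) (nat_lit 49958) (nat_lit 0) (nat_lit 0),Row.mk (nat_lit 17136) (nat_lit 21131) (nat_lit 625) (nat_lit 27676) (nat_lit 62522) (nat_lit 0) (nat_lit 0),Row.mk (nat_lit 17304) (nat_lit 20944) (nat_lit 625) (nat_lit 27489) (nat_lit 78213) (nat_lit 0) (nat_lit 0),Row.mk (nat_lit 17472) (nat_lit 32912) (nat_lit 124) (nat_lit 62084) (nat_lit 98187) (nat_lit 0) (nat_lit 0),Row.mk (nat_lit 17640) (nat_lit 32912) (nat_lit 124) (nat_lit 62084) (nat_lit 122665) (nat_lit 0) (nat_lit 0),Row.mk (nat_lit 17808) (nat_lit 32912) (nat_lit 124) (nat_lit 62084) (nat_lit 153236) (nat_lit 0) (nat_lit 0),Row.mk (nat_lit 17976) (nat_lit 32912) (nat_lit 124) (nat_lit 62084) (nat_lit 191420) (nat_lit 0) (nat_lit 0),Row.mk (nat_lit 18144) (nat_lit 32912) (nat_lit 124) (nat_lit 62084)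 (nat_lit 239110) (nat_lit 0) (nat_lit 0),Row.mk (nat_lit 18312) (nat_lit 32912) (nat_lit 124) (nat_lit 62084) (nat_lit 298674) (nat_lit 0) (nat_lit 0),Row.mk (nat_lit 18480) (nat_lit 32912) (nat_lit 124) (nat_lit 62084) (nat_lit 373068) (nat_lit 0) (nat_lit 0),Row.mk (nat_lit 18648) (nat_lit 32912) (nat_lit 124) (nat_lit 62084) (nat_lit 465984) (nat_lit 0) (nat_lit 0),Row.mk (nat_lit 18816) (nat_lit 32912) (nat_lit 124) (nat_lit 62084) (nat_lit 582033) (nat_lit 0) (nat_lit 0),Row.mk (nat_lit 18984) (nat_lit 32912) (nat_lit 124) (nat_lit 62084) (nat_lit 726977) (nat_lit 0) (nat_lit 0),Row.mk (nat_lit 19152) (nat_lit 32912) (nat_lit 124) (nat_lit 62084) (nat_lit 908008) (nat_lit 0) (nat_lit 0),Row.mk (nat_lit 19320) (nat_lit 32912) (nat_lit 124) (nat_lit 62084) (nat_lit 1134111) (nat_lit 0) (nat_lit 0),Row.mk (nat_lit 19488) (nat_lit 32912) (nat_lit 124) (nat_lit 62084) (nat_lit 1416508) (nat_lit 0) (nat_lit 0),Row.mk (nat_lit 19656)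 (nat_lit 32912) (nat_lit 124) (nat_lit 62084) (nat_lit 1769216) (nat_lit 0) (nat_lit 0),Row.mk (nat_lit 19824) (nat_lit 32912) (nat_lit 124) (nat_lit 62084) (nat_lit 2209739) (nat_lit 0) (nat_lit 0),Row.mk (nat_lit 19992) (nat_lit 32912) (nat_lit 124) (nat_lit 62084) (nat_lit 2759942) (nat_lit 0) (nat_lit 0),Row.mk (nat_lit 20160) (nat_lit 32912) (nat_lit 124) (nat_lit 62084) (nat_lit 3447132) (nat_lit 0) (nat_lit 0),Row.mk (nat_lit 20328) (nat_lit 32912) (nat_lit 124) (nat_lit 62084) (nat_lit 4305416) (nat_lit 0) (nat_lit 0),Row.mk (nat_lit 20496) (nat_lit 32912) (nat_lit 124) (nat_lit 62084) (nat_lit 5377392) (nat_lit 0) (nat_lit 0),Row.mk (nat_lit 20664) (nat_lit 32912) (nat_lit 124) (nat_lit 62084) (nat_lit 6716264) (nat_lit 0) (nat_lit 0),Row.mk (nat_lit 20832) (nat_lit 32912) (nat_lit 124) (nat_lit 62084) (nat_lit 8388483) (nat_lit 0) (nat_lit 0),Row.mk (nat_lit 21000) (nat_lit 32912) (nat_lit 124) (nat_lit 62084) (nat_lit 10477044)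 (nat_lit 0) (nat_lit 0),Row.mk (nat_lit 21168) (nat_lit 32912) (nat_lit 124) (nat_lit 62084) (nat_lit 13085606) (nat_lit 0) (nat_lit 0),Row.mk (nat_lit 21336) (nat_lit 32912) (nat_lit 124) (nat_lit 62084) (nat_lit 16343638) (nat_lit 0) (nat_lit 0),Row.mk (nat_lit 21504) (nat_lit 32912) (nat_lit 124) (nat_lit 62084) (nat_lit 20412840) (nat_lit 0) (nat_lit 0),Row.mk (nat_lit 21672) (nat_lit 32912) (nat_lit 124) (nat_lit 62084) (nat_lit 25495176) (nat_lit 0) (nat_lit 0),Row.mk (nat_lit 21840) (nat_lit 32912) (nat_lit 124) (nat_lit 62084) (nat_lit 31842891) (nat_lit 0) (nat_lit 0),Row.mk (nat_lit 22008) (nat_lit 32912) (nat_lit 124) (nat_lit 62084) (nat_lit 39771034) (nat_lit 0) (nat_lit 0),Row.mk (nat_lit 22176) (nat_lit 32912) (nat_lit 124) (nat_lit 62084) (nat_lit 49673093) (nat_lit 0) (nat_lit 0),Row.mk (nat_lit 22344) (nat_lit 32912) (nat_lit 124) (nat_lit 62084) (nat_lit 62040526) (nat_lit 0) (nat_lit 0),Row.mk (nat_lit 22512) (nat_lit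 32912) (nat_lit 124) (nat_lit 62084) (nat_lit 77487152) (nat_lit 0) (nat_lit 0),Row.mk (nat_lit 22680) (nat_lit 32912) (nat_lit 124) (nat_lit 62084) (nat_lit 96779615) (nat_lit 0) (nat_lit 0)],
[Row.mk (nat_lit 16800) (nat_lit 21692) (nat_lit 781) (nat_lit 28237) (nat_lit 39775) (nat_lit 0) (nat_lit 0),Row.mk (nat_lit 16968) (nat_lit 21505) (nat_lit 781) (nat_lit 28050) (nat_lit 49834) (nat_lit 0) (nat_lit 0),Row.mk (nat_lit 17136) (nat_lit 21318) (nat_lit 781) (nat_lit 27863) (nat_lit 62397) (nat_lit 0) (nat_lit 0),Row.mk (nat_lit 17304) (nat_lit 21131) (nat_lit 781) (nat_lit 27676) (nat_lit 78088) (nat_lit 0) (nat_lit 0),Row.mk (nat_lit 17472) (nat_lit 20944) (nat_lit 781) (nat_lit 27489) (nat_lit 97686) (nat_lit 0) (nat_lit 0),Row.mk (nat_lit 17640) (nat_lit 32912) (nat_lit 155) (nat_lit 62084) (nat_lit 122634) (nat_lit 0) (nat_lit 0),Row.mk (nat_lit 17808) (nat_lit 32912) (nat_lit 155) (nat_lit 62084) (nat_lit 153205) (nat_lit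 0) (nat_lit 0),Row.mk (nat_lit 17976) (nat_lit 32912) (nat_lit 155) (nat_lit 62084) (nat_lit 191389) (nat_lit 0) (nat_lit 0),Row.mk (nat_lit 18144) (nat_lit 32912) (nat_lit 155) (nat_lit 62084) (nat_lit 239079) (nat_lit 0) (nat_lit 0),Row.mk (nat_lit 18312) (nat_lit 32912) (nat_lit 155) (nat_lit 62084) (nat_lit 298643) (nat_lit 0) (nat_lit 0),Row.mk (nat_lit 18480) (nat_lit 32912) (nat_lit 155) (nat_lit 62084) (nat_lit 373036) (nat_lit 0) (nat_lit 0),Row.mk (nat_lit 18648) (nat_lit 32912) (nat_lit 155) (nat_lit 62084) (nat_lit 465952) (nat_lit 0) (nat_lit 0),Row.mk (nat_lit 18816) (nat_lit 32912) (nat_lit 155) (nat_lit 62084) (nat_lit 582002) (nat_lit 0) (nat_lit 0),Row.mk (nat_lit 18984) (nat_lit 32912) (nat_lit 155) (nat_lit 62084) (nat_lit 726946) (nat_lit 0) (nat_lit 0),Row.mk (nat_lit 19152) (nat_lit 32912) (nat_lit 155) (nat_lit 62084) (nat_lit 907977) (nat_lit 0) (nat_lit 0),Row.mk (nat_lit 19320) (nat_lit 32912) (nat_lit 155)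 (nat_lit 62084) (nat_lit 1134080) (nat_lit 0) (nat_lit 0),Row.mk (nat_lit 19488) (nat_lit 32912) (nat_lit 155) (nat_lit 62084) (nat_lit 1416477) (nat_lit 0) (nat_lit 0),Row.mk (nat_lit 19656) (nat_lit 32912) (nat_lit 155) (nat_lit 62084) (nat_lit 1769185) (nat_lit 0) (nat_lit 0),Row.mk (nat_lit 19824) (nat_lit 32912) (nat_lit 155) (nat_lit 62084) (nat_lit 2209708) (nat_lit 0) (nat_lit 0),Row.mk (nat_lit 19992) (nat_lit 32912) (nat_lit 155) (nat_lit 62084) (nat_lit 2759911) (nat_lit 0) (nat_lit 0),Row.mk (nat_lit 20160) (nat_lit 32912) (nat_lit 155) (nat_lit 62084) (nat_lit 3447101) (nat_lit 0) (nat_lit 0),Row.mk (nat_lit 20328) (nat_lit 32912) (nat_lit 155) (nat_lit 62084) (nat_lit 4305385) (nat_lit 0) (nat_lit 0),Row.mk (nat_lit 20496) (nat_lit 32912) (nat_lit 155) (nat_lit 62084) (nat_lit 5377361) (nat_lit 0) (nat_lit 0),Row.mk (nat_lit 20664) (nat_lit 32912) (nat_lit 155) (nat_lit 62084) (nat_lit 6716233) (nat_lit 0) (nat_lit 0),Row.mk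 (nat_lit 20832) (nat_lit 32912) (nat_lit 155) (nat_lit 62084) (nat_lit 8388452) (nat_lit 0) (nat_lit 0),Row.mk (nat_lit 21000) (nat_lit 32912) (nat_lit 155) (nat_lit 62084) (nat_lit 10477013) (nat_lit 0) (nat_lit 0),Row.mk (nat_lit 21168) (nat_lit 32912) (nat_lit 155) (nat_lit 62084) (nat_lit 13085575) (nat_lit 0) (nat_lit 0),Row.mk (nat_lit 21336) (nat_lit 32912) (nat_lit 155) (nat_lit 62084) (nat_lit 16343607) (nat_lit 0) (nat_lit 0),Row.mk (nat_lit 21504) (nat_lit 32912) (nat_lit 155) (nat_lit 62084) (nat_lit 20412809) (nat_lit 0) (nat_lit 0),Row.mk (nat_lit 21672) (nat_lit 32912) (nat_lit 155) (nat_lit 62084) (nat_lit 25495145) (nat_lit 0) (nat_lit 0),Row.mk (nat_lit 21840) (nat_lit 32912) (nat_lit 155) (nat_lit 62084) (nat_lit 31842860) (nat_lit 0) (nat_lit 0),Row.mk (nat_lit 22008) (nat_lit 32912) (nat_lit 155) (nat_lit 62084) (nat_lit 39771003) (nat_lit 0) (nat_lit 0),Row.mk (nat_lit 22176) (nat_lit 32912) (nat_lit 155) (nat_lit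 62084) (nat_lit 49673062) (nat_lit 0) (nat_lit 0),Row.mk (nat_lit 22344) (nat_lit 32912) (nat_lit 155) (nat_lit 62084) (nat_lit 62040495) (nat_lit 0) (nat_lit 0),Row.mk (nat_lit 22512) (nat_lit 32912) (nat_lit 155) (nat_lit 62084) (nat_lit 77487121) (nat_lit 0) (nat_lit 0),Row.mk (nat_lit 22680) (nat_lit 32912) (nat_lit 155) (nat_lit 62084) (nat_lit 96779584) (nat_lit 0) (nat_lit 0),Row.mk (nat_lit 22848) (nat_lit 32912) (nat_lit 155) (nat_lit 62084) (nat_lit 120875404) (nat_lit 0) (nat_lit 0)],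
[Row.mk (nat_lit 16632) (nat_lit 22066) (nat_lit 976) (nat_lit 28611) (nat_lit 31565) (nat_lit 0) (nat_lit 0),Row.mk (nat_lit 16800) (nat_lit 21879) (nat_lit 976) (nat_lit 28424) (nat_lit 39619) (nat_lit 0) (nat_lit 0),Row.mk (nat_lit 16968) (nat_lit 21692) (nat_lit 976) (nat_lit 28237) (nat_lit 49678) (nat_lit 0) (nat_lit 0),Row.mk (nat_lit 17136) (nat_lit 21505) (nat_lit 976) (nat_lit 28050) (nat_lit 62241) (nat_lit 0) (nat_lit 0),Row.mk (nat_lit 17304) (nat_lit 21318) (nat_lit 976) (nat_lit 27863) (nat_lit 77933) (nat_lit 0) (nat_lit 0),Row.mk (nat_lit 17472) (nat_lit 21131) (nat_lit 976) (nat_lit 27676) (nat_lit 97531) (nat_lit 0) (nat_lit 0),Row.mk (nat_lit 17640) (nat_lit 20944) (nat_lit 976) (nat_lit 27489) (nat_lit 122008) (nat_lit 0) (nat_lit 0),Row.mk (nat_lit 17808) (nat_lit 32912) (nat_lit 194) (nat_lit 62084) (nat_lit 153167) (nat_lit 0) (nat_lit 0),Row.mk (nat_lit 17976) (nat_lit 32912) (nat_lit 194) (nat_lit 62084)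 (nat_lit 191350) (nat_lit 0) (nat_lit 0),Row.mk (nat_lit 18144) (nat_lit 32912) (nat_lit 194) (nat_lit 62084) (nat_lit 239040) (nat_lit 0) (nat_lit 0),Row.mk (nat_lit 18312) (nat_lit 32912) (nat_lit 194) (nat_lit 62084) (nat_lit 298604) (nat_lit 0) (nat_lit 0),Row.mk (nat_lit 18480) (nat_lit 32912) (nat_lit 194) (nat_lit 62084) (nat_lit 372998) (nat_lit 0) (nat_lit 0),Row.mk (nat_lit 18648) (nat_lit 32912) (nat_lit 194) (nat_lit 62084) (nat_lit 465914) (nat_lit 0) (nat_lit 0),Row.mk (nat_lit 18816) (nat_lit 32912) (nat_lit 194) (nat_lit 62084) (nat_lit 581963) (nat_lit 0) (nat_lit 0),Row.mk (nat_lit 18984) (nat_lit 32912) (nat_lit 194) (nat_lit 62084) (nat_lit 726907) (nat_lit 0) (nat_lit 0),Row.mk (nat_lit 19152) (nat_lit 32912) (nat_lit 194) (nat_lit 62084) (nat_lit 907938) (nat_lit 0) (nat_lit 0),Row.mk (nat_lit 19320) (nat_lit 32912) (nat_lit 194) (nat_lit 62084) (nat_lit 1134041) (nat_lit 0) (nat_lit 0),Row.mk (nat_lit 19488)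 (nat_lit 32912) (nat_lit 194) (nat_lit 62084) (nat_lit 1416438) (nat_lit 0) (nat_lit 0),Row.mk (nat_lit 19656) (nat_lit 32912) (nat_lit 194) (nat_lit 62084) (nat_lit 1769146) (nat_lit 0) (nat_lit 0),Row.mk (nat_lit 19824) (nat_lit 32912) (nat_lit 194) (nat_lit 62084) (nat_lit 2209669) (nat_lit 0) (nat_lit 0),Row.mk (nat_lit 19992) (nat_lit 32912) (nat_lit 194) (nat_lit 62084) (nat_lit 2759872) (nat_lit 0) (nat_lit 0),Row.mk (nat_lit 20160) (nat_lit 32912) (nat_lit 194) (nat_lit 62084) (nat_lit 3447062) (nat_lit 0) (nat_lit 0),Row.mk (nat_lit 20328) (nat_lit 32912) (nat_lit 194) (nat_lit 62084) (nat_lit 4305346) (nat_lit 0) (nat_lit 0),Row.mk (nat_lit 20496) (nat_lit 32912) (nat_lit 194) (nat_lit 62084) (nat_lit 5377322) (nat_lit 0) (nat_lit 0),Row.mk (nat_lit 20664) (nat_lit 32912) (nat_lit 194) (nat_lit 62084) (nat_lit 6716194) (nat_lit 0) (nat_lit 0),Row.mk (nat_lit 20832) (nat_lit 32912) (nat_lit 194) (nat_lit 62084) (nat_lit 8388413)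 (nat_lit 0) (nat_lit 0),Row.mk (nat_lit 21000) (nat_lit 32912) (nat_lit 194) (nat_lit 62084) (nat_lit 10476974) (nat_lit 0) (nat_lit 0),Row.mk (nat_lit 21168) (nat_lit 32912) (nat_lit 194) (nat_lit 62084) (nat_lit 13085536) (nat_lit 0) (nat_lit 0),Row.mk (nat_lit 21336) (nat_lit 32912) (nat_lit 194) (nat_lit 62084) (nat_lit 16343568) (nat_lit 0) (nat_lit 0),Row.mk (nat_lit 21504) (nat_lit 32912) (nat_lit 194) (nat_lit 62084) (nat_lit 20412770) (nat_lit 0) (nat_lit 0),Row.mk (nat_lit 21672) (nat_lit 32912) (nat_lit 194) (nat_lit 62084) (nat_lit 25495106) (nat_lit 0) (nat_lit 0),Row.mk (nat_lit 21840) (nat_lit 32912) (nat_lit 194) (nat_lit 62084) (nat_lit 31842821) (nat_lit 0) (nat_lit 0),Row.mk (nat_lit 22008) (nat_lit 32912) (nat_lit 194) (nat_lit 62084) (nat_lit 39770964) (nat_lit 0) (nat_lit 0),Row.mk (nat_lit 22176) (nat_lit 32912) (nat_lit 194) (nat_lit 62084) (nat_lit 49673024) (nat_lit 0) (nat_lit 0),Row.mk (nat_lit 22344) (nat_lit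 32912) (nat_lit 194) (nat_lit 62084) (nat_lit 62040457) (nat_lit 0) (nat_lit 0),Row.mk (nat_lit 22512) (nat_lit 32912) (nat_lit 194) (nat_lit 62084) (nat_lit 77487082) (nat_lit 0) (nat_lit 0),Row.mk (nat_lit 22680) (nat_lit 32912) (nat_lit 194) (nat_lit 62084) (nat_lit 96779545) (nat_lit 0) (nat_lit 0),Row.mk (nat_lit 22848) (nat_lit 32912) (nat_lit 194) (nat_lit 62084) (nat_lit 120875366) (nat_lit 0) (nat_lit 0)],
[Row.mk (nat_lit 16632) (nat_lit 22253) (nat_lit 1219) (nat_lit 28798) (nat_lit 31371) (nat_lit 0) (nat_lit 0),Row.mk (nat_lit 16800) (nat_lit 22066) (nat_lit 1219) (nat_lit 28611) (nat_lit 39424) (nat_lit 0) (nat_lit 0),Row.mk (nat_lit 16968) (nat_lit 21879) (nat_lit 1219) (nat_lit 28424) (nat_lit 49483) (nat_lit 0) (nat_lit 0),Row.mk (nat_lit 17136) (nat_lit 21692) (nat_lit 1219) (nat_lit 28237) (nat_lit 62047) (nat_lit 0) (nat_lit 0),Row.mk (nat_lit 17304) (nat_lit 21505) (nat_lit 1219) (nat_lit 28050) (nat_lit 77738)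 (nat_lit 0) (nat_lit 0),Row.mk (nat_lit 17472) (nat_lit 21318) (nat_lit 1219) (nat_lit 27863) (nat_lit 97336) (nat_lit 0) (nat_lit 0),Row.mk (nat_lit 17640) (nat_lit 21131) (nat_lit 1219) (nat_lit 27676) (nat_lit 121813) (nat_lit 0) (nat_lit 0),Row.mk (nat_lit 17808) (nat_lit 20944) (nat_lit 1219) (nat_lit 27489) (nat_lit 152385) (nat_lit 0) (nat_lit 0),Row.mk (nat_lit 17976) (nat_lit 32912) (nat_lit 243) (nat_lit 62084) (nat_lit 191302) (nat_lit 0) (nat_lit 0),Row.mk (nat_lit 18144) (nat_lit 32912) (nat_lit 243) (nat_lit 62084) (nat_lit 238992) (nat_lit 0) (nat_lit 0),Row.mk (nat_lit 18312) (nat_lit 32912) (nat_lit 243) (nat_lit 62084) (nat_lit 298555) (nat_lit 0) (nat_lit 0),Row.mk (nat_lit 18480) (nat_lit 32912) (nat_lit 243) (nat_lit 62084) (nat_lit 372949) (nat_lit 0) (nat_lit 0),Row.mk (nat_lit 18648) (nat_lit 32912) (nat_lit 243) (nat_lit 62084) (nat_lit 465865) (nat_lit 0) (nat_lit 0),Row.mk (nat_lit 18816) (nat_lit 32912)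 (nat_lit 243) (nat_lit 62084) (nat_lit 581915) (nat_lit 0) (nat_lit 0),Row.mk (nat_lit 18984) (nat_lit 32912) (nat_lit 243) (nat_lit 62084) (nat_lit 726858) (nat_lit 0) (nat_lit 0),Row.mk (nat_lit 19152) (nat_lit 32912) (nat_lit 243) (nat_lit 62084) (nat_lit 907889) (nat_lit 0) (nat_lit 0),Row.mk (nat_lit 19320) (nat_lit 32912) (nat_lit 243) (nat_lit 62084) (nat_lit 1133993) (nat_lit 0) (nat_lit 0),Row.mk (nat_lit 19488) (nat_lit 32912) (nat_lit 243) (nat_lit 62084) (nat_lit 1416390) (nat_lit 0) (nat_lit 0),Row.mk (nat_lit 19656) (nat_lit 32912) (nat_lit 243) (nat_lit 62084) (nat_lit 1769098) (nat_lit 0) (nat_lit 0),Row.mk (nat_lit 19824) (nat_lit 32912) (nat_lit 243) (nat_lit 62084) (nat_lit 2209621) (nat_lit 0) (nat_lit 0),Row.mk (nat_lit 19992) (nat_lit 32912) (nat_lit 243) (nat_lit 62084) (nat_lit 2759824) (nat_lit 0) (nat_lit 0),Row.mk (nat_lit 20160) (nat_lit 32912) (nat_lit 243) (nat_lit 62084) (nat_lit 3447014) (nat_lit 0)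 (nat_lit 0),Row.mk (nat_lit 20328) (nat_lit 32912) (nat_lit 243) (nat_lit 62084) (nat_lit 4305298) (nat_lit 0) (nat_lit 0),Row.mk (nat_lit 20496) (nat_lit 32912) (nat_lit 243) (nat_lit 62084) (nat_lit 5377274) (nat_lit 0) (nat_lit 0),Row.mk (nat_lit 20664) (nat_lit 32912) (nat_lit 243) (nat_lit 62084) (nat_lit 6716146) (nat_lit 0) (nat_lit 0),Row.mk (nat_lit 20832) (nat_lit 32912) (nat_lit 243) (nat_lit 62084) (nat_lit 8388364) (nat_lit 0) (nat_lit 0),Row.mk (nat_lit 21000) (nat_lit 32912) (nat_lit 243) (nat_lit 62084) (nat_lit 10476926) (nat_lit 0) (nat_lit 0),Row.mk (nat_lit 21168) (nat_lit 32912) (nat_lit 243) (nat_lit 62084) (nat_lit 13085488) (nat_lit 0) (nat_lit 0),Row.mk (nat_lit 21336) (nat_lit 32912) (nat_lit 243) (nat_lit 62084) (nat_lit 16343519) (nat_lit 0) (nat_lit 0),Row.mk (nat_lit 21504) (nat_lit 32912) (nat_lit 243) (nat_lit 62084) (nat_lit 20412722) (nat_lit 0) (nat_lit 0),Row.mk (nat_lit 21672) (nat_lit 32912) (nat_lit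 243) (nat_lit 62084) (nat_lit 25495058) (nat_lit 0) (nat_lit 0),Row.mk (nat_lit 21840) (nat_lit 32912) (nat_lit 243) (nat_lit 62084) (nat_lit 31842773) (nat_lit 0) (nat_lit 0),Row.mk (nat_lit 22008) (nat_lit 32912) (nat_lit 243) (nat_lit 62084) (nat_lit 39770916) (nat_lit 0) (nat_lit 0),Row.mk (nat_lit 22176) (nat_lit 32912) (nat_lit 243) (nat_lit 62084) (nat_lit 49672975) (nat_lit 0) (nat_lit 0),Row.mk (nat_lit 22344) (nat_lit 32912) (nat_lit 243) (nat_lit 62084) (nat_lit 62040408) (nat_lit 0) (nat_lit 0),Row.mk (nat_lit 22512) (nat_lit 32912) (nat_lit 243) (nat_lit 62084) (nat_lit 77487034) (nat_lit 0) (nat_lit 0),Row.mk (nat_lit 22680) (nat_lit 32912) (nat_lit 243) (nat_lit 62084) (nat_lit 96779497) (nat_lit 0) (nat_lit 0),Row.mk (nat_lit 22848) (nat_lit 32912) (nat_lit 243) (nat_lit 62084) (nat_lit 120875317) (nat_lit 0) (nat_lit 0),Row.mk (nat_lit 23016) (nat_lit 32912) (nat_lit 243) (nat_lit 62084) (nat_lit 150970416) (nat_lit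 0) (nat_lit 0)],
[Row.mk (nat_lit 16464) (nat_lit 22627) (nat_lit 1522) (nat_lit 29172) (nat_lit 24679) (nat_lit 0) (nat_lit 0),Row.mk (nat_lit 16632) (nat_lit 22440) (nat_lit 1522) (nat_lit 28985) (nat_lit 31128) (nat_lit 0) (nat_lit 0),Row.mk (nat_lit 16800) (nat_lit 22253) (nat_lit 1522) (nat_lit 28798) (nat_lit 39181) (nat_lit 0) (nat_lit 0),Row.mk (nat_lit 16968) (nat_lit 22066) (nat_lit 1522) (nat_lit 28611) (nat_lit 49240) (nat_lit 0) (nat_lit 0),Row.mk (nat_lit 17136) (nat_lit 21879) (nat_lit 1522) (nat_lit 28424) (nat_lit 61804) (nat_lit 0) (nat_lit 0),Row.mk (nat_lit 17304) (nat_lit 21692) (nat_lit 1522) (nat_lit 28237) (nat_lit 77495) (nat_lit 0) (nat_lit 0),Row.mk (nat_lit 17472) (nat_lit 21505) (nat_lit 1522) (nat_lit 28050) (nat_lit 97093) (nat_lit 0) (nat_lit 0),Row.mk (nat_lit 17640) (nat_lit 21318) (nat_lit 1522) (nat_lit 27863) (nat_lit 121570) (nat_lit 0) (nat_lit 0),Row.mk (nat_lit 17808) (nat_lit 21131) (nat_lit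 1522) (nat_lit 27676) (nat_lit 152142) (nat_lit 0) (nat_lit 0),Row.mk (nat_lit 17976) (nat_lit 20944) (nat_lit 1522) (nat_lit 27489) (nat_lit 190325) (nat_lit 0) (nat_lit 0),Row.mk (nat_lit 18144) (nat_lit 32912) (nat_lit 303) (nat_lit 62084) (nat_lit 238931) (nat_lit 0) (nat_lit 0),Row.mk (nat_lit 18312) (nat_lit 32912) (nat_lit 303) (nat_lit 62084) (nat_lit 298495) (nat_lit 0) (nat_lit 0),Row.mk (nat_lit 18480) (nat_lit 32912) (nat_lit 303) (nat_lit 62084) (nat_lit 372889) (nat_lit 0) (nat_lit 0),Row.mk (nat_lit 18648) (nat_lit 32912) (nat_lit 303) (nat_lit 62084) (nat_lit 465805) (nat_lit 0) (nat_lit 0),Row.mk (nat_lit 18816) (nat_lit 32912) (nat_lit 303) (nat_lit 62084) (nat_lit 581855) (nat_lit 0) (nat_lit 0),Row.mk (nat_lit 18984) (nat_lit 32912) (nat_lit 303) (nat_lit 62084) (nat_lit 726798) (nat_lit 0) (nat_lit 0),Row.mk (nat_lit 19152) (nat_lit 32912) (nat_lit 303) (nat_lit 62084) (nat_lit 907829) (nat_lit 0) (nat_lit 0),Row.mk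 (nat_lit 19320) (nat_lit 32912) (nat_lit 303) (nat_lit 62084) (nat_lit 1133932) (nat_lit 0) (nat_lit 0),Row.mk (nat_lit 19488) (nat_lit 32912) (nat_lit 303) (nat_lit 62084) (nat_lit 1416329) (nat_lit 0) (nat_lit 0),Row.mk (nat_lit 19656) (nat_lit 32912) (nat_lit 303) (nat_lit 62084) (nat_lit 1769037) (nat_lit 0) (nat_lit 0),Row.mk (nat_lit 19824) (nat_lit 32912) (nat_lit 303) (nat_lit 62084) (nat_lit 2209560) (nat_lit 0) (nat_lit 0),Row.mk (nat_lit 19992) (nat_lit 32912) (nat_lit 303) (nat_lit 62084) (nat_lit 2759763) (nat_lit 0) (nat_lit 0),Row.mk (nat_lit 20160) (nat_lit 32912) (nat_lit 303) (nat_lit 62084) (nat_lit 3446953) (nat_lit 0) (nat_lit 0),Row.mk (nat_lit 20328) (nat_lit 32912) (nat_lit 303) (nat_lit 62084) (nat_lit 4305237) (nat_lit 0) (nat_lit 0),Row.mk (nat_lit 20496) (nat_lit 32912) (nat_lit 303) (nat_lit 62084) (nat_lit 5377213) (nat_lit 0) (nat_lit 0),Row.mk (nat_lit 20664) (nat_lit 32912) (nat_lit 303) (nat_lit 62084)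 (nat_lit 6716085) (nat_lit 0) (nat_lit 0),Row.mk (nat_lit 20832) (nat_lit 32912) (nat_lit 303) (nat_lit 62084) (nat_lit 8388304) (nat_lit 0) (nat_lit 0),Row.mk (nat_lit 21000) (nat_lit 32912) (nat_lit 303) (nat_lit 62084) (nat_lit 10476865) (nat_lit 0) (nat_lit 0),Row.mk (nat_lit 21168) (nat_lit 32912) (nat_lit 303) (nat_lit 62084) (nat_lit 13085427) (nat_lit 0) (nat_lit 0),Row.mk (nat_lit 21336) (nat_lit 32912) (nat_lit 303) (nat_lit 62084) (nat_lit 16343459) (nat_lit 0) (nat_lit 0),Row.mk (nat_lit 21504) (nat_lit 32912) (nat_lit 303) (nat_lit 62084) (nat_lit 20412661) (nat_lit 0) (nat_lit 0),Row.mk (nat_lit 21672) (nat_lit 32912) (nat_lit 303) (nat_lit 62084) (nat_lit 25494997) (nat_lit 0) (nat_lit 0),Row.mk (nat_lit 21840) (nat_lit 32912) (nat_lit 303) (nat_lit 62084) (nat_lit 31842712) (nat_lit 0) (nat_lit 0),Row.mk (nat_lit 22008) (nat_lit 32912) (nat_lit 303) (nat_lit 62084) (nat_lit 39770855) (nat_lit 0) (nat_lit 0),Row.mk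 (nat_lit 22176) (nat_lit 32912) (nat_lit 303) (nat_lit 62084) (nat_lit 49672915) (nat_lit 0) (nat_lit 0),Row.mk (nat_lit 22344) (nat_lit 32912) (nat_lit 303) (nat_lit 62084) (nat_lit 62040348) (nat_lit 0) (nat_lit 0),Row.mk (nat_lit 22512) (nat_lit 32912) (nat_lit 303) (nat_lit 62084) (nat_lit 77486973) (nat_lit 0) (nat_lit 0),Row.mk (nat_lit 22680) (nat_lit 32912) (nat_lit 303) (nat_lit 62084) (nat_lit 96779436) (nat_lit 0) (nat_lit 0),Row.mk (nat_lit 22848) (nat_lit 32912) (nat_lit 303) (nat_lit 62084) (nat_lit 120875257) (nat_lit 0) (nat_lit 0),Row.mk (nat_lit 23016) (nat_lit 32912) (nat_lit 303) (nat_lit 62084) (nat_lit 150970355) (nat_lit 0) (nat_lit 0),Row.mk (nat_lit 23184) (nat_lit 32912) (nat_lit 303) (nat_lit 62084) (nat_lit 188558407) (nat_lit 0) (nat_lit 0)],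
[Row.mk (nat_lit 16464) (nat_lit 22814) (nat_lit 1901) (nat_lit 29359) (nat_lit 24376) (nat_lit 0) (nat_lit 0),Row.mk (nat_lit 16632) (nat_lit 22627) (nat_lit 1901) (nat_lit 29172) (nat_lit 30824) (nat_lit 0) (nat_lit 0),Row.mk (nat_lit 16800) (nat_lit 22440) (nat_lit 1901) (nat_lit 28985) (nat_lit 38878) (nat_lit 0) (nat_lit 0),Row.mk (nat_lit 16968) (nat_lit 22253) (nat_lit 1901) (nat_lit 28798) (nat_lit 48937) (nat_lit 0) (nat_lit 0),Row.mk (nat_lit 17136) (nat_lit 22066) (nat_lit 1901) (nat_lit 28611) (nat_lit 61500) (nat_lit 0) (nat_lit 0),Row.mk (nat_lit 17304) (nat_lit 21879) (nat_lit 1901) (nat_lit 28424) (nat_lit 77191) (nat_lit 0) (nat_lit 0),Row.mk (nat_lit 17472) (nat_lit 21692) (nat_lit 1901) (nat_lit 28237) (nat_lit 96789) (nat_lit 0) (nat_lit 0),Row.mk (nat_lit 17640) (nat_lit 21505) (nat_lit 1901) (nat_lit 28050) (nat_lit 121267) (nat_lit 0) (nat_lit 0),Row.mk (nat_lit 17808) (nat_lit 21318) (nat_lit 1901) (nat_lit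 27863) (nat_lit 151839) (nat_lit 0) (nat_lit 0),Row.mk (nat_lit 17976) (nat_lit 21131) (nat_lit 1901) (nat_lit 27676) (nat_lit 190022) (nat_lit 0) (nat_lit 0),Row.mk (nat_lit 18144) (nat_lit 20944) (nat_lit 1901) (nat_lit 27489) (nat_lit 237712) (nat_lit 0) (nat_lit 0),Row.mk (nat_lit 18312) (nat_lit 32912) (nat_lit 379) (nat_lit 62084) (nat_lit 298419) (nat_lit 0) (nat_lit 0),Row.mk (nat_lit 18480) (nat_lit 32912) (nat_lit 379) (nat_lit 62084) (nat_lit 372813) (nat_lit 0) (nat_lit 0),Row.mk (nat_lit 18648) (nat_lit 32912) (nat_lit 379) (nat_lit 62084) (nat_lit 465729) (nat_lit 0) (nat_lit 0),Row.mk (nat_lit 18816) (nat_lit 32912) (nat_lit 379) (nat_lit 62084) (nat_lit 581779) (nat_lit 0) (nat_lit 0),Row.mk (nat_lit 18984) (nat_lit 32912) (nat_lit 379) (nat_lit 62084) (nat_lit 726722) (nat_lit 0) (nat_lit 0),Row.mk (nat_lit 19152) (nat_lit 32912) (nat_lit 379) (nat_lit 62084) (nat_lit 907753) (nat_lit 0) (nat_lit 0),Row.mk (nat_lit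 19320) (nat_lit 32912) (nat_lit 379) (nat_lit 62084) (nat_lit 1133856) (nat_lit 0) (nat_lit 0),Row.mk (nat_lit 19488) (nat_lit 32912) (nat_lit 379) (nat_lit 62084) (nat_lit 1416254) (nat_lit 0) (nat_lit 0),Row.mk (nat_lit 19656) (nat_lit 32912) (nat_lit 379) (nat_lit 62084) (nat_lit 1768961) (nat_lit 0) (nat_lit 0),Row.mk (nat_lit 19824) (nat_lit 32912) (nat_lit 379) (nat_lit 62084) (nat_lit 2209485) (nat_lit 0) (nat_lit 0),Row.mk (nat_lit 19992) (nat_lit 32912) (nat_lit 379) (nat_lit 62084) (nat_lit 2759688) (nat_lit 0) (nat_lit 0),Row.mk (nat_lit 20160) (nat_lit 32912) (nat_lit 379) (nat_lit 62084) (nat_lit 3446878) (nat_lit 0) (nat_lit 0),Row.mk (nat_lit 20328) (nat_lit 32912) (nat_lit 379) (nat_lit 62084) (nat_lit 4305162) (nat_lit 0) (nat_lit 0),Row.mk (nat_lit 20496) (nat_lit 32912) (nat_lit 379) (nat_lit 62084) (nat_lit 5377137) (nat_lit 0) (nat_lit 0),Row.mk (nat_lit 20664) (nat_lit 32912) (nat_lit 379) (nat_lit 62084) (nat_lit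 6716010) (nat_lit 0) (nat_lit 0),Row.mk (nat_lit 20832) (nat_lit 32912) (nat_lit 379) (nat_lit 62084) (nat_lit 8388228) (nat_lit 0) (nat_lit 0),Row.mk (nat_lit 21000) (nat_lit 32912) (nat_lit 379) (nat_lit 62084) (nat_lit 10476789) (nat_lit 0) (nat_lit 0),Row.mk (nat_lit 21168) (nat_lit 32912) (nat_lit 379) (nat_lit 62084) (nat_lit 13085352) (nat_lit 0) (nat_lit 0),Row.mk (nat_lit 21336) (nat_lit 32912) (nat_lit 379) (nat_lit 62084) (nat_lit 16343383) (nat_lit 0) (nat_lit 0),Row.mk (nat_lit 21504) (nat_lit 32912) (nat_lit 379) (nat_lit 62084) (nat_lit 20412586) (nat_lit 0) (nat_lit 0),Row.mk (nat_lit 21672) (nat_lit 32912) (nat_lit 379) (nat_lit 62084) (nat_lit 25494922) (nat_lit 0) (nat_lit 0),Row.mk (nat_lit 21840) (nat_lit 32912) (nat_lit 379) (nat_lit 62084) (nat_lit 31842637) (nat_lit 0) (nat_lit 0),Row.mk (nat_lit 22008) (nat_lit 32912) (nat_lit 379) (nat_lit 62084) (nat_lit 39770780) (nat_lit 0) (nat_lit 0),Row.mk (nat_lit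 22176) (nat_lit 32912) (nat_lit 379) (nat_lit 62084) (nat_lit 49672839) (nat_lit 0) (nat_lit 0),Row.mk (nat_lit 22344) (nat_lit 32912) (nat_lit 379) (nat_lit 62084) (nat_lit 62040272) (nat_lit 0) (nat_lit 0),Row.mk (nat_lit 22512) (nat_lit 32912) (nat_lit 379) (nat_lit 62084) (nat_lit 77486898) (nat_lit 0) (nat_lit 0),Row.mk (nat_lit 22680) (nat_lit 32912) (nat_lit 379) (nat_lit 62084) (nat_lit 96779361) (nat_lit 0) (nat_lit 0),Row.mk (nat_lit 22848) (nat_lit 32912) (nat_lit 379) (nat_lit 62084) (nat_lit 120875181) (nat_lit 0) (nat_lit 0),Row.mk (nat_lit 23016) (nat_lit 32912) (nat_lit 379) (nat_lit 62084) (nat_lit 150970280) (nat_lit 0) (nat_lit 0),Row.mk (nat_lit 23184) (nat_lit 32912) (nat_lit 379) (nat_lit 62084) (nat_lit 188558332) (nat_lit 0) (nat_lit 0),Row.mk (nat_lit 23352) (nat_lit 32912) (nat_lit 379) (nat_lit 62084) (nat_lit 235504902) (nat_lit 0) (nat_lit 0)],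
[Row.mk (nat_lit 16296) (nat_lit 23188) (nat_lit 2375) (nat_lit 29733) (nat_lit 18834) (nat_lit 0) (nat_lit 0),Row.mk (nat_lit 16464) (nat_lit 23001) (nat_lit 2375) (nat_lit 29546) (nat_lit 23997) (nat_lit 0) (nat_lit 0),Row.mk (nat_lit 16632) (nat_lit 22814) (nat_lit 2375) (nat_lit 29359) (nat_lit 30445) (nat_lit 0) (nat_lit 0),Row.mk (nat_lit 16800) (nat_lit 22627) (nat_lit 2375) (nat_lit 29172) (nat_lit 38499) (nat_lit 0) (nat_lit 0),Row.mk (nat_lit 16968) (nat_lit 22440) (nat_lit 2375) (nat_lit 28985) (nat_lit 48558) (nat_lit 0) (nat_lit 0),Row.mk (nat_lit 17136) (nat_lit 22253) (nat_lit 2375) (nat_lit 28798) (nat_lit 61121) (nat_lit 0) (nat_lit 0),Row.mk (nat_lit 17304) (nat_lit 22066) (nat_lit 2375) (nat_lit 28611) (nat_lit 76812) (nat_lit 0) (nat_lit 0),Row.mk (nat_lit 17472) (nat_lit 21879) (nat_lit 2375) (nat_lit 28424) (nat_lit 96410) (nat_lit 0) (nat_lit 0),Row.mk (nat_lit 17640) (nat_lit 21692) (nat_lit 2375) (nat_lit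 28237) (nat_lit 120888) (nat_lit 0) (nat_lit 0),Row.mk (nat_lit 17808) (nat_lit 21505) (nat_lit 2375) (nat_lit 28050) (nat_lit 151459) (nat_lit 0) (nat_lit 0),Row.mk (nat_lit 17976) (nat_lit 21318) (nat_lit 2375) (nat_lit 27863) (nat_lit 189643) (nat_lit 0) (nat_lit 0),Row.mk (nat_lit 18144) (nat_lit 21131) (nat_lit 2375) (nat_lit 27676) (nat_lit 237333) (nat_lit 0) (nat_lit 0),Row.mk (nat_lit 18312) (nat_lit 20944) (nat_lit 2375) (nat_lit 27489) (nat_lit 296897) (nat_lit 0) (nat_lit 0),Row.mk (nat_lit 18480) (nat_lit 32912) (nat_lit 473) (nat_lit 62084) (nat_lit 372719) (nat_lit 0) (nat_lit 0),Row.mk (nat_lit 18648) (nat_lit 32912) (nat_lit 473) (nat_lit 62084) (nat_lit 465635) (nat_lit 0) (nat_lit 0),Row.mk (nat_lit 18816) (nat_lit 32912) (nat_lit 473) (nat_lit 62084) (nat_lit 581685) (nat_lit 0) (nat_lit 0),Row.mk (nat_lit 18984) (nat_lit 32912) (nat_lit 473) (nat_lit 62084) (nat_lit 726628) (nat_lit 0) (nat_lit 0),Row.mk (nat_lit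 19152) (nat_lit 32912) (nat_lit 473) (nat_lit 62084) (nat_lit 907659) (nat_lit 0) (nat_lit 0),Row.mk (nat_lit 19320) (nat_lit 32912) (nat_lit 473) (nat_lit 62084) (nat_lit 1133762) (nat_lit 0) (nat_lit 0),Row.mk (nat_lit 19488) (nat_lit 32912) (nat_lit 473) (nat_lit 62084) (nat_lit 1416159) (nat_lit 0) (nat_lit 0),Row.mk (nat_lit 19656) (nat_lit 32912) (nat_lit 473) (nat_lit 62084) (nat_lit 1768867) (nat_lit 0) (nat_lit 0),Row.mk (nat_lit 19824) (nat_lit 32912) (nat_lit 473) (nat_lit 62084) (nat_lit 2209390) (nat_lit 0) (nat_lit 0),Row.mk (nat_lit 19992) (nat_lit 32912) (nat_lit 473) (nat_lit 62084) (nat_lit 2759593) (nat_lit 0) (nat_lit 0),Row.mk (nat_lit 20160) (nat_lit 32912) (nat_lit 473) (nat_lit 62084) (nat_lit 3446783) (nat_lit 0) (nat_lit 0),Row.mk (nat_lit 20328) (nat_lit 32912) (nat_lit 473) (nat_lit 62084) (nat_lit 4305067) (nat_lit 0) (nat_lit 0),Row.mk (nat_lit 20496) (nat_lit 32912) (nat_lit 473) (nat_lit 62084) (nat_lit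 5377043) (nat_lit 0) (nat_lit 0),Row.mk (nat_lit 20664) (nat_lit 32912) (nat_lit 473) (nat_lit 62084) (nat_lit 6715915) (nat_lit 0) (nat_lit 0),Row.mk (nat_lit 20832) (nat_lit 32912) (nat_lit 473) (nat_lit 62084) (nat_lit 8388134) (nat_lit 0) (nat_lit 0),Row.mk (nat_lit 21000) (nat_lit 32912) (nat_lit 473) (nat_lit 62084) (nat_lit 10476695) (nat_lit 0) (nat_lit 0),Row.mk (nat_lit 21168) (nat_lit 32912) (nat_lit 473) (nat_lit 62084) (nat_lit 13085257) (nat_lit 0) (nat_lit 0),Row.mk (nat_lit 21336) (nat_lit 32912) (nat_lit 473) (nat_lit 62084) (nat_lit 16343289) (nat_lit 0) (nat_lit 0),Row.mk (nat_lit 21504) (nat_lit 32912) (nat_lit 473) (nat_lit 62084) (nat_lit 20412491) (nat_lit 0) (nat_lit 0),Row.mk (nat_lit 21672) (nat_lit 32912) (nat_lit 473) (nat_lit 62084) (nat_lit 25494827) (nat_lit 0) (nat_lit 0),Row.mk (nat_lit 21840) (nat_lit 32912) (nat_lit 473) (nat_lit 62084) (nat_lit 31842542) (nat_lit 0) (nat_lit 0),Row.mk (nat_lit 22008)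 (nat_lit 32912) (nat_lit 473) (nat_lit 62084) (nat_lit 39770685) (nat_lit 0) (nat_lit 0),Row.mk (nat_lit 22176) (nat_lit 32912) (nat_lit 473) (nat_lit 62084) (nat_lit 49672745) (nat_lit 0) (nat_lit 0),Row.mk (nat_lit 22344) (nat_lit 32912) (nat_lit 473) (nat_lit 62084) (nat_lit 62040178) (nat_lit 0) (nat_lit 0),Row.mk (nat_lit 22512) (nat_lit 32912) (nat_lit 473) (nat_lit 62084) (nat_lit 77486803) (nat_lit 0) (nat_lit 0),Row.mk (nat_lit 22680) (nat_lit 32912) (nat_lit 473) (nat_lit 62084) (nat_lit 96779266) (nat_lit 0) (nat_lit 0),Row.mk (nat_lit 22848) (nat_lit 32912) (nat_lit 473) (nat_lit 62084) (nat_lit 120875087) (nat_lit 0) (nat_lit 0),Row.mk (nat_lit 23016) (nat_lit 32912) (nat_lit 473) (nat_lit 62084) (nat_lit 150970185) (nat_lit 0) (nat_lit 0),Row.mk (nat_lit 23184) (nat_lit 32912) (nat_lit 473) (nat_lit 62084) (nat_lit 188558238) (nat_lit 0) (nat_lit 0),Row.mk (nat_lit 23352) (nat_lit 32912) (nat_lit 473) (nat_lit 62084)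 (nat_lit 235504808) (nat_lit 0) (nat_lit 0),Row.mk (nat_lit 23520) (nat_lit 32912) (nat_lit 473) (nat_lit 62084) (nat_lit 294139942) (nat_lit 0) (nat_lit 0)],
[Row.mk (nat_lit 16296) (nat_lit 23375) (nat_lit 2966) (nat_lit 29920) (nat_lit 18361) (nat_lit 0) (nat_lit 0),Row.mk (nat_lit 16464) (nat_lit 23188) (nat_lit 2966) (nat_lit 29733) (nat_lit 23523) (nat_lit 0) (nat_lit 0),Row.mk (nat_lit 16632) (nat_lit 23001) (nat_lit 2966) (nat_lit 29546) (nat_lit 29972) (nat_lit 0) (nat_lit 0),Row.mk (nat_lit 16800) (nat_lit 22814) (nat_lit 2966) (nat_lit 29359) (nat_lit 38025) (nat_lit 0) (nat_lit 0),Row.mk (nat_lit 16968) (nat_lit 22627) (nat_lit 2966) (nat_lit 29172) (nat_lit 48084) (nat_lit 0) (nat_lit 0),Row.mk (nat_lit 17136) (nat_lit 22440) (nat_lit 2966) (nat_lit 28985) (nat_lit 60648) (nat_lit 0) (nat_lit 0),Row.mk (nat_lit 17304) (nat_lit 22253) (nat_lit 2966) (nat_lit 28798) (nat_lit 76339) (nat_lit 0) (nat_lit 0),Row.mk (nat_lit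 17472) (nat_lit 22066) (nat_lit 2966) (nat_lit 28611) (nat_lit 95937) (nat_lit 0) (nat_lit 0),Row.mk (nat_lit 17640) (nat_lit 21879) (nat_lit 2966) (nat_lit 28424) (nat_lit 120414) (nat_lit 0) (nat_lit 0),Row.mk (nat_lit 17808) (nat_lit 21692) (nat_lit 2966) (nat_lit 28237) (nat_lit 150986) (nat_lit 0) (nat_lit 0),Row.mk (nat_lit 17976) (nat_lit 21505) (nat_lit 2966) (nat_lit 28050) (nat_lit 189169) (nat_lit 0) (nat_lit 0),Row.mk (nat_lit 18144) (nat_lit 21318) (nat_lit 2966) (nat_lit 27863) (nat_lit 236859) (nat_lit 0) (nat_lit 0),Row.mk (nat_lit 18312) (nat_lit 21131) (nat_lit 2966) (nat_lit 27676) (nat_lit 296423) (nat_lit 0) (nat_lit 0),Row.mk (nat_lit 18480) (nat_lit 20944) (nat_lit 2966) (nat_lit 27489) (nat_lit 370817) (nat_lit 0) (nat_lit 0),Row.mk (nat_lit 18648) (nat_lit 32912) (nat_lit 591) (nat_lit 62084) (nat_lit 465517) (nat_lit 0) (nat_lit 0),Row.mk (nat_lit 18816) (nat_lit 32912) (nat_lit 591) (nat_lit 62084) (nat_lit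 581567) (nat_lit 0) (nat_lit 0),Row.mk (nat_lit 18984) (nat_lit 32912) (nat_lit 591) (nat_lit 62084) (nat_lit 726510) (nat_lit 0) (nat_lit 0),Row.mk (nat_lit 19152) (nat_lit 32912) (nat_lit 591) (nat_lit 62084) (nat_lit 907541) (nat_lit 0) (nat_lit 0),Row.mk (nat_lit 19320) (nat_lit 32912) (nat_lit 591) (nat_lit 62084) (nat_lit 1133644) (nat_lit 0) (nat_lit 0),Row.mk (nat_lit 19488) (nat_lit 32912) (nat_lit 591) (nat_lit 62084) (nat_lit 1416042) (nat_lit 0) (nat_lit 0),Row.mk (nat_lit 19656) (nat_lit 32912) (nat_lit 591) (nat_lit 62084) (nat_lit 1768749) (nat_lit 0) (nat_lit 0),Row.mk (nat_lit 19824) (nat_lit 32912) (nat_lit 591) (nat_lit 62084) (nat_lit 2209272) (nat_lit 0) (nat_lit 0),Row.mk (nat_lit 19992) (nat_lit 32912) (nat_lit 591) (nat_lit 62084) (nat_lit 2759475) (nat_lit 0) (nat_lit 0),Row.mk (nat_lit 20160) (nat_lit 32912) (nat_lit 591) (nat_lit 62084) (nat_lit 3446665) (nat_lit 0) (nat_lit 0),Row.mk (nat_lit 20328) (nat_lit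 32912) (nat_lit 591) (nat_lit 62084) (nat_lit 4304949) (nat_lit 0) (nat_lit 0),Row.mk (nat_lit 20496) (nat_lit 32912) (nat_lit 591) (nat_lit 62084) (nat_lit 5376925) (nat_lit 0) (nat_lit 0),Row.mk (nat_lit 20664) (nat_lit 32912) (nat_lit 591) (nat_lit 62084) (nat_lit 6715797) (nat_lit 0) (nat_lit 0),Row.mk (nat_lit 20832) (nat_lit 32912) (nat_lit 591) (nat_lit 62084) (nat_lit 8388016) (nat_lit 0) (nat_lit 0),Row.mk (nat_lit 21000) (nat_lit 32912) (nat_lit 591) (nat_lit 62084) (nat_lit 10476577) (nat_lit 0) (nat_lit 0),Row.mk (nat_lit 21168) (nat_lit 32912) (nat_lit 591) (nat_lit 62084) (nat_lit 13085139) (nat_lit 0) (nat_lit 0),Row.mk (nat_lit 21336) (nat_lit 32912) (nat_lit 591) (nat_lit 62084) (nat_lit 16343171) (nat_lit 0) (nat_lit 0),Row.mk (nat_lit 21504) (nat_lit 32912) (nat_lit 591) (nat_lit 62084) (nat_lit 20412374) (nat_lit 0) (nat_lit 0),Row.mk (nat_lit 21672) (nat_lit 32912) (nat_lit 591) (nat_lit 62084) (nat_lit 25494710)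 (nat_lit 0) (nat_lit 0),Row.mk (nat_lit 21840) (nat_lit 32912) (nat_lit 591) (nat_lit 62084) (nat_lit 31842425) (nat_lit 0) (nat_lit 0),Row.mk (nat_lit 22008) (nat_lit 32912) (nat_lit 591) (nat_lit 62084) (nat_lit 39770567) (nat_lit 0) (nat_lit 0),Row.mk (nat_lit 22176) (nat_lit 32912) (nat_lit 591) (nat_lit 62084) (nat_lit 49672627) (nat_lit 0) (nat_lit 0),Row.mk (nat_lit 22344) (nat_lit 32912) (nat_lit 591) (nat_lit 62084) (nat_lit 62040060) (nat_lit 0) (nat_lit 0),Row.mk (nat_lit 22512) (nat_lit 32912) (nat_lit 591) (nat_lit 62084) (nat_lit 77486685) (nat_lit 0) (nat_lit 0),Row.mk (nat_lit 22680) (nat_lit 32912) (nat_lit 591) (nat_lit 62084) (nat_lit 96779148) (nat_lit 0) (nat_lit 0),Row.mk (nat_lit 22848) (nat_lit 32912) (nat_lit 591) (nat_lit 62084) (nat_lit 120874969) (nat_lit 0) (nat_lit 0),Row.mk (nat_lit 23016) (nat_lit 32912) (nat_lit 591) (nat_lit 62084) (nat_lit 150970067) (nat_lit 0) (nat_lit 0),Row.mk (nat_lit 23184)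 (nat_lit 32912) (nat_lit 591) (nat_lit 62084) (nat_lit 188558120) (nat_lit 0) (nat_lit 0),Row.mk (nat_lit 23352) (nat_lit 32912) (nat_lit 591) (nat_lit 62084) (nat_lit 235504690) (nat_lit 0) (nat_lit 0),Row.mk (nat_lit 23520) (nat_lit 32912) (nat_lit 591) (nat_lit 62084) (nat_lit 294139824) (nat_lit 0) (nat_lit 0),Row.mk (nat_lit 23688) (nat_lit 32912) (nat_lit 591) (nat_lit 62084) (nat_lit 367373692) (nat_lit 0) (nat_lit 0)],
[Row.mk (nat_lit 16296) (nat_lit 23562) (nat_lit 3705) (nat_lit 30107) (nat_lit 17769) (nat_lit 0) (nat_lit 0),Row.mk (nat_lit 16464) (nat_lit 23375) (nat_lit 3705) (nat_lit 29920) (nat_lit 22932) (nat_lit 0) (nat_lit 0),Row.mk (nat_lit 16632) (nat_lit 23188) (nat_lit 3705) (nat_lit 29733) (nat_lit 29380) (nat_lit 0) (nat_lit 0),Row.mk (nat_lit 16800) (nat_lit 23001) (nat_lit 3705) (nat_lit 29546) (nat_lit 37434) (nat_lit 0) (nat_lit 0),Row.mk (nat_lit 16968) (nat_lit 22814) (nat_lit 3705) (nat_lit 29359) (nat_lit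 47493) (nat_lit 0) (nat_lit 0),Row.mk (nat_lit 17136) (nat_lit 22627) (nat_lit 3705) (nat_lit 29172) (nat_lit 60056) (nat_lit 0) (nat_lit 0),Row.mk (nat_lit 17304) (nat_lit 22440) (nat_lit 3705) (nat_lit 28985) (nat_lit 75747) (nat_lit 0) (nat_lit 0),Row.mk (nat_lit 17472) (nat_lit 22253) (nat_lit 3705) (nat_lit 28798) (nat_lit 95345) (nat_lit 0) (nat_lit 0),Row.mk (nat_lit 17640) (nat_lit 22066) (nat_lit 3705) (nat_lit 28611) (nat_lit 119823) (nat_lit 0) (nat_lit 0),Row.mk (nat_lit 17808) (nat_lit 21879) (nat_lit 3705) (nat_lit 28424) (nat_lit 150395) (nat_lit 0) (nat_lit 0),Row.mk (nat_lit 17976) (nat_lit 21692) (nat_lit 3705) (nat_lit 28237) (nat_lit 188578) (nat_lit 0) (nat_lit 0),Row.mk (nat_lit 18144) (nat_lit 21505) (nat_lit 3705) (nat_lit 28050) (nat_lit 236268) (nat_lit 0) (nat_lit 0),Row.mk (nat_lit 18312) (nat_lit 21318) (nat_lit 3705) (nat_lit 27863) (nat_lit 295832) (nat_lit 0) (nat_lit 0),Row.mk (nat_lit 18480) (nat_lit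 21131) (nat_lit 3705) (nat_lit 27676) (nat_lit 370226) (nat_lit 0) (nat_lit 0),Row.mk (nat_lit 18648) (nat_lit 20944) (nat_lit 3705) (nat_lit 27489) (nat_lit 463142) (nat_lit 0) (nat_lit 0),Row.mk (nat_lit 18816) (nat_lit 32912) (nat_lit 738) (nat_lit 62084) (nat_lit 581419) (nat_lit 0) (nat_lit 0),Row.mk (nat_lit 18984) (nat_lit 32912) (nat_lit 738) (nat_lit 62084) (nat_lit 726363) (nat_lit 0) (nat_lit 0),Row.mk (nat_lit 19152) (nat_lit 32912) (nat_lit 738) (nat_lit 62084) (nat_lit 907394) (nat_lit 0) (nat_lit 0),Row.mk (nat_lit 19320) (nat_lit 32912) (nat_lit 738) (nat_lit 62084) (nat_lit 1133497) (nat_lit 0) (nat_lit 0),Row.mk (nat_lit 19488) (nat_lit 32912) (nat_lit 738) (nat_lit 62084) (nat_lit 1415894) (nat_lit 0) (nat_lit 0),Row.mk (nat_lit 19656) (nat_lit 32912) (nat_lit 738) (nat_lit 62084) (nat_lit 1768602) (nat_lit 0) (nat_lit 0),Row.mk (nat_lit 19824) (nat_lit 32912) (nat_lit 738) (nat_lit 62084) (nat_lit 2209125) (nat_lit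 0) (nat_lit 0),Row.mk (nat_lit 19992) (nat_lit 32912) (nat_lit 738) (nat_lit 62084) (nat_lit 2759328) (nat_lit 0) (nat_lit 0),Row.mk (nat_lit 20160) (nat_lit 32912) (nat_lit 738) (nat_lit 62084) (nat_lit 3446518) (nat_lit 0) (nat_lit 0),Row.mk (nat_lit 20328) (nat_lit 32912) (nat_lit 738) (nat_lit 62084) (nat_lit 4304802) (nat_lit 0) (nat_lit 0),Row.mk (nat_lit 20496) (nat_lit 32912) (nat_lit 738) (nat_lit 62084) (nat_lit 5376778) (nat_lit 0) (nat_lit 0),Row.mk (nat_lit 20664) (nat_lit 32912) (nat_lit 738) (nat_lit 62084) (nat_lit 6715650) (nat_lit 0) (nat_lit 0),Row.mk (nat_lit 20832) (nat_lit 32912) (nat_lit 738) (nat_lit 62084) (nat_lit 8387869) (nat_lit 0) (nat_lit 0),Row.mk (nat_lit 21000) (nat_lit 32912) (nat_lit 738) (nat_lit 62084) (nat_lit 10476430) (nat_lit 0) (nat_lit 0),Row.mk (nat_lit 21168) (nat_lit 32912) (nat_lit 738) (nat_lit 62084) (nat_lit 13084992) (nat_lit 0) (nat_lit 0),Row.mk (nat_lit 21336) (nat_lit 32912)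 (nat_lit 738) (nat_lit 62084) (nat_lit 16343024) (nat_lit 0) (nat_lit 0),Row.mk (nat_lit 21504) (nat_lit 32912) (nat_lit 738) (nat_lit 62084) (nat_lit 20412226) (nat_lit 0) (nat_lit 0),Row.mk (nat_lit 21672) (nat_lit 32912) (nat_lit 738) (nat_lit 62084) (nat_lit 25494562) (nat_lit 0) (nat_lit 0),Row.mk (nat_lit 21840) (nat_lit 32912) (nat_lit 738) (nat_lit 62084) (nat_lit 31842277) (nat_lit 0) (nat_lit 0),Row.mk (nat_lit 22008) (nat_lit 32912) (nat_lit 738) (nat_lit 62084) (nat_lit 39770420) (nat_lit 0) (nat_lit 0),Row.mk (nat_lit 22176) (nat_lit 32912) (nat_lit 738) (nat_lit 62084) (nat_lit 49672479) (nat_lit 0) (nat_lit 0),Row.mk (nat_lit 22344) (nat_lit 32912) (nat_lit 738) (nat_lit 62084) (nat_lit 62039913) (nat_lit 0) (nat_lit 0),Row.mk (nat_lit 22512) (nat_lit 32912) (nat_lit 738) (nat_lit 62084) (nat_lit 77486538) (nat_lit 0) (nat_lit 0),Row.mk (nat_lit 22680) (nat_lit 32912) (nat_lit 738) (nat_lit 62084) (nat_lit 96779001)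 (nat_lit 0) (nat_lit 0),Row.mk (nat_lit 22848) (nat_lit 32912) (nat_lit 738) (nat_lit 62084) (nat_lit 120874822) (nat_lit 0) (nat_lit 0),Row.mk (nat_lit 23016) (nat_lit 32912) (nat_lit 738) (nat_lit 62084) (nat_lit 150969920) (nat_lit 0) (nat_lit 0),Row.mk (nat_lit 23184) (nat_lit 32912) (nat_lit 738) (nat_lit 62084) (nat_lit 188557972) (nat_lit 0) (nat_lit 0),Row.mk (nat_lit 23352) (nat_lit 32912) (nat_lit 738) (nat_lit 62084) (nat_lit 235504543) (nat_lit 0) (nat_lit 0),Row.mk (nat_lit 23520) (nat_lit 32912) (nat_lit 738) (nat_lit 62084) (nat_lit 294139677) (nat_lit 0) (nat_lit 0),Row.mk (nat_lit 23688) (nat_lit 32912) (nat_lit 738) (nat_lit 62084) (nat_lit 367373545) (nat_lit 0) (nat_lit 0),Row.mk (nat_lit 23856) (nat_lit 32912) (nat_lit 738) (nat_lit 62084) (nat_lit 458840879) (nat_lit 0) (nat_lit 0)],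
[Row.mk (nat_lit 16128) (nat_lit 23936) (nat_lit 4627) (nat_lit 30481) (nat_lit 12897) (nat_lit 0) (nat_lit 0),Row.mk (nat_lit 16296) (nat_lit 23749) (nat_lit 4627) (nat_lit 30294) (nat_lit 17031) (nat_lit 0) (nat_lit 0),Row.mk (nat_lit 16464) (nat_lit 23562) (nat_lit 4627) (nat_lit 30107) (nat_lit 22193) (nat_lit 0) (nat_lit 0),Row.mk (nat_lit 16632) (nat_lit 23375) (nat_lit 4627) (nat_lit 29920) (nat_lit 28642) (nat_lit 0) (nat_lit 0),Row.mk (nat_lit 16800) (nat_lit 23188) (nat_lit 4627) (nat_lit 29733) (nat_lit 36695) (nat_lit 0) (nat_lit 0),Row.mk (nat_lit 16968) (nat_lit 23001) (nat_lit 4627) (nat_lit 29546) (nat_lit 46754) (nat_lit 0) (nat_lit 0),Row.mk (nat_lit 17136) (nat_lit 22814) (nat_lit 4627) (nat_lit 29359) (nat_lit 59318) (nat_lit 0) (nat_lit 0),Row.mk (nat_lit 17304) (nat_lit 22627) (nat_lit 4627) (nat_lit 29172) (nat_lit 75009) (nat_lit 0) (nat_lit 0),Row.mk (nat_lit 17472) (nat_lit 22440) (nat_lit 4627) (nat_lit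 28985) (nat_lit 94607) (nat_lit 0) (nat_lit 0),Row.mk (nat_lit 17640) (nat_lit 22253) (nat_lit 4627) (nat_lit 28798) (nat_lit 119084) (nat_lit 0) (nat_lit 0),Row.mk (nat_lit 17808) (nat_lit 22066) (nat_lit 4627) (nat_lit 28611) (nat_lit 149656) (nat_lit 0) (nat_lit 0),Row.mk (nat_lit 17976) (nat_lit 21879) (nat_lit 4627) (nat_lit 28424) (nat_lit 187839) (nat_lit 0) (nat_lit 0),Row.mk (nat_lit 18144) (nat_lit 21692) (nat_lit 4627) (nat_lit 28237) (nat_lit 235529) (nat_lit 0) (nat_lit 0),Row.mk (nat_lit 18312) (nat_lit 21505) (nat_lit 4627) (nat_lit 28050) (nat_lit 295093) (nat_lit 0) (nat_lit 0),Row.mk (nat_lit 18480) (nat_lit 21318) (nat_lit 4627) (nat_lit 27863) (nat_lit 369487) (nat_lit 0) (nat_lit 0),Row.mk (nat_lit 18648) (nat_lit 21131) (nat_lit 4627) (nat_lit 27676) (nat_lit 462403) (nat_lit 0) (nat_lit 0),Row.mk (nat_lit 18816) (nat_lit 20944) (nat_lit 4627) (nat_lit 27489) (nat_lit 578453) (nat_lit 0) (nat_lit 0),Row.mk (nat_lit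 18984) (nat_lit 32912) (nat_lit 922) (nat_lit 62084) (nat_lit 726179) (nat_lit 0) (nat_lit 0),Row.mk (nat_lit 19152) (nat_lit 32912) (nat_lit 922) (nat_lit 62084) (nat_lit 907210) (nat_lit 0) (nat_lit 0),Row.mk (nat_lit 19320) (nat_lit 32912) (nat_lit 922) (nat_lit 62084) (nat_lit 1133313) (nat_lit 0) (nat_lit 0),Row.mk (nat_lit 19488) (nat_lit 32912) (nat_lit 922) (nat_lit 62084) (nat_lit 1415710) (nat_lit 0) (nat_lit 0),Row.mk (nat_lit 19656) (nat_lit 32912) (nat_lit 922) (nat_lit 62084) (nat_lit 1768418) (nat_lit 0) (nat_lit 0),Row.mk (nat_lit 19824) (nat_lit 32912) (nat_lit 922) (nat_lit 62084) (nat_lit 2208941) (nat_lit 0) (nat_lit 0),Row.mk (nat_lit 19992) (nat_lit 32912) (nat_lit 922) (nat_lit 62084) (nat_lit 2759144) (nat_lit 0) (nat_lit 0),Row.mk (nat_lit 20160) (nat_lit 32912) (nat_lit 922) (nat_lit 62084) (nat_lit 3446334) (nat_lit 0) (nat_lit 0),Row.mk (nat_lit 20328) (nat_lit 32912) (nat_lit 922) (nat_lit 62084) (nat_lit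 4304618) (nat_lit 0) (nat_lit 0),Row.mk (nat_lit 20496) (nat_lit 32912) (nat_lit 922) (nat_lit 62084) (nat_lit 5376594) (nat_lit 0) (nat_lit 0),Row.mk (nat_lit 20664) (nat_lit 32912) (nat_lit 922) (nat_lit 62084) (nat_lit 6715466) (nat_lit 0) (nat_lit 0),Row.mk (nat_lit 20832) (nat_lit 32912) (nat_lit 922) (nat_lit 62084) (nat_lit 8387685) (nat_lit 0) (nat_lit 0),Row.mk (nat_lit 21000) (nat_lit 32912) (nat_lit 922) (nat_lit 62084) (nat_lit 10476246) (nat_lit 0) (nat_lit 0),Row.mk (nat_lit 21168) (nat_lit 32912) (nat_lit 922) (nat_lit 62084) (nat_lit 13084808) (nat_lit 0) (nat_lit 0),Row.mk (nat_lit 21336) (nat_lit 32912) (nat_lit 922) (nat_lit 62084) (nat_lit 16342840) (nat_lit 0) (nat_lit 0),Row.mk (nat_lit 21504) (nat_lit 32912) (nat_lit 922) (nat_lit 62084) (nat_lit 20412042) (nat_lit 0) (nat_lit 0),Row.mk (nat_lit 21672) (nat_lit 32912) (nat_lit 922) (nat_lit 62084) (nat_lit 25494378) (nat_lit 0) (nat_lit 0),Row.mk (nat_lit 21840)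 (nat_lit 32912) (nat_lit 922) (nat_lit 62084) (nat_lit 31842093) (nat_lit 0) (nat_lit 0),Row.mk (nat_lit 22008) (nat_lit 32912) (nat_lit 922) (nat_lit 62084) (nat_lit 39770236) (nat_lit 0) (nat_lit 0),Row.mk (nat_lit 22176) (nat_lit 32912) (nat_lit 922) (nat_lit 62084) (nat_lit 49672296) (nat_lit 0) (nat_lit 0),Row.mk (nat_lit 22344) (nat_lit 32912) (nat_lit 922) (nat_lit 62084) (nat_lit 62039729) (nat_lit 0) (nat_lit 0),Row.mk (nat_lit 22512) (nat_lit 32912) (nat_lit 922) (nat_lit 62084) (nat_lit 77486354) (nat_lit 0) (nat_lit 0),Row.mk (nat_lit 22680) (nat_lit 32912) (nat_lit 922) (nat_lit 62084) (nat_lit 96778817) (nat_lit 0) (nat_lit 0),Row.mk (nat_lit 22848) (nat_lit 32912) (nat_lit 922) (nat_lit 62084) (nat_lit 120874638) (nat_lit 0) (nat_lit 0),Row.mk (nat_lit 23016) (nat_lit 32912) (nat_lit 922) (nat_lit 62084) (nat_lit 150969736) (nat_lit 0) (nat_lit 0),Row.mk (nat_lit 23184) (nat_lit 32912) (nat_lit 922) (nat_lit 62084)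 (nat_lit 188557789) (nat_lit 0) (nat_lit 0),Row.mk (nat_lit 23352) (nat_lit 32912) (nat_lit 922) (nat_lit 62084) (nat_lit 235504359) (nat_lit 0) (nat_lit 0),Row.mk (nat_lit 23520) (nat_lit 32912) (nat_lit 922) (nat_lit 62084) (nat_lit 294139493) (nat_lit 0) (nat_lit 0),Row.mk (nat_lit 23688) (nat_lit 32912) (nat_lit 922) (nat_lit 62084) (nat_lit 367373361) (nat_lit 0) (nat_lit 0),Row.mk (nat_lit 23856) (nat_lit 32912) (nat_lit 922) (nat_lit 62084) (nat_lit 458840695) (nat_lit 0) (nat_lit 0),Row.mk (nat_lit 24024) (nat_lit 32912) (nat_lit 922) (nat_lit 62084) (nat_lit 573081189) (nat_lit 0) (nat_lit 0)],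
[Row.mk (nat_lit 16128) (nat_lit 24123) (nat_lit 5779) (nat_lit 30668) (nat_lit 11974) (nat_lit 0) (nat_lit 0),Row.mk (nat_lit 16296) (nat_lit 23936) (nat_lit 5779) (nat_lit 30481) (nat_lit 16108) (nat_lit 0) (nat_lit 0),Row.mk (nat_lit 16464) (nat_lit 23749) (nat_lit 5779) (nat_lit 30294) (nat_lit 21271) (nat_lit 0) (nat_lit 0),Row.mk (nat_lit 16632) (nat_lit 23562) (nat_lit 5779) (nat_lit 30107) (nat_lit 27719) (nat_lit 0) (nat_lit 0),Row.mk (nat_lit 16800) (nat_lit 23375) (nat_lit 5779) (nat_lit 29920) (nat_lit 35773) (nat_lit 0) (nat_lit 0),Row.mk (nat_lit 16968) (nat_lit 23188) (nat_lit 5779) (nat_lit 29733) (nat_lit 45832) (nat_lit 0) (nat_lit 0),Row.mk (nat_lit 17136) (nat_lit 23001) (nat_lit 5779) (nat_lit 29546) (nat_lit 58395) (nat_lit 0) (nat_lit 0),Row.mk (nat_lit 17304) (nat_lit 22814) (nat_lit 5779) (nat_lit 29359) (nat_lit 74086) (nat_lit 0) (nat_lit 0),Row.mk (nat_lit 17472) (nat_lit 22627) (nat_lit 5779) (nat_lit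 29172) (nat_lit 93684) (nat_lit 0) (nat_lit 0),Row.mk (nat_lit 17640) (nat_lit 22440) (nat_lit 5779) (nat_lit 28985) (nat_lit 118162) (nat_lit 0) (nat_lit 0),Row.mk (nat_lit 17808) (nat_lit 22253) (nat_lit 5779) (nat_lit 28798) (nat_lit 148733) (nat_lit 0) (nat_lit 0),Row.mk (nat_lit 17976) (nat_lit 22066) (nat_lit 5779) (nat_lit 28611) (nat_lit 186917) (nat_lit 0) (nat_lit 0),Row.mk (nat_lit 18144) (nat_lit 21879) (nat_lit 5779) (nat_lit 28424) (nat_lit 234607) (nat_lit 0) (nat_lit 0),Row.mk (nat_lit 18312) (nat_lit 21692) (nat_lit 5779) (nat_lit 28237) (nat_lit 294171) (nat_lit 0) (nat_lit 0),Row.mk (nat_lit 18480) (nat_lit 21505) (nat_lit 5779) (nat_lit 28050) (nat_lit 368564) (nat_lit 0) (nat_lit 0),Row.mk (nat_lit 18648) (nat_lit 21318) (nat_lit 5779) (nat_lit 27863) (nat_lit 461480) (nat_lit 0) (nat_lit 0),Row.mk (nat_lit 18816) (nat_lit 21131) (nat_lit 5779) (nat_lit 27676) (nat_lit 577530) (nat_lit 0) (nat_lit 0),Row.mk (nat_lit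 18984) (nat_lit 20944) (nat_lit 5779) (nat_lit 27489) (nat_lit 722474) (nat_lit 0) (nat_lit 0),Row.mk (nat_lit 19152) (nat_lit 32912) (nat_lit 1152) (nat_lit 62084) (nat_lit 906980) (nat_lit 0) (nat_lit 0),Row.mk (nat_lit 19320) (nat_lit 32912) (nat_lit 1152) (nat_lit 62084) (nat_lit 1133083) (nat_lit 0) (nat_lit 0),Row.mk (nat_lit 19488) (nat_lit 32912) (nat_lit 1152) (nat_lit 62084) (nat_lit 1415481) (nat_lit 0) (nat_lit 0),Row.mk (nat_lit 19656) (nat_lit 32912) (nat_lit 1152) (nat_lit 62084) (nat_lit 1768188) (nat_lit 0) (nat_lit 0),Row.mk (nat_lit 19824) (nat_lit 32912) (nat_lit 1152) (nat_lit 62084) (nat_lit 2208712) (nat_lit 0) (nat_lit 0),Row.mk (nat_lit 19992) (nat_lit 32912) (nat_lit 1152) (nat_lit 62084) (nat_lit 2758914) (nat_lit 0) (nat_lit 0),Row.mk (nat_lit 20160) (nat_lit 32912) (nat_lit 1152) (nat_lit 62084) (nat_lit 3446105) (nat_lit 0) (nat_lit 0),Row.mk (nat_lit 20328) (nat_lit 32912) (nat_lit 1152) (nat_lit 62084)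 (nat_lit 4304389) (nat_lit 0) (nat_lit 0),Row.mk (nat_lit 20496) (nat_lit 32912) (nat_lit 1152) (nat_lit 62084) (nat_lit 5376364) (nat_lit 0) (nat_lit 0),Row.mk (nat_lit 20664) (nat_lit 32912) (nat_lit 1152) (nat_lit 62084) (nat_lit 6715236) (nat_lit 0) (nat_lit 0),Row.mk (nat_lit 20832) (nat_lit 32912) (nat_lit 1152) (nat_lit 62084) (nat_lit 8387455) (nat_lit 0) (nat_lit 0),Row.mk (nat_lit 21000) (nat_lit 32912) (nat_lit 1152) (nat_lit 62084) (nat_lit 10476016) (nat_lit 0) (nat_lit 0),Row.mk (nat_lit 21168) (nat_lit 32912) (nat_lit 1152) (nat_lit 62084) (nat_lit 13084579) (nat_lit 0) (nat_lit 0),Row.mk (nat_lit 21336) (nat_lit 32912) (nat_lit 1152) (nat_lit 62084) (nat_lit 16342610) (nat_lit 0) (nat_lit 0),Row.mk (nat_lit 21504) (nat_lit 32912) (nat_lit 1152) (nat_lit 62084) (nat_lit 20411813) (nat_lit 0) (nat_lit 0),Row.mk (nat_lit 21672) (nat_lit 32912) (nat_lit 1152) (nat_lit 62084) (nat_lit 25494149) (nat_lit 0) (nat_lit 0),Row.mk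 (nat_lit 21840) (nat_lit 32912) (nat_lit 1152) (nat_lit 62084) (nat_lit 31841864) (nat_lit 0) (nat_lit 0),Row.mk (nat_lit 22008) (nat_lit 32912) (nat_lit 1152) (nat_lit 62084) (nat_lit 39770007) (nat_lit 0) (nat_lit 0),Row.mk (nat_lit 22176) (nat_lit 32912) (nat_lit 1152) (nat_lit 62084) (nat_lit 49672066) (nat_lit 0) (nat_lit 0),Row.mk (nat_lit 22344) (nat_lit 32912) (nat_lit 1152) (nat_lit 62084) (nat_lit 62039499) (nat_lit 0) (nat_lit 0),Row.mk (nat_lit 22512) (nat_lit 32912) (nat_lit 1152) (nat_lit 62084) (nat_lit 77486125) (nat_lit 0) (nat_lit 0),Row.mk (nat_lit 22680) (nat_lit 32912) (nat_lit 1152) (nat_lit 62084) (nat_lit 96778587) (nat_lit 0) (nat_lit 0),Row.mk (nat_lit 22848) (nat_lit 32912) (nat_lit 1152) (nat_lit 62084) (nat_lit 120874408) (nat_lit 0) (nat_lit 0),Row.mk (nat_lit 23016) (nat_lit 32912) (nat_lit 1152) (nat_lit 62084) (nat_lit 150969507) (nat_lit 0) (nat_lit 0),Row.mk (nat_lit 23184) (nat_lit 32912) (nat_lit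 1152) (nat_lit 62084) (nat_lit 188557559) (nat_lit 0) (nat_lit 0),Row.mk (nat_lit 23352) (nat_lit 32912) (nat_lit 1152) (nat_lit 62084) (nat_lit 235504129) (nat_lit 0) (nat_lit 0),Row.mk (nat_lit 23520) (nat_lit 32912) (nat_lit 1152) (nat_lit 62084) (nat_lit 294139263) (nat_lit 0) (nat_lit 0),Row.mk (nat_lit 23688) (nat_lit 32912) (nat_lit 1152) (nat_lit 62084) (nat_lit 367373131) (nat_lit 0) (nat_lit 0),Row.mk (nat_lit 23856) (nat_lit 32912) (nat_lit 1152) (nat_lit 62084) (nat_lit 458840465) (nat_lit 0) (nat_lit 0),Row.mk (nat_lit 24024) (nat_lit 32912) (nat_lit 1152) (nat_lit 62084) (nat_lit 573080959) (nat_lit 0) (nat_lit 0),Row.mk (nat_lit 24192) (nat_lit 32912) (nat_lit 1152) (nat_lit 62084) (nat_lit 715764580) (nat_lit 0) (nat_lit 0)],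
[Row.mk (nat_lit 16128) (nat_lit 24310) (nat_lit 7219) (nat_lit 30855) (nat_lit 10822) (nat_lit 0) (nat_lit 0),Row.mk (nat_lit 16296) (nat_lit 24123) (nat_lit 7219) (nat_lit 30668) (nat_lit 14956) (nat_lit 0) (nat_lit 0),Row.mk (nat_lit 16464) (nat_lit 23936) (nat_lit 7219) (nat_lit 30481) (nat_lit 20119) (nat_lit 0) (nat_lit 0),Row.mk (nat_lit 16632) (nat_lit 23749) (nat_lit 7219) (nat_lit 30294) (nat_lit 26567) (nat_lit 0) (nat_lit 0),Row.mk (nat_lit 16800) (nat_lit 23562) (nat_lit 7219) (nat_lit 30107) (nat_lit 34621) (nat_lit 0) (nat_lit 0),Row.mk (nat_lit 16968) (nat_lit 23375) (nat_lit 7219) (nat_lit 29920) (nat_lit 44679) (nat_lit 0) (nat_lit 0),Row.mk (nat_lit 17136) (nat_lit 23188) (nat_lit 7219) (nat_lit 29733) (nat_lit 57243) (nat_lit 0) (nat_lit 0),Row.mk (nat_lit 17304) (nat_lit 23001) (nat_lit 7219) (nat_lit 29546) (nat_lit 72934) (nat_lit 0) (nat_lit 0),Row.mk (nat_lit 17472) (nat_lit 22814) (nat_lit 7219) (nat_lit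 29359) (nat_lit 92532) (nat_lit 0) (nat_lit 0),Row.mk (nat_lit 17640) (nat_lit 22627) (nat_lit 7219) (nat_lit 29172) (nat_lit 117010) (nat_lit 0) (nat_lit 0),Row.mk (nat_lit 17808) (nat_lit 22440) (nat_lit 7219) (nat_lit 28985) (nat_lit 147581) (nat_lit 0) (nat_lit 0),Row.mk (nat_lit 17976) (nat_lit 22253) (nat_lit 7219) (nat_lit 28798) (nat_lit 185765) (nat_lit 0) (nat_lit 0),Row.mk (nat_lit 18144) (nat_lit 22066) (nat_lit 7219) (nat_lit 28611) (nat_lit 233455) (nat_lit 0) (nat_lit 0),Row.mk (nat_lit 18312) (nat_lit 21879) (nat_lit 7219) (nat_lit 28424) (nat_lit 293019) (nat_lit 0) (nat_lit 0),Row.mk (nat_lit 18480) (nat_lit 21692) (nat_lit 7219) (nat_lit 28237) (nat_lit 367412) (nat_lit 0) (nat_lit 0),Row.mk (nat_lit 18648) (nat_lit 21505) (nat_lit 7219) (nat_lit 28050) (nat_lit 460328) (nat_lit 0) (nat_lit 0),Row.mk (nat_lit 18816) (nat_lit 21318) (nat_lit 7219) (nat_lit 27863) (nat_lit 576378) (nat_lit 0) (nat_lit 0),Row.mk (nat_lit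 18984) (nat_lit 21131) (nat_lit 7219) (nat_lit 27676) (nat_lit 721322) (nat_lit 0) (nat_lit 0),Row.mk (nat_lit 19152) (nat_lit 20944) (nat_lit 7219) (nat_lit 27489) (nat_lit 902352) (nat_lit 0) (nat_lit 0),Row.mk (nat_lit 19320) (nat_lit 32912) (nat_lit 1439) (nat_lit 62084) (nat_lit 1132796) (nat_lit 0) (nat_lit 0),Row.mk (nat_lit 19488) (nat_lit 32912) (nat_lit 1439) (nat_lit 62084) (nat_lit 1415194) (nat_lit 0) (nat_lit 0),Row.mk (nat_lit 19656) (nat_lit 32912) (nat_lit 1439) (nat_lit 62084) (nat_lit 1767901) (nat_lit 0) (nat_lit 0),Row.mk (nat_lit 19824) (nat_lit 32912) (nat_lit 1439) (nat_lit 62084) (nat_lit 2208425) (nat_lit 0) (nat_lit 0),Row.mk (nat_lit 19992) (nat_lit 32912) (nat_lit 1439) (nat_lit 62084) (nat_lit 2758628) (nat_lit 0) (nat_lit 0),Row.mk (nat_lit 20160) (nat_lit 32912) (nat_lit 1439) (nat_lit 62084) (nat_lit 3445818) (nat_lit 0) (nat_lit 0),Row.mk (nat_lit 20328) (nat_lit 32912) (nat_lit 1439) (nat_lit 62084)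 (nat_lit 4304102) (nat_lit 0) (nat_lit 0),Row.mk (nat_lit 20496) (nat_lit 32912) (nat_lit 1439) (nat_lit 62084) (nat_lit 5376078) (nat_lit 0) (nat_lit 0),Row.mk (nat_lit 20664) (nat_lit 32912) (nat_lit 1439) (nat_lit 62084) (nat_lit 6714950) (nat_lit 0) (nat_lit 0),Row.mk (nat_lit 20832) (nat_lit 32912) (nat_lit 1439) (nat_lit 62084) (nat_lit 8387168) (nat_lit 0) (nat_lit 0),Row.mk (nat_lit 21000) (nat_lit 32912) (nat_lit 1439) (nat_lit 62084) (nat_lit 10475729) (nat_lit 0) (nat_lit 0),Row.mk (nat_lit 21168) (nat_lit 32912) (nat_lit 1439) (nat_lit 62084) (nat_lit 13084292) (nat_lit 0) (nat_lit 0),Row.mk (nat_lit 21336) (nat_lit 32912) (nat_lit 1439) (nat_lit 62084) (nat_lit 16342323) (nat_lit 0) (nat_lit 0),Row.mk (nat_lit 21504) (nat_lit 32912) (nat_lit 1439) (nat_lit 62084) (nat_lit 20411526) (nat_lit 0) (nat_lit 0),Row.mk (nat_lit 21672) (nat_lit 32912) (nat_lit 1439) (nat_lit 62084) (nat_lit 25493862) (nat_lit 0) (nat_lit 0),Row.mk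 (nat_lit 21840) (nat_lit 32912) (nat_lit 1439) (nat_lit 62084) (nat_lit 31841577) (nat_lit 0) (nat_lit 0),Row.mk (nat_lit 22008) (nat_lit 32912) (nat_lit 1439) (nat_lit 62084) (nat_lit 39769720) (nat_lit 0) (nat_lit 0),Row.mk (nat_lit 22176) (nat_lit 32912) (nat_lit 1439) (nat_lit 62084) (nat_lit 49671779) (nat_lit 0) (nat_lit 0),Row.mk (nat_lit 22344) (nat_lit 32912) (nat_lit 1439) (nat_lit 62084) (nat_lit 62039212) (nat_lit 0) (nat_lit 0),Row.mk (nat_lit 22512) (nat_lit 32912) (nat_lit 1439) (nat_lit 62084) (nat_lit 77485838) (nat_lit 0) (nat_lit 0),Row.mk (nat_lit 22680) (nat_lit 32912) (nat_lit 1439) (nat_lit 62084) (nat_lit 96778301) (nat_lit 0) (nat_lit 0),Row.mk (nat_lit 22848) (nat_lit 32912) (nat_lit 1439) (nat_lit 62084) (nat_lit 120874121) (nat_lit 0) (nat_lit 0),Row.mk (nat_lit 23016) (nat_lit 32912) (nat_lit 1439) (nat_lit 62084) (nat_lit 150969220) (nat_lit 0) (nat_lit 0),Row.mk (nat_lit 23184) (nat_lit 32912) (nat_lit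 1439) (nat_lit 62084) (nat_lit 188557272) (nat_lit 0) (nat_lit 0),Row.mk (nat_lit 23352) (nat_lit 32912) (nat_lit 1439) (nat_lit 62084) (nat_lit 235503842) (nat_lit 0) (nat_lit 0),Row.mk (nat_lit 23520) (nat_lit 32912) (nat_lit 1439) (nat_lit 62084) (nat_lit 294138976) (nat_lit 0) (nat_lit 0),Row.mk (nat_lit 23688) (nat_lit 32912) (nat_lit 1439) (nat_lit 62084) (nat_lit 367372844) (nat_lit 0) (nat_lit 0),Row.mk (nat_lit 23856) (nat_lit 32912) (nat_lit 1439) (nat_lit 62084) (nat_lit 458840178) (nat_lit 0) (nat_lit 0),Row.mk (nat_lit 24024) (nat_lit 32912) (nat_lit 1439) (nat_lit 62084) (nat_lit 573080672) (nat_lit 0) (nat_lit 0),Row.mk (nat_lit 24192) (nat_lit 32912) (nat_lit 1439) (nat_lit 62084) (nat_lit 715764293) (nat_lit 0) (nat_lit 0),Row.mk (nat_lit 24360) (nat_lit 32912) (nat_lit 1439) (nat_lit 62084) (nat_lit 893972693) (nat_lit 0) (nat_lit 0)],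
[Row.mk (nat_lit 15960) (nat_lit 24684) (nat_lit 9016) (nat_lit 31229) (nat_lit 6073) (nat_lit 0) (nat_lit 0),Row.mk (nat_lit 16128) (nat_lit 24497) (nat_lit 9016) (nat_lit 31042) (nat_lit 9383) (nat_lit 0) (nat_lit 0),Row.mk (nat_lit 16296) (nat_lit 24310) (nat_lit 9016) (nat_lit 30855) (nat_lit 13517) (nat_lit 0) (nat_lit 0),Row.mk (nat_lit 16464) (nat_lit 24123) (nat_lit 9016) (nat_lit 30668) (nat_lit 18680) (nat_lit 0) (nat_lit 0),Row.mk (nat_lit 16632) (nat_lit 23936) (nat_lit 9016) (nat_lit 30481) (nat_lit 25128) (nat_lit 0) (nat_lit 0),Row.mk (nat_lit 16800) (nat_lit 23749) (nat_lit 9016) (nat_lit 30294) (nat_lit 33182) (nat_lit 0) (nat_lit 0),Row.mk (nat_lit 16968) (nat_lit 23562) (nat_lit 9016) (nat_lit 30107) (nat_lit 43240) (nat_lit 0) (nat_lit 0),Row.mk (nat_lit 17136) (nat_lit 23375) (nat_lit 9016) (nat_lit 29920) (nat_lit 55804) (nat_lit 0) (nat_lit 0),Row.mk (nat_lit 17304) (nat_lit 23188) (nat_lit 9016) (nat_lit 29733)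 (nat_lit 71495) (nat_lit 0) (nat_lit 0),Row.mk (nat_lit 17472) (nat_lit 23001) (nat_lit 9016) (nat_lit 29546) (nat_lit 91093) (nat_lit 0) (nat_lit 0),Row.mk (nat_lit 17640) (nat_lit 22814) (nat_lit 9016) (nat_lit 29359) (nat_lit 115570) (nat_lit 0) (nat_lit 0),Row.mk (nat_lit 17808) (nat_lit 22627) (nat_lit 9016) (nat_lit 29172) (nat_lit 146142) (nat_lit 0) (nat_lit 0),Row.mk (nat_lit 17976) (nat_lit 22440) (nat_lit 9016) (nat_lit 28985) (nat_lit 184326) (nat_lit 0) (nat_lit 0),Row.mk (nat_lit 18144) (nat_lit 22253) (nat_lit 9016) (nat_lit 28798) (nat_lit 232016) (nat_lit 0) (nat_lit 0),Row.mk (nat_lit 18312) (nat_lit 22066) (nat_lit 9016) (nat_lit 28611) (nat_lit 291579) (nat_lit 0) (nat_lit 0),Row.mk (nat_lit 18480) (nat_lit 21879) (nat_lit 9016) (nat_lit 28424) (nat_lit 365973) (nat_lit 0) (nat_lit 0),Row.mk (nat_lit 18648) (nat_lit 21692) (nat_lit 9016) (nat_lit 28237) (nat_lit 458889) (nat_lit 0) (nat_lit 0),Row.mk (nat_lit 18816)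 (nat_lit 21505) (nat_lit 9016) (nat_lit 28050) (nat_lit 574939) (nat_lit 0) (nat_lit 0),Row.mk (nat_lit 18984) (nat_lit 21318) (nat_lit 9016) (nat_lit 27863) (nat_lit 719882) (nat_lit 0) (nat_lit 0),Row.mk (nat_lit 19152) (nat_lit 21131) (nat_lit 9016) (nat_lit 27676) (nat_lit 900913) (nat_lit 0) (nat_lit 0),Row.mk (nat_lit 19320) (nat_lit 20944) (nat_lit 9016) (nat_lit 27489) (nat_lit 1127017) (nat_lit 0) (nat_lit 0),Row.mk (nat_lit 19488) (nat_lit 32912) (nat_lit 1797) (nat_lit 62084) (nat_lit 1414836) (nat_lit 0) (nat_lit 0),Row.mk (nat_lit 19656) (nat_lit 32912) (nat_lit 1797) (nat_lit 62084) (nat_lit 1767543) (nat_lit 0) (nat_lit 0),Row.mk (nat_lit 19824) (nat_lit 32912) (nat_lit 1797) (nat_lit 62084) (nat_lit 2208066) (nat_lit 0) (nat_lit 0),Row.mk (nat_lit 19992) (nat_lit 32912) (nat_lit 1797) (nat_lit 62084) (nat_lit 2758269) (nat_lit 0) (nat_lit 0),Row.mk (nat_lit 20160) (nat_lit 32912) (nat_lit 1797) (nat_lit 62084) (nat_lit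 3445459) (nat_lit 0) (nat_lit 0),Row.mk (nat_lit 20328) (nat_lit 32912) (nat_lit 1797) (nat_lit 62084) (nat_lit 4303743) (nat_lit 0) (nat_lit 0),Row.mk (nat_lit 20496) (nat_lit 32912) (nat_lit 1797) (nat_lit 62084) (nat_lit 5375719) (nat_lit 0) (nat_lit 0),Row.mk (nat_lit 20664) (nat_lit 32912) (nat_lit 1797) (nat_lit 62084) (nat_lit 6714591) (nat_lit 0) (nat_lit 0),Row.mk (nat_lit 20832) (nat_lit 32912) (nat_lit 1797) (nat_lit 62084) (nat_lit 8386810) (nat_lit 0) (nat_lit 0),Row.mk (nat_lit 21000) (nat_lit 32912) (nat_lit 1797) (nat_lit 62084) (nat_lit 10475371) (nat_lit 0) (nat_lit 0),Row.mk (nat_lit 21168) (nat_lit 32912) (nat_lit 1797) (nat_lit 62084) (nat_lit 13083934) (nat_lit 0) (nat_lit 0),Row.mk (nat_lit 21336) (nat_lit 32912) (nat_lit 1797) (nat_lit 62084) (nat_lit 16341965) (nat_lit 0) (nat_lit 0),Row.mk (nat_lit 21504) (nat_lit 32912) (nat_lit 1797) (nat_lit 62084) (nat_lit 20411168) (nat_lit 0) (nat_lit 0),Row.mk (nat_lit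 21672) (nat_lit 32912) (nat_lit 1797) (nat_lit 62084) (nat_lit 25493504) (nat_lit 0) (nat_lit 0),Row.mk (nat_lit 21840) (nat_lit 32912) (nat_lit 1797) (nat_lit 62084) (nat_lit 31841219) (nat_lit 0) (nat_lit 0),Row.mk (nat_lit 22008) (nat_lit 32912) (nat_lit 1797) (nat_lit 62084) (nat_lit 39769361) (nat_lit 0) (nat_lit 0),Row.mk (nat_lit 22176) (nat_lit 32912) (nat_lit 1797) (nat_lit 62084) (nat_lit 49671421) (nat_lit 0) (nat_lit 0),Row.mk (nat_lit 22344) (nat_lit 32912) (nat_lit 1797) (nat_lit 62084) (nat_lit 62038854) (nat_lit 0) (nat_lit 0),Row.mk (nat_lit 22512) (nat_lit 32912) (nat_lit 1797) (nat_lit 62084) (nat_lit 77485479) (nat_lit 0) (nat_lit 0),Row.mk (nat_lit 22680) (nat_lit 32912) (nat_lit 1797) (nat_lit 62084) (nat_lit 96777942) (nat_lit 0) (nat_lit 0),Row.mk (nat_lit 22848) (nat_lit 32912) (nat_lit 1797) (nat_lit 62084) (nat_lit 120873763) (nat_lit 0) (nat_lit 0),Row.mk (nat_lit 23016) (nat_lit 32912) (nat_lit 1797) (nat_lit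 62084) (nat_lit 150968861) (nat_lit 0) (nat_lit 0),Row.mk (nat_lit 23184) (nat_lit 32912) (nat_lit 1797) (nat_lit 62084) (nat_lit 188556914) (nat_lit 0) (nat_lit 0),Row.mk (nat_lit 23352) (nat_lit 32912) (nat_lit 1797) (nat_lit 62084) (nat_lit 235503484) (nat_lit 0) (nat_lit 0),Row.mk (nat_lit 23520) (nat_lit 32912) (nat_lit 1797) (nat_lit 62084) (nat_lit 294138618) (nat_lit 0) (nat_lit 0),Row.mk (nat_lit 23688) (nat_lit 32912) (nat_lit 1797) (nat_lit 62084) (nat_lit 367372486) (nat_lit 0) (nat_lit 0),Row.mk (nat_lit 23856) (nat_lit 32912) (nat_lit 1797) (nat_lit 62084) (nat_lit 458839820) (nat_lit 0) (nat_lit 0),Row.mk (nat_lit 24024) (nat_lit 32912) (nat_lit 1797) (nat_lit 62084) (nat_lit 573080314) (nat_lit 0) (nat_lit 0),Row.mk (nat_lit 24192) (nat_lit 32912) (nat_lit 1797) (nat_lit 62084) (nat_lit 715763935) (nat_lit 0) (nat_lit 0),Row.mk (nat_lit 24360) (nat_lit 32912) (nat_lit 1797) (nat_lit 62084) (nat_lit 893972335) (nat_lit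 0) (nat_lit 0),Row.mk (nat_lit 24528) (nat_lit 32912) (nat_lit 1797) (nat_lit 62084) (nat_lit 1116550328) (nat_lit 0) (nat_lit 0)],
[Row.mk (nat_lit 15960) (nat_lit 24871) (nat_lit 11261) (nat_lit 31416) (nat_lit 4276) (nat_lit 0) (nat_lit 0),Row.mk (nat_lit 16128) (nat_lit 24684) (nat_lit 11261) (nat_lit 31229) (nat_lit 7586) (nat_lit 0) (nat_lit 0),Row.mk (nat_lit 16296) (nat_lit 24497) (nat_lit 11261) (nat_lit 31042) (nat_lit 11719) (nat_lit 0) (nat_lit 0),Row.mk (nat_lit 16464) (nat_lit 24310) (nat_lit 11261) (nat_lit 30855) (nat_lit 16882) (nat_lit 0) (nat_lit 0),Row.mk (nat_lit 16632) (nat_lit 24123) (nat_lit 11261) (nat_lit 30668) (nat_lit 23330) (nat_lit 0) (nat_lit 0),Row.mk (nat_lit 16800) (nat_lit 23936) (nat_lit 11261) (nat_lit 30481) (nat_lit 31384) (nat_lit 0) (nat_lit 0),Row.mk (nat_lit 16968) (nat_lit 23749) (nat_lit 11261) (nat_lit 30294) (nat_lit 41443) (nat_lit 0) (nat_lit 0),Row.mk (nat_lit 17136) (nat_lit 23562)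 (nat_lit 11261) (nat_lit 30107) (nat_lit 54006) (nat_lit 0) (nat_lit 0),Row.mk (nat_lit 17304) (nat_lit 23375) (nat_lit 11261) (nat_lit 29920) (nat_lit 69698) (nat_lit 0) (nat_lit 0),Row.mk (nat_lit 17472) (nat_lit 23188) (nat_lit 11261) (nat_lit 29733) (nat_lit 89296) (nat_lit 0) (nat_lit 0),Row.mk (nat_lit 17640) (nat_lit 23001) (nat_lit 11261) (nat_lit 29546) (nat_lit 113773) (nat_lit 0) (nat_lit 0),Row.mk (nat_lit 17808) (nat_lit 22814) (nat_lit 11261) (nat_lit 29359) (nat_lit 144345) (nat_lit 0) (nat_lit 0),Row.mk (nat_lit 17976) (nat_lit 22627) (nat_lit 11261) (nat_lit 29172) (nat_lit 182528) (nat_lit 0) (nat_lit 0),Row.mk (nat_lit 18144) (nat_lit 22440) (nat_lit 11261) (nat_lit 28985) (nat_lit 230218) (nat_lit 0) (nat_lit 0),Row.mk (nat_lit 18312) (nat_lit 22253) (nat_lit 11261) (nat_lit 28798) (nat_lit 289782) (nat_lit 0) (nat_lit 0),Row.mk (nat_lit 18480) (nat_lit 22066) (nat_lit 11261) (nat_lit 28611) (nat_lit 364176) (nat_lit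 0) (nat_lit 0),Row.mk (nat_lit 18648) (nat_lit 21879) (nat_lit 11261) (nat_lit 28424) (nat_lit 457092) (nat_lit 0) (nat_lit 0),Row.mk (nat_lit 18816) (nat_lit 21692) (nat_lit 11261) (nat_lit 28237) (nat_lit 573142) (nat_lit 0) (nat_lit 0),Row.mk (nat_lit 18984) (nat_lit 21505) (nat_lit 11261) (nat_lit 28050) (nat_lit 718085) (nat_lit 0) (nat_lit 0),Row.mk (nat_lit 19152) (nat_lit 21318) (nat_lit 11261) (nat_lit 27863) (nat_lit 899116) (nat_lit 0) (nat_lit 0),Row.mk (nat_lit 19320) (nat_lit 21131) (nat_lit 11261) (nat_lit 27676) (nat_lit 1125219) (nat_lit 0) (nat_lit 0),Row.mk (nat_lit 19488) (nat_lit 20944) (nat_lit 11261) (nat_lit 27489) (nat_lit 1407617) (nat_lit 0) (nat_lit 0),Row.mk (nat_lit 19656) (nat_lit 32912) (nat_lit 2244) (nat_lit 62084) (nat_lit 1767096) (nat_lit 0) (nat_lit 0),Row.mk (nat_lit 19824) (nat_lit 32912) (nat_lit 2244) (nat_lit 62084) (nat_lit 2207619) (nat_lit 0) (nat_lit 0),Row.mk (nat_lit 19992) (nat_lit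 32912) (nat_lit 2244) (nat_lit 62084) (nat_lit 2757822) (nat_lit 0) (nat_lit 0),Row.mk (nat_lit 20160) (nat_lit 32912) (nat_lit 2244) (nat_lit 62084) (nat_lit 3445012) (nat_lit 0) (nat_lit 0),Row.mk (nat_lit 20328) (nat_lit 32912) (nat_lit 2244) (nat_lit 62084) (nat_lit 4303296) (nat_lit 0) (nat_lit 0),Row.mk (nat_lit 20496) (nat_lit 32912) (nat_lit 2244) (nat_lit 62084) (nat_lit 5375272) (nat_lit 0) (nat_lit 0),Row.mk (nat_lit 20664) (nat_lit 32912) (nat_lit 2244) (nat_lit 62084) (nat_lit 6714144) (nat_lit 0) (nat_lit 0),Row.mk (nat_lit 20832) (nat_lit 32912) (nat_lit 2244) (nat_lit 62084) (nat_lit 8386363) (nat_lit 0) (nat_lit 0),Row.mk (nat_lit 21000) (nat_lit 32912) (nat_lit 2244) (nat_lit 62084) (nat_lit 10474924) (nat_lit 0) (nat_lit 0),Row.mk (nat_lit 21168) (nat_lit 32912) (nat_lit 2244) (nat_lit 62084) (nat_lit 13083486) (nat_lit 0) (nat_lit 0),Row.mk (nat_lit 21336) (nat_lit 32912) (nat_lit 2244) (nat_lit 62084) (nat_lit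 16341517) (nat_lit 0) (nat_lit 0),Row.mk (nat_lit 21504) (nat_lit 32912) (nat_lit 2244) (nat_lit 62084) (nat_lit 20410720) (nat_lit 0) (nat_lit 0),Row.mk (nat_lit 21672) (nat_lit 32912) (nat_lit 2244) (nat_lit 62084) (nat_lit 25493056) (nat_lit 0) (nat_lit 0),Row.mk (nat_lit 21840) (nat_lit 32912) (nat_lit 2244) (nat_lit 62084) (nat_lit 31840771) (nat_lit 0) (nat_lit 0),Row.mk (nat_lit 22008) (nat_lit 32912) (nat_lit 2244) (nat_lit 62084) (nat_lit 39768914) (nat_lit 0) (nat_lit 0),Row.mk (nat_lit 22176) (nat_lit 32912) (nat_lit 2244) (nat_lit 62084) (nat_lit 49670973) (nat_lit 0) (nat_lit 0),Row.mk (nat_lit 22344) (nat_lit 32912) (nat_lit 2244) (nat_lit 62084) (nat_lit 62038406) (nat_lit 0) (nat_lit 0),Row.mk (nat_lit 22512) (nat_lit 32912) (nat_lit 2244) (nat_lit 62084) (nat_lit 77485032) (nat_lit 0) (nat_lit 0),Row.mk (nat_lit 22680) (nat_lit 32912) (nat_lit 2244) (nat_lit 62084) (nat_lit 96777495) (nat_lit 0) (nat_lit 0),Row.mk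 (nat_lit 22848) (nat_lit 32912) (nat_lit 2244) (nat_lit 62084) (nat_lit 120873315) (nat_lit 0) (nat_lit 0),Row.mk (nat_lit 23016) (nat_lit 32912) (nat_lit 2244) (nat_lit 62084) (nat_lit 150968414) (nat_lit 0) (nat_lit 0),Row.mk (nat_lit 23184) (nat_lit 32912) (nat_lit 2244) (nat_lit 62084) (nat_lit 188556466) (nat_lit 0) (nat_lit 0),Row.mk (nat_lit 23352) (nat_lit 32912) (nat_lit 2244) (nat_lit 62084) (nat_lit 235503037) (nat_lit 0) (nat_lit 0),Row.mk (nat_lit 23520) (nat_lit 32912) (nat_lit 2244) (nat_lit 62084) (nat_lit 294138170) (nat_lit 0) (nat_lit 0),Row.mk (nat_lit 23688) (nat_lit 32912) (nat_lit 2244) (nat_lit 62084) (nat_lit 367372038) (nat_lit 0) (nat_lit 0),Row.mk (nat_lit 23856) (nat_lit 32912) (nat_lit 2244) (nat_lit 62084) (nat_lit 458839372) (nat_lit 0) (nat_lit 0),Row.mk (nat_lit 24024) (nat_lit 32912) (nat_lit 2244) (nat_lit 62084) (nat_lit 573079866) (nat_lit 0) (nat_lit 0),Row.mk (nat_lit 24192) (nat_lit 32912)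 (nat_lit 2244) (nat_lit 62084) (nat_lit 715763487) (nat_lit 0) (nat_lit 0),Row.mk (nat_lit 24360) (nat_lit 32912) (nat_lit 2244) (nat_lit 62084) (nat_lit 893971888) (nat_lit 0) (nat_lit 0),Row.mk (nat_lit 24528) (nat_lit 32912) (nat_lit 2244) (nat_lit 62084) (nat_lit 1116549881) (nat_lit 0) (nat_lit 0),Row.mk (nat_lit 24696) (nat_lit 32912) (nat_lit 2244) (nat_lit 62084) (nat_lit 1394544424) (nat_lit 0) (nat_lit 0)],
[Row.mk (nat_lit 15960) (nat_lit 25058) (nat_lit 14065) (nat_lit 31603) (nat_lit 2031) (nat_lit 0) (nat_lit 0),Row.mk (nat_lit 16128) (nat_lit 24871) (nat_lit 14065) (nat_lit 31416) (nat_lit 5341) (nat_lit 0) (nat_lit 0),Row.mk (nat_lit 16296) (nat_lit 24684) (nat_lit 14065) (nat_lit 31229) (nat_lit 9475) (nat_lit 0) (nat_lit 0),Row.mk (nat_lit 16464) (nat_lit 24497) (nat_lit 14065) (nat_lit 31042) (nat_lit 14637) (nat_lit 0) (nat_lit 0),Row.mk (nat_lit 16632) (nat_lit 24310) (nat_lit 14065) (nat_lit 30855) (nat_lit 21086)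 (nat_lit 0) (nat_lit 0),Row.mk (nat_lit 16800) (nat_lit 24123) (nat_lit 14065) (nat_lit 30668) (nat_lit 29139) (nat_lit 0) (nat_lit 0),Row.mk (nat_lit 16968) (nat_lit 23936) (nat_lit 14065) (nat_lit 30481) (nat_lit 39198) (nat_lit 0) (nat_lit 0),Row.mk (nat_lit 17136) (nat_lit 23749) (nat_lit 14065) (nat_lit 30294) (nat_lit 51761) (nat_lit 0) (nat_lit 0),Row.mk (nat_lit 17304) (nat_lit 23562) (nat_lit 14065) (nat_lit 30107) (nat_lit 67453) (nat_lit 0) (nat_lit 0),Row.mk (nat_lit 17472) (nat_lit 23375) (nat_lit 14065) (nat_lit 29920) (nat_lit 87051) (nat_lit 0) (nat_lit 0),Row.mk (nat_lit 17640) (nat_lit 23188) (nat_lit 14065) (nat_lit 29733) (nat_lit 111528) (nat_lit 0) (nat_lit 0),Row.mk (nat_lit 17808) (nat_lit 23001) (nat_lit 14065) (nat_lit 29546) (nat_lit 142100) (nat_lit 0) (nat_lit 0),Row.mk (nat_lit 17976) (nat_lit 22814) (nat_lit 14065) (nat_lit 29359) (nat_lit 180283) (nat_lit 0) (nat_lit 0),Row.mk (nat_lit 18144) (nat_lit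 22627) (nat_lit 14065) (nat_lit 29172) (nat_lit 227973) (nat_lit 0) (nat_lit 0),Row.mk (nat_lit 18312) (nat_lit 22440) (nat_lit 14065) (nat_lit 28985) (nat_lit 287537) (nat_lit 0) (nat_lit 0),Row.mk (nat_lit 18480) (nat_lit 22253) (nat_lit 14065) (nat_lit 28798) (nat_lit 361931) (nat_lit 0) (nat_lit 0),Row.mk (nat_lit 18648) (nat_lit 22066) (nat_lit 14065) (nat_lit 28611) (nat_lit 454847) (nat_lit 0) (nat_lit 0),Row.mk (nat_lit 18816) (nat_lit 21879) (nat_lit 14065) (nat_lit 28424) (nat_lit 570897) (nat_lit 0) (nat_lit 0),Row.mk (nat_lit 18984) (nat_lit 21692) (nat_lit 14065) (nat_lit 28237) (nat_lit 715840) (nat_lit 0) (nat_lit 0),Row.mk (nat_lit 19152) (nat_lit 21505) (nat_lit 14065) (nat_lit 28050) (nat_lit 896871) (nat_lit 0) (nat_lit 0),Row.mk (nat_lit 19320) (nat_lit 21318) (nat_lit 14065) (nat_lit 27863) (nat_lit 1122974) (nat_lit 0) (nat_lit 0),Row.mk (nat_lit 19488) (nat_lit 21131) (nat_lit 14065) (nat_lit 27676) (nat_lit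 1405372) (nat_lit 0) (nat_lit 0),Row.mk (nat_lit 19656) (nat_lit 20944) (nat_lit 14065) (nat_lit 27489) (nat_lit 1758079) (nat_lit 0) (nat_lit 0),Row.mk (nat_lit 19824) (nat_lit 32912) (nat_lit 2803) (nat_lit 62084) (nat_lit 2207060) (nat_lit 0) (nat_lit 0),Row.mk (nat_lit 19992) (nat_lit 32912) (nat_lit 2803) (nat_lit 62084) (nat_lit 2757263) (nat_lit 0) (nat_lit 0),Row.mk (nat_lit 20160) (nat_lit 32912) (nat_lit 2803) (nat_lit 62084) (nat_lit 3444453) (nat_lit 0) (nat_lit 0),Row.mk (nat_lit 20328) (nat_lit 32912) (nat_lit 2803) (nat_lit 62084) (nat_lit 4302737) (nat_lit 0) (nat_lit 0),Row.mk (nat_lit 20496) (nat_lit 32912) (nat_lit 2803) (nat_lit 62084) (nat_lit 5374713) (nat_lit 0) (nat_lit 0),Row.mk (nat_lit 20664) (nat_lit 32912) (nat_lit 2803) (nat_lit 62084) (nat_lit 6713585) (nat_lit 0) (nat_lit 0),Row.mk (nat_lit 20832) (nat_lit 32912) (nat_lit 2803) (nat_lit 62084) (nat_lit 8385804) (nat_lit 0) (nat_lit 0),Row.mk (nat_lit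 21000) (nat_lit 32912) (nat_lit 2803) (nat_lit 62084) (nat_lit 10474365) (nat_lit 0) (nat_lit 0),Row.mk (nat_lit 21168) (nat_lit 32912) (nat_lit 2803) (nat_lit 62084) (nat_lit 13082927) (nat_lit 0) (nat_lit 0),Row.mk (nat_lit 21336) (nat_lit 32912) (nat_lit 2803) (nat_lit 62084) (nat_lit 16340959) (nat_lit 0) (nat_lit 0),Row.mk (nat_lit 21504) (nat_lit 32912) (nat_lit 2803) (nat_lit 62084) (nat_lit 20410161) (nat_lit 0) (nat_lit 0),Row.mk (nat_lit 21672) (nat_lit 32912) (nat_lit 2803) (nat_lit 62084) (nat_lit 25492497) (nat_lit 0) (nat_lit 0),Row.mk (nat_lit 21840) (nat_lit 32912) (nat_lit 2803) (nat_lit 62084) (nat_lit 31840212) (nat_lit 0) (nat_lit 0),Row.mk (nat_lit 22008) (nat_lit 32912) (nat_lit 2803) (nat_lit 62084) (nat_lit 39768355) (nat_lit 0) (nat_lit 0),Row.mk (nat_lit 22176) (nat_lit 32912) (nat_lit 2803) (nat_lit 62084) (nat_lit 49670414) (nat_lit 0) (nat_lit 0),Row.mk (nat_lit 22344) (nat_lit 32912) (nat_lit 2803) (nat_lit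 62084) (nat_lit 62037847) (nat_lit 0) (nat_lit 0),Row.mk (nat_lit 22512) (nat_lit 32912) (nat_lit 2803) (nat_lit 62084) (nat_lit 77484473) (nat_lit 0) (nat_lit 0),Row.mk (nat_lit 22680) (nat_lit 32912) (nat_lit 2803) (nat_lit 62084) (nat_lit 96776936) (nat_lit 0) (nat_lit 0),Row.mk (nat_lit 22848) (nat_lit 32912) (nat_lit 2803) (nat_lit 62084) (nat_lit 120872756) (nat_lit 0) (nat_lit 0),Row.mk (nat_lit 23016) (nat_lit 32912) (nat_lit 2803) (nat_lit 62084) (nat_lit 150967855) (nat_lit 0) (nat_lit 0),Row.mk (nat_lit 23184) (nat_lit 32912) (nat_lit 2803) (nat_lit 62084) (nat_lit 188555907) (nat_lit 0) (nat_lit 0),Row.mk (nat_lit 23352) (nat_lit 32912) (nat_lit 2803) (nat_lit 62084) (nat_lit 235502478) (nat_lit 0) (nat_lit 0),Row.mk (nat_lit 23520) (nat_lit 32912) (nat_lit 2803) (nat_lit 62084) (nat_lit 294137612) (nat_lit 0) (nat_lit 0),Row.mk (nat_lit 23688) (nat_lit 32912) (nat_lit 2803) (nat_lit 62084) (nat_lit 367371479) (nat_lit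 0) (nat_lit 0),Row.mk (nat_lit 23856) (nat_lit 32912) (nat_lit 2803) (nat_lit 62084) (nat_lit 458838814) (nat_lit 0) (nat_lit 0),Row.mk (nat_lit 24024) (nat_lit 32912) (nat_lit 2803) (nat_lit 62084) (nat_lit 573079307) (nat_lit 0) (nat_lit 0),Row.mk (nat_lit 24192) (nat_lit 32912) (nat_lit 2803) (nat_lit 62084) (nat_lit 715762928) (nat_lit 0) (nat_lit 0),Row.mk (nat_lit 24360) (nat_lit 32912) (nat_lit 2803) (nat_lit 62084) (nat_lit 893971329) (nat_lit 0) (nat_lit 0),Row.mk (nat_lit 24528) (nat_lit 32912) (nat_lit 2803) (nat_lit 62084) (nat_lit 1116549322) (nat_lit 0) (nat_lit 0),Row.mk (nat_lit 24696) (nat_lit 32912) (nat_lit 2803) (nat_lit 62084) (nat_lit 1394543865) (nat_lit 0) (nat_lit 0),Row.mk (nat_lit 24864) (nat_lit 32912) (nat_lit 2803) (nat_lit 62084) (nat_lit 1741752344) (nat_lit 0) (nat_lit 0)],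
[Row.mk (nat_lit 15960) (nat_lit 18700) (nat_lit 964) (nat_lit 25245) (nat_lit 15830) (nat_lit 0) (nat_lit 0),Row.mk (nat_lit 16128) (nat_lit 25058) (nat_lit 17566) (nat_lit 31603) (nat_lit 2537) (nat_lit 0) (nat_lit 0),Row.mk (nat_lit 16296) (nat_lit 24871) (nat_lit 17566) (nat_lit 31416) (nat_lit 6671) (nat_lit 0) (nat_lit 0),Row.mk (nat_lit 16464) (nat_lit 24684) (nat_lit 17566) (nat_lit 31229) (nat_lit 11834) (nat_lit 0) (nat_lit 0),Row.mk (nat_lit 16632) (nat_lit 24497) (nat_lit 17566) (nat_lit 31042) (nat_lit 18282) (nat_lit 0) (nat_lit 0),Row.mk (nat_lit 16800) (nat_lit 24310) (nat_lit 17566) (nat_lit 30855) (nat_lit 26336) (nat_lit 0) (nat_lit 0),Row.mk (nat_lit 16968) (nat_lit 24123) (nat_lit 17566) (nat_lit 30668) (nat_lit 36394) (nat_lit 0) (nat_lit 0),Row.mk (nat_lit 17136) (nat_lit 23936) (nat_lit 17566) (nat_lit 30481) (nat_lit 48958) (nat_lit 0) (nat_lit 0),Row.mk (nat_lit 17304) (nat_lit 23749) (nat_lit 17566) (nat_lit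 30294) (nat_lit 64649) (nat_lit 0) (nat_lit 0),Row.mk (nat_lit 17472) (nat_lit 23562) (nat_lit 17566) (nat_lit 30107) (nat_lit 84247) (nat_lit 0) (nat_lit 0),Row.mk (nat_lit 17640) (nat_lit 23375) (nat_lit 17566) (nat_lit 29920) (nat_lit 108724) (nat_lit 0) (nat_lit 0),Row.mk (nat_lit 17808) (nat_lit 23188) (nat_lit 17566) (nat_lit 29733) (nat_lit 139296) (nat_lit 0) (nat_lit 0),Row.mk (nat_lit 17976) (nat_lit 23001) (nat_lit 17566) (nat_lit 29546) (nat_lit 177480) (nat_lit 0) (nat_lit 0),Row.mk (nat_lit 18144) (nat_lit 22814) (nat_lit 17566) (nat_lit 29359) (nat_lit 225170) (nat_lit 0) (nat_lit 0),Row.mk (nat_lit 18312) (nat_lit 22627) (nat_lit 17566) (nat_lit 29172) (nat_lit 284733) (nat_lit 0) (nat_lit 0),Row.mk (nat_lit 18480) (nat_lit 22440) (nat_lit 17566) (nat_lit 28985) (nat_lit 359127) (nat_lit 0) (nat_lit 0),Row.mk (nat_lit 18648) (nat_lit 22253) (nat_lit 17566) (nat_lit 28798) (nat_lit 452043) (nat_lit 0) (nat_lit 0),Row.mk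 (nat_lit 18816) (nat_lit 22066) (nat_lit 17566) (nat_lit 28611) (nat_lit 568093) (nat_lit 0) (nat_lit 0),Row.mk (nat_lit 18984) (nat_lit 21879) (nat_lit 17566) (nat_lit 28424) (nat_lit 713036) (nat_lit 0) (nat_lit 0),Row.mk (nat_lit 19152) (nat_lit 21692) (nat_lit 17566) (nat_lit 28237) (nat_lit 894067) (nat_lit 0) (nat_lit 0),Row.mk (nat_lit 19320) (nat_lit 21505) (nat_lit 17566) (nat_lit 28050) (nat_lit 1120171) (nat_lit 0) (nat_lit 0),Row.mk (nat_lit 19488) (nat_lit 21318) (nat_lit 17566) (nat_lit 27863) (nat_lit 1402568) (nat_lit 0) (nat_lit 0),Row.mk (nat_lit 19656) (nat_lit 21131) (nat_lit 17566) (nat_lit 27676) (nat_lit 1755275) (nat_lit 0) (nat_lit 0),Row.mk (nat_lit 19824) (nat_lit 20944) (nat_lit 17566) (nat_lit 27489) (nat_lit 2195799) (nat_lit 0) (nat_lit 0),Row.mk (nat_lit 19992) (nat_lit 32912) (nat_lit 3501) (nat_lit 62084) (nat_lit 2756565) (nat_lit 0) (nat_lit 0),Row.mk (nat_lit 20160) (nat_lit 32912) (nat_lit 3501)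 (nat_lit 62084) (nat_lit 3443755) (nat_lit 0) (nat_lit 0),Row.mk (nat_lit 20328) (nat_lit 32912) (nat_lit 3501) (nat_lit 62084) (nat_lit 4302039) (nat_lit 0) (nat_lit 0),Row.mk (nat_lit 20496) (nat_lit 32912) (nat_lit 3501) (nat_lit 62084) (nat_lit 5374015) (nat_lit 0) (nat_lit 0),Row.mk (nat_lit 20664) (nat_lit 32912) (nat_lit 3501) (nat_lit 62084) (nat_lit 6712887) (nat_lit 0) (nat_lit 0),Row.mk (nat_lit 20832) (nat_lit 32912) (nat_lit 3501) (nat_lit 62084) (nat_lit 8385106) (nat_lit 0) (nat_lit 0),Row.mk (nat_lit 21000) (nat_lit 32912) (nat_lit 3501) (nat_lit 62084) (nat_lit 10473667) (nat_lit 0) (nat_lit 0),Row.mk (nat_lit 21168) (nat_lit 32912) (nat_lit 3501) (nat_lit 62084) (nat_lit 13082229) (nat_lit 0) (nat_lit 0),Row.mk (nat_lit 21336) (nat_lit 32912) (nat_lit 3501) (nat_lit 62084) (nat_lit 16340260) (nat_lit 0) (nat_lit 0),Row.mk (nat_lit 21504) (nat_lit 32912) (nat_lit 3501) (nat_lit 62084) (nat_lit 20409463) (nat_lit 0)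 (nat_lit 0),Row.mk (nat_lit 21672) (nat_lit 32912) (nat_lit 3501) (nat_lit 62084) (nat_lit 25491799) (nat_lit 0) (nat_lit 0),Row.mk (nat_lit 21840) (nat_lit 32912) (nat_lit 3501) (nat_lit 62084) (nat_lit 31839514) (nat_lit 0) (nat_lit 0),Row.mk (nat_lit 22008) (nat_lit 32912) (nat_lit 3501) (nat_lit 62084) (nat_lit 39767657) (nat_lit 0) (nat_lit 0),Row.mk (nat_lit 22176) (nat_lit 32912) (nat_lit 3501) (nat_lit 62084) (nat_lit 49669716) (nat_lit 0) (nat_lit 0),Row.mk (nat_lit 22344) (nat_lit 32912) (nat_lit 3501) (nat_lit 62084) (nat_lit 62037149) (nat_lit 0) (nat_lit 0),Row.mk (nat_lit 22512) (nat_lit 32912) (nat_lit 3501) (nat_lit 62084) (nat_lit 77483775) (nat_lit 0) (nat_lit 0),Row.mk (nat_lit 22680) (nat_lit 32912) (nat_lit 3501) (nat_lit 62084) (nat_lit 96776238) (nat_lit 0) (nat_lit 0),Row.mk (nat_lit 22848) (nat_lit 32912) (nat_lit 3501) (nat_lit 62084) (nat_lit 120872058) (nat_lit 0) (nat_lit 0),Row.mk (nat_lit 23016) (nat_lit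 32912) (nat_lit 3501) (nat_lit 62084) (nat_lit 150967157) (nat_lit 0) (nat_lit 0),Row.mk (nat_lit 23184) (nat_lit 32912) (nat_lit 3501) (nat_lit 62084) (nat_lit 188555209) (nat_lit 0) (nat_lit 0),Row.mk (nat_lit 23352) (nat_lit 32912) (nat_lit 3501) (nat_lit 62084) (nat_lit 235501780) (nat_lit 0) (nat_lit 0),Row.mk (nat_lit 23520) (nat_lit 32912) (nat_lit 3501) (nat_lit 62084) (nat_lit 294136914) (nat_lit 0) (nat_lit 0),Row.mk (nat_lit 23688) (nat_lit 32912) (nat_lit 3501) (nat_lit 62084) (nat_lit 367370781) (nat_lit 0) (nat_lit 0),Row.mk (nat_lit 23856) (nat_lit 32912) (nat_lit 3501) (nat_lit 62084) (nat_lit 458838115) (nat_lit 0) (nat_lit 0),Row.mk (nat_lit 24024) (nat_lit 32912) (nat_lit 3501) (nat_lit 62084) (nat_lit 573078609) (nat_lit 0) (nat_lit 0),Row.mk (nat_lit 24192) (nat_lit 32912) (nat_lit 3501) (nat_lit 62084) (nat_lit 715762230) (nat_lit 0) (nat_lit 0),Row.mk (nat_lit 24360) (nat_lit 32912) (nat_lit 3501) (nat_lit 62084)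 (nat_lit 893970631) (nat_lit 0) (nat_lit 0),Row.mk (nat_lit 24528) (nat_lit 32912) (nat_lit 3501) (nat_lit 62084) (nat_lit 1116548624) (nat_lit 0) (nat_lit 0),Row.mk (nat_lit 24696) (nat_lit 32912) (nat_lit 3501) (nat_lit 62084) (nat_lit 1394543167) (nat_lit 0) (nat_lit 0),Row.mk (nat_lit 24864) (nat_lit 32912) (nat_lit 3501) (nat_lit 62084) (nat_lit 1741751646) (nat_lit 0) (nat_lit 0),Row.mk (nat_lit 25032) (nat_lit 32912) (nat_lit 3501) (nat_lit 62084) (nat_lit 2175406661) (nat_lit 0) (nat_lit 0)],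
[Row.mk (nat_lit 15792) (nat_lit 19074) (nat_lit 8647) (nat_lit 25619) (nat_lit 6369) (nat_lit 0) (nat_lit 0),Row.mk (nat_lit 15960) (nat_lit 18887) (nat_lit 5338) (nat_lit 25432) (nat_lit 12328) (nat_lit 0) (nat_lit 0),Row.mk (nat_lit 16128) (nat_lit 18700) (nat_lit 1204) (nat_lit 25245) (nat_lit 19771) (nat_lit 0) (nat_lit 0),Row.mk (nat_lit 16296) (nat_lit 25058) (nat_lit 21940) (nat_lit 31603) (nat_lit 3169) (nat_lit 0) (nat_lit 0),Row.mk (nat_lit 16464) (nat_lit 24871) (nat_lit 21940) (nat_lit 31416) (nat_lit 8332) (nat_lit 0) (nat_lit 0),Row.mk (nat_lit 16632) (nat_lit 24684) (nat_lit 21940) (nat_lit 31229) (nat_lit 14780) (nat_lit 0) (nat_lit 0),Row.mk (nat_lit 16800) (nat_lit 24497) (nat_lit 21940) (nat_lit 31042) (nat_lit 22834) (nat_lit 0) (nat_lit 0),Row.mk (nat_lit 16968) (nat_lit 24310) (nat_lit 21940) (nat_lit 30855) (nat_lit 32893) (nat_lit 0) (nat_lit 0),Row.mk (nat_lit 17136) (nat_lit 24123) (nat_lit 21940) (nat_lit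 30668) (nat_lit 45456) (nat_lit 0) (nat_lit 0),Row.mk (nat_lit 17304) (nat_lit 23936) (nat_lit 21940) (nat_lit 30481) (nat_lit 61147) (nat_lit 0) (nat_lit 0),Row.mk (nat_lit 17472) (nat_lit 23749) (nat_lit 21940) (nat_lit 30294) (nat_lit 80745) (nat_lit 0) (nat_lit 0),Row.mk (nat_lit 17640) (nat_lit 23562) (nat_lit 21940) (nat_lit 30107) (nat_lit 105223) (nat_lit 0) (nat_lit 0),Row.mk (nat_lit 17808) (nat_lit 23375) (nat_lit 21940) (nat_lit 29920) (nat_lit 135794) (nat_lit 0) (nat_lit 0),Row.mk (nat_lit 17976) (nat_lit 23188) (nat_lit 21940) (nat_lit 29733) (nat_lit 173978) (nat_lit 0) (nat_lit 0),Row.mk (nat_lit 18144) (nat_lit 23001) (nat_lit 21940) (nat_lit 29546) (nat_lit 221668) (nat_lit 0) (nat_lit 0),Row.mk (nat_lit 18312) (nat_lit 22814) (nat_lit 21940) (nat_lit 29359) (nat_lit 281232) (nat_lit 0) (nat_lit 0),Row.mk (nat_lit 18480) (nat_lit 22627) (nat_lit 21940) (nat_lit 29172) (nat_lit 355625) (nat_lit 0) (nat_lit 0),Row.mk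 (nat_lit 18648) (nat_lit 22440) (nat_lit 21940) (nat_lit 28985) (nat_lit 448541) (nat_lit 0) (nat_lit 0),Row.mk (nat_lit 18816) (nat_lit 22253) (nat_lit 21940) (nat_lit 28798) (nat_lit 564591) (nat_lit 0) (nat_lit 0),Row.mk (nat_lit 18984) (nat_lit 22066) (nat_lit 21940) (nat_lit 28611) (nat_lit 709535) (nat_lit 0) (nat_lit 0),Row.mk (nat_lit 19152) (nat_lit 21879) (nat_lit 21940) (nat_lit 28424) (nat_lit 890565) (nat_lit 0) (nat_lit 0),Row.mk (nat_lit 19320) (nat_lit 21692) (nat_lit 21940) (nat_lit 28237) (nat_lit 1116669) (nat_lit 0) (nat_lit 0),Row.mk (nat_lit 19488) (nat_lit 21505) (nat_lit 21940) (nat_lit 28050) (nat_lit 1399066) (nat_lit 0) (nat_lit 0),Row.mk (nat_lit 19656) (nat_lit 21318) (nat_lit 21940) (nat_lit 27863) (nat_lit 1751774) (nat_lit 0) (nat_lit 0),Row.mk (nat_lit 19824) (nat_lit 21131) (nat_lit 21940) (nat_lit 27676) (nat_lit 2192297) (nat_lit 0) (nat_lit 0),Row.mk (nat_lit 19992) (nat_lit 20944) (nat_lit 21940)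 (nat_lit 27489) (nat_lit 2742500) (nat_lit 0) (nat_lit 0),Row.mk (nat_lit 20160) (nat_lit 32912) (nat_lit 4373) (nat_lit 62084) (nat_lit 3442883) (nat_lit 0) (nat_lit 0),Row.mk (nat_lit 20328) (nat_lit 32912) (nat_lit 4373) (nat_lit 62084) (nat_lit 4301167) (nat_lit 0) (nat_lit 0),Row.mk (nat_lit 20496) (nat_lit 32912) (nat_lit 4373) (nat_lit 62084) (nat_lit 5373143) (nat_lit 0) (nat_lit 0),Row.mk (nat_lit 20664) (nat_lit 32912) (nat_lit 4373) (nat_lit 62084) (nat_lit 6712015) (nat_lit 0) (nat_lit 0),Row.mk (nat_lit 20832) (nat_lit 32912) (nat_lit 4373) (nat_lit 62084) (nat_lit 8384234) (nat_lit 0) (nat_lit 0),Row.mk (nat_lit 21000) (nat_lit 32912) (nat_lit 4373) (nat_lit 62084) (nat_lit 10472795) (nat_lit 0) (nat_lit 0),Row.mk (nat_lit 21168) (nat_lit 32912) (nat_lit 4373) (nat_lit 62084) (nat_lit 13081357) (nat_lit 0) (nat_lit 0),Row.mk (nat_lit 21336) (nat_lit 32912) (nat_lit 4373) (nat_lit 62084) (nat_lit 16339389) (nat_lit 0)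 (nat_lit 0),Row.mk (nat_lit 21504) (nat_lit 32912) (nat_lit 4373) (nat_lit 62084) (nat_lit 20408591) (nat_lit 0) (nat_lit 0),Row.mk (nat_lit 21672) (nat_lit 32912) (nat_lit 4373) (nat_lit 62084) (nat_lit 25490927) (nat_lit 0) (nat_lit 0),Row.mk (nat_lit 21840) (nat_lit 32912) (nat_lit 4373) (nat_lit 62084) (nat_lit 31838642) (nat_lit 0) (nat_lit 0),Row.mk (nat_lit 22008) (nat_lit 32912) (nat_lit 4373) (nat_lit 62084) (nat_lit 39766785) (nat_lit 0) (nat_lit 0),Row.mk (nat_lit 22176) (nat_lit 32912) (nat_lit 4373) (nat_lit 62084) (nat_lit 49668844) (nat_lit 0) (nat_lit 0),Row.mk (nat_lit 22344) (nat_lit 32912) (nat_lit 4373) (nat_lit 62084) (nat_lit 62036277) (nat_lit 0) (nat_lit 0),Row.mk (nat_lit 22512) (nat_lit 32912) (nat_lit 4373) (nat_lit 62084) (nat_lit 77482903) (nat_lit 0) (nat_lit 0),Row.mk (nat_lit 22680) (nat_lit 32912) (nat_lit 4373) (nat_lit 62084) (nat_lit 96775366) (nat_lit 0) (nat_lit 0),Row.mk (nat_lit 22848) (nat_lit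 32912) (nat_lit 4373) (nat_lit 62084) (nat_lit 120871186) (nat_lit 0) (nat_lit 0),Row.mk (nat_lit 23016) (nat_lit 32912) (nat_lit 4373) (nat_lit 62084) (nat_lit 150966285) (nat_lit 0) (nat_lit 0),Row.mk (nat_lit 23184) (nat_lit 32912) (nat_lit 4373) (nat_lit 62084) (nat_lit 188554337) (nat_lit 0) (nat_lit 0),Row.mk (nat_lit 23352) (nat_lit 32912) (nat_lit 4373) (nat_lit 62084) (nat_lit 235500908) (nat_lit 0) (nat_lit 0),Row.mk (nat_lit 23520) (nat_lit 32912) (nat_lit 4373) (nat_lit 62084) (nat_lit 294136042) (nat_lit 0) (nat_lit 0),Row.mk (nat_lit 23688) (nat_lit 32912) (nat_lit 4373) (nat_lit 62084) (nat_lit 367369909) (nat_lit 0) (nat_lit 0),Row.mk (nat_lit 23856) (nat_lit 32912) (nat_lit 4373) (nat_lit 62084) (nat_lit 458837244) (nat_lit 0) (nat_lit 0),Row.mk (nat_lit 24024) (nat_lit 32912) (nat_lit 4373) (nat_lit 62084) (nat_lit 573077737) (nat_lit 0) (nat_lit 0),Row.mk (nat_lit 24192) (nat_lit 32912) (nat_lit 4373) (nat_lit 62084)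 (nat_lit 715761358) (nat_lit 0) (nat_lit 0),Row.mk (nat_lit 24360) (nat_lit 32912) (nat_lit 4373) (nat_lit 62084) (nat_lit 893969759) (nat_lit 0) (nat_lit 0),Row.mk (nat_lit 24528) (nat_lit 32912) (nat_lit 4373) (nat_lit 62084) (nat_lit 1116547752) (nat_lit 0) (nat_lit 0),Row.mk (nat_lit 24696) (nat_lit 32912) (nat_lit 4373) (nat_lit 62084) (nat_lit 1394542296) (nat_lit 0) (nat_lit 0),Row.mk (nat_lit 24864) (nat_lit 32912) (nat_lit 4373) (nat_lit 62084) (nat_lit 1741750775) (nat_lit 0) (nat_lit 0),Row.mk (nat_lit 25032) (nat_lit 32912) (nat_lit 4373) (nat_lit 62084) (nat_lit 2175405789) (nat_lit 0) (nat_lit 0),Row.mk (nat_lit 25200) (nat_lit 32912) (nat_lit 4373) (nat_lit 62084) (nat_lit 2717030440) (nat_lit 0) (nat_lit 0)],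
[Row.mk (nat_lit 15792) (nat_lit 19261) (nat_lit 14110) (nat_lit 25806) (nat_lit 1995) (nat_lit 0) (nat_lit 0),Row.mk (nat_lit 15960) (nat_lit 19074) (nat_lit 10800) (nat_lit 25619) (nat_lit 7954) (nat_lit 0) (nat_lit 0),Row.mk (nat_lit 16128) (nat_lit 18887) (nat_lit 6667) (nat_lit 25432) (nat_lit 15398) (nat_lit 0) (nat_lit 0),Row.mk (nat_lit 16296) (nat_lit 18700) (nat_lit 1504) (nat_lit 25245) (nat_lit 24694) (nat_lit 0) (nat_lit 0),Row.mk (nat_lit 16464) (nat_lit 25058) (nat_lit 27403) (nat_lit 31603) (nat_lit 3958) (nat_lit 0) (nat_lit 0),Row.mk (nat_lit 16632) (nat_lit 24871) (nat_lit 27403) (nat_lit 31416) (nat_lit 10406) (nat_lit 0) (nat_lit 0),Row.mk (nat_lit 16800) (nat_lit 24684) (nat_lit 27403) (nat_lit 31229) (nat_lit 18460) (nat_lit 0) (nat_lit 0),Row.mk (nat_lit 16968) (nat_lit 24497) (nat_lit 27403) (nat_lit 31042) (nat_lit 28519) (nat_lit 0) (nat_lit 0),Row.mk (nat_lit 17136) (nat_lit 24310) (nat_lit 27403) (nat_lit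 30855) (nat_lit 41082) (nat_lit 0) (nat_lit 0),Row.mk (nat_lit 17304) (nat_lit 24123) (nat_lit 27403) (nat_lit 30668) (nat_lit 56773) (nat_lit 0) (nat_lit 0),Row.mk (nat_lit 17472) (nat_lit 23936) (nat_lit 27403) (nat_lit 30481) (nat_lit 76371) (nat_lit 0) (nat_lit 0),Row.mk (nat_lit 17640) (nat_lit 23749) (nat_lit 27403) (nat_lit 30294) (nat_lit 100849) (nat_lit 0) (nat_lit 0),Row.mk (nat_lit 17808) (nat_lit 23562) (nat_lit 27403) (nat_lit 30107) (nat_lit 131421) (nat_lit 0) (nat_lit 0),Row.mk (nat_lit 17976) (nat_lit 23375) (nat_lit 27403) (nat_lit 29920) (nat_lit 169604) (nat_lit 0) (nat_lit 0),Row.mk (nat_lit 18144) (nat_lit 23188) (nat_lit 27403) (nat_lit 29733) (nat_lit 217294) (nat_lit 0) (nat_lit 0),Row.mk (nat_lit 18312) (nat_lit 23001) (nat_lit 27403) (nat_lit 29546) (nat_lit 276858) (nat_lit 0) (nat_lit 0),Row.mk (nat_lit 18480) (nat_lit 22814) (nat_lit 27403) (nat_lit 29359) (nat_lit 351252) (nat_lit 0) (nat_lit 0),Row.mk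 (nat_lit 18648) (nat_lit 22627) (nat_lit 27403) (nat_lit 29172) (nat_lit 444168) (nat_lit 0) (nat_lit 0),Row.mk (nat_lit 18816) (nat_lit 22440) (nat_lit 27403) (nat_lit 28985) (nat_lit 560217) (nat_lit 0) (nat_lit 0),Row.mk (nat_lit 18984) (nat_lit 22253) (nat_lit 27403) (nat_lit 28798) (nat_lit 705161) (nat_lit 0) (nat_lit 0),Row.mk (nat_lit 19152) (nat_lit 22066) (nat_lit 27403) (nat_lit 28611) (nat_lit 886192) (nat_lit 0) (nat_lit 0),Row.mk (nat_lit 19320) (nat_lit 21879) (nat_lit 27403) (nat_lit 28424) (nat_lit 1112295) (nat_lit 0) (nat_lit 0),Row.mk (nat_lit 19488) (nat_lit 21692) (nat_lit 27403) (nat_lit 28237) (nat_lit 1394692) (nat_lit 0) (nat_lit 0),Row.mk (nat_lit 19656) (nat_lit 21505) (nat_lit 27403) (nat_lit 28050) (nat_lit 1747400) (nat_lit 0) (nat_lit 0),Row.mk (nat_lit 19824) (nat_lit 21318) (nat_lit 27403) (nat_lit 27863) (nat_lit 2187923) (nat_lit 0) (nat_lit 0),Row.mk (nat_lit 19992) (nat_lit 21131) (nat_lit 27403)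 (nat_lit 27676) (nat_lit 2738126) (nat_lit 0) (nat_lit 0),Row.mk (nat_lit 20160) (nat_lit 20944) (nat_lit 27403) (nat_lit 27489) (nat_lit 3425316) (nat_lit 0) (nat_lit 0),Row.mk (nat_lit 20328) (nat_lit 32912) (nat_lit 5462) (nat_lit 62084) (nat_lit 4300078) (nat_lit 0) (nat_lit 0),Row.mk (nat_lit 20496) (nat_lit 32912) (nat_lit 5462) (nat_lit 62084) (nat_lit 5372054) (nat_lit 0) (nat_lit 0),Row.mk (nat_lit 20664) (nat_lit 32912) (nat_lit 5462) (nat_lit 62084) (nat_lit 6710926) (nat_lit 0) (nat_lit 0),Row.mk (nat_lit 20832) (nat_lit 32912) (nat_lit 5462) (nat_lit 62084) (nat_lit 8383145) (nat_lit 0) (nat_lit 0),Row.mk (nat_lit 21000) (nat_lit 32912) (nat_lit 5462) (nat_lit 62084) (nat_lit 10471706) (nat_lit 0) (nat_lit 0),Row.mk (nat_lit 21168) (nat_lit 32912) (nat_lit 5462) (nat_lit 62084) (nat_lit 13080268) (nat_lit 0) (nat_lit 0),Row.mk (nat_lit 21336) (nat_lit 32912) (nat_lit 5462) (nat_lit 62084) (nat_lit 16338300) (nat_lit 0)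 (nat_lit 0),Row.mk (nat_lit 21504) (nat_lit 32912) (nat_lit 5462) (nat_lit 62084) (nat_lit 20407502) (nat_lit 0) (nat_lit 0),Row.mk (nat_lit 21672) (nat_lit 32912) (nat_lit 5462) (nat_lit 62084) (nat_lit 25489838) (nat_lit 0) (nat_lit 0),Row.mk (nat_lit 21840) (nat_lit 32912) (nat_lit 5462) (nat_lit 62084) (nat_lit 31837553) (nat_lit 0) (nat_lit 0),Row.mk (nat_lit 22008) (nat_lit 32912) (nat_lit 5462) (nat_lit 62084) (nat_lit 39765696) (nat_lit 0) (nat_lit 0),Row.mk (nat_lit 22176) (nat_lit 32912) (nat_lit 5462) (nat_lit 62084) (nat_lit 49667755) (nat_lit 0) (nat_lit 0),Row.mk (nat_lit 22344) (nat_lit 32912) (nat_lit 5462) (nat_lit 62084) (nat_lit 62035189) (nat_lit 0) (nat_lit 0),Row.mk (nat_lit 22512) (nat_lit 32912) (nat_lit 5462) (nat_lit 62084) (nat_lit 77481814) (nat_lit 0) (nat_lit 0),Row.mk (nat_lit 22680) (nat_lit 32912) (nat_lit 5462) (nat_lit 62084) (nat_lit 96774277) (nat_lit 0) (nat_lit 0),Row.mk (nat_lit 22848) (nat_lit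 32912) (nat_lit 5462) (nat_lit 62084) (nat_lit 120870098) (nat_lit 0) (nat_lit 0),Row.mk (nat_lit 23016) (nat_lit 32912) (nat_lit 5462) (nat_lit 62084) (nat_lit 150965196) (nat_lit 0) (nat_lit 0),Row.mk (nat_lit 23184) (nat_lit 32912) (nat_lit 5462) (nat_lit 62084) (nat_lit 188553248) (nat_lit 0) (nat_lit 0),Row.mk (nat_lit 23352) (nat_lit 32912) (nat_lit 5462) (nat_lit 62084) (nat_lit 235499819) (nat_lit 0) (nat_lit 0),Row.mk (nat_lit 23520) (nat_lit 32912) (nat_lit 5462) (nat_lit 62084) (nat_lit 294134953) (nat_lit 0) (nat_lit 0),Row.mk (nat_lit 23688) (nat_lit 32912) (nat_lit 5462) (nat_lit 62084) (nat_lit 367368820) (nat_lit 0) (nat_lit 0),Row.mk (nat_lit 23856) (nat_lit 32912) (nat_lit 5462) (nat_lit 62084) (nat_lit 458836155) (nat_lit 0) (nat_lit 0),Row.mk (nat_lit 24024) (nat_lit 32912) (nat_lit 5462) (nat_lit 62084) (nat_lit 573076648) (nat_lit 0) (nat_lit 0),Row.mk (nat_lit 24192) (nat_lit 32912) (nat_lit 5462) (nat_lit 62084)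 (nat_lit 715760269) (nat_lit 0) (nat_lit 0),Row.mk (nat_lit 24360) (nat_lit 32912) (nat_lit 5462) (nat_lit 62084) (nat_lit 893968670) (nat_lit 0) (nat_lit 0),Row.mk (nat_lit 24528) (nat_lit 32912) (nat_lit 5462) (nat_lit 62084) (nat_lit 1116546663) (nat_lit 0) (nat_lit 0),Row.mk (nat_lit 24696) (nat_lit 32912) (nat_lit 5462) (nat_lit 62084) (nat_lit 1394541207) (nat_lit 0) (nat_lit 0),Row.mk (nat_lit 24864) (nat_lit 32912) (nat_lit 5462) (nat_lit 62084) (nat_lit 1741749686) (nat_lit 0) (nat_lit 0),Row.mk (nat_lit 25032) (nat_lit 32912) (nat_lit 5462) (nat_lit 62084) (nat_lit 2175404700) (nat_lit 0) (nat_lit 0),Row.mk (nat_lit 25200) (nat_lit 32912) (nat_lit 5462) (nat_lit 62084) (nat_lit 2717029351) (nat_lit 0) (nat_lit 0),Row.mk (nat_lit 25368) (nat_lit 32912) (nat_lit 5462) (nat_lit 62084) (nat_lit 3393505475) (nat_lit 0) (nat_lit 0)],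
[Row.mk (nat_lit 15792) (nat_lit 17204) (nat_lit 4330) (nat_lit 19448) (nat_lit 13135) (nat_lit 0) (nat_lit 0),Row.mk (nat_lit 15960) (nat_lit 19261) (nat_lit 17623) (nat_lit 25806) (nat_lit 2492) (nat_lit 0) (nat_lit 0),Row.mk (nat_lit 16128) (nat_lit 19074) (nat_lit 13489) (nat_lit 25619) (nat_lit 9935) (nat_lit 0) (nat_lit 0),Row.mk (nat_lit 16296) (nat_lit 18887) (nat_lit 8326) (nat_lit 25432) (nat_lit 19232) (nat_lit 0) (nat_lit 0),Row.mk (nat_lit 16464) (nat_lit 18700) (nat_lit 1878) (nat_lit 25245) (nat_lit 30843) (nat_lit 0) (nat_lit 0),Row.mk (nat_lit 16632) (nat_lit 25058) (nat_lit 34226) (nat_lit 31603) (nat_lit 4944) (nat_lit 0) (nat_lit 0),Row.mk (nat_lit 16800) (nat_lit 24871) (nat_lit 34226) (nat_lit 31416) (nat_lit 12997) (nat_lit 0) (nat_lit 0),Row.mk (nat_lit 16968) (nat_lit 24684) (nat_lit 34226) (nat_lit 31229) (nat_lit 23056) (nat_lit 0) (nat_lit 0),Row.mk (nat_lit 17136) (nat_lit 24497) (nat_lit 34226) (nat_lit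 31042) (nat_lit 35619) (nat_lit 0) (nat_lit 0),Row.mk (nat_lit 17304) (nat_lit 24310) (nat_lit 34226) (nat_lit 30855) (nat_lit 51311) (nat_lit 0) (nat_lit 0),Row.mk (nat_lit 17472) (nat_lit 24123) (nat_lit 34226) (nat_lit 30668) (nat_lit 70909) (nat_lit 0) (nat_lit 0),Row.mk (nat_lit 17640) (nat_lit 23936) (nat_lit 34226) (nat_lit 30481) (nat_lit 95386) (nat_lit 0) (nat_lit 0),Row.mk (nat_lit 17808) (nat_lit 23749) (nat_lit 34226) (nat_lit 30294) (nat_lit 125958) (nat_lit 0) (nat_lit 0),Row.mk (nat_lit 17976) (nat_lit 23562) (nat_lit 34226) (nat_lit 30107) (nat_lit 164141) (nat_lit 0) (nat_lit 0),Row.mk (nat_lit 18144) (nat_lit 23375) (nat_lit 34226) (nat_lit 29920) (nat_lit 211831) (nat_lit 0) (nat_lit 0),Row.mk (nat_lit 18312) (nat_lit 23188) (nat_lit 34226) (nat_lit 29733) (nat_lit 271395) (nat_lit 0) (nat_lit 0),Row.mk (nat_lit 18480) (nat_lit 23001) (nat_lit 34226) (nat_lit 29546) (nat_lit 345789) (nat_lit 0) (nat_lit 0),Row.mk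 (nat_lit 18648) (nat_lit 22814) (nat_lit 34226) (nat_lit 29359) (nat_lit 438705) (nat_lit 0) (nat_lit 0),Row.mk (nat_lit 18816) (nat_lit 22627) (nat_lit 34226) (nat_lit 29172) (nat_lit 554755) (nat_lit 0) (nat_lit 0),Row.mk (nat_lit 18984) (nat_lit 22440) (nat_lit 34226) (nat_lit 28985) (nat_lit 699698) (nat_lit 0) (nat_lit 0),Row.mk (nat_lit 19152) (nat_lit 22253) (nat_lit 34226) (nat_lit 28798) (nat_lit 880729) (nat_lit 0) (nat_lit 0),Row.mk (nat_lit 19320) (nat_lit 22066) (nat_lit 34226) (nat_lit 28611) (nat_lit 1106832) (nat_lit 0) (nat_lit 0),Row.mk (nat_lit 19488) (nat_lit 21879) (nat_lit 34226) (nat_lit 28424) (nat_lit 1389230) (nat_lit 0) (nat_lit 0),Row.mk (nat_lit 19656) (nat_lit 21692) (nat_lit 34226) (nat_lit 28237) (nat_lit 1741937) (nat_lit 0) (nat_lit 0),Row.mk (nat_lit 19824) (nat_lit 21505) (nat_lit 34226) (nat_lit 28050) (nat_lit 2182460) (nat_lit 0) (nat_lit 0),Row.mk (nat_lit 19992) (nat_lit 21318) (nat_lit 34226)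 (nat_lit 27863) (nat_lit 2732663) (nat_lit 0) (nat_lit 0),Row.mk (nat_lit 20160) (nat_lit 21131) (nat_lit 34226) (nat_lit 27676) (nat_lit 3419853) (nat_lit 0) (nat_lit 0),Row.mk (nat_lit 20328) (nat_lit 20944) (nat_lit 34226) (nat_lit 27489) (nat_lit 4278137) (nat_lit 0) (nat_lit 0),Row.mk (nat_lit 20496) (nat_lit 32912) (nat_lit 6822) (nat_lit 62084) (nat_lit 5370694) (nat_lit 0) (nat_lit 0),Row.mk (nat_lit 20664) (nat_lit 32912) (nat_lit 6822) (nat_lit 62084) (nat_lit 6709566) (nat_lit 0) (nat_lit 0),Row.mk (nat_lit 20832) (nat_lit 32912) (nat_lit 6822) (nat_lit 62084) (nat_lit 8381785) (nat_lit 0) (nat_lit 0),Row.mk (nat_lit 21000) (nat_lit 32912) (nat_lit 6822) (nat_lit 62084) (nat_lit 10470346) (nat_lit 0) (nat_lit 0),Row.mk (nat_lit 21168) (nat_lit 32912) (nat_lit 6822) (nat_lit 62084) (nat_lit 13078908) (nat_lit 0) (nat_lit 0),Row.mk (nat_lit 21336) (nat_lit 32912) (nat_lit 6822) (nat_lit 62084) (nat_lit 16336940) (nat_lit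 0) (nat_lit 0),Row.mk (nat_lit 21504) (nat_lit 32912) (nat_lit 6822) (nat_lit 62084) (nat_lit 20406142) (nat_lit 0) (nat_lit 0),Row.mk (nat_lit 21672) (nat_lit 32912) (nat_lit 6822) (nat_lit 62084) (nat_lit 25488478) (nat_lit 0) (nat_lit 0),Row.mk (nat_lit 21840) (nat_lit 32912) (nat_lit 6822) (nat_lit 62084) (nat_lit 31836193) (nat_lit 0) (nat_lit 0),Row.mk (nat_lit 22008) (nat_lit 32912) (nat_lit 6822) (nat_lit 62084) (nat_lit 39764336) (nat_lit 0) (nat_lit 0),Row.mk (nat_lit 22176) (nat_lit 32912) (nat_lit 6822) (nat_lit 62084) (nat_lit 49666395) (nat_lit 0) (nat_lit 0),Row.mk (nat_lit 22344) (nat_lit 32912) (nat_lit 6822) (nat_lit 62084) (nat_lit 62033828) (nat_lit 0) (nat_lit 0),Row.mk (nat_lit 22512) (nat_lit 32912) (nat_lit 6822) (nat_lit 62084) (nat_lit 77480454) (nat_lit 0) (nat_lit 0),Row.mk (nat_lit 22680) (nat_lit 32912) (nat_lit 6822) (nat_lit 62084) (nat_lit 96772917) (nat_lit 0) (nat_lit 0),Row.mk (nat_lit 22848) (nat_lit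 32912) (nat_lit 6822) (nat_lit 62084) (nat_lit 120868737) (nat_lit 0) (nat_lit 0),Row.mk (nat_lit 23016) (nat_lit 32912) (nat_lit 6822) (nat_lit 62084) (nat_lit 150963836) (nat_lit 0) (nat_lit 0),Row.mk (nat_lit 23184) (nat_lit 32912) (nat_lit 6822) (nat_lit 62084) (nat_lit 188551888) (nat_lit 0) (nat_lit 0),Row.mk (nat_lit 23352) (nat_lit 32912) (nat_lit 6822) (nat_lit 62084) (nat_lit 235498459) (nat_lit 0) (nat_lit 0),Row.mk (nat_lit 23520) (nat_lit 32912) (nat_lit 6822) (nat_lit 62084) (nat_lit 294133593) (nat_lit 0) (nat_lit 0),Row.mk (nat_lit 23688) (nat_lit 32912) (nat_lit 6822) (nat_lit 62084) (nat_lit 367367460) (nat_lit 0) (nat_lit 0),Row.mk (nat_lit 23856) (nat_lit 32912) (nat_lit 6822) (nat_lit 62084) (nat_lit 458834795) (nat_lit 0) (nat_lit 0),Row.mk (nat_lit 24024) (nat_lit 32912) (nat_lit 6822) (nat_lit 62084) (nat_lit 573075288) (nat_lit 0) (nat_lit 0),Row.mk (nat_lit 24192) (nat_lit 32912) (nat_lit 6822) (nat_lit 62084)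 (nat_lit 715758909) (nat_lit 0) (nat_lit 0),Row.mk (nat_lit 24360) (nat_lit 32912) (nat_lit 6822) (nat_lit 62084) (nat_lit 893967310) (nat_lit 0) (nat_lit 0),Row.mk (nat_lit 24528) (nat_lit 32912) (nat_lit 6822) (nat_lit 62084) (nat_lit 1116545303) (nat_lit 0) (nat_lit 0),Row.mk (nat_lit 24696) (nat_lit 32912) (nat_lit 6822) (nat_lit 62084) (nat_lit 1394539846) (nat_lit 0) (nat_lit 0),Row.mk (nat_lit 24864) (nat_lit 32912) (nat_lit 6822) (nat_lit 62084) (nat_lit 1741748325) (nat_lit 0) (nat_lit 0),Row.mk (nat_lit 25032) (nat_lit 32912) (nat_lit 6822) (nat_lit 62084) (nat_lit 2175403340) (nat_lit 0) (nat_lit 0),Row.mk (nat_lit 25200) (nat_lit 32912) (nat_lit 6822) (nat_lit 62084) (nat_lit 2717027991) (nat_lit 0) (nat_lit 0),Row.mk (nat_lit 25368) (nat_lit 32912) (nat_lit 6822) (nat_lit 62084) (nat_lit 3393504115) (nat_lit 0) (nat_lit 0),Row.mk (nat_lit 25536) (nat_lit 32912) (nat_lit 6822) (nat_lit 62084) (nat_lit 4238406474) (nat_lit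 0) (nat_lit 0)],
[Row.mk (nat_lit 15624) (nat_lit 15895) (nat_lit 2208) (nat_lit 17578) (nat_lit 14834) (nat_lit 0) (nat_lit 0),Row.mk (nat_lit 15792) (nat_lit 17391) (nat_lit 12851) (nat_lit 19635) (nat_lit 6312) (nat_lit 0) (nat_lit 0),Row.mk (nat_lit 15960) (nat_lit 17204) (nat_lit 5408) (nat_lit 19448) (nat_lit 16405) (nat_lit 0) (nat_lit 0),Row.mk (nat_lit 16128) (nat_lit 19261) (nat_lit 22011) (nat_lit 25806) (nat_lit 3112) (nat_lit 0) (nat_lit 0),Row.mk (nat_lit 16296) (nat_lit 19074) (nat_lit 16848) (nat_lit 25619) (nat_lit 12409) (nat_lit 0) (nat_lit 0),Row.mk (nat_lit 16464) (nat_lit 18887) (nat_lit 10400) (nat_lit 25432) (nat_lit 24020) (nat_lit 0) (nat_lit 0),Row.mk (nat_lit 16632) (nat_lit 18700) (nat_lit 2346) (nat_lit 25245) (nat_lit 38522) (nat_lit 0) (nat_lit 0),Row.mk (nat_lit 16800) (nat_lit 25058) (nat_lit 42747) (nat_lit 31603) (nat_lit 6174) (nat_lit 0) (nat_lit 0),Row.mk (nat_lit 16968) (nat_lit 24871) (nat_lit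 42747) (nat_lit 31416) (nat_lit 16233) (nat_lit 0) (nat_lit 0),Row.mk (nat_lit 17136) (nat_lit 24684) (nat_lit 42747) (nat_lit 31229) (nat_lit 28797) (nat_lit 0) (nat_lit 0),Row.mk (nat_lit 17304) (nat_lit 24497) (nat_lit 42747) (nat_lit 31042) (nat_lit 44488) (nat_lit 0) (nat_lit 0),Row.mk (nat_lit 17472) (nat_lit 24310) (nat_lit 42747) (nat_lit 30855) (nat_lit 64086) (nat_lit 0) (nat_lit 0),Row.mk (nat_lit 17640) (nat_lit 24123) (nat_lit 42747) (nat_lit 30668) (nat_lit 88563) (nat_lit 0) (nat_lit 0),Row.mk (nat_lit 17808) (nat_lit 23936) (nat_lit 42747) (nat_lit 30481) (nat_lit 119135) (nat_lit 0) (nat_lit 0),Row.mk (nat_lit 17976) (nat_lit 23749) (nat_lit 42747) (nat_lit 30294) (nat_lit 157319) (nat_lit 0) (nat_lit 0),Row.mk (nat_lit 18144) (nat_lit 23562) (nat_lit 42747) (nat_lit 30107) (nat_lit 205009) (nat_lit 0) (nat_lit 0),Row.mk (nat_lit 18312) (nat_lit 23375) (nat_lit 42747) (nat_lit 29920) (nat_lit 264572) (nat_lit 0) (nat_lit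 0),Row.mk (nat_lit 18480) (nat_lit 23188) (nat_lit 42747) (nat_lit 29733) (nat_lit 338966) (nat_lit 0) (nat_lit 0),Row.mk (nat_lit 18648) (nat_lit 23001) (nat_lit 42747) (nat_lit 29546) (nat_lit 431882) (nat_lit 0) (nat_lit 0),Row.mk (nat_lit 18816) (nat_lit 22814) (nat_lit 42747) (nat_lit 29359) (nat_lit 547932) (nat_lit 0) (nat_lit 0),Row.mk (nat_lit 18984) (nat_lit 22627) (nat_lit 42747) (nat_lit 29172) (nat_lit 692875) (nat_lit 0) (nat_lit 0),Row.mk (nat_lit 19152) (nat_lit 22440) (nat_lit 42747) (nat_lit 28985) (nat_lit 873906) (nat_lit 0) (nat_lit 0),Row.mk (nat_lit 19320) (nat_lit 22253) (nat_lit 42747) (nat_lit 28798) (nat_lit 1100009) (nat_lit 0) (nat_lit 0),Row.mk (nat_lit 19488) (nat_lit 22066) (nat_lit 42747) (nat_lit 28611) (nat_lit 1382407) (nat_lit 0) (nat_lit 0),Row.mk (nat_lit 19656) (nat_lit 21879) (nat_lit 42747) (nat_lit 28424) (nat_lit 1735114) (nat_lit 0) (nat_lit 0),Row.mk (nat_lit 19824) (nat_lit 21692) (nat_lit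 42747) (nat_lit 28237) (nat_lit 2175638) (nat_lit 0) (nat_lit 0),Row.mk (nat_lit 19992) (nat_lit 21505) (nat_lit 42747) (nat_lit 28050) (nat_lit 2725841) (nat_lit 0) (nat_lit 0),Row.mk (nat_lit 20160) (nat_lit 21318) (nat_lit 42747) (nat_lit 27863) (nat_lit 3413031) (nat_lit 0) (nat_lit 0),Row.mk (nat_lit 20328) (nat_lit 21131) (nat_lit 42747) (nat_lit 27676) (nat_lit 4271315) (nat_lit 0) (nat_lit 0),Row.mk (nat_lit 20496) (nat_lit 20944) (nat_lit 42747) (nat_lit 27489) (nat_lit 5343291) (nat_lit 0) (nat_lit 0),Row.mk (nat_lit 20664) (nat_lit 32912) (nat_lit 8521) (nat_lit 62084) (nat_lit 6707867) (nat_lit 0) (nat_lit 0),Row.mk (nat_lit 20832) (nat_lit 32912) (nat_lit 8521) (nat_lit 62084) (nat_lit 8380086) (nat_lit 0) (nat_lit 0),Row.mk (nat_lit 21000) (nat_lit 32912) (nat_lit 8521) (nat_lit 62084) (nat_lit 10468647) (nat_lit 0) (nat_lit 0),Row.mk (nat_lit 21168) (nat_lit 32912) (nat_lit 8521) (nat_lit 62084) (nat_lit 13077209) (nat_lit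 0) (nat_lit 0),Row.mk (nat_lit 21336) (nat_lit 32912) (nat_lit 8521) (nat_lit 62084) (nat_lit 16335241) (nat_lit 0) (nat_lit 0),Row.mk (nat_lit 21504) (nat_lit 32912) (nat_lit 8521) (nat_lit 62084) (nat_lit 20404443) (nat_lit 0) (nat_lit 0),Row.mk (nat_lit 21672) (nat_lit 32912) (nat_lit 8521) (nat_lit 62084) (nat_lit 25486779) (nat_lit 0) (nat_lit 0),Row.mk (nat_lit 21840) (nat_lit 32912) (nat_lit 8521) (nat_lit 62084) (nat_lit 31834494) (nat_lit 0) (nat_lit 0),Row.mk (nat_lit 22008) (nat_lit 32912) (nat_lit 8521) (nat_lit 62084) (nat_lit 39762637) (nat_lit 0) (nat_lit 0),Row.mk (nat_lit 22176) (nat_lit 32912) (nat_lit 8521) (nat_lit 62084) (nat_lit 49664697) (nat_lit 0) (nat_lit 0),Row.mk (nat_lit 22344) (nat_lit 32912) (nat_lit 8521) (nat_lit 62084) (nat_lit 62032130) (nat_lit 0) (nat_lit 0),Row.mk (nat_lit 22512) (nat_lit 32912) (nat_lit 8521) (nat_lit 62084) (nat_lit 77478755) (nat_lit 0) (nat_lit 0),Row.mk (nat_lit 22680) (nat_lit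 32912) (nat_lit 8521) (nat_lit 62084) (nat_lit 96771218) (nat_lit 0) (nat_lit 0),Row.mk (nat_lit 22848) (nat_lit 32912) (nat_lit 8521) (nat_lit 62084) (nat_lit 120867039) (nat_lit 0) (nat_lit 0),Row.mk (nat_lit 23016) (nat_lit 32912) (nat_lit 8521) (nat_lit 62084) (nat_lit 150962137) (nat_lit 0) (nat_lit 0),Row.mk (nat_lit 23184) (nat_lit 32912) (nat_lit 8521) (nat_lit 62084) (nat_lit 188550190) (nat_lit 0) (nat_lit 0),Row.mk (nat_lit 23352) (nat_lit 32912) (nat_lit 8521) (nat_lit 62084) (nat_lit 235496760) (nat_lit 0) (nat_lit 0),Row.mk (nat_lit 23520) (nat_lit 32912) (nat_lit 8521) (nat_lit 62084) (nat_lit 294131894) (nat_lit 0) (nat_lit 0),Row.mk (nat_lit 23688) (nat_lit 32912) (nat_lit 8521) (nat_lit 62084) (nat_lit 367365762) (nat_lit 0) (nat_lit 0),Row.mk (nat_lit 23856) (nat_lit 32912) (nat_lit 8521) (nat_lit 62084) (nat_lit 458833096) (nat_lit 0) (nat_lit 0),Row.mk (nat_lit 24024) (nat_lit 32912) (nat_lit 8521) (nat_lit 62084)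 (nat_lit 573073590) (nat_lit 0) (nat_lit 0),Row.mk (nat_lit 24192) (nat_lit 32912) (nat_lit 8521) (nat_lit 62084) (nat_lit 715757211) (nat_lit 0) (nat_lit 0),Row.mk (nat_lit 24360) (nat_lit 32912) (nat_lit 8521) (nat_lit 62084) (nat_lit 893965611) (nat_lit 0) (nat_lit 0),Row.mk (nat_lit 24528) (nat_lit 32912) (nat_lit 8521) (nat_lit 62084) (nat_lit 1116543604) (nat_lit 0) (nat_lit 0),Row.mk (nat_lit 24696) (nat_lit 32912) (nat_lit 8521) (nat_lit 62084) (nat_lit 1394538148) (nat_lit 0) (nat_lit 0),Row.mk (nat_lit 24864) (nat_lit 32912) (nat_lit 8521) (nat_lit 62084) (nat_lit 1741746627) (nat_lit 0) (nat_lit 0),Row.mk (nat_lit 25032) (nat_lit 32912) (nat_lit 8521) (nat_lit 62084) (nat_lit 2175401641) (nat_lit 0) (nat_lit 0),Row.mk (nat_lit 25200) (nat_lit 32912) (nat_lit 8521) (nat_lit 62084) (nat_lit 2717026292) (nat_lit 0) (nat_lit 0),Row.mk (nat_lit 25368) (nat_lit 32912) (nat_lit 8521) (nat_lit 62084) (nat_lit 3393502416) (nat_lit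 0) (nat_lit 0),Row.mk (nat_lit 25536) (nat_lit 32912) (nat_lit 8521) (nat_lit 62084) (nat_lit 4238404775) (nat_lit 0) (nat_lit 0),Row.mk (nat_lit 25704) (nat_lit 32912) (nat_lit 8521) (nat_lit 62084) (nat_lit 5293667440) (nat_lit 0) (nat_lit 0)],
[Row.mk (nat_lit 15120) (nat_lit 13838) (nat_lit 8647) (nat_lit 15147) (nat_lit 6369) (nat_lit 0) (nat_lit 0),Row.mk (nat_lit 15288) (nat_lit 14960) (nat_lit 14110) (nat_lit 16456) (nat_lit 1995) (nat_lit 0) (nat_lit 0),Row.mk (nat_lit 15456) (nat_lit 14773) (nat_lit 4330) (nat_lit 16269) (nat_lit 13135) (nat_lit 0) (nat_lit 0),Row.mk (nat_lit 15624) (nat_lit 16082) (nat_lit 12851) (nat_lit 17765) (nat_lit 6312) (nat_lit 0) (nat_lit 0),Row.mk (nat_lit 15792) (nat_lit 15895) (nat_lit 2758) (nat_lit 17578) (nat_lit 18527) (nat_lit 0) (nat_lit 0),Row.mk (nat_lit 15960) (nat_lit 17391) (nat_lit 16051) (nat_lit 19635) (nat_lit 7884) (nat_lit 0) (nat_lit 0),Row.mk (nat_lit 16128) (nat_lit 17204)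 (nat_lit 6755) (nat_lit 19448) (nat_lit 20490) (nat_lit 0) (nat_lit 0),Row.mk (nat_lit 16296) (nat_lit 19261) (nat_lit 27491) (nat_lit 25806) (nat_lit 3887) (nat_lit 0) (nat_lit 0),Row.mk (nat_lit 16464) (nat_lit 19074) (nat_lit 21043) (nat_lit 25619) (nat_lit 15498) (nat_lit 0) (nat_lit 0),Row.mk (nat_lit 16632) (nat_lit 18887) (nat_lit 12989) (nat_lit 25432) (nat_lit 30000) (nat_lit 0) (nat_lit 0),Row.mk (nat_lit 16800) (nat_lit 18700) (nat_lit 2930) (nat_lit 25245) (nat_lit 48113) (nat_lit 0) (nat_lit 0),Row.mk (nat_lit 16968) (nat_lit 25058) (nat_lit 53390) (nat_lit 31603) (nat_lit 7712) (nat_lit 0) (nat_lit 0),Row.mk (nat_lit 17136) (nat_lit 24871) (nat_lit 53390) (nat_lit 31416) (nat_lit 20275) (nat_lit 0) (nat_lit 0),Row.mk (nat_lit 17304) (nat_lit 24684) (nat_lit 53390) (nat_lit 31229) (nat_lit 35966) (nat_lit 0) (nat_lit 0),Row.mk (nat_lit 17472) (nat_lit 24497) (nat_lit 53390) (nat_lit 31042) (nat_lit 55564) (nat_lit 0)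 (nat_lit 0),Row.mk (nat_lit 17640) (nat_lit 24310) (nat_lit 53390) (nat_lit 30855) (nat_lit 80042) (nat_lit 0) (nat_lit 0),Row.mk (nat_lit 17808) (nat_lit 24123) (nat_lit 53390) (nat_lit 30668) (nat_lit 110614) (nat_lit 0) (nat_lit 0),Row.mk (nat_lit 17976) (nat_lit 23936) (nat_lit 53390) (nat_lit 30481) (nat_lit 148797) (nat_lit 0) (nat_lit 0),Row.mk (nat_lit 18144) (nat_lit 23749) (nat_lit 53390) (nat_lit 30294) (nat_lit 196487) (nat_lit 0) (nat_lit 0),Row.mk (nat_lit 18312) (nat_lit 23562) (nat_lit 53390) (nat_lit 30107) (nat_lit 256051) (nat_lit 0) (nat_lit 0),Row.mk (nat_lit 18480) (nat_lit 23375) (nat_lit 53390) (nat_lit 29920) (nat_lit 330445) (nat_lit 0) (nat_lit 0),Row.mk (nat_lit 18648) (nat_lit 23188) (nat_lit 53390) (nat_lit 29733) (nat_lit 423361) (nat_lit 0) (nat_lit 0),Row.mk (nat_lit 18816) (nat_lit 23001) (nat_lit 53390) (nat_lit 29546) (nat_lit 539411) (nat_lit 0) (nat_lit 0),Row.mk (nat_lit 18984) (nat_lit 22814)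 (nat_lit 53390) (nat_lit 29359) (nat_lit 684354) (nat_lit 0) (nat_lit 0),Row.mk (nat_lit 19152) (nat_lit 22627) (nat_lit 53390) (nat_lit 29172) (nat_lit 865385) (nat_lit 0) (nat_lit 0),Row.mk (nat_lit 19320) (nat_lit 22440) (nat_lit 53390) (nat_lit 28985) (nat_lit 1091488) (nat_lit 0) (nat_lit 0),Row.mk (nat_lit 19488) (nat_lit 22253) (nat_lit 53390) (nat_lit 28798) (nat_lit 1373885) (nat_lit 0) (nat_lit 0),Row.mk (nat_lit 19656) (nat_lit 22066) (nat_lit 53390) (nat_lit 28611) (nat_lit 1726593) (nat_lit 0) (nat_lit 0),Row.mk (nat_lit 19824) (nat_lit 21879) (nat_lit 53390) (nat_lit 28424) (nat_lit 2167116) (nat_lit 0) (nat_lit 0),Row.mk (nat_lit 19992) (nat_lit 21692) (nat_lit 53390) (nat_lit 28237) (nat_lit 2717319) (nat_lit 0) (nat_lit 0),Row.mk (nat_lit 20160) (nat_lit 21505) (nat_lit 53390) (nat_lit 28050) (nat_lit 3404509) (nat_lit 0) (nat_lit 0),Row.mk (nat_lit 20328) (nat_lit 21318) (nat_lit 53390) (nat_lit 27863) (nat_lit 4262793)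 (nat_lit 0) (nat_lit 0),Row.mk (nat_lit 20496) (nat_lit 21131) (nat_lit 53390) (nat_lit 27676) (nat_lit 5334769) (nat_lit 0) (nat_lit 0),Row.mk (nat_lit 20664) (nat_lit 20944) (nat_lit 53390) (nat_lit 27489) (nat_lit 6673641) (nat_lit 0) (nat_lit 0),Row.mk (nat_lit 20832) (nat_lit 32912) (nat_lit 10643) (nat_lit 62084) (nat_lit 8377964) (nat_lit 0) (nat_lit 0),Row.mk (nat_lit 21000) (nat_lit 32912) (nat_lit 10643) (nat_lit 62084) (nat_lit 10466525) (nat_lit 0) (nat_lit 0),Row.mk (nat_lit 21168) (nat_lit 32912) (nat_lit 10643) (nat_lit 62084) (nat_lit 13075088) (nat_lit 0) (nat_lit 0),Row.mk (nat_lit 21336) (nat_lit 32912) (nat_lit 10643) (nat_lit 62084) (nat_lit 16333119) (nat_lit 0) (nat_lit 0),Row.mk (nat_lit 21504) (nat_lit 32912) (nat_lit 10643) (nat_lit 62084) (nat_lit 20402322) (nat_lit 0) (nat_lit 0),Row.mk (nat_lit 21672) (nat_lit 32912) (nat_lit 10643) (nat_lit 62084) (nat_lit 25484658) (nat_lit 0) (nat_lit 0),Row.mk (nat_lit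 21840) (nat_lit 32912) (nat_lit 10643) (nat_lit 62084) (nat_lit 31832373) (nat_lit 0) (nat_lit 0),Row.mk (nat_lit 22008) (nat_lit 32912) (nat_lit 10643) (nat_lit 62084) (nat_lit 39760516) (nat_lit 0) (nat_lit 0),Row.mk (nat_lit 22176) (nat_lit 32912) (nat_lit 10643) (nat_lit 62084) (nat_lit 49662575) (nat_lit 0) (nat_lit 0),Row.mk (nat_lit 22344) (nat_lit 32912) (nat_lit 10643) (nat_lit 62084) (nat_lit 62030008) (nat_lit 0) (nat_lit 0),Row.mk (nat_lit 22512) (nat_lit 32912) (nat_lit 10643) (nat_lit 62084) (nat_lit 77476634) (nat_lit 0) (nat_lit 0),Row.mk (nat_lit 22680) (nat_lit 32912) (nat_lit 10643) (nat_lit 62084) (nat_lit 96769097) (nat_lit 0) (nat_lit 0),Row.mk (nat_lit 22848) (nat_lit 32912) (nat_lit 10643) (nat_lit 62084) (nat_lit 120864917) (nat_lit 0) (nat_lit 0),Row.mk (nat_lit 23016) (nat_lit 32912) (nat_lit 10643) (nat_lit 62084) (nat_lit 150960016) (nat_lit 0) (nat_lit 0),Row.mk (nat_lit 23184) (nat_lit 32912) (nat_lit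 10643) (nat_lit 62084) (nat_lit 188548068) (nat_lit 0) (nat_lit 0),Row.mk (nat_lit 23352) (nat_lit 32912) (nat_lit 10643) (nat_lit 62084) (nat_lit 235494638) (nat_lit 0) (nat_lit 0),Row.mk (nat_lit 23520) (nat_lit 32912) (nat_lit 10643) (nat_lit 62084) (nat_lit 294129772) (nat_lit 0) (nat_lit 0),Row.mk (nat_lit 23688) (nat_lit 32912) (nat_lit 10643) (nat_lit 62084) (nat_lit 367363640) (nat_lit 0) (nat_lit 0),Row.mk (nat_lit 23856) (nat_lit 32912) (nat_lit 10643) (nat_lit 62084) (nat_lit 458830974) (nat_lit 0) (nat_lit 0),Row.mk (nat_lit 24024) (nat_lit 32912) (nat_lit 10643) (nat_lit 62084) (nat_lit 573071468) (nat_lit 0) (nat_lit 0),Row.mk (nat_lit 24192) (nat_lit 32912) (nat_lit 10643) (nat_lit 62084) (nat_lit 715755089) (nat_lit 0) (nat_lit 0),Row.mk (nat_lit 24360) (nat_lit 32912) (nat_lit 10643) (nat_lit 62084) (nat_lit 893963489) (nat_lit 0) (nat_lit 0),Row.mk (nat_lit 24528) (nat_lit 32912) (nat_lit 10643) (nat_lit 62084) (nat_lit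 1116541482) (nat_lit 0) (nat_lit 0),Row.mk (nat_lit 24696) (nat_lit 32912) (nat_lit 10643) (nat_lit 62084) (nat_lit 1394536026) (nat_lit 0) (nat_lit 0),Row.mk (nat_lit 24864) (nat_lit 32912) (nat_lit 10643) (nat_lit 62084) (nat_lit 1741744505) (nat_lit 0) (nat_lit 0),Row.mk (nat_lit 25032) (nat_lit 32912) (nat_lit 10643) (nat_lit 62084) (nat_lit 2175399519) (nat_lit 0) (nat_lit 0),Row.mk (nat_lit 25200) (nat_lit 32912) (nat_lit 10643) (nat_lit 62084) (nat_lit 2717024171) (nat_lit 0) (nat_lit 0),Row.mk (nat_lit 25368) (nat_lit 32912) (nat_lit 10643) (nat_lit 62084) (nat_lit 3393500294) (nat_lit 0) (nat_lit 0),Row.mk (nat_lit 25536) (nat_lit 32912) (nat_lit 10643) (nat_lit 62084) (nat_lit 4238402654) (nat_lit 0) (nat_lit 0),Row.mk (nat_lit 25704) (nat_lit 32912) (nat_lit 10643) (nat_lit 62084) (nat_lit 5293665318) (nat_lit 0) (nat_lit 0),Row.mk (nat_lit 25872) (nat_lit 32912) (nat_lit 10643) (nat_lit 62084) (nat_lit 6611662929) (nat_lit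 0) (nat_lit 0)],
[Row.mk (nat_lit 14448) (nat_lit 11220) (nat_lit 9016) (nat_lit 11968) (nat_lit 6073) (nat_lit 0) (nat_lit 0),Row.mk (nat_lit 14616) (nat_lit 11781) (nat_lit 11261) (nat_lit 12716) (nat_lit 4276) (nat_lit 0) (nat_lit 0),Row.mk (nat_lit 14784) (nat_lit 12529) (nat_lit 14065) (nat_lit 13464) (nat_lit 2031) (nat_lit 0) (nat_lit 0),Row.mk (nat_lit 14952) (nat_lit 12342) (nat_lit 964) (nat_lit 13277) (nat_lit 15830) (nat_lit 0) (nat_lit 0),Row.mk (nat_lit 15120) (nat_lit 13090) (nat_lit 5338) (nat_lit 14025) (nat_lit 12328) (nat_lit 0) (nat_lit 0),Row.mk (nat_lit 15288) (nat_lit 13838) (nat_lit 10800) (nat_lit 15147) (nat_lit 7954) (nat_lit 0) (nat_lit 0),Row.mk (nat_lit 15456) (nat_lit 14960) (nat_lit 17623) (nat_lit 16456) (nat_lit 2492) (nat_lit 0) (nat_lit 0),Row.mk (nat_lit 15624) (nat_lit 14773) (nat_lit 5408) (nat_lit 16269) (nat_lit 16405) (nat_lit 0) (nat_lit 0),Row.mk (nat_lit 15792) (nat_lit 16082) (nat_lit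 16051) (nat_lit 17765) (nat_lit 7884) (nat_lit 0) (nat_lit 0),Row.mk (nat_lit 15960) (nat_lit 15895) (nat_lit 3445) (nat_lit 17578) (nat_lit 23140) (nat_lit 0) (nat_lit 0),Row.mk (nat_lit 16128) (nat_lit 17391) (nat_lit 20048) (nat_lit 19635) (nat_lit 9847) (nat_lit 0) (nat_lit 0),Row.mk (nat_lit 16296) (nat_lit 17204) (nat_lit 8437) (nat_lit 19448) (nat_lit 25592) (nat_lit 0) (nat_lit 0),Row.mk (nat_lit 16464) (nat_lit 19261) (nat_lit 34336) (nat_lit 25806) (nat_lit 4855) (nat_lit 0) (nat_lit 0),Row.mk (nat_lit 16632) (nat_lit 19074) (nat_lit 26282) (nat_lit 25619) (nat_lit 19357) (nat_lit 0) (nat_lit 0),Row.mk (nat_lit 16800) (nat_lit 18887) (nat_lit 16223) (nat_lit 25432) (nat_lit 37470) (nat_lit 0) (nat_lit 0),Row.mk (nat_lit 16968) (nat_lit 18700) (nat_lit 3660) (nat_lit 25245) (nat_lit 60092) (nat_lit 0) (nat_lit 0),Row.mk (nat_lit 17136) (nat_lit 25058) (nat_lit 66683) (nat_lit 31603) (nat_lit 9632) (nat_lit 0) (nat_lit 0),Row.mk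 (nat_lit 17304) (nat_lit 24871) (nat_lit 66683) (nat_lit 31416) (nat_lit 25323) (nat_lit 0) (nat_lit 0),Row.mk (nat_lit 17472) (nat_lit 24684) (nat_lit 66683) (nat_lit 31229) (nat_lit 44921) (nat_lit 0) (nat_lit 0),Row.mk (nat_lit 17640) (nat_lit 24497) (nat_lit 66683) (nat_lit 31042) (nat_lit 69399) (nat_lit 0) (nat_lit 0),Row.mk (nat_lit 17808) (nat_lit 24310) (nat_lit 66683) (nat_lit 30855) (nat_lit 99971) (nat_lit 0) (nat_lit 0),Row.mk (nat_lit 17976) (nat_lit 24123) (nat_lit 66683) (nat_lit 30668) (nat_lit 138154) (nat_lit 0) (nat_lit 0),Row.mk (nat_lit 18144) (nat_lit 23936) (nat_lit 66683) (nat_lit 30481) (nat_lit 185844) (nat_lit 0) (nat_lit 0),Row.mk (nat_lit 18312) (nat_lit 23749) (nat_lit 66683) (nat_lit 30294) (nat_lit 245408) (nat_lit 0) (nat_lit 0),Row.mk (nat_lit 18480) (nat_lit 23562) (nat_lit 66683) (nat_lit 30107) (nat_lit 319802) (nat_lit 0) (nat_lit 0),Row.mk (nat_lit 18648) (nat_lit 23375) (nat_lit 66683) (nat_lit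 29920) (nat_lit 412718) (nat_lit 0) (nat_lit 0),Row.mk (nat_lit 18816) (nat_lit 23188) (nat_lit 66683) (nat_lit 29733) (nat_lit 528767) (nat_lit 0) (nat_lit 0),Row.mk (nat_lit 18984) (nat_lit 23001) (nat_lit 66683) (nat_lit 29546) (nat_lit 673711) (nat_lit 0) (nat_lit 0),Row.mk (nat_lit 19152) (nat_lit 22814) (nat_lit 66683) (nat_lit 29359) (nat_lit 854742) (nat_lit 0) (nat_lit 0),Row.mk (nat_lit 19320) (nat_lit 22627) (nat_lit 66683) (nat_lit 29172) (nat_lit 1080845) (nat_lit 0) (nat_lit 0),Row.mk (nat_lit 19488) (nat_lit 22440) (nat_lit 66683) (nat_lit 28985) (nat_lit 1363242) (nat_lit 0) (nat_lit 0),Row.mk (nat_lit 19656) (nat_lit 22253) (nat_lit 66683) (nat_lit 28798) (nat_lit 1715950) (nat_lit 0) (nat_lit 0),Row.mk (nat_lit 19824) (nat_lit 22066) (nat_lit 66683) (nat_lit 28611) (nat_lit 2156473) (nat_lit 0) (nat_lit 0),Row.mk (nat_lit 19992) (nat_lit 21879) (nat_lit 66683) (nat_lit 28424) (nat_lit 2706676) (nat_lit 0) (nat_lit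 0),Row.mk (nat_lit 20160) (nat_lit 21692) (nat_lit 66683) (nat_lit 28237) (nat_lit 3393866) (nat_lit 0) (nat_lit 0),Row.mk (nat_lit 20328) (nat_lit 21505) (nat_lit 66683) (nat_lit 28050) (nat_lit 4252150) (nat_lit 0) (nat_lit 0),Row.mk (nat_lit 20496) (nat_lit 21318) (nat_lit 66683) (nat_lit 27863) (nat_lit 5324126) (nat_lit 0) (nat_lit 0),Row.mk (nat_lit 20664) (nat_lit 21131) (nat_lit 66683) (nat_lit 27676) (nat_lit 6662998) (nat_lit 0) (nat_lit 0),Row.mk (nat_lit 20832) (nat_lit 20944) (nat_lit 66683) (nat_lit 27489) (nat_lit 8335217) (nat_lit 0) (nat_lit 0),Row.mk (nat_lit 21000) (nat_lit 32912) (nat_lit 13292) (nat_lit 62084) (nat_lit 10463876) (nat_lit 0) (nat_lit 0),Row.mk (nat_lit 21168) (nat_lit 32912) (nat_lit 13292) (nat_lit 62084) (nat_lit 13072438) (nat_lit 0) (nat_lit 0),Row.mk (nat_lit 21336) (nat_lit 32912) (nat_lit 13292) (nat_lit 62084) (nat_lit 16330469) (nat_lit 0) (nat_lit 0),Row.mk (nat_lit 21504) (nat_lit 32912)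 (nat_lit 13292) (nat_lit 62084) (nat_lit 20399672) (nat_lit 0) (nat_lit 0),Row.mk (nat_lit 21672) (nat_lit 32912) (nat_lit 13292) (nat_lit 62084) (nat_lit 25482008) (nat_lit 0) (nat_lit 0),Row.mk (nat_lit 21840) (nat_lit 32912) (nat_lit 13292) (nat_lit 62084) (nat_lit 31829723) (nat_lit 0) (nat_lit 0),Row.mk (nat_lit 22008) (nat_lit 32912) (nat_lit 13292) (nat_lit 62084) (nat_lit 39757866) (nat_lit 0) (nat_lit 0),Row.mk (nat_lit 22176) (nat_lit 32912) (nat_lit 13292) (nat_lit 62084) (nat_lit 49659925) (nat_lit 0) (nat_lit 0),Row.mk (nat_lit 22344) (nat_lit 32912) (nat_lit 13292) (nat_lit 62084) (nat_lit 62027358) (nat_lit 0) (nat_lit 0),Row.mk (nat_lit 22512) (nat_lit 32912) (nat_lit 13292) (nat_lit 62084) (nat_lit 77473984) (nat_lit 0) (nat_lit 0),Row.mk (nat_lit 22680) (nat_lit 32912) (nat_lit 13292) (nat_lit 62084) (nat_lit 96766447) (nat_lit 0) (nat_lit 0),Row.mk (nat_lit 22848) (nat_lit 32912) (nat_lit 13292) (nat_lit 62084)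 (nat_lit 120862267) (nat_lit 0) (nat_lit 0),Row.mk (nat_lit 23016) (nat_lit 32912) (nat_lit 13292) (nat_lit 62084) (nat_lit 150957366) (nat_lit 0) (nat_lit 0),Row.mk (nat_lit 23184) (nat_lit 32912) (nat_lit 13292) (nat_lit 62084) (nat_lit 188545418) (nat_lit 0) (nat_lit 0),Row.mk (nat_lit 23352) (nat_lit 32912) (nat_lit 13292) (nat_lit 62084) (nat_lit 235491988) (nat_lit 0) (nat_lit 0),Row.mk (nat_lit 23520) (nat_lit 32912) (nat_lit 13292) (nat_lit 62084) (nat_lit 294127122) (nat_lit 0) (nat_lit 0),Row.mk (nat_lit 23688) (nat_lit 32912) (nat_lit 13292) (nat_lit 62084) (nat_lit 367360990) (nat_lit 0) (nat_lit 0),Row.mk (nat_lit 23856) (nat_lit 32912) (nat_lit 13292) (nat_lit 62084) (nat_lit 458828324) (nat_lit 0) (nat_lit 0),Row.mk (nat_lit 24024) (nat_lit 32912) (nat_lit 13292) (nat_lit 62084) (nat_lit 573068818) (nat_lit 0) (nat_lit 0),Row.mk (nat_lit 24192) (nat_lit 32912) (nat_lit 13292) (nat_lit 62084) (nat_lit 715752439) (nat_lit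 0) (nat_lit 0),Row.mk (nat_lit 24360) (nat_lit 32912) (nat_lit 13292) (nat_lit 62084) (nat_lit 893960839) (nat_lit 0) (nat_lit 0),Row.mk (nat_lit 24528) (nat_lit 32912) (nat_lit 13292) (nat_lit 62084) (nat_lit 1116538832) (nat_lit 0) (nat_lit 0),Row.mk (nat_lit 24696) (nat_lit 32912) (nat_lit 13292) (nat_lit 62084) (nat_lit 1394533376) (nat_lit 0) (nat_lit 0),Row.mk (nat_lit 24864) (nat_lit 32912) (nat_lit 13292) (nat_lit 62084) (nat_lit 1741741855) (nat_lit 0) (nat_lit 0),Row.mk (nat_lit 25032) (nat_lit 32912) (nat_lit 13292) (nat_lit 62084) (nat_lit 2175396870) (nat_lit 0) (nat_lit 0),Row.mk (nat_lit 25200) (nat_lit 32912) (nat_lit 13292) (nat_lit 62084) (nat_lit 2717021521) (nat_lit 0) (nat_lit 0),Row.mk (nat_lit 25368) (nat_lit 32912) (nat_lit 13292) (nat_lit 62084) (nat_lit 3393497645) (nat_lit 0) (nat_lit 0),Row.mk (nat_lit 25536) (nat_lit 32912) (nat_lit 13292) (nat_lit 62084) (nat_lit 4238400004) (nat_lit 0) (nat_lit 0),Row.mk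 (nat_lit 25704) (nat_lit 32912) (nat_lit 13292) (nat_lit 62084) (nat_lit 5293662668) (nat_lit 0) (nat_lit 0),Row.mk (nat_lit 25872) (nat_lit 32912) (nat_lit 13292) (nat_lit 62084) (nat_lit 6611660279) (nat_lit 0) (nat_lit 0)],
[Row.mk (nat_lit 13944) (nat_lit 8976) (nat_lit 4627) (nat_lit 9724) (nat_lit 12897) (nat_lit 0) (nat_lit 0),Row.mk (nat_lit 14112) (nat_lit 9537) (nat_lit 5779) (nat_lit 10285) (nat_lit 11974) (nat_lit 0) (nat_lit 0),Row.mk (nat_lit 14280) (nat_lit 10098) (nat_lit 7219) (nat_lit 10846) (nat_lit 10822) (nat_lit 0) (nat_lit 0),Row.mk (nat_lit 14448) (nat_lit 10659) (nat_lit 9016) (nat_lit 11407) (nat_lit 9383) (nat_lit 0) (nat_lit 0),Row.mk (nat_lit 14616) (nat_lit 11220) (nat_lit 11261) (nat_lit 11968) (nat_lit 7586) (nat_lit 0) (nat_lit 0),Row.mk (nat_lit 14784) (nat_lit 11781) (nat_lit 14065) (nat_lit 12716) (nat_lit 5341) (nat_lit 0) (nat_lit 0),Row.mk (nat_lit 14952) (nat_lit 12529) (nat_lit 17566) (nat_lit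 13464) (nat_lit 2537) (nat_lit 0) (nat_lit 0),Row.mk (nat_lit 15120) (nat_lit 12342) (nat_lit 1204) (nat_lit 13277) (nat_lit 19771) (nat_lit 0) (nat_lit 0),Row.mk (nat_lit 15288) (nat_lit 13090) (nat_lit 6667) (nat_lit 14025) (nat_lit 15398) (nat_lit 0) (nat_lit 0),Row.mk (nat_lit 15456) (nat_lit 13838) (nat_lit 13489) (nat_lit 15147) (nat_lit 9935) (nat_lit 0) (nat_lit 0),Row.mk (nat_lit 15624) (nat_lit 14960) (nat_lit 22011) (nat_lit 16456) (nat_lit 3112) (nat_lit 0) (nat_lit 0),Row.mk (nat_lit 15792) (nat_lit 14773) (nat_lit 6755) (nat_lit 16269) (nat_lit 20490) (nat_lit 0) (nat_lit 0),Row.mk (nat_lit 15960) (nat_lit 16082) (nat_lit 20048) (nat_lit 17765) (nat_lit 9847) (nat_lit 0) (nat_lit 0),Row.mk (nat_lit 16128) (nat_lit 15895) (nat_lit 4303) (nat_lit 17578) (nat_lit 28901) (nat_lit 0) (nat_lit 0),Row.mk (nat_lit 16296) (nat_lit 17391) (nat_lit 25039) (nat_lit 19635) (nat_lit 12299) (nat_lit 0) (nat_lit 0),Row.mk (nat_lit 16464)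 (nat_lit 17204) (nat_lit 10537) (nat_lit 19448) (nat_lit 31963) (nat_lit 0) (nat_lit 0),Row.mk (nat_lit 16632) (nat_lit 19261) (nat_lit 42885) (nat_lit 25806) (nat_lit 6064) (nat_lit 0) (nat_lit 0),Row.mk (nat_lit 16800) (nat_lit 19074) (nat_lit 32826) (nat_lit 25619) (nat_lit 24177) (nat_lit 0) (nat_lit 0),Row.mk (nat_lit 16968) (nat_lit 18887) (nat_lit 20262) (nat_lit 25432) (nat_lit 46799) (nat_lit 0) (nat_lit 0),Row.mk (nat_lit 17136) (nat_lit 18700) (nat_lit 4571) (nat_lit 25245) (nat_lit 75054) (nat_lit 0) (nat_lit 0),Row.mk (nat_lit 17304) (nat_lit 25058) (nat_lit 83286) (nat_lit 31603) (nat_lit 12030) (nat_lit 0) (nat_lit 0),Row.mk (nat_lit 17472) (nat_lit 24871) (nat_lit 83286) (nat_lit 31416) (nat_lit 31628) (nat_lit 0) (nat_lit 0),Row.mk (nat_lit 17640) (nat_lit 24684) (nat_lit 83286) (nat_lit 31229) (nat_lit 56106) (nat_lit 0) (nat_lit 0),Row.mk (nat_lit 17808) (nat_lit 24497) (nat_lit 83286) (nat_lit 31042) (nat_lit 86678)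 (nat_lit 0) (nat_lit 0),Row.mk (nat_lit 17976) (nat_lit 24310) (nat_lit 83286) (nat_lit 30855) (nat_lit 124861) (nat_lit 0) (nat_lit 0),Row.mk (nat_lit 18144) (nat_lit 24123) (nat_lit 83286) (nat_lit 30668) (nat_lit 172551) (nat_lit 0) (nat_lit 0),Row.mk (nat_lit 18312) (nat_lit 23936) (nat_lit 83286) (nat_lit 30481) (nat_lit 232115) (nat_lit 0) (nat_lit 0),Row.mk (nat_lit 18480) (nat_lit 23749) (nat_lit 83286) (nat_lit 30294) (nat_lit 306509) (nat_lit 0) (nat_lit 0),Row.mk (nat_lit 18648) (nat_lit 23562) (nat_lit 83286) (nat_lit 30107) (nat_lit 399425) (nat_lit 0) (nat_lit 0),Row.mk (nat_lit 18816) (nat_lit 23375) (nat_lit 83286) (nat_lit 29920) (nat_lit 515474) (nat_lit 0) (nat_lit 0),Row.mk (nat_lit 18984) (nat_lit 23188) (nat_lit 83286) (nat_lit 29733) (nat_lit 660418) (nat_lit 0) (nat_lit 0),Row.mk (nat_lit 19152) (nat_lit 23001) (nat_lit 83286) (nat_lit 29546) (nat_lit 841449) (nat_lit 0) (nat_lit 0),Row.mk (nat_lit 19320) (nat_lit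 22814) (nat_lit 83286) (nat_lit 29359) (nat_lit 1067552) (nat_lit 0) (nat_lit 0),Row.mk (nat_lit 19488) (nat_lit 22627) (nat_lit 83286) (nat_lit 29172) (nat_lit 1349949) (nat_lit 0) (nat_lit 0),Row.mk (nat_lit 19656) (nat_lit 22440) (nat_lit 83286) (nat_lit 28985) (nat_lit 1702657) (nat_lit 0) (nat_lit 0),Row.mk (nat_lit 19824) (nat_lit 22253) (nat_lit 83286) (nat_lit 28798) (nat_lit 2143180) (nat_lit 0) (nat_lit 0),Row.mk (nat_lit 19992) (nat_lit 22066) (nat_lit 83286) (nat_lit 28611) (nat_lit 2693383) (nat_lit 0) (nat_lit 0),Row.mk (nat_lit 20160) (nat_lit 21879) (nat_lit 83286) (nat_lit 28424) (nat_lit 3380573) (nat_lit 0) (nat_lit 0),Row.mk (nat_lit 20328) (nat_lit 21692) (nat_lit 83286) (nat_lit 28237) (nat_lit 4238857) (nat_lit 0) (nat_lit 0),Row.mk (nat_lit 20496) (nat_lit 21505) (nat_lit 83286) (nat_lit 28050) (nat_lit 5310833) (nat_lit 0) (nat_lit 0),Row.mk (nat_lit 20664) (nat_lit 21318) (nat_lit 83286) (nat_lit 27863) (nat_lit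 6649705) (nat_lit 0) (nat_lit 0),Row.mk (nat_lit 20832) (nat_lit 21131) (nat_lit 83286) (nat_lit 27676) (nat_lit 8321924) (nat_lit 0) (nat_lit 0),Row.mk (nat_lit 21000) (nat_lit 20944) (nat_lit 83286) (nat_lit 27489) (nat_lit 10410485) (nat_lit 0) (nat_lit 0),Row.mk (nat_lit 21168) (nat_lit 32912) (nat_lit 16602) (nat_lit 62084) (nat_lit 13069128) (nat_lit 0) (nat_lit 0),Row.mk (nat_lit 21336) (nat_lit 32912) (nat_lit 16602) (nat_lit 62084) (nat_lit 16327160) (nat_lit 0) (nat_lit 0),Row.mk (nat_lit 21504) (nat_lit 32912) (nat_lit 16602) (nat_lit 62084) (nat_lit 20396362) (nat_lit 0) (nat_lit 0),Row.mk (nat_lit 21672) (nat_lit 32912) (nat_lit 16602) (nat_lit 62084) (nat_lit 25478698) (nat_lit 0) (nat_lit 0),Row.mk (nat_lit 21840) (nat_lit 32912) (nat_lit 16602) (nat_lit 62084) (nat_lit 31826413) (nat_lit 0) (nat_lit 0),Row.mk (nat_lit 22008) (nat_lit 32912) (nat_lit 16602) (nat_lit 62084) (nat_lit 39754556) (nat_lit 0) (nat_lit 0),Row.mk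 (nat_lit 22176) (nat_lit 32912) (nat_lit 16602) (nat_lit 62084) (nat_lit 49656615) (nat_lit 0) (nat_lit 0),Row.mk (nat_lit 22344) (nat_lit 32912) (nat_lit 16602) (nat_lit 62084) (nat_lit 62024049) (nat_lit 0) (nat_lit 0),Row.mk (nat_lit 22512) (nat_lit 32912) (nat_lit 16602) (nat_lit 62084) (nat_lit 77470674) (nat_lit 0) (nat_lit 0),Row.mk (nat_lit 22680) (nat_lit 32912) (nat_lit 16602) (nat_lit 62084) (nat_lit 96763137) (nat_lit 0) (nat_lit 0),Row.mk (nat_lit 22848) (nat_lit 32912) (nat_lit 16602) (nat_lit 62084) (nat_lit 120858958) (nat_lit 0) (nat_lit 0),Row.mk (nat_lit 23016) (nat_lit 32912) (nat_lit 16602) (nat_lit 62084) (nat_lit 150954056) (nat_lit 0) (nat_lit 0),Row.mk (nat_lit 23184) (nat_lit 32912) (nat_lit 16602) (nat_lit 62084) (nat_lit 188542108) (nat_lit 0) (nat_lit 0),Row.mk (nat_lit 23352) (nat_lit 32912) (nat_lit 16602) (nat_lit 62084) (nat_lit 235488679) (nat_lit 0) (nat_lit 0),Row.mk (nat_lit 23520) (nat_lit 32912)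 (nat_lit 16602) (nat_lit 62084) (nat_lit 294123813) (nat_lit 0) (nat_lit 0),Row.mk (nat_lit 23688) (nat_lit 32912) (nat_lit 16602) (nat_lit 62084) (nat_lit 367357681) (nat_lit 0) (nat_lit 0),Row.mk (nat_lit 23856) (nat_lit 32912) (nat_lit 16602) (nat_lit 62084) (nat_lit 458825015) (nat_lit 0) (nat_lit 0),Row.mk (nat_lit 24024) (nat_lit 32912) (nat_lit 16602) (nat_lit 62084) (nat_lit 573065508) (nat_lit 0) (nat_lit 0),Row.mk (nat_lit 24192) (nat_lit 32912) (nat_lit 16602) (nat_lit 62084) (nat_lit 715749129) (nat_lit 0) (nat_lit 0),Row.mk (nat_lit 24360) (nat_lit 32912) (nat_lit 16602) (nat_lit 62084) (nat_lit 893957530) (nat_lit 0) (nat_lit 0),Row.mk (nat_lit 24528) (nat_lit 32912) (nat_lit 16602) (nat_lit 62084) (nat_lit 1116535523) (nat_lit 0) (nat_lit 0),Row.mk (nat_lit 24696) (nat_lit 32912) (nat_lit 16602) (nat_lit 62084) (nat_lit 1394530067) (nat_lit 0) (nat_lit 0),Row.mk (nat_lit 24864) (nat_lit 32912) (nat_lit 16602) (nat_lit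 62084) (nat_lit 1741738546) (nat_lit 0) (nat_lit 0),Row.mk (nat_lit 25032) (nat_lit 32912) (nat_lit 16602) (nat_lit 62084) (nat_lit 2175393560) (nat_lit 0) (nat_lit 0),Row.mk (nat_lit 25200) (nat_lit 32912) (nat_lit 16602) (nat_lit 62084) (nat_lit 2717018211) (nat_lit 0) (nat_lit 0),Row.mk (nat_lit 25368) (nat_lit 32912) (nat_lit 16602) (nat_lit 62084) (nat_lit 3393494335) (nat_lit 0) (nat_lit 0),Row.mk (nat_lit 25536) (nat_lit 32912) (nat_lit 16602) (nat_lit 62084) (nat_lit 4238396694) (nat_lit 0) (nat_lit 0),Row.mk (nat_lit 25704) (nat_lit 32912) (nat_lit 16602) (nat_lit 62084) (nat_lit 5293659358) (nat_lit 0) (nat_lit 0),Row.mk (nat_lit 25872) (nat_lit 32912) (nat_lit 16602) (nat_lit 62084) (nat_lit 6611656969) (nat_lit 0) (nat_lit 0),Row.mk (nat_lit 26040) (nat_lit 32912) (nat_lit 16602) (nat_lit 62084) (nat_lit 8257804190) (nat_lit 0) (nat_lit 0)],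
[Row.mk (nat_lit 13440) (nat_lit 6732) (nat_lit 2375) (nat_lit 7480) (nat_lit 18834) (nat_lit 0) (nat_lit 0),Row.mk (nat_lit 13608) (nat_lit 7293) (nat_lit 2966) (nat_lit 8041) (nat_lit 18361) (nat_lit 0) (nat_lit 0),Row.mk (nat_lit 13776) (nat_lit 7854) (nat_lit 3705) (nat_lit 8602) (nat_lit 17769) (nat_lit 0) (nat_lit 0),Row.mk (nat_lit 13944) (nat_lit 8415) (nat_lit 4627) (nat_lit 9163) (nat_lit 17031) (nat_lit 0) (nat_lit 0),Row.mk (nat_lit 14112) (nat_lit 8976) (nat_lit 5779) (nat_lit 9724) (nat_lit 16108) (nat_lit 0) (nat_lit 0),Row.mk (nat_lit 14280) (nat_lit 9537) (nat_lit 7219) (nat_lit 10285) (nat_lit 14956) (nat_lit 0) (nat_lit 0),Row.mk (nat_lit 14448) (nat_lit 10098) (nat_lit 9016) (nat_lit 10846) (nat_lit 13517) (nat_lit 0) (nat_lit 0),Row.mk (nat_lit 14616) (nat_lit 10659) (nat_lit 11261) (nat_lit 11407) (nat_lit 11719) (nat_lit 0) (nat_lit 0),Row.mk (nat_lit 14784) (nat_lit 11220) (nat_lit 14065) (nat_lit 11968) (nat_lit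 9475) (nat_lit 0) (nat_lit 0),Row.mk (nat_lit 14952) (nat_lit 11781) (nat_lit 17566) (nat_lit 12716) (nat_lit 6671) (nat_lit 0) (nat_lit 0),Row.mk (nat_lit 15120) (nat_lit 12529) (nat_lit 21940) (nat_lit 13464) (nat_lit 3169) (nat_lit 0) (nat_lit 0),Row.mk (nat_lit 15288) (nat_lit 12342) (nat_lit 1504) (nat_lit 13277) (nat_lit 24694) (nat_lit 0) (nat_lit 0),Row.mk (nat_lit 15456) (nat_lit 13090) (nat_lit 8326) (nat_lit 14025) (nat_lit 19232) (nat_lit 0) (nat_lit 0),Row.mk (nat_lit 15624) (nat_lit 13838) (nat_lit 16848) (nat_lit 15147) (nat_lit 12409) (nat_lit 0) (nat_lit 0),Row.mk (nat_lit 15792) (nat_lit 14960) (nat_lit 27491) (nat_lit 16456) (nat_lit 3887) (nat_lit 0) (nat_lit 0),Row.mk (nat_lit 15960) (nat_lit 14773) (nat_lit 8437) (nat_lit 16269) (nat_lit 25592) (nat_lit 0) (nat_lit 0),Row.mk (nat_lit 16128) (nat_lit 16082) (nat_lit 25039) (nat_lit 17765) (nat_lit 12299) (nat_lit 0) (nat_lit 0),Row.mk (nat_lit 16296) (nat_lit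 15895) (nat_lit 5375) (nat_lit 17578) (nat_lit 36097) (nat_lit 0) (nat_lit 0),Row.mk (nat_lit 16464) (nat_lit 17391) (nat_lit 31274) (nat_lit 19635) (nat_lit 15361) (nat_lit 0) (nat_lit 0),Row.mk (nat_lit 16632) (nat_lit 17204) (nat_lit 13161) (nat_lit 19448) (nat_lit 39922) (nat_lit 0) (nat_lit 0),Row.mk (nat_lit 16800) (nat_lit 19261) (nat_lit 53562) (nat_lit 25806) (nat_lit 7574) (nat_lit 0) (nat_lit 0),Row.mk (nat_lit 16968) (nat_lit 19074) (nat_lit 40999) (nat_lit 25619) (nat_lit 30196) (nat_lit 0) (nat_lit 0),Row.mk (nat_lit 17136) (nat_lit 18887) (nat_lit 25307) (nat_lit 25432) (nat_lit 58451) (nat_lit 0) (nat_lit 0),Row.mk (nat_lit 17304) (nat_lit 18700) (nat_lit 5709) (nat_lit 25245) (nat_lit 93740) (nat_lit 0) (nat_lit 0),Row.mk (nat_lit 17472) (nat_lit 25058) (nat_lit 104022) (nat_lit 31603) (nat_lit 15026) (nat_lit 0) (nat_lit 0),Row.mk (nat_lit 17640) (nat_lit 24871) (nat_lit 104022) (nat_lit 31416) (nat_lit 39503) (nat_lit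 0) (nat_lit 0),Row.mk (nat_lit 17808) (nat_lit 24684) (nat_lit 104022) (nat_lit 31229) (nat_lit 70075) (nat_lit 0) (nat_lit 0),Row.mk (nat_lit 17976) (nat_lit 24497) (nat_lit 104022) (nat_lit 31042) (nat_lit 108258) (nat_lit 0) (nat_lit 0),Row.mk (nat_lit 18144) (nat_lit 24310) (nat_lit 104022) (nat_lit 30855) (nat_lit 155948) (nat_lit 0) (nat_lit 0),Row.mk (nat_lit 18312) (nat_lit 24123) (nat_lit 104022) (nat_lit 30668) (nat_lit 215512) (nat_lit 0) (nat_lit 0),Row.mk (nat_lit 18480) (nat_lit 23936) (nat_lit 104022) (nat_lit 30481) (nat_lit 289906) (nat_lit 0) (nat_lit 0),Row.mk (nat_lit 18648) (nat_lit 23749) (nat_lit 104022) (nat_lit 30294) (nat_lit 382822) (nat_lit 0) (nat_lit 0),Row.mk (nat_lit 18816) (nat_lit 23562) (nat_lit 104022) (nat_lit 30107) (nat_lit 498872) (nat_lit 0) (nat_lit 0),Row.mk (nat_lit 18984) (nat_lit 23375) (nat_lit 104022) (nat_lit 29920) (nat_lit 643815) (nat_lit 0) (nat_lit 0),Row.mk (nat_lit 19152) (nat_lit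 23188) (nat_lit 104022) (nat_lit 29733) (nat_lit 824846) (nat_lit 0) (nat_lit 0),Row.mk (nat_lit 19320) (nat_lit 23001) (nat_lit 104022) (nat_lit 29546) (nat_lit 1050949) (nat_lit 0) (nat_lit 0),Row.mk (nat_lit 19488) (nat_lit 22814) (nat_lit 104022) (nat_lit 29359) (nat_lit 1333347) (nat_lit 0) (nat_lit 0),Row.mk (nat_lit 19656) (nat_lit 22627) (nat_lit 104022) (nat_lit 29172) (nat_lit 1686054) (nat_lit 0) (nat_lit 0),Row.mk (nat_lit 19824) (nat_lit 22440) (nat_lit 104022) (nat_lit 28985) (nat_lit 2126578) (nat_lit 0) (nat_lit 0),Row.mk (nat_lit 19992) (nat_lit 22253) (nat_lit 104022) (nat_lit 28798) (nat_lit 2676780) (nat_lit 0) (nat_lit 0),Row.mk (nat_lit 20160) (nat_lit 22066) (nat_lit 104022) (nat_lit 28611) (nat_lit 3363971) (nat_lit 0) (nat_lit 0),Row.mk (nat_lit 20328) (nat_lit 21879) (nat_lit 104022) (nat_lit 28424) (nat_lit 4222254) (nat_lit 0) (nat_lit 0),Row.mk (nat_lit 20496) (nat_lit 21692) (nat_lit 104022) (nat_lit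 28237) (nat_lit 5294230) (nat_lit 0) (nat_lit 0),Row.mk (nat_lit 20664) (nat_lit 21505) (nat_lit 104022) (nat_lit 28050) (nat_lit 6633102) (nat_lit 0) (nat_lit 0),Row.mk (nat_lit 20832) (nat_lit 21318) (nat_lit 104022) (nat_lit 27863) (nat_lit 8305321) (nat_lit 0) (nat_lit 0),Row.mk (nat_lit 21000) (nat_lit 21131) (nat_lit 104022) (nat_lit 27676) (nat_lit 10393882) (nat_lit 0) (nat_lit 0),Row.mk (nat_lit 21168) (nat_lit 20944) (nat_lit 104022) (nat_lit 27489) (nat_lit 13002445) (nat_lit 0) (nat_lit 0),Row.mk (nat_lit 21336) (nat_lit 32912) (nat_lit 20736) (nat_lit 62084) (nat_lit 16323026) (nat_lit 0) (nat_lit 0),Row.mk (nat_lit 21504) (nat_lit 32912) (nat_lit 20736) (nat_lit 62084) (nat_lit 20392229) (nat_lit 0) (nat_lit 0),Row.mk (nat_lit 21672) (nat_lit 32912) (nat_lit 20736) (nat_lit 62084) (nat_lit 25474565) (nat_lit 0) (nat_lit 0),Row.mk (nat_lit 21840) (nat_lit 32912) (nat_lit 20736) (nat_lit 62084) (nat_lit 31822280) (nat_lit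 0) (nat_lit 0),Row.mk (nat_lit 22008) (nat_lit 32912) (nat_lit 20736) (nat_lit 62084) (nat_lit 39750423) (nat_lit 0) (nat_lit 0),Row.mk (nat_lit 22176) (nat_lit 32912) (nat_lit 20736) (nat_lit 62084) (nat_lit 49652482) (nat_lit 0) (nat_lit 0),Row.mk (nat_lit 22344) (nat_lit 32912) (nat_lit 20736) (nat_lit 62084) (nat_lit 62019915) (nat_lit 0) (nat_lit 0),Row.mk (nat_lit 22512) (nat_lit 32912) (nat_lit 20736) (nat_lit 62084) (nat_lit 77466541) (nat_lit 0) (nat_lit 0),Row.mk (nat_lit 22680) (nat_lit 32912) (nat_lit 20736) (nat_lit 62084) (nat_lit 96759003) (nat_lit 0) (nat_lit 0),Row.mk (nat_lit 22848) (nat_lit 32912) (nat_lit 20736) (nat_lit 62084) (nat_lit 120854824) (nat_lit 0) (nat_lit 0),Row.mk (nat_lit 23016) (nat_lit 32912) (nat_lit 20736) (nat_lit 62084) (nat_lit 150949923) (nat_lit 0) (nat_lit 0),Row.mk (nat_lit 23184) (nat_lit 32912) (nat_lit 20736) (nat_lit 62084) (nat_lit 188537975) (nat_lit 0) (nat_lit 0),Row.mk (nat_lit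 23352) (nat_lit 32912) (nat_lit 20736) (nat_lit 62084) (nat_lit 235484545) (nat_lit 0) (nat_lit 0),Row.mk (nat_lit 23520) (nat_lit 32912) (nat_lit 20736) (nat_lit 62084) (nat_lit 294119679) (nat_lit 0) (nat_lit 0),Row.mk (nat_lit 23688) (nat_lit 32912) (nat_lit 20736) (nat_lit 62084) (nat_lit 367353547) (nat_lit 0) (nat_lit 0),Row.mk (nat_lit 23856) (nat_lit 32912) (nat_lit 20736) (nat_lit 62084) (nat_lit 458820881) (nat_lit 0) (nat_lit 0),Row.mk (nat_lit 24024) (nat_lit 32912) (nat_lit 20736) (nat_lit 62084) (nat_lit 573061375) (nat_lit 0) (nat_lit 0),Row.mk (nat_lit 24192) (nat_lit 32912) (nat_lit 20736) (nat_lit 62084) (nat_lit 715744996) (nat_lit 0) (nat_lit 0),Row.mk (nat_lit 24360) (nat_lit 32912) (nat_lit 20736) (nat_lit 62084) (nat_lit 893953396) (nat_lit 0) (nat_lit 0),Row.mk (nat_lit 24528) (nat_lit 32912) (nat_lit 20736) (nat_lit 62084) (nat_lit 1116531389) (nat_lit 0) (nat_lit 0),Row.mk (nat_lit 24696) (nat_lit 32912)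 (nat_lit 20736) (nat_lit 62084) (nat_lit 1394525933) (nat_lit 0) (nat_lit 0),Row.mk (nat_lit 24864) (nat_lit 32912) (nat_lit 20736) (nat_lit 62084) (nat_lit 1741734412) (nat_lit 0) (nat_lit 0),Row.mk (nat_lit 25032) (nat_lit 32912) (nat_lit 20736) (nat_lit 62084) (nat_lit 2175389426) (nat_lit 0) (nat_lit 0),Row.mk (nat_lit 25200) (nat_lit 32912) (nat_lit 20736) (nat_lit 62084) (nat_lit 2717014078) (nat_lit 0) (nat_lit 0),Row.mk (nat_lit 25368) (nat_lit 32912) (nat_lit 20736) (nat_lit 62084) (nat_lit 3393490201) (nat_lit 0) (nat_lit 0),Row.mk (nat_lit 25536) (nat_lit 32912) (nat_lit 20736) (nat_lit 62084) (nat_lit 4238392560) (nat_lit 0) (nat_lit 0),Row.mk (nat_lit 25704) (nat_lit 32912) (nat_lit 20736) (nat_lit 62084) (nat_lit 5293655225) (nat_lit 0) (nat_lit 0),Row.mk (nat_lit 25872) (nat_lit 32912) (nat_lit 20736) (nat_lit 62084) (nat_lit 6611652836) (nat_lit 0) (nat_lit 0),Row.mk (nat_lit 26040) (nat_lit 32912) (nat_lit 20736)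 (nat_lit 62084) (nat_lit 8257800056) (nat_lit 0) (nat_lit 0)],
[Row.mk (nat_lit 13104) (nat_lit 5049) (nat_lit 1522) (nat_lit 5797) (nat_lit 24679) (nat_lit 0) (nat_lit 0),Row.mk (nat_lit 13272) (nat_lit 5610) (nat_lit 1901) (nat_lit 6358) (nat_lit 24376) (nat_lit 0) (nat_lit 0),Row.mk (nat_lit 13440) (nat_lit 6171) (nat_lit 2375) (nat_lit 6919) (nat_lit 23997) (nat_lit 0) (nat_lit 0),Row.mk (nat_lit 13608) (nat_lit 6732) (nat_lit 2966) (nat_lit 7480) (nat_lit 23523) (nat_lit 0) (nat_lit 0),Row.mk (nat_lit 13776) (nat_lit 7293) (nat_lit 3705) (nat_lit 8041) (nat_lit 22932) (nat_lit 0) (nat_lit 0),Row.mk (nat_lit 13944) (nat_lit 7854) (nat_lit 4627) (nat_lit 8602) (nat_lit 22193) (nat_lit 0) (nat_lit 0),Row.mk (nat_lit 14112) (nat_lit 8415) (nat_lit 5779) (nat_lit 9163) (nat_lit 21271) (nat_lit 0) (nat_lit 0),Row.mk (nat_lit 14280) (nat_lit 8976) (nat_lit 7219) (nat_lit 9724) (nat_lit 20119) (nat_lit 0) (nat_lit 0),Row.mk (nat_lit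 14448) (nat_lit 9537) (nat_lit 9016) (nat_lit 10285) (nat_lit 18680) (nat_lit 0) (nat_lit 0),Row.mk (nat_lit 14616) (nat_lit 10098) (nat_lit 11261) (nat_lit 10846) (nat_lit 16882) (nat_lit 0) (nat_lit 0),Row.mk (nat_lit 14784) (nat_lit 10659) (nat_lit 14065) (nat_lit 11407) (nat_lit 14637) (nat_lit 0) (nat_lit 0),Row.mk (nat_lit 14952) (nat_lit 11220) (nat_lit 17566) (nat_lit 11968) (nat_lit 11834) (nat_lit 0) (nat_lit 0),Row.mk (nat_lit 15120) (nat_lit 11781) (nat_lit 21940) (nat_lit 12716) (nat_lit 8332) (nat_lit 0) (nat_lit 0),Row.mk (nat_lit 15288) (nat_lit 12529) (nat_lit 27403) (nat_lit 13464) (nat_lit 3958) (nat_lit 0) (nat_lit 0),Row.mk (nat_lit 15456) (nat_lit 12342) (nat_lit 1878) (nat_lit 13277) (nat_lit 30843) (nat_lit 0) (nat_lit 0),Row.mk (nat_lit 15624) (nat_lit 13090) (nat_lit 10400) (nat_lit 14025) (nat_lit 24020) (nat_lit 0) (nat_lit 0),Row.mk (nat_lit 15792) (nat_lit 13838) (nat_lit 21043) (nat_lit 15147) (nat_lit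 15498) (nat_lit 0) (nat_lit 0),Row.mk (nat_lit 15960) (nat_lit 14960) (nat_lit 34336) (nat_lit 16456) (nat_lit 4855) (nat_lit 0) (nat_lit 0),Row.mk (nat_lit 16128) (nat_lit 14773) (nat_lit 10537) (nat_lit 16269) (nat_lit 31963) (nat_lit 0) (nat_lit 0),Row.mk (nat_lit 16296) (nat_lit 16082) (nat_lit 31274) (nat_lit 17765) (nat_lit 15361) (nat_lit 0) (nat_lit 0),Row.mk (nat_lit 16464) (nat_lit 15895) (nat_lit 6713) (nat_lit 17578) (nat_lit 45084) (nat_lit 0) (nat_lit 0),Row.mk (nat_lit 16632) (nat_lit 17391) (nat_lit 39060) (nat_lit 19635) (nat_lit 19185) (nat_lit 0) (nat_lit 0),Row.mk (nat_lit 16800) (nat_lit 17204) (nat_lit 16438) (nat_lit 19448) (nat_lit 49861) (nat_lit 0) (nat_lit 0),Row.mk (nat_lit 16968) (nat_lit 19261) (nat_lit 66898) (nat_lit 25806) (nat_lit 9460) (nat_lit 0) (nat_lit 0),Row.mk (nat_lit 17136) (nat_lit 19074) (nat_lit 51207) (nat_lit 25619) (nat_lit 37715) (nat_lit 0) (nat_lit 0),Row.mk (nat_lit 17304) (nat_lit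 18887) (nat_lit 31609) (nat_lit 25432) (nat_lit 73004) (nat_lit 0) (nat_lit 0),Row.mk (nat_lit 17472) (nat_lit 18700) (nat_lit 7131) (nat_lit 25245) (nat_lit 117080) (nat_lit 0) (nat_lit 0),Row.mk (nat_lit 17640) (nat_lit 25058) (nat_lit 129921) (nat_lit 31603) (nat_lit 18767) (nat_lit 0) (nat_lit 0),Row.mk (nat_lit 17808) (nat_lit 24871) (nat_lit 129921) (nat_lit 31416) (nat_lit 49339) (nat_lit 0) (nat_lit 0),Row.mk (nat_lit 17976) (nat_lit 24684) (nat_lit 129921) (nat_lit 31229) (nat_lit 87522) (nat_lit 0) (nat_lit 0),Row.mk (nat_lit 18144) (nat_lit 24497) (nat_lit 129921) (nat_lit 31042) (nat_lit 135212) (nat_lit 0) (nat_lit 0),Row.mk (nat_lit 18312) (nat_lit 24310) (nat_lit 129921) (nat_lit 30855) (nat_lit 194776) (nat_lit 0) (nat_lit 0),Row.mk (nat_lit 18480) (nat_lit 24123) (nat_lit 129921) (nat_lit 30668) (nat_lit 269170) (nat_lit 0) (nat_lit 0),Row.mk (nat_lit 18648) (nat_lit 23936) (nat_lit 129921) (nat_lit 30481) (nat_lit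 362086) (nat_lit 0) (nat_lit 0),Row.mk (nat_lit 18816) (nat_lit 23749) (nat_lit 129921) (nat_lit 30294) (nat_lit 478136) (nat_lit 0) (nat_lit 0),Row.mk (nat_lit 18984) (nat_lit 23562) (nat_lit 129921) (nat_lit 30107) (nat_lit 623079) (nat_lit 0) (nat_lit 0),Row.mk (nat_lit 19152) (nat_lit 23375) (nat_lit 129921) (nat_lit 29920) (nat_lit 804110) (nat_lit 0) (nat_lit 0),Row.mk (nat_lit 19320) (nat_lit 23188) (nat_lit 129921) (nat_lit 29733) (nat_lit 1030213) (nat_lit 0) (nat_lit 0),Row.mk (nat_lit 19488) (nat_lit 23001) (nat_lit 129921) (nat_lit 29546) (nat_lit 1312610) (nat_lit 0) (nat_lit 0),Row.mk (nat_lit 19656) (nat_lit 22814) (nat_lit 129921) (nat_lit 29359) (nat_lit 1665318) (nat_lit 0) (nat_lit 0),Row.mk (nat_lit 19824) (nat_lit 22627) (nat_lit 129921) (nat_lit 29172) (nat_lit 2105841) (nat_lit 0) (nat_lit 0),Row.mk (nat_lit 19992) (nat_lit 22440) (nat_lit 129921) (nat_lit 28985) (nat_lit 2656044) (nat_lit 0) (nat_lit 0),Row.mk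 (nat_lit 20160) (nat_lit 22253) (nat_lit 129921) (nat_lit 28798) (nat_lit 3343234) (nat_lit 0) (nat_lit 0),Row.mk (nat_lit 20328) (nat_lit 22066) (nat_lit 129921) (nat_lit 28611) (nat_lit 4201518) (nat_lit 0) (nat_lit 0),Row.mk (nat_lit 20496) (nat_lit 21879) (nat_lit 129921) (nat_lit 28424) (nat_lit 5273494) (nat_lit 0) (nat_lit 0),Row.mk (nat_lit 20664) (nat_lit 21692) (nat_lit 129921) (nat_lit 28237) (nat_lit 6612366) (nat_lit 0) (nat_lit 0),Row.mk (nat_lit 20832) (nat_lit 21505) (nat_lit 129921) (nat_lit 28050) (nat_lit 8284585) (nat_lit 0) (nat_lit 0),Row.mk (nat_lit 21000) (nat_lit 21318) (nat_lit 129921) (nat_lit 27863) (nat_lit 10373146) (nat_lit 0) (nat_lit 0),Row.mk (nat_lit 21168) (nat_lit 21131) (nat_lit 129921) (nat_lit 27676) (nat_lit 12981708) (nat_lit 0) (nat_lit 0),Row.mk (nat_lit 21336) (nat_lit 20944) (nat_lit 129921) (nat_lit 27489) (nat_lit 16239740) (nat_lit 0) (nat_lit 0),Row.mk (nat_lit 21504) (nat_lit 32912)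 (nat_lit 25899) (nat_lit 62084) (nat_lit 20387066) (nat_lit 0) (nat_lit 0),Row.mk (nat_lit 21672) (nat_lit 32912) (nat_lit 25899) (nat_lit 62084) (nat_lit 25469402) (nat_lit 0) (nat_lit 0),Row.mk (nat_lit 21840) (nat_lit 32912) (nat_lit 25899) (nat_lit 62084) (nat_lit 31817117) (nat_lit 0) (nat_lit 0),Row.mk (nat_lit 22008) (nat_lit 32912) (nat_lit 25899) (nat_lit 62084) (nat_lit 39745260) (nat_lit 0) (nat_lit 0),Row.mk (nat_lit 22176) (nat_lit 32912) (nat_lit 25899) (nat_lit 62084) (nat_lit 49647319) (nat_lit 0) (nat_lit 0),Row.mk (nat_lit 22344) (nat_lit 32912) (nat_lit 25899) (nat_lit 62084) (nat_lit 62014752) (nat_lit 0) (nat_lit 0),Row.mk (nat_lit 22512) (nat_lit 32912) (nat_lit 25899) (nat_lit 62084) (nat_lit 77461378) (nat_lit 0) (nat_lit 0),Row.mk (nat_lit 22680) (nat_lit 32912) (nat_lit 25899) (nat_lit 62084) (nat_lit 96753841) (nat_lit 0) (nat_lit 0),Row.mk (nat_lit 22848) (nat_lit 32912) (nat_lit 25899) (nat_lit 62084)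 (nat_lit 120849661) (nat_lit 0) (nat_lit 0),Row.mk (nat_lit 23016) (nat_lit 32912) (nat_lit 25899) (nat_lit 62084) (nat_lit 150944760) (nat_lit 0) (nat_lit 0),Row.mk (nat_lit 23184) (nat_lit 32912) (nat_lit 25899) (nat_lit 62084) (nat_lit 188532812) (nat_lit 0) (nat_lit 0),Row.mk (nat_lit 23352) (nat_lit 32912) (nat_lit 25899) (nat_lit 62084) (nat_lit 235479382) (nat_lit 0) (nat_lit 0),Row.mk (nat_lit 23520) (nat_lit 32912) (nat_lit 25899) (nat_lit 62084) (nat_lit 294114516) (nat_lit 0) (nat_lit 0),Row.mk (nat_lit 23688) (nat_lit 32912) (nat_lit 25899) (nat_lit 62084) (nat_lit 367348384) (nat_lit 0) (nat_lit 0),Row.mk (nat_lit 23856) (nat_lit 32912) (nat_lit 25899) (nat_lit 62084) (nat_lit 458815718) (nat_lit 0) (nat_lit 0),Row.mk (nat_lit 24024) (nat_lit 32912) (nat_lit 25899) (nat_lit 62084) (nat_lit 573056212) (nat_lit 0) (nat_lit 0),Row.mk (nat_lit 24192) (nat_lit 32912) (nat_lit 25899) (nat_lit 62084) (nat_lit 715739833) (nat_lit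 0) (nat_lit 0),Row.mk (nat_lit 24360) (nat_lit 32912) (nat_lit 25899) (nat_lit 62084) (nat_lit 893948233) (nat_lit 0) (nat_lit 0),Row.mk (nat_lit 24528) (nat_lit 32912) (nat_lit 25899) (nat_lit 62084) (nat_lit 1116526226) (nat_lit 0) (nat_lit 0),Row.mk (nat_lit 24696) (nat_lit 32912) (nat_lit 25899) (nat_lit 62084) (nat_lit 1394520770) (nat_lit 0) (nat_lit 0),Row.mk (nat_lit 24864) (nat_lit 32912) (nat_lit 25899) (nat_lit 62084) (nat_lit 1741729249) (nat_lit 0) (nat_lit 0),Row.mk (nat_lit 25032) (nat_lit 32912) (nat_lit 25899) (nat_lit 62084) (nat_lit 2175384263) (nat_lit 0) (nat_lit 0),Row.mk (nat_lit 25200) (nat_lit 32912) (nat_lit 25899) (nat_lit 62084) (nat_lit 2717008915) (nat_lit 0) (nat_lit 0),Row.mk (nat_lit 25368) (nat_lit 32912) (nat_lit 25899) (nat_lit 62084) (nat_lit 3393485038) (nat_lit 0) (nat_lit 0),Row.mk (nat_lit 25536) (nat_lit 32912) (nat_lit 25899) (nat_lit 62084) (nat_lit 4238387398) (nat_lit 0) (nat_lit 0),Row.mk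 (nat_lit 25704) (nat_lit 32912) (nat_lit 25899) (nat_lit 62084) (nat_lit 5293650062) (nat_lit 0) (nat_lit 0),Row.mk (nat_lit 25872) (nat_lit 32912) (nat_lit 25899) (nat_lit 62084) (nat_lit 6611647673) (nat_lit 0) (nat_lit 0),Row.mk (nat_lit 26040) (nat_lit 32912) (nat_lit 25899) (nat_lit 62084) (nat_lit 8257794894) (nat_lit 0) (nat_lit 0)],
[Row.mk (nat_lit 12768) (nat_lit 3366) (nat_lit 976) (nat_lit 4114) (nat_lit 31565) (nat_lit 0) (nat_lit 0),Row.mk (nat_lit 12936) (nat_lit 3927) (nat_lit 1219) (nat_lit 4675) (nat_lit 31371) (nat_lit 0) (nat_lit 0),Row.mk (nat_lit 13104) (nat_lit 4488) (nat_lit 1522) (nat_lit 5236) (nat_lit 31128) (nat_lit 0) (nat_lit 0),Row.mk (nat_lit 13272) (nat_lit 5049) (nat_lit 1901) (nat_lit 5797) (nat_lit 30824) (nat_lit 0) (nat_lit 0),Row.mk (nat_lit 13440) (nat_lit 5610) (nat_lit 2375) (nat_lit 6358) (nat_lit 30445) (nat_lit 0) (nat_lit 0),Row.mk (nat_lit 13608) (nat_lit 6171) (nat_lit 2966) (nat_lit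 6919) (nat_lit 29972) (nat_lit 0) (nat_lit 0),Row.mk (nat_lit 13776) (nat_lit 6732) (nat_lit 3705) (nat_lit 7480) (nat_lit 29380) (nat_lit 0) (nat_lit 0),Row.mk (nat_lit 13944) (nat_lit 7293) (nat_lit 4627) (nat_lit 8041) (nat_lit 28642) (nat_lit 0) (nat_lit 0),Row.mk (nat_lit 14112) (nat_lit 7854) (nat_lit 5779) (nat_lit 8602) (nat_lit 27719) (nat_lit 0) (nat_lit 0),Row.mk (nat_lit 14280) (nat_lit 8415) (nat_lit 7219) (nat_lit 9163) (nat_lit 26567) (nat_lit 0) (nat_lit 0),Row.mk (nat_lit 14448) (nat_lit 8976) (nat_lit 9016) (nat_lit 9724) (nat_lit 25128) (nat_lit 0) (nat_lit 0),Row.mk (nat_lit 14616) (nat_lit 9537) (nat_lit 11261) (nat_lit 10285) (nat_lit 23330) (nat_lit 0) (nat_lit 0),Row.mk (nat_lit 14784) (nat_lit 10098) (nat_lit 14065) (nat_lit 10846) (nat_lit 21086) (nat_lit 0) (nat_lit 0),Row.mk (nat_lit 14952) (nat_lit 10659) (nat_lit 17566) (nat_lit 11407) (nat_lit 18282) (nat_lit 0) (nat_lit 0),Row.mk (nat_lit 15120) (nat_lit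 11220) (nat_lit 21940) (nat_lit 11968) (nat_lit 14780) (nat_lit 0) (nat_lit 0),Row.mk (nat_lit 15288) (nat_lit 11781) (nat_lit 27403) (nat_lit 12716) (nat_lit 10406) (nat_lit 0) (nat_lit 0),Row.mk (nat_lit 15456) (nat_lit 12529) (nat_lit 34226) (nat_lit 13464) (nat_lit 4944) (nat_lit 0) (nat_lit 0),Row.mk (nat_lit 15624) (nat_lit 12342) (nat_lit 2346) (nat_lit 13277) (nat_lit 38522) (nat_lit 0) (nat_lit 0),Row.mk (nat_lit 15792) (nat_lit 13090) (nat_lit 12989) (nat_lit 14025) (nat_lit 30000) (nat_lit 0) (nat_lit 0),Row.mk (nat_lit 15960) (nat_lit 13838) (nat_lit 26282) (nat_lit 15147) (nat_lit 19357) (nat_lit 0) (nat_lit 0),Row.mk (nat_lit 16128) (nat_lit 14960) (nat_lit 42885) (nat_lit 16456) (nat_lit 6064) (nat_lit 0) (nat_lit 0),Row.mk (nat_lit 16296) (nat_lit 14773) (nat_lit 13161) (nat_lit 16269) (nat_lit 39922) (nat_lit 0) (nat_lit 0),Row.mk (nat_lit 16464) (nat_lit 16082) (nat_lit 39060) (nat_lit 17765) (nat_lit 19185) (nat_lit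 0) (nat_lit 0),Row.mk (nat_lit 16632) (nat_lit 15895) (nat_lit 8384) (nat_lit 17578) (nat_lit 56309) (nat_lit 0) (nat_lit 0),Row.mk (nat_lit 16800) (nat_lit 17391) (nat_lit 48785) (nat_lit 19635) (nat_lit 23962) (nat_lit 0) (nat_lit 0),Row.mk (nat_lit 16968) (nat_lit 17204) (nat_lit 20531) (nat_lit 19448) (nat_lit 62276) (nat_lit 0) (nat_lit 0),Row.mk (nat_lit 17136) (nat_lit 19261) (nat_lit 83554) (nat_lit 25806) (nat_lit 11816) (nat_lit 0) (nat_lit 0),Row.mk (nat_lit 17304) (nat_lit 19074) (nat_lit 63956) (nat_lit 25619) (nat_lit 47105) (nat_lit 0) (nat_lit 0),Row.mk (nat_lit 17472) (nat_lit 18887) (nat_lit 39478) (nat_lit 25432) (nat_lit 91180) (nat_lit 0) (nat_lit 0),Row.mk (nat_lit 17640) (nat_lit 18700) (nat_lit 8907) (nat_lit 25245) (nat_lit 146230) (nat_lit 0) (nat_lit 0),Row.mk (nat_lit 17808) (nat_lit 25058) (nat_lit 162268) (nat_lit 31603) (nat_lit 23440) (nat_lit 0) (nat_lit 0),Row.mk (nat_lit 17976) (nat_lit 24871) (nat_lit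 162268) (nat_lit 31416) (nat_lit 61623) (nat_lit 0) (nat_lit 0),Row.mk (nat_lit 18144) (nat_lit 24684) (nat_lit 162268) (nat_lit 31229) (nat_lit 109313) (nat_lit 0) (nat_lit 0),Row.mk (nat_lit 18312) (nat_lit 24497) (nat_lit 162268) (nat_lit 31042) (nat_lit 168877) (nat_lit 0) (nat_lit 0),Row.mk (nat_lit 18480) (nat_lit 24310) (nat_lit 162268) (nat_lit 30855) (nat_lit 243271) (nat_lit 0) (nat_lit 0),Row.mk (nat_lit 18648) (nat_lit 24123) (nat_lit 162268) (nat_lit 30668) (nat_lit 336187) (nat_lit 0) (nat_lit 0),Row.mk (nat_lit 18816) (nat_lit 23936) (nat_lit 162268) (nat_lit 30481) (nat_lit 452236) (nat_lit 0) (nat_lit 0),Row.mk (nat_lit 18984) (nat_lit 23749) (nat_lit 162268) (nat_lit 30294) (nat_lit 597180) (nat_lit 0) (nat_lit 0),Row.mk (nat_lit 19152) (nat_lit 23562) (nat_lit 162268) (nat_lit 30107) (nat_lit 778211) (nat_lit 0) (nat_lit 0),Row.mk (nat_lit 19320) (nat_lit 23375) (nat_lit 162268) (nat_lit 29920) (nat_lit 1004314)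 (nat_lit 0) (nat_lit 0),Row.mk (nat_lit 19488) (nat_lit 23188) (nat_lit 162268) (nat_lit 29733) (nat_lit 1286711) (nat_lit 0) (nat_lit 0),Row.mk (nat_lit 19656) (nat_lit 23001) (nat_lit 162268) (nat_lit 29546) (nat_lit 1639419) (nat_lit 0) (nat_lit 0),Row.mk (nat_lit 19824) (nat_lit 22814) (nat_lit 162268) (nat_lit 29359) (nat_lit 2079942) (nat_lit 0) (nat_lit 0),Row.mk (nat_lit 19992) (nat_lit 22627) (nat_lit 162268) (nat_lit 29172) (nat_lit 2630145) (nat_lit 0) (nat_lit 0),Row.mk (nat_lit 20160) (nat_lit 22440) (nat_lit 162268) (nat_lit 28985) (nat_lit 3317335) (nat_lit 0) (nat_lit 0),Row.mk (nat_lit 20328) (nat_lit 22253) (nat_lit 162268) (nat_lit 28798) (nat_lit 4175619) (nat_lit 0) (nat_lit 0),Row.mk (nat_lit 20496) (nat_lit 22066) (nat_lit 162268) (nat_lit 28611) (nat_lit 5247595) (nat_lit 0) (nat_lit 0),Row.mk (nat_lit 20664) (nat_lit 21879) (nat_lit 162268) (nat_lit 28424) (nat_lit 6586467) (nat_lit 0) (nat_lit 0),Row.mk (nat_lit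 20832) (nat_lit 21692) (nat_lit 162268) (nat_lit 28237) (nat_lit 8258686) (nat_lit 0) (nat_lit 0),Row.mk (nat_lit 21000) (nat_lit 21505) (nat_lit 162268) (nat_lit 28050) (nat_lit 10347247) (nat_lit 0) (nat_lit 0),Row.mk (nat_lit 21168) (nat_lit 21318) (nat_lit 162268) (nat_lit 27863) (nat_lit 12955809) (nat_lit 0) (nat_lit 0),Row.mk (nat_lit 21336) (nat_lit 21131) (nat_lit 162268) (nat_lit 27676) (nat_lit 16213841) (nat_lit 0) (nat_lit 0),Row.mk (nat_lit 21504) (nat_lit 20944) (nat_lit 162268) (nat_lit 27489) (nat_lit 20283043) (nat_lit 0) (nat_lit 0),Row.mk (nat_lit 21672) (nat_lit 32912) (nat_lit 32347) (nat_lit 62084) (nat_lit 25462954) (nat_lit 0) (nat_lit 0),Row.mk (nat_lit 21840) (nat_lit 32912) (nat_lit 32347) (nat_lit 62084) (nat_lit 31810669) (nat_lit 0) (nat_lit 0),Row.mk (nat_lit 22008) (nat_lit 32912) (nat_lit 32347) (nat_lit 62084) (nat_lit 39738812) (nat_lit 0) (nat_lit 0),Row.mk (nat_lit 22176) (nat_lit 32912) (nat_lit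 32347) (nat_lit 62084) (nat_lit 49640871) (nat_lit 0) (nat_lit 0),Row.mk (nat_lit 22344) (nat_lit 32912) (nat_lit 32347) (nat_lit 62084) (nat_lit 62008304) (nat_lit 0) (nat_lit 0),Row.mk (nat_lit 22512) (nat_lit 32912) (nat_lit 32347) (nat_lit 62084) (nat_lit 77454929) (nat_lit 0) (nat_lit 0),Row.mk (nat_lit 22680) (nat_lit 32912) (nat_lit 32347) (nat_lit 62084) (nat_lit 96747392) (nat_lit 0) (nat_lit 0),Row.mk (nat_lit 22848) (nat_lit 32912) (nat_lit 32347) (nat_lit 62084) (nat_lit 120843213) (nat_lit 0) (nat_lit 0),Row.mk (nat_lit 23016) (nat_lit 32912) (nat_lit 32347) (nat_lit 62084) (nat_lit 150938311) (nat_lit 0) (nat_lit 0),Row.mk (nat_lit 23184) (nat_lit 32912) (nat_lit 32347) (nat_lit 62084) (nat_lit 188526364) (nat_lit 0) (nat_lit 0),Row.mk (nat_lit 23352) (nat_lit 32912) (nat_lit 32347) (nat_lit 62084) (nat_lit 235472934) (nat_lit 0) (nat_lit 0),Row.mk (nat_lit 23520) (nat_lit 32912) (nat_lit 32347) (nat_lit 62084) (nat_lit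 294108068) (nat_lit 0) (nat_lit 0),Row.mk (nat_lit 23688) (nat_lit 32912) (nat_lit 32347) (nat_lit 62084) (nat_lit 367341936) (nat_lit 0) (nat_lit 0),Row.mk (nat_lit 23856) (nat_lit 32912) (nat_lit 32347) (nat_lit 62084) (nat_lit 458809270) (nat_lit 0) (nat_lit 0),Row.mk (nat_lit 24024) (nat_lit 32912) (nat_lit 32347) (nat_lit 62084) (nat_lit 573049764) (nat_lit 0) (nat_lit 0),Row.mk (nat_lit 24192) (nat_lit 32912) (nat_lit 32347) (nat_lit 62084) (nat_lit 715733385) (nat_lit 0) (nat_lit 0),Row.mk (nat_lit 24360) (nat_lit 32912) (nat_lit 32347) (nat_lit 62084) (nat_lit 893941785) (nat_lit 0) (nat_lit 0),Row.mk (nat_lit 24528) (nat_lit 32912) (nat_lit 32347) (nat_lit 62084) (nat_lit 1116519778) (nat_lit 0) (nat_lit 0),Row.mk (nat_lit 24696) (nat_lit 32912) (nat_lit 32347) (nat_lit 62084) (nat_lit 1394514322) (nat_lit 0) (nat_lit 0),Row.mk (nat_lit 24864) (nat_lit 32912) (nat_lit 32347) (nat_lit 62084) (nat_lit 1741722801) (nat_lit 0)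 (nat_lit 0),Row.mk (nat_lit 25032) (nat_lit 32912) (nat_lit 32347) (nat_lit 62084) (nat_lit 2175377815) (nat_lit 0) (nat_lit 0),Row.mk (nat_lit 25200) (nat_lit 32912) (nat_lit 32347) (nat_lit 62084) (nat_lit 2717002467) (nat_lit 0) (nat_lit 0),Row.mk (nat_lit 25368) (nat_lit 32912) (nat_lit 32347) (nat_lit 62084) (nat_lit 3393478590) (nat_lit 0) (nat_lit 0),Row.mk (nat_lit 25536) (nat_lit 32912) (nat_lit 32347) (nat_lit 62084) (nat_lit 4238380949) (nat_lit 0) (nat_lit 0),Row.mk (nat_lit 25704) (nat_lit 32912) (nat_lit 32347) (nat_lit 62084) (nat_lit 5293643614) (nat_lit 0) (nat_lit 0),Row.mk (nat_lit 25872) (nat_lit 32912) (nat_lit 32347) (nat_lit 62084) (nat_lit 6611641225) (nat_lit 0) (nat_lit 0),Row.mk (nat_lit 26040) (nat_lit 32912) (nat_lit 32347) (nat_lit 62084) (nat_lit 8257788445) (nat_lit 0) (nat_lit 0)],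
[Row.mk (nat_lit 12432) (nat_lit 1683) (nat_lit 625) (nat_lit 2431) (nat_lit 39900) (nat_lit 0) (nat_lit 0),Row.mk (nat_lit 12600) (nat_lit 2244) (nat_lit 781) (nat_lit 2992) (nat_lit 39775) (nat_lit 0) (nat_lit 0),Row.mk (nat_lit 12768) (nat_lit 2805) (nat_lit 976) (nat_lit 3553) (nat_lit 39619) (nat_lit 0) (nat_lit 0),Row.mk (nat_lit 12936) (nat_lit 3366) (nat_lit 1219) (nat_lit 4114) (nat_lit 39424) (nat_lit 0) (nat_lit 0),Row.mk (nat_lit 13104) (nat_lit 3927) (nat_lit 1522) (nat_lit 4675) (nat_lit 39181) (nat_lit 0) (nat_lit 0),Row.mk (nat_lit 13272) (nat_lit 4488) (nat_lit 1901) (nat_lit 5236) (nat_lit 38878) (nat_lit 0) (nat_lit 0),Row.mk (nat_lit 13440) (nat_lit 5049) (nat_lit 2375) (nat_lit 5797) (nat_lit 38499) (nat_lit 0) (nat_lit 0),Row.mk (nat_lit 13608) (nat_lit 5610) (nat_lit 2966) (nat_lit 6358) (nat_lit 38025) (nat_lit 0) (nat_lit 0),Row.mk (nat_lit 13776) (nat_lit 6171) (nat_lit 3705) (nat_lit 6919) (nat_lit 37434)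 (nat_lit 0) (nat_lit 0),Row.mk (nat_lit 13944) (nat_lit 6732) (nat_lit 4627) (nat_lit 7480) (nat_lit 36695) (nat_lit 0) (nat_lit 0),Row.mk (nat_lit 14112) (nat_lit 7293) (nat_lit 5779) (nat_lit 8041) (nat_lit 35773) (nat_lit 0) (nat_lit 0),Row.mk (nat_lit 14280) (nat_lit 7854) (nat_lit 7219) (nat_lit 8602) (nat_lit 34621) (nat_lit 0) (nat_lit 0),Row.mk (nat_lit 14448) (nat_lit 8415) (nat_lit 9016) (nat_lit 9163) (nat_lit 33182) (nat_lit 0) (nat_lit 0),Row.mk (nat_lit 14616) (nat_lit 8976) (nat_lit 11261) (nat_lit 9724) (nat_lit 31384) (nat_lit 0) (nat_lit 0),Row.mk (nat_lit 14784) (nat_lit 9537) (nat_lit 14065) (nat_lit 10285) (nat_lit 29139) (nat_lit 0) (nat_lit 0),Row.mk (nat_lit 14952) (nat_lit 10098) (nat_lit 17566) (nat_lit 10846) (nat_lit 26336) (nat_lit 0) (nat_lit 0),Row.mk (nat_lit 15120) (nat_lit 10659) (nat_lit 21940) (nat_lit 11407) (nat_lit 22834) (nat_lit 0) (nat_lit 0),Row.mk (nat_lit 15288) (nat_lit 11220) (nat_lit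 27403) (nat_lit 11968) (nat_lit 18460) (nat_lit 0) (nat_lit 0),Row.mk (nat_lit 15456) (nat_lit 11781) (nat_lit 34226) (nat_lit 12716) (nat_lit 12997) (nat_lit 0) (nat_lit 0),Row.mk (nat_lit 15624) (nat_lit 12529) (nat_lit 42747) (nat_lit 13464) (nat_lit 6174) (nat_lit 0) (nat_lit 0),Row.mk (nat_lit 15792) (nat_lit 12342) (nat_lit 2930) (nat_lit 13277) (nat_lit 48113) (nat_lit 0) (nat_lit 0),Row.mk (nat_lit 15960) (nat_lit 13090) (nat_lit 16223) (nat_lit 14025) (nat_lit 37470) (nat_lit 0) (nat_lit 0),Row.mk (nat_lit 16128) (nat_lit 13838) (nat_lit 32826) (nat_lit 15147) (nat_lit 24177) (nat_lit 0) (nat_lit 0),Row.mk (nat_lit 16296) (nat_lit 14960) (nat_lit 53562) (nat_lit 16456) (nat_lit 7574) (nat_lit 0) (nat_lit 0),Row.mk (nat_lit 16464) (nat_lit 14773) (nat_lit 16438) (nat_lit 16269) (nat_lit 49861) (nat_lit 0) (nat_lit 0),Row.mk (nat_lit 16632) (nat_lit 16082) (nat_lit 48785) (nat_lit 17765) (nat_lit 23962) (nat_lit 0) (nat_lit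 0),Row.mk (nat_lit 16800) (nat_lit 15895) (nat_lit 10472) (nat_lit 17578) (nat_lit 70329) (nat_lit 0) (nat_lit 0),Row.mk (nat_lit 16968) (nat_lit 17391) (nat_lit 60932) (nat_lit 19635) (nat_lit 29928) (nat_lit 0) (nat_lit 0),Row.mk (nat_lit 17136) (nat_lit 17204) (nat_lit 25642) (nat_lit 19448) (nat_lit 77781) (nat_lit 0) (nat_lit 0),Row.mk (nat_lit 17304) (nat_lit 19261) (nat_lit 104357) (nat_lit 25806) (nat_lit 14758) (nat_lit 0) (nat_lit 0),Row.mk (nat_lit 17472) (nat_lit 19074) (nat_lit 79880) (nat_lit 25619) (nat_lit 58833) (nat_lit 0) (nat_lit 0),Row.mk (nat_lit 17640) (nat_lit 18887) (nat_lit 49308) (nat_lit 25432) (nat_lit 113882) (nat_lit 0) (nat_lit 0),Row.mk (nat_lit 17808) (nat_lit 18700) (nat_lit 11124) (nat_lit 25245) (nat_lit 182637) (nat_lit 0) (nat_lit 0),Row.mk (nat_lit 17976) (nat_lit 25058) (nat_lit 202670) (nat_lit 31603) (nat_lit 29276) (nat_lit 0) (nat_lit 0),Row.mk (nat_lit 18144) (nat_lit 24871) (nat_lit 202670)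 (nat_lit 31416) (nat_lit 76966) (nat_lit 0) (nat_lit 0),Row.mk (nat_lit 18312) (nat_lit 24684) (nat_lit 202670) (nat_lit 31229) (nat_lit 136530) (nat_lit 0) (nat_lit 0),Row.mk (nat_lit 18480) (nat_lit 24497) (nat_lit 202670) (nat_lit 31042) (nat_lit 210923) (nat_lit 0) (nat_lit 0),Row.mk (nat_lit 18648) (nat_lit 24310) (nat_lit 202670) (nat_lit 30855) (nat_lit 303839) (nat_lit 0) (nat_lit 0),Row.mk (nat_lit 18816) (nat_lit 24123) (nat_lit 202670) (nat_lit 30668) (nat_lit 419889) (nat_lit 0) (nat_lit 0),Row.mk (nat_lit 18984) (nat_lit 23936) (nat_lit 202670) (nat_lit 30481) (nat_lit 564833) (nat_lit 0) (nat_lit 0),Row.mk (nat_lit 19152) (nat_lit 23749) (nat_lit 202670) (nat_lit 30294) (nat_lit 745863) (nat_lit 0) (nat_lit 0),Row.mk (nat_lit 19320) (nat_lit 23562) (nat_lit 202670) (nat_lit 30107) (nat_lit 971967) (nat_lit 0) (nat_lit 0),Row.mk (nat_lit 19488) (nat_lit 23375) (nat_lit 202670) (nat_lit 29920) (nat_lit 1254364) (nat_lit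 0) (nat_lit 0),Row.mk (nat_lit 19656) (nat_lit 23188) (nat_lit 202670) (nat_lit 29733) (nat_lit 1607072) (nat_lit 0) (nat_lit 0),Row.mk (nat_lit 19824) (nat_lit 23001) (nat_lit 202670) (nat_lit 29546) (nat_lit 2047595) (nat_lit 0) (nat_lit 0),Row.mk (nat_lit 19992) (nat_lit 22814) (nat_lit 202670) (nat_lit 29359) (nat_lit 2597798) (nat_lit 0) (nat_lit 0),Row.mk (nat_lit 20160) (nat_lit 22627) (nat_lit 202670) (nat_lit 29172) (nat_lit 3284988) (nat_lit 0) (nat_lit 0),Row.mk (nat_lit 20328) (nat_lit 22440) (nat_lit 202670) (nat_lit 28985) (nat_lit 4143272) (nat_lit 0) (nat_lit 0),Row.mk (nat_lit 20496) (nat_lit 22253) (nat_lit 202670) (nat_lit 28798) (nat_lit 5215248) (nat_lit 0) (nat_lit 0),Row.mk (nat_lit 20664) (nat_lit 22066) (nat_lit 202670) (nat_lit 28611) (nat_lit 6554120) (nat_lit 0) (nat_lit 0),Row.mk (nat_lit 20832) (nat_lit 21879) (nat_lit 202670) (nat_lit 28424) (nat_lit 8226339) (nat_lit 0) (nat_lit 0),Row.mk (nat_lit 21000)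 (nat_lit 21692) (nat_lit 202670) (nat_lit 28237) (nat_lit 10314900) (nat_lit 0) (nat_lit 0),Row.mk (nat_lit 21168) (nat_lit 21505) (nat_lit 202670) (nat_lit 28050) (nat_lit 12923462) (nat_lit 0) (nat_lit 0),Row.mk (nat_lit 21336) (nat_lit 21318) (nat_lit 202670) (nat_lit 27863) (nat_lit 16181493) (nat_lit 0) (nat_lit 0),Row.mk (nat_lit 21504) (nat_lit 21131) (nat_lit 202670) (nat_lit 27676) (nat_lit 20250696) (nat_lit 0) (nat_lit 0),Row.mk (nat_lit 21672) (nat_lit 20944) (nat_lit 202670) (nat_lit 27489) (nat_lit 25333032) (nat_lit 0) (nat_lit 0),Row.mk (nat_lit 21840) (nat_lit 32912) (nat_lit 40401) (nat_lit 62084) (nat_lit 31802615) (nat_lit 0) (nat_lit 0),Row.mk (nat_lit 22008) (nat_lit 32912) (nat_lit 40401) (nat_lit 62084) (nat_lit 39730758) (nat_lit 0) (nat_lit 0),Row.mk (nat_lit 22176) (nat_lit 32912) (nat_lit 40401) (nat_lit 62084) (nat_lit 49632817) (nat_lit 0) (nat_lit 0),Row.mk (nat_lit 22344) (nat_lit 32912) (nat_lit 40401)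 (nat_lit 62084) (nat_lit 62000250) (nat_lit 0) (nat_lit 0),Row.mk (nat_lit 22512) (nat_lit 32912) (nat_lit 40401) (nat_lit 62084) (nat_lit 77446876) (nat_lit 0) (nat_lit 0),Row.mk (nat_lit 22680) (nat_lit 32912) (nat_lit 40401) (nat_lit 62084) (nat_lit 96739339) (nat_lit 0) (nat_lit 0),Row.mk (nat_lit 22848) (nat_lit 32912) (nat_lit 40401) (nat_lit 62084) (nat_lit 120835159) (nat_lit 0) (nat_lit 0),Row.mk (nat_lit 23016) (nat_lit 32912) (nat_lit 40401) (nat_lit 62084) (nat_lit 150930258) (nat_lit 0) (nat_lit 0),Row.mk (nat_lit 23184) (nat_lit 32912) (nat_lit 40401) (nat_lit 62084) (nat_lit 188518310) (nat_lit 0) (nat_lit 0),Row.mk (nat_lit 23352) (nat_lit 32912) (nat_lit 40401) (nat_lit 62084) (nat_lit 235464880) (nat_lit 0) (nat_lit 0),Row.mk (nat_lit 23520) (nat_lit 32912) (nat_lit 40401) (nat_lit 62084) (nat_lit 294100014) (nat_lit 0) (nat_lit 0),Row.mk (nat_lit 23688) (nat_lit 32912) (nat_lit 40401) (nat_lit 62084) (nat_lit 367333882)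 (nat_lit 0) (nat_lit 0),Row.mk (nat_lit 23856) (nat_lit 32912) (nat_lit 40401) (nat_lit 62084) (nat_lit 458801216) (nat_lit 0) (nat_lit 0),Row.mk (nat_lit 24024) (nat_lit 32912) (nat_lit 40401) (nat_lit 62084) (nat_lit 573041710) (nat_lit 0) (nat_lit 0),Row.mk (nat_lit 24192) (nat_lit 32912) (nat_lit 40401) (nat_lit 62084) (nat_lit 715725331) (nat_lit 0) (nat_lit 0),Row.mk (nat_lit 24360) (nat_lit 32912) (nat_lit 40401) (nat_lit 62084) (nat_lit 893933731) (nat_lit 0) (nat_lit 0),Row.mk (nat_lit 24528) (nat_lit 32912) (nat_lit 40401) (nat_lit 62084) (nat_lit 1116511724) (nat_lit 0) (nat_lit 0),Row.mk (nat_lit 24696) (nat_lit 32912) (nat_lit 40401) (nat_lit 62084) (nat_lit 1394506268) (nat_lit 0) (nat_lit 0),Row.mk (nat_lit 24864) (nat_lit 32912) (nat_lit 40401) (nat_lit 62084) (nat_lit 1741714747) (nat_lit 0) (nat_lit 0),Row.mk (nat_lit 25032) (nat_lit 32912) (nat_lit 40401) (nat_lit 62084) (nat_lit 2175369761) (nat_lit 0) (nat_lit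 0),Row.mk (nat_lit 25200) (nat_lit 32912) (nat_lit 40401) (nat_lit 62084) (nat_lit 2716994413) (nat_lit 0) (nat_lit 0),Row.mk (nat_lit 25368) (nat_lit 32912) (nat_lit 40401) (nat_lit 62084) (nat_lit 3393470536) (nat_lit 0) (nat_lit 0),Row.mk (nat_lit 25536) (nat_lit 32912) (nat_lit 40401) (nat_lit 62084) (nat_lit 4238372896) (nat_lit 0) (nat_lit 0),Row.mk (nat_lit 25704) (nat_lit 32912) (nat_lit 40401) (nat_lit 62084) (nat_lit 5293635560) (nat_lit 0) (nat_lit 0),Row.mk (nat_lit 25872) (nat_lit 32912) (nat_lit 40401) (nat_lit 62084) (nat_lit 6611633171) (nat_lit 0) (nat_lit 0),Row.mk (nat_lit 26040) (nat_lit 32912) (nat_lit 40401) (nat_lit 62084) (nat_lit 8257780392) (nat_lit 0) (nat_lit 0)],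
[Row.mk (nat_lit 12096) (nat_lit 0) (nat_lit 401) (nat_lit 748) (nat_lit 50138) (nat_lit 0) (nat_lit 0),Row.mk (nat_lit 12264) (nat_lit 561) (nat_lit 500) (nat_lit 1309) (nat_lit 50058) (nat_lit 0) (nat_lit 0),Row.mk (nat_lit 12432) (nat_lit 1122) (nat_lit 625) (nat_lit 1870) (nat_lit 49958) (nat_lit 0) (nat_lit 0),Row.mk (nat_lit 12600) (nat_lit 1683) (nat_lit 781) (nat_lit 2431) (nat_lit 49834) (nat_lit 0) (nat_lit 0),Row.mk (nat_lit 12768) (nat_lit 2244) (nat_lit 976) (nat_lit 2992) (nat_lit 49678) (nat_lit 0) (nat_lit 0),Row.mk (nat_lit 12936) (nat_lit 2805) (nat_lit 1219) (nat_lit 3553) (nat_lit 49483) (nat_lit 0) (nat_lit 0),Row.mk (nat_lit 13104) (nat_lit 3366) (nat_lit 1522) (nat_lit 4114) (nat_lit 49240) (nat_lit 0) (nat_lit 0),Row.mk (nat_lit 13272) (nat_lit 3927) (nat_lit 1901) (nat_lit 4675) (nat_lit 48937) (nat_lit 0) (nat_lit 0),Row.mk (nat_lit 13440) (nat_lit 4488) (nat_lit 2375) (nat_lit 5236) (nat_lit 48558) (nat_lit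 0) (nat_lit 0),Row.mk (nat_lit 13608) (nat_lit 5049) (nat_lit 2966) (nat_lit 5797) (nat_lit 48084) (nat_lit 0) (nat_lit 0),Row.mk (nat_lit 13776) (nat_lit 5610) (nat_lit 3705) (nat_lit 6358) (nat_lit 47493) (nat_lit 0) (nat_lit 0),Row.mk (nat_lit 13944) (nat_lit 6171) (nat_lit 4627) (nat_lit 6919) (nat_lit 46754) (nat_lit 0) (nat_lit 0),Row.mk (nat_lit 14112) (nat_lit 6732) (nat_lit 5779) (nat_lit 7480) (nat_lit 45832) (nat_lit 0) (nat_lit 0),Row.mk (nat_lit 14280) (nat_lit 7293) (nat_lit 7219) (nat_lit 8041) (nat_lit 44679) (nat_lit 0) (nat_lit 0),Row.mk (nat_lit 14448) (nat_lit 7854) (nat_lit 9016) (nat_lit 8602) (nat_lit 43240) (nat_lit 0) (nat_lit 0),Row.mk (nat_lit 14616) (nat_lit 8415) (nat_lit 11261) (nat_lit 9163) (nat_lit 41443) (nat_lit 0) (nat_lit 0),Row.mk (nat_lit 14784) (nat_lit 8976) (nat_lit 14065) (nat_lit 9724) (nat_lit 39198) (nat_lit 0) (nat_lit 0),Row.mk (nat_lit 14952) (nat_lit 9537) (nat_lit 17566) (nat_lit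 10285) (nat_lit 36394) (nat_lit 0) (nat_lit 0),Row.mk (nat_lit 15120) (nat_lit 10098) (nat_lit 21940) (nat_lit 10846) (nat_lit 32893) (nat_lit 0) (nat_lit 0),Row.mk (nat_lit 15288) (nat_lit 10659) (nat_lit 27403) (nat_lit 11407) (nat_lit 28519) (nat_lit 0) (nat_lit 0),Row.mk (nat_lit 15456) (nat_lit 11220) (nat_lit 34226) (nat_lit 11968) (nat_lit 23056) (nat_lit 0) (nat_lit 0),Row.mk (nat_lit 15624) (nat_lit 11781) (nat_lit 42747) (nat_lit 12716) (nat_lit 16233) (nat_lit 0) (nat_lit 0),Row.mk (nat_lit 15792) (nat_lit 12529) (nat_lit 53390) (nat_lit 13464) (nat_lit 7712) (nat_lit 0) (nat_lit 0),Row.mk (nat_lit 15960) (nat_lit 12342) (nat_lit 3660) (nat_lit 13277) (nat_lit 60092) (nat_lit 0) (nat_lit 0),Row.mk (nat_lit 16128) (nat_lit 13090) (nat_lit 20262) (nat_lit 14025) (nat_lit 46799) (nat_lit 0) (nat_lit 0),Row.mk (nat_lit 16296) (nat_lit 13838) (nat_lit 40999) (nat_lit 15147) (nat_lit 30196) (nat_lit 0) (nat_lit 0),Row.mk (nat_lit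 16464) (nat_lit 14960) (nat_lit 66898) (nat_lit 16456) (nat_lit 9460) (nat_lit 0) (nat_lit 0),Row.mk (nat_lit 16632) (nat_lit 14773) (nat_lit 20531) (nat_lit 16269) (nat_lit 62276) (nat_lit 0) (nat_lit 0),Row.mk (nat_lit 16800) (nat_lit 16082) (nat_lit 60932) (nat_lit 17765) (nat_lit 29928) (nat_lit 0) (nat_lit 0),Row.mk (nat_lit 16968) (nat_lit 15895) (nat_lit 13079) (nat_lit 17578) (nat_lit 87840) (nat_lit 0) (nat_lit 0),Row.mk (nat_lit 17136) (nat_lit 17391) (nat_lit 76102) (nat_lit 19635) (nat_lit 37380) (nat_lit 0) (nat_lit 0),Row.mk (nat_lit 17304) (nat_lit 17204) (nat_lit 32027) (nat_lit 19448) (nat_lit 97147) (nat_lit 0) (nat_lit 0),Row.mk (nat_lit 17472) (nat_lit 19261) (nat_lit 130339) (nat_lit 25806) (nat_lit 18432) (nat_lit 0) (nat_lit 0),Row.mk (nat_lit 17640) (nat_lit 19074) (nat_lit 99768) (nat_lit 25619) (nat_lit 73481) (nat_lit 0) (nat_lit 0),Row.mk (nat_lit 17808) (nat_lit 18887) (nat_lit 61584) (nat_lit 25432) (nat_lit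 142236) (nat_lit 0) (nat_lit 0),Row.mk (nat_lit 17976) (nat_lit 18700) (nat_lit 13894) (nat_lit 25245) (nat_lit 228110) (nat_lit 0) (nat_lit 0),Row.mk (nat_lit 18144) (nat_lit 25058) (nat_lit 253129) (nat_lit 31603) (nat_lit 36565) (nat_lit 0) (nat_lit 0),Row.mk (nat_lit 18312) (nat_lit 24871) (nat_lit 253129) (nat_lit 31416) (nat_lit 96129) (nat_lit 0) (nat_lit 0),Row.mk (nat_lit 18480) (nat_lit 24684) (nat_lit 253129) (nat_lit 31229) (nat_lit 170522) (nat_lit 0) (nat_lit 0),Row.mk (nat_lit 18648) (nat_lit 24497) (nat_lit 253129) (nat_lit 31042) (nat_lit 263438) (nat_lit 0) (nat_lit 0),Row.mk (nat_lit 18816) (nat_lit 24310) (nat_lit 253129) (nat_lit 30855) (nat_lit 379488) (nat_lit 0) (nat_lit 0),Row.mk (nat_lit 18984) (nat_lit 24123) (nat_lit 253129) (nat_lit 30668) (nat_lit 524432) (nat_lit 0) (nat_lit 0),Row.mk (nat_lit 19152) (nat_lit 23936) (nat_lit 253129) (nat_lit 30481) (nat_lit 705462) (nat_lit 0) (nat_lit 0),Row.mk (nat_lit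 19320) (nat_lit 23749) (nat_lit 253129) (nat_lit 30294) (nat_lit 931566) (nat_lit 0) (nat_lit 0),Row.mk (nat_lit 19488) (nat_lit 23562) (nat_lit 253129) (nat_lit 30107) (nat_lit 1213963) (nat_lit 0) (nat_lit 0),Row.mk (nat_lit 19656) (nat_lit 23375) (nat_lit 253129) (nat_lit 29920) (nat_lit 1566671) (nat_lit 0) (nat_lit 0),Row.mk (nat_lit 19824) (nat_lit 23188) (nat_lit 253129) (nat_lit 29733) (nat_lit 2007194) (nat_lit 0) (nat_lit 0),Row.mk (nat_lit 19992) (nat_lit 23001) (nat_lit 253129) (nat_lit 29546) (nat_lit 2557397) (nat_lit 0) (nat_lit 0),Row.mk (nat_lit 20160) (nat_lit 22814) (nat_lit 253129) (nat_lit 29359) (nat_lit 3244587) (nat_lit 0) (nat_lit 0),Row.mk (nat_lit 20328) (nat_lit 22627) (nat_lit 253129) (nat_lit 29172) (nat_lit 4102871) (nat_lit 0) (nat_lit 0),Row.mk (nat_lit 20496) (nat_lit 22440) (nat_lit 253129) (nat_lit 28985) (nat_lit 5174847) (nat_lit 0) (nat_lit 0),Row.mk (nat_lit 20664) (nat_lit 22253) (nat_lit 253129)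 (nat_lit 28798) (nat_lit 6513719) (nat_lit 0) (nat_lit 0),Row.mk (nat_lit 20832) (nat_lit 22066) (nat_lit 253129) (nat_lit 28611) (nat_lit 8185937) (nat_lit 0) (nat_lit 0),Row.mk (nat_lit 21000) (nat_lit 21879) (nat_lit 253129) (nat_lit 28424) (nat_lit 10274499) (nat_lit 0) (nat_lit 0),Row.mk (nat_lit 21168) (nat_lit 21692) (nat_lit 253129) (nat_lit 28237) (nat_lit 12883061) (nat_lit 0) (nat_lit 0),Row.mk (nat_lit 21336) (nat_lit 21505) (nat_lit 253129) (nat_lit 28050) (nat_lit 16141092) (nat_lit 0) (nat_lit 0),Row.mk (nat_lit 21504) (nat_lit 21318) (nat_lit 253129) (nat_lit 27863) (nat_lit 20210295) (nat_lit 0) (nat_lit 0),Row.mk (nat_lit 21672) (nat_lit 21131) (nat_lit 253129) (nat_lit 27676) (nat_lit 25292631) (nat_lit 0) (nat_lit 0),Row.mk (nat_lit 21840) (nat_lit 20944) (nat_lit 253129) (nat_lit 27489) (nat_lit 31640346) (nat_lit 0) (nat_lit 0),Row.mk (nat_lit 22008) (nat_lit 32912) (nat_lit 50459) (nat_lit 62084) (nat_lit 39720699)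 (nat_lit 0) (nat_lit 0),Row.mk (nat_lit 22176) (nat_lit 32912) (nat_lit 50459) (nat_lit 62084) (nat_lit 49622758) (nat_lit 0) (nat_lit 0),Row.mk (nat_lit 22344) (nat_lit 32912) (nat_lit 50459) (nat_lit 62084) (nat_lit 61990191) (nat_lit 0) (nat_lit 0),Row.mk (nat_lit 22512) (nat_lit 32912) (nat_lit 50459) (nat_lit 62084) (nat_lit 77436817) (nat_lit 0) (nat_lit 0),Row.mk (nat_lit 22680) (nat_lit 32912) (nat_lit 50459) (nat_lit 62084) (nat_lit 96729280) (nat_lit 0) (nat_lit 0),Row.mk (nat_lit 22848) (nat_lit 32912) (nat_lit 50459) (nat_lit 62084) (nat_lit 120825100) (nat_lit 0) (nat_lit 0),Row.mk (nat_lit 23016) (nat_lit 32912) (nat_lit 50459) (nat_lit 62084) (nat_lit 150920199) (nat_lit 0) (nat_lit 0),Row.mk (nat_lit 23184) (nat_lit 32912) (nat_lit 50459) (nat_lit 62084) (nat_lit 188508251) (nat_lit 0) (nat_lit 0),Row.mk (nat_lit 23352) (nat_lit 32912) (nat_lit 50459) (nat_lit 62084) (nat_lit 235454821) (nat_lit 0) (nat_lit 0),Row.mk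 (nat_lit 23520) (nat_lit 32912) (nat_lit 50459) (nat_lit 62084) (nat_lit 294089955) (nat_lit 0) (nat_lit 0),Row.mk (nat_lit 23688) (nat_lit 32912) (nat_lit 50459) (nat_lit 62084) (nat_lit 367323823) (nat_lit 0) (nat_lit 0),Row.mk (nat_lit 23856) (nat_lit 32912) (nat_lit 50459) (nat_lit 62084) (nat_lit 458791157) (nat_lit 0) (nat_lit 0),Row.mk (nat_lit 24024) (nat_lit 32912) (nat_lit 50459) (nat_lit 62084) (nat_lit 573031651) (nat_lit 0) (nat_lit 0),Row.mk (nat_lit 24192) (nat_lit 32912) (nat_lit 50459) (nat_lit 62084) (nat_lit 715715272) (nat_lit 0) (nat_lit 0),Row.mk (nat_lit 24360) (nat_lit 32912) (nat_lit 50459) (nat_lit 62084) (nat_lit 893923672) (nat_lit 0) (nat_lit 0),Row.mk (nat_lit 24528) (nat_lit 32912) (nat_lit 50459) (nat_lit 62084) (nat_lit 1116501665) (nat_lit 0) (nat_lit 0),Row.mk (nat_lit 24696) (nat_lit 32912) (nat_lit 50459) (nat_lit 62084) (nat_lit 1394496209) (nat_lit 0) (nat_lit 0),Row.mk (nat_lit 24864) (nat_lit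 32912) (nat_lit 50459) (nat_lit 62084) (nat_lit 1741704688) (nat_lit 0) (nat_lit 0),Row.mk (nat_lit 25032) (nat_lit 32912) (nat_lit 50459) (nat_lit 62084) (nat_lit 2175359703) (nat_lit 0) (nat_lit 0),Row.mk (nat_lit 25200) (nat_lit 32912) (nat_lit 50459) (nat_lit 62084) (nat_lit 2716984354) (nat_lit 0) (nat_lit 0),Row.mk (nat_lit 25368) (nat_lit 32912) (nat_lit 50459) (nat_lit 62084) (nat_lit 3393460478) (nat_lit 0) (nat_lit 0),Row.mk (nat_lit 25536) (nat_lit 32912) (nat_lit 50459) (nat_lit 62084) (nat_lit 4238362837) (nat_lit 0) (nat_lit 0),Row.mk (nat_lit 25704) (nat_lit 32912) (nat_lit 50459) (nat_lit 62084) (nat_lit 5293625501) (nat_lit 0) (nat_lit 0),Row.mk (nat_lit 25872) (nat_lit 32912) (nat_lit 50459) (nat_lit 62084) (nat_lit 6611623112) (nat_lit 0) (nat_lit 0),Row.mk (nat_lit 26040) (nat_lit 32912) (nat_lit 50459) (nat_lit 62084) (nat_lit 8257770333) (nat_lit 0) (nat_lit 0)],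
[Row.mk (nat_lit 11928) (nat_lit 32912) (nat_lit 64) (nat_lit 61897) (nat_lit 62959) (nat_lit 0) (nat_lit 0),Row.mk (nat_lit 12096) (nat_lit 32912) (nat_lit 79) (nat_lit 61897) (nat_lit 62943) (nat_lit 0) (nat_lit 0),Row.mk (nat_lit 12264) (nat_lit 0) (nat_lit 500) (nat_lit 748) (nat_lit 62622) (nat_lit 0) (nat_lit 0),Row.mk (nat_lit 12432) (nat_lit 561) (nat_lit 625) (nat_lit 1309) (nat_lit 62522) (nat_lit 0) (nat_lit 0),Row.mk (nat_lit 12600) (nat_lit 1122) (nat_lit 781) (nat_lit 1870) (nat_lit 62397) (nat_lit 0) (nat_lit 0),Row.mk (nat_lit 12768) (nat_lit 1683) (nat_lit 976) (nat_lit 2431) (nat_lit 62241) (nat_lit 0) (nat_lit 0),Row.mk (nat_lit 12936) (nat_lit 2244) (nat_lit 1219) (nat_lit 2992) (nat_lit 62047) (nat_lit 0) (nat_lit 0),Row.mk (nat_lit 13104) (nat_lit 2805) (nat_lit 1522) (nat_lit 3553) (nat_lit 61804) (nat_lit 0) (nat_lit 0),Row.mk (nat_lit 13272) (nat_lit 3366) (nat_lit 1901) (nat_lit 4114) (nat_lit 61500) (nat_lit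 0) (nat_lit 0),Row.mk (nat_lit 13440) (nat_lit 3927) (nat_lit 2375) (nat_lit 4675) (nat_lit 61121) (nat_lit 0) (nat_lit 0),Row.mk (nat_lit 13608) (nat_lit 4488) (nat_lit 2966) (nat_lit 5236) (nat_lit 60648) (nat_lit 0) (nat_lit 0),Row.mk (nat_lit 13776) (nat_lit 5049) (nat_lit 3705) (nat_lit 5797) (nat_lit 60056) (nat_lit 0) (nat_lit 0),Row.mk (nat_lit 13944) (nat_lit 5610) (nat_lit 4627) (nat_lit 6358) (nat_lit 59318) (nat_lit 0) (nat_lit 0),Row.mk (nat_lit 14112) (nat_lit 6171) (nat_lit 5779) (nat_lit 6919) (nat_lit 58395) (nat_lit 0) (nat_lit 0),Row.mk (nat_lit 14280) (nat_lit 6732) (nat_lit 7219) (nat_lit 7480) (nat_lit 57243) (nat_lit 0) (nat_lit 0),Row.mk (nat_lit 14448) (nat_lit 7293) (nat_lit 9016) (nat_lit 8041) (nat_lit 55804) (nat_lit 0) (nat_lit 0),Row.mk (nat_lit 14616) (nat_lit 7854) (nat_lit 11261) (nat_lit 8602) (nat_lit 54006) (nat_lit 0) (nat_lit 0),Row.mk (nat_lit 14784) (nat_lit 8415) (nat_lit 14065) (nat_lit 9163)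 (nat_lit 51761) (nat_lit 0) (nat_lit 0),Row.mk (nat_lit 14952) (nat_lit 8976) (nat_lit 17566) (nat_lit 9724) (nat_lit 48958) (nat_lit 0) (nat_lit 0),Row.mk (nat_lit 15120) (nat_lit 9537) (nat_lit 21940) (nat_lit 10285) (nat_lit 45456) (nat_lit 0) (nat_lit 0),Row.mk (nat_lit 15288) (nat_lit 10098) (nat_lit 27403) (nat_lit 10846) (nat_lit 41082) (nat_lit 0) (nat_lit 0),Row.mk (nat_lit 15456) (nat_lit 10659) (nat_lit 34226) (nat_lit 11407) (nat_lit 35619) (nat_lit 0) (nat_lit 0),Row.mk (nat_lit 15624) (nat_lit 11220) (nat_lit 42747) (nat_lit 11968) (nat_lit 28797) (nat_lit 0) (nat_lit 0),Row.mk (nat_lit 15792) (nat_lit 11781) (nat_lit 53390) (nat_lit 12716) (nat_lit 20275) (nat_lit 0) (nat_lit 0),Row.mk (nat_lit 15960) (nat_lit 12529) (nat_lit 66683) (nat_lit 13464) (nat_lit 9632) (nat_lit 0) (nat_lit 0),Row.mk (nat_lit 16128) (nat_lit 12342) (nat_lit 4571) (nat_lit 13277) (nat_lit 75054) (nat_lit 0) (nat_lit 0),Row.mk (nat_lit 16296)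 (nat_lit 13090) (nat_lit 25307) (nat_lit 14025) (nat_lit 58451) (nat_lit 0) (nat_lit 0),Row.mk (nat_lit 16464) (nat_lit 13838) (nat_lit 51207) (nat_lit 15147) (nat_lit 37715) (nat_lit 0) (nat_lit 0),Row.mk (nat_lit 16632) (nat_lit 14960) (nat_lit 83554) (nat_lit 16456) (nat_lit 11816) (nat_lit 0) (nat_lit 0),Row.mk (nat_lit 16800) (nat_lit 14773) (nat_lit 25642) (nat_lit 16269) (nat_lit 77781) (nat_lit 0) (nat_lit 0),Row.mk (nat_lit 16968) (nat_lit 16082) (nat_lit 76102) (nat_lit 17765) (nat_lit 37380) (nat_lit 0) (nat_lit 0),Row.mk (nat_lit 17136) (nat_lit 15895) (nat_lit 16336) (nat_lit 17578) (nat_lit 109710) (nat_lit 0) (nat_lit 0),Row.mk (nat_lit 17304) (nat_lit 17391) (nat_lit 95050) (nat_lit 19635) (nat_lit 46687) (nat_lit 0) (nat_lit 0),Row.mk (nat_lit 17472) (nat_lit 17204) (nat_lit 40001) (nat_lit 19448) (nat_lit 121334) (nat_lit 0) (nat_lit 0),Row.mk (nat_lit 17640) (nat_lit 19261) (nat_lit 162791) (nat_lit 25806) (nat_lit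 23021) (nat_lit 0) (nat_lit 0),Row.mk (nat_lit 17808) (nat_lit 19074) (nat_lit 124608) (nat_lit 25619) (nat_lit 91776) (nat_lit 0) (nat_lit 0),Row.mk (nat_lit 17976) (nat_lit 18887) (nat_lit 76917) (nat_lit 25432) (nat_lit 177650) (nat_lit 0) (nat_lit 0),Row.mk (nat_lit 18144) (nat_lit 18700) (nat_lit 17354) (nat_lit 25245) (nat_lit 284904) (nat_lit 0) (nat_lit 0),Row.mk (nat_lit 18312) (nat_lit 25058) (nat_lit 316153) (nat_lit 31603) (nat_lit 45669) (nat_lit 0) (nat_lit 0),Row.mk (nat_lit 18480) (nat_lit 24871) (nat_lit 316153) (nat_lit 31416) (nat_lit 120062) (nat_lit 0) (nat_lit 0),Row.mk (nat_lit 18648) (nat_lit 24684) (nat_lit 316153) (nat_lit 31229) (nat_lit 212978) (nat_lit 0) (nat_lit 0),Row.mk (nat_lit 18816) (nat_lit 24497) (nat_lit 316153) (nat_lit 31042) (nat_lit 329028) (nat_lit 0) (nat_lit 0),Row.mk (nat_lit 18984) (nat_lit 24310) (nat_lit 316153) (nat_lit 30855) (nat_lit 473972) (nat_lit 0) (nat_lit 0),Row.mk (nat_lit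 19152) (nat_lit 24123) (nat_lit 316153) (nat_lit 30668) (nat_lit 655002) (nat_lit 0) (nat_lit 0),Row.mk (nat_lit 19320) (nat_lit 23936) (nat_lit 316153) (nat_lit 30481) (nat_lit 881106) (nat_lit 0) (nat_lit 0),Row.mk (nat_lit 19488) (nat_lit 23749) (nat_lit 316153) (nat_lit 30294) (nat_lit 1163503) (nat_lit 0) (nat_lit 0),Row.mk (nat_lit 19656) (nat_lit 23562) (nat_lit 316153) (nat_lit 30107) (nat_lit 1516211) (nat_lit 0) (nat_lit 0),Row.mk (nat_lit 19824) (nat_lit 23375) (nat_lit 316153) (nat_lit 29920) (nat_lit 1956734) (nat_lit 0) (nat_lit 0),Row.mk (nat_lit 19992) (nat_lit 23188) (nat_lit 316153) (nat_lit 29733) (nat_lit 2506937) (nat_lit 0) (nat_lit 0),Row.mk (nat_lit 20160) (nat_lit 23001) (nat_lit 316153) (nat_lit 29546) (nat_lit 3194127) (nat_lit 0) (nat_lit 0),Row.mk (nat_lit 20328) (nat_lit 22814) (nat_lit 316153) (nat_lit 29359) (nat_lit 4052411) (nat_lit 0) (nat_lit 0),Row.mk (nat_lit 20496) (nat_lit 22627) (nat_lit 316153)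 (nat_lit 29172) (nat_lit 5124387) (nat_lit 0) (nat_lit 0),Row.mk (nat_lit 20664) (nat_lit 22440) (nat_lit 316153) (nat_lit 28985) (nat_lit 6463259) (nat_lit 0) (nat_lit 0),Row.mk (nat_lit 20832) (nat_lit 22253) (nat_lit 316153) (nat_lit 28798) (nat_lit 8135478) (nat_lit 0) (nat_lit 0),Row.mk (nat_lit 21000) (nat_lit 22066) (nat_lit 316153) (nat_lit 28611) (nat_lit 10224039) (nat_lit 0) (nat_lit 0),Row.mk (nat_lit 21168) (nat_lit 21879) (nat_lit 316153) (nat_lit 28424) (nat_lit 12832601) (nat_lit 0) (nat_lit 0),Row.mk (nat_lit 21336) (nat_lit 21692) (nat_lit 316153) (nat_lit 28237) (nat_lit 16090632) (nat_lit 0) (nat_lit 0),Row.mk (nat_lit 21504) (nat_lit 21505) (nat_lit 316153) (nat_lit 28050) (nat_lit 20159835) (nat_lit 0) (nat_lit 0),Row.mk (nat_lit 21672) (nat_lit 21318) (nat_lit 316153) (nat_lit 27863) (nat_lit 25242171) (nat_lit 0) (nat_lit 0),Row.mk (nat_lit 21840) (nat_lit 21131) (nat_lit 316153) (nat_lit 27676) (nat_lit 31589886)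 (nat_lit 0) (nat_lit 0),Row.mk (nat_lit 22008) (nat_lit 20944) (nat_lit 316153) (nat_lit 27489) (nat_lit 39518029) (nat_lit 0) (nat_lit 0),Row.mk (nat_lit 22176) (nat_lit 32912) (nat_lit 63023) (nat_lit 62084) (nat_lit 49610195) (nat_lit 0) (nat_lit 0),Row.mk (nat_lit 22344) (nat_lit 32912) (nat_lit 63023) (nat_lit 62084) (nat_lit 61977628) (nat_lit 0) (nat_lit 0),Row.mk (nat_lit 22512) (nat_lit 32912) (nat_lit 63023) (nat_lit 62084) (nat_lit 77424254) (nat_lit 0) (nat_lit 0),Row.mk (nat_lit 22680) (nat_lit 32912) (nat_lit 63023) (nat_lit 62084) (nat_lit 96716716) (nat_lit 0) (nat_lit 0),Row.mk (nat_lit 22848) (nat_lit 32912) (nat_lit 63023) (nat_lit 62084) (nat_lit 120812537) (nat_lit 0) (nat_lit 0),Row.mk (nat_lit 23016) (nat_lit 32912) (nat_lit 63023) (nat_lit 62084) (nat_lit 150907636) (nat_lit 0) (nat_lit 0),Row.mk (nat_lit 23184) (nat_lit 32912) (nat_lit 63023) (nat_lit 62084) (nat_lit 188495688) (nat_lit 0) (nat_lit 0),Row.mk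 (nat_lit 23352) (nat_lit 32912) (nat_lit 63023) (nat_lit 62084) (nat_lit 235442258) (nat_lit 0) (nat_lit 0),Row.mk (nat_lit 23520) (nat_lit 32912) (nat_lit 63023) (nat_lit 62084) (nat_lit 294077392) (nat_lit 0) (nat_lit 0),Row.mk (nat_lit 23688) (nat_lit 32912) (nat_lit 63023) (nat_lit 62084) (nat_lit 367311260) (nat_lit 0) (nat_lit 0),Row.mk (nat_lit 23856) (nat_lit 32912) (nat_lit 63023) (nat_lit 62084) (nat_lit 458778594) (nat_lit 0) (nat_lit 0),Row.mk (nat_lit 24024) (nat_lit 32912) (nat_lit 63023) (nat_lit 62084) (nat_lit 573019088) (nat_lit 0) (nat_lit 0),Row.mk (nat_lit 24192) (nat_lit 32912) (nat_lit 63023) (nat_lit 62084) (nat_lit 715702709) (nat_lit 0) (nat_lit 0),Row.mk (nat_lit 24360) (nat_lit 32912) (nat_lit 63023) (nat_lit 62084) (nat_lit 893911109) (nat_lit 0) (nat_lit 0),Row.mk (nat_lit 24528) (nat_lit 32912) (nat_lit 63023) (nat_lit 62084) (nat_lit 1116489102) (nat_lit 0) (nat_lit 0),Row.mk (nat_lit 24696) (nat_lit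 32912) (nat_lit 63023) (nat_lit 62084) (nat_lit 1394483646) (nat_lit 0) (nat_lit 0),Row.mk (nat_lit 24864) (nat_lit 32912) (nat_lit 63023) (nat_lit 62084) (nat_lit 1741692125) (nat_lit 0) (nat_lit 0),Row.mk (nat_lit 25032) (nat_lit 32912) (nat_lit 63023) (nat_lit 62084) (nat_lit 2175347139) (nat_lit 0) (nat_lit 0),Row.mk (nat_lit 25200) (nat_lit 32912) (nat_lit 63023) (nat_lit 62084) (nat_lit 2716971791) (nat_lit 0) (nat_lit 0),Row.mk (nat_lit 25368) (nat_lit 32912) (nat_lit 63023) (nat_lit 62084) (nat_lit 3393447914) (nat_lit 0) (nat_lit 0),Row.mk (nat_lit 25536) (nat_lit 32912) (nat_lit 63023) (nat_lit 62084) (nat_lit 4238350273) (nat_lit 0) (nat_lit 0),Row.mk (nat_lit 25704) (nat_lit 32912) (nat_lit 63023) (nat_lit 62084) (nat_lit 5293612938) (nat_lit 0) (nat_lit 0),Row.mk (nat_lit 25872) (nat_lit 32912) (nat_lit 63023) (nat_lit 62084) (nat_lit 6611610549) (nat_lit 0) (nat_lit 0),Row.mk (nat_lit 26040) (nat_lit 32912) (nat_lit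 63023) (nat_lit 62084) (nat_lit 8257757769) (nat_lit 0) (nat_lit 0)],
[Row.mk (nat_lit 11760) (nat_lit 32912) (nat_lit 51) (nat_lit 61897) (nat_lit 78663) (nat_lit 0) (nat_lit 0),Row.mk (nat_lit 11928) (nat_lit 32912) (nat_lit 64) (nat_lit 61897) (nat_lit 78650) (nat_lit 0) (nat_lit 0),Row.mk (nat_lit 12096) (nat_lit 32912) (nat_lit 79) (nat_lit 61897) (nat_lit 78634) (nat_lit 0) (nat_lit 0),Row.mk (nat_lit 12264) (nat_lit 32912) (nat_lit 99) (nat_lit 61897) (nat_lit 78614) (nat_lit 0) (nat_lit 0),Row.mk (nat_lit 12432) (nat_lit 0) (nat_lit 625) (nat_lit 748) (nat_lit 78213) (nat_lit 0) (nat_lit 0),Row.mk (nat_lit 12600) (nat_lit 561) (nat_lit 781) (nat_lit 1309) (nat_lit 78088) (nat_lit 0) (nat_lit 0),Row.mk (nat_lit 12768) (nat_lit 1122) (nat_lit 976) (nat_lit 1870) (nat_lit 77933) (nat_lit 0) (nat_lit 0),Row.mk (nat_lit 12936) (nat_lit 1683) (nat_lit 1219) (nat_lit 2431) (nat_lit 77738) (nat_lit 0) (nat_lit 0),Row.mk (nat_lit 13104)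 (nat_lit 2244) (nat_lit 1522) (nat_lit 2992) (nat_lit 77495) (nat_lit 0) (nat_lit 0),Row.mk (nat_lit 13272) (nat_lit 2805) (nat_lit 1901) (nat_lit 3553) (nat_lit 77191) (nat_lit 0) (nat_lit 0),Row.mk (nat_lit 13440) (nat_lit 3366) (nat_lit 2375) (nat_lit 4114) (nat_lit 76812) (nat_lit 0) (nat_lit 0),Row.mk (nat_lit 13608) (nat_lit 3927) (nat_lit 2966) (nat_lit 4675) (nat_lit 76339) (nat_lit 0) (nat_lit 0),Row.mk (nat_lit 13776) (nat_lit 4488) (nat_lit 3705) (nat_lit 5236) (nat_lit 75747) (nat_lit 0) (nat_lit 0),Row.mk (nat_lit 13944) (nat_lit 5049) (nat_lit 4627) (nat_lit 5797) (nat_lit 75009) (nat_lit 0) (nat_lit 0),Row.mk (nat_lit 14112) (nat_lit 5610) (nat_lit 5779) (nat_lit 6358) (nat_lit 74086) (nat_lit 0) (nat_lit 0),Row.mk (nat_lit 14280) (nat_lit 6171) (nat_lit 7219) (nat_lit 6919) (nat_lit 72934) (nat_lit 0) (nat_lit 0),Row.mk (nat_lit 14448) (nat_lit 6732) (nat_lit 9016) (nat_lit 7480) (nat_lit 71495) (nat_lit 0) (nat_lit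 0),Row.mk (nat_lit 14616) (nat_lit 7293) (nat_lit 11261) (nat_lit 8041) (nat_lit 69698) (nat_lit 0) (nat_lit 0),Row.mk (nat_lit 14784) (nat_lit 7854) (nat_lit 14065) (nat_lit 8602) (nat_lit 67453) (nat_lit 0) (nat_lit 0),Row.mk (nat_lit 14952) (nat_lit 8415) (nat_lit 17566) (nat_lit 9163) (nat_lit 64649) (nat_lit 0) (nat_lit 0),Row.mk (nat_lit 15120) (nat_lit 8976) (nat_lit 21940) (nat_lit 9724) (nat_lit 61147) (nat_lit 0) (nat_lit 0),Row.mk (nat_lit 15288) (nat_lit 9537) (nat_lit 27403) (nat_lit 10285) (nat_lit 56773) (nat_lit 0) (nat_lit 0),Row.mk (nat_lit 15456) (nat_lit 10098) (nat_lit 34226) (nat_lit 10846) (nat_lit 51311) (nat_lit 0) (nat_lit 0),Row.mk (nat_lit 15624) (nat_lit 10659) (nat_lit 42747) (nat_lit 11407) (nat_lit 44488) (nat_lit 0) (nat_lit 0),Row.mk (nat_lit 15792) (nat_lit 11220) (nat_lit 53390) (nat_lit 11968) (nat_lit 35966) (nat_lit 0) (nat_lit 0),Row.mk (nat_lit 15960) (nat_lit 11781) (nat_lit 66683) (nat_lit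 12716) (nat_lit 25323) (nat_lit 0) (nat_lit 0),Row.mk (nat_lit 16128) (nat_lit 12529) (nat_lit 83286) (nat_lit 13464) (nat_lit 12030) (nat_lit 0) (nat_lit 0),Row.mk (nat_lit 16296) (nat_lit 12342) (nat_lit 5709) (nat_lit 13277) (nat_lit 93740) (nat_lit 0) (nat_lit 0),Row.mk (nat_lit 16464) (nat_lit 13090) (nat_lit 31609) (nat_lit 14025) (nat_lit 73004) (nat_lit 0) (nat_lit 0),Row.mk (nat_lit 16632) (nat_lit 13838) (nat_lit 63956) (nat_lit 15147) (nat_lit 47105) (nat_lit 0) (nat_lit 0),Row.mk (nat_lit 16800) (nat_lit 14960) (nat_lit 104357) (nat_lit 16456) (nat_lit 14758) (nat_lit 0) (nat_lit 0),Row.mk (nat_lit 16968) (nat_lit 14773) (nat_lit 32027) (nat_lit 16269) (nat_lit 97147) (nat_lit 0) (nat_lit 0),Row.mk (nat_lit 17136) (nat_lit 16082) (nat_lit 95050) (nat_lit 17765) (nat_lit 46687) (nat_lit 0) (nat_lit 0),Row.mk (nat_lit 17304) (nat_lit 15895) (nat_lit 20403) (nat_lit 17578) (nat_lit 137025) (nat_lit 0) (nat_lit 0),Row.mk (nat_lit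 17472) (nat_lit 17391) (nat_lit 118716) (nat_lit 19635) (nat_lit 58311) (nat_lit 0) (nat_lit 0),Row.mk (nat_lit 17640) (nat_lit 17204) (nat_lit 49960) (nat_lit 19448) (nat_lit 151543) (nat_lit 0) (nat_lit 0),Row.mk (nat_lit 17808) (nat_lit 19261) (nat_lit 203322) (nat_lit 25806) (nat_lit 28753) (nat_lit 0) (nat_lit 0),Row.mk (nat_lit 17976) (nat_lit 19074) (nat_lit 155632) (nat_lit 25619) (nat_lit 114627) (nat_lit 0) (nat_lit 0),Row.mk (nat_lit 18144) (nat_lit 18887) (nat_lit 96068) (nat_lit 25432) (nat_lit 221881) (nat_lit 0) (nat_lit 0),Row.mk (nat_lit 18312) (nat_lit 18700) (nat_lit 21674) (nat_lit 25245) (nat_lit 355838) (nat_lit 0) (nat_lit 0),Row.mk (nat_lit 18480) (nat_lit 25058) (nat_lit 394867) (nat_lit 31603) (nat_lit 57039) (nat_lit 0) (nat_lit 0),Row.mk (nat_lit 18648) (nat_lit 24871) (nat_lit 394867) (nat_lit 31416) (nat_lit 149955) (nat_lit 0) (nat_lit 0),Row.mk (nat_lit 18816) (nat_lit 24684) (nat_lit 394867) (nat_lit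 31229) (nat_lit 266005) (nat_lit 0) (nat_lit 0),Row.mk (nat_lit 18984) (nat_lit 24497) (nat_lit 394867) (nat_lit 31042) (nat_lit 410948) (nat_lit 0) (nat_lit 0),Row.mk (nat_lit 19152) (nat_lit 24310) (nat_lit 394867) (nat_lit 30855) (nat_lit 591979) (nat_lit 0) (nat_lit 0),Row.mk (nat_lit 19320) (nat_lit 24123) (nat_lit 394867) (nat_lit 30668) (nat_lit 818082) (nat_lit 0) (nat_lit 0),Row.mk (nat_lit 19488) (nat_lit 23936) (nat_lit 394867) (nat_lit 30481) (nat_lit 1100480) (nat_lit 0) (nat_lit 0),Row.mk (nat_lit 19656) (nat_lit 23749) (nat_lit 394867) (nat_lit 30294) (nat_lit 1453187) (nat_lit 0) (nat_lit 0),Row.mk (nat_lit 19824) (nat_lit 23562) (nat_lit 394867) (nat_lit 30107) (nat_lit 1893711) (nat_lit 0) (nat_lit 0),Row.mk (nat_lit 19992) (nat_lit 23375) (nat_lit 394867) (nat_lit 29920) (nat_lit 2443913) (nat_lit 0) (nat_lit 0),Row.mk (nat_lit 20160) (nat_lit 23188) (nat_lit 394867) (nat_lit 29733) (nat_lit 3131104) (nat_lit 0)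 (nat_lit 0),Row.mk (nat_lit 20328) (nat_lit 23001) (nat_lit 394867) (nat_lit 29546) (nat_lit 3989388) (nat_lit 0) (nat_lit 0),Row.mk (nat_lit 20496) (nat_lit 22814) (nat_lit 394867) (nat_lit 29359) (nat_lit 5061363) (nat_lit 0) (nat_lit 0),Row.mk (nat_lit 20664) (nat_lit 22627) (nat_lit 394867) (nat_lit 29172) (nat_lit 6400235) (nat_lit 0) (nat_lit 0),Row.mk (nat_lit 20832) (nat_lit 22440) (nat_lit 394867) (nat_lit 28985) (nat_lit 8072454) (nat_lit 0) (nat_lit 0),Row.mk (nat_lit 21000) (nat_lit 22253) (nat_lit 394867) (nat_lit 28798) (nat_lit 10161015) (nat_lit 0) (nat_lit 0),Row.mk (nat_lit 21168) (nat_lit 22066) (nat_lit 394867) (nat_lit 28611) (nat_lit 12769578) (nat_lit 0) (nat_lit 0),Row.mk (nat_lit 21336) (nat_lit 21879) (nat_lit 394867) (nat_lit 28424) (nat_lit 16027609) (nat_lit 0) (nat_lit 0),Row.mk (nat_lit 21504) (nat_lit 21692) (nat_lit 394867) (nat_lit 28237) (nat_lit 20096812) (nat_lit 0) (nat_lit 0),Row.mk (nat_lit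 21672) (nat_lit 21505) (nat_lit 394867) (nat_lit 28050) (nat_lit 25179148) (nat_lit 0) (nat_lit 0),Row.mk (nat_lit 21840) (nat_lit 21318) (nat_lit 394867) (nat_lit 27863) (nat_lit 31526863) (nat_lit 0) (nat_lit 0),Row.mk (nat_lit 22008) (nat_lit 21131) (nat_lit 394867) (nat_lit 27676) (nat_lit 39455006) (nat_lit 0) (nat_lit 0),Row.mk (nat_lit 22176) (nat_lit 20944) (nat_lit 394867) (nat_lit 27489) (nat_lit 49357065) (nat_lit 0) (nat_lit 0),Row.mk (nat_lit 22344) (nat_lit 32912) (nat_lit 78714) (nat_lit 62084) (nat_lit 61961937) (nat_lit 0) (nat_lit 0),Row.mk (nat_lit 22512) (nat_lit 32912) (nat_lit 78714) (nat_lit 62084) (nat_lit 77408562) (nat_lit 0) (nat_lit 0),Row.mk (nat_lit 22680) (nat_lit 32912) (nat_lit 78714) (nat_lit 62084) (nat_lit 96701025) (nat_lit 0) (nat_lit 0),Row.mk (nat_lit 22848) (nat_lit 32912) (nat_lit 78714) (nat_lit 62084) (nat_lit 120796846) (nat_lit 0) (nat_lit 0),Row.mk (nat_lit 23016) (nat_lit 32912) (nat_lit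 78714) (nat_lit 62084) (nat_lit 150891944) (nat_lit 0) (nat_lit 0),Row.mk (nat_lit 23184) (nat_lit 32912) (nat_lit 78714) (nat_lit 62084) (nat_lit 188479997) (nat_lit 0) (nat_lit 0),Row.mk (nat_lit 23352) (nat_lit 32912) (nat_lit 78714) (nat_lit 62084) (nat_lit 235426567) (nat_lit 0) (nat_lit 0),Row.mk (nat_lit 23520) (nat_lit 32912) (nat_lit 78714) (nat_lit 62084) (nat_lit 294061701) (nat_lit 0) (nat_lit 0),Row.mk (nat_lit 23688) (nat_lit 32912) (nat_lit 78714) (nat_lit 62084) (nat_lit 367295569) (nat_lit 0) (nat_lit 0),Row.mk (nat_lit 23856) (nat_lit 32912) (nat_lit 78714) (nat_lit 62084) (nat_lit 458762903) (nat_lit 0) (nat_lit 0),Row.mk (nat_lit 24024) (nat_lit 32912) (nat_lit 78714) (nat_lit 62084) (nat_lit 573003397) (nat_lit 0) (nat_lit 0),Row.mk (nat_lit 24192) (nat_lit 32912) (nat_lit 78714) (nat_lit 62084) (nat_lit 715687017) (nat_lit 0) (nat_lit 0),Row.mk (nat_lit 24360) (nat_lit 32912) (nat_lit 78714) (nat_lit 62084) (nat_lit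 893895418) (nat_lit 0) (nat_lit 0),Row.mk (nat_lit 24528) (nat_lit 32912) (nat_lit 78714) (nat_lit 62084) (nat_lit 1116473411) (nat_lit 0) (nat_lit 0),Row.mk (nat_lit 24696) (nat_lit 32912) (nat_lit 78714) (nat_lit 62084) (nat_lit 1394467955) (nat_lit 0) (nat_lit 0),Row.mk (nat_lit 24864) (nat_lit 32912) (nat_lit 78714) (nat_lit 62084) (nat_lit 1741676434) (nat_lit 0) (nat_lit 0),Row.mk (nat_lit 25032) (nat_lit 32912) (nat_lit 78714) (nat_lit 62084) (nat_lit 2175331448) (nat_lit 0) (nat_lit 0),Row.mk (nat_lit 25200) (nat_lit 32912) (nat_lit 78714) (nat_lit 62084) (nat_lit 2716956099) (nat_lit 0) (nat_lit 0),Row.mk (nat_lit 25368) (nat_lit 32912) (nat_lit 78714) (nat_lit 62084) (nat_lit 3393432223) (nat_lit 0) (nat_lit 0),Row.mk (nat_lit 25536) (nat_lit 32912) (nat_lit 78714) (nat_lit 62084) (nat_lit 4238334582) (nat_lit 0) (nat_lit 0),Row.mk (nat_lit 25704) (nat_lit 32912) (nat_lit 78714) (nat_lit 62084) (nat_lit 5293597247) (nat_lit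 0) (nat_lit 0),Row.mk (nat_lit 25872) (nat_lit 32912) (nat_lit 78714) (nat_lit 62084) (nat_lit 6611594857) (nat_lit 0) (nat_lit 0),Row.mk (nat_lit 26040) (nat_lit 32912) (nat_lit 78714) (nat_lit 62084) (nat_lit 8257742078) (nat_lit 0) (nat_lit 0)],
[Row.mk (nat_lit 11592) (nat_lit 32912) (nat_lit 41) (nat_lit 61897) (nat_lit 98271) (nat_lit 0) (nat_lit 0),Row.mk (nat_lit 11760) (nat_lit 32912) (nat_lit 51) (nat_lit 61897) (nat_lit 98261) (nat_lit 0) (nat_lit 0),Row.mk (nat_lit 11928) (nat_lit 32912) (nat_lit 64) (nat_lit 61897) (nat_lit 98248) (nat_lit 0) (nat_lit 0),Row.mk (nat_lit 12096) (nat_lit 32912) (nat_lit 79) (nat_lit 61897) (nat_lit 98232) (nat_lit 0) (nat_lit 0),Row.mk (nat_lit 12264) (nat_lit 32912) (nat_lit 99) (nat_lit 61897) (nat_lit 98212) (nat_lit 0) (nat_lit 0),Row.mk (nat_lit 12432) (nat_lit 32912) (nat_lit 124) (nat_lit 61897) (nat_lit 98187) (nat_lit 0) (nat_lit 0),Row.mk (nat_lit 12600) (nat_lit 0) (nat_lit 781)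 (nat_lit 748) (nat_lit 97686) (nat_lit 0) (nat_lit 0),Row.mk (nat_lit 12768) (nat_lit 561) (nat_lit 976) (nat_lit 1309) (nat_lit 97531) (nat_lit 0) (nat_lit 0),Row.mk (nat_lit 12936) (nat_lit 1122) (nat_lit 1219) (nat_lit 1870) (nat_lit 97336) (nat_lit 0) (nat_lit 0),Row.mk (nat_lit 13104) (nat_lit 1683) (nat_lit 1522) (nat_lit 2431) (nat_lit 97093) (nat_lit 0) (nat_lit 0),Row.mk (nat_lit 13272) (nat_lit 2244) (nat_lit 1901) (nat_lit 2992) (nat_lit 96789) (nat_lit 0) (nat_lit 0),Row.mk (nat_lit 13440) (nat_lit 2805) (nat_lit 2375) (nat_lit 3553) (nat_lit 96410) (nat_lit 0) (nat_lit 0),Row.mk (nat_lit 13608) (nat_lit 3366) (nat_lit 2966) (nat_lit 4114) (nat_lit 95937) (nat_lit 0) (nat_lit 0),Row.mk (nat_lit 13776) (nat_lit 3927) (nat_lit 3705) (nat_lit 4675) (nat_lit 95345) (nat_lit 0) (nat_lit 0),Row.mk (nat_lit 13944) (nat_lit 4488) (nat_lit 4627) (nat_lit 5236) (nat_lit 94607) (nat_lit 0) (nat_lit 0),Row.mk (nat_lit 14112) (nat_lit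 5049) (nat_lit 5779) (nat_lit 5797) (nat_lit 93684) (nat_lit 0) (nat_lit 0),Row.mk (nat_lit 14280) (nat_lit 5610) (nat_lit 7219) (nat_lit 6358) (nat_lit 92532) (nat_lit 0) (nat_lit 0),Row.mk (nat_lit 14448) (nat_lit 6171) (nat_lit 9016) (nat_lit 6919) (nat_lit 91093) (nat_lit 0) (nat_lit 0),Row.mk (nat_lit 14616) (nat_lit 6732) (nat_lit 11261) (nat_lit 7480) (nat_lit 89296) (nat_lit 0) (nat_lit 0),Row.mk (nat_lit 14784) (nat_lit 7293) (nat_lit 14065) (nat_lit 8041) (nat_lit 87051) (nat_lit 0) (nat_lit 0),Row.mk (nat_lit 14952) (nat_lit 7854) (nat_lit 17566) (nat_lit 8602) (nat_lit 84247) (nat_lit 0) (nat_lit 0),Row.mk (nat_lit 15120) (nat_lit 8415) (nat_lit 21940) (nat_lit 9163) (nat_lit 80745) (nat_lit 0) (nat_lit 0),Row.mk (nat_lit 15288) (nat_lit 8976) (nat_lit 27403) (nat_lit 9724) (nat_lit 76371) (nat_lit 0) (nat_lit 0),Row.mk (nat_lit 15456) (nat_lit 9537) (nat_lit 34226) (nat_lit 10285) (nat_lit 70909) (nat_lit 0) (nat_lit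 0),Row.mk (nat_lit 15624) (nat_lit 10098) (nat_lit 42747) (nat_lit 10846) (nat_lit 64086) (nat_lit 0) (nat_lit 0),Row.mk (nat_lit 15792) (nat_lit 10659) (nat_lit 53390) (nat_lit 11407) (nat_lit 55564) (nat_lit 0) (nat_lit 0),Row.mk (nat_lit 15960) (nat_lit 11220) (nat_lit 66683) (nat_lit 11968) (nat_lit 44921) (nat_lit 0) (nat_lit 0),Row.mk (nat_lit 16128) (nat_lit 11781) (nat_lit 83286) (nat_lit 12716) (nat_lit 31628) (nat_lit 0) (nat_lit 0),Row.mk (nat_lit 16296) (nat_lit 12529) (nat_lit 104022) (nat_lit 13464) (nat_lit 15026) (nat_lit 0) (nat_lit 0),Row.mk (nat_lit 16464) (nat_lit 12342) (nat_lit 7131) (nat_lit 13277) (nat_lit 117080) (nat_lit 0) (nat_lit 0),Row.mk (nat_lit 16632) (nat_lit 13090) (nat_lit 39478) (nat_lit 14025) (nat_lit 91180) (nat_lit 0) (nat_lit 0),Row.mk (nat_lit 16800) (nat_lit 13838) (nat_lit 79880) (nat_lit 15147) (nat_lit 58833) (nat_lit 0) (nat_lit 0),Row.mk (nat_lit 16968) (nat_lit 14960) (nat_lit 130339)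 (nat_lit 16456) (nat_lit 18432) (nat_lit 0) (nat_lit 0),Row.mk (nat_lit 17136) (nat_lit 14773) (nat_lit 40001) (nat_lit 16269) (nat_lit 121334) (nat_lit 0) (nat_lit 0),Row.mk (nat_lit 17304) (nat_lit 16082) (nat_lit 118716) (nat_lit 17765) (nat_lit 58311) (nat_lit 0) (nat_lit 0),Row.mk (nat_lit 17472) (nat_lit 15895) (nat_lit 25483) (nat_lit 17578) (nat_lit 171141) (nat_lit 0) (nat_lit 0),Row.mk (nat_lit 17640) (nat_lit 17391) (nat_lit 148273) (nat_lit 19635) (nat_lit 72829) (nat_lit 0) (nat_lit 0),Row.mk (nat_lit 17808) (nat_lit 17204) (nat_lit 62399) (nat_lit 19448) (nat_lit 189274) (nat_lit 0) (nat_lit 0),Row.mk (nat_lit 17976) (nat_lit 19261) (nat_lit 253945) (nat_lit 25806) (nat_lit 35912) (nat_lit 0) (nat_lit 0),Row.mk (nat_lit 18144) (nat_lit 19074) (nat_lit 194381) (nat_lit 25619) (nat_lit 143166) (nat_lit 0) (nat_lit 0),Row.mk (nat_lit 18312) (nat_lit 18887) (nat_lit 119987) (nat_lit 25432) (nat_lit 277124) (nat_lit 0) (nat_lit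 0),Row.mk (nat_lit 18480) (nat_lit 18700) (nat_lit 27071) (nat_lit 25245) (nat_lit 444433) (nat_lit 0) (nat_lit 0),Row.mk (nat_lit 18648) (nat_lit 25058) (nat_lit 493180) (nat_lit 31603) (nat_lit 71241) (nat_lit 0) (nat_lit 0),Row.mk (nat_lit 18816) (nat_lit 24871) (nat_lit 493180) (nat_lit 31416) (nat_lit 187290) (nat_lit 0) (nat_lit 0),Row.mk (nat_lit 18984) (nat_lit 24684) (nat_lit 493180) (nat_lit 31229) (nat_lit 332234) (nat_lit 0) (nat_lit 0),Row.mk (nat_lit 19152) (nat_lit 24497) (nat_lit 493180) (nat_lit 31042) (nat_lit 513265) (nat_lit 0) (nat_lit 0),Row.mk (nat_lit 19320) (nat_lit 24310) (nat_lit 493180) (nat_lit 30855) (nat_lit 739368) (nat_lit 0) (nat_lit 0),Row.mk (nat_lit 19488) (nat_lit 24123) (nat_lit 493180) (nat_lit 30668) (nat_lit 1021765) (nat_lit 0) (nat_lit 0),Row.mk (nat_lit 19656) (nat_lit 23936) (nat_lit 493180) (nat_lit 30481) (nat_lit 1374473) (nat_lit 0) (nat_lit 0),Row.mk (nat_lit 19824) (nat_lit 23749)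 (nat_lit 493180) (nat_lit 30294) (nat_lit 1814996) (nat_lit 0) (nat_lit 0),Row.mk (nat_lit 19992) (nat_lit 23562) (nat_lit 493180) (nat_lit 30107) (nat_lit 2365199) (nat_lit 0) (nat_lit 0),Row.mk (nat_lit 20160) (nat_lit 23375) (nat_lit 493180) (nat_lit 29920) (nat_lit 3052389) (nat_lit 0) (nat_lit 0),Row.mk (nat_lit 20328) (nat_lit 23188) (nat_lit 493180) (nat_lit 29733) (nat_lit 3910673) (nat_lit 0) (nat_lit 0),Row.mk (nat_lit 20496) (nat_lit 23001) (nat_lit 493180) (nat_lit 29546) (nat_lit 4982649) (nat_lit 0) (nat_lit 0),Row.mk (nat_lit 20664) (nat_lit 22814) (nat_lit 493180) (nat_lit 29359) (nat_lit 6321521) (nat_lit 0) (nat_lit 0),Row.mk (nat_lit 20832) (nat_lit 22627) (nat_lit 493180) (nat_lit 29172) (nat_lit 7993740) (nat_lit 0) (nat_lit 0),Row.mk (nat_lit 21000) (nat_lit 22440) (nat_lit 493180) (nat_lit 28985) (nat_lit 10082301) (nat_lit 0) (nat_lit 0),Row.mk (nat_lit 21168) (nat_lit 22253) (nat_lit 493180) (nat_lit 28798)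 (nat_lit 12690863) (nat_lit 0) (nat_lit 0),Row.mk (nat_lit 21336) (nat_lit 22066) (nat_lit 493180) (nat_lit 28611) (nat_lit 15948895) (nat_lit 0) (nat_lit 0),Row.mk (nat_lit 21504) (nat_lit 21879) (nat_lit 493180) (nat_lit 28424) (nat_lit 20018097) (nat_lit 0) (nat_lit 0),Row.mk (nat_lit 21672) (nat_lit 21692) (nat_lit 493180) (nat_lit 28237) (nat_lit 25100433) (nat_lit 0) (nat_lit 0),Row.mk (nat_lit 21840) (nat_lit 21505) (nat_lit 493180) (nat_lit 28050) (nat_lit 31448148) (nat_lit 0) (nat_lit 0),Row.mk (nat_lit 22008) (nat_lit 21318) (nat_lit 493180) (nat_lit 27863) (nat_lit 39376291) (nat_lit 0) (nat_lit 0),Row.mk (nat_lit 22176) (nat_lit 21131) (nat_lit 493180) (nat_lit 27676) (nat_lit 49278350) (nat_lit 0) (nat_lit 0),Row.mk (nat_lit 22344) (nat_lit 20944) (nat_lit 493180) (nat_lit 27489) (nat_lit 61645784) (nat_lit 0) (nat_lit 0),Row.mk (nat_lit 22512) (nat_lit 32912) (nat_lit 98312) (nat_lit 62084) (nat_lit 77388964) (nat_lit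 0) (nat_lit 0),Row.mk (nat_lit 22680) (nat_lit 32912) (nat_lit 98312) (nat_lit 62084) (nat_lit 96681427) (nat_lit 0) (nat_lit 0),Row.mk (nat_lit 22848) (nat_lit 32912) (nat_lit 98312) (nat_lit 62084) (nat_lit 120777248) (nat_lit 0) (nat_lit 0),Row.mk (nat_lit 23016) (nat_lit 32912) (nat_lit 98312) (nat_lit 62084) (nat_lit 150872346) (nat_lit 0) (nat_lit 0),Row.mk (nat_lit 23184) (nat_lit 32912) (nat_lit 98312) (nat_lit 62084) (nat_lit 188460398) (nat_lit 0) (nat_lit 0),Row.mk (nat_lit 23352) (nat_lit 32912) (nat_lit 98312) (nat_lit 62084) (nat_lit 235406969) (nat_lit 0) (nat_lit 0),Row.mk (nat_lit 23520) (nat_lit 32912) (nat_lit 98312) (nat_lit 62084) (nat_lit 294042103) (nat_lit 0) (nat_lit 0),Row.mk (nat_lit 23688) (nat_lit 32912) (nat_lit 98312) (nat_lit 62084) (nat_lit 367275971) (nat_lit 0) (nat_lit 0),Row.mk (nat_lit 23856) (nat_lit 32912) (nat_lit 98312) (nat_lit 62084) (nat_lit 458743305) (nat_lit 0) (nat_lit 0),Row.mk (nat_lit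 24024) (nat_lit 32912) (nat_lit 98312) (nat_lit 62084) (nat_lit 572983799) (nat_lit 0) (nat_lit 0),Row.mk (nat_lit 24192) (nat_lit 32912) (nat_lit 98312) (nat_lit 62084) (nat_lit 715667419) (nat_lit 0) (nat_lit 0),Row.mk (nat_lit 24360) (nat_lit 32912) (nat_lit 98312) (nat_lit 62084) (nat_lit 893875820) (nat_lit 0) (nat_lit 0),Row.mk (nat_lit 24528) (nat_lit 32912) (nat_lit 98312) (nat_lit 62084) (nat_lit 1116453813) (nat_lit 0) (nat_lit 0),Row.mk (nat_lit 24696) (nat_lit 32912) (nat_lit 98312) (nat_lit 62084) (nat_lit 1394448357) (nat_lit 0) (nat_lit 0),Row.mk (nat_lit 24864) (nat_lit 32912) (nat_lit 98312) (nat_lit 62084) (nat_lit 1741656836) (nat_lit 0) (nat_lit 0),Row.mk (nat_lit 25032) (nat_lit 32912) (nat_lit 98312) (nat_lit 62084) (nat_lit 2175311850) (nat_lit 0) (nat_lit 0),Row.mk (nat_lit 25200) (nat_lit 32912) (nat_lit 98312) (nat_lit 62084) (nat_lit 2716936501) (nat_lit 0) (nat_lit 0),Row.mk (nat_lit 25368) (nat_lit 32912)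 (nat_lit 98312) (nat_lit 62084) (nat_lit 3393412625) (nat_lit 0) (nat_lit 0),Row.mk (nat_lit 25536) (nat_lit 32912) (nat_lit 98312) (nat_lit 62084) (nat_lit 4238314984) (nat_lit 0) (nat_lit 0),Row.mk (nat_lit 25704) (nat_lit 32912) (nat_lit 98312) (nat_lit 62084) (nat_lit 5293577649) (nat_lit 0) (nat_lit 0),Row.mk (nat_lit 25872) (nat_lit 32912) (nat_lit 98312) (nat_lit 62084) (nat_lit 6611575259) (nat_lit 0) (nat_lit 0),Row.mk (nat_lit 26040) (nat_lit 32912) (nat_lit 98312) (nat_lit 62084) (nat_lit 8257722480) (nat_lit 0) (nat_lit 0)],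
[Row.mk (nat_lit 11424) (nat_lit 32912) (nat_lit 32) (nat_lit 61897) (nat_lit 122757) (nat_lit 0) (nat_lit 0),Row.mk (nat_lit 11592) (nat_lit 32912) (nat_lit 41) (nat_lit 61897) (nat_lit 122748) (nat_lit 0) (nat_lit 0),Row.mk (nat_lit 11760) (nat_lit 32912) (nat_lit 51) (nat_lit 61897) (nat_lit 122738) (nat_lit 0) (nat_lit 0),Row.mk (nat_lit 11928) (nat_lit 32912) (nat_lit 64) (nat_lit 61897) (nat_lit 122725) (nat_lit 0) (nat_lit 0),Row.mk (nat_lit 12096) (nat_lit 32912) (nat_lit 79) (nat_lit 61897) (nat_lit 122710) (nat_lit 0) (nat_lit 0),Row.mk (nat_lit 12264) (nat_lit 32912) (nat_lit 99) (nat_lit 61897) (nat_lit 122690) (nat_lit 0) (nat_lit 0),Row.mk (nat_lit 12432) (nat_lit 32912) (nat_lit 124) (nat_lit 61897) (nat_lit 122665) (nat_lit 0) (nat_lit 0),Row.mk (nat_lit 12600) (nat_lit 32912) (nat_lit 155) (nat_lit 61897) (nat_lit 122634) (nat_lit 0) (nat_lit 0),Row.mk (nat_lit 12768) (nat_lit 0) (nat_lit 976) (nat_lit 748) (nat_lit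 122008) (nat_lit 0) (nat_lit 0),Row.mk (nat_lit 12936) (nat_lit 561) (nat_lit 1219) (nat_lit 1309) (nat_lit 121813) (nat_lit 0) (nat_lit 0),Row.mk (nat_lit 13104) (nat_lit 1122) (nat_lit 1522) (nat_lit 1870) (nat_lit 121570) (nat_lit 0) (nat_lit 0),Row.mk (nat_lit 13272) (nat_lit 1683) (nat_lit 1901) (nat_lit 2431) (nat_lit 121267) (nat_lit 0) (nat_lit 0),Row.mk (nat_lit 13440) (nat_lit 2244) (nat_lit 2375) (nat_lit 2992) (nat_lit 120888) (nat_lit 0) (nat_lit 0),Row.mk (nat_lit 13608) (nat_lit 2805) (nat_lit 2966) (nat_lit 3553) (nat_lit 120414) (nat_lit 0) (nat_lit 0),Row.mk (nat_lit 13776) (nat_lit 3366) (nat_lit 3705) (nat_lit 4114) (nat_lit 119823) (nat_lit 0) (nat_lit 0),Row.mk (nat_lit 13944) (nat_lit 3927) (nat_lit 4627) (nat_lit 4675) (nat_lit 119084) (nat_lit 0) (nat_lit 0),Row.mk (nat_lit 14112) (nat_lit 4488) (nat_lit 5779) (nat_lit 5236) (nat_lit 118162) (nat_lit 0) (nat_lit 0),Row.mk (nat_lit 14280) (nat_lit 5049) (nat_lit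 7219) (nat_lit 5797) (nat_lit 117010) (nat_lit 0) (nat_lit 0),Row.mk (nat_lit 14448) (nat_lit 5610) (nat_lit 9016) (nat_lit 6358) (nat_lit 115570) (nat_lit 0) (nat_lit 0),Row.mk (nat_lit 14616) (nat_lit 6171) (nat_lit 11261) (nat_lit 6919) (nat_lit 113773) (nat_lit 0) (nat_lit 0),Row.mk (nat_lit 14784) (nat_lit 6732) (nat_lit 14065) (nat_lit 7480) (nat_lit 111528) (nat_lit 0) (nat_lit 0),Row.mk (nat_lit 14952) (nat_lit 7293) (nat_lit 17566) (nat_lit 8041) (nat_lit 108724) (nat_lit 0) (nat_lit 0),Row.mk (nat_lit 15120) (nat_lit 7854) (nat_lit 21940) (nat_lit 8602) (nat_lit 105223) (nat_lit 0) (nat_lit 0),Row.mk (nat_lit 15288) (nat_lit 8415) (nat_lit 27403) (nat_lit 9163) (nat_lit 100849) (nat_lit 0) (nat_lit 0),Row.mk (nat_lit 15456) (nat_lit 8976) (nat_lit 34226) (nat_lit 9724) (nat_lit 95386) (nat_lit 0) (nat_lit 0),Row.mk (nat_lit 15624) (nat_lit 9537) (nat_lit 42747) (nat_lit 10285) (nat_lit 88563) (nat_lit 0) (nat_lit 0),Row.mk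 (nat_lit 15792) (nat_lit 10098) (nat_lit 53390) (nat_lit 10846) (nat_lit 80042) (nat_lit 0) (nat_lit 0),Row.mk (nat_lit 15960) (nat_lit 10659) (nat_lit 66683) (nat_lit 11407) (nat_lit 69399) (nat_lit 0) (nat_lit 0),Row.mk (nat_lit 16128) (nat_lit 11220) (nat_lit 83286) (nat_lit 11968) (nat_lit 56106) (nat_lit 0) (nat_lit 0),Row.mk (nat_lit 16296) (nat_lit 11781) (nat_lit 104022) (nat_lit 12716) (nat_lit 39503) (nat_lit 0) (nat_lit 0),Row.mk (nat_lit 16464) (nat_lit 12529) (nat_lit 129921) (nat_lit 13464) (nat_lit 18767) (nat_lit 0) (nat_lit 0),Row.mk (nat_lit 16632) (nat_lit 12342) (nat_lit 8907) (nat_lit 13277) (nat_lit 146230) (nat_lit 0) (nat_lit 0),Row.mk (nat_lit 16800) (nat_lit 13090) (nat_lit 49308) (nat_lit 14025) (nat_lit 113882) (nat_lit 0) (nat_lit 0),Row.mk (nat_lit 16968) (nat_lit 13838) (nat_lit 99768) (nat_lit 15147) (nat_lit 73481) (nat_lit 0) (nat_lit 0),Row.mk (nat_lit 17136) (nat_lit 14960) (nat_lit 162791) (nat_lit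 16456) (nat_lit 23021) (nat_lit 0) (nat_lit 0),Row.mk (nat_lit 17304) (nat_lit 14773) (nat_lit 49960) (nat_lit 16269) (nat_lit 151543) (nat_lit 0) (nat_lit 0),Row.mk (nat_lit 17472) (nat_lit 16082) (nat_lit 148273) (nat_lit 17765) (nat_lit 72829) (nat_lit 0) (nat_lit 0),Row.mk (nat_lit 17640) (nat_lit 15895) (nat_lit 31828) (nat_lit 17578) (nat_lit 213751) (nat_lit 0) (nat_lit 0),Row.mk (nat_lit 17808) (nat_lit 17391) (nat_lit 185189) (nat_lit 19635) (nat_lit 90961) (nat_lit 0) (nat_lit 0),Row.mk (nat_lit 17976) (nat_lit 17204) (nat_lit 77936) (nat_lit 19448) (nat_lit 236399) (nat_lit 0) (nat_lit 0),Row.mk (nat_lit 18144) (nat_lit 19261) (nat_lit 317171) (nat_lit 25806) (nat_lit 44853) (nat_lit 0) (nat_lit 0),Row.mk (nat_lit 18312) (nat_lit 19074) (nat_lit 242777) (nat_lit 25619) (nat_lit 178811) (nat_lit 0) (nat_lit 0),Row.mk (nat_lit 18480) (nat_lit 18887) (nat_lit 149861) (nat_lit 25432) (nat_lit 346121) (nat_lit 0) (nat_lit 0),Row.mk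 (nat_lit 18648) (nat_lit 18700) (nat_lit 33811) (nat_lit 25245) (nat_lit 555087) (nat_lit 0) (nat_lit 0),Row.mk (nat_lit 18816) (nat_lit 25058) (nat_lit 615970) (nat_lit 31603) (nat_lit 88978) (nat_lit 0) (nat_lit 0),Row.mk (nat_lit 18984) (nat_lit 24871) (nat_lit 615970) (nat_lit 31416) (nat_lit 233921) (nat_lit 0) (nat_lit 0),Row.mk (nat_lit 19152) (nat_lit 24684) (nat_lit 615970) (nat_lit 31229) (nat_lit 414952) (nat_lit 0) (nat_lit 0),Row.mk (nat_lit 19320) (nat_lit 24497) (nat_lit 615970) (nat_lit 31042) (nat_lit 641055) (nat_lit 0) (nat_lit 0),Row.mk (nat_lit 19488) (nat_lit 24310) (nat_lit 615970) (nat_lit 30855) (nat_lit 923453) (nat_lit 0) (nat_lit 0),Row.mk (nat_lit 19656) (nat_lit 24123) (nat_lit 615970) (nat_lit 30668) (nat_lit 1276160) (nat_lit 0) (nat_lit 0),Row.mk (nat_lit 19824) (nat_lit 23936) (nat_lit 615970) (nat_lit 30481) (nat_lit 1716684) (nat_lit 0) (nat_lit 0),Row.mk (nat_lit 19992) (nat_lit 23749) (nat_lit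 615970) (nat_lit 30294) (nat_lit 2266886) (nat_lit 0) (nat_lit 0),Row.mk (nat_lit 20160) (nat_lit 23562) (nat_lit 615970) (nat_lit 30107) (nat_lit 2954077) (nat_lit 0) (nat_lit 0),Row.mk (nat_lit 20328) (nat_lit 23375) (nat_lit 615970) (nat_lit 29920) (nat_lit 3812360) (nat_lit 0) (nat_lit 0),Row.mk (nat_lit 20496) (nat_lit 23188) (nat_lit 615970) (nat_lit 29733) (nat_lit 4884336) (nat_lit 0) (nat_lit 0),Row.mk (nat_lit 20664) (nat_lit 23001) (nat_lit 615970) (nat_lit 29546) (nat_lit 6223208) (nat_lit 0) (nat_lit 0),Row.mk (nat_lit 20832) (nat_lit 22814) (nat_lit 615970) (nat_lit 29359) (nat_lit 7895427) (nat_lit 0) (nat_lit 0),Row.mk (nat_lit 21000) (nat_lit 22627) (nat_lit 615970) (nat_lit 29172) (nat_lit 9983988) (nat_lit 0) (nat_lit 0),Row.mk (nat_lit 21168) (nat_lit 22440) (nat_lit 615970) (nat_lit 28985) (nat_lit 12592551) (nat_lit 0) (nat_lit 0),Row.mk (nat_lit 21336) (nat_lit 22253) (nat_lit 615970) (nat_lit 28798) (nat_lit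 15850582) (nat_lit 0) (nat_lit 0),Row.mk (nat_lit 21504) (nat_lit 22066) (nat_lit 615970) (nat_lit 28611) (nat_lit 19919785) (nat_lit 0) (nat_lit 0),Row.mk (nat_lit 21672) (nat_lit 21879) (nat_lit 615970) (nat_lit 28424) (nat_lit 25002121) (nat_lit 0) (nat_lit 0),Row.mk (nat_lit 21840) (nat_lit 21692) (nat_lit 615970) (nat_lit 28237) (nat_lit 31349836) (nat_lit 0) (nat_lit 0),Row.mk (nat_lit 22008) (nat_lit 21505) (nat_lit 615970) (nat_lit 28050) (nat_lit 39277979) (nat_lit 0) (nat_lit 0),Row.mk (nat_lit 22176) (nat_lit 21318) (nat_lit 615970) (nat_lit 27863) (nat_lit 49180038) (nat_lit 0) (nat_lit 0),Row.mk (nat_lit 22344) (nat_lit 21131) (nat_lit 615970) (nat_lit 27676) (nat_lit 61547471) (nat_lit 0) (nat_lit 0),Row.mk (nat_lit 22512) (nat_lit 20944) (nat_lit 615970) (nat_lit 27489) (nat_lit 76994097) (nat_lit 0) (nat_lit 0),Row.mk (nat_lit 22680) (nat_lit 32912) (nat_lit 122789) (nat_lit 62084) (nat_lit 96656950) (nat_lit 0) (nat_lit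 0),Row.mk (nat_lit 22848) (nat_lit 32912) (nat_lit 122789) (nat_lit 62084) (nat_lit 120752770) (nat_lit 0) (nat_lit 0),Row.mk (nat_lit 23016) (nat_lit 32912) (nat_lit 122789) (nat_lit 62084) (nat_lit 150847869) (nat_lit 0) (nat_lit 0),Row.mk (nat_lit 23184) (nat_lit 32912) (nat_lit 122789) (nat_lit 62084) (nat_lit 188435921) (nat_lit 0) (nat_lit 0),Row.mk (nat_lit 23352) (nat_lit 32912) (nat_lit 122789) (nat_lit 62084) (nat_lit 235382491) (nat_lit 0) (nat_lit 0),Row.mk (nat_lit 23520) (nat_lit 32912) (nat_lit 122789) (nat_lit 62084) (nat_lit 294017625) (nat_lit 0) (nat_lit 0),Row.mk (nat_lit 23688) (nat_lit 32912) (nat_lit 122789) (nat_lit 62084) (nat_lit 367251493) (nat_lit 0) (nat_lit 0),Row.mk (nat_lit 23856) (nat_lit 32912) (nat_lit 122789) (nat_lit 62084) (nat_lit 458718827) (nat_lit 0) (nat_lit 0),Row.mk (nat_lit 24024) (nat_lit 32912) (nat_lit 122789) (nat_lit 62084) (nat_lit 572959321) (nat_lit 0) (nat_lit 0),Row.mk (nat_lit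 24192) (nat_lit 32912) (nat_lit 122789) (nat_lit 62084) (nat_lit 715642942) (nat_lit 0) (nat_lit 0),Row.mk (nat_lit 24360) (nat_lit 32912) (nat_lit 122789) (nat_lit 62084) (nat_lit 893851342) (nat_lit 0) (nat_lit 0),Row.mk (nat_lit 24528) (nat_lit 32912) (nat_lit 122789) (nat_lit 62084) (nat_lit 1116429335) (nat_lit 0) (nat_lit 0),Row.mk (nat_lit 24696) (nat_lit 32912) (nat_lit 122789) (nat_lit 62084) (nat_lit 1394423879) (nat_lit 0) (nat_lit 0),Row.mk (nat_lit 24864) (nat_lit 32912) (nat_lit 122789) (nat_lit 62084) (nat_lit 1741632358) (nat_lit 0) (nat_lit 0),Row.mk (nat_lit 25032) (nat_lit 32912) (nat_lit 122789) (nat_lit 62084) (nat_lit 2175287373) (nat_lit 0) (nat_lit 0),Row.mk (nat_lit 25200) (nat_lit 32912) (nat_lit 122789) (nat_lit 62084) (nat_lit 2716912024) (nat_lit 0) (nat_lit 0),Row.mk (nat_lit 25368) (nat_lit 32912) (nat_lit 122789) (nat_lit 62084) (nat_lit 3393388148) (nat_lit 0) (nat_lit 0),Row.mk (nat_lit 25536) (nat_lit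 32912) (nat_lit 122789) (nat_lit 62084) (nat_lit 4238290507) (nat_lit 0) (nat_lit 0),Row.mk (nat_lit 25704) (nat_lit 32912) (nat_lit 122789) (nat_lit 62084) (nat_lit 5293553171) (nat_lit 0) (nat_lit 0),Row.mk (nat_lit 25872) (nat_lit 32912) (nat_lit 122789) (nat_lit 62084) (nat_lit 6611550782) (nat_lit 0) (nat_lit 0),Row.mk (nat_lit 26040) (nat_lit 32912) (nat_lit 122789) (nat_lit 62084) (nat_lit 8257698003) (nat_lit 0) (nat_lit 0)],
[Row.mk (nat_lit 11256) (nat_lit 32912) (nat_lit 26) (nat_lit 61897) (nat_lit 153335) (nat_lit 0) (nat_lit 0),Row.mk (nat_lit 11424) (nat_lit 32912) (nat_lit 32) (nat_lit 61897) (nat_lit 153328) (nat_lit 0) (nat_lit 0),Row.mk (nat_lit 11592) (nat_lit 32912) (nat_lit 41) (nat_lit 61897) (nat_lit 153320) (nat_lit 0) (nat_lit 0),Row.mk (nat_lit 11760) (nat_lit 32912) (nat_lit 51) (nat_lit 61897) (nat_lit 153310) (nat_lit 0) (nat_lit 0),Row.mk (nat_lit 11928) (nat_lit 32912) (nat_lit 64) (nat_lit 61897) (nat_lit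 153297) (nat_lit 0) (nat_lit 0),Row.mk (nat_lit 12096) (nat_lit 32912) (nat_lit 79) (nat_lit 61897) (nat_lit 153281) (nat_lit 0) (nat_lit 0),Row.mk (nat_lit 12264) (nat_lit 32912) (nat_lit 99) (nat_lit 61897) (nat_lit 153261) (nat_lit 0) (nat_lit 0),Row.mk (nat_lit 12432) (nat_lit 32912) (nat_lit 124) (nat_lit 61897) (nat_lit 153236) (nat_lit 0) (nat_lit 0),Row.mk (nat_lit 12600) (nat_lit 32912) (nat_lit 155) (nat_lit 61897) (nat_lit 153205) (nat_lit 0) (nat_lit 0),Row.mk (nat_lit 12768) (nat_lit 32912) (nat_lit 194) (nat_lit 61897) (nat_lit 153167) (nat_lit 0) (nat_lit 0),Row.mk (nat_lit 12936) (nat_lit 0) (nat_lit 1219) (nat_lit 748) (nat_lit 152385) (nat_lit 0) (nat_lit 0),Row.mk (nat_lit 13104) (nat_lit 561) (nat_lit 1522) (nat_lit 1309) (nat_lit 152142) (nat_lit 0) (nat_lit 0),Row.mk (nat_lit 13272) (nat_lit 1122) (nat_lit 1901) (nat_lit 1870) (nat_lit 151839) (nat_lit 0) (nat_lit 0),Row.mk (nat_lit 13440) (nat_lit 1683) (nat_lit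 2375) (nat_lit 2431) (nat_lit 151459) (nat_lit 0) (nat_lit 0),Row.mk (nat_lit 13608) (nat_lit 2244) (nat_lit 2966) (nat_lit 2992) (nat_lit 150986) (nat_lit 0) (nat_lit 0),Row.mk (nat_lit 13776) (nat_lit 2805) (nat_lit 3705) (nat_lit 3553) (nat_lit 150395) (nat_lit 0) (nat_lit 0),Row.mk (nat_lit 13944) (nat_lit 3366) (nat_lit 4627) (nat_lit 4114) (nat_lit 149656) (nat_lit 0) (nat_lit 0),Row.mk (nat_lit 14112) (nat_lit 3927) (nat_lit 5779) (nat_lit 4675) (nat_lit 148733) (nat_lit 0) (nat_lit 0),Row.mk (nat_lit 14280) (nat_lit 4488) (nat_lit 7219) (nat_lit 5236) (nat_lit 147581) (nat_lit 0) (nat_lit 0),Row.mk (nat_lit 14448) (nat_lit 5049) (nat_lit 9016) (nat_lit 5797) (nat_lit 146142) (nat_lit 0) (nat_lit 0),Row.mk (nat_lit 14616) (nat_lit 5610) (nat_lit 11261) (nat_lit 6358) (nat_lit 144345) (nat_lit 0) (nat_lit 0),Row.mk (nat_lit 14784) (nat_lit 6171) (nat_lit 14065) (nat_lit 6919) (nat_lit 142100) (nat_lit 0) (nat_lit 0),Row.mk (nat_lit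 14952) (nat_lit 6732) (nat_lit 17566) (nat_lit 7480) (nat_lit 139296) (nat_lit 0) (nat_lit 0),Row.mk (nat_lit 15120) (nat_lit 7293) (nat_lit 21940) (nat_lit 8041) (nat_lit 135794) (nat_lit 0) (nat_lit 0),Row.mk (nat_lit 15288) (nat_lit 7854) (nat_lit 27403) (nat_lit 8602) (nat_lit 131421) (nat_lit 0) (nat_lit 0),Row.mk (nat_lit 15456) (nat_lit 8415) (nat_lit 34226) (nat_lit 9163) (nat_lit 125958) (nat_lit 0) (nat_lit 0),Row.mk (nat_lit 15624) (nat_lit 8976) (nat_lit 42747) (nat_lit 9724) (nat_lit 119135) (nat_lit 0) (nat_lit 0),Row.mk (nat_lit 15792) (nat_lit 9537) (nat_lit 53390) (nat_lit 10285) (nat_lit 110614) (nat_lit 0) (nat_lit 0),Row.mk (nat_lit 15960) (nat_lit 10098) (nat_lit 66683) (nat_lit 10846) (nat_lit 99971) (nat_lit 0) (nat_lit 0),Row.mk (nat_lit 16128) (nat_lit 10659) (nat_lit 83286) (nat_lit 11407) (nat_lit 86678) (nat_lit 0) (nat_lit 0),Row.mk (nat_lit 16296) (nat_lit 11220) (nat_lit 104022) (nat_lit 11968) (nat_lit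 70075) (nat_lit 0) (nat_lit 0),Row.mk (nat_lit 16464) (nat_lit 11781) (nat_lit 129921) (nat_lit 12716) (nat_lit 49339) (nat_lit 0) (nat_lit 0),Row.mk (nat_lit 16632) (nat_lit 12529) (nat_lit 162268) (nat_lit 13464) (nat_lit 23440) (nat_lit 0) (nat_lit 0),Row.mk (nat_lit 16800) (nat_lit 12342) (nat_lit 11124) (nat_lit 13277) (nat_lit 182637) (nat_lit 0) (nat_lit 0),Row.mk (nat_lit 16968) (nat_lit 13090) (nat_lit 61584) (nat_lit 14025) (nat_lit 142236) (nat_lit 0) (nat_lit 0),Row.mk (nat_lit 17136) (nat_lit 13838) (nat_lit 124608) (nat_lit 15147) (nat_lit 91776) (nat_lit 0) (nat_lit 0),Row.mk (nat_lit 17304) (nat_lit 14960) (nat_lit 203322) (nat_lit 16456) (nat_lit 28753) (nat_lit 0) (nat_lit 0),Row.mk (nat_lit 17472) (nat_lit 14773) (nat_lit 62399) (nat_lit 16269) (nat_lit 189274) (nat_lit 0) (nat_lit 0),Row.mk (nat_lit 17640) (nat_lit 16082) (nat_lit 185189) (nat_lit 17765) (nat_lit 90961) (nat_lit 0) (nat_lit 0),Row.mk (nat_lit 17808)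 (nat_lit 15895) (nat_lit 39752) (nat_lit 17578) (nat_lit 266970) (nat_lit 0) (nat_lit 0),Row.mk (nat_lit 17976) (nat_lit 17391) (nat_lit 231297) (nat_lit 19635) (nat_lit 113609) (nat_lit 0) (nat_lit 0),Row.mk (nat_lit 18144) (nat_lit 17204) (nat_lit 97340) (nat_lit 19448) (nat_lit 295256) (nat_lit 0) (nat_lit 0),Row.mk (nat_lit 18312) (nat_lit 19261) (nat_lit 396139) (nat_lit 25806) (nat_lit 56021) (nat_lit 0) (nat_lit 0),Row.mk (nat_lit 18480) (nat_lit 19074) (nat_lit 303223) (nat_lit 25619) (nat_lit 223331) (nat_lit 0) (nat_lit 0),Row.mk (nat_lit 18648) (nat_lit 18887) (nat_lit 187173) (nat_lit 25432) (nat_lit 432297) (nat_lit 0) (nat_lit 0),Row.mk (nat_lit 18816) (nat_lit 18700) (nat_lit 42229) (nat_lit 25245) (nat_lit 693290) (nat_lit 0) (nat_lit 0),Row.mk (nat_lit 18984) (nat_lit 25058) (nat_lit 769331) (nat_lit 31603) (nat_lit 111131) (nat_lit 0) (nat_lit 0),Row.mk (nat_lit 19152) (nat_lit 24871) (nat_lit 769331) (nat_lit 31416)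 (nat_lit 292162) (nat_lit 0) (nat_lit 0),Row.mk (nat_lit 19320) (nat_lit 24684) (nat_lit 769331) (nat_lit 31229) (nat_lit 518265) (nat_lit 0) (nat_lit 0),Row.mk (nat_lit 19488) (nat_lit 24497) (nat_lit 769331) (nat_lit 31042) (nat_lit 800663) (nat_lit 0) (nat_lit 0),Row.mk (nat_lit 19656) (nat_lit 24310) (nat_lit 769331) (nat_lit 30855) (nat_lit 1153370) (nat_lit 0) (nat_lit 0),Row.mk (nat_lit 19824) (nat_lit 24123) (nat_lit 769331) (nat_lit 30668) (nat_lit 1593894) (nat_lit 0) (nat_lit 0),Row.mk (nat_lit 19992) (nat_lit 23936) (nat_lit 769331) (nat_lit 30481) (nat_lit 2144096) (nat_lit 0) (nat_lit 0),Row.mk (nat_lit 20160) (nat_lit 23749) (nat_lit 769331) (nat_lit 30294) (nat_lit 2831287) (nat_lit 0) (nat_lit 0),Row.mk (nat_lit 20328) (nat_lit 23562) (nat_lit 769331) (nat_lit 30107) (nat_lit 3689570) (nat_lit 0) (nat_lit 0),Row.mk (nat_lit 20496) (nat_lit 23375) (nat_lit 769331) (nat_lit 29920) (nat_lit 4761546) (nat_lit 0) (nat_lit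 0),Row.mk (nat_lit 20664) (nat_lit 23188) (nat_lit 769331) (nat_lit 29733) (nat_lit 6100418) (nat_lit 0) (nat_lit 0),Row.mk (nat_lit 20832) (nat_lit 23001) (nat_lit 769331) (nat_lit 29546) (nat_lit 7772637) (nat_lit 0) (nat_lit 0),Row.mk (nat_lit 21000) (nat_lit 22814) (nat_lit 769331) (nat_lit 29359) (nat_lit 9861198) (nat_lit 0) (nat_lit 0),Row.mk (nat_lit 21168) (nat_lit 22627) (nat_lit 769331) (nat_lit 29172) (nat_lit 12469761) (nat_lit 0) (nat_lit 0),Row.mk (nat_lit 21336) (nat_lit 22440) (nat_lit 769331) (nat_lit 28985) (nat_lit 15727792) (nat_lit 0) (nat_lit 0),Row.mk (nat_lit 21504) (nat_lit 22253) (nat_lit 769331) (nat_lit 28798) (nat_lit 19796995) (nat_lit 0) (nat_lit 0),Row.mk (nat_lit 21672) (nat_lit 22066) (nat_lit 769331) (nat_lit 28611) (nat_lit 24879331) (nat_lit 0) (nat_lit 0),Row.mk (nat_lit 21840) (nat_lit 21879) (nat_lit 769331) (nat_lit 28424) (nat_lit 31227046) (nat_lit 0) (nat_lit 0),Row.mk (nat_lit 22008) (nat_lit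 21692) (nat_lit 769331) (nat_lit 28237) (nat_lit 39155189) (nat_lit 0) (nat_lit 0),Row.mk (nat_lit 22176) (nat_lit 21505) (nat_lit 769331) (nat_lit 28050) (nat_lit 49057248) (nat_lit 0) (nat_lit 0),Row.mk (nat_lit 22344) (nat_lit 21318) (nat_lit 769331) (nat_lit 27863) (nat_lit 61424681) (nat_lit 0) (nat_lit 0),Row.mk (nat_lit 22512) (nat_lit 21131) (nat_lit 769331) (nat_lit 27676) (nat_lit 76871307) (nat_lit 0) (nat_lit 0),Row.mk (nat_lit 22680) (nat_lit 20944) (nat_lit 769331) (nat_lit 27489) (nat_lit 96163769) (nat_lit 0) (nat_lit 0),Row.mk (nat_lit 22848) (nat_lit 32912) (nat_lit 153361) (nat_lit 62084) (nat_lit 120722198) (nat_lit 0) (nat_lit 0),Row.mk (nat_lit 23016) (nat_lit 32912) (nat_lit 153361) (nat_lit 62084) (nat_lit 150817297) (nat_lit 0) (nat_lit 0),Row.mk (nat_lit 23184) (nat_lit 32912) (nat_lit 153361) (nat_lit 62084) (nat_lit 188405349) (nat_lit 0) (nat_lit 0),Row.mk (nat_lit 23352) (nat_lit 32912) (nat_lit 153361)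 (nat_lit 62084) (nat_lit 235351920) (nat_lit 0) (nat_lit 0),Row.mk (nat_lit 23520) (nat_lit 32912) (nat_lit 153361) (nat_lit 62084) (nat_lit 293987054) (nat_lit 0) (nat_lit 0),Row.mk (nat_lit 23688) (nat_lit 32912) (nat_lit 153361) (nat_lit 62084) (nat_lit 367220921) (nat_lit 0) (nat_lit 0),Row.mk (nat_lit 23856) (nat_lit 32912) (nat_lit 153361) (nat_lit 62084) (nat_lit 458688256) (nat_lit 0) (nat_lit 0),Row.mk (nat_lit 24024) (nat_lit 32912) (nat_lit 153361) (nat_lit 62084) (nat_lit 572928749) (nat_lit 0) (nat_lit 0),Row.mk (nat_lit 24192) (nat_lit 32912) (nat_lit 153361) (nat_lit 62084) (nat_lit 715612370) (nat_lit 0) (nat_lit 0),Row.mk (nat_lit 24360) (nat_lit 32912) (nat_lit 153361) (nat_lit 62084) (nat_lit 893820771) (nat_lit 0) (nat_lit 0),Row.mk (nat_lit 24528) (nat_lit 32912) (nat_lit 153361) (nat_lit 62084) (nat_lit 1116398764) (nat_lit 0) (nat_lit 0),Row.mk (nat_lit 24696) (nat_lit 32912) (nat_lit 153361) (nat_lit 62084)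 (nat_lit 1394393308) (nat_lit 0) (nat_lit 0),Row.mk (nat_lit 24864) (nat_lit 32912) (nat_lit 153361) (nat_lit 62084) (nat_lit 1741601787) (nat_lit 0) (nat_lit 0),Row.mk (nat_lit 25032) (nat_lit 32912) (nat_lit 153361) (nat_lit 62084) (nat_lit 2175256801) (nat_lit 0) (nat_lit 0),Row.mk (nat_lit 25200) (nat_lit 32912) (nat_lit 153361) (nat_lit 62084) (nat_lit 2716881452) (nat_lit 0) (nat_lit 0),Row.mk (nat_lit 25368) (nat_lit 32912) (nat_lit 153361) (nat_lit 62084) (nat_lit 3393357576) (nat_lit 0) (nat_lit 0),Row.mk (nat_lit 25536) (nat_lit 32912) (nat_lit 153361) (nat_lit 62084) (nat_lit 4238259935) (nat_lit 0) (nat_lit 0),Row.mk (nat_lit 25704) (nat_lit 32912) (nat_lit 153361) (nat_lit 62084) (nat_lit 5293522599) (nat_lit 0) (nat_lit 0),Row.mk (nat_lit 25872) (nat_lit 32912) (nat_lit 153361) (nat_lit 62084) (nat_lit 6611520210) (nat_lit 0) (nat_lit 0),Row.mk (nat_lit 26040) (nat_lit 32912) (nat_lit 153361) (nat_lit 62084) (nat_lit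 8257667431) (nat_lit 0) (nat_lit 0)],
[Row.mk (nat_lit 11256) (nat_lit 32912) (nat_lit 26) (nat_lit 61897) (nat_lit 191518) (nat_lit 0) (nat_lit 0),Row.mk (nat_lit 11424) (nat_lit 32912) (nat_lit 32) (nat_lit 61897) (nat_lit 191512) (nat_lit 0) (nat_lit 0),Row.mk (nat_lit 11592) (nat_lit 32912) (nat_lit 41) (nat_lit 61897) (nat_lit 191504) (nat_lit 0) (nat_lit 0),Row.mk (nat_lit 11760) (nat_lit 32912) (nat_lit 51) (nat_lit 61897) (nat_lit 191493) (nat_lit 0) (nat_lit 0),Row.mk (nat_lit 11928) (nat_lit 32912) (nat_lit 64) (nat_lit 61897) (nat_lit 191481) (nat_lit 0) (nat_lit 0),Row.mk (nat_lit 12096) (nat_lit 32912) (nat_lit 79) (nat_lit 61897) (nat_lit 191465) (nat_lit 0) (nat_lit 0),Row.mk (nat_lit 12264) (nat_lit 32912) (nat_lit 99) (nat_lit 61897) (nat_lit 191445) (nat_lit 0) (nat_lit 0),Row.mk (nat_lit 12432) (nat_lit 32912) (nat_lit 124) (nat_lit 61897) (nat_lit 191420) (nat_lit 0) (nat_lit 0),Row.mk (nat_lit 12600) (nat_lit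 32912) (nat_lit 155) (nat_lit 61897) (nat_lit 191389) (nat_lit 0) (nat_lit 0),Row.mk (nat_lit 12768) (nat_lit 32912) (nat_lit 194) (nat_lit 61897) (nat_lit 191350) (nat_lit 0) (nat_lit 0),Row.mk (nat_lit 12936) (nat_lit 32912) (nat_lit 243) (nat_lit 61897) (nat_lit 191302) (nat_lit 0) (nat_lit 0),Row.mk (nat_lit 13104) (nat_lit 0) (nat_lit 1522) (nat_lit 748) (nat_lit 190325) (nat_lit 0) (nat_lit 0),Row.mk (nat_lit 13272) (nat_lit 561) (nat_lit 1901) (nat_lit 1309) (nat_lit 190022) (nat_lit 0) (nat_lit 0),Row.mk (nat_lit 13440) (nat_lit 1122) (nat_lit 2375) (nat_lit 1870) (nat_lit 189643) (nat_lit 0) (nat_lit 0),Row.mk (nat_lit 13608) (nat_lit 1683) (nat_lit 2966) (nat_lit 2431) (nat_lit 189169) (nat_lit 0) (nat_lit 0),Row.mk (nat_lit 13776) (nat_lit 2244) (nat_lit 3705) (nat_lit 2992) (nat_lit 188578) (nat_lit 0) (nat_lit 0),Row.mk (nat_lit 13944) (nat_lit 2805) (nat_lit 4627) (nat_lit 3553) (nat_lit 187839) (nat_lit 0) (nat_lit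 0),Row.mk (nat_lit 14112) (nat_lit 3366) (nat_lit 5779) (nat_lit 4114) (nat_lit 186917) (nat_lit 0) (nat_lit 0),Row.mk (nat_lit 14280) (nat_lit 3927) (nat_lit 7219) (nat_lit 4675) (nat_lit 185765) (nat_lit 0) (nat_lit 0),Row.mk (nat_lit 14448) (nat_lit 4488) (nat_lit 9016) (nat_lit 5236) (nat_lit 184326) (nat_lit 0) (nat_lit 0),Row.mk (nat_lit 14616) (nat_lit 5049) (nat_lit 11261) (nat_lit 5797) (nat_lit 182528) (nat_lit 0) (nat_lit 0),Row.mk (nat_lit 14784) (nat_lit 5610) (nat_lit 14065) (nat_lit 6358) (nat_lit 180283) (nat_lit 0) (nat_lit 0),Row.mk (nat_lit 14952) (nat_lit 6171) (nat_lit 17566) (nat_lit 6919) (nat_lit 177480) (nat_lit 0) (nat_lit 0),Row.mk (nat_lit 15120) (nat_lit 6732) (nat_lit 21940) (nat_lit 7480) (nat_lit 173978) (nat_lit 0) (nat_lit 0),Row.mk (nat_lit 15288) (nat_lit 7293) (nat_lit 27403) (nat_lit 8041) (nat_lit 169604) (nat_lit 0) (nat_lit 0),Row.mk (nat_lit 15456) (nat_lit 7854) (nat_lit 34226) (nat_lit 8602)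 (nat_lit 164141) (nat_lit 0) (nat_lit 0),Row.mk (nat_lit 15624) (nat_lit 8415) (nat_lit 42747) (nat_lit 9163) (nat_lit 157319) (nat_lit 0) (nat_lit 0),Row.mk (nat_lit 15792) (nat_lit 8976) (nat_lit 53390) (nat_lit 9724) (nat_lit 148797) (nat_lit 0) (nat_lit 0),Row.mk (nat_lit 15960) (nat_lit 9537) (nat_lit 66683) (nat_lit 10285) (nat_lit 138154) (nat_lit 0) (nat_lit 0),Row.mk (nat_lit 16128) (nat_lit 10098) (nat_lit 83286) (nat_lit 10846) (nat_lit 124861) (nat_lit 0) (nat_lit 0),Row.mk (nat_lit 16296) (nat_lit 10659) (nat_lit 104022) (nat_lit 11407) (nat_lit 108258) (nat_lit 0) (nat_lit 0),Row.mk (nat_lit 16464) (nat_lit 11220) (nat_lit 129921) (nat_lit 11968) (nat_lit 87522) (nat_lit 0) (nat_lit 0),Row.mk (nat_lit 16632) (nat_lit 11781) (nat_lit 162268) (nat_lit 12716) (nat_lit 61623) (nat_lit 0) (nat_lit 0),Row.mk (nat_lit 16800) (nat_lit 12529) (nat_lit 202670) (nat_lit 13464) (nat_lit 29276) (nat_lit 0) (nat_lit 0),Row.mk (nat_lit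 16968) (nat_lit 12342) (nat_lit 13894) (nat_lit 13277) (nat_lit 228110) (nat_lit 0) (nat_lit 0),Row.mk (nat_lit 17136) (nat_lit 13090) (nat_lit 76917) (nat_lit 14025) (nat_lit 177650) (nat_lit 0) (nat_lit 0),Row.mk (nat_lit 17304) (nat_lit 13838) (nat_lit 155632) (nat_lit 15147) (nat_lit 114627) (nat_lit 0) (nat_lit 0),Row.mk (nat_lit 17472) (nat_lit 14960) (nat_lit 253945) (nat_lit 16456) (nat_lit 35912) (nat_lit 0) (nat_lit 0),Row.mk (nat_lit 17640) (nat_lit 14773) (nat_lit 77936) (nat_lit 16269) (nat_lit 236399) (nat_lit 0) (nat_lit 0),Row.mk (nat_lit 17808) (nat_lit 16082) (nat_lit 231297) (nat_lit 17765) (nat_lit 113609) (nat_lit 0) (nat_lit 0),Row.mk (nat_lit 17976) (nat_lit 15895) (nat_lit 49650) (nat_lit 17578) (nat_lit 333440) (nat_lit 0) (nat_lit 0),Row.mk (nat_lit 18144) (nat_lit 17391) (nat_lit 288885) (nat_lit 19635) (nat_lit 141894) (nat_lit 0) (nat_lit 0),Row.mk (nat_lit 18312) (nat_lit 17204) (nat_lit 121575) (nat_lit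 19448) (nat_lit 368768) (nat_lit 0) (nat_lit 0),Row.mk (nat_lit 18480) (nat_lit 19261) (nat_lit 494768) (nat_lit 25806) (nat_lit 69969) (nat_lit 0) (nat_lit 0),Row.mk (nat_lit 18648) (nat_lit 19074) (nat_lit 378718) (nat_lit 25619) (nat_lit 278935) (nat_lit 0) (nat_lit 0),Row.mk (nat_lit 18816) (nat_lit 18887) (nat_lit 233775) (nat_lit 25432) (nat_lit 539928) (nat_lit 0) (nat_lit 0),Row.mk (nat_lit 18984) (nat_lit 18700) (nat_lit 52744) (nat_lit 25245) (nat_lit 865902) (nat_lit 0) (nat_lit 0),Row.mk (nat_lit 19152) (nat_lit 25058) (nat_lit 960877) (nat_lit 31603) (nat_lit 138800) (nat_lit 0) (nat_lit 0),Row.mk (nat_lit 19320) (nat_lit 24871) (nat_lit 960877) (nat_lit 31416) (nat_lit 364904) (nat_lit 0) (nat_lit 0),Row.mk (nat_lit 19488) (nat_lit 24684) (nat_lit 960877) (nat_lit 31229) (nat_lit 647301) (nat_lit 0) (nat_lit 0),Row.mk (nat_lit 19656) (nat_lit 24497) (nat_lit 960877) (nat_lit 31042) (nat_lit 1000009) (nat_lit 0) (nat_lit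 0),Row.mk (nat_lit 19824) (nat_lit 24310) (nat_lit 960877) (nat_lit 30855) (nat_lit 1440532) (nat_lit 0) (nat_lit 0),Row.mk (nat_lit 19992) (nat_lit 24123) (nat_lit 960877) (nat_lit 30668) (nat_lit 1990735) (nat_lit 0) (nat_lit 0),Row.mk (nat_lit 20160) (nat_lit 23936) (nat_lit 960877) (nat_lit 30481) (nat_lit 2677925) (nat_lit 0) (nat_lit 0),Row.mk (nat_lit 20328) (nat_lit 23749) (nat_lit 960877) (nat_lit 30294) (nat_lit 3536209) (nat_lit 0) (nat_lit 0),Row.mk (nat_lit 20496) (nat_lit 23562) (nat_lit 960877) (nat_lit 30107) (nat_lit 4608185) (nat_lit 0) (nat_lit 0),Row.mk (nat_lit 20664) (nat_lit 23375) (nat_lit 960877) (nat_lit 29920) (nat_lit 5947057) (nat_lit 0) (nat_lit 0),Row.mk (nat_lit 20832) (nat_lit 23188) (nat_lit 960877) (nat_lit 29733) (nat_lit 7619276) (nat_lit 0) (nat_lit 0),Row.mk (nat_lit 21000) (nat_lit 23001) (nat_lit 960877) (nat_lit 29546) (nat_lit 9707837) (nat_lit 0) (nat_lit 0),Row.mk (nat_lit 21168) (nat_lit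 22814) (nat_lit 960877) (nat_lit 29359) (nat_lit 12316399) (nat_lit 0) (nat_lit 0),Row.mk (nat_lit 21336) (nat_lit 22627) (nat_lit 960877) (nat_lit 29172) (nat_lit 15574430) (nat_lit 0) (nat_lit 0),Row.mk (nat_lit 21504) (nat_lit 22440) (nat_lit 960877) (nat_lit 28985) (nat_lit 19643633) (nat_lit 0) (nat_lit 0),Row.mk (nat_lit 21672) (nat_lit 22253) (nat_lit 960877) (nat_lit 28798) (nat_lit 24725969) (nat_lit 0) (nat_lit 0),Row.mk (nat_lit 21840) (nat_lit 22066) (nat_lit 960877) (nat_lit 28611) (nat_lit 31073684) (nat_lit 0) (nat_lit 0),Row.mk (nat_lit 22008) (nat_lit 21879) (nat_lit 960877) (nat_lit 28424) (nat_lit 39001827) (nat_lit 0) (nat_lit 0),Row.mk (nat_lit 22176) (nat_lit 21692) (nat_lit 960877) (nat_lit 28237) (nat_lit 48903886) (nat_lit 0) (nat_lit 0),Row.mk (nat_lit 22344) (nat_lit 21505) (nat_lit 960877) (nat_lit 28050) (nat_lit 61271319) (nat_lit 0) (nat_lit 0),Row.mk (nat_lit 22512) (nat_lit 21318) (nat_lit 960877)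 (nat_lit 27863) (nat_lit 76717945) (nat_lit 0) (nat_lit 0),Row.mk (nat_lit 22680) (nat_lit 21131) (nat_lit 960877) (nat_lit 27676) (nat_lit 96010408) (nat_lit 0) (nat_lit 0),Row.mk (nat_lit 22848) (nat_lit 20944) (nat_lit 960877) (nat_lit 27489) (nat_lit 120106228) (nat_lit 0) (nat_lit 0),Row.mk (nat_lit 23016) (nat_lit 32912) (nat_lit 191545) (nat_lit 62084) (nat_lit 150779114) (nat_lit 0) (nat_lit 0),Row.mk (nat_lit 23184) (nat_lit 32912) (nat_lit 191545) (nat_lit 62084) (nat_lit 188367166) (nat_lit 0) (nat_lit 0),Row.mk (nat_lit 23352) (nat_lit 32912) (nat_lit 191545) (nat_lit 62084) (nat_lit 235313736) (nat_lit 0) (nat_lit 0),Row.mk (nat_lit 23520) (nat_lit 32912) (nat_lit 191545) (nat_lit 62084) (nat_lit 293948870) (nat_lit 0) (nat_lit 0),Row.mk (nat_lit 23688) (nat_lit 32912) (nat_lit 191545) (nat_lit 62084) (nat_lit 367182738) (nat_lit 0) (nat_lit 0),Row.mk (nat_lit 23856) (nat_lit 32912) (nat_lit 191545) (nat_lit 62084) (nat_lit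 458650072) (nat_lit 0) (nat_lit 0),Row.mk (nat_lit 24024) (nat_lit 32912) (nat_lit 191545) (nat_lit 62084) (nat_lit 572890566) (nat_lit 0) (nat_lit 0),Row.mk (nat_lit 24192) (nat_lit 32912) (nat_lit 191545) (nat_lit 62084) (nat_lit 715574187) (nat_lit 0) (nat_lit 0),Row.mk (nat_lit 24360) (nat_lit 32912) (nat_lit 191545) (nat_lit 62084) (nat_lit 893782587) (nat_lit 0) (nat_lit 0),Row.mk (nat_lit 24528) (nat_lit 32912) (nat_lit 191545) (nat_lit 62084) (nat_lit 1116360580) (nat_lit 0) (nat_lit 0),Row.mk (nat_lit 24696) (nat_lit 32912) (nat_lit 191545) (nat_lit 62084) (nat_lit 1394355124) (nat_lit 0) (nat_lit 0),Row.mk (nat_lit 24864) (nat_lit 32912) (nat_lit 191545) (nat_lit 62084) (nat_lit 1741563603) (nat_lit 0) (nat_lit 0),Row.mk (nat_lit 25032) (nat_lit 32912) (nat_lit 191545) (nat_lit 62084) (nat_lit 2175218617) (nat_lit 0) (nat_lit 0),Row.mk (nat_lit 25200) (nat_lit 32912) (nat_lit 191545) (nat_lit 62084) (nat_lit 2716843269)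 (nat_lit 0) (nat_lit 0),Row.mk (nat_lit 25368) (nat_lit 32912) (nat_lit 191545) (nat_lit 62084) (nat_lit 3393319392) (nat_lit 0) (nat_lit 0),Row.mk (nat_lit 25536) (nat_lit 32912) (nat_lit 191545) (nat_lit 62084) (nat_lit 4238221752) (nat_lit 0) (nat_lit 0),Row.mk (nat_lit 25704) (nat_lit 32912) (nat_lit 191545) (nat_lit 62084) (nat_lit 5293484416) (nat_lit 0) (nat_lit 0),Row.mk (nat_lit 25872) (nat_lit 32912) (nat_lit 191545) (nat_lit 62084) (nat_lit 6611482027) (nat_lit 0) (nat_lit 0),Row.mk (nat_lit 26040) (nat_lit 32912) (nat_lit 191545) (nat_lit 62084) (nat_lit 8257629248) (nat_lit 0) (nat_lit 0)],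
[Row.mk (nat_lit 11088) (nat_lit 32912) (nat_lit 21) (nat_lit 61897) (nat_lit 239214) (nat_lit 0) (nat_lit 0),Row.mk (nat_lit 11256) (nat_lit 32912) (nat_lit 26) (nat_lit 61897) (nat_lit 239208) (nat_lit 0) (nat_lit 0),Row.mk (nat_lit 11424) (nat_lit 32912) (nat_lit 32) (nat_lit 61897) (nat_lit 239202) (nat_lit 0) (nat_lit 0),Row.mk (nat_lit 11592) (nat_lit 32912) (nat_lit 41) (nat_lit 61897) (nat_lit 239194) (nat_lit 0) (nat_lit 0),Row.mk (nat_lit 11760) (nat_lit 32912) (nat_lit 51) (nat_lit 61897) (nat_lit 239183) (nat_lit 0) (nat_lit 0),Row.mk (nat_lit 11928) (nat_lit 32912) (nat_lit 64) (nat_lit 61897) (nat_lit 239171) (nat_lit 0) (nat_lit 0),Row.mk (nat_lit 12096) (nat_lit 32912) (nat_lit 79) (nat_lit 61897) (nat_lit 239155) (nat_lit 0) (nat_lit 0),Row.mk (nat_lit 12264) (nat_lit 32912) (nat_lit 99) (nat_lit 61897) (nat_lit 239135) (nat_lit 0) (nat_lit 0),Row.mk (nat_lit 12432) (nat_lit 32912) (nat_lit 124) (nat_lit 61897) (nat_lit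 239110) (nat_lit 0) (nat_lit 0),Row.mk (nat_lit 12600) (nat_lit 32912) (nat_lit 155) (nat_lit 61897) (nat_lit 239079) (nat_lit 0) (nat_lit 0),Row.mk (nat_lit 12768) (nat_lit 32912) (nat_lit 194) (nat_lit 61897) (nat_lit 239040) (nat_lit 0) (nat_lit 0),Row.mk (nat_lit 12936) (nat_lit 32912) (nat_lit 243) (nat_lit 61897) (nat_lit 238992) (nat_lit 0) (nat_lit 0),Row.mk (nat_lit 13104) (nat_lit 32912) (nat_lit 303) (nat_lit 61897) (nat_lit 238931) (nat_lit 0) (nat_lit 0),Row.mk (nat_lit 13272) (nat_lit 0) (nat_lit 1901) (nat_lit 748) (nat_lit 237712) (nat_lit 0) (nat_lit 0),Row.mk (nat_lit 13440) (nat_lit 561) (nat_lit 2375) (nat_lit 1309) (nat_lit 237333) (nat_lit 0) (nat_lit 0),Row.mk (nat_lit 13608) (nat_lit 1122) (nat_lit 2966) (nat_lit 1870) (nat_lit 236859) (nat_lit 0) (nat_lit 0),Row.mk (nat_lit 13776) (nat_lit 1683) (nat_lit 3705) (nat_lit 2431) (nat_lit 236268) (nat_lit 0) (nat_lit 0),Row.mk (nat_lit 13944) (nat_lit 2244) (nat_lit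 4627) (nat_lit 2992) (nat_lit 235529) (nat_lit 0) (nat_lit 0),Row.mk (nat_lit 14112) (nat_lit 2805) (nat_lit 5779) (nat_lit 3553) (nat_lit 234607) (nat_lit 0) (nat_lit 0),Row.mk (nat_lit 14280) (nat_lit 3366) (nat_lit 7219) (nat_lit 4114) (nat_lit 233455) (nat_lit 0) (nat_lit 0),Row.mk (nat_lit 14448) (nat_lit 3927) (nat_lit 9016) (nat_lit 4675) (nat_lit 232016) (nat_lit 0) (nat_lit 0),Row.mk (nat_lit 14616) (nat_lit 4488) (nat_lit 11261) (nat_lit 5236) (nat_lit 230218) (nat_lit 0) (nat_lit 0),Row.mk (nat_lit 14784) (nat_lit 5049) (nat_lit 14065) (nat_lit 5797) (nat_lit 227973) (nat_lit 0) (nat_lit 0),Row.mk (nat_lit 14952) (nat_lit 5610) (nat_lit 17566) (nat_lit 6358) (nat_lit 225170) (nat_lit 0) (nat_lit 0),Row.mk (nat_lit 15120) (nat_lit 6171) (nat_lit 21940) (nat_lit 6919) (nat_lit 221668) (nat_lit 0) (nat_lit 0),Row.mk (nat_lit 15288) (nat_lit 6732) (nat_lit 27403) (nat_lit 7480) (nat_lit 217294) (nat_lit 0) (nat_lit 0),Row.mk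 (nat_lit 15456) (nat_lit 7293) (nat_lit 34226) (nat_lit 8041) (nat_lit 211831) (nat_lit 0) (nat_lit 0),Row.mk (nat_lit 15624) (nat_lit 7854) (nat_lit 42747) (nat_lit 8602) (nat_lit 205009) (nat_lit 0) (nat_lit 0),Row.mk (nat_lit 15792) (nat_lit 8415) (nat_lit 53390) (nat_lit 9163) (nat_lit 196487) (nat_lit 0) (nat_lit 0),Row.mk (nat_lit 15960) (nat_lit 8976) (nat_lit 66683) (nat_lit 9724) (nat_lit 185844) (nat_lit 0) (nat_lit 0),Row.mk (nat_lit 16128) (nat_lit 9537) (nat_lit 83286) (nat_lit 10285) (nat_lit 172551) (nat_lit 0) (nat_lit 0),Row.mk (nat_lit 16296) (nat_lit 10098) (nat_lit 104022) (nat_lit 10846) (nat_lit 155948) (nat_lit 0) (nat_lit 0),Row.mk (nat_lit 16464) (nat_lit 10659) (nat_lit 129921) (nat_lit 11407) (nat_lit 135212) (nat_lit 0) (nat_lit 0),Row.mk (nat_lit 16632) (nat_lit 11220) (nat_lit 162268) (nat_lit 11968) (nat_lit 109313) (nat_lit 0) (nat_lit 0),Row.mk (nat_lit 16800) (nat_lit 11781) (nat_lit 202670) (nat_lit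 12716) (nat_lit 76966) (nat_lit 0) (nat_lit 0),Row.mk (nat_lit 16968) (nat_lit 12529) (nat_lit 253129) (nat_lit 13464) (nat_lit 36565) (nat_lit 0) (nat_lit 0),Row.mk (nat_lit 17136) (nat_lit 12342) (nat_lit 17354) (nat_lit 13277) (nat_lit 284904) (nat_lit 0) (nat_lit 0),Row.mk (nat_lit 17304) (nat_lit 13090) (nat_lit 96068) (nat_lit 14025) (nat_lit 221881) (nat_lit 0) (nat_lit 0),Row.mk (nat_lit 17472) (nat_lit 13838) (nat_lit 194381) (nat_lit 15147) (nat_lit 143166) (nat_lit 0) (nat_lit 0),Row.mk (nat_lit 17640) (nat_lit 14960) (nat_lit 317171) (nat_lit 16456) (nat_lit 44853) (nat_lit 0) (nat_lit 0),Row.mk (nat_lit 17808) (nat_lit 14773) (nat_lit 97340) (nat_lit 16269) (nat_lit 295256) (nat_lit 0) (nat_lit 0),Row.mk (nat_lit 17976) (nat_lit 16082) (nat_lit 288885) (nat_lit 17765) (nat_lit 141894) (nat_lit 0) (nat_lit 0),Row.mk (nat_lit 18144) (nat_lit 15895) (nat_lit 62011) (nat_lit 17578) (nat_lit 416458) (nat_lit 0) (nat_lit 0),Row.mk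 (nat_lit 18312) (nat_lit 17391) (nat_lit 360810) (nat_lit 19635) (nat_lit 177223) (nat_lit 0) (nat_lit 0),Row.mk (nat_lit 18480) (nat_lit 17204) (nat_lit 151844) (nat_lit 19448) (nat_lit 460582) (nat_lit 0) (nat_lit 0),Row.mk (nat_lit 18648) (nat_lit 19261) (nat_lit 617953) (nat_lit 25806) (nat_lit 87390) (nat_lit 0) (nat_lit 0),Row.mk (nat_lit 18816) (nat_lit 19074) (nat_lit 473010) (nat_lit 25619) (nat_lit 348383) (nat_lit 0) (nat_lit 0),Row.mk (nat_lit 18984) (nat_lit 18887) (nat_lit 291979) (nat_lit 25432) (nat_lit 674357) (nat_lit 0) (nat_lit 0),Row.mk (nat_lit 19152) (nat_lit 18700) (nat_lit 65876) (nat_lit 25245) (nat_lit 1081491) (nat_lit 0) (nat_lit 0),Row.mk (nat_lit 19320) (nat_lit 25058) (nat_lit 1200112) (nat_lit 31603) (nat_lit 173358) (nat_lit 0) (nat_lit 0),Row.mk (nat_lit 19488) (nat_lit 24871) (nat_lit 1200112) (nat_lit 31416) (nat_lit 455756) (nat_lit 0) (nat_lit 0),Row.mk (nat_lit 19656) (nat_lit 24684) (nat_lit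 1200112) (nat_lit 31229) (nat_lit 808463) (nat_lit 0) (nat_lit 0),Row.mk (nat_lit 19824) (nat_lit 24497) (nat_lit 1200112) (nat_lit 31042) (nat_lit 1248987) (nat_lit 0) (nat_lit 0),Row.mk (nat_lit 19992) (nat_lit 24310) (nat_lit 1200112) (nat_lit 30855) (nat_lit 1799190) (nat_lit 0) (nat_lit 0),Row.mk (nat_lit 20160) (nat_lit 24123) (nat_lit 1200112) (nat_lit 30668) (nat_lit 2486380) (nat_lit 0) (nat_lit 0),Row.mk (nat_lit 20328) (nat_lit 23936) (nat_lit 1200112) (nat_lit 30481) (nat_lit 3344664) (nat_lit 0) (nat_lit 0),Row.mk (nat_lit 20496) (nat_lit 23749) (nat_lit 1200112) (nat_lit 30294) (nat_lit 4416640) (nat_lit 0) (nat_lit 0),Row.mk (nat_lit 20664) (nat_lit 23562) (nat_lit 1200112) (nat_lit 30107) (nat_lit 5755512) (nat_lit 0) (nat_lit 0),Row.mk (nat_lit 20832) (nat_lit 23375) (nat_lit 1200112) (nat_lit 29920) (nat_lit 7427730) (nat_lit 0) (nat_lit 0),Row.mk (nat_lit 21000) (nat_lit 23188) (nat_lit 1200112) (nat_lit 29733)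 (nat_lit 9516291) (nat_lit 0) (nat_lit 0),Row.mk (nat_lit 21168) (nat_lit 23001) (nat_lit 1200112) (nat_lit 29546) (nat_lit 12124854) (nat_lit 0) (nat_lit 0),Row.mk (nat_lit 21336) (nat_lit 22814) (nat_lit 1200112) (nat_lit 29359) (nat_lit 15382885) (nat_lit 0) (nat_lit 0),Row.mk (nat_lit 21504) (nat_lit 22627) (nat_lit 1200112) (nat_lit 29172) (nat_lit 19452088) (nat_lit 0) (nat_lit 0),Row.mk (nat_lit 21672) (nat_lit 22440) (nat_lit 1200112) (nat_lit 28985) (nat_lit 24534424) (nat_lit 0) (nat_lit 0),Row.mk (nat_lit 21840) (nat_lit 22253) (nat_lit 1200112) (nat_lit 28798) (nat_lit 30882139) (nat_lit 0) (nat_lit 0),Row.mk (nat_lit 22008) (nat_lit 22066) (nat_lit 1200112) (nat_lit 28611) (nat_lit 38810282) (nat_lit 0) (nat_lit 0),Row.mk (nat_lit 22176) (nat_lit 21879) (nat_lit 1200112) (nat_lit 28424) (nat_lit 48712341) (nat_lit 0) (nat_lit 0),Row.mk (nat_lit 22344) (nat_lit 21692) (nat_lit 1200112) (nat_lit 28237) (nat_lit 61079774)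 (nat_lit 0) (nat_lit 0),Row.mk (nat_lit 22512) (nat_lit 21505) (nat_lit 1200112) (nat_lit 28050) (nat_lit 76526400) (nat_lit 0) (nat_lit 0),Row.mk (nat_lit 22680) (nat_lit 21318) (nat_lit 1200112) (nat_lit 27863) (nat_lit 95818863) (nat_lit 0) (nat_lit 0),Row.mk (nat_lit 22848) (nat_lit 21131) (nat_lit 1200112) (nat_lit 27676) (nat_lit 119914683) (nat_lit 0) (nat_lit 0),Row.mk (nat_lit 23016) (nat_lit 20944) (nat_lit 1200112) (nat_lit 27489) (nat_lit 150009782) (nat_lit 0) (nat_lit 0),Row.mk (nat_lit 23184) (nat_lit 32912) (nat_lit 239235) (nat_lit 62084) (nat_lit 188319476) (nat_lit 0) (nat_lit 0),Row.mk (nat_lit 23352) (nat_lit 32912) (nat_lit 239235) (nat_lit 62084) (nat_lit 235266046) (nat_lit 0) (nat_lit 0),Row.mk (nat_lit 23520) (nat_lit 32912) (nat_lit 239235) (nat_lit 62084) (nat_lit 293901180) (nat_lit 0) (nat_lit 0),Row.mk (nat_lit 23688) (nat_lit 32912) (nat_lit 239235) (nat_lit 62084) (nat_lit 367135048) (nat_lit 0) (nat_lit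 0),Row.mk (nat_lit 23856) (nat_lit 32912) (nat_lit 239235) (nat_lit 62084) (nat_lit 458602382) (nat_lit 0) (nat_lit 0),Row.mk (nat_lit 24024) (nat_lit 32912) (nat_lit 239235) (nat_lit 62084) (nat_lit 572842876) (nat_lit 0) (nat_lit 0),Row.mk (nat_lit 24192) (nat_lit 32912) (nat_lit 239235) (nat_lit 62084) (nat_lit 715526497) (nat_lit 0) (nat_lit 0),Row.mk (nat_lit 24360) (nat_lit 32912) (nat_lit 239235) (nat_lit 62084) (nat_lit 893734897) (nat_lit 0) (nat_lit 0),Row.mk (nat_lit 24528) (nat_lit 32912) (nat_lit 239235) (nat_lit 62084) (nat_lit 1116312890) (nat_lit 0) (nat_lit 0),Row.mk (nat_lit 24696) (nat_lit 32912) (nat_lit 239235) (nat_lit 62084) (nat_lit 1394307434) (nat_lit 0) (nat_lit 0),Row.mk (nat_lit 24864) (nat_lit 32912) (nat_lit 239235) (nat_lit 62084) (nat_lit 1741515913) (nat_lit 0) (nat_lit 0),Row.mk (nat_lit 25032) (nat_lit 32912) (nat_lit 239235) (nat_lit 62084) (nat_lit 2175170927) (nat_lit 0) (nat_lit 0),Row.mk (nat_lit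 25200) (nat_lit 32912) (nat_lit 239235) (nat_lit 62084) (nat_lit 2716795579) (nat_lit 0) (nat_lit 0),Row.mk (nat_lit 25368) (nat_lit 32912) (nat_lit 239235) (nat_lit 62084) (nat_lit 3393271702) (nat_lit 0) (nat_lit 0),Row.mk (nat_lit 25536) (nat_lit 32912) (nat_lit 239235) (nat_lit 62084) (nat_lit 4238174061) (nat_lit 0) (nat_lit 0),Row.mk (nat_lit 25704) (nat_lit 32912) (nat_lit 239235) (nat_lit 62084) (nat_lit 5293436726) (nat_lit 0) (nat_lit 0),Row.mk (nat_lit 25872) (nat_lit 32912) (nat_lit 239235) (nat_lit 62084) (nat_lit 6611434337) (nat_lit 0) (nat_lit 0),Row.mk (nat_lit 26040) (nat_lit 32912) (nat_lit 239235) (nat_lit 62084) (nat_lit 8257581557) (nat_lit 0) (nat_lit 0)],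
[Row.mk (nat_lit 11088) (nat_lit 32912) (nat_lit 21) (nat_lit 61897) (nat_lit 298777) (nat_lit 0) (nat_lit 0),Row.mk (nat_lit 11256) (nat_lit 32912) (nat_lit 26) (nat_lit 61897) (nat_lit 298772) (nat_lit 0) (nat_lit 0),Row.mk (nat_lit 11424) (nat_lit 32912) (nat_lit 32) (nat_lit 61897) (nat_lit 298766) (nat_lit 0) (nat_lit 0),Row.mk (nat_lit 11592) (nat_lit 32912) (nat_lit 41) (nat_lit 61897) (nat_lit 298757) (nat_lit 0) (nat_lit 0),Row.mk (nat_lit 11760) (nat_lit 32912) (nat_lit 51) (nat_lit 61897) (nat_lit 298747) (nat_lit 0) (nat_lit 0),Row.mk (nat_lit 11928) (nat_lit 32912) (nat_lit 64) (nat_lit 61897) (nat_lit 298734) (nat_lit 0) (nat_lit 0),Row.mk (nat_lit 12096) (nat_lit 32912) (nat_lit 79) (nat_lit 61897) (nat_lit 298719) (nat_lit 0) (nat_lit 0),Row.mk (nat_lit 12264) (nat_lit 32912) (nat_lit 99) (nat_lit 61897) (nat_lit 298699) (nat_lit 0) (nat_lit 0),Row.mk (nat_lit 12432) (nat_lit 32912) (nat_lit 124) (nat_lit 61897) (nat_lit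 298674) (nat_lit 0) (nat_lit 0),Row.mk (nat_lit 12600) (nat_lit 32912) (nat_lit 155) (nat_lit 61897) (nat_lit 298643) (nat_lit 0) (nat_lit 0),Row.mk (nat_lit 12768) (nat_lit 32912) (nat_lit 194) (nat_lit 61897) (nat_lit 298604) (nat_lit 0) (nat_lit 0),Row.mk (nat_lit 12936) (nat_lit 32912) (nat_lit 243) (nat_lit 61897) (nat_lit 298555) (nat_lit 0) (nat_lit 0),Row.mk (nat_lit 13104) (nat_lit 32912) (nat_lit 303) (nat_lit 61897) (nat_lit 298495) (nat_lit 0) (nat_lit 0),Row.mk (nat_lit 13272) (nat_lit 32912) (nat_lit 379) (nat_lit 61897) (nat_lit 298419) (nat_lit 0) (nat_lit 0),Row.mk (nat_lit 13440) (nat_lit 0) (nat_lit 2375) (nat_lit 748) (nat_lit 296897) (nat_lit 0) (nat_lit 0),Row.mk (nat_lit 13608) (nat_lit 561) (nat_lit 2966) (nat_lit 1309) (nat_lit 296423) (nat_lit 0) (nat_lit 0),Row.mk (nat_lit 13776) (nat_lit 1122) (nat_lit 3705) (nat_lit 1870) (nat_lit 295832) (nat_lit 0) (nat_lit 0),Row.mk (nat_lit 13944) (nat_lit 1683) (nat_lit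 4627) (nat_lit 2431) (nat_lit 295093) (nat_lit 0) (nat_lit 0),Row.mk (nat_lit 14112) (nat_lit 2244) (nat_lit 5779) (nat_lit 2992) (nat_lit 294171) (nat_lit 0) (nat_lit 0),Row.mk (nat_lit 14280) (nat_lit 2805) (nat_lit 7219) (nat_lit 3553) (nat_lit 293019) (nat_lit 0) (nat_lit 0),Row.mk (nat_lit 14448) (nat_lit 3366) (nat_lit 9016) (nat_lit 4114) (nat_lit 291579) (nat_lit 0) (nat_lit 0),Row.mk (nat_lit 14616) (nat_lit 3927) (nat_lit 11261) (nat_lit 4675) (nat_lit 289782) (nat_lit 0) (nat_lit 0),Row.mk (nat_lit 14784) (nat_lit 4488) (nat_lit 14065) (nat_lit 5236) (nat_lit 287537) (nat_lit 0) (nat_lit 0),Row.mk (nat_lit 14952) (nat_lit 5049) (nat_lit 17566) (nat_lit 5797) (nat_lit 284733) (nat_lit 0) (nat_lit 0),Row.mk (nat_lit 15120) (nat_lit 5610) (nat_lit 21940) (nat_lit 6358) (nat_lit 281232) (nat_lit 0) (nat_lit 0),Row.mk (nat_lit 15288) (nat_lit 6171) (nat_lit 27403) (nat_lit 6919) (nat_lit 276858) (nat_lit 0) (nat_lit 0),Row.mk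 (nat_lit 15456) (nat_lit 6732) (nat_lit 34226) (nat_lit 7480) (nat_lit 271395) (nat_lit 0) (nat_lit 0),Row.mk (nat_lit 15624) (nat_lit 7293) (nat_lit 42747) (nat_lit 8041) (nat_lit 264572) (nat_lit 0) (nat_lit 0),Row.mk (nat_lit 15792) (nat_lit 7854) (nat_lit 53390) (nat_lit 8602) (nat_lit 256051) (nat_lit 0) (nat_lit 0),Row.mk (nat_lit 15960) (nat_lit 8415) (nat_lit 66683) (nat_lit 9163) (nat_lit 245408) (nat_lit 0) (nat_lit 0),Row.mk (nat_lit 16128) (nat_lit 8976) (nat_lit 83286) (nat_lit 9724) (nat_lit 232115) (nat_lit 0) (nat_lit 0),Row.mk (nat_lit 16296) (nat_lit 9537) (nat_lit 104022) (nat_lit 10285) (nat_lit 215512) (nat_lit 0) (nat_lit 0),Row.mk (nat_lit 16464) (nat_lit 10098) (nat_lit 129921) (nat_lit 10846) (nat_lit 194776) (nat_lit 0) (nat_lit 0),Row.mk (nat_lit 16632) (nat_lit 10659) (nat_lit 162268) (nat_lit 11407) (nat_lit 168877) (nat_lit 0) (nat_lit 0),Row.mk (nat_lit 16800) (nat_lit 11220) (nat_lit 202670) (nat_lit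 11968) (nat_lit 136530) (nat_lit 0) (nat_lit 0),Row.mk (nat_lit 16968) (nat_lit 11781) (nat_lit 253129) (nat_lit 12716) (nat_lit 96129) (nat_lit 0) (nat_lit 0),Row.mk (nat_lit 17136) (nat_lit 12529) (nat_lit 316153) (nat_lit 13464) (nat_lit 45669) (nat_lit 0) (nat_lit 0),Row.mk (nat_lit 17304) (nat_lit 12342) (nat_lit 21674) (nat_lit 13277) (nat_lit 355838) (nat_lit 0) (nat_lit 0),Row.mk (nat_lit 17472) (nat_lit 13090) (nat_lit 119987) (nat_lit 14025) (nat_lit 277124) (nat_lit 0) (nat_lit 0),Row.mk (nat_lit 17640) (nat_lit 13838) (nat_lit 242777) (nat_lit 15147) (nat_lit 178811) (nat_lit 0) (nat_lit 0),Row.mk (nat_lit 17808) (nat_lit 14960) (nat_lit 396139) (nat_lit 16456) (nat_lit 56021) (nat_lit 0) (nat_lit 0),Row.mk (nat_lit 17976) (nat_lit 14773) (nat_lit 121575) (nat_lit 16269) (nat_lit 368768) (nat_lit 0) (nat_lit 0),Row.mk (nat_lit 18144) (nat_lit 16082) (nat_lit 360810) (nat_lit 17765) (nat_lit 177223) (nat_lit 0) (nat_lit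 0),Row.mk (nat_lit 18312) (nat_lit 15895) (nat_lit 77451) (nat_lit 17578) (nat_lit 520146) (nat_lit 0) (nat_lit 0),Row.mk (nat_lit 18480) (nat_lit 17391) (nat_lit 450643) (nat_lit 19635) (nat_lit 221347) (nat_lit 0) (nat_lit 0),Row.mk (nat_lit 18648) (nat_lit 17204) (nat_lit 189650) (nat_lit 19448) (nat_lit 575257) (nat_lit 0) (nat_lit 0),Row.mk (nat_lit 18816) (nat_lit 19261) (nat_lit 771809) (nat_lit 25806) (nat_lit 109148) (nat_lit 0) (nat_lit 0),Row.mk (nat_lit 18984) (nat_lit 19074) (nat_lit 590778) (nat_lit 25619) (nat_lit 435122) (nat_lit 0) (nat_lit 0),Row.mk (nat_lit 19152) (nat_lit 18887) (nat_lit 364675) (nat_lit 25432) (nat_lit 842256) (nat_lit 0) (nat_lit 0),Row.mk (nat_lit 19320) (nat_lit 18700) (nat_lit 82277) (nat_lit 25245) (nat_lit 1350757) (nat_lit 0) (nat_lit 0),Row.mk (nat_lit 19488) (nat_lit 25058) (nat_lit 1498911) (nat_lit 31603) (nat_lit 216521) (nat_lit 0) (nat_lit 0),Row.mk (nat_lit 19656) (nat_lit 24871)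 (nat_lit 1498911) (nat_lit 31416) (nat_lit 569228) (nat_lit 0) (nat_lit 0),Row.mk (nat_lit 19824) (nat_lit 24684) (nat_lit 1498911) (nat_lit 31229) (nat_lit 1009751) (nat_lit 0) (nat_lit 0),Row.mk (nat_lit 19992) (nat_lit 24497) (nat_lit 1498911) (nat_lit 31042) (nat_lit 1559954) (nat_lit 0) (nat_lit 0),Row.mk (nat_lit 20160) (nat_lit 24310) (nat_lit 1498911) (nat_lit 30855) (nat_lit 2247145) (nat_lit 0) (nat_lit 0),Row.mk (nat_lit 20328) (nat_lit 24123) (nat_lit 1498911) (nat_lit 30668) (nat_lit 3105428) (nat_lit 0) (nat_lit 0),Row.mk (nat_lit 20496) (nat_lit 23936) (nat_lit 1498911) (nat_lit 30481) (nat_lit 4177404) (nat_lit 0) (nat_lit 0),Row.mk (nat_lit 20664) (nat_lit 23749) (nat_lit 1498911) (nat_lit 30294) (nat_lit 5516276) (nat_lit 0) (nat_lit 0),Row.mk (nat_lit 20832) (nat_lit 23562) (nat_lit 1498911) (nat_lit 30107) (nat_lit 7188495) (nat_lit 0) (nat_lit 0),Row.mk (nat_lit 21000) (nat_lit 23375) (nat_lit 1498911) (nat_lit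 29920) (nat_lit 9277056) (nat_lit 0) (nat_lit 0),Row.mk (nat_lit 21168) (nat_lit 23188) (nat_lit 1498911) (nat_lit 29733) (nat_lit 11885619) (nat_lit 0) (nat_lit 0),Row.mk (nat_lit 21336) (nat_lit 23001) (nat_lit 1498911) (nat_lit 29546) (nat_lit 15143650) (nat_lit 0) (nat_lit 0),Row.mk (nat_lit 21504) (nat_lit 22814) (nat_lit 1498911) (nat_lit 29359) (nat_lit 19212853) (nat_lit 0) (nat_lit 0),Row.mk (nat_lit 21672) (nat_lit 22627) (nat_lit 1498911) (nat_lit 29172) (nat_lit 24295189) (nat_lit 0) (nat_lit 0),Row.mk (nat_lit 21840) (nat_lit 22440) (nat_lit 1498911) (nat_lit 28985) (nat_lit 30642904) (nat_lit 0) (nat_lit 0),Row.mk (nat_lit 22008) (nat_lit 22253) (nat_lit 1498911) (nat_lit 28798) (nat_lit 38571047) (nat_lit 0) (nat_lit 0),Row.mk (nat_lit 22176) (nat_lit 22066) (nat_lit 1498911) (nat_lit 28611) (nat_lit 48473106) (nat_lit 0) (nat_lit 0),Row.mk (nat_lit 22344) (nat_lit 21879) (nat_lit 1498911) (nat_lit 28424) (nat_lit 60840539)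 (nat_lit 0) (nat_lit 0),Row.mk (nat_lit 22512) (nat_lit 21692) (nat_lit 1498911) (nat_lit 28237) (nat_lit 76287165) (nat_lit 0) (nat_lit 0),Row.mk (nat_lit 22680) (nat_lit 21505) (nat_lit 1498911) (nat_lit 28050) (nat_lit 95579627) (nat_lit 0) (nat_lit 0),Row.mk (nat_lit 22848) (nat_lit 21318) (nat_lit 1498911) (nat_lit 27863) (nat_lit 119675448) (nat_lit 0) (nat_lit 0),Row.mk (nat_lit 23016) (nat_lit 21131) (nat_lit 1498911) (nat_lit 27676) (nat_lit 149770547) (nat_lit 0) (nat_lit 0),Row.mk (nat_lit 23184) (nat_lit 20944) (nat_lit 1498911) (nat_lit 27489) (nat_lit 187358599) (nat_lit 0) (nat_lit 0),Row.mk (nat_lit 23352) (nat_lit 32912) (nat_lit 298799) (nat_lit 62084) (nat_lit 235206482) (nat_lit 0) (nat_lit 0),Row.mk (nat_lit 23520) (nat_lit 32912) (nat_lit 298799) (nat_lit 62084) (nat_lit 293841616) (nat_lit 0) (nat_lit 0),Row.mk (nat_lit 23688) (nat_lit 32912) (nat_lit 298799) (nat_lit 62084) (nat_lit 367075484) (nat_lit 0) (nat_lit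 0),Row.mk (nat_lit 23856) (nat_lit 32912) (nat_lit 298799) (nat_lit 62084) (nat_lit 458542818) (nat_lit 0) (nat_lit 0),Row.mk (nat_lit 24024) (nat_lit 32912) (nat_lit 298799) (nat_lit 62084) (nat_lit 572783312) (nat_lit 0) (nat_lit 0),Row.mk (nat_lit 24192) (nat_lit 32912) (nat_lit 298799) (nat_lit 62084) (nat_lit 715466933) (nat_lit 0) (nat_lit 0),Row.mk (nat_lit 24360) (nat_lit 32912) (nat_lit 298799) (nat_lit 62084) (nat_lit 893675333) (nat_lit 0) (nat_lit 0),Row.mk (nat_lit 24528) (nat_lit 32912) (nat_lit 298799) (nat_lit 62084) (nat_lit 1116253326) (nat_lit 0) (nat_lit 0),Row.mk (nat_lit 24696) (nat_lit 32912) (nat_lit 298799) (nat_lit 62084) (nat_lit 1394247870) (nat_lit 0) (nat_lit 0),Row.mk (nat_lit 24864) (nat_lit 32912) (nat_lit 298799) (nat_lit 62084) (nat_lit 1741456349) (nat_lit 0) (nat_lit 0),Row.mk (nat_lit 25032) (nat_lit 32912) (nat_lit 298799) (nat_lit 62084) (nat_lit 2175111364) (nat_lit 0) (nat_lit 0),Row.mk (nat_lit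 25200) (nat_lit 32912) (nat_lit 298799) (nat_lit 62084) (nat_lit 2716736015) (nat_lit 0) (nat_lit 0),Row.mk (nat_lit 25368) (nat_lit 32912) (nat_lit 298799) (nat_lit 62084) (nat_lit 3393212139) (nat_lit 0) (nat_lit 0),Row.mk (nat_lit 25536) (nat_lit 32912) (nat_lit 298799) (nat_lit 62084) (nat_lit 4238114498) (nat_lit 0) (nat_lit 0),Row.mk (nat_lit 25704) (nat_lit 32912) (nat_lit 298799) (nat_lit 62084) (nat_lit 5293377162) (nat_lit 0) (nat_lit 0),Row.mk (nat_lit 25872) (nat_lit 32912) (nat_lit 298799) (nat_lit 62084) (nat_lit 6611374773) (nat_lit 0) (nat_lit 0),Row.mk (nat_lit 26040) (nat_lit 32912) (nat_lit 298799) (nat_lit 62084) (nat_lit 8257521994) (nat_lit 0) (nat_lit 0),Row.mk (nat_lit 26208) (nat_lit 32912) (nat_lit 298799) (nat_lit 62084) (nat_lit 10313520161) (nat_lit 0) (nat_lit 0)],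
[Row.mk (nat_lit 11088) (nat_lit 32912) (nat_lit 21) (nat_lit 61897) (nat_lit 373171) (nat_lit 0) (nat_lit 0),Row.mk (nat_lit 11256) (nat_lit 32912) (nat_lit 26) (nat_lit 61897) (nat_lit 373166) (nat_lit 0) (nat_lit 0),Row.mk (nat_lit 11424) (nat_lit 32912) (nat_lit 32) (nat_lit 61897) (nat_lit 373159) (nat_lit 0) (nat_lit 0),Row.mk (nat_lit 11592) (nat_lit 32912) (nat_lit 41) (nat_lit 61897) (nat_lit 373151) (nat_lit 0) (nat_lit 0),Row.mk (nat_lit 11760) (nat_lit 32912) (nat_lit 51) (nat_lit 61897) (nat_lit 373141) (nat_lit 0) (nat_lit 0),Row.mk (nat_lit 11928) (nat_lit 32912) (nat_lit 64) (nat_lit 61897) (nat_lit 373128) (nat_lit 0) (nat_lit 0),Row.mk (nat_lit 12096) (nat_lit 32912) (nat_lit 79) (nat_lit 61897) (nat_lit 373112) (nat_lit 0) (nat_lit 0),Row.mk (nat_lit 12264) (nat_lit 32912) (nat_lit 99) (nat_lit 61897) (nat_lit 373092) (nat_lit 0) (nat_lit 0),Row.mk (nat_lit 12432) (nat_lit 32912) (nat_lit 124) (nat_lit 61897) (nat_lit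 373068) (nat_lit 0) (nat_lit 0),Row.mk (nat_lit 12600) (nat_lit 32912) (nat_lit 155) (nat_lit 61897) (nat_lit 373036) (nat_lit 0) (nat_lit 0),Row.mk (nat_lit 12768) (nat_lit 32912) (nat_lit 194) (nat_lit 61897) (nat_lit 372998) (nat_lit 0) (nat_lit 0),Row.mk (nat_lit 12936) (nat_lit 32912) (nat_lit 243) (nat_lit 61897) (nat_lit 372949) (nat_lit 0) (nat_lit 0),Row.mk (nat_lit 13104) (nat_lit 32912) (nat_lit 303) (nat_lit 61897) (nat_lit 372889) (nat_lit 0) (nat_lit 0),Row.mk (nat_lit 13272) (nat_lit 32912) (nat_lit 379) (nat_lit 61897) (nat_lit 372813) (nat_lit 0) (nat_lit 0),Row.mk (nat_lit 13440) (nat_lit 32912) (nat_lit 473) (nat_lit 61897) (nat_lit 372719) (nat_lit 0) (nat_lit 0),Row.mk (nat_lit 13608) (nat_lit 0) (nat_lit 2966) (nat_lit 748) (nat_lit 370817) (nat_lit 0) (nat_lit 0),Row.mk (nat_lit 13776) (nat_lit 561) (nat_lit 3705) (nat_lit 1309) (nat_lit 370226) (nat_lit 0) (nat_lit 0),Row.mk (nat_lit 13944) (nat_lit 1122) (nat_lit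 4627) (nat_lit 1870) (nat_lit 369487) (nat_lit 0) (nat_lit 0),Row.mk (nat_lit 14112) (nat_lit 1683) (nat_lit 5779) (nat_lit 2431) (nat_lit 368564) (nat_lit 0) (nat_lit 0),Row.mk (nat_lit 14280) (nat_lit 2244) (nat_lit 7219) (nat_lit 2992) (nat_lit 367412) (nat_lit 0) (nat_lit 0),Row.mk (nat_lit 14448) (nat_lit 2805) (nat_lit 9016) (nat_lit 3553) (nat_lit 365973) (nat_lit 0) (nat_lit 0),Row.mk (nat_lit 14616) (nat_lit 3366) (nat_lit 11261) (nat_lit 4114) (nat_lit 364176) (nat_lit 0) (nat_lit 0),Row.mk (nat_lit 14784) (nat_lit 3927) (nat_lit 14065) (nat_lit 4675) (nat_lit 361931) (nat_lit 0) (nat_lit 0),Row.mk (nat_lit 14952) (nat_lit 4488) (nat_lit 17566) (nat_lit 5236) (nat_lit 359127) (nat_lit 0) (nat_lit 0),Row.mk (nat_lit 15120) (nat_lit 5049) (nat_lit 21940) (nat_lit 5797) (nat_lit 355625) (nat_lit 0) (nat_lit 0),Row.mk (nat_lit 15288) (nat_lit 5610) (nat_lit 27403) (nat_lit 6358) (nat_lit 351252) (nat_lit 0) (nat_lit 0),Row.mk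 (nat_lit 15456) (nat_lit 6171) (nat_lit 34226) (nat_lit 6919) (nat_lit 345789) (nat_lit 0) (nat_lit 0),Row.mk (nat_lit 15624) (nat_lit 6732) (nat_lit 42747) (nat_lit 7480) (nat_lit 338966) (nat_lit 0) (nat_lit 0),Row.mk (nat_lit 15792) (nat_lit 7293) (nat_lit 53390) (nat_lit 8041) (nat_lit 330445) (nat_lit 0) (nat_lit 0),Row.mk (nat_lit 15960) (nat_lit 7854) (nat_lit 66683) (nat_lit 8602) (nat_lit 319802) (nat_lit 0) (nat_lit 0),Row.mk (nat_lit 16128) (nat_lit 8415) (nat_lit 83286) (nat_lit 9163) (nat_lit 306509) (nat_lit 0) (nat_lit 0),Row.mk (nat_lit 16296) (nat_lit 8976) (nat_lit 104022) (nat_lit 9724) (nat_lit 289906) (nat_lit 0) (nat_lit 0),Row.mk (nat_lit 16464) (nat_lit 9537) (nat_lit 129921) (nat_lit 10285) (nat_lit 269170) (nat_lit 0) (nat_lit 0),Row.mk (nat_lit 16632) (nat_lit 10098) (nat_lit 162268) (nat_lit 10846) (nat_lit 243271) (nat_lit 0) (nat_lit 0),Row.mk (nat_lit 16800) (nat_lit 10659) (nat_lit 202670) (nat_lit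 11407) (nat_lit 210923) (nat_lit 0) (nat_lit 0),Row.mk (nat_lit 16968) (nat_lit 11220) (nat_lit 253129) (nat_lit 11968) (nat_lit 170522) (nat_lit 0) (nat_lit 0),Row.mk (nat_lit 17136) (nat_lit 11781) (nat_lit 316153) (nat_lit 12716) (nat_lit 120062) (nat_lit 0) (nat_lit 0),Row.mk (nat_lit 17304) (nat_lit 12529) (nat_lit 394867) (nat_lit 13464) (nat_lit 57039) (nat_lit 0) (nat_lit 0),Row.mk (nat_lit 17472) (nat_lit 12342) (nat_lit 27071) (nat_lit 13277) (nat_lit 444433) (nat_lit 0) (nat_lit 0),Row.mk (nat_lit 17640) (nat_lit 13090) (nat_lit 149861) (nat_lit 14025) (nat_lit 346121) (nat_lit 0) (nat_lit 0),Row.mk (nat_lit 17808) (nat_lit 13838) (nat_lit 303223) (nat_lit 15147) (nat_lit 223331) (nat_lit 0) (nat_lit 0),Row.mk (nat_lit 17976) (nat_lit 14960) (nat_lit 494768) (nat_lit 16456) (nat_lit 69969) (nat_lit 0) (nat_lit 0),Row.mk (nat_lit 18144) (nat_lit 14773) (nat_lit 151844) (nat_lit 16269) (nat_lit 460582) (nat_lit 0) (nat_lit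 0),Row.mk (nat_lit 18312) (nat_lit 16082) (nat_lit 450643) (nat_lit 17765) (nat_lit 221347) (nat_lit 0) (nat_lit 0),Row.mk (nat_lit 18480) (nat_lit 15895) (nat_lit 96734) (nat_lit 17578) (nat_lit 649650) (nat_lit 0) (nat_lit 0),Row.mk (nat_lit 18648) (nat_lit 17391) (nat_lit 562843) (nat_lit 19635) (nat_lit 276458) (nat_lit 0) (nat_lit 0),Row.mk (nat_lit 18816) (nat_lit 17204) (nat_lit 236869) (nat_lit 19448) (nat_lit 718482) (nat_lit 0) (nat_lit 0),Row.mk (nat_lit 18984) (nat_lit 19261) (nat_lit 963971) (nat_lit 25806) (nat_lit 136323) (nat_lit 0) (nat_lit 0),Row.mk (nat_lit 19152) (nat_lit 19074) (nat_lit 737867) (nat_lit 25619) (nat_lit 543457) (nat_lit 0) (nat_lit 0),Row.mk (nat_lit 19320) (nat_lit 18887) (nat_lit 455470) (nat_lit 25432) (nat_lit 1051958) (nat_lit 0) (nat_lit 0),Row.mk (nat_lit 19488) (nat_lit 18700) (nat_lit 102763) (nat_lit 25245) (nat_lit 1687063) (nat_lit 0) (nat_lit 0),Row.mk (nat_lit 19656) (nat_lit 25058)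 (nat_lit 1872104) (nat_lit 31603) (nat_lit 270429) (nat_lit 0) (nat_lit 0),Row.mk (nat_lit 19824) (nat_lit 24871) (nat_lit 1872104) (nat_lit 31416) (nat_lit 710952) (nat_lit 0) (nat_lit 0),Row.mk (nat_lit 19992) (nat_lit 24684) (nat_lit 1872104) (nat_lit 31229) (nat_lit 1261155) (nat_lit 0) (nat_lit 0),Row.mk (nat_lit 20160) (nat_lit 24497) (nat_lit 1872104) (nat_lit 31042) (nat_lit 1948346) (nat_lit 0) (nat_lit 0),Row.mk (nat_lit 20328) (nat_lit 24310) (nat_lit 1872104) (nat_lit 30855) (nat_lit 2806629) (nat_lit 0) (nat_lit 0),Row.mk (nat_lit 20496) (nat_lit 24123) (nat_lit 1872104) (nat_lit 30668) (nat_lit 3878605) (nat_lit 0) (nat_lit 0),Row.mk (nat_lit 20664) (nat_lit 23936) (nat_lit 1872104) (nat_lit 30481) (nat_lit 5217477) (nat_lit 0) (nat_lit 0),Row.mk (nat_lit 20832) (nat_lit 23749) (nat_lit 1872104) (nat_lit 30294) (nat_lit 6889696) (nat_lit 0) (nat_lit 0),Row.mk (nat_lit 21000) (nat_lit 23562) (nat_lit 1872104) (nat_lit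 30107) (nat_lit 8978257) (nat_lit 0) (nat_lit 0),Row.mk (nat_lit 21168) (nat_lit 23375) (nat_lit 1872104) (nat_lit 29920) (nat_lit 11586820) (nat_lit 0) (nat_lit 0),Row.mk (nat_lit 21336) (nat_lit 23188) (nat_lit 1872104) (nat_lit 29733) (nat_lit 14844851) (nat_lit 0) (nat_lit 0),Row.mk (nat_lit 21504) (nat_lit 23001) (nat_lit 1872104) (nat_lit 29546) (nat_lit 18914054) (nat_lit 0) (nat_lit 0),Row.mk (nat_lit 21672) (nat_lit 22814) (nat_lit 1872104) (nat_lit 29359) (nat_lit 23996390) (nat_lit 0) (nat_lit 0),Row.mk (nat_lit 21840) (nat_lit 22627) (nat_lit 1872104) (nat_lit 29172) (nat_lit 30344105) (nat_lit 0) (nat_lit 0),Row.mk (nat_lit 22008) (nat_lit 22440) (nat_lit 1872104) (nat_lit 28985) (nat_lit 38272248) (nat_lit 0) (nat_lit 0),Row.mk (nat_lit 22176) (nat_lit 22253) (nat_lit 1872104) (nat_lit 28798) (nat_lit 48174307) (nat_lit 0) (nat_lit 0),Row.mk (nat_lit 22344) (nat_lit 22066) (nat_lit 1872104) (nat_lit 28611) (nat_lit 60541740)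 (nat_lit 0) (nat_lit 0),Row.mk (nat_lit 22512) (nat_lit 21879) (nat_lit 1872104) (nat_lit 28424) (nat_lit 75988366) (nat_lit 0) (nat_lit 0),Row.mk (nat_lit 22680) (nat_lit 21692) (nat_lit 1872104) (nat_lit 28237) (nat_lit 95280828) (nat_lit 0) (nat_lit 0),Row.mk (nat_lit 22848) (nat_lit 21505) (nat_lit 1872104) (nat_lit 28050) (nat_lit 119376649) (nat_lit 0) (nat_lit 0),Row.mk (nat_lit 23016) (nat_lit 21318) (nat_lit 1872104) (nat_lit 27863) (nat_lit 149471748) (nat_lit 0) (nat_lit 0),Row.mk (nat_lit 23184) (nat_lit 21131) (nat_lit 1872104) (nat_lit 27676) (nat_lit 187059800) (nat_lit 0) (nat_lit 0),Row.mk (nat_lit 23352) (nat_lit 20944) (nat_lit 1872104) (nat_lit 27489) (nat_lit 234006370) (nat_lit 0) (nat_lit 0),Row.mk (nat_lit 23520) (nat_lit 32912) (nat_lit 373192) (nat_lit 62084) (nat_lit 293767223) (nat_lit 0) (nat_lit 0),Row.mk (nat_lit 23688) (nat_lit 32912) (nat_lit 373192) (nat_lit 62084) (nat_lit 367001090) (nat_lit 0)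 (nat_lit 0),Row.mk (nat_lit 23856) (nat_lit 32912) (nat_lit 373192) (nat_lit 62084) (nat_lit 458468425) (nat_lit 0) (nat_lit 0),Row.mk (nat_lit 24024) (nat_lit 32912) (nat_lit 373192) (nat_lit 62084) (nat_lit 572708918) (nat_lit 0) (nat_lit 0),Row.mk (nat_lit 24192) (nat_lit 32912) (nat_lit 373192) (nat_lit 62084) (nat_lit 715392539) (nat_lit 0) (nat_lit 0),Row.mk (nat_lit 24360) (nat_lit 32912) (nat_lit 373192) (nat_lit 62084) (nat_lit 893600940) (nat_lit 0) (nat_lit 0),Row.mk (nat_lit 24528) (nat_lit 32912) (nat_lit 373192) (nat_lit 62084) (nat_lit 1116178933) (nat_lit 0) (nat_lit 0),Row.mk (nat_lit 24696) (nat_lit 32912) (nat_lit 373192) (nat_lit 62084) (nat_lit 1394173477) (nat_lit 0) (nat_lit 0),Row.mk (nat_lit 24864) (nat_lit 32912) (nat_lit 373192) (nat_lit 62084) (nat_lit 1741381955) (nat_lit 0) (nat_lit 0),Row.mk (nat_lit 25032) (nat_lit 32912) (nat_lit 373192) (nat_lit 62084) (nat_lit 2175036970) (nat_lit 0) (nat_lit 0),Row.mk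 (nat_lit 25200) (nat_lit 32912) (nat_lit 373192) (nat_lit 62084) (nat_lit 2716661621) (nat_lit 0) (nat_lit 0),Row.mk (nat_lit 25368) (nat_lit 32912) (nat_lit 373192) (nat_lit 62084) (nat_lit 3393137745) (nat_lit 0) (nat_lit 0),Row.mk (nat_lit 25536) (nat_lit 32912) (nat_lit 373192) (nat_lit 62084) (nat_lit 4238040104) (nat_lit 0) (nat_lit 0),Row.mk (nat_lit 25704) (nat_lit 32912) (nat_lit 373192) (nat_lit 62084) (nat_lit 5293302768) (nat_lit 0) (nat_lit 0),Row.mk (nat_lit 25872) (nat_lit 32912) (nat_lit 373192) (nat_lit 62084) (nat_lit 6611300379) (nat_lit 0) (nat_lit 0),Row.mk (nat_lit 26040) (nat_lit 32912) (nat_lit 373192) (nat_lit 62084) (nat_lit 8257447600) (nat_lit 0) (nat_lit 0),Row.mk (nat_lit 26208) (nat_lit 32912) (nat_lit 373192) (nat_lit 62084) (nat_lit 10313445767) (nat_lit 0) (nat_lit 0)],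
[Row.mk (nat_lit 10920) (nat_lit 32912) (nat_lit 16) (nat_lit 61897) (nat_lit 466091) (nat_lit 0) (nat_lit 0),Row.mk (nat_lit 11088) (nat_lit 32912) (nat_lit 21) (nat_lit 61897) (nat_lit 466087) (nat_lit 0) (nat_lit 0),Row.mk (nat_lit 11256) (nat_lit 32912) (nat_lit 26) (nat_lit 61897) (nat_lit 466082) (nat_lit 0) (nat_lit 0),Row.mk (nat_lit 11424) (nat_lit 32912) (nat_lit 32) (nat_lit 61897) (nat_lit 466075) (nat_lit 0) (nat_lit 0),Row.mk (nat_lit 11592) (nat_lit 32912) (nat_lit 41) (nat_lit 61897) (nat_lit 466067) (nat_lit 0) (nat_lit 0),Row.mk (nat_lit 11760) (nat_lit 32912) (nat_lit 51) (nat_lit 61897) (nat_lit 466057) (nat_lit 0) (nat_lit 0),Row.mk (nat_lit 11928) (nat_lit 32912) (nat_lit 64) (nat_lit 61897) (nat_lit 466044) (nat_lit 0) (nat_lit 0),Row.mk (nat_lit 12096) (nat_lit 32912) (nat_lit 79) (nat_lit 61897) (nat_lit 466028) (nat_lit 0) (nat_lit 0),Row.mk (nat_lit 12264) (nat_lit 32912) (nat_lit 99) (nat_lit 61897) (nat_lit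 466008) (nat_lit 0) (nat_lit 0),Row.mk (nat_lit 12432) (nat_lit 32912) (nat_lit 124) (nat_lit 61897) (nat_lit 465984) (nat_lit 0) (nat_lit 0),Row.mk (nat_lit 12600) (nat_lit 32912) (nat_lit 155) (nat_lit 61897) (nat_lit 465952) (nat_lit 0) (nat_lit 0),Row.mk (nat_lit 12768) (nat_lit 32912) (nat_lit 194) (nat_lit 61897) (nat_lit 465914) (nat_lit 0) (nat_lit 0),Row.mk (nat_lit 12936) (nat_lit 32912) (nat_lit 243) (nat_lit 61897) (nat_lit 465865) (nat_lit 0) (nat_lit 0),Row.mk (nat_lit 13104) (nat_lit 32912) (nat_lit 303) (nat_lit 61897) (nat_lit 465805) (nat_lit 0) (nat_lit 0),Row.mk (nat_lit 13272) (nat_lit 32912) (nat_lit 379) (nat_lit 61897) (nat_lit 465729) (nat_lit 0) (nat_lit 0),Row.mk (nat_lit 13440) (nat_lit 32912) (nat_lit 473) (nat_lit 61897) (nat_lit 465635) (nat_lit 0) (nat_lit 0),Row.mk (nat_lit 13608) (nat_lit 32912) (nat_lit 591) (nat_lit 61897) (nat_lit 465517) (nat_lit 0) (nat_lit 0),Row.mk (nat_lit 13776) (nat_lit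 0) (nat_lit 3705) (nat_lit 748) (nat_lit 463142) (nat_lit 0) (nat_lit 0),Row.mk (nat_lit 13944) (nat_lit 561) (nat_lit 4627) (nat_lit 1309) (nat_lit 462403) (nat_lit 0) (nat_lit 0),Row.mk (nat_lit 14112) (nat_lit 1122) (nat_lit 5779) (nat_lit 1870) (nat_lit 461480) (nat_lit 0) (nat_lit 0),Row.mk (nat_lit 14280) (nat_lit 1683) (nat_lit 7219) (nat_lit 2431) (nat_lit 460328) (nat_lit 0) (nat_lit 0),Row.mk (nat_lit 14448) (nat_lit 2244) (nat_lit 9016) (nat_lit 2992) (nat_lit 458889) (nat_lit 0) (nat_lit 0),Row.mk (nat_lit 14616) (nat_lit 2805) (nat_lit 11261) (nat_lit 3553) (nat_lit 457092) (nat_lit 0) (nat_lit 0),Row.mk (nat_lit 14784) (nat_lit 3366) (nat_lit 14065) (nat_lit 4114) (nat_lit 454847) (nat_lit 0) (nat_lit 0),Row.mk (nat_lit 14952) (nat_lit 3927) (nat_lit 17566) (nat_lit 4675) (nat_lit 452043) (nat_lit 0) (nat_lit 0),Row.mk (nat_lit 15120) (nat_lit 4488) (nat_lit 21940) (nat_lit 5236) (nat_lit 448541) (nat_lit 0) (nat_lit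 0),Row.mk (nat_lit 15288) (nat_lit 5049) (nat_lit 27403) (nat_lit 5797) (nat_lit 444168) (nat_lit 0) (nat_lit 0),Row.mk (nat_lit 15456) (nat_lit 5610) (nat_lit 34226) (nat_lit 6358) (nat_lit 438705) (nat_lit 0) (nat_lit 0),Row.mk (nat_lit 15624) (nat_lit 6171) (nat_lit 42747) (nat_lit 6919) (nat_lit 431882) (nat_lit 0) (nat_lit 0),Row.mk (nat_lit 15792) (nat_lit 6732) (nat_lit 53390) (nat_lit 7480) (nat_lit 423361) (nat_lit 0) (nat_lit 0),Row.mk (nat_lit 15960) (nat_lit 7293) (nat_lit 66683) (nat_lit 8041) (nat_lit 412718) (nat_lit 0) (nat_lit 0),Row.mk (nat_lit 16128) (nat_lit 7854) (nat_lit 83286) (nat_lit 8602) (nat_lit 399425) (nat_lit 0) (nat_lit 0),Row.mk (nat_lit 16296) (nat_lit 8415) (nat_lit 104022) (nat_lit 9163) (nat_lit 382822) (nat_lit 0) (nat_lit 0),Row.mk (nat_lit 16464) (nat_lit 8976) (nat_lit 129921) (nat_lit 9724) (nat_lit 362086) (nat_lit 0) (nat_lit 0),Row.mk (nat_lit 16632) (nat_lit 9537) (nat_lit 162268) (nat_lit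 10285) (nat_lit 336187) (nat_lit 0) (nat_lit 0),Row.mk (nat_lit 16800) (nat_lit 10098) (nat_lit 202670) (nat_lit 10846) (nat_lit 303839) (nat_lit 0) (nat_lit 0),Row.mk (nat_lit 16968) (nat_lit 10659) (nat_lit 253129) (nat_lit 11407) (nat_lit 263438) (nat_lit 0) (nat_lit 0),Row.mk (nat_lit 17136) (nat_lit 11220) (nat_lit 316153) (nat_lit 11968) (nat_lit 212978) (nat_lit 0) (nat_lit 0),Row.mk (nat_lit 17304) (nat_lit 11781) (nat_lit 394867) (nat_lit 12716) (nat_lit 149955) (nat_lit 0) (nat_lit 0),Row.mk (nat_lit 17472) (nat_lit 12529) (nat_lit 493180) (nat_lit 13464) (nat_lit 71241) (nat_lit 0) (nat_lit 0),Row.mk (nat_lit 17640) (nat_lit 12342) (nat_lit 33811) (nat_lit 13277) (nat_lit 555087) (nat_lit 0) (nat_lit 0),Row.mk (nat_lit 17808) (nat_lit 13090) (nat_lit 187173) (nat_lit 14025) (nat_lit 432297) (nat_lit 0) (nat_lit 0),Row.mk (nat_lit 17976) (nat_lit 13838) (nat_lit 378718) (nat_lit 15147) (nat_lit 278935) (nat_lit 0) (nat_lit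 0),Row.mk (nat_lit 18144) (nat_lit 14960) (nat_lit 617953) (nat_lit 16456) (nat_lit 87390) (nat_lit 0) (nat_lit 0),Row.mk (nat_lit 18312) (nat_lit 14773) (nat_lit 189650) (nat_lit 16269) (nat_lit 575257) (nat_lit 0) (nat_lit 0),Row.mk (nat_lit 18480) (nat_lit 16082) (nat_lit 562843) (nat_lit 17765) (nat_lit 276458) (nat_lit 0) (nat_lit 0),Row.mk (nat_lit 18648) (nat_lit 15895) (nat_lit 120819) (nat_lit 17578) (nat_lit 811398) (nat_lit 0) (nat_lit 0),Row.mk (nat_lit 18816) (nat_lit 17391) (nat_lit 702977) (nat_lit 19635) (nat_lit 345289) (nat_lit 0) (nat_lit 0),Row.mk (nat_lit 18984) (nat_lit 17204) (nat_lit 295843) (nat_lit 19448) (nat_lit 897366) (nat_lit 0) (nat_lit 0),Row.mk (nat_lit 19152) (nat_lit 19261) (nat_lit 1203976) (nat_lit 25806) (nat_lit 170264) (nat_lit 0) (nat_lit 0),Row.mk (nat_lit 19320) (nat_lit 19074) (nat_lit 921579) (nat_lit 25619) (nat_lit 678765) (nat_lit 0) (nat_lit 0),Row.mk (nat_lit 19488) (nat_lit 18887)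 (nat_lit 568871) (nat_lit 25432) (nat_lit 1313870) (nat_lit 0) (nat_lit 0),Row.mk (nat_lit 19656) (nat_lit 18700) (nat_lit 128348) (nat_lit 25245) (nat_lit 2107101) (nat_lit 0) (nat_lit 0),Row.mk (nat_lit 19824) (nat_lit 25058) (nat_lit 2338212) (nat_lit 31603) (nat_lit 337760) (nat_lit 0) (nat_lit 0),Row.mk (nat_lit 19992) (nat_lit 24871) (nat_lit 2338212) (nat_lit 31416) (nat_lit 887963) (nat_lit 0) (nat_lit 0),Row.mk (nat_lit 20160) (nat_lit 24684) (nat_lit 2338212) (nat_lit 31229) (nat_lit 1575153) (nat_lit 0) (nat_lit 0),Row.mk (nat_lit 20328) (nat_lit 24497) (nat_lit 2338212) (nat_lit 31042) (nat_lit 2433437) (nat_lit 0) (nat_lit 0),Row.mk (nat_lit 20496) (nat_lit 24310) (nat_lit 2338212) (nat_lit 30855) (nat_lit 3505413) (nat_lit 0) (nat_lit 0),Row.mk (nat_lit 20664) (nat_lit 24123) (nat_lit 2338212) (nat_lit 30668) (nat_lit 4844285) (nat_lit 0) (nat_lit 0),Row.mk (nat_lit 20832) (nat_lit 23936) (nat_lit 2338212) (nat_lit 30481)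 (nat_lit 6516503) (nat_lit 0) (nat_lit 0),Row.mk (nat_lit 21000) (nat_lit 23749) (nat_lit 2338212) (nat_lit 30294) (nat_lit 8605064) (nat_lit 0) (nat_lit 0),Row.mk (nat_lit 21168) (nat_lit 23562) (nat_lit 2338212) (nat_lit 30107) (nat_lit 11213627) (nat_lit 0) (nat_lit 0),Row.mk (nat_lit 21336) (nat_lit 23375) (nat_lit 2338212) (nat_lit 29920) (nat_lit 14471658) (nat_lit 0) (nat_lit 0),Row.mk (nat_lit 21504) (nat_lit 23188) (nat_lit 2338212) (nat_lit 29733) (nat_lit 18540861) (nat_lit 0) (nat_lit 0),Row.mk (nat_lit 21672) (nat_lit 23001) (nat_lit 2338212) (nat_lit 29546) (nat_lit 23623197) (nat_lit 0) (nat_lit 0),Row.mk (nat_lit 21840) (nat_lit 22814) (nat_lit 2338212) (nat_lit 29359) (nat_lit 29970912) (nat_lit 0) (nat_lit 0),Row.mk (nat_lit 22008) (nat_lit 22627) (nat_lit 2338212) (nat_lit 29172) (nat_lit 37899055) (nat_lit 0) (nat_lit 0),Row.mk (nat_lit 22176) (nat_lit 22440) (nat_lit 2338212) (nat_lit 28985) (nat_lit 47801114)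 (nat_lit 0) (nat_lit 0),Row.mk (nat_lit 22344) (nat_lit 22253) (nat_lit 2338212) (nat_lit 28798) (nat_lit 60168547) (nat_lit 0) (nat_lit 0),Row.mk (nat_lit 22512) (nat_lit 22066) (nat_lit 2338212) (nat_lit 28611) (nat_lit 75615173) (nat_lit 0) (nat_lit 0),Row.mk (nat_lit 22680) (nat_lit 21879) (nat_lit 2338212) (nat_lit 28424) (nat_lit 94907636) (nat_lit 0) (nat_lit 0),Row.mk (nat_lit 22848) (nat_lit 21692) (nat_lit 2338212) (nat_lit 28237) (nat_lit 119003456) (nat_lit 0) (nat_lit 0),Row.mk (nat_lit 23016) (nat_lit 21505) (nat_lit 2338212) (nat_lit 28050) (nat_lit 149098555) (nat_lit 0) (nat_lit 0),Row.mk (nat_lit 23184) (nat_lit 21318) (nat_lit 2338212) (nat_lit 27863) (nat_lit 186686607) (nat_lit 0) (nat_lit 0),Row.mk (nat_lit 23352) (nat_lit 21131) (nat_lit 2338212) (nat_lit 27676) (nat_lit 233633177) (nat_lit 0) (nat_lit 0),Row.mk (nat_lit 23520) (nat_lit 20944) (nat_lit 2338212) (nat_lit 27489) (nat_lit 292268311) (nat_lit 0)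 (nat_lit 0),Row.mk (nat_lit 23688) (nat_lit 32912) (nat_lit 466108) (nat_lit 62084) (nat_lit 366908174) (nat_lit 0) (nat_lit 0),Row.mk (nat_lit 23856) (nat_lit 32912) (nat_lit 466108) (nat_lit 62084) (nat_lit 458375509) (nat_lit 0) (nat_lit 0),Row.mk (nat_lit 24024) (nat_lit 32912) (nat_lit 466108) (nat_lit 62084) (nat_lit 572616002) (nat_lit 0) (nat_lit 0),Row.mk (nat_lit 24192) (nat_lit 32912) (nat_lit 466108) (nat_lit 62084) (nat_lit 715299623) (nat_lit 0) (nat_lit 0),Row.mk (nat_lit 24360) (nat_lit 32912) (nat_lit 466108) (nat_lit 62084) (nat_lit 893508024) (nat_lit 0) (nat_lit 0),Row.mk (nat_lit 24528) (nat_lit 32912) (nat_lit 466108) (nat_lit 62084) (nat_lit 1116086017) (nat_lit 0) (nat_lit 0),Row.mk (nat_lit 24696) (nat_lit 32912) (nat_lit 466108) (nat_lit 62084) (nat_lit 1394080561) (nat_lit 0) (nat_lit 0),Row.mk (nat_lit 24864) (nat_lit 32912) (nat_lit 466108) (nat_lit 62084) (nat_lit 1741289040) (nat_lit 0) (nat_lit 0),Row.mk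 (nat_lit 25032) (nat_lit 32912) (nat_lit 466108) (nat_lit 62084) (nat_lit 2174944054) (nat_lit 0) (nat_lit 0),Row.mk (nat_lit 25200) (nat_lit 32912) (nat_lit 466108) (nat_lit 62084) (nat_lit 2716568705) (nat_lit 0) (nat_lit 0),Row.mk (nat_lit 25368) (nat_lit 32912) (nat_lit 466108) (nat_lit 62084) (nat_lit 3393044829) (nat_lit 0) (nat_lit 0),Row.mk (nat_lit 25536) (nat_lit 32912) (nat_lit 466108) (nat_lit 62084) (nat_lit 4237947188) (nat_lit 0) (nat_lit 0),Row.mk (nat_lit 25704) (nat_lit 32912) (nat_lit 466108) (nat_lit 62084) (nat_lit 5293209852) (nat_lit 0) (nat_lit 0),Row.mk (nat_lit 25872) (nat_lit 32912) (nat_lit 466108) (nat_lit 62084) (nat_lit 6611207463) (nat_lit 0) (nat_lit 0),Row.mk (nat_lit 26040) (nat_lit 32912) (nat_lit 466108) (nat_lit 62084) (nat_lit 8257354684) (nat_lit 0) (nat_lit 0),Row.mk (nat_lit 26208) (nat_lit 32912) (nat_lit 466108) (nat_lit 62084) (nat_lit 10313352851) (nat_lit 0) (nat_lit 0)],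
[Row.mk (nat_lit 10920) (nat_lit 32912) (nat_lit 16) (nat_lit 61897) (nat_lit 582141) (nat_lit 0) (nat_lit 0),Row.mk (nat_lit 11088) (nat_lit 32912) (nat_lit 21) (nat_lit 61897) (nat_lit 582137) (nat_lit 0) (nat_lit 0),Row.mk (nat_lit 11256) (nat_lit 32912) (nat_lit 26) (nat_lit 61897) (nat_lit 582132) (nat_lit 0) (nat_lit 0),Row.mk (nat_lit 11424) (nat_lit 32912) (nat_lit 32) (nat_lit 61897) (nat_lit 582125) (nat_lit 0) (nat_lit 0),Row.mk (nat_lit 11592) (nat_lit 32912) (nat_lit 41) (nat_lit 61897) (nat_lit 582117) (nat_lit 0) (nat_lit 0),Row.mk (nat_lit 11760) (nat_lit 32912) (nat_lit 51) (nat_lit 61897) (nat_lit 582107) (nat_lit 0) (nat_lit 0),Row.mk (nat_lit 11928) (nat_lit 32912) (nat_lit 64) (nat_lit 61897) (nat_lit 582094) (nat_lit 0) (nat_lit 0),Row.mk (nat_lit 12096) (nat_lit 32912) (nat_lit 79) (nat_lit 61897) (nat_lit 582078) (nat_lit 0) (nat_lit 0),Row.mk (nat_lit 12264) (nat_lit 32912) (nat_lit 99) (nat_lit 61897) (nat_lit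 582058) (nat_lit 0) (nat_lit 0),Row.mk (nat_lit 12432) (nat_lit 32912) (nat_lit 124) (nat_lit 61897) (nat_lit 582033) (nat_lit 0) (nat_lit 0),Row.mk (nat_lit 12600) (nat_lit 32912) (nat_lit 155) (nat_lit 61897) (nat_lit 582002) (nat_lit 0) (nat_lit 0),Row.mk (nat_lit 12768) (nat_lit 32912) (nat_lit 194) (nat_lit 61897) (nat_lit 581963) (nat_lit 0) (nat_lit 0),Row.mk (nat_lit 12936) (nat_lit 32912) (nat_lit 243) (nat_lit 61897) (nat_lit 581915) (nat_lit 0) (nat_lit 0),Row.mk (nat_lit 13104) (nat_lit 32912) (nat_lit 303) (nat_lit 61897) (nat_lit 581855) (nat_lit 0) (nat_lit 0),Row.mk (nat_lit 13272) (nat_lit 32912) (nat_lit 379) (nat_lit 61897) (nat_lit 581779) (nat_lit 0) (nat_lit 0),Row.mk (nat_lit 13440) (nat_lit 32912) (nat_lit 473) (nat_lit 61897) (nat_lit 581685) (nat_lit 0) (nat_lit 0),Row.mk (nat_lit 13608) (nat_lit 32912) (nat_lit 591) (nat_lit 61897) (nat_lit 581567) (nat_lit 0) (nat_lit 0),Row.mk (nat_lit 13776) (nat_lit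 32912) (nat_lit 738) (nat_lit 61897) (nat_lit 581419) (nat_lit 0) (nat_lit 0),Row.mk (nat_lit 13944) (nat_lit 0) (nat_lit 4627) (nat_lit 748) (nat_lit 578453) (nat_lit 0) (nat_lit 0),Row.mk (nat_lit 14112) (nat_lit 561) (nat_lit 5779) (nat_lit 1309) (nat_lit 577530) (nat_lit 0) (nat_lit 0),Row.mk (nat_lit 14280) (nat_lit 1122) (nat_lit 7219) (nat_lit 1870) (nat_lit 576378) (nat_lit 0) (nat_lit 0),Row.mk (nat_lit 14448) (nat_lit 1683) (nat_lit 9016) (nat_lit 2431) (nat_lit 574939) (nat_lit 0) (nat_lit 0),Row.mk (nat_lit 14616) (nat_lit 2244) (nat_lit 11261) (nat_lit 2992) (nat_lit 573142) (nat_lit 0) (nat_lit 0),Row.mk (nat_lit 14784) (nat_lit 2805) (nat_lit 14065) (nat_lit 3553) (nat_lit 570897) (nat_lit 0) (nat_lit 0),Row.mk (nat_lit 14952) (nat_lit 3366) (nat_lit 17566) (nat_lit 4114) (nat_lit 568093) (nat_lit 0) (nat_lit 0),Row.mk (nat_lit 15120) (nat_lit 3927) (nat_lit 21940) (nat_lit 4675) (nat_lit 564591) (nat_lit 0) (nat_lit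 0),Row.mk (nat_lit 15288) (nat_lit 4488) (nat_lit 27403) (nat_lit 5236) (nat_lit 560217) (nat_lit 0) (nat_lit 0),Row.mk (nat_lit 15456) (nat_lit 5049) (nat_lit 34226) (nat_lit 5797) (nat_lit 554755) (nat_lit 0) (nat_lit 0),Row.mk (nat_lit 15624) (nat_lit 5610) (nat_lit 42747) (nat_lit 6358) (nat_lit 547932) (nat_lit 0) (nat_lit 0),Row.mk (nat_lit 15792) (nat_lit 6171) (nat_lit 53390) (nat_lit 6919) (nat_lit 539411) (nat_lit 0) (nat_lit 0),Row.mk (nat_lit 15960) (nat_lit 6732) (nat_lit 66683) (nat_lit 7480) (nat_lit 528767) (nat_lit 0) (nat_lit 0),Row.mk (nat_lit 16128) (nat_lit 7293) (nat_lit 83286) (nat_lit 8041) (nat_lit 515474) (nat_lit 0) (nat_lit 0),Row.mk (nat_lit 16296) (nat_lit 7854) (nat_lit 104022) (nat_lit 8602) (nat_lit 498872) (nat_lit 0) (nat_lit 0),Row.mk (nat_lit 16464) (nat_lit 8415) (nat_lit 129921) (nat_lit 9163) (nat_lit 478136) (nat_lit 0) (nat_lit 0),Row.mk (nat_lit 16632) (nat_lit 8976) (nat_lit 162268) (nat_lit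 9724) (nat_lit 452236) (nat_lit 0) (nat_lit 0),Row.mk (nat_lit 16800) (nat_lit 9537) (nat_lit 202670) (nat_lit 10285) (nat_lit 419889) (nat_lit 0) (nat_lit 0),Row.mk (nat_lit 16968) (nat_lit 10098) (nat_lit 253129) (nat_lit 10846) (nat_lit 379488) (nat_lit 0) (nat_lit 0),Row.mk (nat_lit 17136) (nat_lit 10659) (nat_lit 316153) (nat_lit 11407) (nat_lit 329028) (nat_lit 0) (nat_lit 0),Row.mk (nat_lit 17304) (nat_lit 11220) (nat_lit 394867) (nat_lit 11968) (nat_lit 266005) (nat_lit 0) (nat_lit 0),Row.mk (nat_lit 17472) (nat_lit 11781) (nat_lit 493180) (nat_lit 12716) (nat_lit 187290) (nat_lit 0) (nat_lit 0),Row.mk (nat_lit 17640) (nat_lit 12529) (nat_lit 615970) (nat_lit 13464) (nat_lit 88978) (nat_lit 0) (nat_lit 0),Row.mk (nat_lit 17808) (nat_lit 12342) (nat_lit 42229) (nat_lit 13277) (nat_lit 693290) (nat_lit 0) (nat_lit 0),Row.mk (nat_lit 17976) (nat_lit 13090) (nat_lit 233775) (nat_lit 14025) (nat_lit 539928) (nat_lit 0) (nat_lit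 0),Row.mk (nat_lit 18144) (nat_lit 13838) (nat_lit 473010) (nat_lit 15147) (nat_lit 348383) (nat_lit 0) (nat_lit 0),Row.mk (nat_lit 18312) (nat_lit 14960) (nat_lit 771809) (nat_lit 16456) (nat_lit 109148) (nat_lit 0) (nat_lit 0),Row.mk (nat_lit 18480) (nat_lit 14773) (nat_lit 236869) (nat_lit 16269) (nat_lit 718482) (nat_lit 0) (nat_lit 0),Row.mk (nat_lit 18648) (nat_lit 16082) (nat_lit 702977) (nat_lit 17765) (nat_lit 345289) (nat_lit 0) (nat_lit 0),Row.mk (nat_lit 18816) (nat_lit 15895) (nat_lit 150900) (nat_lit 17578) (nat_lit 1013416) (nat_lit 0) (nat_lit 0),Row.mk (nat_lit 18984) (nat_lit 17391) (nat_lit 878002) (nat_lit 19635) (nat_lit 431258) (nat_lit 0) (nat_lit 0),Row.mk (nat_lit 19152) (nat_lit 17204) (nat_lit 369501) (nat_lit 19448) (nat_lit 1120789) (nat_lit 0) (nat_lit 0),Row.mk (nat_lit 19320) (nat_lit 19261) (nat_lit 1503737) (nat_lit 25806) (nat_lit 212656) (nat_lit 0) (nat_lit 0),Row.mk (nat_lit 19488) (nat_lit 19074)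 (nat_lit 1151030) (nat_lit 25619) (nat_lit 847761) (nat_lit 0) (nat_lit 0),Row.mk (nat_lit 19656) (nat_lit 18887) (nat_lit 710507) (nat_lit 25432) (nat_lit 1640992) (nat_lit 0) (nat_lit 0),Row.mk (nat_lit 19824) (nat_lit 18700) (nat_lit 160304) (nat_lit 25245) (nat_lit 2631718) (nat_lit 0) (nat_lit 0),Row.mk (nat_lit 19992) (nat_lit 25058) (nat_lit 2920371) (nat_lit 31603) (nat_lit 421854) (nat_lit 0) (nat_lit 0),Row.mk (nat_lit 20160) (nat_lit 24871) (nat_lit 2920371) (nat_lit 31416) (nat_lit 1109044) (nat_lit 0) (nat_lit 0),Row.mk (nat_lit 20328) (nat_lit 24684) (nat_lit 2920371) (nat_lit 31229) (nat_lit 1967328) (nat_lit 0) (nat_lit 0),Row.mk (nat_lit 20496) (nat_lit 24497) (nat_lit 2920371) (nat_lit 31042) (nat_lit 3039304) (nat_lit 0) (nat_lit 0),Row.mk (nat_lit 20664) (nat_lit 24310) (nat_lit 2920371) (nat_lit 30855) (nat_lit 4378176) (nat_lit 0) (nat_lit 0),Row.mk (nat_lit 20832) (nat_lit 24123) (nat_lit 2920371) (nat_lit 30668)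 (nat_lit 6050395) (nat_lit 0) (nat_lit 0),Row.mk (nat_lit 21000) (nat_lit 23936) (nat_lit 2920371) (nat_lit 30481) (nat_lit 8138956) (nat_lit 0) (nat_lit 0),Row.mk (nat_lit 21168) (nat_lit 23749) (nat_lit 2920371) (nat_lit 30294) (nat_lit 10747518) (nat_lit 0) (nat_lit 0),Row.mk (nat_lit 21336) (nat_lit 23562) (nat_lit 2920371) (nat_lit 30107) (nat_lit 14005550) (nat_lit 0) (nat_lit 0),Row.mk (nat_lit 21504) (nat_lit 23375) (nat_lit 2920371) (nat_lit 29920) (nat_lit 18074752) (nat_lit 0) (nat_lit 0),Row.mk (nat_lit 21672) (nat_lit 23188) (nat_lit 2920371) (nat_lit 29733) (nat_lit 23157088) (nat_lit 0) (nat_lit 0),Row.mk (nat_lit 21840) (nat_lit 23001) (nat_lit 2920371) (nat_lit 29546) (nat_lit 29504803) (nat_lit 0) (nat_lit 0),Row.mk (nat_lit 22008) (nat_lit 22814) (nat_lit 2920371) (nat_lit 29359) (nat_lit 37432946) (nat_lit 0) (nat_lit 0),Row.mk (nat_lit 22176) (nat_lit 22627) (nat_lit 2920371) (nat_lit 29172) (nat_lit 47335005)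 (nat_lit 0) (nat_lit 0),Row.mk (nat_lit 22344) (nat_lit 22440) (nat_lit 2920371) (nat_lit 28985) (nat_lit 59702438) (nat_lit 0) (nat_lit 0),Row.mk (nat_lit 22512) (nat_lit 22253) (nat_lit 2920371) (nat_lit 28798) (nat_lit 75149064) (nat_lit 0) (nat_lit 0),Row.mk (nat_lit 22680) (nat_lit 22066) (nat_lit 2920371) (nat_lit 28611) (nat_lit 94441527) (nat_lit 0) (nat_lit 0),Row.mk (nat_lit 22848) (nat_lit 21879) (nat_lit 2920371) (nat_lit 28424) (nat_lit 118537347) (nat_lit 0) (nat_lit 0),Row.mk (nat_lit 23016) (nat_lit 21692) (nat_lit 2920371) (nat_lit 28237) (nat_lit 148632446) (nat_lit 0) (nat_lit 0),Row.mk (nat_lit 23184) (nat_lit 21505) (nat_lit 2920371) (nat_lit 28050) (nat_lit 186220498) (nat_lit 0) (nat_lit 0),Row.mk (nat_lit 23352) (nat_lit 21318) (nat_lit 2920371) (nat_lit 27863) (nat_lit 233167069) (nat_lit 0) (nat_lit 0),Row.mk (nat_lit 23520) (nat_lit 21131) (nat_lit 2920371) (nat_lit 27676) (nat_lit 291802203) (nat_lit 0)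 (nat_lit 0),Row.mk (nat_lit 23688) (nat_lit 20944) (nat_lit 2920371) (nat_lit 27489) (nat_lit 365036070) (nat_lit 0) (nat_lit 0),Row.mk (nat_lit 23856) (nat_lit 32912) (nat_lit 582158) (nat_lit 62084) (nat_lit 458259459) (nat_lit 0) (nat_lit 0),Row.mk (nat_lit 24024) (nat_lit 32912) (nat_lit 582158) (nat_lit 62084) (nat_lit 572499953) (nat_lit 0) (nat_lit 0),Row.mk (nat_lit 24192) (nat_lit 32912) (nat_lit 582158) (nat_lit 62084) (nat_lit 715183573) (nat_lit 0) (nat_lit 0),Row.mk (nat_lit 24360) (nat_lit 32912) (nat_lit 582158) (nat_lit 62084) (nat_lit 893391974) (nat_lit 0) (nat_lit 0),Row.mk (nat_lit 24528) (nat_lit 32912) (nat_lit 582158) (nat_lit 62084) (nat_lit 1115969967) (nat_lit 0) (nat_lit 0),Row.mk (nat_lit 24696) (nat_lit 32912) (nat_lit 582158) (nat_lit 62084) (nat_lit 1393964511) (nat_lit 0) (nat_lit 0),Row.mk (nat_lit 24864) (nat_lit 32912) (nat_lit 582158) (nat_lit 62084) (nat_lit 1741172990) (nat_lit 0) (nat_lit 0),Row.mk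 (nat_lit 25032) (nat_lit 32912) (nat_lit 582158) (nat_lit 62084) (nat_lit 2174828004) (nat_lit 0) (nat_lit 0),Row.mk (nat_lit 25200) (nat_lit 32912) (nat_lit 582158) (nat_lit 62084) (nat_lit 2716452655) (nat_lit 0) (nat_lit 0),Row.mk (nat_lit 25368) (nat_lit 32912) (nat_lit 582158) (nat_lit 62084) (nat_lit 3392928779) (nat_lit 0) (nat_lit 0),Row.mk (nat_lit 25536) (nat_lit 32912) (nat_lit 582158) (nat_lit 62084) (nat_lit 4237831138) (nat_lit 0) (nat_lit 0),Row.mk (nat_lit 25704) (nat_lit 32912) (nat_lit 582158) (nat_lit 62084) (nat_lit 5293093802) (nat_lit 0) (nat_lit 0),Row.mk (nat_lit 25872) (nat_lit 32912) (nat_lit 582158) (nat_lit 62084) (nat_lit 6611091413) (nat_lit 0) (nat_lit 0),Row.mk (nat_lit 26040) (nat_lit 32912) (nat_lit 582158) (nat_lit 62084) (nat_lit 8257238634) (nat_lit 0) (nat_lit 0),Row.mk (nat_lit 26208) (nat_lit 32912) (nat_lit 582158) (nat_lit 62084) (nat_lit 10313236801) (nat_lit 0) (nat_lit 0)],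
[Row.mk (nat_lit 10920) (nat_lit 32912) (nat_lit 16) (nat_lit 61897) (nat_lit 727085) (nat_lit 0) (nat_lit 0),Row.mk (nat_lit 11088) (nat_lit 32912) (nat_lit 21) (nat_lit 61897) (nat_lit 727080) (nat_lit 0) (nat_lit 0),Row.mk (nat_lit 11256) (nat_lit 32912) (nat_lit 26) (nat_lit 61897) (nat_lit 727075) (nat_lit 0) (nat_lit 0),Row.mk (nat_lit 11424) (nat_lit 32912) (nat_lit 32) (nat_lit 61897) (nat_lit 727069) (nat_lit 0) (nat_lit 0),Row.mk (nat_lit 11592) (nat_lit 32912) (nat_lit 41) (nat_lit 61897) (nat_lit 727060) (nat_lit 0) (nat_lit 0),Row.mk (nat_lit 11760) (nat_lit 32912) (nat_lit 51) (nat_lit 61897) (nat_lit 727050) (nat_lit 0) (nat_lit 0),Row.mk (nat_lit 11928) (nat_lit 32912) (nat_lit 64) (nat_lit 61897) (nat_lit 727037) (nat_lit 0) (nat_lit 0),Row.mk (nat_lit 12096) (nat_lit 32912) (nat_lit 79) (nat_lit 61897) (nat_lit 727022) (nat_lit 0) (nat_lit 0),Row.mk (nat_lit 12264) (nat_lit 32912) (nat_lit 99) (nat_lit 61897) (nat_lit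 727002) (nat_lit 0) (nat_lit 0),Row.mk (nat_lit 12432) (nat_lit 32912) (nat_lit 124) (nat_lit 61897) (nat_lit 726977) (nat_lit 0) (nat_lit 0),Row.mk (nat_lit 12600) (nat_lit 32912) (nat_lit 155) (nat_lit 61897) (nat_lit 726946) (nat_lit 0) (nat_lit 0),Row.mk (nat_lit 12768) (nat_lit 32912) (nat_lit 194) (nat_lit 61897) (nat_lit 726907) (nat_lit 0) (nat_lit 0),Row.mk (nat_lit 12936) (nat_lit 32912) (nat_lit 243) (nat_lit 61897) (nat_lit 726858) (nat_lit 0) (nat_lit 0),Row.mk (nat_lit 13104) (nat_lit 32912) (nat_lit 303) (nat_lit 61897) (nat_lit 726798) (nat_lit 0) (nat_lit 0),Row.mk (nat_lit 13272) (nat_lit 32912) (nat_lit 379) (nat_lit 61897) (nat_lit 726722) (nat_lit 0) (nat_lit 0),Row.mk (nat_lit 13440) (nat_lit 32912) (nat_lit 473) (nat_lit 61897) (nat_lit 726628) (nat_lit 0) (nat_lit 0),Row.mk (nat_lit 13608) (nat_lit 32912) (nat_lit 591) (nat_lit 61897) (nat_lit 726510) (nat_lit 0) (nat_lit 0),Row.mk (nat_lit 13776) (nat_lit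 32912) (nat_lit 738) (nat_lit 61897) (nat_lit 726363) (nat_lit 0) (nat_lit 0),Row.mk (nat_lit 13944) (nat_lit 32912) (nat_lit 922) (nat_lit 61897) (nat_lit 726179) (nat_lit 0) (nat_lit 0),Row.mk (nat_lit 14112) (nat_lit 0) (nat_lit 5779) (nat_lit 748) (nat_lit 722474) (nat_lit 0) (nat_lit 0),Row.mk (nat_lit 14280) (nat_lit 561) (nat_lit 7219) (nat_lit 1309) (nat_lit 721322) (nat_lit 0) (nat_lit 0),Row.mk (nat_lit 14448) (nat_lit 1122) (nat_lit 9016) (nat_lit 1870) (nat_lit 719882) (nat_lit 0) (nat_lit 0),Row.mk (nat_lit 14616) (nat_lit 1683) (nat_lit 11261) (nat_lit 2431) (nat_lit 718085) (nat_lit 0) (nat_lit 0),Row.mk (nat_lit 14784) (nat_lit 2244) (nat_lit 14065) (nat_lit 2992) (nat_lit 715840) (nat_lit 0) (nat_lit 0),Row.mk (nat_lit 14952) (nat_lit 2805) (nat_lit 17566) (nat_lit 3553) (nat_lit 713036) (nat_lit 0) (nat_lit 0),Row.mk (nat_lit 15120) (nat_lit 3366) (nat_lit 21940) (nat_lit 4114) (nat_lit 709535) (nat_lit 0) (nat_lit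 0),Row.mk (nat_lit 15288) (nat_lit 3927) (nat_lit 27403) (nat_lit 4675) (nat_lit 705161) (nat_lit 0) (nat_lit 0),Row.mk (nat_lit 15456) (nat_lit 4488) (nat_lit 34226) (nat_lit 5236) (nat_lit 699698) (nat_lit 0) (nat_lit 0),Row.mk (nat_lit 15624) (nat_lit 5049) (nat_lit 42747) (nat_lit 5797) (nat_lit 692875) (nat_lit 0) (nat_lit 0),Row.mk (nat_lit 15792) (nat_lit 5610) (nat_lit 53390) (nat_lit 6358) (nat_lit 684354) (nat_lit 0) (nat_lit 0),Row.mk (nat_lit 15960) (nat_lit 6171) (nat_lit 66683) (nat_lit 6919) (nat_lit 673711) (nat_lit 0) (nat_lit 0),Row.mk (nat_lit 16128) (nat_lit 6732) (nat_lit 83286) (nat_lit 7480) (nat_lit 660418) (nat_lit 0) (nat_lit 0),Row.mk (nat_lit 16296) (nat_lit 7293) (nat_lit 104022) (nat_lit 8041) (nat_lit 643815) (nat_lit 0) (nat_lit 0),Row.mk (nat_lit 16464) (nat_lit 7854) (nat_lit 129921) (nat_lit 8602) (nat_lit 623079) (nat_lit 0) (nat_lit 0),Row.mk (nat_lit 16632) (nat_lit 8415) (nat_lit 162268) (nat_lit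 9163) (nat_lit 597180) (nat_lit 0) (nat_lit 0),Row.mk (nat_lit 16800) (nat_lit 8976) (nat_lit 202670) (nat_lit 9724) (nat_lit 564833) (nat_lit 0) (nat_lit 0),Row.mk (nat_lit 16968) (nat_lit 9537) (nat_lit 253129) (nat_lit 10285) (nat_lit 524432) (nat_lit 0) (nat_lit 0),Row.mk (nat_lit 17136) (nat_lit 10098) (nat_lit 316153) (nat_lit 10846) (nat_lit 473972) (nat_lit 0) (nat_lit 0),Row.mk (nat_lit 17304) (nat_lit 10659) (nat_lit 394867) (nat_lit 11407) (nat_lit 410948) (nat_lit 0) (nat_lit 0),Row.mk (nat_lit 17472) (nat_lit 11220) (nat_lit 493180) (nat_lit 11968) (nat_lit 332234) (nat_lit 0) (nat_lit 0),Row.mk (nat_lit 17640) (nat_lit 11781) (nat_lit 615970) (nat_lit 12716) (nat_lit 233921) (nat_lit 0) (nat_lit 0),Row.mk (nat_lit 17808) (nat_lit 12529) (nat_lit 769331) (nat_lit 13464) (nat_lit 111131) (nat_lit 0) (nat_lit 0),Row.mk (nat_lit 17976) (nat_lit 12342) (nat_lit 52744) (nat_lit 13277) (nat_lit 865902) (nat_lit 0) (nat_lit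 0),Row.mk (nat_lit 18144) (nat_lit 13090) (nat_lit 291979) (nat_lit 14025) (nat_lit 674357) (nat_lit 0) (nat_lit 0),Row.mk (nat_lit 18312) (nat_lit 13838) (nat_lit 590778) (nat_lit 15147) (nat_lit 435122) (nat_lit 0) (nat_lit 0),Row.mk (nat_lit 18480) (nat_lit 14960) (nat_lit 963971) (nat_lit 16456) (nat_lit 136323) (nat_lit 0) (nat_lit 0),Row.mk (nat_lit 18648) (nat_lit 14773) (nat_lit 295843) (nat_lit 16269) (nat_lit 897366) (nat_lit 0) (nat_lit 0),Row.mk (nat_lit 18816) (nat_lit 16082) (nat_lit 878002) (nat_lit 17765) (nat_lit 431258) (nat_lit 0) (nat_lit 0),Row.mk (nat_lit 18984) (nat_lit 15895) (nat_lit 188470) (nat_lit 17578) (nat_lit 1265733) (nat_lit 0) (nat_lit 0),Row.mk (nat_lit 19152) (nat_lit 17391) (nat_lit 1096603) (nat_lit 19635) (nat_lit 538631) (nat_lit 0) (nat_lit 0),Row.mk (nat_lit 19320) (nat_lit 17204) (nat_lit 461498) (nat_lit 19448) (nat_lit 1399839) (nat_lit 0) (nat_lit 0),Row.mk (nat_lit 19488) (nat_lit 19261)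 (nat_lit 1878132) (nat_lit 25806) (nat_lit 265603) (nat_lit 0) (nat_lit 0),Row.mk (nat_lit 19656) (nat_lit 19074) (nat_lit 1437609) (nat_lit 25619) (nat_lit 1058833) (nat_lit 0) (nat_lit 0),Row.mk (nat_lit 19824) (nat_lit 18887) (nat_lit 887406) (nat_lit 25432) (nat_lit 2049560) (nat_lit 0) (nat_lit 0),Row.mk (nat_lit 19992) (nat_lit 18700) (nat_lit 200216) (nat_lit 25245) (nat_lit 3286953) (nat_lit 0) (nat_lit 0),Row.mk (nat_lit 20160) (nat_lit 25058) (nat_lit 3647473) (nat_lit 31603) (nat_lit 526885) (nat_lit 0) (nat_lit 0),Row.mk (nat_lit 20328) (nat_lit 24871) (nat_lit 3647473) (nat_lit 31416) (nat_lit 1385169) (nat_lit 0) (nat_lit 0),Row.mk (nat_lit 20496) (nat_lit 24684) (nat_lit 3647473) (nat_lit 31229) (nat_lit 2457145) (nat_lit 0) (nat_lit 0),Row.mk (nat_lit 20664) (nat_lit 24497) (nat_lit 3647473) (nat_lit 31042) (nat_lit 3796017) (nat_lit 0) (nat_lit 0),Row.mk (nat_lit 20832) (nat_lit 24310) (nat_lit 3647473) (nat_lit 30855)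 (nat_lit 5468236) (nat_lit 0) (nat_lit 0),Row.mk (nat_lit 21000) (nat_lit 24123) (nat_lit 3647473) (nat_lit 30668) (nat_lit 7556797) (nat_lit 0) (nat_lit 0),Row.mk (nat_lit 21168) (nat_lit 23936) (nat_lit 3647473) (nat_lit 30481) (nat_lit 10165360) (nat_lit 0) (nat_lit 0),Row.mk (nat_lit 21336) (nat_lit 23749) (nat_lit 3647473) (nat_lit 30294) (nat_lit 13423391) (nat_lit 0) (nat_lit 0),Row.mk (nat_lit 21504) (nat_lit 23562) (nat_lit 3647473) (nat_lit 30107) (nat_lit 17492594) (nat_lit 0) (nat_lit 0),Row.mk (nat_lit 21672) (nat_lit 23375) (nat_lit 3647473) (nat_lit 29920) (nat_lit 22574930) (nat_lit 0) (nat_lit 0),Row.mk (nat_lit 21840) (nat_lit 23188) (nat_lit 3647473) (nat_lit 29733) (nat_lit 28922645) (nat_lit 0) (nat_lit 0),Row.mk (nat_lit 22008) (nat_lit 23001) (nat_lit 3647473) (nat_lit 29546) (nat_lit 36850787) (nat_lit 0) (nat_lit 0),Row.mk (nat_lit 22176) (nat_lit 22814) (nat_lit 3647473) (nat_lit 29359) (nat_lit 46752847)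 (nat_lit 0) (nat_lit 0),Row.mk (nat_lit 22344) (nat_lit 22627) (nat_lit 3647473) (nat_lit 29172) (nat_lit 59120280) (nat_lit 0) (nat_lit 0),Row.mk (nat_lit 22512) (nat_lit 22440) (nat_lit 3647473) (nat_lit 28985) (nat_lit 74566905) (nat_lit 0) (nat_lit 0),Row.mk (nat_lit 22680) (nat_lit 22253) (nat_lit 3647473) (nat_lit 28798) (nat_lit 93859368) (nat_lit 0) (nat_lit 0),Row.mk (nat_lit 22848) (nat_lit 22066) (nat_lit 3647473) (nat_lit 28611) (nat_lit 117955189) (nat_lit 0) (nat_lit 0),Row.mk (nat_lit 23016) (nat_lit 21879) (nat_lit 3647473) (nat_lit 28424) (nat_lit 148050287) (nat_lit 0) (nat_lit 0),Row.mk (nat_lit 23184) (nat_lit 21692) (nat_lit 3647473) (nat_lit 28237) (nat_lit 185638340) (nat_lit 0) (nat_lit 0),Row.mk (nat_lit 23352) (nat_lit 21505) (nat_lit 3647473) (nat_lit 28050) (nat_lit 232584910) (nat_lit 0) (nat_lit 0),Row.mk (nat_lit 23520) (nat_lit 21318) (nat_lit 3647473) (nat_lit 27863) (nat_lit 291220044) (nat_lit 0)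 (nat_lit 0),Row.mk (nat_lit 23688) (nat_lit 21131) (nat_lit 3647473) (nat_lit 27676) (nat_lit 364453912) (nat_lit 0) (nat_lit 0),Row.mk (nat_lit 23856) (nat_lit 20944) (nat_lit 3647473) (nat_lit 27489) (nat_lit 455921246) (nat_lit 0) (nat_lit 0),Row.mk (nat_lit 24024) (nat_lit 32912) (nat_lit 727102) (nat_lit 62084) (nat_lit 572355009) (nat_lit 0) (nat_lit 0),Row.mk (nat_lit 24192) (nat_lit 32912) (nat_lit 727102) (nat_lit 62084) (nat_lit 715038630) (nat_lit 0) (nat_lit 0),Row.mk (nat_lit 24360) (nat_lit 32912) (nat_lit 727102) (nat_lit 62084) (nat_lit 893247030) (nat_lit 0) (nat_lit 0),Row.mk (nat_lit 24528) (nat_lit 32912) (nat_lit 727102) (nat_lit 62084) (nat_lit 1115825023) (nat_lit 0) (nat_lit 0),Row.mk (nat_lit 24696) (nat_lit 32912) (nat_lit 727102) (nat_lit 62084) (nat_lit 1393819567) (nat_lit 0) (nat_lit 0),Row.mk (nat_lit 24864) (nat_lit 32912) (nat_lit 727102) (nat_lit 62084) (nat_lit 1741028046) (nat_lit 0) (nat_lit 0),Row.mk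 (nat_lit 25032) (nat_lit 32912) (nat_lit 727102) (nat_lit 62084) (nat_lit 2174683061) (nat_lit 0) (nat_lit 0),Row.mk (nat_lit 25200) (nat_lit 32912) (nat_lit 727102) (nat_lit 62084) (nat_lit 2716307712) (nat_lit 0) (nat_lit 0),Row.mk (nat_lit 25368) (nat_lit 32912) (nat_lit 727102) (nat_lit 62084) (nat_lit 3392783836) (nat_lit 0) (nat_lit 0),Row.mk (nat_lit 25536) (nat_lit 32912) (nat_lit 727102) (nat_lit 62084) (nat_lit 4237686195) (nat_lit 0) (nat_lit 0),Row.mk (nat_lit 25704) (nat_lit 32912) (nat_lit 727102) (nat_lit 62084) (nat_lit 5292948859) (nat_lit 0) (nat_lit 0),Row.mk (nat_lit 25872) (nat_lit 32912) (nat_lit 727102) (nat_lit 62084) (nat_lit 6610946470) (nat_lit 0) (nat_lit 0),Row.mk (nat_lit 26040) (nat_lit 32912) (nat_lit 727102) (nat_lit 62084) (nat_lit 8257093691) (nat_lit 0) (nat_lit 0),Row.mk (nat_lit 26208) (nat_lit 32912) (nat_lit 727102) (nat_lit 62084) (nat_lit 10313091858) (nat_lit 0) (nat_lit 0)],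
[Row.mk (nat_lit 10752) (nat_lit 32912) (nat_lit 13) (nat_lit 61897) (nat_lit 908119) (nat_lit 0) (nat_lit 0),Row.mk (nat_lit 10920) (nat_lit 32912) (nat_lit 16) (nat_lit 61897) (nat_lit 908116) (nat_lit 0) (nat_lit 0),Row.mk (nat_lit 11088) (nat_lit 32912) (nat_lit 21) (nat_lit 61897) (nat_lit 908111) (nat_lit 0) (nat_lit 0),Row.mk (nat_lit 11256) (nat_lit 32912) (nat_lit 26) (nat_lit 61897) (nat_lit 908106) (nat_lit 0) (nat_lit 0),Row.mk (nat_lit 11424) (nat_lit 32912) (nat_lit 32) (nat_lit 61897) (nat_lit 908100) (nat_lit 0) (nat_lit 0),Row.mk (nat_lit 11592) (nat_lit 32912) (nat_lit 41) (nat_lit 61897) (nat_lit 908091) (nat_lit 0) (nat_lit 0),Row.mk (nat_lit 11760) (nat_lit 32912) (nat_lit 51) (nat_lit 61897) (nat_lit 908081) (nat_lit 0) (nat_lit 0),Row.mk (nat_lit 11928) (nat_lit 32912) (nat_lit 64) (nat_lit 61897) (nat_lit 908068) (nat_lit 0) (nat_lit 0),Row.mk (nat_lit 12096) (nat_lit 32912) (nat_lit 79) (nat_lit 61897) (nat_lit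 908052) (nat_lit 0) (nat_lit 0),Row.mk (nat_lit 12264) (nat_lit 32912) (nat_lit 99) (nat_lit 61897) (nat_lit 908033) (nat_lit 0) (nat_lit 0),Row.mk (nat_lit 12432) (nat_lit 32912) (nat_lit 124) (nat_lit 61897) (nat_lit 908008) (nat_lit 0) (nat_lit 0),Row.mk (nat_lit 12600) (nat_lit 32912) (nat_lit 155) (nat_lit 61897) (nat_lit 907977) (nat_lit 0) (nat_lit 0),Row.mk (nat_lit 12768) (nat_lit 32912) (nat_lit 194) (nat_lit 61897) (nat_lit 907938) (nat_lit 0) (nat_lit 0),Row.mk (nat_lit 12936) (nat_lit 32912) (nat_lit 243) (nat_lit 61897) (nat_lit 907889) (nat_lit 0) (nat_lit 0),Row.mk (nat_lit 13104) (nat_lit 32912) (nat_lit 303) (nat_lit 61897) (nat_lit 907829) (nat_lit 0) (nat_lit 0),Row.mk (nat_lit 13272) (nat_lit 32912) (nat_lit 379) (nat_lit 61897) (nat_lit 907753) (nat_lit 0) (nat_lit 0),Row.mk (nat_lit 13440) (nat_lit 32912) (nat_lit 473) (nat_lit 61897) (nat_lit 907659) (nat_lit 0) (nat_lit 0),Row.mk (nat_lit 13608) (nat_lit 32912)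 (nat_lit 591) (nat_lit 61897) (nat_lit 907541) (nat_lit 0) (nat_lit 0),Row.mk (nat_lit 13776) (nat_lit 32912) (nat_lit 738) (nat_lit 61897) (nat_lit 907394) (nat_lit 0) (nat_lit 0),Row.mk (nat_lit 13944) (nat_lit 32912) (nat_lit 922) (nat_lit 61897) (nat_lit 907210) (nat_lit 0) (nat_lit 0),Row.mk (nat_lit 14112) (nat_lit 32912) (nat_lit 1152) (nat_lit 61897) (nat_lit 906980) (nat_lit 0) (nat_lit 0),Row.mk (nat_lit 14280) (nat_lit 0) (nat_lit 7219) (nat_lit 748) (nat_lit 902352) (nat_lit 0) (nat_lit 0),Row.mk (nat_lit 14448) (nat_lit 561) (nat_lit 9016) (nat_lit 1309) (nat_lit 900913) (nat_lit 0) (nat_lit 0),Row.mk (nat_lit 14616) (nat_lit 1122) (nat_lit 11261) (nat_lit 1870) (nat_lit 899116) (nat_lit 0) (nat_lit 0),Row.mk (nat_lit 14784) (nat_lit 1683) (nat_lit 14065) (nat_lit 2431) (nat_lit 896871) (nat_lit 0) (nat_lit 0),Row.mk (nat_lit 14952) (nat_lit 2244) (nat_lit 17566) (nat_lit 2992) (nat_lit 894067) (nat_lit 0) (nat_lit 0),Row.mk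 (nat_lit 15120) (nat_lit 2805) (nat_lit 21940) (nat_lit 3553) (nat_lit 890565) (nat_lit 0) (nat_lit 0),Row.mk (nat_lit 15288) (nat_lit 3366) (nat_lit 27403) (nat_lit 4114) (nat_lit 886192) (nat_lit 0) (nat_lit 0),Row.mk (nat_lit 15456) (nat_lit 3927) (nat_lit 34226) (nat_lit 4675) (nat_lit 880729) (nat_lit 0) (nat_lit 0),Row.mk (nat_lit 15624) (nat_lit 4488) (nat_lit 42747) (nat_lit 5236) (nat_lit 873906) (nat_lit 0) (nat_lit 0),Row.mk (nat_lit 15792) (nat_lit 5049) (nat_lit 53390) (nat_lit 5797) (nat_lit 865385) (nat_lit 0) (nat_lit 0),Row.mk (nat_lit 15960) (nat_lit 5610) (nat_lit 66683) (nat_lit 6358) (nat_lit 854742) (nat_lit 0) (nat_lit 0),Row.mk (nat_lit 16128) (nat_lit 6171) (nat_lit 83286) (nat_lit 6919) (nat_lit 841449) (nat_lit 0) (nat_lit 0),Row.mk (nat_lit 16296) (nat_lit 6732) (nat_lit 104022) (nat_lit 7480) (nat_lit 824846) (nat_lit 0) (nat_lit 0),Row.mk (nat_lit 16464) (nat_lit 7293) (nat_lit 129921) (nat_lit 8041)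 (nat_lit 804110) (nat_lit 0) (nat_lit 0),Row.mk (nat_lit 16632) (nat_lit 7854) (nat_lit 162268) (nat_lit 8602) (nat_lit 778211) (nat_lit 0) (nat_lit 0),Row.mk (nat_lit 16800) (nat_lit 8415) (nat_lit 202670) (nat_lit 9163) (nat_lit 745863) (nat_lit 0) (nat_lit 0),Row.mk (nat_lit 16968) (nat_lit 8976) (nat_lit 253129) (nat_lit 9724) (nat_lit 705462) (nat_lit 0) (nat_lit 0),Row.mk (nat_lit 17136) (nat_lit 9537) (nat_lit 316153) (nat_lit 10285) (nat_lit 655002) (nat_lit 0) (nat_lit 0),Row.mk (nat_lit 17304) (nat_lit 10098) (nat_lit 394867) (nat_lit 10846) (nat_lit 591979) (nat_lit 0) (nat_lit 0),Row.mk (nat_lit 17472) (nat_lit 10659) (nat_lit 493180) (nat_lit 11407) (nat_lit 513265) (nat_lit 0) (nat_lit 0),Row.mk (nat_lit 17640) (nat_lit 11220) (nat_lit 615970) (nat_lit 11968) (nat_lit 414952) (nat_lit 0) (nat_lit 0),Row.mk (nat_lit 17808) (nat_lit 11781) (nat_lit 769331) (nat_lit 12716) (nat_lit 292162) (nat_lit 0) (nat_lit 0),Row.mk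 (nat_lit 17976) (nat_lit 12529) (nat_lit 960877) (nat_lit 13464) (nat_lit 138800) (nat_lit 0) (nat_lit 0),Row.mk (nat_lit 18144) (nat_lit 12342) (nat_lit 65876) (nat_lit 13277) (nat_lit 1081491) (nat_lit 0) (nat_lit 0),Row.mk (nat_lit 18312) (nat_lit 13090) (nat_lit 364675) (nat_lit 14025) (nat_lit 842256) (nat_lit 0) (nat_lit 0),Row.mk (nat_lit 18480) (nat_lit 13838) (nat_lit 737867) (nat_lit 15147) (nat_lit 543457) (nat_lit 0) (nat_lit 0),Row.mk (nat_lit 18648) (nat_lit 14960) (nat_lit 1203976) (nat_lit 16456) (nat_lit 170264) (nat_lit 0) (nat_lit 0),Row.mk (nat_lit 18816) (nat_lit 14773) (nat_lit 369501) (nat_lit 16269) (nat_lit 1120789) (nat_lit 0) (nat_lit 0),Row.mk (nat_lit 18984) (nat_lit 16082) (nat_lit 1096603) (nat_lit 17765) (nat_lit 538631) (nat_lit 0) (nat_lit 0),Row.mk (nat_lit 19152) (nat_lit 15895) (nat_lit 235395) (nat_lit 17578) (nat_lit 1580870) (nat_lit 0) (nat_lit 0),Row.mk (nat_lit 19320) (nat_lit 17391) (nat_lit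 1369631) (nat_lit 19635) (nat_lit 672737) (nat_lit 0) (nat_lit 0),Row.mk (nat_lit 19488) (nat_lit 17204) (nat_lit 576400) (nat_lit 19448) (nat_lit 1748365) (nat_lit 0) (nat_lit 0),Row.mk (nat_lit 19656) (nat_lit 19261) (nat_lit 2345741) (nat_lit 25806) (nat_lit 331731) (nat_lit 0) (nat_lit 0),Row.mk (nat_lit 19824) (nat_lit 19074) (nat_lit 1795539) (nat_lit 25619) (nat_lit 1322458) (nat_lit 0) (nat_lit 0),Row.mk (nat_lit 19992) (nat_lit 18887) (nat_lit 1108348) (nat_lit 25432) (nat_lit 2559851) (nat_lit 0) (nat_lit 0),Row.mk (nat_lit 20160) (nat_lit 18700) (nat_lit 250065) (nat_lit 25245) (nat_lit 4105325) (nat_lit 0) (nat_lit 0),Row.mk (nat_lit 20328) (nat_lit 25058) (nat_lit 4555606) (nat_lit 31603) (nat_lit 658067) (nat_lit 0) (nat_lit 0),Row.mk (nat_lit 20496) (nat_lit 24871) (nat_lit 4555606) (nat_lit 31416) (nat_lit 1730043) (nat_lit 0) (nat_lit 0),Row.mk (nat_lit 20664) (nat_lit 24684) (nat_lit 4555606) (nat_lit 31229) (nat_lit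 3068915) (nat_lit 0) (nat_lit 0),Row.mk (nat_lit 20832) (nat_lit 24497) (nat_lit 4555606) (nat_lit 31042) (nat_lit 4741134) (nat_lit 0) (nat_lit 0),Row.mk (nat_lit 21000) (nat_lit 24310) (nat_lit 4555606) (nat_lit 30855) (nat_lit 6829695) (nat_lit 0) (nat_lit 0),Row.mk (nat_lit 21168) (nat_lit 24123) (nat_lit 4555606) (nat_lit 30668) (nat_lit 9438257) (nat_lit 0) (nat_lit 0),Row.mk (nat_lit 21336) (nat_lit 23936) (nat_lit 4555606) (nat_lit 30481) (nat_lit 12696289) (nat_lit 0) (nat_lit 0),Row.mk (nat_lit 21504) (nat_lit 23749) (nat_lit 4555606) (nat_lit 30294) (nat_lit 16765492) (nat_lit 0) (nat_lit 0),Row.mk (nat_lit 21672) (nat_lit 23562) (nat_lit 4555606) (nat_lit 30107) (nat_lit 21847828) (nat_lit 0) (nat_lit 0),Row.mk (nat_lit 21840) (nat_lit 23375) (nat_lit 4555606) (nat_lit 29920) (nat_lit 28195543) (nat_lit 0) (nat_lit 0),Row.mk (nat_lit 22008) (nat_lit 23188) (nat_lit 4555606) (nat_lit 29733) (nat_lit 36123685) (nat_lit 0)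 (nat_lit 0),Row.mk (nat_lit 22176) (nat_lit 23001) (nat_lit 4555606) (nat_lit 29546) (nat_lit 46025745) (nat_lit 0) (nat_lit 0),Row.mk (nat_lit 22344) (nat_lit 22814) (nat_lit 4555606) (nat_lit 29359) (nat_lit 58393178) (nat_lit 0) (nat_lit 0),Row.mk (nat_lit 22512) (nat_lit 22627) (nat_lit 4555606) (nat_lit 29172) (nat_lit 73839803) (nat_lit 0) (nat_lit 0),Row.mk (nat_lit 22680) (nat_lit 22440) (nat_lit 4555606) (nat_lit 28985) (nat_lit 93132266) (nat_lit 0) (nat_lit 0),Row.mk (nat_lit 22848) (nat_lit 22253) (nat_lit 4555606) (nat_lit 28798) (nat_lit 117228087) (nat_lit 0) (nat_lit 0),Row.mk (nat_lit 23016) (nat_lit 22066) (nat_lit 4555606) (nat_lit 28611) (nat_lit 147323185) (nat_lit 0) (nat_lit 0),Row.mk (nat_lit 23184) (nat_lit 21879) (nat_lit 4555606) (nat_lit 28424) (nat_lit 184911238) (nat_lit 0) (nat_lit 0),Row.mk (nat_lit 23352) (nat_lit 21692) (nat_lit 4555606) (nat_lit 28237) (nat_lit 231857808) (nat_lit 0) (nat_lit 0),Row.mk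 (nat_lit 23520) (nat_lit 21505) (nat_lit 4555606) (nat_lit 28050) (nat_lit 290492942) (nat_lit 0) (nat_lit 0),Row.mk (nat_lit 23688) (nat_lit 21318) (nat_lit 4555606) (nat_lit 27863) (nat_lit 363726810) (nat_lit 0) (nat_lit 0),Row.mk (nat_lit 23856) (nat_lit 21131) (nat_lit 4555606) (nat_lit 27676) (nat_lit 455194144) (nat_lit 0) (nat_lit 0),Row.mk (nat_lit 24024) (nat_lit 20944) (nat_lit 4555606) (nat_lit 27489) (nat_lit 569434638) (nat_lit 0) (nat_lit 0),Row.mk (nat_lit 24192) (nat_lit 32912) (nat_lit 908132) (nat_lit 62084) (nat_lit 714857599) (nat_lit 0) (nat_lit 0),Row.mk (nat_lit 24360) (nat_lit 32912) (nat_lit 908132) (nat_lit 62084) (nat_lit 893065999) (nat_lit 0) (nat_lit 0),Row.mk (nat_lit 24528) (nat_lit 32912) (nat_lit 908132) (nat_lit 62084) (nat_lit 1115643993) (nat_lit 0) (nat_lit 0),Row.mk (nat_lit 24696) (nat_lit 32912) (nat_lit 908132) (nat_lit 62084) (nat_lit 1393638536) (nat_lit 0) (nat_lit 0),Row.mk (nat_lit 24864)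 (nat_lit 32912) (nat_lit 908132) (nat_lit 62084) (nat_lit 1740847015) (nat_lit 0) (nat_lit 0),Row.mk (nat_lit 25032) (nat_lit 32912) (nat_lit 908132) (nat_lit 62084) (nat_lit 2174502030) (nat_lit 0) (nat_lit 0),Row.mk (nat_lit 25200) (nat_lit 32912) (nat_lit 908132) (nat_lit 62084) (nat_lit 2716126681) (nat_lit 0) (nat_lit 0),Row.mk (nat_lit 25368) (nat_lit 32912) (nat_lit 908132) (nat_lit 62084) (nat_lit 3392602805) (nat_lit 0) (nat_lit 0),Row.mk (nat_lit 25536) (nat_lit 32912) (nat_lit 908132) (nat_lit 62084) (nat_lit 4237505164) (nat_lit 0) (nat_lit 0),Row.mk (nat_lit 25704) (nat_lit 32912) (nat_lit 908132) (nat_lit 62084) (nat_lit 5292767828) (nat_lit 0) (nat_lit 0),Row.mk (nat_lit 25872) (nat_lit 32912) (nat_lit 908132) (nat_lit 62084) (nat_lit 6610765439) (nat_lit 0) (nat_lit 0),Row.mk (nat_lit 26040) (nat_lit 32912) (nat_lit 908132) (nat_lit 62084) (nat_lit 8256912660) (nat_lit 0) (nat_lit 0),Row.mk (nat_lit 26208) (nat_lit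 32912) (nat_lit 908132) (nat_lit 62084) (nat_lit 10312910827) (nat_lit 0) (nat_lit 0)],
[Row.mk (nat_lit 10752) (nat_lit 32912) (nat_lit 13) (nat_lit 61897) (nat_lit 1134222) (nat_lit 0) (nat_lit 0),Row.mk (nat_lit 10920) (nat_lit 32912) (nat_lit 16) (nat_lit 61897) (nat_lit 1134219) (nat_lit 0) (nat_lit 0),Row.mk (nat_lit 11088) (nat_lit 32912) (nat_lit 21) (nat_lit 61897) (nat_lit 1134214) (nat_lit 0) (nat_lit 0),Row.mk (nat_lit 11256) (nat_lit 32912) (nat_lit 26) (nat_lit 61897) (nat_lit 1134209) (nat_lit 0) (nat_lit 0),Row.mk (nat_lit 11424) (nat_lit 32912) (nat_lit 32) (nat_lit 61897) (nat_lit 1134203) (nat_lit 0) (nat_lit 0),Row.mk (nat_lit 11592) (nat_lit 32912) (nat_lit 41) (nat_lit 61897) (nat_lit 1134195) (nat_lit 0) (nat_lit 0),Row.mk (nat_lit 11760) (nat_lit 32912) (nat_lit 51) (nat_lit 61897) (nat_lit 1134184) (nat_lit 0) (nat_lit 0),Row.mk (nat_lit 11928) (nat_lit 32912) (nat_lit 64) (nat_lit 61897) (nat_lit 1134172)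 (nat_lit 0) (nat_lit 0),Row.mk (nat_lit 12096) (nat_lit 32912) (nat_lit 79) (nat_lit 61897) (nat_lit 1134156) (nat_lit 0) (nat_lit 0),Row.mk (nat_lit 12264) (nat_lit 32912) (nat_lit 99) (nat_lit 61897) (nat_lit 1134136) (nat_lit 0) (nat_lit 0),Row.mk (nat_lit 12432) (nat_lit 32912) (nat_lit 124) (nat_lit 61897) (nat_lit 1134111) (nat_lit 0) (nat_lit 0),Row.mk (nat_lit 12600) (nat_lit 32912) (nat_lit 155) (nat_lit 61897) (nat_lit 1134080) (nat_lit 0) (nat_lit 0),Row.mk (nat_lit 12768) (nat_lit 32912) (nat_lit 194) (nat_lit 61897) (nat_lit 1134041) (nat_lit 0) (nat_lit 0),Row.mk (nat_lit 12936) (nat_lit 32912) (nat_lit 243) (nat_lit 61897) (nat_lit 1133993) (nat_lit 0) (nat_lit 0),Row.mk (nat_lit 13104) (nat_lit 32912) (nat_lit 303) (nat_lit 61897) (nat_lit 1133932) (nat_lit 0) (nat_lit 0),Row.mk (nat_lit 13272) (nat_lit 32912) (nat_lit 379) (nat_lit 61897) (nat_lit 1133856) (nat_lit 0) (nat_lit 0),Row.mk (nat_lit 13440) (nat_lit 32912)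 (nat_lit 473) (nat_lit 61897) (nat_lit 1133762) (nat_lit 0) (nat_lit 0),Row.mk (nat_lit 13608) (nat_lit 32912) (nat_lit 591) (nat_lit 61897) (nat_lit 1133644) (nat_lit 0) (nat_lit 0),Row.mk (nat_lit 13776) (nat_lit 32912) (nat_lit 738) (nat_lit 61897) (nat_lit 1133497) (nat_lit 0) (nat_lit 0),Row.mk (nat_lit 13944) (nat_lit 32912) (nat_lit 922) (nat_lit 61897) (nat_lit 1133313) (nat_lit 0) (nat_lit 0),Row.mk (nat_lit 14112) (nat_lit 32912) (nat_lit 1152) (nat_lit 61897) (nat_lit 1133083) (nat_lit 0) (nat_lit 0),Row.mk (nat_lit 14280) (nat_lit 32912) (nat_lit 1439) (nat_lit 61897) (nat_lit 1132796) (nat_lit 0) (nat_lit 0),Row.mk (nat_lit 14448) (nat_lit 0) (nat_lit 9016) (nat_lit 748) (nat_lit 1127017) (nat_lit 0) (nat_lit 0),Row.mk (nat_lit 14616) (nat_lit 561) (nat_lit 11261) (nat_lit 1309) (nat_lit 1125219) (nat_lit 0) (nat_lit 0),Row.mk (nat_lit 14784) (nat_lit 1122) (nat_lit 14065) (nat_lit 1870) (nat_lit 1122974) (nat_lit 0)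 (nat_lit 0),Row.mk (nat_lit 14952) (nat_lit 1683) (nat_lit 17566) (nat_lit 2431) (nat_lit 1120171) (nat_lit 0) (nat_lit 0),Row.mk (nat_lit 15120) (nat_lit 2244) (nat_lit 21940) (nat_lit 2992) (nat_lit 1116669) (nat_lit 0) (nat_lit 0),Row.mk (nat_lit 15288) (nat_lit 2805) (nat_lit 27403) (nat_lit 3553) (nat_lit 1112295) (nat_lit 0) (nat_lit 0),Row.mk (nat_lit 15456) (nat_lit 3366) (nat_lit 34226) (nat_lit 4114) (nat_lit 1106832) (nat_lit 0) (nat_lit 0),Row.mk (nat_lit 15624) (nat_lit 3927) (nat_lit 42747) (nat_lit 4675) (nat_lit 1100009) (nat_lit 0) (nat_lit 0),Row.mk (nat_lit 15792) (nat_lit 4488) (nat_lit 53390) (nat_lit 5236) (nat_lit 1091488) (nat_lit 0) (nat_lit 0),Row.mk (nat_lit 15960) (nat_lit 5049) (nat_lit 66683) (nat_lit 5797) (nat_lit 1080845) (nat_lit 0) (nat_lit 0),Row.mk (nat_lit 16128) (nat_lit 5610) (nat_lit 83286) (nat_lit 6358) (nat_lit 1067552) (nat_lit 0) (nat_lit 0),Row.mk (nat_lit 16296) (nat_lit 6171) (nat_lit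 104022) (nat_lit 6919) (nat_lit 1050949) (nat_lit 0) (nat_lit 0),Row.mk (nat_lit 16464) (nat_lit 6732) (nat_lit 129921) (nat_lit 7480) (nat_lit 1030213) (nat_lit 0) (nat_lit 0),Row.mk (nat_lit 16632) (nat_lit 7293) (nat_lit 162268) (nat_lit 8041) (nat_lit 1004314) (nat_lit 0) (nat_lit 0),Row.mk (nat_lit 16800) (nat_lit 7854) (nat_lit 202670) (nat_lit 8602) (nat_lit 971967) (nat_lit 0) (nat_lit 0),Row.mk (nat_lit 16968) (nat_lit 8415) (nat_lit 253129) (nat_lit 9163) (nat_lit 931566) (nat_lit 0) (nat_lit 0),Row.mk (nat_lit 17136) (nat_lit 8976) (nat_lit 316153) (nat_lit 9724) (nat_lit 881106) (nat_lit 0) (nat_lit 0),Row.mk (nat_lit 17304) (nat_lit 9537) (nat_lit 394867) (nat_lit 10285) (nat_lit 818082) (nat_lit 0) (nat_lit 0),Row.mk (nat_lit 17472) (nat_lit 10098) (nat_lit 493180) (nat_lit 10846) (nat_lit 739368) (nat_lit 0) (nat_lit 0),Row.mk (nat_lit 17640) (nat_lit 10659) (nat_lit 615970) (nat_lit 11407) (nat_lit 641055) (nat_lit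 0) (nat_lit 0),Row.mk (nat_lit 17808) (nat_lit 11220) (nat_lit 769331) (nat_lit 11968) (nat_lit 518265) (nat_lit 0) (nat_lit 0),Row.mk (nat_lit 17976) (nat_lit 11781) (nat_lit 960877) (nat_lit 12716) (nat_lit 364904) (nat_lit 0) (nat_lit 0),Row.mk (nat_lit 18144) (nat_lit 12529) (nat_lit 1200112) (nat_lit 13464) (nat_lit 173358) (nat_lit 0) (nat_lit 0),Row.mk (nat_lit 18312) (nat_lit 12342) (nat_lit 82277) (nat_lit 13277) (nat_lit 1350757) (nat_lit 0) (nat_lit 0),Row.mk (nat_lit 18480) (nat_lit 13090) (nat_lit 455470) (nat_lit 14025) (nat_lit 1051958) (nat_lit 0) (nat_lit 0),Row.mk (nat_lit 18648) (nat_lit 13838) (nat_lit 921579) (nat_lit 15147) (nat_lit 678765) (nat_lit 0) (nat_lit 0),Row.mk (nat_lit 18816) (nat_lit 14960) (nat_lit 1503737) (nat_lit 16456) (nat_lit 212656) (nat_lit 0) (nat_lit 0),Row.mk (nat_lit 18984) (nat_lit 14773) (nat_lit 461498) (nat_lit 16269) (nat_lit 1399839) (nat_lit 0) (nat_lit 0),Row.mk (nat_lit 19152)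 (nat_lit 16082) (nat_lit 1369631) (nat_lit 17765) (nat_lit 672737) (nat_lit 0) (nat_lit 0),Row.mk (nat_lit 19320) (nat_lit 15895) (nat_lit 294003) (nat_lit 17578) (nat_lit 1974468) (nat_lit 0) (nat_lit 0),Row.mk (nat_lit 19488) (nat_lit 17391) (nat_lit 1710637) (nat_lit 19635) (nat_lit 840232) (nat_lit 0) (nat_lit 0),Row.mk (nat_lit 19656) (nat_lit 17204) (nat_lit 719910) (nat_lit 19448) (nat_lit 2183666) (nat_lit 0) (nat_lit 0),Row.mk (nat_lit 19824) (nat_lit 19261) (nat_lit 2929775) (nat_lit 25806) (nat_lit 414325) (nat_lit 0) (nat_lit 0),Row.mk (nat_lit 19992) (nat_lit 19074) (nat_lit 2242585) (nat_lit 25619) (nat_lit 1651718) (nat_lit 0) (nat_lit 0),Row.mk (nat_lit 20160) (nat_lit 18887) (nat_lit 1384301) (nat_lit 25432) (nat_lit 3197192) (nat_lit 0) (nat_lit 0),Row.mk (nat_lit 20328) (nat_lit 18700) (nat_lit 312325) (nat_lit 25245) (nat_lit 5127452) (nat_lit 0) (nat_lit 0),Row.mk (nat_lit 20496) (nat_lit 25058) (nat_lit 5689842)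 (nat_lit 31603) (nat_lit 821910) (nat_lit 0) (nat_lit 0),Row.mk (nat_lit 20664) (nat_lit 24871) (nat_lit 5689842) (nat_lit 31416) (nat_lit 2160782) (nat_lit 0) (nat_lit 0),Row.mk (nat_lit 20832) (nat_lit 24684) (nat_lit 5689842) (nat_lit 31229) (nat_lit 3833001) (nat_lit 0) (nat_lit 0),Row.mk (nat_lit 21000) (nat_lit 24497) (nat_lit 5689842) (nat_lit 31042) (nat_lit 5921562) (nat_lit 0) (nat_lit 0),Row.mk (nat_lit 21168) (nat_lit 24310) (nat_lit 5689842) (nat_lit 30855) (nat_lit 8530125) (nat_lit 0) (nat_lit 0),Row.mk (nat_lit 21336) (nat_lit 24123) (nat_lit 5689842) (nat_lit 30668) (nat_lit 11788156) (nat_lit 0) (nat_lit 0),Row.mk (nat_lit 21504) (nat_lit 23936) (nat_lit 5689842) (nat_lit 30481) (nat_lit 15857359) (nat_lit 0) (nat_lit 0),Row.mk (nat_lit 21672) (nat_lit 23749) (nat_lit 5689842) (nat_lit 30294) (nat_lit 20939695) (nat_lit 0) (nat_lit 0),Row.mk (nat_lit 21840) (nat_lit 23562) (nat_lit 5689842) (nat_lit 30107) (nat_lit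 27287410) (nat_lit 0) (nat_lit 0),Row.mk (nat_lit 22008) (nat_lit 23375) (nat_lit 5689842) (nat_lit 29920) (nat_lit 35215553) (nat_lit 0) (nat_lit 0),Row.mk (nat_lit 22176) (nat_lit 23188) (nat_lit 5689842) (nat_lit 29733) (nat_lit 45117612) (nat_lit 0) (nat_lit 0),Row.mk (nat_lit 22344) (nat_lit 23001) (nat_lit 5689842) (nat_lit 29546) (nat_lit 57485045) (nat_lit 0) (nat_lit 0),Row.mk (nat_lit 22512) (nat_lit 22814) (nat_lit 5689842) (nat_lit 29359) (nat_lit 72931671) (nat_lit 0) (nat_lit 0),Row.mk (nat_lit 22680) (nat_lit 22627) (nat_lit 5689842) (nat_lit 29172) (nat_lit 92224133) (nat_lit 0) (nat_lit 0),Row.mk (nat_lit 22848) (nat_lit 22440) (nat_lit 5689842) (nat_lit 28985) (nat_lit 116319954) (nat_lit 0) (nat_lit 0),Row.mk (nat_lit 23016) (nat_lit 22253) (nat_lit 5689842) (nat_lit 28798) (nat_lit 146415053) (nat_lit 0) (nat_lit 0),Row.mk (nat_lit 23184) (nat_lit 22066) (nat_lit 5689842) (nat_lit 28611) (nat_lit 184003105) (nat_lit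 0) (nat_lit 0),Row.mk (nat_lit 23352) (nat_lit 21879) (nat_lit 5689842) (nat_lit 28424) (nat_lit 230949675) (nat_lit 0) (nat_lit 0),Row.mk (nat_lit 23520) (nat_lit 21692) (nat_lit 5689842) (nat_lit 28237) (nat_lit 289584809) (nat_lit 0) (nat_lit 0),Row.mk (nat_lit 23688) (nat_lit 21505) (nat_lit 5689842) (nat_lit 28050) (nat_lit 362818677) (nat_lit 0) (nat_lit 0),Row.mk (nat_lit 23856) (nat_lit 21318) (nat_lit 5689842) (nat_lit 27863) (nat_lit 454286011) (nat_lit 0) (nat_lit 0),Row.mk (nat_lit 24024) (nat_lit 21131) (nat_lit 5689842) (nat_lit 27676) (nat_lit 568526505) (nat_lit 0) (nat_lit 0),Row.mk (nat_lit 24192) (nat_lit 20944) (nat_lit 5689842) (nat_lit 27489) (nat_lit 711210126) (nat_lit 0) (nat_lit 0),Row.mk (nat_lit 24360) (nat_lit 32912) (nat_lit 1134236) (nat_lit 62084) (nat_lit 892839896) (nat_lit 0) (nat_lit 0),Row.mk (nat_lit 24528) (nat_lit 32912) (nat_lit 1134236) (nat_lit 62084) (nat_lit 1115417889) (nat_lit 0) (nat_lit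 0),Row.mk (nat_lit 24696) (nat_lit 32912) (nat_lit 1134236) (nat_lit 62084) (nat_lit 1393412433) (nat_lit 0) (nat_lit 0),Row.mk (nat_lit 24864) (nat_lit 32912) (nat_lit 1134236) (nat_lit 62084) (nat_lit 1740620912) (nat_lit 0) (nat_lit 0),Row.mk (nat_lit 25032) (nat_lit 32912) (nat_lit 1134236) (nat_lit 62084) (nat_lit 2174275926) (nat_lit 0) (nat_lit 0),Row.mk (nat_lit 25200) (nat_lit 32912) (nat_lit 1134236) (nat_lit 62084) (nat_lit 2715900578) (nat_lit 0) (nat_lit 0),Row.mk (nat_lit 25368) (nat_lit 32912) (nat_lit 1134236) (nat_lit 62084) (nat_lit 3392376701) (nat_lit 0) (nat_lit 0),Row.mk (nat_lit 25536) (nat_lit 32912) (nat_lit 1134236) (nat_lit 62084) (nat_lit 4237279061) (nat_lit 0) (nat_lit 0),Row.mk (nat_lit 25704) (nat_lit 32912) (nat_lit 1134236) (nat_lit 62084) (nat_lit 5292541725) (nat_lit 0) (nat_lit 0),Row.mk (nat_lit 25872) (nat_lit 32912) (nat_lit 1134236) (nat_lit 62084) (nat_lit 6610539336) (nat_lit 0) (nat_lit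 0),Row.mk (nat_lit 26040) (nat_lit 32912) (nat_lit 1134236) (nat_lit 62084) (nat_lit 8256686557) (nat_lit 0) (nat_lit 0),Row.mk (nat_lit 26208) (nat_lit 32912) (nat_lit 1134236) (nat_lit 62084) (nat_lit 10312684724) (nat_lit 0) (nat_lit 0)],
[Row.mk (nat_lit 10752) (nat_lit 32912) (nat_lit 13) (nat_lit 61897) (nat_lit 1416619) (nat_lit 0) (nat_lit 0),Row.mk (nat_lit 10920) (nat_lit 32912) (nat_lit 16) (nat_lit 61897) (nat_lit 1416616) (nat_lit 0) (nat_lit 0),Row.mk (nat_lit 11088) (nat_lit 32912) (nat_lit 21) (nat_lit 61897) (nat_lit 1416612) (nat_lit 0) (nat_lit 0),Row.mk (nat_lit 11256) (nat_lit 32912) (nat_lit 26) (nat_lit 61897) (nat_lit 1416607) (nat_lit 0) (nat_lit 0),Row.mk (nat_lit 11424) (nat_lit 32912) (nat_lit 32) (nat_lit 61897) (nat_lit 1416600) (nat_lit 0) (nat_lit 0),Row.mk (nat_lit 11592) (nat_lit 32912) (nat_lit 41) (nat_lit 61897) (nat_lit 1416592) (nat_lit 0) (nat_lit 0),Row.mk (nat_lit 11760) (nat_lit 32912) (nat_lit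 51) (nat_lit 61897) (nat_lit 1416582) (nat_lit 0) (nat_lit 0),Row.mk (nat_lit 11928) (nat_lit 32912) (nat_lit 64) (nat_lit 61897) (nat_lit 1416569) (nat_lit 0) (nat_lit 0),Row.mk (nat_lit 12096) (nat_lit 32912) (nat_lit 79) (nat_lit 61897) (nat_lit 1416553) (nat_lit 0) (nat_lit 0),Row.mk (nat_lit 12264) (nat_lit 32912) (nat_lit 99) (nat_lit 61897) (nat_lit 1416533) (nat_lit 0) (nat_lit 0),Row.mk (nat_lit 12432) (nat_lit 32912) (nat_lit 124) (nat_lit 61897) (nat_lit 1416508) (nat_lit 0) (nat_lit 0),Row.mk (nat_lit 12600) (nat_lit 32912) (nat_lit 155) (nat_lit 61897) (nat_lit 1416477) (nat_lit 0) (nat_lit 0),Row.mk (nat_lit 12768) (nat_lit 32912) (nat_lit 194) (nat_lit 61897) (nat_lit 1416438) (nat_lit 0) (nat_lit 0),Row.mk (nat_lit 12936) (nat_lit 32912) (nat_lit 243) (nat_lit 61897) (nat_lit 1416390) (nat_lit 0) (nat_lit 0),Row.mk (nat_lit 13104) (nat_lit 32912) (nat_lit 303) (nat_lit 61897) (nat_lit 1416329) (nat_lit 0) (nat_lit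 0),Row.mk (nat_lit 13272) (nat_lit 32912) (nat_lit 379) (nat_lit 61897) (nat_lit 1416254) (nat_lit 0) (nat_lit 0),Row.mk (nat_lit 13440) (nat_lit 32912) (nat_lit 473) (nat_lit 61897) (nat_lit 1416159) (nat_lit 0) (nat_lit 0),Row.mk (nat_lit 13608) (nat_lit 32912) (nat_lit 591) (nat_lit 61897) (nat_lit 1416042) (nat_lit 0) (nat_lit 0),Row.mk (nat_lit 13776) (nat_lit 32912) (nat_lit 738) (nat_lit 61897) (nat_lit 1415894) (nat_lit 0) (nat_lit 0),Row.mk (nat_lit 13944) (nat_lit 32912) (nat_lit 922) (nat_lit 61897) (nat_lit 1415710) (nat_lit 0) (nat_lit 0),Row.mk (nat_lit 14112) (nat_lit 32912) (nat_lit 1152) (nat_lit 61897) (nat_lit 1415481) (nat_lit 0) (nat_lit 0),Row.mk (nat_lit 14280) (nat_lit 32912) (nat_lit 1439) (nat_lit 61897) (nat_lit 1415194) (nat_lit 0) (nat_lit 0),Row.mk (nat_lit 14448) (nat_lit 32912) (nat_lit 1797) (nat_lit 61897) (nat_lit 1414836) (nat_lit 0) (nat_lit 0),Row.mk (nat_lit 14616) (nat_lit 0) (nat_lit 11261)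 (nat_lit 748) (nat_lit 1407617) (nat_lit 0) (nat_lit 0),Row.mk (nat_lit 14784) (nat_lit 561) (nat_lit 14065) (nat_lit 1309) (nat_lit 1405372) (nat_lit 0) (nat_lit 0),Row.mk (nat_lit 14952) (nat_lit 1122) (nat_lit 17566) (nat_lit 1870) (nat_lit 1402568) (nat_lit 0) (nat_lit 0),Row.mk (nat_lit 15120) (nat_lit 1683) (nat_lit 21940) (nat_lit 2431) (nat_lit 1399066) (nat_lit 0) (nat_lit 0),Row.mk (nat_lit 15288) (nat_lit 2244) (nat_lit 27403) (nat_lit 2992) (nat_lit 1394692) (nat_lit 0) (nat_lit 0),Row.mk (nat_lit 15456) (nat_lit 2805) (nat_lit 34226) (nat_lit 3553) (nat_lit 1389230) (nat_lit 0) (nat_lit 0),Row.mk (nat_lit 15624) (nat_lit 3366) (nat_lit 42747) (nat_lit 4114) (nat_lit 1382407) (nat_lit 0) (nat_lit 0),Row.mk (nat_lit 15792) (nat_lit 3927) (nat_lit 53390) (nat_lit 4675) (nat_lit 1373885) (nat_lit 0) (nat_lit 0),Row.mk (nat_lit 15960) (nat_lit 4488) (nat_lit 66683) (nat_lit 5236) (nat_lit 1363242) (nat_lit 0) (nat_lit 0),Row.mk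 (nat_lit 16128) (nat_lit 5049) (nat_lit 83286) (nat_lit 5797) (nat_lit 1349949) (nat_lit 0) (nat_lit 0),Row.mk (nat_lit 16296) (nat_lit 5610) (nat_lit 104022) (nat_lit 6358) (nat_lit 1333347) (nat_lit 0) (nat_lit 0),Row.mk (nat_lit 16464) (nat_lit 6171) (nat_lit 129921) (nat_lit 6919) (nat_lit 1312610) (nat_lit 0) (nat_lit 0),Row.mk (nat_lit 16632) (nat_lit 6732) (nat_lit 162268) (nat_lit 7480) (nat_lit 1286711) (nat_lit 0) (nat_lit 0),Row.mk (nat_lit 16800) (nat_lit 7293) (nat_lit 202670) (nat_lit 8041) (nat_lit 1254364) (nat_lit 0) (nat_lit 0),Row.mk (nat_lit 16968) (nat_lit 7854) (nat_lit 253129) (nat_lit 8602) (nat_lit 1213963) (nat_lit 0) (nat_lit 0),Row.mk (nat_lit 17136) (nat_lit 8415) (nat_lit 316153) (nat_lit 9163) (nat_lit 1163503) (nat_lit 0) (nat_lit 0),Row.mk (nat_lit 17304) (nat_lit 8976) (nat_lit 394867) (nat_lit 9724) (nat_lit 1100480) (nat_lit 0) (nat_lit 0),Row.mk (nat_lit 17472) (nat_lit 9537) (nat_lit 493180) (nat_lit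 10285) (nat_lit 1021765) (nat_lit 0) (nat_lit 0),Row.mk (nat_lit 17640) (nat_lit 10098) (nat_lit 615970) (nat_lit 10846) (nat_lit 923453) (nat_lit 0) (nat_lit 0),Row.mk (nat_lit 17808) (nat_lit 10659) (nat_lit 769331) (nat_lit 11407) (nat_lit 800663) (nat_lit 0) (nat_lit 0),Row.mk (nat_lit 17976) (nat_lit 11220) (nat_lit 960877) (nat_lit 11968) (nat_lit 647301) (nat_lit 0) (nat_lit 0),Row.mk (nat_lit 18144) (nat_lit 11781) (nat_lit 1200112) (nat_lit 12716) (nat_lit 455756) (nat_lit 0) (nat_lit 0),Row.mk (nat_lit 18312) (nat_lit 12529) (nat_lit 1498911) (nat_lit 13464) (nat_lit 216521) (nat_lit 0) (nat_lit 0),Row.mk (nat_lit 18480) (nat_lit 12342) (nat_lit 102763) (nat_lit 13277) (nat_lit 1687063) (nat_lit 0) (nat_lit 0),Row.mk (nat_lit 18648) (nat_lit 13090) (nat_lit 568871) (nat_lit 14025) (nat_lit 1313870) (nat_lit 0) (nat_lit 0),Row.mk (nat_lit 18816) (nat_lit 13838) (nat_lit 1151030) (nat_lit 15147) (nat_lit 847761) (nat_lit 0)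 (nat_lit 0),Row.mk (nat_lit 18984) (nat_lit 14960) (nat_lit 1878132) (nat_lit 16456) (nat_lit 265603) (nat_lit 0) (nat_lit 0),Row.mk (nat_lit 19152) (nat_lit 14773) (nat_lit 576400) (nat_lit 16269) (nat_lit 1748365) (nat_lit 0) (nat_lit 0),Row.mk (nat_lit 19320) (nat_lit 16082) (nat_lit 1710637) (nat_lit 17765) (nat_lit 840232) (nat_lit 0) (nat_lit 0),Row.mk (nat_lit 19488) (nat_lit 15895) (nat_lit 367203) (nat_lit 17578) (nat_lit 2466063) (nat_lit 0) (nat_lit 0),Row.mk (nat_lit 19656) (nat_lit 17391) (nat_lit 2136544) (nat_lit 19635) (nat_lit 1049430) (nat_lit 0) (nat_lit 0),Row.mk (nat_lit 19824) (nat_lit 17204) (nat_lit 899151) (nat_lit 19448) (nat_lit 2727346) (nat_lit 0) (nat_lit 0),Row.mk (nat_lit 19992) (nat_lit 19261) (nat_lit 3659218) (nat_lit 25806) (nat_lit 517482) (nat_lit 0) (nat_lit 0),Row.mk (nat_lit 20160) (nat_lit 19074) (nat_lit 2800934) (nat_lit 25619) (nat_lit 2062956) (nat_lit 0) (nat_lit 0),Row.mk (nat_lit 20328)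 (nat_lit 18887) (nat_lit 1728958) (nat_lit 25432) (nat_lit 3993216) (nat_lit 0) (nat_lit 0),Row.mk (nat_lit 20496) (nat_lit 18700) (nat_lit 390086) (nat_lit 25245) (nat_lit 6404063) (nat_lit 0) (nat_lit 0),Row.mk (nat_lit 20664) (nat_lit 25058) (nat_lit 7106475) (nat_lit 31603) (nat_lit 1026546) (nat_lit 0) (nat_lit 0),Row.mk (nat_lit 20832) (nat_lit 24871) (nat_lit 7106475) (nat_lit 31416) (nat_lit 2698765) (nat_lit 0) (nat_lit 0),Row.mk (nat_lit 21000) (nat_lit 24684) (nat_lit 7106475) (nat_lit 31229) (nat_lit 4787326) (nat_lit 0) (nat_lit 0),Row.mk (nat_lit 21168) (nat_lit 24497) (nat_lit 7106475) (nat_lit 31042) (nat_lit 7395889) (nat_lit 0) (nat_lit 0),Row.mk (nat_lit 21336) (nat_lit 24310) (nat_lit 7106475) (nat_lit 30855) (nat_lit 10653920) (nat_lit 0) (nat_lit 0),Row.mk (nat_lit 21504) (nat_lit 24123) (nat_lit 7106475) (nat_lit 30668) (nat_lit 14723123) (nat_lit 0) (nat_lit 0),Row.mk (nat_lit 21672) (nat_lit 23936) (nat_lit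 7106475) (nat_lit 30481) (nat_lit 19805459) (nat_lit 0) (nat_lit 0),Row.mk (nat_lit 21840) (nat_lit 23749) (nat_lit 7106475) (nat_lit 30294) (nat_lit 26153174) (nat_lit 0) (nat_lit 0),Row.mk (nat_lit 22008) (nat_lit 23562) (nat_lit 7106475) (nat_lit 30107) (nat_lit 34081317) (nat_lit 0) (nat_lit 0),Row.mk (nat_lit 22176) (nat_lit 23375) (nat_lit 7106475) (nat_lit 29920) (nat_lit 43983376) (nat_lit 0) (nat_lit 0),Row.mk (nat_lit 22344) (nat_lit 23188) (nat_lit 7106475) (nat_lit 29733) (nat_lit 56350809) (nat_lit 0) (nat_lit 0),Row.mk (nat_lit 22512) (nat_lit 23001) (nat_lit 7106475) (nat_lit 29546) (nat_lit 71797435) (nat_lit 0) (nat_lit 0),Row.mk (nat_lit 22680) (nat_lit 22814) (nat_lit 7106475) (nat_lit 29359) (nat_lit 91089897) (nat_lit 0) (nat_lit 0),Row.mk (nat_lit 22848) (nat_lit 22627) (nat_lit 7106475) (nat_lit 29172) (nat_lit 115185718) (nat_lit 0) (nat_lit 0),Row.mk (nat_lit 23016) (nat_lit 22440) (nat_lit 7106475) (nat_lit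 28985) (nat_lit 145280817) (nat_lit 0) (nat_lit 0),Row.mk (nat_lit 23184) (nat_lit 22253) (nat_lit 7106475) (nat_lit 28798) (nat_lit 182868869) (nat_lit 0) (nat_lit 0),Row.mk (nat_lit 23352) (nat_lit 22066) (nat_lit 7106475) (nat_lit 28611) (nat_lit 229815439) (nat_lit 0) (nat_lit 0),Row.mk (nat_lit 23520) (nat_lit 21879) (nat_lit 7106475) (nat_lit 28424) (nat_lit 288450573) (nat_lit 0) (nat_lit 0),Row.mk (nat_lit 23688) (nat_lit 21692) (nat_lit 7106475) (nat_lit 28237) (nat_lit 361684441) (nat_lit 0) (nat_lit 0),Row.mk (nat_lit 23856) (nat_lit 21505) (nat_lit 7106475) (nat_lit 28050) (nat_lit 453151775) (nat_lit 0) (nat_lit 0),Row.mk (nat_lit 24024) (nat_lit 21318) (nat_lit 7106475) (nat_lit 27863) (nat_lit 567392269) (nat_lit 0) (nat_lit 0),Row.mk (nat_lit 24192) (nat_lit 21131) (nat_lit 7106475) (nat_lit 27676) (nat_lit 710075890) (nat_lit 0) (nat_lit 0),Row.mk (nat_lit 24360) (nat_lit 20944) (nat_lit 7106475) (nat_lit 27489) (nat_lit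 888284290) (nat_lit 0) (nat_lit 0),Row.mk (nat_lit 24528) (nat_lit 32912) (nat_lit 1416633) (nat_lit 62084) (nat_lit 1115135492) (nat_lit 0) (nat_lit 0),Row.mk (nat_lit 24696) (nat_lit 32912) (nat_lit 1416633) (nat_lit 62084) (nat_lit 1393130036) (nat_lit 0) (nat_lit 0),Row.mk (nat_lit 24864) (nat_lit 32912) (nat_lit 1416633) (nat_lit 62084) (nat_lit 1740338515) (nat_lit 0) (nat_lit 0),Row.mk (nat_lit 25032) (nat_lit 32912) (nat_lit 1416633) (nat_lit 62084) (nat_lit 2173993529) (nat_lit 0) (nat_lit 0),Row.mk (nat_lit 25200) (nat_lit 32912) (nat_lit 1416633) (nat_lit 62084) (nat_lit 2715618180) (nat_lit 0) (nat_lit 0),Row.mk (nat_lit 25368) (nat_lit 32912) (nat_lit 1416633) (nat_lit 62084) (nat_lit 3392094304) (nat_lit 0) (nat_lit 0),Row.mk (nat_lit 25536) (nat_lit 32912) (nat_lit 1416633) (nat_lit 62084) (nat_lit 4236996663) (nat_lit 0) (nat_lit 0),Row.mk (nat_lit 25704) (nat_lit 32912) (nat_lit 1416633) (nat_lit 62084) (nat_lit 5292259328)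 (nat_lit 0) (nat_lit 0),Row.mk (nat_lit 25872) (nat_lit 32912) (nat_lit 1416633) (nat_lit 62084) (nat_lit 6610256938) (nat_lit 0) (nat_lit 0),Row.mk (nat_lit 26040) (nat_lit 32912) (nat_lit 1416633) (nat_lit 62084) (nat_lit 8256404159) (nat_lit 0) (nat_lit 0),Row.mk (nat_lit 26208) (nat_lit 32912) (nat_lit 1416633) (nat_lit 62084) (nat_lit 10312402327) (nat_lit 0) (nat_lit 0)],
[Row.mk (nat_lit 10584) (nat_lit 32912) (nat_lit 10) (nat_lit 61897) (nat_lit 1769330) (nat_lit 0) (nat_lit 0),Row.mk (nat_lit 10752) (nat_lit 32912) (nat_lit 13) (nat_lit 61897) (nat_lit 1769327) (nat_lit 0) (nat_lit 0),Row.mk (nat_lit 10920) (nat_lit 32912) (nat_lit 16) (nat_lit 61897) (nat_lit 1769324) (nat_lit 0) (nat_lit 0),Row.mk (nat_lit 11088) (nat_lit 32912) (nat_lit 21) (nat_lit 61897) (nat_lit 1769319) (nat_lit 0) (nat_lit 0),Row.mk (nat_lit 11256) (nat_lit 32912) (nat_lit 26) (nat_lit 61897) (nat_lit 1769314) (nat_lit 0) (nat_lit 0),Row.mk (nat_lit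 11424) (nat_lit 32912) (nat_lit 32) (nat_lit 61897) (nat_lit 1769308) (nat_lit 0) (nat_lit 0),Row.mk (nat_lit 11592) (nat_lit 32912) (nat_lit 41) (nat_lit 61897) (nat_lit 1769299) (nat_lit 0) (nat_lit 0),Row.mk (nat_lit 11760) (nat_lit 32912) (nat_lit 51) (nat_lit 61897) (nat_lit 1769289) (nat_lit 0) (nat_lit 0),Row.mk (nat_lit 11928) (nat_lit 32912) (nat_lit 64) (nat_lit 61897) (nat_lit 1769277) (nat_lit 0) (nat_lit 0),Row.mk (nat_lit 12096) (nat_lit 32912) (nat_lit 79) (nat_lit 61897) (nat_lit 1769261) (nat_lit 0) (nat_lit 0),Row.mk (nat_lit 12264) (nat_lit 32912) (nat_lit 99) (nat_lit 61897) (nat_lit 1769241) (nat_lit 0) (nat_lit 0),Row.mk (nat_lit 12432) (nat_lit 32912) (nat_lit 124) (nat_lit 61897) (nat_lit 1769216) (nat_lit 0) (nat_lit 0),Row.mk (nat_lit 12600) (nat_lit 32912) (nat_lit 155) (nat_lit 61897) (nat_lit 1769185) (nat_lit 0) (nat_lit 0),Row.mk (nat_lit 12768) (nat_lit 32912) (nat_lit 194) (nat_lit 61897) (nat_lit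 1769146) (nat_lit 0) (nat_lit 0),Row.mk (nat_lit 12936) (nat_lit 32912) (nat_lit 243) (nat_lit 61897) (nat_lit 1769098) (nat_lit 0) (nat_lit 0),Row.mk (nat_lit 13104) (nat_lit 32912) (nat_lit 303) (nat_lit 61897) (nat_lit 1769037) (nat_lit 0) (nat_lit 0),Row.mk (nat_lit 13272) (nat_lit 32912) (nat_lit 379) (nat_lit 61897) (nat_lit 1768961) (nat_lit 0) (nat_lit 0),Row.mk (nat_lit 13440) (nat_lit 32912) (nat_lit 473) (nat_lit 61897) (nat_lit 1768867) (nat_lit 0) (nat_lit 0),Row.mk (nat_lit 13608) (nat_lit 32912) (nat_lit 591) (nat_lit 61897) (nat_lit 1768749) (nat_lit 0) (nat_lit 0),Row.mk (nat_lit 13776) (nat_lit 32912) (nat_lit 738) (nat_lit 61897) (nat_lit 1768602) (nat_lit 0) (nat_lit 0),Row.mk (nat_lit 13944) (nat_lit 32912) (nat_lit 922) (nat_lit 61897) (nat_lit 1768418) (nat_lit 0) (nat_lit 0),Row.mk (nat_lit 14112) (nat_lit 32912) (nat_lit 1152) (nat_lit 61897) (nat_lit 1768188) (nat_lit 0) (nat_lit 0),Row.mk (nat_lit 14280)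 (nat_lit 32912) (nat_lit 1439) (nat_lit 61897) (nat_lit 1767901) (nat_lit 0) (nat_lit 0),Row.mk (nat_lit 14448) (nat_lit 32912) (nat_lit 1797) (nat_lit 61897) (nat_lit 1767543) (nat_lit 0) (nat_lit 0),Row.mk (nat_lit 14616) (nat_lit 32912) (nat_lit 2244) (nat_lit 61897) (nat_lit 1767096) (nat_lit 0) (nat_lit 0),Row.mk (nat_lit 14784) (nat_lit 0) (nat_lit 14065) (nat_lit 748) (nat_lit 1758079) (nat_lit 0) (nat_lit 0),Row.mk (nat_lit 14952) (nat_lit 561) (nat_lit 17566) (nat_lit 1309) (nat_lit 1755275) (nat_lit 0) (nat_lit 0),Row.mk (nat_lit 15120) (nat_lit 1122) (nat_lit 21940) (nat_lit 1870) (nat_lit 1751774) (nat_lit 0) (nat_lit 0),Row.mk (nat_lit 15288) (nat_lit 1683) (nat_lit 27403) (nat_lit 2431) (nat_lit 1747400) (nat_lit 0) (nat_lit 0),Row.mk (nat_lit 15456) (nat_lit 2244) (nat_lit 34226) (nat_lit 2992) (nat_lit 1741937) (nat_lit 0) (nat_lit 0),Row.mk (nat_lit 15624) (nat_lit 2805) (nat_lit 42747) (nat_lit 3553) (nat_lit 1735114)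 (nat_lit 0) (nat_lit 0),Row.mk (nat_lit 15792) (nat_lit 3366) (nat_lit 53390) (nat_lit 4114) (nat_lit 1726593) (nat_lit 0) (nat_lit 0),Row.mk (nat_lit 15960) (nat_lit 3927) (nat_lit 66683) (nat_lit 4675) (nat_lit 1715950) (nat_lit 0) (nat_lit 0),Row.mk (nat_lit 16128) (nat_lit 4488) (nat_lit 83286) (nat_lit 5236) (nat_lit 1702657) (nat_lit 0) (nat_lit 0),Row.mk (nat_lit 16296) (nat_lit 5049) (nat_lit 104022) (nat_lit 5797) (nat_lit 1686054) (nat_lit 0) (nat_lit 0),Row.mk (nat_lit 16464) (nat_lit 5610) (nat_lit 129921) (nat_lit 6358) (nat_lit 1665318) (nat_lit 0) (nat_lit 0),Row.mk (nat_lit 16632) (nat_lit 6171) (nat_lit 162268) (nat_lit 6919) (nat_lit 1639419) (nat_lit 0) (nat_lit 0),Row.mk (nat_lit 16800) (nat_lit 6732) (nat_lit 202670) (nat_lit 7480) (nat_lit 1607072) (nat_lit 0) (nat_lit 0),Row.mk (nat_lit 16968) (nat_lit 7293) (nat_lit 253129) (nat_lit 8041) (nat_lit 1566671) (nat_lit 0) (nat_lit 0),Row.mk (nat_lit 17136) (nat_lit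 7854) (nat_lit 316153) (nat_lit 8602) (nat_lit 1516211) (nat_lit 0) (nat_lit 0),Row.mk (nat_lit 17304) (nat_lit 8415) (nat_lit 394867) (nat_lit 9163) (nat_lit 1453187) (nat_lit 0) (nat_lit 0),Row.mk (nat_lit 17472) (nat_lit 8976) (nat_lit 493180) (nat_lit 9724) (nat_lit 1374473) (nat_lit 0) (nat_lit 0),Row.mk (nat_lit 17640) (nat_lit 9537) (nat_lit 615970) (nat_lit 10285) (nat_lit 1276160) (nat_lit 0) (nat_lit 0),Row.mk (nat_lit 17808) (nat_lit 10098) (nat_lit 769331) (nat_lit 10846) (nat_lit 1153370) (nat_lit 0) (nat_lit 0),Row.mk (nat_lit 17976) (nat_lit 10659) (nat_lit 960877) (nat_lit 11407) (nat_lit 1000009) (nat_lit 0) (nat_lit 0),Row.mk (nat_lit 18144) (nat_lit 11220) (nat_lit 1200112) (nat_lit 11968) (nat_lit 808463) (nat_lit 0) (nat_lit 0),Row.mk (nat_lit 18312) (nat_lit 11781) (nat_lit 1498911) (nat_lit 12716) (nat_lit 569228) (nat_lit 0) (nat_lit 0),Row.mk (nat_lit 18480) (nat_lit 12529) (nat_lit 1872104) (nat_lit 13464)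 (nat_lit 270429) (nat_lit 0) (nat_lit 0),Row.mk (nat_lit 18648) (nat_lit 12342) (nat_lit 128348) (nat_lit 13277) (nat_lit 2107101) (nat_lit 0) (nat_lit 0),Row.mk (nat_lit 18816) (nat_lit 13090) (nat_lit 710507) (nat_lit 14025) (nat_lit 1640992) (nat_lit 0) (nat_lit 0),Row.mk (nat_lit 18984) (nat_lit 13838) (nat_lit 1437609) (nat_lit 15147) (nat_lit 1058833) (nat_lit 0) (nat_lit 0),Row.mk (nat_lit 19152) (nat_lit 14960) (nat_lit 2345741) (nat_lit 16456) (nat_lit 331731) (nat_lit 0) (nat_lit 0),Row.mk (nat_lit 19320) (nat_lit 14773) (nat_lit 719910) (nat_lit 16269) (nat_lit 2183666) (nat_lit 0) (nat_lit 0),Row.mk (nat_lit 19488) (nat_lit 16082) (nat_lit 2136544) (nat_lit 17765) (nat_lit 1049430) (nat_lit 0) (nat_lit 0),Row.mk (nat_lit 19656) (nat_lit 15895) (nat_lit 458628) (nat_lit 17578) (nat_lit 3080053) (nat_lit 0) (nat_lit 0),Row.mk (nat_lit 19824) (nat_lit 17391) (nat_lit 2668492) (nat_lit 19635) (nat_lit 1310712) (nat_lit 0)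 (nat_lit 0),Row.mk (nat_lit 19992) (nat_lit 17204) (nat_lit 1123018) (nat_lit 19448) (nat_lit 3406389) (nat_lit 0) (nat_lit 0),Row.mk (nat_lit 20160) (nat_lit 19261) (nat_lit 4570275) (nat_lit 25806) (nat_lit 646322) (nat_lit 0) (nat_lit 0),Row.mk (nat_lit 20328) (nat_lit 19074) (nat_lit 3498299) (nat_lit 25619) (nat_lit 2576582) (nat_lit 0) (nat_lit 0),Row.mk (nat_lit 20496) (nat_lit 18887) (nat_lit 2159427) (nat_lit 25432) (nat_lit 4987430) (nat_lit 0) (nat_lit 0),Row.mk (nat_lit 20664) (nat_lit 18700) (nat_lit 487208) (nat_lit 25245) (nat_lit 7998521) (nat_lit 0) (nat_lit 0),Row.mk (nat_lit 20832) (nat_lit 25058) (nat_lit 8875816) (nat_lit 31603) (nat_lit 1282132) (nat_lit 0) (nat_lit 0),Row.mk (nat_lit 21000) (nat_lit 24871) (nat_lit 8875816) (nat_lit 31416) (nat_lit 3370693) (nat_lit 0) (nat_lit 0),Row.mk (nat_lit 21168) (nat_lit 24684) (nat_lit 8875816) (nat_lit 31229) (nat_lit 5979255) (nat_lit 0) (nat_lit 0),Row.mk (nat_lit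 21336) (nat_lit 24497) (nat_lit 8875816) (nat_lit 31042) (nat_lit 9237287) (nat_lit 0) (nat_lit 0),Row.mk (nat_lit 21504) (nat_lit 24310) (nat_lit 8875816) (nat_lit 30855) (nat_lit 13306489) (nat_lit 0) (nat_lit 0),Row.mk (nat_lit 21672) (nat_lit 24123) (nat_lit 8875816) (nat_lit 30668) (nat_lit 18388825) (nat_lit 0) (nat_lit 0),Row.mk (nat_lit 21840) (nat_lit 23936) (nat_lit 8875816) (nat_lit 30481) (nat_lit 24736540) (nat_lit 0) (nat_lit 0),Row.mk (nat_lit 22008) (nat_lit 23749) (nat_lit 8875816) (nat_lit 30294) (nat_lit 32664683) (nat_lit 0) (nat_lit 0),Row.mk (nat_lit 22176) (nat_lit 23562) (nat_lit 8875816) (nat_lit 30107) (nat_lit 42566742) (nat_lit 0) (nat_lit 0),Row.mk (nat_lit 22344) (nat_lit 23375) (nat_lit 8875816) (nat_lit 29920) (nat_lit 54934175) (nat_lit 0) (nat_lit 0),Row.mk (nat_lit 22512) (nat_lit 23188) (nat_lit 8875816) (nat_lit 29733) (nat_lit 70380801) (nat_lit 0) (nat_lit 0),Row.mk (nat_lit 22680) (nat_lit 23001)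 (nat_lit 8875816) (nat_lit 29546) (nat_lit 89673264) (nat_lit 0) (nat_lit 0),Row.mk (nat_lit 22848) (nat_lit 22814) (nat_lit 8875816) (nat_lit 29359) (nat_lit 113769084) (nat_lit 0) (nat_lit 0),Row.mk (nat_lit 23016) (nat_lit 22627) (nat_lit 8875816) (nat_lit 29172) (nat_lit 143864183) (nat_lit 0) (nat_lit 0),Row.mk (nat_lit 23184) (nat_lit 22440) (nat_lit 8875816) (nat_lit 28985) (nat_lit 181452235) (nat_lit 0) (nat_lit 0),Row.mk (nat_lit 23352) (nat_lit 22253) (nat_lit 8875816) (nat_lit 28798) (nat_lit 228398806) (nat_lit 0) (nat_lit 0),Row.mk (nat_lit 23520) (nat_lit 22066) (nat_lit 8875816) (nat_lit 28611) (nat_lit 287033940) (nat_lit 0) (nat_lit 0),Row.mk (nat_lit 23688) (nat_lit 21879) (nat_lit 8875816) (nat_lit 28424) (nat_lit 360267807) (nat_lit 0) (nat_lit 0),Row.mk (nat_lit 23856) (nat_lit 21692) (nat_lit 8875816) (nat_lit 28237) (nat_lit 451735142) (nat_lit 0) (nat_lit 0),Row.mk (nat_lit 24024) (nat_lit 21505) (nat_lit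 8875816) (nat_lit 28050) (nat_lit 565975635) (nat_lit 0) (nat_lit 0),Row.mk (nat_lit 24192) (nat_lit 21318) (nat_lit 8875816) (nat_lit 27863) (nat_lit 708659256) (nat_lit 0) (nat_lit 0),Row.mk (nat_lit 24360) (nat_lit 21131) (nat_lit 8875816) (nat_lit 27676) (nat_lit 886867657) (nat_lit 0) (nat_lit 0),Row.mk (nat_lit 24528) (nat_lit 20944) (nat_lit 8875816) (nat_lit 27489) (nat_lit 1109445650) (nat_lit 0) (nat_lit 0),Row.mk (nat_lit 24696) (nat_lit 32912) (nat_lit 1769341) (nat_lit 62084) (nat_lit 1392777328) (nat_lit 0) (nat_lit 0),Row.mk (nat_lit 24864) (nat_lit 32912) (nat_lit 1769341) (nat_lit 62084) (nat_lit 1739985807) (nat_lit 0) (nat_lit 0),Row.mk (nat_lit 25032) (nat_lit 32912) (nat_lit 1769341) (nat_lit 62084) (nat_lit 2173640821) (nat_lit 0) (nat_lit 0),Row.mk (nat_lit 25200) (nat_lit 32912) (nat_lit 1769341) (nat_lit 62084) (nat_lit 2715265473) (nat_lit 0) (nat_lit 0),Row.mk (nat_lit 25368) (nat_lit 32912) (nat_lit 1769341)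 (nat_lit 62084) (nat_lit 3391741596) (nat_lit 0) (nat_lit 0),Row.mk (nat_lit 25536) (nat_lit 32912) (nat_lit 1769341) (nat_lit 62084) (nat_lit 4236643956) (nat_lit 0) (nat_lit 0),Row.mk (nat_lit 25704) (nat_lit 32912) (nat_lit 1769341) (nat_lit 62084) (nat_lit 5291906620) (nat_lit 0) (nat_lit 0),Row.mk (nat_lit 25872) (nat_lit 32912) (nat_lit 1769341) (nat_lit 62084) (nat_lit 6609904231) (nat_lit 0) (nat_lit 0),Row.mk (nat_lit 26040) (nat_lit 32912) (nat_lit 1769341) (nat_lit 62084) (nat_lit 8256051452) (nat_lit 0) (nat_lit 0),Row.mk (nat_lit 26208) (nat_lit 32912) (nat_lit 1769341) (nat_lit 62084) (nat_lit 10312049619) (nat_lit 0) (nat_lit 0)],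
[Row.mk (nat_lit 10584) (nat_lit 32912) (nat_lit 10) (nat_lit 61897) (nat_lit 2209853) (nat_lit 0) (nat_lit 0),Row.mk (nat_lit 10752) (nat_lit 32912) (nat_lit 13) (nat_lit 61897) (nat_lit 2209850) (nat_lit 0) (nat_lit 0),Row.mk (nat_lit 10920) (nat_lit 32912) (nat_lit 16) (nat_lit 61897) (nat_lit 2209847) (nat_lit 0) (nat_lit 0),Row.mk (nat_lit 11088) (nat_lit 32912) (nat_lit 21) (nat_lit 61897) (nat_lit 2209843) (nat_lit 0) (nat_lit 0),Row.mk (nat_lit 11256) (nat_lit 32912) (nat_lit 26) (nat_lit 61897) (nat_lit 2209837) (nat_lit 0) (nat_lit 0),Row.mk (nat_lit 11424) (nat_lit 32912) (nat_lit 32) (nat_lit 61897) (nat_lit 2209831) (nat_lit 0) (nat_lit 0),Row.mk (nat_lit 11592) (nat_lit 32912) (nat_lit 41) (nat_lit 61897) (nat_lit 2209823) (nat_lit 0) (nat_lit 0),Row.mk (nat_lit 11760) (nat_lit 32912) (nat_lit 51) (nat_lit 61897) (nat_lit 2209813) (nat_lit 0) (nat_lit 0),Row.mk (nat_lit 11928) (nat_lit 32912) (nat_lit 64) (nat_lit 61897)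 (nat_lit 2209800) (nat_lit 0) (nat_lit 0),Row.mk (nat_lit 12096) (nat_lit 32912) (nat_lit 79) (nat_lit 61897) (nat_lit 2209784) (nat_lit 0) (nat_lit 0),Row.mk (nat_lit 12264) (nat_lit 32912) (nat_lit 99) (nat_lit 61897) (nat_lit 2209764) (nat_lit 0) (nat_lit 0),Row.mk (nat_lit 12432) (nat_lit 32912) (nat_lit 124) (nat_lit 61897) (nat_lit 2209739) (nat_lit 0) (nat_lit 0),Row.mk (nat_lit 12600) (nat_lit 32912) (nat_lit 155) (nat_lit 61897) (nat_lit 2209708) (nat_lit 0) (nat_lit 0),Row.mk (nat_lit 12768) (nat_lit 32912) (nat_lit 194) (nat_lit 61897) (nat_lit 2209669) (nat_lit 0) (nat_lit 0),Row.mk (nat_lit 12936) (nat_lit 32912) (nat_lit 243) (nat_lit 61897) (nat_lit 2209621) (nat_lit 0) (nat_lit 0),Row.mk (nat_lit 13104) (nat_lit 32912) (nat_lit 303) (nat_lit 61897) (nat_lit 2209560) (nat_lit 0) (nat_lit 0),Row.mk (nat_lit 13272) (nat_lit 32912) (nat_lit 379) (nat_lit 61897) (nat_lit 2209485) (nat_lit 0) (nat_lit 0),Row.mk (nat_lit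 13440) (nat_lit 32912) (nat_lit 473) (nat_lit 61897) (nat_lit 2209390) (nat_lit 0) (nat_lit 0),Row.mk (nat_lit 13608) (nat_lit 32912) (nat_lit 591) (nat_lit 61897) (nat_lit 2209272) (nat_lit 0) (nat_lit 0),Row.mk (nat_lit 13776) (nat_lit 32912) (nat_lit 738) (nat_lit 61897) (nat_lit 2209125) (nat_lit 0) (nat_lit 0),Row.mk (nat_lit 13944) (nat_lit 32912) (nat_lit 922) (nat_lit 61897) (nat_lit 2208941) (nat_lit 0) (nat_lit 0),Row.mk (nat_lit 14112) (nat_lit 32912) (nat_lit 1152) (nat_lit 61897) (nat_lit 2208712) (nat_lit 0) (nat_lit 0),Row.mk (nat_lit 14280) (nat_lit 32912) (nat_lit 1439) (nat_lit 61897) (nat_lit 2208425) (nat_lit 0) (nat_lit 0),Row.mk (nat_lit 14448) (nat_lit 32912) (nat_lit 1797) (nat_lit 61897) (nat_lit 2208066) (nat_lit 0) (nat_lit 0),Row.mk (nat_lit 14616) (nat_lit 32912) (nat_lit 2244) (nat_lit 61897) (nat_lit 2207619) (nat_lit 0) (nat_lit 0),Row.mk (nat_lit 14784) (nat_lit 32912) (nat_lit 2803) (nat_lit 61897)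 (nat_lit 2207060) (nat_lit 0) (nat_lit 0),Row.mk (nat_lit 14952) (nat_lit 0) (nat_lit 17566) (nat_lit 748) (nat_lit 2195799) (nat_lit 0) (nat_lit 0),Row.mk (nat_lit 15120) (nat_lit 561) (nat_lit 21940) (nat_lit 1309) (nat_lit 2192297) (nat_lit 0) (nat_lit 0),Row.mk (nat_lit 15288) (nat_lit 1122) (nat_lit 27403) (nat_lit 1870) (nat_lit 2187923) (nat_lit 0) (nat_lit 0),Row.mk (nat_lit 15456) (nat_lit 1683) (nat_lit 34226) (nat_lit 2431) (nat_lit 2182460) (nat_lit 0) (nat_lit 0),Row.mk (nat_lit 15624) (nat_lit 2244) (nat_lit 42747) (nat_lit 2992) (nat_lit 2175638) (nat_lit 0) (nat_lit 0),Row.mk (nat_lit 15792) (nat_lit 2805) (nat_lit 53390) (nat_lit 3553) (nat_lit 2167116) (nat_lit 0) (nat_lit 0),Row.mk (nat_lit 15960) (nat_lit 3366) (nat_lit 66683) (nat_lit 4114) (nat_lit 2156473) (nat_lit 0) (nat_lit 0),Row.mk (nat_lit 16128) (nat_lit 3927) (nat_lit 83286) (nat_lit 4675) (nat_lit 2143180) (nat_lit 0) (nat_lit 0),Row.mk (nat_lit 16296)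 (nat_lit 4488) (nat_lit 104022) (nat_lit 5236) (nat_lit 2126578) (nat_lit 0) (nat_lit 0),Row.mk (nat_lit 16464) (nat_lit 5049) (nat_lit 129921) (nat_lit 5797) (nat_lit 2105841) (nat_lit 0) (nat_lit 0),Row.mk (nat_lit 16632) (nat_lit 5610) (nat_lit 162268) (nat_lit 6358) (nat_lit 2079942) (nat_lit 0) (nat_lit 0),Row.mk (nat_lit 16800) (nat_lit 6171) (nat_lit 202670) (nat_lit 6919) (nat_lit 2047595) (nat_lit 0) (nat_lit 0),Row.mk (nat_lit 16968) (nat_lit 6732) (nat_lit 253129) (nat_lit 7480) (nat_lit 2007194) (nat_lit 0) (nat_lit 0),Row.mk (nat_lit 17136) (nat_lit 7293) (nat_lit 316153) (nat_lit 8041) (nat_lit 1956734) (nat_lit 0) (nat_lit 0),Row.mk (nat_lit 17304) (nat_lit 7854) (nat_lit 394867) (nat_lit 8602) (nat_lit 1893711) (nat_lit 0) (nat_lit 0),Row.mk (nat_lit 17472) (nat_lit 8415) (nat_lit 493180) (nat_lit 9163) (nat_lit 1814996) (nat_lit 0) (nat_lit 0),Row.mk (nat_lit 17640) (nat_lit 8976) (nat_lit 615970) (nat_lit 9724) (nat_lit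 1716684) (nat_lit 0) (nat_lit 0),Row.mk (nat_lit 17808) (nat_lit 9537) (nat_lit 769331) (nat_lit 10285) (nat_lit 1593894) (nat_lit 0) (nat_lit 0),Row.mk (nat_lit 17976) (nat_lit 10098) (nat_lit 960877) (nat_lit 10846) (nat_lit 1440532) (nat_lit 0) (nat_lit 0),Row.mk (nat_lit 18144) (nat_lit 10659) (nat_lit 1200112) (nat_lit 11407) (nat_lit 1248987) (nat_lit 0) (nat_lit 0),Row.mk (nat_lit 18312) (nat_lit 11220) (nat_lit 1498911) (nat_lit 11968) (nat_lit 1009751) (nat_lit 0) (nat_lit 0),Row.mk (nat_lit 18480) (nat_lit 11781) (nat_lit 1872104) (nat_lit 12716) (nat_lit 710952) (nat_lit 0) (nat_lit 0),Row.mk (nat_lit 18648) (nat_lit 12529) (nat_lit 2338212) (nat_lit 13464) (nat_lit 337760) (nat_lit 0) (nat_lit 0),Row.mk (nat_lit 18816) (nat_lit 12342) (nat_lit 160304) (nat_lit 13277) (nat_lit 2631718) (nat_lit 0) (nat_lit 0),Row.mk (nat_lit 18984) (nat_lit 13090) (nat_lit 887406) (nat_lit 14025) (nat_lit 2049560) (nat_lit 0) (nat_lit 0),Row.mk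 (nat_lit 19152) (nat_lit 13838) (nat_lit 1795539) (nat_lit 15147) (nat_lit 1322458) (nat_lit 0) (nat_lit 0),Row.mk (nat_lit 19320) (nat_lit 14960) (nat_lit 2929775) (nat_lit 16456) (nat_lit 414325) (nat_lit 0) (nat_lit 0),Row.mk (nat_lit 19488) (nat_lit 14773) (nat_lit 899151) (nat_lit 16269) (nat_lit 2727346) (nat_lit 0) (nat_lit 0),Row.mk (nat_lit 19656) (nat_lit 16082) (nat_lit 2668492) (nat_lit 17765) (nat_lit 1310712) (nat_lit 0) (nat_lit 0),Row.mk (nat_lit 19824) (nat_lit 15895) (nat_lit 572815) (nat_lit 17578) (nat_lit 3846913) (nat_lit 0) (nat_lit 0),Row.mk (nat_lit 19992) (nat_lit 17391) (nat_lit 3332882) (nat_lit 19635) (nat_lit 1637048) (nat_lit 0) (nat_lit 0),Row.mk (nat_lit 20160) (nat_lit 17204) (nat_lit 1402622) (nat_lit 19448) (nat_lit 4254498) (nat_lit 0) (nat_lit 0),Row.mk (nat_lit 20328) (nat_lit 19261) (nat_lit 5708163) (nat_lit 25806) (nat_lit 807241) (nat_lit 0) (nat_lit 0),Row.mk (nat_lit 20496) (nat_lit 19074)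 (nat_lit 4369291) (nat_lit 25619) (nat_lit 3218089) (nat_lit 0) (nat_lit 0),Row.mk (nat_lit 20664) (nat_lit 18887) (nat_lit 2697073) (nat_lit 25432) (nat_lit 6229180) (nat_lit 0) (nat_lit 0),Row.mk (nat_lit 20832) (nat_lit 18700) (nat_lit 608512) (nat_lit 25245) (nat_lit 9989960) (nat_lit 0) (nat_lit 0),Row.mk (nat_lit 21000) (nat_lit 25058) (nat_lit 11085681) (nat_lit 31603) (nat_lit 1601352) (nat_lit 0) (nat_lit 0),Row.mk (nat_lit 21168) (nat_lit 24871) (nat_lit 11085681) (nat_lit 31416) (nat_lit 4209914) (nat_lit 0) (nat_lit 0),Row.mk (nat_lit 21336) (nat_lit 24684) (nat_lit 11085681) (nat_lit 31229) (nat_lit 7467945) (nat_lit 0) (nat_lit 0),Row.mk (nat_lit 21504) (nat_lit 24497) (nat_lit 11085681) (nat_lit 31042) (nat_lit 11537148) (nat_lit 0) (nat_lit 0),Row.mk (nat_lit 21672) (nat_lit 24310) (nat_lit 11085681) (nat_lit 30855) (nat_lit 16619484) (nat_lit 0) (nat_lit 0),Row.mk (nat_lit 21840) (nat_lit 24123) (nat_lit 11085681)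 (nat_lit 30668) (nat_lit 22967199) (nat_lit 0) (nat_lit 0),Row.mk (nat_lit 22008) (nat_lit 23936) (nat_lit 11085681) (nat_lit 30481) (nat_lit 30895342) (nat_lit 0) (nat_lit 0),Row.mk (nat_lit 22176) (nat_lit 23749) (nat_lit 11085681) (nat_lit 30294) (nat_lit 40797401) (nat_lit 0) (nat_lit 0),Row.mk (nat_lit 22344) (nat_lit 23562) (nat_lit 11085681) (nat_lit 30107) (nat_lit 53164834) (nat_lit 0) (nat_lit 0),Row.mk (nat_lit 22512) (nat_lit 23375) (nat_lit 11085681) (nat_lit 29920) (nat_lit 68611460) (nat_lit 0) (nat_lit 0),Row.mk (nat_lit 22680) (nat_lit 23188) (nat_lit 11085681) (nat_lit 29733) (nat_lit 87903923) (nat_lit 0) (nat_lit 0),Row.mk (nat_lit 22848) (nat_lit 23001) (nat_lit 11085681) (nat_lit 29546) (nat_lit 111999743) (nat_lit 0) (nat_lit 0),Row.mk (nat_lit 23016) (nat_lit 22814) (nat_lit 11085681) (nat_lit 29359) (nat_lit 142094842) (nat_lit 0) (nat_lit 0),Row.mk (nat_lit 23184) (nat_lit 22627) (nat_lit 11085681) (nat_lit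 29172) (nat_lit 179682894) (nat_lit 0) (nat_lit 0),Row.mk (nat_lit 23352) (nat_lit 22440) (nat_lit 11085681) (nat_lit 28985) (nat_lit 226629465) (nat_lit 0) (nat_lit 0),Row.mk (nat_lit 23520) (nat_lit 22253) (nat_lit 11085681) (nat_lit 28798) (nat_lit 285264599) (nat_lit 0) (nat_lit 0),Row.mk (nat_lit 23688) (nat_lit 22066) (nat_lit 11085681) (nat_lit 28611) (nat_lit 358498466) (nat_lit 0) (nat_lit 0),Row.mk (nat_lit 23856) (nat_lit 21879) (nat_lit 11085681) (nat_lit 28424) (nat_lit 449965800) (nat_lit 0) (nat_lit 0),Row.mk (nat_lit 24024) (nat_lit 21692) (nat_lit 11085681) (nat_lit 28237) (nat_lit 564206294) (nat_lit 0) (nat_lit 0),Row.mk (nat_lit 24192) (nat_lit 21505) (nat_lit 11085681) (nat_lit 28050) (nat_lit 706889915) (nat_lit 0) (nat_lit 0),Row.mk (nat_lit 24360) (nat_lit 21318) (nat_lit 11085681) (nat_lit 27863) (nat_lit 885098316) (nat_lit 0) (nat_lit 0),Row.mk (nat_lit 24528) (nat_lit 21131) (nat_lit 11085681) (nat_lit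 27676) (nat_lit 1107676309) (nat_lit 0) (nat_lit 0),Row.mk (nat_lit 24696) (nat_lit 20944) (nat_lit 11085681) (nat_lit 27489) (nat_lit 1385670852) (nat_lit 0) (nat_lit 0),Row.mk (nat_lit 24864) (nat_lit 32912) (nat_lit 2209864) (nat_lit 62084) (nat_lit 1739545284) (nat_lit 0) (nat_lit 0),Row.mk (nat_lit 25032) (nat_lit 32912) (nat_lit 2209864) (nat_lit 62084) (nat_lit 2173200298) (nat_lit 0) (nat_lit 0),Row.mk (nat_lit 25200) (nat_lit 32912) (nat_lit 2209864) (nat_lit 62084) (nat_lit 2714824950) (nat_lit 0) (nat_lit 0),Row.mk (nat_lit 25368) (nat_lit 32912) (nat_lit 2209864) (nat_lit 62084) (nat_lit 3391301073) (nat_lit 0) (nat_lit 0),Row.mk (nat_lit 25536) (nat_lit 32912) (nat_lit 2209864) (nat_lit 62084) (nat_lit 4236203432) (nat_lit 0) (nat_lit 0),Row.mk (nat_lit 25704) (nat_lit 32912) (nat_lit 2209864) (nat_lit 62084) (nat_lit 5291466097) (nat_lit 0) (nat_lit 0),Row.mk (nat_lit 25872) (nat_lit 32912) (nat_lit 2209864) (nat_lit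 62084) (nat_lit 6609463708) (nat_lit 0) (nat_lit 0),Row.mk (nat_lit 26040) (nat_lit 32912) (nat_lit 2209864) (nat_lit 62084) (nat_lit 8255610928) (nat_lit 0) (nat_lit 0),Row.mk (nat_lit 26208) (nat_lit 32912) (nat_lit 2209864) (nat_lit 62084) (nat_lit 10311609096) (nat_lit 0) (nat_lit 0)],
[Row.mk (nat_lit 10416) (nat_lit 32912) (nat_lit 8) (nat_lit 61897) (nat_lit 2760058) (nat_lit 0) (nat_lit 0),Row.mk (nat_lit 10584) (nat_lit 32912) (nat_lit 10) (nat_lit 61897) (nat_lit 2760056) (nat_lit 0) (nat_lit 0),Row.mk (nat_lit 10752) (nat_lit 32912) (nat_lit 13) (nat_lit 61897) (nat_lit 2760053) (nat_lit 0) (nat_lit 0),Row.mk (nat_lit 10920) (nat_lit 32912) (nat_lit 16) (nat_lit 61897) (nat_lit 2760050) (nat_lit 0) (nat_lit 0),Row.mk (nat_lit 11088) (nat_lit 32912) (nat_lit 21) (nat_lit 61897) (nat_lit 2760046) (nat_lit 0) (nat_lit 0),Row.mk (nat_lit 11256) (nat_lit 32912) (nat_lit 26) (nat_lit 61897) (nat_lit 2760040) (nat_lit 0) (nat_lit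 0),Row.mk (nat_lit 11424) (nat_lit 32912) (nat_lit 32) (nat_lit 61897) (nat_lit 2760034) (nat_lit 0) (nat_lit 0),Row.mk (nat_lit 11592) (nat_lit 32912) (nat_lit 41) (nat_lit 61897) (nat_lit 2760026) (nat_lit 0) (nat_lit 0),Row.mk (nat_lit 11760) (nat_lit 32912) (nat_lit 51) (nat_lit 61897) (nat_lit 2760015) (nat_lit 0) (nat_lit 0),Row.mk (nat_lit 11928) (nat_lit 32912) (nat_lit 64) (nat_lit 61897) (nat_lit 2760003) (nat_lit 0) (nat_lit 0),Row.mk (nat_lit 12096) (nat_lit 32912) (nat_lit 79) (nat_lit 61897) (nat_lit 2759987) (nat_lit 0) (nat_lit 0),Row.mk (nat_lit 12264) (nat_lit 32912) (nat_lit 99) (nat_lit 61897) (nat_lit 2759967) (nat_lit 0) (nat_lit 0),Row.mk (nat_lit 12432) (nat_lit 32912) (nat_lit 124) (nat_lit 61897) (nat_lit 2759942) (nat_lit 0) (nat_lit 0),Row.mk (nat_lit 12600) (nat_lit 32912) (nat_lit 155) (nat_lit 61897) (nat_lit 2759911) (nat_lit 0) (nat_lit 0),Row.mk (nat_lit 12768) (nat_lit 32912) (nat_lit 194) (nat_lit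 61897) (nat_lit 2759872) (nat_lit 0) (nat_lit 0),Row.mk (nat_lit 12936) (nat_lit 32912) (nat_lit 243) (nat_lit 61897) (nat_lit 2759824) (nat_lit 0) (nat_lit 0),Row.mk (nat_lit 13104) (nat_lit 32912) (nat_lit 303) (nat_lit 61897) (nat_lit 2759763) (nat_lit 0) (nat_lit 0),Row.mk (nat_lit 13272) (nat_lit 32912) (nat_lit 379) (nat_lit 61897) (nat_lit 2759688) (nat_lit 0) (nat_lit 0),Row.mk (nat_lit 13440) (nat_lit 32912) (nat_lit 473) (nat_lit 61897) (nat_lit 2759593) (nat_lit 0) (nat_lit 0),Row.mk (nat_lit 13608) (nat_lit 32912) (nat_lit 591) (nat_lit 61897) (nat_lit 2759475) (nat_lit 0) (nat_lit 0),Row.mk (nat_lit 13776) (nat_lit 32912) (nat_lit 738) (nat_lit 61897) (nat_lit 2759328) (nat_lit 0) (nat_lit 0),Row.mk (nat_lit 13944) (nat_lit 32912) (nat_lit 922) (nat_lit 61897) (nat_lit 2759144) (nat_lit 0) (nat_lit 0),Row.mk (nat_lit 14112) (nat_lit 32912) (nat_lit 1152) (nat_lit 61897) (nat_lit 2758914) (nat_lit 0) (nat_lit 0),Row.mk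 (nat_lit 14280) (nat_lit 32912) (nat_lit 1439) (nat_lit 61897) (nat_lit 2758628) (nat_lit 0) (nat_lit 0),Row.mk (nat_lit 14448) (nat_lit 32912) (nat_lit 1797) (nat_lit 61897) (nat_lit 2758269) (nat_lit 0) (nat_lit 0),Row.mk (nat_lit 14616) (nat_lit 32912) (nat_lit 2244) (nat_lit 61897) (nat_lit 2757822) (nat_lit 0) (nat_lit 0),Row.mk (nat_lit 14784) (nat_lit 32912) (nat_lit 2803) (nat_lit 61897) (nat_lit 2757263) (nat_lit 0) (nat_lit 0),Row.mk (nat_lit 14952) (nat_lit 32912) (nat_lit 3501) (nat_lit 61897) (nat_lit 2756565) (nat_lit 0) (nat_lit 0),Row.mk (nat_lit 15120) (nat_lit 0) (nat_lit 21940) (nat_lit 748) (nat_lit 2742500) (nat_lit 0) (nat_lit 0),Row.mk (nat_lit 15288) (nat_lit 561) (nat_lit 27403) (nat_lit 1309) (nat_lit 2738126) (nat_lit 0) (nat_lit 0),Row.mk (nat_lit 15456) (nat_lit 1122) (nat_lit 34226) (nat_lit 1870) (nat_lit 2732663) (nat_lit 0) (nat_lit 0),Row.mk (nat_lit 15624) (nat_lit 1683) (nat_lit 42747) (nat_lit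 2431) (nat_lit 2725841) (nat_lit 0) (nat_lit 0),Row.mk (nat_lit 15792) (nat_lit 2244) (nat_lit 53390) (nat_lit 2992) (nat_lit 2717319) (nat_lit 0) (nat_lit 0),Row.mk (nat_lit 15960) (nat_lit 2805) (nat_lit 66683) (nat_lit 3553) (nat_lit 2706676) (nat_lit 0) (nat_lit 0),Row.mk (nat_lit 16128) (nat_lit 3366) (nat_lit 83286) (nat_lit 4114) (nat_lit 2693383) (nat_lit 0) (nat_lit 0),Row.mk (nat_lit 16296) (nat_lit 3927) (nat_lit 104022) (nat_lit 4675) (nat_lit 2676780) (nat_lit 0) (nat_lit 0),Row.mk (nat_lit 16464) (nat_lit 4488) (nat_lit 129921) (nat_lit 5236) (nat_lit 2656044) (nat_lit 0) (nat_lit 0),Row.mk (nat_lit 16632) (nat_lit 5049) (nat_lit 162268) (nat_lit 5797) (nat_lit 2630145) (nat_lit 0) (nat_lit 0),Row.mk (nat_lit 16800) (nat_lit 5610) (nat_lit 202670) (nat_lit 6358) (nat_lit 2597798) (nat_lit 0) (nat_lit 0),Row.mk (nat_lit 16968) (nat_lit 6171) (nat_lit 253129) (nat_lit 6919) (nat_lit 2557397) (nat_lit 0) (nat_lit 0),Row.mk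 (nat_lit 17136) (nat_lit 6732) (nat_lit 316153) (nat_lit 7480) (nat_lit 2506937) (nat_lit 0) (nat_lit 0),Row.mk (nat_lit 17304) (nat_lit 7293) (nat_lit 394867) (nat_lit 8041) (nat_lit 2443913) (nat_lit 0) (nat_lit 0),Row.mk (nat_lit 17472) (nat_lit 7854) (nat_lit 493180) (nat_lit 8602) (nat_lit 2365199) (nat_lit 0) (nat_lit 0),Row.mk (nat_lit 17640) (nat_lit 8415) (nat_lit 615970) (nat_lit 9163) (nat_lit 2266886) (nat_lit 0) (nat_lit 0),Row.mk (nat_lit 17808) (nat_lit 8976) (nat_lit 769331) (nat_lit 9724) (nat_lit 2144096) (nat_lit 0) (nat_lit 0),Row.mk (nat_lit 17976) (nat_lit 9537) (nat_lit 960877) (nat_lit 10285) (nat_lit 1990735) (nat_lit 0) (nat_lit 0),Row.mk (nat_lit 18144) (nat_lit 10098) (nat_lit 1200112) (nat_lit 10846) (nat_lit 1799190) (nat_lit 0) (nat_lit 0),Row.mk (nat_lit 18312) (nat_lit 10659) (nat_lit 1498911) (nat_lit 11407) (nat_lit 1559954) (nat_lit 0) (nat_lit 0),Row.mk (nat_lit 18480) (nat_lit 11220) (nat_lit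 1872104) (nat_lit 11968) (nat_lit 1261155) (nat_lit 0) (nat_lit 0),Row.mk (nat_lit 18648) (nat_lit 11781) (nat_lit 2338212) (nat_lit 12716) (nat_lit 887963) (nat_lit 0) (nat_lit 0),Row.mk (nat_lit 18816) (nat_lit 12529) (nat_lit 2920371) (nat_lit 13464) (nat_lit 421854) (nat_lit 0) (nat_lit 0),Row.mk (nat_lit 18984) (nat_lit 12342) (nat_lit 200216) (nat_lit 13277) (nat_lit 3286953) (nat_lit 0) (nat_lit 0),Row.mk (nat_lit 19152) (nat_lit 13090) (nat_lit 1108348) (nat_lit 14025) (nat_lit 2559851) (nat_lit 0) (nat_lit 0),Row.mk (nat_lit 19320) (nat_lit 13838) (nat_lit 2242585) (nat_lit 15147) (nat_lit 1651718) (nat_lit 0) (nat_lit 0),Row.mk (nat_lit 19488) (nat_lit 14960) (nat_lit 3659218) (nat_lit 16456) (nat_lit 517482) (nat_lit 0) (nat_lit 0),Row.mk (nat_lit 19656) (nat_lit 14773) (nat_lit 1123018) (nat_lit 16269) (nat_lit 3406389) (nat_lit 0) (nat_lit 0),Row.mk (nat_lit 19824) (nat_lit 16082) (nat_lit 3332882) (nat_lit 17765) (nat_lit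 1637048) (nat_lit 0) (nat_lit 0),Row.mk (nat_lit 19992) (nat_lit 15895) (nat_lit 715432) (nat_lit 17578) (nat_lit 4804701) (nat_lit 0) (nat_lit 0),Row.mk (nat_lit 20160) (nat_lit 17391) (nat_lit 4162689) (nat_lit 19635) (nat_lit 2044634) (nat_lit 0) (nat_lit 0),Row.mk (nat_lit 20328) (nat_lit 17204) (nat_lit 1751842) (nat_lit 19448) (nat_lit 5313766) (nat_lit 0) (nat_lit 0),Row.mk (nat_lit 20496) (nat_lit 19261) (nat_lit 7129359) (nat_lit 25806) (nat_lit 1008225) (nat_lit 0) (nat_lit 0),Row.mk (nat_lit 20664) (nat_lit 19074) (nat_lit 5457140) (nat_lit 25619) (nat_lit 4019316) (nat_lit 0) (nat_lit 0),Row.mk (nat_lit 20832) (nat_lit 18887) (nat_lit 3368579) (nat_lit 25432) (nat_lit 7780095) (nat_lit 0) (nat_lit 0),Row.mk (nat_lit 21000) (nat_lit 18700) (nat_lit 760016) (nat_lit 25245) (nat_lit 12477219) (nat_lit 0) (nat_lit 0),Row.mk (nat_lit 21168) (nat_lit 25058) (nat_lit 13845748) (nat_lit 31603) (nat_lit 2000050) (nat_lit 0) (nat_lit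 0),Row.mk (nat_lit 21336) (nat_lit 24871) (nat_lit 13845748) (nat_lit 31416) (nat_lit 5258081) (nat_lit 0) (nat_lit 0),Row.mk (nat_lit 21504) (nat_lit 24684) (nat_lit 13845748) (nat_lit 31229) (nat_lit 9327284) (nat_lit 0) (nat_lit 0),Row.mk (nat_lit 21672) (nat_lit 24497) (nat_lit 13845748) (nat_lit 31042) (nat_lit 14409620) (nat_lit 0) (nat_lit 0),Row.mk (nat_lit 21840) (nat_lit 24310) (nat_lit 13845748) (nat_lit 30855) (nat_lit 20757335) (nat_lit 0) (nat_lit 0),Row.mk (nat_lit 22008) (nat_lit 24123) (nat_lit 13845748) (nat_lit 30668) (nat_lit 28685478) (nat_lit 0) (nat_lit 0),Row.mk (nat_lit 22176) (nat_lit 23936) (nat_lit 13845748) (nat_lit 30481) (nat_lit 38587537) (nat_lit 0) (nat_lit 0),Row.mk (nat_lit 22344) (nat_lit 23749) (nat_lit 13845748) (nat_lit 30294) (nat_lit 50954970) (nat_lit 0) (nat_lit 0),Row.mk (nat_lit 22512) (nat_lit 23562) (nat_lit 13845748) (nat_lit 30107) (nat_lit 66401596) (nat_lit 0) (nat_lit 0),Row.mk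 (nat_lit 22680) (nat_lit 23375) (nat_lit 13845748) (nat_lit 29920) (nat_lit 85694059) (nat_lit 0) (nat_lit 0),Row.mk (nat_lit 22848) (nat_lit 23188) (nat_lit 13845748) (nat_lit 29733) (nat_lit 109789879) (nat_lit 0) (nat_lit 0),Row.mk (nat_lit 23016) (nat_lit 23001) (nat_lit 13845748) (nat_lit 29546) (nat_lit 139884978) (nat_lit 0) (nat_lit 0),Row.mk (nat_lit 23184) (nat_lit 22814) (nat_lit 13845748) (nat_lit 29359) (nat_lit 177473030) (nat_lit 0) (nat_lit 0),Row.mk (nat_lit 23352) (nat_lit 22627) (nat_lit 13845748) (nat_lit 29172) (nat_lit 224419600) (nat_lit 0) (nat_lit 0),Row.mk (nat_lit 23520) (nat_lit 22440) (nat_lit 13845748) (nat_lit 28985) (nat_lit 283054734) (nat_lit 0) (nat_lit 0),Row.mk (nat_lit 23688) (nat_lit 22253) (nat_lit 13845748) (nat_lit 28798) (nat_lit 356288602) (nat_lit 0) (nat_lit 0),Row.mk (nat_lit 23856) (nat_lit 22066) (nat_lit 13845748) (nat_lit 28611) (nat_lit 447755936) (nat_lit 0) (nat_lit 0),Row.mk (nat_lit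 24024) (nat_lit 21879) (nat_lit 13845748) (nat_lit 28424) (nat_lit 561996430) (nat_lit 0) (nat_lit 0),Row.mk (nat_lit 24192) (nat_lit 21692) (nat_lit 13845748) (nat_lit 28237) (nat_lit 704680051) (nat_lit 0) (nat_lit 0),Row.mk (nat_lit 24360) (nat_lit 21505) (nat_lit 13845748) (nat_lit 28050) (nat_lit 882888451) (nat_lit 0) (nat_lit 0),Row.mk (nat_lit 24528) (nat_lit 21318) (nat_lit 13845748) (nat_lit 27863) (nat_lit 1105466444) (nat_lit 0) (nat_lit 0),Row.mk (nat_lit 24696) (nat_lit 21131) (nat_lit 13845748) (nat_lit 27676) (nat_lit 1383460988) (nat_lit 0) (nat_lit 0),Row.mk (nat_lit 24864) (nat_lit 20944) (nat_lit 13845748) (nat_lit 27489) (nat_lit 1730669467) (nat_lit 0) (nat_lit 0),Row.mk (nat_lit 25032) (nat_lit 32912) (nat_lit 2760067) (nat_lit 62084) (nat_lit 2172650095) (nat_lit 0) (nat_lit 0),Row.mk (nat_lit 25200) (nat_lit 32912) (nat_lit 2760067) (nat_lit 62084) (nat_lit 2714274747) (nat_lit 0) (nat_lit 0),Row.mk (nat_lit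 25368) (nat_lit 32912) (nat_lit 2760067) (nat_lit 62084) (nat_lit 3390750870) (nat_lit 0) (nat_lit 0),Row.mk (nat_lit 25536) (nat_lit 32912) (nat_lit 2760067) (nat_lit 62084) (nat_lit 4235653230) (nat_lit 0) (nat_lit 0),Row.mk (nat_lit 25704) (nat_lit 32912) (nat_lit 2760067) (nat_lit 62084) (nat_lit 5290915894) (nat_lit 0) (nat_lit 0),Row.mk (nat_lit 25872) (nat_lit 32912) (nat_lit 2760067) (nat_lit 62084) (nat_lit 6608913505) (nat_lit 0) (nat_lit 0),Row.mk (nat_lit 26040) (nat_lit 32912) (nat_lit 2760067) (nat_lit 62084) (nat_lit 8255060725) (nat_lit 0) (nat_lit 0),Row.mk (nat_lit 26208) (nat_lit 32912) (nat_lit 2760067) (nat_lit 62084) (nat_lit 10311058893) (nat_lit 0) (nat_lit 0)],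
[Row.mk (nat_lit 10248) (nat_lit 32912) (nat_lit 6) (nat_lit 61897) (nat_lit 3447250) (nat_lit 0) (nat_lit 0),Row.mk (nat_lit 10416) (nat_lit 32912) (nat_lit 8) (nat_lit 61897) (nat_lit 3447248) (nat_lit 0) (nat_lit 0),Row.mk (nat_lit 10584) (nat_lit 32912) (nat_lit 10) (nat_lit 61897) (nat_lit 3447246) (nat_lit 0) (nat_lit 0),Row.mk (nat_lit 10752) (nat_lit 32912) (nat_lit 13) (nat_lit 61897) (nat_lit 3447243) (nat_lit 0) (nat_lit 0),Row.mk (nat_lit 10920) (nat_lit 32912) (nat_lit 16) (nat_lit 61897) (nat_lit 3447240) (nat_lit 0) (nat_lit 0),Row.mk (nat_lit 11088) (nat_lit 32912) (nat_lit 21) (nat_lit 61897) (nat_lit 3447236) (nat_lit 0) (nat_lit 0),Row.mk (nat_lit 11256) (nat_lit 32912) (nat_lit 26) (nat_lit 61897) (nat_lit 3447230) (nat_lit 0) (nat_lit 0),Row.mk (nat_lit 11424) (nat_lit 32912) (nat_lit 32) (nat_lit 61897) (nat_lit 3447224) (nat_lit 0) (nat_lit 0),Row.mk (nat_lit 11592) (nat_lit 32912) (nat_lit 41) (nat_lit 61897)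 (nat_lit 3447216) (nat_lit 0) (nat_lit 0),Row.mk (nat_lit 11760) (nat_lit 32912) (nat_lit 51) (nat_lit 61897) (nat_lit 3447206) (nat_lit 0) (nat_lit 0),Row.mk (nat_lit 11928) (nat_lit 32912) (nat_lit 64) (nat_lit 61897) (nat_lit 3447193) (nat_lit 0) (nat_lit 0),Row.mk (nat_lit 12096) (nat_lit 32912) (nat_lit 79) (nat_lit 61897) (nat_lit 3447177) (nat_lit 0) (nat_lit 0),Row.mk (nat_lit 12264) (nat_lit 32912) (nat_lit 99) (nat_lit 61897) (nat_lit 3447157) (nat_lit 0) (nat_lit 0),Row.mk (nat_lit 12432) (nat_lit 32912) (nat_lit 124) (nat_lit 61897) (nat_lit 3447132) (nat_lit 0) (nat_lit 0),Row.mk (nat_lit 12600) (nat_lit 32912) (nat_lit 155) (nat_lit 61897) (nat_lit 3447101) (nat_lit 0) (nat_lit 0),Row.mk (nat_lit 12768) (nat_lit 32912) (nat_lit 194) (nat_lit 61897) (nat_lit 3447062) (nat_lit 0) (nat_lit 0),Row.mk (nat_lit 12936) (nat_lit 32912) (nat_lit 243) (nat_lit 61897) (nat_lit 3447014) (nat_lit 0) (nat_lit 0),Row.mk (nat_lit 13104)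 (nat_lit 32912) (nat_lit 303) (nat_lit 61897) (nat_lit 3446953) (nat_lit 0) (nat_lit 0),Row.mk (nat_lit 13272) (nat_lit 32912) (nat_lit 379) (nat_lit 61897) (nat_lit 3446878) (nat_lit 0) (nat_lit 0),Row.mk (nat_lit 13440) (nat_lit 32912) (nat_lit 473) (nat_lit 61897) (nat_lit 3446783) (nat_lit 0) (nat_lit 0),Row.mk (nat_lit 13608) (nat_lit 32912) (nat_lit 591) (nat_lit 61897) (nat_lit 3446665) (nat_lit 0) (nat_lit 0),Row.mk (nat_lit 13776) (nat_lit 32912) (nat_lit 738) (nat_lit 61897) (nat_lit 3446518) (nat_lit 0) (nat_lit 0),Row.mk (nat_lit 13944) (nat_lit 32912) (nat_lit 922) (nat_lit 61897) (nat_lit 3446334) (nat_lit 0) (nat_lit 0),Row.mk (nat_lit 14112) (nat_lit 32912) (nat_lit 1152) (nat_lit 61897) (nat_lit 3446105) (nat_lit 0) (nat_lit 0),Row.mk (nat_lit 14280) (nat_lit 32912) (nat_lit 1439) (nat_lit 61897) (nat_lit 3445818) (nat_lit 0) (nat_lit 0),Row.mk (nat_lit 14448) (nat_lit 32912) (nat_lit 1797) (nat_lit 61897) (nat_lit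 3445459) (nat_lit 0) (nat_lit 0),Row.mk (nat_lit 14616) (nat_lit 32912) (nat_lit 2244) (nat_lit 61897) (nat_lit 3445012) (nat_lit 0) (nat_lit 0),Row.mk (nat_lit 14784) (nat_lit 32912) (nat_lit 2803) (nat_lit 61897) (nat_lit 3444453) (nat_lit 0) (nat_lit 0),Row.mk (nat_lit 14952) (nat_lit 32912) (nat_lit 3501) (nat_lit 61897) (nat_lit 3443755) (nat_lit 0) (nat_lit 0),Row.mk (nat_lit 15120) (nat_lit 32912) (nat_lit 4373) (nat_lit 61897) (nat_lit 3442883) (nat_lit 0) (nat_lit 0),Row.mk (nat_lit 15288) (nat_lit 0) (nat_lit 27403) (nat_lit 748) (nat_lit 3425316) (nat_lit 0) (nat_lit 0),Row.mk (nat_lit 15456) (nat_lit 561) (nat_lit 34226) (nat_lit 1309) (nat_lit 3419853) (nat_lit 0) (nat_lit 0),Row.mk (nat_lit 15624) (nat_lit 1122) (nat_lit 42747) (nat_lit 1870) (nat_lit 3413031) (nat_lit 0) (nat_lit 0),Row.mk (nat_lit 15792) (nat_lit 1683) (nat_lit 53390) (nat_lit 2431) (nat_lit 3404509) (nat_lit 0) (nat_lit 0),Row.mk (nat_lit 15960) (nat_lit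 2244) (nat_lit 66683) (nat_lit 2992) (nat_lit 3393866) (nat_lit 0) (nat_lit 0),Row.mk (nat_lit 16128) (nat_lit 2805) (nat_lit 83286) (nat_lit 3553) (nat_lit 3380573) (nat_lit 0) (nat_lit 0),Row.mk (nat_lit 16296) (nat_lit 3366) (nat_lit 104022) (nat_lit 4114) (nat_lit 3363971) (nat_lit 0) (nat_lit 0),Row.mk (nat_lit 16464) (nat_lit 3927) (nat_lit 129921) (nat_lit 4675) (nat_lit 3343234) (nat_lit 0) (nat_lit 0),Row.mk (nat_lit 16632) (nat_lit 4488) (nat_lit 162268) (nat_lit 5236) (nat_lit 3317335) (nat_lit 0) (nat_lit 0),Row.mk (nat_lit 16800) (nat_lit 5049) (nat_lit 202670) (nat_lit 5797) (nat_lit 3284988) (nat_lit 0) (nat_lit 0),Row.mk (nat_lit 16968) (nat_lit 5610) (nat_lit 253129) (nat_lit 6358) (nat_lit 3244587) (nat_lit 0) (nat_lit 0),Row.mk (nat_lit 17136) (nat_lit 6171) (nat_lit 316153) (nat_lit 6919) (nat_lit 3194127) (nat_lit 0) (nat_lit 0),Row.mk (nat_lit 17304) (nat_lit 6732) (nat_lit 394867) (nat_lit 7480) (nat_lit 3131104)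 (nat_lit 0) (nat_lit 0),Row.mk (nat_lit 17472) (nat_lit 7293) (nat_lit 493180) (nat_lit 8041) (nat_lit 3052389) (nat_lit 0) (nat_lit 0),Row.mk (nat_lit 17640) (nat_lit 7854) (nat_lit 615970) (nat_lit 8602) (nat_lit 2954077) (nat_lit 0) (nat_lit 0),Row.mk (nat_lit 17808) (nat_lit 8415) (nat_lit 769331) (nat_lit 9163) (nat_lit 2831287) (nat_lit 0) (nat_lit 0),Row.mk (nat_lit 17976) (nat_lit 8976) (nat_lit 960877) (nat_lit 9724) (nat_lit 2677925) (nat_lit 0) (nat_lit 0),Row.mk (nat_lit 18144) (nat_lit 9537) (nat_lit 1200112) (nat_lit 10285) (nat_lit 2486380) (nat_lit 0) (nat_lit 0),Row.mk (nat_lit 18312) (nat_lit 10098) (nat_lit 1498911) (nat_lit 10846) (nat_lit 2247145) (nat_lit 0) (nat_lit 0),Row.mk (nat_lit 18480) (nat_lit 10659) (nat_lit 1872104) (nat_lit 11407) (nat_lit 1948346) (nat_lit 0) (nat_lit 0),Row.mk (nat_lit 18648) (nat_lit 11220) (nat_lit 2338212) (nat_lit 11968) (nat_lit 1575153) (nat_lit 0) (nat_lit 0),Row.mk (nat_lit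 18816) (nat_lit 11781) (nat_lit 2920371) (nat_lit 12716) (nat_lit 1109044) (nat_lit 0) (nat_lit 0),Row.mk (nat_lit 18984) (nat_lit 12529) (nat_lit 3647473) (nat_lit 13464) (nat_lit 526885) (nat_lit 0) (nat_lit 0),Row.mk (nat_lit 19152) (nat_lit 12342) (nat_lit 250065) (nat_lit 13277) (nat_lit 4105325) (nat_lit 0) (nat_lit 0),Row.mk (nat_lit 19320) (nat_lit 13090) (nat_lit 1384301) (nat_lit 14025) (nat_lit 3197192) (nat_lit 0) (nat_lit 0),Row.mk (nat_lit 19488) (nat_lit 13838) (nat_lit 2800934) (nat_lit 15147) (nat_lit 2062956) (nat_lit 0) (nat_lit 0),Row.mk (nat_lit 19656) (nat_lit 14960) (nat_lit 4570275) (nat_lit 16456) (nat_lit 646322) (nat_lit 0) (nat_lit 0),Row.mk (nat_lit 19824) (nat_lit 14773) (nat_lit 1402622) (nat_lit 16269) (nat_lit 4254498) (nat_lit 0) (nat_lit 0),Row.mk (nat_lit 19992) (nat_lit 16082) (nat_lit 4162689) (nat_lit 17765) (nat_lit 2044634) (nat_lit 0) (nat_lit 0),Row.mk (nat_lit 20160) (nat_lit 15895) (nat_lit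 893558) (nat_lit 17578) (nat_lit 6000956) (nat_lit 0) (nat_lit 0),Row.mk (nat_lit 20328) (nat_lit 17391) (nat_lit 5199099) (nat_lit 19635) (nat_lit 2553699) (nat_lit 0) (nat_lit 0),Row.mk (nat_lit 20496) (nat_lit 17204) (nat_lit 2188008) (nat_lit 19448) (nat_lit 6636765) (nat_lit 0) (nat_lit 0),Row.mk (nat_lit 20664) (nat_lit 19261) (nat_lit 8904397) (nat_lit 25806) (nat_lit 1259248) (nat_lit 0) (nat_lit 0),Row.mk (nat_lit 20832) (nat_lit 19074) (nat_lit 6815836) (nat_lit 25619) (nat_lit 5020028) (nat_lit 0) (nat_lit 0),Row.mk (nat_lit 21000) (nat_lit 18887) (nat_lit 4207274) (nat_lit 25432) (nat_lit 9717152) (nat_lit 0) (nat_lit 0),Row.mk (nat_lit 21168) (nat_lit 18700) (nat_lit 949242) (nat_lit 25245) (nat_lit 15583745) (nat_lit 0) (nat_lit 0),Row.mk (nat_lit 21336) (nat_lit 25058) (nat_lit 17293005) (nat_lit 31603) (nat_lit 2498014) (nat_lit 0) (nat_lit 0),Row.mk (nat_lit 21504) (nat_lit 24871) (nat_lit 17293005) (nat_lit 31416)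 (nat_lit 6567217) (nat_lit 0) (nat_lit 0),Row.mk (nat_lit 21672) (nat_lit 24684) (nat_lit 17293005) (nat_lit 31229) (nat_lit 11649553) (nat_lit 0) (nat_lit 0),Row.mk (nat_lit 21840) (nat_lit 24497) (nat_lit 17293005) (nat_lit 31042) (nat_lit 17997268) (nat_lit 0) (nat_lit 0),Row.mk (nat_lit 22008) (nat_lit 24310) (nat_lit 17293005) (nat_lit 30855) (nat_lit 25925411) (nat_lit 0) (nat_lit 0),Row.mk (nat_lit 22176) (nat_lit 24123) (nat_lit 17293005) (nat_lit 30668) (nat_lit 35827470) (nat_lit 0) (nat_lit 0),Row.mk (nat_lit 22344) (nat_lit 23936) (nat_lit 17293005) (nat_lit 30481) (nat_lit 48194903) (nat_lit 0) (nat_lit 0),Row.mk (nat_lit 22512) (nat_lit 23749) (nat_lit 17293005) (nat_lit 30294) (nat_lit 63641529) (nat_lit 0) (nat_lit 0),Row.mk (nat_lit 22680) (nat_lit 23562) (nat_lit 17293005) (nat_lit 30107) (nat_lit 82933991) (nat_lit 0) (nat_lit 0),Row.mk (nat_lit 22848) (nat_lit 23375) (nat_lit 17293005) (nat_lit 29920) (nat_lit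 107029812) (nat_lit 0) (nat_lit 0),Row.mk (nat_lit 23016) (nat_lit 23188) (nat_lit 17293005) (nat_lit 29733) (nat_lit 137124911) (nat_lit 0) (nat_lit 0),Row.mk (nat_lit 23184) (nat_lit 23001) (nat_lit 17293005) (nat_lit 29546) (nat_lit 174712963) (nat_lit 0) (nat_lit 0),Row.mk (nat_lit 23352) (nat_lit 22814) (nat_lit 17293005) (nat_lit 29359) (nat_lit 221659533) (nat_lit 0) (nat_lit 0),Row.mk (nat_lit 23520) (nat_lit 22627) (nat_lit 17293005) (nat_lit 29172) (nat_lit 280294667) (nat_lit 0) (nat_lit 0),Row.mk (nat_lit 23688) (nat_lit 22440) (nat_lit 17293005) (nat_lit 28985) (nat_lit 353528535) (nat_lit 0) (nat_lit 0),Row.mk (nat_lit 23856) (nat_lit 22253) (nat_lit 17293005) (nat_lit 28798) (nat_lit 444995869) (nat_lit 0) (nat_lit 0),Row.mk (nat_lit 24024) (nat_lit 22066) (nat_lit 17293005) (nat_lit 28611) (nat_lit 559236363) (nat_lit 0) (nat_lit 0),Row.mk (nat_lit 24192) (nat_lit 21879) (nat_lit 17293005) (nat_lit 28424) (nat_lit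 701919984) (nat_lit 0) (nat_lit 0),Row.mk (nat_lit 24360) (nat_lit 21692) (nat_lit 17293005) (nat_lit 28237) (nat_lit 880128384) (nat_lit 0) (nat_lit 0),Row.mk (nat_lit 24528) (nat_lit 21505) (nat_lit 17293005) (nat_lit 28050) (nat_lit 1102706377) (nat_lit 0) (nat_lit 0),Row.mk (nat_lit 24696) (nat_lit 21318) (nat_lit 17293005) (nat_lit 27863) (nat_lit 1380700921) (nat_lit 0) (nat_lit 0),Row.mk (nat_lit 24864) (nat_lit 21131) (nat_lit 17293005) (nat_lit 27676) (nat_lit 1727909400) (nat_lit 0) (nat_lit 0),Row.mk (nat_lit 25032) (nat_lit 20944) (nat_lit 17293005) (nat_lit 27489) (nat_lit 2161564414) (nat_lit 0) (nat_lit 0),Row.mk (nat_lit 25200) (nat_lit 32912) (nat_lit 3447257) (nat_lit 62084) (nat_lit 2713587557) (nat_lit 0) (nat_lit 0),Row.mk (nat_lit 25368) (nat_lit 32912) (nat_lit 3447257) (nat_lit 62084) (nat_lit 3390063680) (nat_lit 0) (nat_lit 0),Row.mk (nat_lit 25536) (nat_lit 32912) (nat_lit 3447257) (nat_lit 62084) (nat_lit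 4234966039) (nat_lit 0) (nat_lit 0),Row.mk (nat_lit 25704) (nat_lit 32912) (nat_lit 3447257) (nat_lit 62084) (nat_lit 5290228704) (nat_lit 0) (nat_lit 0),Row.mk (nat_lit 25872) (nat_lit 32912) (nat_lit 3447257) (nat_lit 62084) (nat_lit 6608226315) (nat_lit 0) (nat_lit 0),Row.mk (nat_lit 26040) (nat_lit 32912) (nat_lit 3447257) (nat_lit 62084) (nat_lit 8254373535) (nat_lit 0) (nat_lit 0),Row.mk (nat_lit 26208) (nat_lit 32912) (nat_lit 3447257) (nat_lit 62084) (nat_lit 10310371703) (nat_lit 0) (nat_lit 0)],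
[Row.mk (nat_lit 10080) (nat_lit 32912) (nat_lit 5) (nat_lit 61897) (nat_lit 4305535) (nat_lit 0) (nat_lit 0),Row.mk (nat_lit 10248) (nat_lit 32912) (nat_lit 6) (nat_lit 61897) (nat_lit 4305534) (nat_lit 0) (nat_lit 0),Row.mk (nat_lit 10416) (nat_lit 32912) (nat_lit 8) (nat_lit 61897) (nat_lit 4305532) (nat_lit 0) (nat_lit 0),Row.mk (nat_lit 10584) (nat_lit 32912) (nat_lit 10) (nat_lit 61897) (nat_lit 4305530) (nat_lit 0) (nat_lit 0),Row.mk (nat_lit 10752) (nat_lit 32912) (nat_lit 13) (nat_lit 61897) (nat_lit 4305527) (nat_lit 0) (nat_lit 0),Row.mk (nat_lit 10920) (nat_lit 32912) (nat_lit 16) (nat_lit 61897) (nat_lit 4305524) (nat_lit 0) (nat_lit 0),Row.mk (nat_lit 11088) (nat_lit 32912) (nat_lit 21) (nat_lit 61897) (nat_lit 4305520) (nat_lit 0) (nat_lit 0),Row.mk (nat_lit 11256) (nat_lit 32912) (nat_lit 26) (nat_lit 61897) (nat_lit 4305514) (nat_lit 0) (nat_lit 0),Row.mk (nat_lit 11424) (nat_lit 32912) (nat_lit 32) (nat_lit 61897)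 (nat_lit 4305508) (nat_lit 0) (nat_lit 0),Row.mk (nat_lit 11592) (nat_lit 32912) (nat_lit 41) (nat_lit 61897) (nat_lit 4305500) (nat_lit 0) (nat_lit 0),Row.mk (nat_lit 11760) (nat_lit 32912) (nat_lit 51) (nat_lit 61897) (nat_lit 4305489) (nat_lit 0) (nat_lit 0),Row.mk (nat_lit 11928) (nat_lit 32912) (nat_lit 64) (nat_lit 61897) (nat_lit 4305477) (nat_lit 0) (nat_lit 0),Row.mk (nat_lit 12096) (nat_lit 32912) (nat_lit 79) (nat_lit 61897) (nat_lit 4305461) (nat_lit 0) (nat_lit 0),Row.mk (nat_lit 12264) (nat_lit 32912) (nat_lit 99) (nat_lit 61897) (nat_lit 4305441) (nat_lit 0) (nat_lit 0),Row.mk (nat_lit 12432) (nat_lit 32912) (nat_lit 124) (nat_lit 61897) (nat_lit 4305416) (nat_lit 0) (nat_lit 0),Row.mk (nat_lit 12600) (nat_lit 32912) (nat_lit 155) (nat_lit 61897) (nat_lit 4305385) (nat_lit 0) (nat_lit 0),Row.mk (nat_lit 12768) (nat_lit 32912) (nat_lit 194) (nat_lit 61897) (nat_lit 4305346) (nat_lit 0) (nat_lit 0),Row.mk (nat_lit 12936)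 (nat_lit 32912) (nat_lit 243) (nat_lit 61897) (nat_lit 4305298) (nat_lit 0) (nat_lit 0),Row.mk (nat_lit 13104) (nat_lit 32912) (nat_lit 303) (nat_lit 61897) (nat_lit 4305237) (nat_lit 0) (nat_lit 0),Row.mk (nat_lit 13272) (nat_lit 32912) (nat_lit 379) (nat_lit 61897) (nat_lit 4305162) (nat_lit 0) (nat_lit 0),Row.mk (nat_lit 13440) (nat_lit 32912) (nat_lit 473) (nat_lit 61897) (nat_lit 4305067) (nat_lit 0) (nat_lit 0),Row.mk (nat_lit 13608) (nat_lit 32912) (nat_lit 591) (nat_lit 61897) (nat_lit 4304949) (nat_lit 0) (nat_lit 0),Row.mk (nat_lit 13776) (nat_lit 32912) (nat_lit 738) (nat_lit 61897) (nat_lit 4304802) (nat_lit 0) (nat_lit 0),Row.mk (nat_lit 13944) (nat_lit 32912) (nat_lit 922) (nat_lit 61897) (nat_lit 4304618) (nat_lit 0) (nat_lit 0),Row.mk (nat_lit 14112) (nat_lit 32912) (nat_lit 1152) (nat_lit 61897) (nat_lit 4304389) (nat_lit 0) (nat_lit 0),Row.mk (nat_lit 14280) (nat_lit 32912) (nat_lit 1439) (nat_lit 61897) (nat_lit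 4304102) (nat_lit 0) (nat_lit 0),Row.mk (nat_lit 14448) (nat_lit 32912) (nat_lit 1797) (nat_lit 61897) (nat_lit 4303743) (nat_lit 0) (nat_lit 0),Row.mk (nat_lit 14616) (nat_lit 32912) (nat_lit 2244) (nat_lit 61897) (nat_lit 4303296) (nat_lit 0) (nat_lit 0),Row.mk (nat_lit 14784) (nat_lit 32912) (nat_lit 2803) (nat_lit 61897) (nat_lit 4302737) (nat_lit 0) (nat_lit 0),Row.mk (nat_lit 14952) (nat_lit 32912) (nat_lit 3501) (nat_lit 61897) (nat_lit 4302039) (nat_lit 0) (nat_lit 0),Row.mk (nat_lit 15120) (nat_lit 32912) (nat_lit 4373) (nat_lit 61897) (nat_lit 4301167) (nat_lit 0) (nat_lit 0),Row.mk (nat_lit 15288) (nat_lit 32912) (nat_lit 5462) (nat_lit 61897) (nat_lit 4300078) (nat_lit 0) (nat_lit 0),Row.mk (nat_lit 15456) (nat_lit 0) (nat_lit 34226) (nat_lit 748) (nat_lit 4278137) (nat_lit 0) (nat_lit 0),Row.mk (nat_lit 15624) (nat_lit 561) (nat_lit 42747) (nat_lit 1309) (nat_lit 4271315) (nat_lit 0) (nat_lit 0),Row.mk (nat_lit 15792)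 (nat_lit 1122) (nat_lit 53390) (nat_lit 1870) (nat_lit 4262793) (nat_lit 0) (nat_lit 0),Row.mk (nat_lit 15960) (nat_lit 1683) (nat_lit 66683) (nat_lit 2431) (nat_lit 4252150) (nat_lit 0) (nat_lit 0),Row.mk (nat_lit 16128) (nat_lit 2244) (nat_lit 83286) (nat_lit 2992) (nat_lit 4238857) (nat_lit 0) (nat_lit 0),Row.mk (nat_lit 16296) (nat_lit 2805) (nat_lit 104022) (nat_lit 3553) (nat_lit 4222254) (nat_lit 0) (nat_lit 0),Row.mk (nat_lit 16464) (nat_lit 3366) (nat_lit 129921) (nat_lit 4114) (nat_lit 4201518) (nat_lit 0) (nat_lit 0),Row.mk (nat_lit 16632) (nat_lit 3927) (nat_lit 162268) (nat_lit 4675) (nat_lit 4175619) (nat_lit 0) (nat_lit 0),Row.mk (nat_lit 16800) (nat_lit 4488) (nat_lit 202670) (nat_lit 5236) (nat_lit 4143272) (nat_lit 0) (nat_lit 0),Row.mk (nat_lit 16968) (nat_lit 5049) (nat_lit 253129) (nat_lit 5797) (nat_lit 4102871) (nat_lit 0) (nat_lit 0),Row.mk (nat_lit 17136) (nat_lit 5610) (nat_lit 316153) (nat_lit 6358) (nat_lit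 4052411) (nat_lit 0) (nat_lit 0),Row.mk (nat_lit 17304) (nat_lit 6171) (nat_lit 394867) (nat_lit 6919) (nat_lit 3989388) (nat_lit 0) (nat_lit 0),Row.mk (nat_lit 17472) (nat_lit 6732) (nat_lit 493180) (nat_lit 7480) (nat_lit 3910673) (nat_lit 0) (nat_lit 0),Row.mk (nat_lit 17640) (nat_lit 7293) (nat_lit 615970) (nat_lit 8041) (nat_lit 3812360) (nat_lit 0) (nat_lit 0),Row.mk (nat_lit 17808) (nat_lit 7854) (nat_lit 769331) (nat_lit 8602) (nat_lit 3689570) (nat_lit 0) (nat_lit 0),Row.mk (nat_lit 17976) (nat_lit 8415) (nat_lit 960877) (nat_lit 9163) (nat_lit 3536209) (nat_lit 0) (nat_lit 0),Row.mk (nat_lit 18144) (nat_lit 8976) (nat_lit 1200112) (nat_lit 9724) (nat_lit 3344664) (nat_lit 0) (nat_lit 0),Row.mk (nat_lit 18312) (nat_lit 9537) (nat_lit 1498911) (nat_lit 10285) (nat_lit 3105428) (nat_lit 0) (nat_lit 0),Row.mk (nat_lit 18480) (nat_lit 10098) (nat_lit 1872104) (nat_lit 10846) (nat_lit 2806629) (nat_lit 0) (nat_lit 0),Row.mk (nat_lit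 18648) (nat_lit 10659) (nat_lit 2338212) (nat_lit 11407) (nat_lit 2433437) (nat_lit 0) (nat_lit 0),Row.mk (nat_lit 18816) (nat_lit 11220) (nat_lit 2920371) (nat_lit 11968) (nat_lit 1967328) (nat_lit 0) (nat_lit 0),Row.mk (nat_lit 18984) (nat_lit 11781) (nat_lit 3647473) (nat_lit 12716) (nat_lit 1385169) (nat_lit 0) (nat_lit 0),Row.mk (nat_lit 19152) (nat_lit 12529) (nat_lit 4555606) (nat_lit 13464) (nat_lit 658067) (nat_lit 0) (nat_lit 0),Row.mk (nat_lit 19320) (nat_lit 12342) (nat_lit 312325) (nat_lit 13277) (nat_lit 5127452) (nat_lit 0) (nat_lit 0),Row.mk (nat_lit 19488) (nat_lit 13090) (nat_lit 1728958) (nat_lit 14025) (nat_lit 3993216) (nat_lit 0) (nat_lit 0),Row.mk (nat_lit 19656) (nat_lit 13838) (nat_lit 3498299) (nat_lit 15147) (nat_lit 2576582) (nat_lit 0) (nat_lit 0),Row.mk (nat_lit 19824) (nat_lit 14960) (nat_lit 5708163) (nat_lit 16456) (nat_lit 807241) (nat_lit 0) (nat_lit 0),Row.mk (nat_lit 19992) (nat_lit 14773) (nat_lit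 1751842) (nat_lit 16269) (nat_lit 5313766) (nat_lit 0) (nat_lit 0),Row.mk (nat_lit 20160) (nat_lit 16082) (nat_lit 5199099) (nat_lit 17765) (nat_lit 2553699) (nat_lit 0) (nat_lit 0),Row.mk (nat_lit 20328) (nat_lit 15895) (nat_lit 1116032) (nat_lit 17578) (nat_lit 7495049) (nat_lit 0) (nat_lit 0),Row.mk (nat_lit 20496) (nat_lit 17391) (nat_lit 6493549) (nat_lit 19635) (nat_lit 3189508) (nat_lit 0) (nat_lit 0),Row.mk (nat_lit 20664) (nat_lit 17204) (nat_lit 2732769) (nat_lit 19448) (nat_lit 8289160) (nat_lit 0) (nat_lit 0),Row.mk (nat_lit 20832) (nat_lit 19261) (nat_lit 11121377) (nat_lit 25806) (nat_lit 1572771) (nat_lit 0) (nat_lit 0),Row.mk (nat_lit 21000) (nat_lit 19074) (nat_lit 8512815) (nat_lit 25619) (nat_lit 6269894) (nat_lit 0) (nat_lit 0),Row.mk (nat_lit 21168) (nat_lit 18887) (nat_lit 5254783) (nat_lit 25432) (nat_lit 12136488) (nat_lit 0) (nat_lit 0),Row.mk (nat_lit 21336) (nat_lit 18700) (nat_lit 1185581) (nat_lit 25245)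 (nat_lit 19463722) (nat_lit 0) (nat_lit 0),Row.mk (nat_lit 21504) (nat_lit 25058) (nat_lit 21598546) (nat_lit 31603) (nat_lit 3119959) (nat_lit 0) (nat_lit 0),Row.mk (nat_lit 21672) (nat_lit 24871) (nat_lit 21598546) (nat_lit 31416) (nat_lit 8202295) (nat_lit 0) (nat_lit 0),Row.mk (nat_lit 21840) (nat_lit 24684) (nat_lit 21598546) (nat_lit 31229) (nat_lit 14550010) (nat_lit 0) (nat_lit 0),Row.mk (nat_lit 22008) (nat_lit 24497) (nat_lit 21598546) (nat_lit 31042) (nat_lit 22478153) (nat_lit 0) (nat_lit 0),Row.mk (nat_lit 22176) (nat_lit 24310) (nat_lit 21598546) (nat_lit 30855) (nat_lit 32380213) (nat_lit 0) (nat_lit 0),Row.mk (nat_lit 22344) (nat_lit 24123) (nat_lit 21598546) (nat_lit 30668) (nat_lit 44747646) (nat_lit 0) (nat_lit 0),Row.mk (nat_lit 22512) (nat_lit 23936) (nat_lit 21598546) (nat_lit 30481) (nat_lit 60194271) (nat_lit 0) (nat_lit 0),Row.mk (nat_lit 22680) (nat_lit 23749) (nat_lit 21598546) (nat_lit 30294) (nat_lit 79486734)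 (nat_lit 0) (nat_lit 0),Row.mk (nat_lit 22848) (nat_lit 23562) (nat_lit 21598546) (nat_lit 30107) (nat_lit 103582555) (nat_lit 0) (nat_lit 0),Row.mk (nat_lit 23016) (nat_lit 23375) (nat_lit 21598546) (nat_lit 29920) (nat_lit 133677653) (nat_lit 0) (nat_lit 0),Row.mk (nat_lit 23184) (nat_lit 23188) (nat_lit 21598546) (nat_lit 29733) (nat_lit 171265705) (nat_lit 0) (nat_lit 0),Row.mk (nat_lit 23352) (nat_lit 23001) (nat_lit 21598546) (nat_lit 29546) (nat_lit 218212276) (nat_lit 0) (nat_lit 0),Row.mk (nat_lit 23520) (nat_lit 22814) (nat_lit 21598546) (nat_lit 29359) (nat_lit 276847410) (nat_lit 0) (nat_lit 0),Row.mk (nat_lit 23688) (nat_lit 22627) (nat_lit 21598546) (nat_lit 29172) (nat_lit 350081278) (nat_lit 0) (nat_lit 0),Row.mk (nat_lit 23856) (nat_lit 22440) (nat_lit 21598546) (nat_lit 28985) (nat_lit 441548612) (nat_lit 0) (nat_lit 0),Row.mk (nat_lit 24024) (nat_lit 22253) (nat_lit 21598546) (nat_lit 28798) (nat_lit 555789106)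 (nat_lit 0) (nat_lit 0),Row.mk (nat_lit 24192) (nat_lit 22066) (nat_lit 21598546) (nat_lit 28611) (nat_lit 698472726) (nat_lit 0) (nat_lit 0),Row.mk (nat_lit 24360) (nat_lit 21879) (nat_lit 21598546) (nat_lit 28424) (nat_lit 876681127) (nat_lit 0) (nat_lit 0),Row.mk (nat_lit 24528) (nat_lit 21692) (nat_lit 21598546) (nat_lit 28237) (nat_lit 1099259120) (nat_lit 0) (nat_lit 0),Row.mk (nat_lit 24696) (nat_lit 21505) (nat_lit 21598546) (nat_lit 28050) (nat_lit 1377253664) (nat_lit 0) (nat_lit 0),Row.mk (nat_lit 24864) (nat_lit 21318) (nat_lit 21598546) (nat_lit 27863) (nat_lit 1724462143) (nat_lit 0) (nat_lit 0),Row.mk (nat_lit 25032) (nat_lit 21131) (nat_lit 21598546) (nat_lit 27676) (nat_lit 2158117157) (nat_lit 0) (nat_lit 0),Row.mk (nat_lit 25200) (nat_lit 20944) (nat_lit 21598546) (nat_lit 27489) (nat_lit 2699741808) (nat_lit 0) (nat_lit 0),Row.mk (nat_lit 25368) (nat_lit 32912) (nat_lit 4305541) (nat_lit 62084) (nat_lit 3389205396)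 (nat_lit 0) (nat_lit 0),Row.mk (nat_lit 25536) (nat_lit 32912) (nat_lit 4305541) (nat_lit 62084) (nat_lit 4234107755) (nat_lit 0) (nat_lit 0),Row.mk (nat_lit 25704) (nat_lit 32912) (nat_lit 4305541) (nat_lit 62084) (nat_lit 5289370420) (nat_lit 0) (nat_lit 0),Row.mk (nat_lit 25872) (nat_lit 32912) (nat_lit 4305541) (nat_lit 62084) (nat_lit 6607368031) (nat_lit 0) (nat_lit 0),Row.mk (nat_lit 26040) (nat_lit 32912) (nat_lit 4305541) (nat_lit 62084) (nat_lit 8253515251) (nat_lit 0) (nat_lit 0),Row.mk (nat_lit 26208) (nat_lit 32912) (nat_lit 4305541) (nat_lit 62084) (nat_lit 10309513419) (nat_lit 0) (nat_lit 0),Row.mk (nat_lit 26376) (nat_lit 32912) (nat_lit 4305541) (nat_lit 62084) (nat_lit 12877405531) (nat_lit 0) (nat_lit 0)],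
[Row.mk (nat_lit 9072) (nat_lit 32912) (nat_lit 1) (nat_lit 61897) (nat_lit 5377515) (nat_lit 0) (nat_lit 0),Row.mk (nat_lit 9240) (nat_lit 32912) (nat_lit 1) (nat_lit 61897) (nat_lit 5377515) (nat_lit 0) (nat_lit 0),Row.mk (nat_lit 9408) (nat_lit 32912) (nat_lit 2) (nat_lit 61897) (nat_lit 5377514) (nat_lit 0) (nat_lit 0),Row.mk (nat_lit 9576) (nat_lit 32912) (nat_lit 2) (nat_lit 61897) (nat_lit 5377514) (nat_lit 0) (nat_lit 0),Row.mk (nat_lit 9744) (nat_lit 32912) (nat_lit 3) (nat_lit 61897) (nat_lit 5377513) (nat_lit 0) (nat_lit 0),Row.mk (nat_lit 9912) (nat_lit 32912) (nat_lit 4) (nat_lit 61897) (nat_lit 5377512) (nat_lit 0) (nat_lit 0),Row.mk (nat_lit 10080) (nat_lit 32912) (nat_lit 5) (nat_lit 61897) (nat_lit 5377511) (nat_lit 0) (nat_lit 0),Row.mk (nat_lit 10248) (nat_lit 32912) (nat_lit 6) (nat_lit 61897) (nat_lit 5377510) (nat_lit 0) (nat_lit 0),Row.mk (nat_lit 10416) (nat_lit 32912) (nat_lit 8) (nat_lit 61897) (nat_lit 5377508)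 (nat_lit 0) (nat_lit 0),Row.mk (nat_lit 10584) (nat_lit 32912) (nat_lit 10) (nat_lit 61897) (nat_lit 5377506) (nat_lit 0) (nat_lit 0),Row.mk (nat_lit 10752) (nat_lit 32912) (nat_lit 13) (nat_lit 61897) (nat_lit 5377503) (nat_lit 0) (nat_lit 0),Row.mk (nat_lit 10920) (nat_lit 32912) (nat_lit 16) (nat_lit 61897) (nat_lit 5377500) (nat_lit 0) (nat_lit 0),Row.mk (nat_lit 11088) (nat_lit 32912) (nat_lit 21) (nat_lit 61897) (nat_lit 5377496) (nat_lit 0) (nat_lit 0),Row.mk (nat_lit 11256) (nat_lit 32912) (nat_lit 26) (nat_lit 61897) (nat_lit 5377490) (nat_lit 0) (nat_lit 0),Row.mk (nat_lit 11424) (nat_lit 32912) (nat_lit 32) (nat_lit 61897) (nat_lit 5377484) (nat_lit 0) (nat_lit 0),Row.mk (nat_lit 11592) (nat_lit 32912) (nat_lit 41) (nat_lit 61897) (nat_lit 5377476) (nat_lit 0) (nat_lit 0),Row.mk (nat_lit 11760) (nat_lit 32912) (nat_lit 51) (nat_lit 61897) (nat_lit 5377465) (nat_lit 0) (nat_lit 0),Row.mk (nat_lit 11928) (nat_lit 32912) (nat_lit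 64) (nat_lit 61897) (nat_lit 5377453) (nat_lit 0) (nat_lit 0),Row.mk (nat_lit 12096) (nat_lit 32912) (nat_lit 79) (nat_lit 61897) (nat_lit 5377437) (nat_lit 0) (nat_lit 0),Row.mk (nat_lit 12264) (nat_lit 32912) (nat_lit 99) (nat_lit 61897) (nat_lit 5377417) (nat_lit 0) (nat_lit 0),Row.mk (nat_lit 12432) (nat_lit 32912) (nat_lit 124) (nat_lit 61897) (nat_lit 5377392) (nat_lit 0) (nat_lit 0),Row.mk (nat_lit 12600) (nat_lit 32912) (nat_lit 155) (nat_lit 61897) (nat_lit 5377361) (nat_lit 0) (nat_lit 0),Row.mk (nat_lit 12768) (nat_lit 32912) (nat_lit 194) (nat_lit 61897) (nat_lit 5377322) (nat_lit 0) (nat_lit 0),Row.mk (nat_lit 12936) (nat_lit 32912) (nat_lit 243) (nat_lit 61897) (nat_lit 5377274) (nat_lit 0) (nat_lit 0),Row.mk (nat_lit 13104) (nat_lit 32912) (nat_lit 303) (nat_lit 61897) (nat_lit 5377213) (nat_lit 0) (nat_lit 0),Row.mk (nat_lit 13272) (nat_lit 32912) (nat_lit 379) (nat_lit 61897) (nat_lit 5377137) (nat_lit 0) (nat_lit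 0),Row.mk (nat_lit 13440) (nat_lit 32912) (nat_lit 473) (nat_lit 61897) (nat_lit 5377043) (nat_lit 0) (nat_lit 0),Row.mk (nat_lit 13608) (nat_lit 32912) (nat_lit 591) (nat_lit 61897) (nat_lit 5376925) (nat_lit 0) (nat_lit 0),Row.mk (nat_lit 13776) (nat_lit 32912) (nat_lit 738) (nat_lit 61897) (nat_lit 5376778) (nat_lit 0) (nat_lit 0),Row.mk (nat_lit 13944) (nat_lit 32912) (nat_lit 922) (nat_lit 61897) (nat_lit 5376594) (nat_lit 0) (nat_lit 0),Row.mk (nat_lit 14112) (nat_lit 32912) (nat_lit 1152) (nat_lit 61897) (nat_lit 5376364) (nat_lit 0) (nat_lit 0),Row.mk (nat_lit 14280) (nat_lit 32912) (nat_lit 1439) (nat_lit 61897) (nat_lit 5376078) (nat_lit 0) (nat_lit 0),Row.mk (nat_lit 14448) (nat_lit 32912) (nat_lit 1797) (nat_lit 61897) (nat_lit 5375719) (nat_lit 0) (nat_lit 0),Row.mk (nat_lit 14616) (nat_lit 32912) (nat_lit 2244) (nat_lit 61897) (nat_lit 5375272) (nat_lit 0) (nat_lit 0),Row.mk (nat_lit 14784) (nat_lit 32912) (nat_lit 2803)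 (nat_lit 61897) (nat_lit 5374713) (nat_lit 0) (nat_lit 0),Row.mk (nat_lit 14952) (nat_lit 32912) (nat_lit 3501) (nat_lit 61897) (nat_lit 5374015) (nat_lit 0) (nat_lit 0),Row.mk (nat_lit 15120) (nat_lit 32912) (nat_lit 4373) (nat_lit 61897) (nat_lit 5373143) (nat_lit 0) (nat_lit 0),Row.mk (nat_lit 15288) (nat_lit 32912) (nat_lit 5462) (nat_lit 61897) (nat_lit 5372054) (nat_lit 0) (nat_lit 0),Row.mk (nat_lit 15456) (nat_lit 32912) (nat_lit 6822) (nat_lit 61897) (nat_lit 5370694) (nat_lit 0) (nat_lit 0),Row.mk (nat_lit 15624) (nat_lit 0) (nat_lit 42747) (nat_lit 748) (nat_lit 5343291) (nat_lit 0) (nat_lit 0),Row.mk (nat_lit 15792) (nat_lit 561) (nat_lit 53390) (nat_lit 1309) (nat_lit 5334769) (nat_lit 0) (nat_lit 0),Row.mk (nat_lit 15960) (nat_lit 1122) (nat_lit 66683) (nat_lit 1870) (nat_lit 5324126) (nat_lit 0) (nat_lit 0),Row.mk (nat_lit 16128) (nat_lit 1683) (nat_lit 83286) (nat_lit 2431) (nat_lit 5310833) (nat_lit 0) (nat_lit 0),Row.mk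 (nat_lit 16296) (nat_lit 2244) (nat_lit 104022) (nat_lit 2992) (nat_lit 5294230) (nat_lit 0) (nat_lit 0),Row.mk (nat_lit 16464) (nat_lit 2805) (nat_lit 129921) (nat_lit 3553) (nat_lit 5273494) (nat_lit 0) (nat_lit 0),Row.mk (nat_lit 16632) (nat_lit 3366) (nat_lit 162268) (nat_lit 4114) (nat_lit 5247595) (nat_lit 0) (nat_lit 0),Row.mk (nat_lit 16800) (nat_lit 3927) (nat_lit 202670) (nat_lit 4675) (nat_lit 5215248) (nat_lit 0) (nat_lit 0),Row.mk (nat_lit 16968) (nat_lit 4488) (nat_lit 253129) (nat_lit 5236) (nat_lit 5174847) (nat_lit 0) (nat_lit 0),Row.mk (nat_lit 17136) (nat_lit 5049) (nat_lit 316153) (nat_lit 5797) (nat_lit 5124387) (nat_lit 0) (nat_lit 0),Row.mk (nat_lit 17304) (nat_lit 5610) (nat_lit 394867) (nat_lit 6358) (nat_lit 5061363) (nat_lit 0) (nat_lit 0),Row.mk (nat_lit 17472) (nat_lit 6171) (nat_lit 493180) (nat_lit 6919) (nat_lit 4982649) (nat_lit 0) (nat_lit 0),Row.mk (nat_lit 17640) (nat_lit 6732) (nat_lit 615970)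 (nat_lit 7480) (nat_lit 4884336) (nat_lit 0) (nat_lit 0),Row.mk (nat_lit 17808) (nat_lit 7293) (nat_lit 769331) (nat_lit 8041) (nat_lit 4761546) (nat_lit 0) (nat_lit 0),Row.mk (nat_lit 17976) (nat_lit 7854) (nat_lit 960877) (nat_lit 8602) (nat_lit 4608185) (nat_lit 0) (nat_lit 0),Row.mk (nat_lit 18144) (nat_lit 8415) (nat_lit 1200112) (nat_lit 9163) (nat_lit 4416640) (nat_lit 0) (nat_lit 0),Row.mk (nat_lit 18312) (nat_lit 8976) (nat_lit 1498911) (nat_lit 9724) (nat_lit 4177404) (nat_lit 0) (nat_lit 0),Row.mk (nat_lit 18480) (nat_lit 9537) (nat_lit 1872104) (nat_lit 10285) (nat_lit 3878605) (nat_lit 0) (nat_lit 0),Row.mk (nat_lit 18648) (nat_lit 10098) (nat_lit 2338212) (nat_lit 10846) (nat_lit 3505413) (nat_lit 0) (nat_lit 0),Row.mk (nat_lit 18816) (nat_lit 10659) (nat_lit 2920371) (nat_lit 11407) (nat_lit 3039304) (nat_lit 0) (nat_lit 0),Row.mk (nat_lit 18984) (nat_lit 11220) (nat_lit 3647473) (nat_lit 11968) (nat_lit 2457145) (nat_lit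 0) (nat_lit 0),Row.mk (nat_lit 19152) (nat_lit 11781) (nat_lit 4555606) (nat_lit 12716) (nat_lit 1730043) (nat_lit 0) (nat_lit 0),Row.mk (nat_lit 19320) (nat_lit 12529) (nat_lit 5689842) (nat_lit 13464) (nat_lit 821910) (nat_lit 0) (nat_lit 0),Row.mk (nat_lit 19488) (nat_lit 12342) (nat_lit 390086) (nat_lit 13277) (nat_lit 6404063) (nat_lit 0) (nat_lit 0),Row.mk (nat_lit 19656) (nat_lit 13090) (nat_lit 2159427) (nat_lit 14025) (nat_lit 4987430) (nat_lit 0) (nat_lit 0),Row.mk (nat_lit 19824) (nat_lit 13838) (nat_lit 4369291) (nat_lit 15147) (nat_lit 3218089) (nat_lit 0) (nat_lit 0),Row.mk (nat_lit 19992) (nat_lit 14960) (nat_lit 7129359) (nat_lit 16456) (nat_lit 1008225) (nat_lit 0) (nat_lit 0),Row.mk (nat_lit 20160) (nat_lit 14773) (nat_lit 2188008) (nat_lit 16269) (nat_lit 6636765) (nat_lit 0) (nat_lit 0),Row.mk (nat_lit 20328) (nat_lit 16082) (nat_lit 6493549) (nat_lit 17765) (nat_lit 3189508) (nat_lit 0) (nat_lit 0),Row.mk (nat_lit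 20496) (nat_lit 15895) (nat_lit 1393897) (nat_lit 17578) (nat_lit 9361136) (nat_lit 0) (nat_lit 0),Row.mk (nat_lit 20664) (nat_lit 17391) (nat_lit 8110286) (nat_lit 19635) (nat_lit 3983619) (nat_lit 0) (nat_lit 0),Row.mk (nat_lit 20832) (nat_lit 17204) (nat_lit 3413163) (nat_lit 19448) (nat_lit 10352961) (nat_lit 0) (nat_lit 0),Row.mk (nat_lit 21000) (nat_lit 19261) (nat_lit 13890332) (nat_lit 25806) (nat_lit 1964353) (nat_lit 0) (nat_lit 0),Row.mk (nat_lit 21168) (nat_lit 19074) (nat_lit 10632301) (nat_lit 25619) (nat_lit 7830947) (nat_lit 0) (nat_lit 0),Row.mk (nat_lit 21336) (nat_lit 18887) (nat_lit 6563098) (nat_lit 25432) (nat_lit 15158181) (nat_lit 0) (nat_lit 0),Row.mk (nat_lit 21504) (nat_lit 18700) (nat_lit 1480762) (nat_lit 25245) (nat_lit 24309720) (nat_lit 0) (nat_lit 0),Row.mk (nat_lit 21672) (nat_lit 25058) (nat_lit 26976063) (nat_lit 31603) (nat_lit 3896754) (nat_lit 0) (nat_lit 0),Row.mk (nat_lit 21840) (nat_lit 24871)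 (nat_lit 26976063) (nat_lit 31416) (nat_lit 10244469) (nat_lit 0) (nat_lit 0),Row.mk (nat_lit 22008) (nat_lit 24684) (nat_lit 26976063) (nat_lit 31229) (nat_lit 18172612) (nat_lit 0) (nat_lit 0),Row.mk (nat_lit 22176) (nat_lit 24497) (nat_lit 26976063) (nat_lit 31042) (nat_lit 28074671) (nat_lit 0) (nat_lit 0),Row.mk (nat_lit 22344) (nat_lit 24310) (nat_lit 26976063) (nat_lit 30855) (nat_lit 40442104) (nat_lit 0) (nat_lit 0),Row.mk (nat_lit 22512) (nat_lit 24123) (nat_lit 26976063) (nat_lit 30668) (nat_lit 55888730) (nat_lit 0) (nat_lit 0),Row.mk (nat_lit 22680) (nat_lit 23936) (nat_lit 26976063) (nat_lit 30481) (nat_lit 75181193) (nat_lit 0) (nat_lit 0),Row.mk (nat_lit 22848) (nat_lit 23749) (nat_lit 26976063) (nat_lit 30294) (nat_lit 99277013) (nat_lit 0) (nat_lit 0),Row.mk (nat_lit 23016) (nat_lit 23562) (nat_lit 26976063) (nat_lit 30107) (nat_lit 129372112) (nat_lit 0) (nat_lit 0),Row.mk (nat_lit 23184) (nat_lit 23375) (nat_lit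 26976063) (nat_lit 29920) (nat_lit 166960164) (nat_lit 0) (nat_lit 0),Row.mk (nat_lit 23352) (nat_lit 23188) (nat_lit 26976063) (nat_lit 29733) (nat_lit 213906735) (nat_lit 0) (nat_lit 0),Row.mk (nat_lit 23520) (nat_lit 23001) (nat_lit 26976063) (nat_lit 29546) (nat_lit 272541869) (nat_lit 0) (nat_lit 0),Row.mk (nat_lit 23688) (nat_lit 22814) (nat_lit 26976063) (nat_lit 29359) (nat_lit 345775736) (nat_lit 0) (nat_lit 0),Row.mk (nat_lit 23856) (nat_lit 22627) (nat_lit 26976063) (nat_lit 29172) (nat_lit 437243071) (nat_lit 0) (nat_lit 0),Row.mk (nat_lit 24024) (nat_lit 22440) (nat_lit 26976063) (nat_lit 28985) (nat_lit 551483564) (nat_lit 0) (nat_lit 0),Row.mk (nat_lit 24192) (nat_lit 22253) (nat_lit 26976063) (nat_lit 28798) (nat_lit 694167185) (nat_lit 0) (nat_lit 0),Row.mk (nat_lit 24360) (nat_lit 22066) (nat_lit 26976063) (nat_lit 28611) (nat_lit 872375586) (nat_lit 0) (nat_lit 0),Row.mk (nat_lit 24528) (nat_lit 21879) (nat_lit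 26976063) (nat_lit 28424) (nat_lit 1094953579) (nat_lit 0) (nat_lit 0),Row.mk (nat_lit 24696) (nat_lit 21692) (nat_lit 26976063) (nat_lit 28237) (nat_lit 1372948123) (nat_lit 0) (nat_lit 0),Row.mk (nat_lit 24864) (nat_lit 21505) (nat_lit 26976063) (nat_lit 28050) (nat_lit 1720156602) (nat_lit 0) (nat_lit 0),Row.mk (nat_lit 25032) (nat_lit 21318) (nat_lit 26976063) (nat_lit 27863) (nat_lit 2153811616) (nat_lit 0) (nat_lit 0),Row.mk (nat_lit 25200) (nat_lit 21131) (nat_lit 26976063) (nat_lit 27676) (nat_lit 2695436267) (nat_lit 0) (nat_lit 0),Row.mk (nat_lit 25368) (nat_lit 20944) (nat_lit 26976063) (nat_lit 27489) (nat_lit 3371912391) (nat_lit 0) (nat_lit 0),Row.mk (nat_lit 25536) (nat_lit 32912) (nat_lit 5377517) (nat_lit 62084) (nat_lit 4233035780) (nat_lit 0) (nat_lit 0),Row.mk (nat_lit 25704) (nat_lit 32912) (nat_lit 5377517) (nat_lit 62084) (nat_lit 5288298444) (nat_lit 0) (nat_lit 0),Row.mk (nat_lit 25872) (nat_lit 32912) (nat_lit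 5377517) (nat_lit 62084) (nat_lit 6606296055) (nat_lit 0) (nat_lit 0),Row.mk (nat_lit 26040) (nat_lit 32912) (nat_lit 5377517) (nat_lit 62084) (nat_lit 8252443276) (nat_lit 0) (nat_lit 0),Row.mk (nat_lit 26208) (nat_lit 32912) (nat_lit 5377517) (nat_lit 62084) (nat_lit 10308441443) (nat_lit 0) (nat_lit 0),Row.mk (nat_lit 26376) (nat_lit 32912) (nat_lit 5377517) (nat_lit 62084) (nat_lit 12876333556) (nat_lit 0) (nat_lit 0)],
[Row.mk (nat_lit 6720) (nat_lit 61897) (nat_lit 6716389) (nat_lit 0) (nat_lit 0) (nat_lit 0) (nat_lit 0),Row.mk (nat_lit 6888) (nat_lit 61897) (nat_lit 6716389) (nat_lit 0) (nat_lit 0) (nat_lit 0) (nat_lit 0),Row.mk (nat_lit 7056) (nat_lit 61897) (nat_lit 6716389) (nat_lit 0) (nat_lit 0) (nat_lit 0) (nat_lit 0),Row.mk (nat_lit 7224) (nat_lit 61897) (nat_lit 6716389) (nat_lit 0) (nat_lit 0) (nat_lit 0) (nat_lit 0),Row.mk (nat_lit 7392) (nat_lit 61897) (nat_lit 6716388) (nat_lit 0) (nat_lit 0) (nat_lit 0) (nat_lit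 0),Row.mk (nat_lit 7560) (nat_lit 61897) (nat_lit 6716388) (nat_lit 0) (nat_lit 0) (nat_lit 0) (nat_lit 0),Row.mk (nat_lit 7728) (nat_lit 61897) (nat_lit 6716388) (nat_lit 0) (nat_lit 0) (nat_lit 0) (nat_lit 0),Row.mk (nat_lit 7896) (nat_lit 61897) (nat_lit 6716388) (nat_lit 0) (nat_lit 0) (nat_lit 0) (nat_lit 0),Row.mk (nat_lit 8064) (nat_lit 61897) (nat_lit 6716388) (nat_lit 0) (nat_lit 0) (nat_lit 0) (nat_lit 0),Row.mk (nat_lit 8232) (nat_lit 61897) (nat_lit 6716388) (nat_lit 0) (nat_lit 0) (nat_lit 0) (nat_lit 0),Row.mk (nat_lit 8400) (nat_lit 61897) (nat_lit 6716388) (nat_lit 0) (nat_lit 0) (nat_lit 0) (nat_lit 0),Row.mk (nat_lit 8568) (nat_lit 61897) (nat_lit 6716388) (nat_lit 0) (nat_lit 0) (nat_lit 0) (nat_lit 0),Row.mk (nat_lit 8736) (nat_lit 61897) (nat_lit 6716388) (nat_lit 0) (nat_lit 0) (nat_lit 0) (nat_lit 0),Row.mk (nat_lit 8904) (nat_lit 32912) (nat_lit 1) (nat_lit 61897) (nat_lit 6716387) (nat_lit 0) (nat_lit 0),Row.mk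 (nat_lit 9072) (nat_lit 32912) (nat_lit 1) (nat_lit 61897) (nat_lit 6716387) (nat_lit 0) (nat_lit 0),Row.mk (nat_lit 9240) (nat_lit 32912) (nat_lit 1) (nat_lit 61897) (nat_lit 6716387) (nat_lit 0) (nat_lit 0),Row.mk (nat_lit 9408) (nat_lit 32912) (nat_lit 2) (nat_lit 61897) (nat_lit 6716386) (nat_lit 0) (nat_lit 0),Row.mk (nat_lit 9576) (nat_lit 32912) (nat_lit 2) (nat_lit 61897) (nat_lit 6716386) (nat_lit 0) (nat_lit 0),Row.mk (nat_lit 9744) (nat_lit 32912) (nat_lit 3) (nat_lit 61897) (nat_lit 6716385) (nat_lit 0) (nat_lit 0),Row.mk (nat_lit 9912) (nat_lit 32912) (nat_lit 4) (nat_lit 61897) (nat_lit 6716384) (nat_lit 0) (nat_lit 0),Row.mk (nat_lit 10080) (nat_lit 32912) (nat_lit 5) (nat_lit 61897) (nat_lit 6716383) (nat_lit 0) (nat_lit 0),Row.mk (nat_lit 10248) (nat_lit 32912) (nat_lit 6) (nat_lit 61897) (nat_lit 6716382) (nat_lit 0) (nat_lit 0),Row.mk (nat_lit 10416) (nat_lit 32912) (nat_lit 8) (nat_lit 61897) (nat_lit 6716380)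 (nat_lit 0) (nat_lit 0),Row.mk (nat_lit 10584) (nat_lit 32912) (nat_lit 10) (nat_lit 61897) (nat_lit 6716378) (nat_lit 0) (nat_lit 0),Row.mk (nat_lit 10752) (nat_lit 32912) (nat_lit 13) (nat_lit 61897) (nat_lit 6716375) (nat_lit 0) (nat_lit 0),Row.mk (nat_lit 10920) (nat_lit 32912) (nat_lit 16) (nat_lit 61897) (nat_lit 6716372) (nat_lit 0) (nat_lit 0),Row.mk (nat_lit 11088) (nat_lit 32912) (nat_lit 21) (nat_lit 61897) (nat_lit 6716368) (nat_lit 0) (nat_lit 0),Row.mk (nat_lit 11256) (nat_lit 32912) (nat_lit 26) (nat_lit 61897) (nat_lit 6716362) (nat_lit 0) (nat_lit 0),Row.mk (nat_lit 11424) (nat_lit 32912) (nat_lit 32) (nat_lit 61897) (nat_lit 6716356) (nat_lit 0) (nat_lit 0),Row.mk (nat_lit 11592) (nat_lit 32912) (nat_lit 41) (nat_lit 61897) (nat_lit 6716348) (nat_lit 0) (nat_lit 0),Row.mk (nat_lit 11760) (nat_lit 32912) (nat_lit 51) (nat_lit 61897) (nat_lit 6716337) (nat_lit 0) (nat_lit 0),Row.mk (nat_lit 11928) (nat_lit 32912) (nat_lit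 64) (nat_lit 61897) (nat_lit 6716325) (nat_lit 0) (nat_lit 0),Row.mk (nat_lit 12096) (nat_lit 32912) (nat_lit 79) (nat_lit 61897) (nat_lit 6716309) (nat_lit 0) (nat_lit 0),Row.mk (nat_lit 12264) (nat_lit 32912) (nat_lit 99) (nat_lit 61897) (nat_lit 6716289) (nat_lit 0) (nat_lit 0),Row.mk (nat_lit 12432) (nat_lit 32912) (nat_lit 124) (nat_lit 61897) (nat_lit 6716264) (nat_lit 0) (nat_lit 0),Row.mk (nat_lit 12600) (nat_lit 32912) (nat_lit 155) (nat_lit 61897) (nat_lit 6716233) (nat_lit 0) (nat_lit 0),Row.mk (nat_lit 12768) (nat_lit 32912) (nat_lit 194) (nat_lit 61897) (nat_lit 6716194) (nat_lit 0) (nat_lit 0),Row.mk (nat_lit 12936) (nat_lit 32912) (nat_lit 243) (nat_lit 61897) (nat_lit 6716146) (nat_lit 0) (nat_lit 0),Row.mk (nat_lit 13104) (nat_lit 32912) (nat_lit 303) (nat_lit 61897) (nat_lit 6716085) (nat_lit 0) (nat_lit 0),Row.mk (nat_lit 13272) (nat_lit 32912) (nat_lit 379) (nat_lit 61897) (nat_lit 6716010) (nat_lit 0) (nat_lit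 0),Row.mk (nat_lit 13440) (nat_lit 32912) (nat_lit 473) (nat_lit 61897) (nat_lit 6715915) (nat_lit 0) (nat_lit 0),Row.mk (nat_lit 13608) (nat_lit 32912) (nat_lit 591) (nat_lit 61897) (nat_lit 6715797) (nat_lit 0) (nat_lit 0),Row.mk (nat_lit 13776) (nat_lit 32912) (nat_lit 738) (nat_lit 61897) (nat_lit 6715650) (nat_lit 0) (nat_lit 0),Row.mk (nat_lit 13944) (nat_lit 32912) (nat_lit 922) (nat_lit 61897) (nat_lit 6715466) (nat_lit 0) (nat_lit 0),Row.mk (nat_lit 14112) (nat_lit 32912) (nat_lit 1152) (nat_lit 61897) (nat_lit 6715236) (nat_lit 0) (nat_lit 0),Row.mk (nat_lit 14280) (nat_lit 32912) (nat_lit 1439) (nat_lit 61897) (nat_lit 6714950) (nat_lit 0) (nat_lit 0),Row.mk (nat_lit 14448) (nat_lit 32912) (nat_lit 1797) (nat_lit 61897) (nat_lit 6714591) (nat_lit 0) (nat_lit 0),Row.mk (nat_lit 14616) (nat_lit 32912) (nat_lit 2244) (nat_lit 61897) (nat_lit 6714144) (nat_lit 0) (nat_lit 0),Row.mk (nat_lit 14784) (nat_lit 32912) (nat_lit 2803)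 (nat_lit 61897) (nat_lit 6713585) (nat_lit 0) (nat_lit 0),Row.mk (nat_lit 14952) (nat_lit 32912) (nat_lit 3501) (nat_lit 61897) (nat_lit 6712887) (nat_lit 0) (nat_lit 0),Row.mk (nat_lit 15120) (nat_lit 32912) (nat_lit 4373) (nat_lit 61897) (nat_lit 6712015) (nat_lit 0) (nat_lit 0),Row.mk (nat_lit 15288) (nat_lit 32912) (nat_lit 5462) (nat_lit 61897) (nat_lit 6710926) (nat_lit 0) (nat_lit 0),Row.mk (nat_lit 15456) (nat_lit 32912) (nat_lit 6822) (nat_lit 61897) (nat_lit 6709566) (nat_lit 0) (nat_lit 0),Row.mk (nat_lit 15624) (nat_lit 32912) (nat_lit 8521) (nat_lit 61897) (nat_lit 6707867) (nat_lit 0) (nat_lit 0),Row.mk (nat_lit 15792) (nat_lit 0) (nat_lit 53390) (nat_lit 748) (nat_lit 6673641) (nat_lit 0) (nat_lit 0),Row.mk (nat_lit 15960) (nat_lit 561) (nat_lit 66683) (nat_lit 1309) (nat_lit 6662998) (nat_lit 0) (nat_lit 0),Row.mk (nat_lit 16128) (nat_lit 1122) (nat_lit 83286) (nat_lit 1870) (nat_lit 6649705) (nat_lit 0) (nat_lit 0),Row.mk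 (nat_lit 16296) (nat_lit 1683) (nat_lit 104022) (nat_lit 2431) (nat_lit 6633102) (nat_lit 0) (nat_lit 0),Row.mk (nat_lit 16464) (nat_lit 2244) (nat_lit 129921) (nat_lit 2992) (nat_lit 6612366) (nat_lit 0) (nat_lit 0),Row.mk (nat_lit 16632) (nat_lit 2805) (nat_lit 162268) (nat_lit 3553) (nat_lit 6586467) (nat_lit 0) (nat_lit 0),Row.mk (nat_lit 16800) (nat_lit 3366) (nat_lit 202670) (nat_lit 4114) (nat_lit 6554120) (nat_lit 0) (nat_lit 0),Row.mk (nat_lit 16968) (nat_lit 3927) (nat_lit 253129) (nat_lit 4675) (nat_lit 6513719) (nat_lit 0) (nat_lit 0),Row.mk (nat_lit 17136) (nat_lit 4488) (nat_lit 316153) (nat_lit 5236) (nat_lit 6463259) (nat_lit 0) (nat_lit 0),Row.mk (nat_lit 17304) (nat_lit 5049) (nat_lit 394867) (nat_lit 5797) (nat_lit 6400235) (nat_lit 0) (nat_lit 0),Row.mk (nat_lit 17472) (nat_lit 5610) (nat_lit 493180) (nat_lit 6358) (nat_lit 6321521) (nat_lit 0) (nat_lit 0),Row.mk (nat_lit 17640) (nat_lit 6171) (nat_lit 615970)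 (nat_lit 6919) (nat_lit 6223208) (nat_lit 0) (nat_lit 0),Row.mk (nat_lit 17808) (nat_lit 6732) (nat_lit 769331) (nat_lit 7480) (nat_lit 6100418) (nat_lit 0) (nat_lit 0),Row.mk (nat_lit 17976) (nat_lit 7293) (nat_lit 960877) (nat_lit 8041) (nat_lit 5947057) (nat_lit 0) (nat_lit 0),Row.mk (nat_lit 18144) (nat_lit 7854) (nat_lit 1200112) (nat_lit 8602) (nat_lit 5755512) (nat_lit 0) (nat_lit 0),Row.mk (nat_lit 18312) (nat_lit 8415) (nat_lit 1498911) (nat_lit 9163) (nat_lit 5516276) (nat_lit 0) (nat_lit 0),Row.mk (nat_lit 18480) (nat_lit 8976) (nat_lit 1872104) (nat_lit 9724) (nat_lit 5217477) (nat_lit 0) (nat_lit 0),Row.mk (nat_lit 18648) (nat_lit 9537) (nat_lit 2338212) (nat_lit 10285) (nat_lit 4844285) (nat_lit 0) (nat_lit 0),Row.mk (nat_lit 18816) (nat_lit 10098) (nat_lit 2920371) (nat_lit 10846) (nat_lit 4378176) (nat_lit 0) (nat_lit 0),Row.mk (nat_lit 18984) (nat_lit 10659) (nat_lit 3647473) (nat_lit 11407) (nat_lit 3796017) (nat_lit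 0) (nat_lit 0),Row.mk (nat_lit 19152) (nat_lit 11220) (nat_lit 4555606) (nat_lit 11968) (nat_lit 3068915) (nat_lit 0) (nat_lit 0),Row.mk (nat_lit 19320) (nat_lit 11781) (nat_lit 5689842) (nat_lit 12716) (nat_lit 2160782) (nat_lit 0) (nat_lit 0),Row.mk (nat_lit 19488) (nat_lit 12529) (nat_lit 7106475) (nat_lit 13464) (nat_lit 1026546) (nat_lit 0) (nat_lit 0),Row.mk (nat_lit 19656) (nat_lit 12342) (nat_lit 487208) (nat_lit 13277) (nat_lit 7998521) (nat_lit 0) (nat_lit 0),Row.mk (nat_lit 19824) (nat_lit 13090) (nat_lit 2697073) (nat_lit 14025) (nat_lit 6229180) (nat_lit 0) (nat_lit 0),Row.mk (nat_lit 19992) (nat_lit 13838) (nat_lit 5457140) (nat_lit 15147) (nat_lit 4019316) (nat_lit 0) (nat_lit 0),Row.mk (nat_lit 20160) (nat_lit 14960) (nat_lit 8904397) (nat_lit 16456) (nat_lit 1259248) (nat_lit 0) (nat_lit 0),Row.mk (nat_lit 20328) (nat_lit 14773) (nat_lit 2732769) (nat_lit 16269) (nat_lit 8289160) (nat_lit 0) (nat_lit 0),Row.mk (nat_lit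 20496) (nat_lit 16082) (nat_lit 8110286) (nat_lit 17765) (nat_lit 3983619) (nat_lit 0) (nat_lit 0),Row.mk (nat_lit 20664) (nat_lit 15895) (nat_lit 1740944) (nat_lit 17578) (nat_lit 11691833) (nat_lit 0) (nat_lit 0),Row.mk (nat_lit 20832) (nat_lit 17391) (nat_lit 10129552) (nat_lit 19635) (nat_lit 4975444) (nat_lit 0) (nat_lit 0),Row.mk (nat_lit 21000) (nat_lit 17204) (nat_lit 4262958) (nat_lit 19448) (nat_lit 12930599) (nat_lit 0) (nat_lit 0),Row.mk (nat_lit 21168) (nat_lit 19261) (nat_lit 17348690) (nat_lit 25806) (nat_lit 2453430) (nat_lit 0) (nat_lit 0),Row.mk (nat_lit 21336) (nat_lit 19074) (nat_lit 13279487) (nat_lit 25619) (nat_lit 9780664) (nat_lit 0) (nat_lit 0),Row.mk (nat_lit 21504) (nat_lit 18887) (nat_lit 8197151) (nat_lit 25432) (nat_lit 18932203) (nat_lit 0) (nat_lit 0),Row.mk (nat_lit 21672) (nat_lit 18700) (nat_lit 1849436) (nat_lit 25245) (nat_lit 30362254) (nat_lit 0) (nat_lit 0),Row.mk (nat_lit 21840) (nat_lit 25058)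 (nat_lit 33692452) (nat_lit 31603) (nat_lit 4866952) (nat_lit 0) (nat_lit 0),Row.mk (nat_lit 22008) (nat_lit 24871) (nat_lit 33692452) (nat_lit 31416) (nat_lit 12795095) (nat_lit 0) (nat_lit 0),Row.mk (nat_lit 22176) (nat_lit 24684) (nat_lit 33692452) (nat_lit 31229) (nat_lit 22697154) (nat_lit 0) (nat_lit 0),Row.mk (nat_lit 22344) (nat_lit 24497) (nat_lit 33692452) (nat_lit 31042) (nat_lit 35064587) (nat_lit 0) (nat_lit 0),Row.mk (nat_lit 22512) (nat_lit 24310) (nat_lit 33692452) (nat_lit 30855) (nat_lit 50511213) (nat_lit 0) (nat_lit 0),Row.mk (nat_lit 22680) (nat_lit 24123) (nat_lit 33692452) (nat_lit 30668) (nat_lit 69803676) (nat_lit 0) (nat_lit 0),Row.mk (nat_lit 22848) (nat_lit 23936) (nat_lit 33692452) (nat_lit 30481) (nat_lit 93899496) (nat_lit 0) (nat_lit 0),Row.mk (nat_lit 23016) (nat_lit 23749) (nat_lit 33692452) (nat_lit 30294) (nat_lit 123994595) (nat_lit 0) (nat_lit 0),Row.mk (nat_lit 23184) (nat_lit 23562) (nat_lit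 33692452) (nat_lit 30107) (nat_lit 161582647) (nat_lit 0) (nat_lit 0),Row.mk (nat_lit 23352) (nat_lit 23375) (nat_lit 33692452) (nat_lit 29920) (nat_lit 208529218) (nat_lit 0) (nat_lit 0),Row.mk (nat_lit 23520) (nat_lit 23188) (nat_lit 33692452) (nat_lit 29733) (nat_lit 267164352) (nat_lit 0) (nat_lit 0),Row.mk (nat_lit 23688) (nat_lit 23001) (nat_lit 33692452) (nat_lit 29546) (nat_lit 340398219) (nat_lit 0) (nat_lit 0),Row.mk (nat_lit 23856) (nat_lit 22814) (nat_lit 33692452) (nat_lit 29359) (nat_lit 431865553) (nat_lit 0) (nat_lit 0),Row.mk (nat_lit 24024) (nat_lit 22627) (nat_lit 33692452) (nat_lit 29172) (nat_lit 546106047) (nat_lit 0) (nat_lit 0),Row.mk (nat_lit 24192) (nat_lit 22440) (nat_lit 33692452) (nat_lit 28985) (nat_lit 688789668) (nat_lit 0) (nat_lit 0),Row.mk (nat_lit 24360) (nat_lit 22253) (nat_lit 33692452) (nat_lit 28798) (nat_lit 866998069) (nat_lit 0) (nat_lit 0),Row.mk (nat_lit 24528) (nat_lit 22066) (nat_lit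 33692452) (nat_lit 28611) (nat_lit 1089576062) (nat_lit 0) (nat_lit 0),Row.mk (nat_lit 24696) (nat_lit 21879) (nat_lit 33692452) (nat_lit 28424) (nat_lit 1367570605) (nat_lit 0) (nat_lit 0),Row.mk (nat_lit 24864) (nat_lit 21692) (nat_lit 33692452) (nat_lit 28237) (nat_lit 1714779084) (nat_lit 0) (nat_lit 0),Row.mk (nat_lit 25032) (nat_lit 21505) (nat_lit 33692452) (nat_lit 28050) (nat_lit 2148434099) (nat_lit 0) (nat_lit 0),Row.mk (nat_lit 25200) (nat_lit 21318) (nat_lit 33692452) (nat_lit 27863) (nat_lit 2690058750) (nat_lit 0) (nat_lit 0),Row.mk (nat_lit 25368) (nat_lit 21131) (nat_lit 33692452) (nat_lit 27676) (nat_lit 3366534874) (nat_lit 0) (nat_lit 0),Row.mk (nat_lit 25536) (nat_lit 20944) (nat_lit 33692452) (nat_lit 27489) (nat_lit 4211437233) (nat_lit 0) (nat_lit 0),Row.mk (nat_lit 25704) (nat_lit 32912) (nat_lit 6716389) (nat_lit 62084) (nat_lit 5286959572) (nat_lit 0) (nat_lit 0),Row.mk (nat_lit 25872) (nat_lit 32912) (nat_lit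 6716389) (nat_lit 62084) (nat_lit 6604957183) (nat_lit 0) (nat_lit 0),Row.mk (nat_lit 26040) (nat_lit 32912) (nat_lit 6716389) (nat_lit 62084) (nat_lit 8251104404) (nat_lit 0) (nat_lit 0),Row.mk (nat_lit 26208) (nat_lit 32912) (nat_lit 6716389) (nat_lit 62084) (nat_lit 10307102571) (nat_lit 0) (nat_lit 0),Row.mk (nat_lit 26376) (nat_lit 32912) (nat_lit 6716389) (nat_lit 62084) (nat_lit 12874994684) (nat_lit 0) (nat_lit 0)],
[Row.mk (nat_lit 5880) (nat_lit 61897) (nat_lit 8388607) (nat_lit 0) (nat_lit 0) (nat_lit 0) (nat_lit 0),Row.mk (nat_lit 6048) (nat_lit 61897) (nat_lit 8388607) (nat_lit 0) (nat_lit 0) (nat_lit 0) (nat_lit 0),Row.mk (nat_lit 6216) (nat_lit 61897) (nat_lit 8388607) (nat_lit 0) (nat_lit 0) (nat_lit 0) (nat_lit 0),Row.mk (nat_lit 6384) (nat_lit 61897) (nat_lit 8388607) (nat_lit 0) (nat_lit 0) (nat_lit 0) (nat_lit 0),Row.mk (nat_lit 6552) (nat_lit 61897) (nat_lit 8388607) (nat_lit 0) (nat_lit 0) (nat_lit 0) (nat_lit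 0),Row.mk (nat_lit 6720) (nat_lit 61897) (nat_lit 8388607) (nat_lit 0) (nat_lit 0) (nat_lit 0) (nat_lit 0),Row.mk (nat_lit 6888) (nat_lit 61897) (nat_lit 8388607) (nat_lit 0) (nat_lit 0) (nat_lit 0) (nat_lit 0),Row.mk (nat_lit 7056) (nat_lit 61897) (nat_lit 8388607) (nat_lit 0) (nat_lit 0) (nat_lit 0) (nat_lit 0),Row.mk (nat_lit 7224) (nat_lit 61897) (nat_lit 8388607) (nat_lit 0) (nat_lit 0) (nat_lit 0) (nat_lit 0),Row.mk (nat_lit 7392) (nat_lit 61897) (nat_lit 8388607) (nat_lit 0) (nat_lit 0) (nat_lit 0) (nat_lit 0),Row.mk (nat_lit 7560) (nat_lit 61897) (nat_lit 8388607) (nat_lit 0) (nat_lit 0) (nat_lit 0) (nat_lit 0),Row.mk (nat_lit 7728) (nat_lit 61897) (nat_lit 8388607) (nat_lit 0) (nat_lit 0) (nat_lit 0) (nat_lit 0),Row.mk (nat_lit 7896) (nat_lit 61897) (nat_lit 8388607) (nat_lit 0) (nat_lit 0) (nat_lit 0) (nat_lit 0),Row.mk (nat_lit 8064) (nat_lit 61897) (nat_lit 8388607) (nat_lit 0) (nat_lit 0) (nat_lit 0) (nat_lit 0),Row.mk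 (nat_lit 8232) (nat_lit 61897) (nat_lit 8388607) (nat_lit 0) (nat_lit 0) (nat_lit 0) (nat_lit 0),Row.mk (nat_lit 8400) (nat_lit 61897) (nat_lit 8388607) (nat_lit 0) (nat_lit 0) (nat_lit 0) (nat_lit 0),Row.mk (nat_lit 8568) (nat_lit 61897) (nat_lit 8388607) (nat_lit 0) (nat_lit 0) (nat_lit 0) (nat_lit 0),Row.mk (nat_lit 8736) (nat_lit 61897) (nat_lit 8388607) (nat_lit 0) (nat_lit 0) (nat_lit 0) (nat_lit 0),Row.mk (nat_lit 8904) (nat_lit 32912) (nat_lit 1) (nat_lit 61897) (nat_lit 8388606) (nat_lit 0) (nat_lit 0),Row.mk (nat_lit 9072) (nat_lit 32912) (nat_lit 1) (nat_lit 61897) (nat_lit 8388606) (nat_lit 0) (nat_lit 0),Row.mk (nat_lit 9240) (nat_lit 32912) (nat_lit 1) (nat_lit 61897) (nat_lit 8388606) (nat_lit 0) (nat_lit 0),Row.mk (nat_lit 9408) (nat_lit 32912) (nat_lit 2) (nat_lit 61897) (nat_lit 8388605) (nat_lit 0) (nat_lit 0),Row.mk (nat_lit 9576) (nat_lit 32912) (nat_lit 2) (nat_lit 61897) (nat_lit 8388605) (nat_lit 0) (nat_lit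 0),Row.mk (nat_lit 9744) (nat_lit 32912) (nat_lit 3) (nat_lit 61897) (nat_lit 8388604) (nat_lit 0) (nat_lit 0),Row.mk (nat_lit 9912) (nat_lit 32912) (nat_lit 4) (nat_lit 61897) (nat_lit 8388603) (nat_lit 0) (nat_lit 0),Row.mk (nat_lit 10080) (nat_lit 32912) (nat_lit 5) (nat_lit 61897) (nat_lit 8388602) (nat_lit 0) (nat_lit 0),Row.mk (nat_lit 10248) (nat_lit 32912) (nat_lit 6) (nat_lit 61897) (nat_lit 8388601) (nat_lit 0) (nat_lit 0),Row.mk (nat_lit 10416) (nat_lit 32912) (nat_lit 8) (nat_lit 61897) (nat_lit 8388599) (nat_lit 0) (nat_lit 0),Row.mk (nat_lit 10584) (nat_lit 32912) (nat_lit 10) (nat_lit 61897) (nat_lit 8388597) (nat_lit 0) (nat_lit 0),Row.mk (nat_lit 10752) (nat_lit 32912) (nat_lit 13) (nat_lit 61897) (nat_lit 8388594) (nat_lit 0) (nat_lit 0),Row.mk (nat_lit 10920) (nat_lit 32912) (nat_lit 16) (nat_lit 61897) (nat_lit 8388591) (nat_lit 0) (nat_lit 0),Row.mk (nat_lit 11088) (nat_lit 32912) (nat_lit 21) (nat_lit 61897)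 (nat_lit 8388586) (nat_lit 0) (nat_lit 0),Row.mk (nat_lit 11256) (nat_lit 32912) (nat_lit 26) (nat_lit 61897) (nat_lit 8388581) (nat_lit 0) (nat_lit 0),Row.mk (nat_lit 11424) (nat_lit 32912) (nat_lit 32) (nat_lit 61897) (nat_lit 8388575) (nat_lit 0) (nat_lit 0),Row.mk (nat_lit 11592) (nat_lit 32912) (nat_lit 41) (nat_lit 61897) (nat_lit 8388566) (nat_lit 0) (nat_lit 0),Row.mk (nat_lit 11760) (nat_lit 32912) (nat_lit 51) (nat_lit 61897) (nat_lit 8388556) (nat_lit 0) (nat_lit 0),Row.mk (nat_lit 11928) (nat_lit 32912) (nat_lit 64) (nat_lit 61897) (nat_lit 8388543) (nat_lit 0) (nat_lit 0),Row.mk (nat_lit 12096) (nat_lit 32912) (nat_lit 79) (nat_lit 61897) (nat_lit 8388528) (nat_lit 0) (nat_lit 0),Row.mk (nat_lit 12264) (nat_lit 32912) (nat_lit 99) (nat_lit 61897) (nat_lit 8388508) (nat_lit 0) (nat_lit 0),Row.mk (nat_lit 12432) (nat_lit 32912) (nat_lit 124) (nat_lit 61897) (nat_lit 8388483) (nat_lit 0) (nat_lit 0),Row.mk (nat_lit 12600)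 (nat_lit 32912) (nat_lit 155) (nat_lit 61897) (nat_lit 8388452) (nat_lit 0) (nat_lit 0),Row.mk (nat_lit 12768) (nat_lit 32912) (nat_lit 194) (nat_lit 61897) (nat_lit 8388413) (nat_lit 0) (nat_lit 0),Row.mk (nat_lit 12936) (nat_lit 32912) (nat_lit 243) (nat_lit 61897) (nat_lit 8388364) (nat_lit 0) (nat_lit 0),Row.mk (nat_lit 13104) (nat_lit 32912) (nat_lit 303) (nat_lit 61897) (nat_lit 8388304) (nat_lit 0) (nat_lit 0),Row.mk (nat_lit 13272) (nat_lit 32912) (nat_lit 379) (nat_lit 61897) (nat_lit 8388228) (nat_lit 0) (nat_lit 0),Row.mk (nat_lit 13440) (nat_lit 32912) (nat_lit 473) (nat_lit 61897) (nat_lit 8388134) (nat_lit 0) (nat_lit 0),Row.mk (nat_lit 13608) (nat_lit 32912) (nat_lit 591) (nat_lit 61897) (nat_lit 8388016) (nat_lit 0) (nat_lit 0),Row.mk (nat_lit 13776) (nat_lit 32912) (nat_lit 738) (nat_lit 61897) (nat_lit 8387869) (nat_lit 0) (nat_lit 0),Row.mk (nat_lit 13944) (nat_lit 32912) (nat_lit 922) (nat_lit 61897) (nat_lit 8387685)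 (nat_lit 0) (nat_lit 0),Row.mk (nat_lit 14112) (nat_lit 32912) (nat_lit 1152) (nat_lit 61897) (nat_lit 8387455) (nat_lit 0) (nat_lit 0),Row.mk (nat_lit 14280) (nat_lit 32912) (nat_lit 1439) (nat_lit 61897) (nat_lit 8387168) (nat_lit 0) (nat_lit 0),Row.mk (nat_lit 14448) (nat_lit 32912) (nat_lit 1797) (nat_lit 61897) (nat_lit 8386810) (nat_lit 0) (nat_lit 0),Row.mk (nat_lit 14616) (nat_lit 32912) (nat_lit 2244) (nat_lit 61897) (nat_lit 8386363) (nat_lit 0) (nat_lit 0),Row.mk (nat_lit 14784) (nat_lit 32912) (nat_lit 2803) (nat_lit 61897) (nat_lit 8385804) (nat_lit 0) (nat_lit 0),Row.mk (nat_lit 14952) (nat_lit 32912) (nat_lit 3501) (nat_lit 61897) (nat_lit 8385106) (nat_lit 0) (nat_lit 0),Row.mk (nat_lit 15120) (nat_lit 32912) (nat_lit 4373) (nat_lit 61897) (nat_lit 8384234) (nat_lit 0) (nat_lit 0),Row.mk (nat_lit 15288) (nat_lit 32912) (nat_lit 5462) (nat_lit 61897) (nat_lit 8383145) (nat_lit 0) (nat_lit 0),Row.mk (nat_lit 15456) (nat_lit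 32912) (nat_lit 6822) (nat_lit 61897) (nat_lit 8381785) (nat_lit 0) (nat_lit 0),Row.mk (nat_lit 15624) (nat_lit 32912) (nat_lit 8521) (nat_lit 61897) (nat_lit 8380086) (nat_lit 0) (nat_lit 0),Row.mk (nat_lit 15792) (nat_lit 32912) (nat_lit 10643) (nat_lit 61897) (nat_lit 8377964) (nat_lit 0) (nat_lit 0),Row.mk (nat_lit 15960) (nat_lit 0) (nat_lit 66683) (nat_lit 748) (nat_lit 8335217) (nat_lit 0) (nat_lit 0),Row.mk (nat_lit 16128) (nat_lit 561) (nat_lit 83286) (nat_lit 1309) (nat_lit 8321924) (nat_lit 0) (nat_lit 0),Row.mk (nat_lit 16296) (nat_lit 1122) (nat_lit 104022) (nat_lit 1870) (nat_lit 8305321) (nat_lit 0) (nat_lit 0),Row.mk (nat_lit 16464) (nat_lit 1683) (nat_lit 129921) (nat_lit 2431) (nat_lit 8284585) (nat_lit 0) (nat_lit 0),Row.mk (nat_lit 16632) (nat_lit 2244) (nat_lit 162268) (nat_lit 2992) (nat_lit 8258686) (nat_lit 0) (nat_lit 0),Row.mk (nat_lit 16800) (nat_lit 2805) (nat_lit 202670) (nat_lit 3553) (nat_lit 8226339)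 (nat_lit 0) (nat_lit 0),Row.mk (nat_lit 16968) (nat_lit 3366) (nat_lit 253129) (nat_lit 4114) (nat_lit 8185937) (nat_lit 0) (nat_lit 0),Row.mk (nat_lit 17136) (nat_lit 3927) (nat_lit 316153) (nat_lit 4675) (nat_lit 8135478) (nat_lit 0) (nat_lit 0),Row.mk (nat_lit 17304) (nat_lit 4488) (nat_lit 394867) (nat_lit 5236) (nat_lit 8072454) (nat_lit 0) (nat_lit 0),Row.mk (nat_lit 17472) (nat_lit 5049) (nat_lit 493180) (nat_lit 5797) (nat_lit 7993740) (nat_lit 0) (nat_lit 0),Row.mk (nat_lit 17640) (nat_lit 5610) (nat_lit 615970) (nat_lit 6358) (nat_lit 7895427) (nat_lit 0) (nat_lit 0),Row.mk (nat_lit 17808) (nat_lit 6171) (nat_lit 769331) (nat_lit 6919) (nat_lit 7772637) (nat_lit 0) (nat_lit 0),Row.mk (nat_lit 17976) (nat_lit 6732) (nat_lit 960877) (nat_lit 7480) (nat_lit 7619276) (nat_lit 0) (nat_lit 0),Row.mk (nat_lit 18144) (nat_lit 7293) (nat_lit 1200112) (nat_lit 8041) (nat_lit 7427730) (nat_lit 0) (nat_lit 0),Row.mk (nat_lit 18312)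 (nat_lit 7854) (nat_lit 1498911) (nat_lit 8602) (nat_lit 7188495) (nat_lit 0) (nat_lit 0),Row.mk (nat_lit 18480) (nat_lit 8415) (nat_lit 1872104) (nat_lit 9163) (nat_lit 6889696) (nat_lit 0) (nat_lit 0),Row.mk (nat_lit 18648) (nat_lit 8976) (nat_lit 2338212) (nat_lit 9724) (nat_lit 6516503) (nat_lit 0) (nat_lit 0),Row.mk (nat_lit 18816) (nat_lit 9537) (nat_lit 2920371) (nat_lit 10285) (nat_lit 6050395) (nat_lit 0) (nat_lit 0),Row.mk (nat_lit 18984) (nat_lit 10098) (nat_lit 3647473) (nat_lit 10846) (nat_lit 5468236) (nat_lit 0) (nat_lit 0),Row.mk (nat_lit 19152) (nat_lit 10659) (nat_lit 4555606) (nat_lit 11407) (nat_lit 4741134) (nat_lit 0) (nat_lit 0),Row.mk (nat_lit 19320) (nat_lit 11220) (nat_lit 5689842) (nat_lit 11968) (nat_lit 3833001) (nat_lit 0) (nat_lit 0),Row.mk (nat_lit 19488) (nat_lit 11781) (nat_lit 7106475) (nat_lit 12716) (nat_lit 2698765) (nat_lit 0) (nat_lit 0),Row.mk (nat_lit 19656) (nat_lit 12529) (nat_lit 8875816)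 (nat_lit 13464) (nat_lit 1282132) (nat_lit 0) (nat_lit 0),Row.mk (nat_lit 19824) (nat_lit 12342) (nat_lit 608512) (nat_lit 13277) (nat_lit 9989960) (nat_lit 0) (nat_lit 0),Row.mk (nat_lit 19992) (nat_lit 13090) (nat_lit 3368579) (nat_lit 14025) (nat_lit 7780095) (nat_lit 0) (nat_lit 0),Row.mk (nat_lit 20160) (nat_lit 13838) (nat_lit 6815836) (nat_lit 15147) (nat_lit 5020028) (nat_lit 0) (nat_lit 0),Row.mk (nat_lit 20328) (nat_lit 14960) (nat_lit 11121377) (nat_lit 16456) (nat_lit 1572771) (nat_lit 0) (nat_lit 0),Row.mk (nat_lit 20496) (nat_lit 14773) (nat_lit 3413163) (nat_lit 16269) (nat_lit 10352961) (nat_lit 0) (nat_lit 0),Row.mk (nat_lit 20664) (nat_lit 16082) (nat_lit 10129552) (nat_lit 17765) (nat_lit 4975444) (nat_lit 0) (nat_lit 0),Row.mk (nat_lit 20832) (nat_lit 15895) (nat_lit 2174397) (nat_lit 17578) (nat_lit 14602818) (nat_lit 0) (nat_lit 0),Row.mk (nat_lit 21000) (nat_lit 17391) (nat_lit 12651566) (nat_lit 19635) (nat_lit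 6214210) (nat_lit 0) (nat_lit 0),Row.mk (nat_lit 21168) (nat_lit 17204) (nat_lit 5324332) (nat_lit 19448) (nat_lit 16150006) (nat_lit 0) (nat_lit 0),Row.mk (nat_lit 21336) (nat_lit 19261) (nat_lit 21668095) (nat_lit 25806) (nat_lit 3064275) (nat_lit 0) (nat_lit 0),Row.mk (nat_lit 21504) (nat_lit 19074) (nat_lit 16585759) (nat_lit 25619) (nat_lit 12215813) (nat_lit 0) (nat_lit 0),Row.mk (nat_lit 21672) (nat_lit 18887) (nat_lit 10238044) (nat_lit 25432) (nat_lit 23645864) (nat_lit 0) (nat_lit 0),Row.mk (nat_lit 21840) (nat_lit 18700) (nat_lit 2309901) (nat_lit 25245) (nat_lit 37921722) (nat_lit 0) (nat_lit 0),Row.mk (nat_lit 22008) (nat_lit 25058) (nat_lit 42081060) (nat_lit 31603) (nat_lit 6078706) (nat_lit 0) (nat_lit 0),Row.mk (nat_lit 22176) (nat_lit 24871) (nat_lit 42081060) (nat_lit 31416) (nat_lit 15980765) (nat_lit 0) (nat_lit 0),Row.mk (nat_lit 22344) (nat_lit 24684) (nat_lit 42081060) (nat_lit 31229) (nat_lit 28348198) (nat_lit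 0) (nat_lit 0),Row.mk (nat_lit 22512) (nat_lit 24497) (nat_lit 42081060) (nat_lit 31042) (nat_lit 43794824) (nat_lit 0) (nat_lit 0),Row.mk (nat_lit 22680) (nat_lit 24310) (nat_lit 42081060) (nat_lit 30855) (nat_lit 63087287) (nat_lit 0) (nat_lit 0),Row.mk (nat_lit 22848) (nat_lit 24123) (nat_lit 42081060) (nat_lit 30668) (nat_lit 87183107) (nat_lit 0) (nat_lit 0),Row.mk (nat_lit 23016) (nat_lit 23936) (nat_lit 42081060) (nat_lit 30481) (nat_lit 117278206) (nat_lit 0) (nat_lit 0),Row.mk (nat_lit 23184) (nat_lit 23749) (nat_lit 42081060) (nat_lit 30294) (nat_lit 154866258) (nat_lit 0) (nat_lit 0),Row.mk (nat_lit 23352) (nat_lit 23562) (nat_lit 42081060) (nat_lit 30107) (nat_lit 201812828) (nat_lit 0) (nat_lit 0),Row.mk (nat_lit 23520) (nat_lit 23375) (nat_lit 42081060) (nat_lit 29920) (nat_lit 260447962) (nat_lit 0) (nat_lit 0),Row.mk (nat_lit 23688) (nat_lit 23188) (nat_lit 42081060) (nat_lit 29733) (nat_lit 333681830) (nat_lit 0)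 (nat_lit 0),Row.mk (nat_lit 23856) (nat_lit 23001) (nat_lit 42081060) (nat_lit 29546) (nat_lit 425149164) (nat_lit 0) (nat_lit 0),Row.mk (nat_lit 24024) (nat_lit 22814) (nat_lit 42081060) (nat_lit 29359) (nat_lit 539389658) (nat_lit 0) (nat_lit 0),Row.mk (nat_lit 24192) (nat_lit 22627) (nat_lit 42081060) (nat_lit 29172) (nat_lit 682073279) (nat_lit 0) (nat_lit 0),Row.mk (nat_lit 24360) (nat_lit 22440) (nat_lit 42081060) (nat_lit 28985) (nat_lit 860281679) (nat_lit 0) (nat_lit 0),Row.mk (nat_lit 24528) (nat_lit 22253) (nat_lit 42081060) (nat_lit 28798) (nat_lit 1082859672) (nat_lit 0) (nat_lit 0),Row.mk (nat_lit 24696) (nat_lit 22066) (nat_lit 42081060) (nat_lit 28611) (nat_lit 1360854216) (nat_lit 0) (nat_lit 0),Row.mk (nat_lit 24864) (nat_lit 21879) (nat_lit 42081060) (nat_lit 28424) (nat_lit 1708062695) (nat_lit 0) (nat_lit 0),Row.mk (nat_lit 25032) (nat_lit 21692) (nat_lit 42081060) (nat_lit 28237) (nat_lit 2141717710) (nat_lit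 0) (nat_lit 0),Row.mk (nat_lit 25200) (nat_lit 21505) (nat_lit 42081060) (nat_lit 28050) (nat_lit 2683342361) (nat_lit 0) (nat_lit 0),Row.mk (nat_lit 25368) (nat_lit 21318) (nat_lit 42081060) (nat_lit 27863) (nat_lit 3359818485) (nat_lit 0) (nat_lit 0),Row.mk (nat_lit 25536) (nat_lit 21131) (nat_lit 42081060) (nat_lit 27676) (nat_lit 4204720844) (nat_lit 0) (nat_lit 0),Row.mk (nat_lit 25704) (nat_lit 20944) (nat_lit 42081060) (nat_lit 27489) (nat_lit 5259983508) (nat_lit 0) (nat_lit 0),Row.mk (nat_lit 25872) (nat_lit 32912) (nat_lit 8388608) (nat_lit 62084) (nat_lit 6603284964) (nat_lit 0) (nat_lit 0),Row.mk (nat_lit 26040) (nat_lit 32912) (nat_lit 8388608) (nat_lit 62084) (nat_lit 8249432185) (nat_lit 0) (nat_lit 0),Row.mk (nat_lit 26208) (nat_lit 32912) (nat_lit 8388608) (nat_lit 62084) (nat_lit 10305430352) (nat_lit 0) (nat_lit 0),Row.mk (nat_lit 26376) (nat_lit 32912) (nat_lit 8388608) (nat_lit 62084) (nat_lit 12873322465) (nat_lit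 0) (nat_lit 0),Row.mk (nat_lit 26544) (nat_lit 32912) (nat_lit 8388608) (nat_lit 62084) (nat_lit 16080557766) (nat_lit 0) (nat_lit 0)],
[Row.mk (nat_lit 6720) (nat_lit 61897) (nat_lit 10477168) (nat_lit 0) (nat_lit 0) (nat_lit 0) (nat_lit 0),Row.mk (nat_lit 6888) (nat_lit 61897) (nat_lit 10477168) (nat_lit 0) (nat_lit 0) (nat_lit 0) (nat_lit 0),Row.mk (nat_lit 7056) (nat_lit 61897) (nat_lit 10477168) (nat_lit 0) (nat_lit 0) (nat_lit 0) (nat_lit 0),Row.mk (nat_lit 7224) (nat_lit 61897) (nat_lit 10477168) (nat_lit 0) (nat_lit 0) (nat_lit 0) (nat_lit 0),Row.mk (nat_lit 7392) (nat_lit 61897) (nat_lit 10477168) (nat_lit 0) (nat_lit 0) (nat_lit 0) (nat_lit 0),Row.mk (nat_lit 7560) (nat_lit 61897) (nat_lit 10477168) (nat_lit 0) (nat_lit 0) (nat_lit 0) (nat_lit 0),Row.mk (nat_lit 7728) (nat_lit 61897) (nat_lit 10477168) (nat_lit 0) (nat_lit 0) (nat_lit 0) (nat_lit 0),Row.mk (nat_lit 7896) (nat_lit 61897) (nat_lit 10477168) (nat_lit 0) (nat_lit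 0) (nat_lit 0) (nat_lit 0),Row.mk (nat_lit 8064) (nat_lit 61897) (nat_lit 10477168) (nat_lit 0) (nat_lit 0) (nat_lit 0) (nat_lit 0),Row.mk (nat_lit 8232) (nat_lit 61897) (nat_lit 10477168) (nat_lit 0) (nat_lit 0) (nat_lit 0) (nat_lit 0),Row.mk (nat_lit 8400) (nat_lit 61897) (nat_lit 10477168) (nat_lit 0) (nat_lit 0) (nat_lit 0) (nat_lit 0),Row.mk (nat_lit 8568) (nat_lit 61897) (nat_lit 10477168) (nat_lit 0) (nat_lit 0) (nat_lit 0) (nat_lit 0),Row.mk (nat_lit 8736) (nat_lit 61897) (nat_lit 10477168) (nat_lit 0) (nat_lit 0) (nat_lit 0) (nat_lit 0),Row.mk (nat_lit 8904) (nat_lit 32912) (nat_lit 1) (nat_lit 61897) (nat_lit 10477167) (nat_lit 0) (nat_lit 0),Row.mk (nat_lit 9072) (nat_lit 32912) (nat_lit 1) (nat_lit 61897) (nat_lit 10477167) (nat_lit 0) (nat_lit 0),Row.mk (nat_lit 9240) (nat_lit 32912) (nat_lit 1) (nat_lit 61897) (nat_lit 10477167) (nat_lit 0) (nat_lit 0),Row.mk (nat_lit 9408) (nat_lit 32912) (nat_lit 2) (nat_lit 61897)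 (nat_lit 10477166) (nat_lit 0) (nat_lit 0),Row.mk (nat_lit 9576) (nat_lit 32912) (nat_lit 2) (nat_lit 61897) (nat_lit 10477166) (nat_lit 0) (nat_lit 0),Row.mk (nat_lit 9744) (nat_lit 32912) (nat_lit 3) (nat_lit 61897) (nat_lit 10477165) (nat_lit 0) (nat_lit 0),Row.mk (nat_lit 9912) (nat_lit 32912) (nat_lit 4) (nat_lit 61897) (nat_lit 10477164) (nat_lit 0) (nat_lit 0),Row.mk (nat_lit 10080) (nat_lit 32912) (nat_lit 5) (nat_lit 61897) (nat_lit 10477163) (nat_lit 0) (nat_lit 0),Row.mk (nat_lit 10248) (nat_lit 32912) (nat_lit 6) (nat_lit 61897) (nat_lit 10477162) (nat_lit 0) (nat_lit 0),Row.mk (nat_lit 10416) (nat_lit 32912) (nat_lit 8) (nat_lit 61897) (nat_lit 10477160) (nat_lit 0) (nat_lit 0),Row.mk (nat_lit 10584) (nat_lit 32912) (nat_lit 10) (nat_lit 61897) (nat_lit 10477158) (nat_lit 0) (nat_lit 0),Row.mk (nat_lit 10752) (nat_lit 32912) (nat_lit 13) (nat_lit 61897) (nat_lit 10477155) (nat_lit 0) (nat_lit 0),Row.mk (nat_lit 10920)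 (nat_lit 32912) (nat_lit 16) (nat_lit 61897) (nat_lit 10477152) (nat_lit 0) (nat_lit 0),Row.mk (nat_lit 11088) (nat_lit 32912) (nat_lit 21) (nat_lit 61897) (nat_lit 10477147) (nat_lit 0) (nat_lit 0),Row.mk (nat_lit 11256) (nat_lit 32912) (nat_lit 26) (nat_lit 61897) (nat_lit 10477142) (nat_lit 0) (nat_lit 0),Row.mk (nat_lit 11424) (nat_lit 32912) (nat_lit 32) (nat_lit 61897) (nat_lit 10477136) (nat_lit 0) (nat_lit 0),Row.mk (nat_lit 11592) (nat_lit 32912) (nat_lit 41) (nat_lit 61897) (nat_lit 10477127) (nat_lit 0) (nat_lit 0),Row.mk (nat_lit 11760) (nat_lit 32912) (nat_lit 51) (nat_lit 61897) (nat_lit 10477117) (nat_lit 0) (nat_lit 0),Row.mk (nat_lit 11928) (nat_lit 32912) (nat_lit 64) (nat_lit 61897) (nat_lit 10477105) (nat_lit 0) (nat_lit 0),Row.mk (nat_lit 12096) (nat_lit 32912) (nat_lit 79) (nat_lit 61897) (nat_lit 10477089) (nat_lit 0) (nat_lit 0),Row.mk (nat_lit 12264) (nat_lit 32912) (nat_lit 99) (nat_lit 61897) (nat_lit 10477069)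 (nat_lit 0) (nat_lit 0),Row.mk (nat_lit 12432) (nat_lit 32912) (nat_lit 124) (nat_lit 61897) (nat_lit 10477044) (nat_lit 0) (nat_lit 0),Row.mk (nat_lit 12600) (nat_lit 32912) (nat_lit 155) (nat_lit 61897) (nat_lit 10477013) (nat_lit 0) (nat_lit 0),Row.mk (nat_lit 12768) (nat_lit 32912) (nat_lit 194) (nat_lit 61897) (nat_lit 10476974) (nat_lit 0) (nat_lit 0),Row.mk (nat_lit 12936) (nat_lit 32912) (nat_lit 243) (nat_lit 61897) (nat_lit 10476926) (nat_lit 0) (nat_lit 0),Row.mk (nat_lit 13104) (nat_lit 32912) (nat_lit 303) (nat_lit 61897) (nat_lit 10476865) (nat_lit 0) (nat_lit 0),Row.mk (nat_lit 13272) (nat_lit 32912) (nat_lit 379) (nat_lit 61897) (nat_lit 10476789) (nat_lit 0) (nat_lit 0),Row.mk (nat_lit 13440) (nat_lit 32912) (nat_lit 473) (nat_lit 61897) (nat_lit 10476695) (nat_lit 0) (nat_lit 0),Row.mk (nat_lit 13608) (nat_lit 32912) (nat_lit 591) (nat_lit 61897) (nat_lit 10476577) (nat_lit 0) (nat_lit 0),Row.mk (nat_lit 13776) (nat_lit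 32912) (nat_lit 738) (nat_lit 61897) (nat_lit 10476430) (nat_lit 0) (nat_lit 0),Row.mk (nat_lit 13944) (nat_lit 32912) (nat_lit 922) (nat_lit 61897) (nat_lit 10476246) (nat_lit 0) (nat_lit 0),Row.mk (nat_lit 14112) (nat_lit 32912) (nat_lit 1152) (nat_lit 61897) (nat_lit 10476016) (nat_lit 0) (nat_lit 0),Row.mk (nat_lit 14280) (nat_lit 32912) (nat_lit 1439) (nat_lit 61897) (nat_lit 10475729) (nat_lit 0) (nat_lit 0),Row.mk (nat_lit 14448) (nat_lit 32912) (nat_lit 1797) (nat_lit 61897) (nat_lit 10475371) (nat_lit 0) (nat_lit 0),Row.mk (nat_lit 14616) (nat_lit 32912) (nat_lit 2244) (nat_lit 61897) (nat_lit 10474924) (nat_lit 0) (nat_lit 0),Row.mk (nat_lit 14784) (nat_lit 32912) (nat_lit 2803) (nat_lit 61897) (nat_lit 10474365) (nat_lit 0) (nat_lit 0),Row.mk (nat_lit 14952) (nat_lit 32912) (nat_lit 3501) (nat_lit 61897) (nat_lit 10473667) (nat_lit 0) (nat_lit 0),Row.mk (nat_lit 15120) (nat_lit 32912) (nat_lit 4373) (nat_lit 61897) (nat_lit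 10472795) (nat_lit 0) (nat_lit 0),Row.mk (nat_lit 15288) (nat_lit 32912) (nat_lit 5462) (nat_lit 61897) (nat_lit 10471706) (nat_lit 0) (nat_lit 0),Row.mk (nat_lit 15456) (nat_lit 32912) (nat_lit 6822) (nat_lit 61897) (nat_lit 10470346) (nat_lit 0) (nat_lit 0),Row.mk (nat_lit 15624) (nat_lit 32912) (nat_lit 8521) (nat_lit 61897) (nat_lit 10468647) (nat_lit 0) (nat_lit 0),Row.mk (nat_lit 15792) (nat_lit 32912) (nat_lit 10643) (nat_lit 61897) (nat_lit 10466525) (nat_lit 0) (nat_lit 0),Row.mk (nat_lit 15960) (nat_lit 32912) (nat_lit 13292) (nat_lit 61897) (nat_lit 10463876) (nat_lit 0) (nat_lit 0),Row.mk (nat_lit 16128) (nat_lit 0) (nat_lit 83286) (nat_lit 748) (nat_lit 10410485) (nat_lit 0) (nat_lit 0),Row.mk (nat_lit 16296) (nat_lit 561) (nat_lit 104022) (nat_lit 1309) (nat_lit 10393882) (nat_lit 0) (nat_lit 0),Row.mk (nat_lit 16464) (nat_lit 1122) (nat_lit 129921) (nat_lit 1870) (nat_lit 10373146) (nat_lit 0) (nat_lit 0),Row.mk (nat_lit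 16632) (nat_lit 1683) (nat_lit 162268) (nat_lit 2431) (nat_lit 10347247) (nat_lit 0) (nat_lit 0),Row.mk (nat_lit 16800) (nat_lit 2244) (nat_lit 202670) (nat_lit 2992) (nat_lit 10314900) (nat_lit 0) (nat_lit 0),Row.mk (nat_lit 16968) (nat_lit 2805) (nat_lit 253129) (nat_lit 3553) (nat_lit 10274499) (nat_lit 0) (nat_lit 0),Row.mk (nat_lit 17136) (nat_lit 3366) (nat_lit 316153) (nat_lit 4114) (nat_lit 10224039) (nat_lit 0) (nat_lit 0),Row.mk (nat_lit 17304) (nat_lit 3927) (nat_lit 394867) (nat_lit 4675) (nat_lit 10161015) (nat_lit 0) (nat_lit 0),Row.mk (nat_lit 17472) (nat_lit 4488) (nat_lit 493180) (nat_lit 5236) (nat_lit 10082301) (nat_lit 0) (nat_lit 0),Row.mk (nat_lit 17640) (nat_lit 5049) (nat_lit 615970) (nat_lit 5797) (nat_lit 9983988) (nat_lit 0) (nat_lit 0),Row.mk (nat_lit 17808) (nat_lit 5610) (nat_lit 769331) (nat_lit 6358) (nat_lit 9861198) (nat_lit 0) (nat_lit 0),Row.mk (nat_lit 17976) (nat_lit 6171) (nat_lit 960877) (nat_lit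 6919) (nat_lit 9707837) (nat_lit 0) (nat_lit 0),Row.mk (nat_lit 18144) (nat_lit 6732) (nat_lit 1200112) (nat_lit 7480) (nat_lit 9516291) (nat_lit 0) (nat_lit 0),Row.mk (nat_lit 18312) (nat_lit 7293) (nat_lit 1498911) (nat_lit 8041) (nat_lit 9277056) (nat_lit 0) (nat_lit 0),Row.mk (nat_lit 18480) (nat_lit 7854) (nat_lit 1872104) (nat_lit 8602) (nat_lit 8978257) (nat_lit 0) (nat_lit 0),Row.mk (nat_lit 18648) (nat_lit 8415) (nat_lit 2338212) (nat_lit 9163) (nat_lit 8605064) (nat_lit 0) (nat_lit 0),Row.mk (nat_lit 18816) (nat_lit 8976) (nat_lit 2920371) (nat_lit 9724) (nat_lit 8138956) (nat_lit 0) (nat_lit 0),Row.mk (nat_lit 18984) (nat_lit 9537) (nat_lit 3647473) (nat_lit 10285) (nat_lit 7556797) (nat_lit 0) (nat_lit 0),Row.mk (nat_lit 19152) (nat_lit 10098) (nat_lit 4555606) (nat_lit 10846) (nat_lit 6829695) (nat_lit 0) (nat_lit 0),Row.mk (nat_lit 19320) (nat_lit 10659) (nat_lit 5689842) (nat_lit 11407) (nat_lit 5921562) (nat_lit 0)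 (nat_lit 0),Row.mk (nat_lit 19488) (nat_lit 11220) (nat_lit 7106475) (nat_lit 11968) (nat_lit 4787326) (nat_lit 0) (nat_lit 0),Row.mk (nat_lit 19656) (nat_lit 11781) (nat_lit 8875816) (nat_lit 12716) (nat_lit 3370693) (nat_lit 0) (nat_lit 0),Row.mk (nat_lit 19824) (nat_lit 12529) (nat_lit 11085681) (nat_lit 13464) (nat_lit 1601352) (nat_lit 0) (nat_lit 0),Row.mk (nat_lit 19992) (nat_lit 12342) (nat_lit 760016) (nat_lit 13277) (nat_lit 12477219) (nat_lit 0) (nat_lit 0),Row.mk (nat_lit 20160) (nat_lit 13090) (nat_lit 4207274) (nat_lit 14025) (nat_lit 9717152) (nat_lit 0) (nat_lit 0),Row.mk (nat_lit 20328) (nat_lit 13838) (nat_lit 8512815) (nat_lit 15147) (nat_lit 6269894) (nat_lit 0) (nat_lit 0),Row.mk (nat_lit 20496) (nat_lit 14960) (nat_lit 13890332) (nat_lit 16456) (nat_lit 1964353) (nat_lit 0) (nat_lit 0),Row.mk (nat_lit 20664) (nat_lit 14773) (nat_lit 4262958) (nat_lit 16269) (nat_lit 12930599) (nat_lit 0) (nat_lit 0),Row.mk (nat_lit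 20832) (nat_lit 16082) (nat_lit 12651566) (nat_lit 17765) (nat_lit 6214210) (nat_lit 0) (nat_lit 0),Row.mk (nat_lit 21000) (nat_lit 15895) (nat_lit 2715770) (nat_lit 17578) (nat_lit 18238567) (nat_lit 0) (nat_lit 0),Row.mk (nat_lit 21168) (nat_lit 17391) (nat_lit 15801501) (nat_lit 19635) (nat_lit 7761398) (nat_lit 0) (nat_lit 0),Row.mk (nat_lit 21336) (nat_lit 17204) (nat_lit 6649963) (nat_lit 19448) (nat_lit 20170968) (nat_lit 0) (nat_lit 0),Row.mk (nat_lit 21504) (nat_lit 19261) (nat_lit 27062928) (nat_lit 25806) (nat_lit 3827205) (nat_lit 0) (nat_lit 0),Row.mk (nat_lit 21672) (nat_lit 19074) (nat_lit 20715213) (nat_lit 25619) (nat_lit 15257256) (nat_lit 0) (nat_lit 0),Row.mk (nat_lit 21840) (nat_lit 18887) (nat_lit 12787070) (nat_lit 25432) (nat_lit 29533114) (nat_lit 0) (nat_lit 0),Row.mk (nat_lit 22008) (nat_lit 18700) (nat_lit 2885011) (nat_lit 25245) (nat_lit 47363316) (nat_lit 0) (nat_lit 0),Row.mk (nat_lit 22176) (nat_lit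 25058) (nat_lit 52558229) (nat_lit 31603) (nat_lit 7592157) (nat_lit 0) (nat_lit 0),Row.mk (nat_lit 22344) (nat_lit 24871) (nat_lit 52558229) (nat_lit 31416) (nat_lit 19959590) (nat_lit 0) (nat_lit 0),Row.mk (nat_lit 22512) (nat_lit 24684) (nat_lit 52558229) (nat_lit 31229) (nat_lit 35406216) (nat_lit 0) (nat_lit 0),Row.mk (nat_lit 22680) (nat_lit 24497) (nat_lit 52558229) (nat_lit 31042) (nat_lit 54698679) (nat_lit 0) (nat_lit 0),Row.mk (nat_lit 22848) (nat_lit 24310) (nat_lit 52558229) (nat_lit 30855) (nat_lit 78794499) (nat_lit 0) (nat_lit 0),Row.mk (nat_lit 23016) (nat_lit 24123) (nat_lit 52558229) (nat_lit 30668) (nat_lit 108889598) (nat_lit 0) (nat_lit 0),Row.mk (nat_lit 23184) (nat_lit 23936) (nat_lit 52558229) (nat_lit 30481) (nat_lit 146477650) (nat_lit 0) (nat_lit 0),Row.mk (nat_lit 23352) (nat_lit 23749) (nat_lit 52558229) (nat_lit 30294) (nat_lit 193424220) (nat_lit 0) (nat_lit 0),Row.mk (nat_lit 23520) (nat_lit 23562)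 (nat_lit 52558229) (nat_lit 30107) (nat_lit 252059354) (nat_lit 0) (nat_lit 0),Row.mk (nat_lit 23688) (nat_lit 23375) (nat_lit 52558229) (nat_lit 29920) (nat_lit 325293222) (nat_lit 0) (nat_lit 0),Row.mk (nat_lit 23856) (nat_lit 23188) (nat_lit 52558229) (nat_lit 29733) (nat_lit 416760556) (nat_lit 0) (nat_lit 0),Row.mk (nat_lit 24024) (nat_lit 23001) (nat_lit 52558229) (nat_lit 29546) (nat_lit 531001050) (nat_lit 0) (nat_lit 0),Row.mk (nat_lit 24192) (nat_lit 22814) (nat_lit 52558229) (nat_lit 29359) (nat_lit 673684671) (nat_lit 0) (nat_lit 0),Row.mk (nat_lit 24360) (nat_lit 22627) (nat_lit 52558229) (nat_lit 29172) (nat_lit 851893071) (nat_lit 0) (nat_lit 0),Row.mk (nat_lit 24528) (nat_lit 22440) (nat_lit 52558229) (nat_lit 28985) (nat_lit 1074471064) (nat_lit 0) (nat_lit 0),Row.mk (nat_lit 24696) (nat_lit 22253) (nat_lit 52558229) (nat_lit 28798) (nat_lit 1352465608) (nat_lit 0) (nat_lit 0),Row.mk (nat_lit 24864) (nat_lit 22066)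 (nat_lit 52558229) (nat_lit 28611) (nat_lit 1699674087) (nat_lit 0) (nat_lit 0),Row.mk (nat_lit 25032) (nat_lit 21879) (nat_lit 52558229) (nat_lit 28424) (nat_lit 2133329102) (nat_lit 0) (nat_lit 0),Row.mk (nat_lit 25200) (nat_lit 21692) (nat_lit 52558229) (nat_lit 28237) (nat_lit 2674953753) (nat_lit 0) (nat_lit 0),Row.mk (nat_lit 25368) (nat_lit 21505) (nat_lit 52558229) (nat_lit 28050) (nat_lit 3351429877) (nat_lit 0) (nat_lit 0),Row.mk (nat_lit 25536) (nat_lit 21318) (nat_lit 52558229) (nat_lit 27863) (nat_lit 4196332236) (nat_lit 0) (nat_lit 0),Row.mk (nat_lit 25704) (nat_lit 21131) (nat_lit 52558229) (nat_lit 27676) (nat_lit 5251594900) (nat_lit 0) (nat_lit 0),Row.mk (nat_lit 25872) (nat_lit 20944) (nat_lit 52558229) (nat_lit 27489) (nat_lit 6569592511) (nat_lit 0) (nat_lit 0),Row.mk (nat_lit 26040) (nat_lit 32912) (nat_lit 10477169) (nat_lit 62084) (nat_lit 8247343624) (nat_lit 0) (nat_lit 0),Row.mk (nat_lit 26208) (nat_lit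 32912) (nat_lit 10477169) (nat_lit 62084) (nat_lit 10303341791) (nat_lit 0) (nat_lit 0),Row.mk (nat_lit 26376) (nat_lit 32912) (nat_lit 10477169) (nat_lit 62084) (nat_lit 12871233904) (nat_lit 0) (nat_lit 0),Row.mk (nat_lit 26544) (nat_lit 32912) (nat_lit 10477169) (nat_lit 62084) (nat_lit 16078469205) (nat_lit 0) (nat_lit 0)],
[Row.mk (nat_lit 9072) (nat_lit 32912) (nat_lit 1) (nat_lit 61897) (nat_lit 13085729) (nat_lit 0) (nat_lit 0),Row.mk (nat_lit 9240) (nat_lit 32912) (nat_lit 1) (nat_lit 61897) (nat_lit 13085729) (nat_lit 0) (nat_lit 0),Row.mk (nat_lit 9408) (nat_lit 32912) (nat_lit 2) (nat_lit 61897) (nat_lit 13085729) (nat_lit 0) (nat_lit 0),Row.mk (nat_lit 9576) (nat_lit 32912) (nat_lit 2) (nat_lit 61897) (nat_lit 13085728) (nat_lit 0) (nat_lit 0),Row.mk (nat_lit 9744) (nat_lit 32912) (nat_lit 3) (nat_lit 61897) (nat_lit 13085727) (nat_lit 0) (nat_lit 0),Row.mk (nat_lit 9912) (nat_lit 32912) (nat_lit 4) (nat_lit 61897) (nat_lit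 13085726) (nat_lit 0) (nat_lit 0),Row.mk (nat_lit 10080) (nat_lit 32912) (nat_lit 5) (nat_lit 61897) (nat_lit 13085725) (nat_lit 0) (nat_lit 0),Row.mk (nat_lit 10248) (nat_lit 32912) (nat_lit 6) (nat_lit 61897) (nat_lit 13085724) (nat_lit 0) (nat_lit 0),Row.mk (nat_lit 10416) (nat_lit 32912) (nat_lit 8) (nat_lit 61897) (nat_lit 13085722) (nat_lit 0) (nat_lit 0),Row.mk (nat_lit 10584) (nat_lit 32912) (nat_lit 10) (nat_lit 61897) (nat_lit 13085720) (nat_lit 0) (nat_lit 0),Row.mk (nat_lit 10752) (nat_lit 32912) (nat_lit 13) (nat_lit 61897) (nat_lit 13085717) (nat_lit 0) (nat_lit 0),Row.mk (nat_lit 10920) (nat_lit 32912) (nat_lit 16) (nat_lit 61897) (nat_lit 13085714) (nat_lit 0) (nat_lit 0),Row.mk (nat_lit 11088) (nat_lit 32912) (nat_lit 21) (nat_lit 61897) (nat_lit 13085710) (nat_lit 0) (nat_lit 0),Row.mk (nat_lit 11256) (nat_lit 32912) (nat_lit 26) (nat_lit 61897) (nat_lit 13085705) (nat_lit 0) (nat_lit 0),Row.mk (nat_lit 11424) (nat_lit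 32912) (nat_lit 32) (nat_lit 61897) (nat_lit 13085698) (nat_lit 0) (nat_lit 0),Row.mk (nat_lit 11592) (nat_lit 32912) (nat_lit 41) (nat_lit 61897) (nat_lit 13085690) (nat_lit 0) (nat_lit 0),Row.mk (nat_lit 11760) (nat_lit 32912) (nat_lit 51) (nat_lit 61897) (nat_lit 13085680) (nat_lit 0) (nat_lit 0),Row.mk (nat_lit 11928) (nat_lit 32912) (nat_lit 64) (nat_lit 61897) (nat_lit 13085667) (nat_lit 0) (nat_lit 0),Row.mk (nat_lit 12096) (nat_lit 32912) (nat_lit 79) (nat_lit 61897) (nat_lit 13085651) (nat_lit 0) (nat_lit 0),Row.mk (nat_lit 12264) (nat_lit 32912) (nat_lit 99) (nat_lit 61897) (nat_lit 13085631) (nat_lit 0) (nat_lit 0),Row.mk (nat_lit 12432) (nat_lit 32912) (nat_lit 124) (nat_lit 61897) (nat_lit 13085606) (nat_lit 0) (nat_lit 0),Row.mk (nat_lit 12600) (nat_lit 32912) (nat_lit 155) (nat_lit 61897) (nat_lit 13085575) (nat_lit 0) (nat_lit 0),Row.mk (nat_lit 12768) (nat_lit 32912) (nat_lit 194) (nat_lit 61897) (nat_lit 13085536)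 (nat_lit 0) (nat_lit 0),Row.mk (nat_lit 12936) (nat_lit 32912) (nat_lit 243) (nat_lit 61897) (nat_lit 13085488) (nat_lit 0) (nat_lit 0),Row.mk (nat_lit 13104) (nat_lit 32912) (nat_lit 303) (nat_lit 61897) (nat_lit 13085427) (nat_lit 0) (nat_lit 0),Row.mk (nat_lit 13272) (nat_lit 32912) (nat_lit 379) (nat_lit 61897) (nat_lit 13085352) (nat_lit 0) (nat_lit 0),Row.mk (nat_lit 13440) (nat_lit 32912) (nat_lit 473) (nat_lit 61897) (nat_lit 13085257) (nat_lit 0) (nat_lit 0),Row.mk (nat_lit 13608) (nat_lit 32912) (nat_lit 591) (nat_lit 61897) (nat_lit 13085139) (nat_lit 0) (nat_lit 0),Row.mk (nat_lit 13776) (nat_lit 32912) (nat_lit 738) (nat_lit 61897) (nat_lit 13084992) (nat_lit 0) (nat_lit 0),Row.mk (nat_lit 13944) (nat_lit 32912) (nat_lit 922) (nat_lit 61897) (nat_lit 13084808) (nat_lit 0) (nat_lit 0),Row.mk (nat_lit 14112) (nat_lit 32912) (nat_lit 1152) (nat_lit 61897) (nat_lit 13084579) (nat_lit 0) (nat_lit 0),Row.mk (nat_lit 14280)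 (nat_lit 32912) (nat_lit 1439) (nat_lit 61897) (nat_lit 13084292) (nat_lit 0) (nat_lit 0),Row.mk (nat_lit 14448) (nat_lit 32912) (nat_lit 1797) (nat_lit 61897) (nat_lit 13083934) (nat_lit 0) (nat_lit 0),Row.mk (nat_lit 14616) (nat_lit 32912) (nat_lit 2244) (nat_lit 61897) (nat_lit 13083486) (nat_lit 0) (nat_lit 0),Row.mk (nat_lit 14784) (nat_lit 32912) (nat_lit 2803) (nat_lit 61897) (nat_lit 13082927) (nat_lit 0) (nat_lit 0),Row.mk (nat_lit 14952) (nat_lit 32912) (nat_lit 3501) (nat_lit 61897) (nat_lit 13082229) (nat_lit 0) (nat_lit 0),Row.mk (nat_lit 15120) (nat_lit 32912) (nat_lit 4373) (nat_lit 61897) (nat_lit 13081357) (nat_lit 0) (nat_lit 0),Row.mk (nat_lit 15288) (nat_lit 32912) (nat_lit 5462) (nat_lit 61897) (nat_lit 13080268) (nat_lit 0) (nat_lit 0),Row.mk (nat_lit 15456) (nat_lit 32912) (nat_lit 6822) (nat_lit 61897) (nat_lit 13078908) (nat_lit 0) (nat_lit 0),Row.mk (nat_lit 15624) (nat_lit 32912) (nat_lit 8521) (nat_lit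 61897) (nat_lit 13077209) (nat_lit 0) (nat_lit 0),Row.mk (nat_lit 15792) (nat_lit 32912) (nat_lit 10643) (nat_lit 61897) (nat_lit 13075088) (nat_lit 0) (nat_lit 0),Row.mk (nat_lit 15960) (nat_lit 32912) (nat_lit 13292) (nat_lit 61897) (nat_lit 13072438) (nat_lit 0) (nat_lit 0),Row.mk (nat_lit 16128) (nat_lit 32912) (nat_lit 16602) (nat_lit 61897) (nat_lit 13069128) (nat_lit 0) (nat_lit 0),Row.mk (nat_lit 16296) (nat_lit 0) (nat_lit 104022) (nat_lit 748) (nat_lit 13002445) (nat_lit 0) (nat_lit 0),Row.mk (nat_lit 16464) (nat_lit 561) (nat_lit 129921) (nat_lit 1309) (nat_lit 12981708) (nat_lit 0) (nat_lit 0),Row.mk (nat_lit 16632) (nat_lit 1122) (nat_lit 162268) (nat_lit 1870) (nat_lit 12955809) (nat_lit 0) (nat_lit 0),Row.mk (nat_lit 16800) (nat_lit 1683) (nat_lit 202670) (nat_lit 2431) (nat_lit 12923462) (nat_lit 0) (nat_lit 0),Row.mk (nat_lit 16968) (nat_lit 2244) (nat_lit 253129) (nat_lit 2992) (nat_lit 12883061) (nat_lit 0) (nat_lit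 0),Row.mk (nat_lit 17136) (nat_lit 2805) (nat_lit 316153) (nat_lit 3553) (nat_lit 12832601) (nat_lit 0) (nat_lit 0),Row.mk (nat_lit 17304) (nat_lit 3366) (nat_lit 394867) (nat_lit 4114) (nat_lit 12769578) (nat_lit 0) (nat_lit 0),Row.mk (nat_lit 17472) (nat_lit 3927) (nat_lit 493180) (nat_lit 4675) (nat_lit 12690863) (nat_lit 0) (nat_lit 0),Row.mk (nat_lit 17640) (nat_lit 4488) (nat_lit 615970) (nat_lit 5236) (nat_lit 12592551) (nat_lit 0) (nat_lit 0),Row.mk (nat_lit 17808) (nat_lit 5049) (nat_lit 769331) (nat_lit 5797) (nat_lit 12469761) (nat_lit 0) (nat_lit 0),Row.mk (nat_lit 17976) (nat_lit 5610) (nat_lit 960877) (nat_lit 6358) (nat_lit 12316399) (nat_lit 0) (nat_lit 0),Row.mk (nat_lit 18144) (nat_lit 6171) (nat_lit 1200112) (nat_lit 6919) (nat_lit 12124854) (nat_lit 0) (nat_lit 0),Row.mk (nat_lit 18312) (nat_lit 6732) (nat_lit 1498911) (nat_lit 7480) (nat_lit 11885619) (nat_lit 0) (nat_lit 0),Row.mk (nat_lit 18480) (nat_lit 7293)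 (nat_lit 1872104) (nat_lit 8041) (nat_lit 11586820) (nat_lit 0) (nat_lit 0),Row.mk (nat_lit 18648) (nat_lit 7854) (nat_lit 2338212) (nat_lit 8602) (nat_lit 11213627) (nat_lit 0) (nat_lit 0),Row.mk (nat_lit 18816) (nat_lit 8415) (nat_lit 2920371) (nat_lit 9163) (nat_lit 10747518) (nat_lit 0) (nat_lit 0),Row.mk (nat_lit 18984) (nat_lit 8976) (nat_lit 3647473) (nat_lit 9724) (nat_lit 10165360) (nat_lit 0) (nat_lit 0),Row.mk (nat_lit 19152) (nat_lit 9537) (nat_lit 4555606) (nat_lit 10285) (nat_lit 9438257) (nat_lit 0) (nat_lit 0),Row.mk (nat_lit 19320) (nat_lit 10098) (nat_lit 5689842) (nat_lit 10846) (nat_lit 8530125) (nat_lit 0) (nat_lit 0),Row.mk (nat_lit 19488) (nat_lit 10659) (nat_lit 7106475) (nat_lit 11407) (nat_lit 7395889) (nat_lit 0) (nat_lit 0),Row.mk (nat_lit 19656) (nat_lit 11220) (nat_lit 8875816) (nat_lit 11968) (nat_lit 5979255) (nat_lit 0) (nat_lit 0),Row.mk (nat_lit 19824) (nat_lit 11781) (nat_lit 11085681) (nat_lit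 12716) (nat_lit 4209914) (nat_lit 0) (nat_lit 0),Row.mk (nat_lit 19992) (nat_lit 12529) (nat_lit 13845748) (nat_lit 13464) (nat_lit 2000050) (nat_lit 0) (nat_lit 0),Row.mk (nat_lit 20160) (nat_lit 12342) (nat_lit 949242) (nat_lit 13277) (nat_lit 15583745) (nat_lit 0) (nat_lit 0),Row.mk (nat_lit 20328) (nat_lit 13090) (nat_lit 5254783) (nat_lit 14025) (nat_lit 12136488) (nat_lit 0) (nat_lit 0),Row.mk (nat_lit 20496) (nat_lit 13838) (nat_lit 10632301) (nat_lit 15147) (nat_lit 7830947) (nat_lit 0) (nat_lit 0),Row.mk (nat_lit 20664) (nat_lit 14960) (nat_lit 17348690) (nat_lit 16456) (nat_lit 2453430) (nat_lit 0) (nat_lit 0),Row.mk (nat_lit 20832) (nat_lit 14773) (nat_lit 5324332) (nat_lit 16269) (nat_lit 16150006) (nat_lit 0) (nat_lit 0),Row.mk (nat_lit 21000) (nat_lit 16082) (nat_lit 15801501) (nat_lit 17765) (nat_lit 7761398) (nat_lit 0) (nat_lit 0),Row.mk (nat_lit 21168) (nat_lit 15895) (nat_lit 3391931) (nat_lit 17578) (nat_lit 22779531)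 (nat_lit 0) (nat_lit 0),Row.mk (nat_lit 21336) (nat_lit 17391) (nat_lit 19735694) (nat_lit 19635) (nat_lit 9693799) (nat_lit 0) (nat_lit 0),Row.mk (nat_lit 21504) (nat_lit 17204) (nat_lit 8305643) (nat_lit 19448) (nat_lit 25193053) (nat_lit 0) (nat_lit 0),Row.mk (nat_lit 21672) (nat_lit 19261) (nat_lit 33800944) (nat_lit 25806) (nat_lit 4780087) (nat_lit 0) (nat_lit 0),Row.mk (nat_lit 21840) (nat_lit 19074) (nat_lit 25872802) (nat_lit 25619) (nat_lit 19055945) (nat_lit 0) (nat_lit 0),Row.mk (nat_lit 22008) (nat_lit 18887) (nat_lit 15970742) (nat_lit 25432) (nat_lit 36886147) (nat_lit 0) (nat_lit 0),Row.mk (nat_lit 22176) (nat_lit 18700) (nat_lit 3603309) (nat_lit 25245) (nat_lit 59155640) (nat_lit 0) (nat_lit 0),Row.mk (nat_lit 22344) (nat_lit 25058) (nat_lit 65643961) (nat_lit 31603) (nat_lit 9482421) (nat_lit 0) (nat_lit 0),Row.mk (nat_lit 22512) (nat_lit 24871) (nat_lit 65643961) (nat_lit 31416) (nat_lit 24929047) (nat_lit 0) (nat_lit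 0),Row.mk (nat_lit 22680) (nat_lit 24684) (nat_lit 65643961) (nat_lit 31229) (nat_lit 44221510) (nat_lit 0) (nat_lit 0),Row.mk (nat_lit 22848) (nat_lit 24497) (nat_lit 65643961) (nat_lit 31042) (nat_lit 68317330) (nat_lit 0) (nat_lit 0),Row.mk (nat_lit 23016) (nat_lit 24310) (nat_lit 65643961) (nat_lit 30855) (nat_lit 98412429) (nat_lit 0) (nat_lit 0),Row.mk (nat_lit 23184) (nat_lit 24123) (nat_lit 65643961) (nat_lit 30668) (nat_lit 136000481) (nat_lit 0) (nat_lit 0),Row.mk (nat_lit 23352) (nat_lit 23936) (nat_lit 65643961) (nat_lit 30481) (nat_lit 182947051) (nat_lit 0) (nat_lit 0),Row.mk (nat_lit 23520) (nat_lit 23749) (nat_lit 65643961) (nat_lit 30294) (nat_lit 241582185) (nat_lit 0) (nat_lit 0),Row.mk (nat_lit 23688) (nat_lit 23562) (nat_lit 65643961) (nat_lit 30107) (nat_lit 314816053) (nat_lit 0) (nat_lit 0),Row.mk (nat_lit 23856) (nat_lit 23375) (nat_lit 65643961) (nat_lit 29920) (nat_lit 406283387) (nat_lit 0) (nat_lit 0),Row.mk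 (nat_lit 24024) (nat_lit 23188) (nat_lit 65643961) (nat_lit 29733) (nat_lit 520523881) (nat_lit 0) (nat_lit 0),Row.mk (nat_lit 24192) (nat_lit 23001) (nat_lit 65643961) (nat_lit 29546) (nat_lit 663207502) (nat_lit 0) (nat_lit 0),Row.mk (nat_lit 24360) (nat_lit 22814) (nat_lit 65643961) (nat_lit 29359) (nat_lit 841415902) (nat_lit 0) (nat_lit 0),Row.mk (nat_lit 24528) (nat_lit 22627) (nat_lit 65643961) (nat_lit 29172) (nat_lit 1063993895) (nat_lit 0) (nat_lit 0),Row.mk (nat_lit 24696) (nat_lit 22440) (nat_lit 65643961) (nat_lit 28985) (nat_lit 1341988439) (nat_lit 0) (nat_lit 0),Row.mk (nat_lit 24864) (nat_lit 22253) (nat_lit 65643961) (nat_lit 28798) (nat_lit 1689196918) (nat_lit 0) (nat_lit 0),Row.mk (nat_lit 25032) (nat_lit 22066) (nat_lit 65643961) (nat_lit 28611) (nat_lit 2122851933) (nat_lit 0) (nat_lit 0),Row.mk (nat_lit 25200) (nat_lit 21879) (nat_lit 65643961) (nat_lit 28424) (nat_lit 2664476584) (nat_lit 0) (nat_lit 0),Row.mk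 (nat_lit 25368) (nat_lit 21692) (nat_lit 65643961) (nat_lit 28237) (nat_lit 3340952708) (nat_lit 0) (nat_lit 0),Row.mk (nat_lit 25536) (nat_lit 21505) (nat_lit 65643961) (nat_lit 28050) (nat_lit 4185855067) (nat_lit 0) (nat_lit 0),Row.mk (nat_lit 25704) (nat_lit 21318) (nat_lit 65643961) (nat_lit 27863) (nat_lit 5241117731) (nat_lit 0) (nat_lit 0),Row.mk (nat_lit 25872) (nat_lit 21131) (nat_lit 65643961) (nat_lit 27676) (nat_lit 6559115342) (nat_lit 0) (nat_lit 0),Row.mk (nat_lit 26040) (nat_lit 20944) (nat_lit 65643961) (nat_lit 27489) (nat_lit 8205262563) (nat_lit 0) (nat_lit 0),Row.mk (nat_lit 26208) (nat_lit 32912) (nat_lit 13085731) (nat_lit 62084) (nat_lit 10300733229) (nat_lit 0) (nat_lit 0),Row.mk (nat_lit 26376) (nat_lit 32912) (nat_lit 13085731) (nat_lit 62084) (nat_lit 12868625341) (nat_lit 0) (nat_lit 0),Row.mk (nat_lit 26544) (nat_lit 32912) (nat_lit 13085731) (nat_lit 62084) (nat_lit 16075860643) (nat_lit 0) (nat_lit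 0),Row.mk (nat_lit 26712) (nat_lit 32912) (nat_lit 13085731) (nat_lit 62084) (nat_lit 20081620163) (nat_lit 0) (nat_lit 0)],
[Row.mk (nat_lit 10416) (nat_lit 32912) (nat_lit 8) (nat_lit 61897) (nat_lit 16343754) (nat_lit 0) (nat_lit 0),Row.mk (nat_lit 10584) (nat_lit 32912) (nat_lit 10) (nat_lit 61897) (nat_lit 16343751) (nat_lit 0) (nat_lit 0),Row.mk (nat_lit 10752) (nat_lit 32912) (nat_lit 13) (nat_lit 61897) (nat_lit 16343749) (nat_lit 0) (nat_lit 0),Row.mk (nat_lit 10920) (nat_lit 32912) (nat_lit 16) (nat_lit 61897) (nat_lit 16343745) (nat_lit 0) (nat_lit 0),Row.mk (nat_lit 11088) (nat_lit 32912) (nat_lit 21) (nat_lit 61897) (nat_lit 16343741) (nat_lit 0) (nat_lit 0),Row.mk (nat_lit 11256) (nat_lit 32912) (nat_lit 26) (nat_lit 61897) (nat_lit 16343736) (nat_lit 0) (nat_lit 0),Row.mk (nat_lit 11424) (nat_lit 32912) (nat_lit 32) (nat_lit 61897) (nat_lit 16343729) (nat_lit 0) (nat_lit 0),Row.mk (nat_lit 11592) (nat_lit 32912) (nat_lit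 41) (nat_lit 61897) (nat_lit 16343721) (nat_lit 0) (nat_lit 0),Row.mk (nat_lit 11760) (nat_lit 32912) (nat_lit 51) (nat_lit 61897) (nat_lit 16343711) (nat_lit 0) (nat_lit 0),Row.mk (nat_lit 11928) (nat_lit 32912) (nat_lit 64) (nat_lit 61897) (nat_lit 16343698) (nat_lit 0) (nat_lit 0),Row.mk (nat_lit 12096) (nat_lit 32912) (nat_lit 79) (nat_lit 61897) (nat_lit 16343682) (nat_lit 0) (nat_lit 0),Row.mk (nat_lit 12264) (nat_lit 32912) (nat_lit 99) (nat_lit 61897) (nat_lit 16343662) (nat_lit 0) (nat_lit 0),Row.mk (nat_lit 12432) (nat_lit 32912) (nat_lit 124) (nat_lit 61897) (nat_lit 16343638) (nat_lit 0) (nat_lit 0),Row.mk (nat_lit 12600) (nat_lit 32912) (nat_lit 155) (nat_lit 61897) (nat_lit 16343607) (nat_lit 0) (nat_lit 0),Row.mk (nat_lit 12768) (nat_lit 32912) (nat_lit 194) (nat_lit 61897) (nat_lit 16343568) (nat_lit 0) (nat_lit 0),Row.mk (nat_lit 12936) (nat_lit 32912) (nat_lit 243) (nat_lit 61897) (nat_lit 16343519) (nat_lit 0) (nat_lit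 0),Row.mk (nat_lit 13104) (nat_lit 32912) (nat_lit 303) (nat_lit 61897) (nat_lit 16343459) (nat_lit 0) (nat_lit 0),Row.mk (nat_lit 13272) (nat_lit 32912) (nat_lit 379) (nat_lit 61897) (nat_lit 16343383) (nat_lit 0) (nat_lit 0),Row.mk (nat_lit 13440) (nat_lit 32912) (nat_lit 473) (nat_lit 61897) (nat_lit 16343289) (nat_lit 0) (nat_lit 0),Row.mk (nat_lit 13608) (nat_lit 32912) (nat_lit 591) (nat_lit 61897) (nat_lit 16343171) (nat_lit 0) (nat_lit 0),Row.mk (nat_lit 13776) (nat_lit 32912) (nat_lit 738) (nat_lit 61897) (nat_lit 16343024) (nat_lit 0) (nat_lit 0),Row.mk (nat_lit 13944) (nat_lit 32912) (nat_lit 922) (nat_lit 61897) (nat_lit 16342840) (nat_lit 0) (nat_lit 0),Row.mk (nat_lit 14112) (nat_lit 32912) (nat_lit 1152) (nat_lit 61897) (nat_lit 16342610) (nat_lit 0) (nat_lit 0),Row.mk (nat_lit 14280) (nat_lit 32912) (nat_lit 1439) (nat_lit 61897) (nat_lit 16342323) (nat_lit 0) (nat_lit 0),Row.mk (nat_lit 14448) (nat_lit 32912) (nat_lit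 1797) (nat_lit 61897) (nat_lit 16341965) (nat_lit 0) (nat_lit 0),Row.mk (nat_lit 14616) (nat_lit 32912) (nat_lit 2244) (nat_lit 61897) (nat_lit 16341517) (nat_lit 0) (nat_lit 0),Row.mk (nat_lit 14784) (nat_lit 32912) (nat_lit 2803) (nat_lit 61897) (nat_lit 16340959) (nat_lit 0) (nat_lit 0),Row.mk (nat_lit 14952) (nat_lit 32912) (nat_lit 3501) (nat_lit 61897) (nat_lit 16340260) (nat_lit 0) (nat_lit 0),Row.mk (nat_lit 15120) (nat_lit 32912) (nat_lit 4373) (nat_lit 61897) (nat_lit 16339389) (nat_lit 0) (nat_lit 0),Row.mk (nat_lit 15288) (nat_lit 32912) (nat_lit 5462) (nat_lit 61897) (nat_lit 16338300) (nat_lit 0) (nat_lit 0),Row.mk (nat_lit 15456) (nat_lit 32912) (nat_lit 6822) (nat_lit 61897) (nat_lit 16336940) (nat_lit 0) (nat_lit 0),Row.mk (nat_lit 15624) (nat_lit 32912) (nat_lit 8521) (nat_lit 61897) (nat_lit 16335241) (nat_lit 0) (nat_lit 0),Row.mk (nat_lit 15792) (nat_lit 32912) (nat_lit 10643) (nat_lit 61897) (nat_lit 16333119)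 (nat_lit 0) (nat_lit 0),Row.mk (nat_lit 15960) (nat_lit 32912) (nat_lit 13292) (nat_lit 61897) (nat_lit 16330469) (nat_lit 0) (nat_lit 0),Row.mk (nat_lit 16128) (nat_lit 32912) (nat_lit 16602) (nat_lit 61897) (nat_lit 16327160) (nat_lit 0) (nat_lit 0),Row.mk (nat_lit 16296) (nat_lit 32912) (nat_lit 20736) (nat_lit 61897) (nat_lit 16323026) (nat_lit 0) (nat_lit 0),Row.mk (nat_lit 16464) (nat_lit 0) (nat_lit 129921) (nat_lit 748) (nat_lit 16239740) (nat_lit 0) (nat_lit 0),Row.mk (nat_lit 16632) (nat_lit 561) (nat_lit 162268) (nat_lit 1309) (nat_lit 16213841) (nat_lit 0) (nat_lit 0),Row.mk (nat_lit 16800) (nat_lit 1122) (nat_lit 202670) (nat_lit 1870) (nat_lit 16181493) (nat_lit 0) (nat_lit 0),Row.mk (nat_lit 16968) (nat_lit 1683) (nat_lit 253129) (nat_lit 2431) (nat_lit 16141092) (nat_lit 0) (nat_lit 0),Row.mk (nat_lit 17136) (nat_lit 2244) (nat_lit 316153) (nat_lit 2992) (nat_lit 16090632) (nat_lit 0) (nat_lit 0),Row.mk (nat_lit 17304)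 (nat_lit 2805) (nat_lit 394867) (nat_lit 3553) (nat_lit 16027609) (nat_lit 0) (nat_lit 0),Row.mk (nat_lit 17472) (nat_lit 3366) (nat_lit 493180) (nat_lit 4114) (nat_lit 15948895) (nat_lit 0) (nat_lit 0),Row.mk (nat_lit 17640) (nat_lit 3927) (nat_lit 615970) (nat_lit 4675) (nat_lit 15850582) (nat_lit 0) (nat_lit 0),Row.mk (nat_lit 17808) (nat_lit 4488) (nat_lit 769331) (nat_lit 5236) (nat_lit 15727792) (nat_lit 0) (nat_lit 0),Row.mk (nat_lit 17976) (nat_lit 5049) (nat_lit 960877) (nat_lit 5797) (nat_lit 15574430) (nat_lit 0) (nat_lit 0),Row.mk (nat_lit 18144) (nat_lit 5610) (nat_lit 1200112) (nat_lit 6358) (nat_lit 15382885) (nat_lit 0) (nat_lit 0),Row.mk (nat_lit 18312) (nat_lit 6171) (nat_lit 1498911) (nat_lit 6919) (nat_lit 15143650) (nat_lit 0) (nat_lit 0),Row.mk (nat_lit 18480) (nat_lit 6732) (nat_lit 1872104) (nat_lit 7480) (nat_lit 14844851) (nat_lit 0) (nat_lit 0),Row.mk (nat_lit 18648) (nat_lit 7293) (nat_lit 2338212) (nat_lit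 8041) (nat_lit 14471658) (nat_lit 0) (nat_lit 0),Row.mk (nat_lit 18816) (nat_lit 7854) (nat_lit 2920371) (nat_lit 8602) (nat_lit 14005550) (nat_lit 0) (nat_lit 0),Row.mk (nat_lit 18984) (nat_lit 8415) (nat_lit 3647473) (nat_lit 9163) (nat_lit 13423391) (nat_lit 0) (nat_lit 0),Row.mk (nat_lit 19152) (nat_lit 8976) (nat_lit 4555606) (nat_lit 9724) (nat_lit 12696289) (nat_lit 0) (nat_lit 0),Row.mk (nat_lit 19320) (nat_lit 9537) (nat_lit 5689842) (nat_lit 10285) (nat_lit 11788156) (nat_lit 0) (nat_lit 0),Row.mk (nat_lit 19488) (nat_lit 10098) (nat_lit 7106475) (nat_lit 10846) (nat_lit 10653920) (nat_lit 0) (nat_lit 0),Row.mk (nat_lit 19656) (nat_lit 10659) (nat_lit 8875816) (nat_lit 11407) (nat_lit 9237287) (nat_lit 0) (nat_lit 0),Row.mk (nat_lit 19824) (nat_lit 11220) (nat_lit 11085681) (nat_lit 11968) (nat_lit 7467945) (nat_lit 0) (nat_lit 0),Row.mk (nat_lit 19992) (nat_lit 11781) (nat_lit 13845748) (nat_lit 12716) (nat_lit 5258081)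 (nat_lit 0) (nat_lit 0),Row.mk (nat_lit 20160) (nat_lit 12529) (nat_lit 17293005) (nat_lit 13464) (nat_lit 2498014) (nat_lit 0) (nat_lit 0),Row.mk (nat_lit 20328) (nat_lit 12342) (nat_lit 1185581) (nat_lit 13277) (nat_lit 19463722) (nat_lit 0) (nat_lit 0),Row.mk (nat_lit 20496) (nat_lit 13090) (nat_lit 6563098) (nat_lit 14025) (nat_lit 15158181) (nat_lit 0) (nat_lit 0),Row.mk (nat_lit 20664) (nat_lit 13838) (nat_lit 13279487) (nat_lit 15147) (nat_lit 9780664) (nat_lit 0) (nat_lit 0),Row.mk (nat_lit 20832) (nat_lit 14960) (nat_lit 21668095) (nat_lit 16456) (nat_lit 3064275) (nat_lit 0) (nat_lit 0),Row.mk (nat_lit 21000) (nat_lit 14773) (nat_lit 6649963) (nat_lit 16269) (nat_lit 20170968) (nat_lit 0) (nat_lit 0),Row.mk (nat_lit 21168) (nat_lit 16082) (nat_lit 19735694) (nat_lit 17765) (nat_lit 9693799) (nat_lit 0) (nat_lit 0),Row.mk (nat_lit 21336) (nat_lit 15895) (nat_lit 4236440) (nat_lit 17578) (nat_lit 28451084) (nat_lit 0) (nat_lit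 0),Row.mk (nat_lit 21504) (nat_lit 17391) (nat_lit 24649406) (nat_lit 19635) (nat_lit 12107321) (nat_lit 0) (nat_lit 0),Row.mk (nat_lit 21672) (nat_lit 17204) (nat_lit 10373548) (nat_lit 19448) (nat_lit 31465515) (nat_lit 0) (nat_lit 0),Row.mk (nat_lit 21840) (nat_lit 19261) (nat_lit 42216564) (nat_lit 25806) (nat_lit 5970214) (nat_lit 0) (nat_lit 0),Row.mk (nat_lit 22008) (nat_lit 19074) (nat_lit 32314505) (nat_lit 25619) (nat_lit 23800416) (nat_lit 0) (nat_lit 0),Row.mk (nat_lit 22176) (nat_lit 18887) (nat_lit 19947072) (nat_lit 25432) (nat_lit 46069908) (nat_lit 0) (nat_lit 0),Row.mk (nat_lit 22344) (nat_lit 18700) (nat_lit 4500446) (nat_lit 25245) (nat_lit 73883967) (nat_lit 0) (nat_lit 0),Row.mk (nat_lit 22512) (nat_lit 25058) (nat_lit 81987724) (nat_lit 31603) (nat_lit 11843315) (nat_lit 0) (nat_lit 0),Row.mk (nat_lit 22680) (nat_lit 24871) (nat_lit 81987724) (nat_lit 31416) (nat_lit 31135778) (nat_lit 0) (nat_lit 0),Row.mk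 (nat_lit 22848) (nat_lit 24684) (nat_lit 81987724) (nat_lit 31229) (nat_lit 55231599) (nat_lit 0) (nat_lit 0),Row.mk (nat_lit 23016) (nat_lit 24497) (nat_lit 81987724) (nat_lit 31042) (nat_lit 85326697) (nat_lit 0) (nat_lit 0),Row.mk (nat_lit 23184) (nat_lit 24310) (nat_lit 81987724) (nat_lit 30855) (nat_lit 122914750) (nat_lit 0) (nat_lit 0),Row.mk (nat_lit 23352) (nat_lit 24123) (nat_lit 81987724) (nat_lit 30668) (nat_lit 169861320) (nat_lit 0) (nat_lit 0),Row.mk (nat_lit 23520) (nat_lit 23936) (nat_lit 81987724) (nat_lit 30481) (nat_lit 228496454) (nat_lit 0) (nat_lit 0),Row.mk (nat_lit 23688) (nat_lit 23749) (nat_lit 81987724) (nat_lit 30294) (nat_lit 301730322) (nat_lit 0) (nat_lit 0),Row.mk (nat_lit 23856) (nat_lit 23562) (nat_lit 81987724) (nat_lit 30107) (nat_lit 393197656) (nat_lit 0) (nat_lit 0),Row.mk (nat_lit 24024) (nat_lit 23375) (nat_lit 81987724) (nat_lit 29920) (nat_lit 507438150) (nat_lit 0) (nat_lit 0),Row.mk (nat_lit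 24192) (nat_lit 23188) (nat_lit 81987724) (nat_lit 29733) (nat_lit 650121771) (nat_lit 0) (nat_lit 0),Row.mk (nat_lit 24360) (nat_lit 23001) (nat_lit 81987724) (nat_lit 29546) (nat_lit 828330171) (nat_lit 0) (nat_lit 0),Row.mk (nat_lit 24528) (nat_lit 22814) (nat_lit 81987724) (nat_lit 29359) (nat_lit 1050908164) (nat_lit 0) (nat_lit 0),Row.mk (nat_lit 24696) (nat_lit 22627) (nat_lit 81987724) (nat_lit 29172) (nat_lit 1328902708) (nat_lit 0) (nat_lit 0),Row.mk (nat_lit 24864) (nat_lit 22440) (nat_lit 81987724) (nat_lit 28985) (nat_lit 1676111187) (nat_lit 0) (nat_lit 0),Row.mk (nat_lit 25032) (nat_lit 22253) (nat_lit 81987724) (nat_lit 28798) (nat_lit 2109766201) (nat_lit 0) (nat_lit 0),Row.mk (nat_lit 25200) (nat_lit 22066) (nat_lit 81987724) (nat_lit 28611) (nat_lit 2651390853) (nat_lit 0) (nat_lit 0),Row.mk (nat_lit 25368) (nat_lit 21879) (nat_lit 81987724) (nat_lit 28424) (nat_lit 3327866976) (nat_lit 0) (nat_lit 0),Row.mk (nat_lit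 25536) (nat_lit 21692) (nat_lit 81987724) (nat_lit 28237) (nat_lit 4172769335) (nat_lit 0) (nat_lit 0),Row.mk (nat_lit 25704) (nat_lit 21505) (nat_lit 81987724) (nat_lit 28050) (nat_lit 5228032000) (nat_lit 0) (nat_lit 0),Row.mk (nat_lit 25872) (nat_lit 21318) (nat_lit 81987724) (nat_lit 27863) (nat_lit 6546029610) (nat_lit 0) (nat_lit 0),Row.mk (nat_lit 26040) (nat_lit 21131) (nat_lit 81987724) (nat_lit 27676) (nat_lit 8192176831) (nat_lit 0) (nat_lit 0),Row.mk (nat_lit 26208) (nat_lit 20944) (nat_lit 81987724) (nat_lit 27489) (nat_lit 10248174999) (nat_lit 0) (nat_lit 0),Row.mk (nat_lit 26376) (nat_lit 32912) (nat_lit 16343762) (nat_lit 62084) (nat_lit 12865367310) (nat_lit 0) (nat_lit 0),Row.mk (nat_lit 26544) (nat_lit 32912) (nat_lit 16343762) (nat_lit 62084) (nat_lit 16072602611) (nat_lit 0) (nat_lit 0),Row.mk (nat_lit 26712) (nat_lit 32912) (nat_lit 16343762) (nat_lit 62084) (nat_lit 20078362132) (nat_lit 0) (nat_lit 0)],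
[Row.mk (nat_lit 10752) (nat_lit 32912) (nat_lit 13) (nat_lit 61897) (nat_lit 20412951) (nat_lit 0) (nat_lit 0),Row.mk (nat_lit 10920) (nat_lit 32912) (nat_lit 16) (nat_lit 61897) (nat_lit 20412948) (nat_lit 0) (nat_lit 0),Row.mk (nat_lit 11088) (nat_lit 32912) (nat_lit 21) (nat_lit 61897) (nat_lit 20412944) (nat_lit 0) (nat_lit 0),Row.mk (nat_lit 11256) (nat_lit 32912) (nat_lit 26) (nat_lit 61897) (nat_lit 20412939) (nat_lit 0) (nat_lit 0),Row.mk (nat_lit 11424) (nat_lit 32912) (nat_lit 32) (nat_lit 61897) (nat_lit 20412932) (nat_lit 0) (nat_lit 0),Row.mk (nat_lit 11592) (nat_lit 32912) (nat_lit 41) (nat_lit 61897) (nat_lit 20412924) (nat_lit 0) (nat_lit 0),Row.mk (nat_lit 11760) (nat_lit 32912) (nat_lit 51) (nat_lit 61897) (nat_lit 20412914) (nat_lit 0) (nat_lit 0),Row.mk (nat_lit 11928) (nat_lit 32912) (nat_lit 64) (nat_lit 61897) (nat_lit 20412901) (nat_lit 0) (nat_lit 0),Row.mk (nat_lit 12096) (nat_lit 32912) (nat_lit 79) (nat_lit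 61897) (nat_lit 20412885) (nat_lit 0) (nat_lit 0),Row.mk (nat_lit 12264) (nat_lit 32912) (nat_lit 99) (nat_lit 61897) (nat_lit 20412865) (nat_lit 0) (nat_lit 0),Row.mk (nat_lit 12432) (nat_lit 32912) (nat_lit 124) (nat_lit 61897) (nat_lit 20412840) (nat_lit 0) (nat_lit 0),Row.mk (nat_lit 12600) (nat_lit 32912) (nat_lit 155) (nat_lit 61897) (nat_lit 20412809) (nat_lit 0) (nat_lit 0),Row.mk (nat_lit 12768) (nat_lit 32912) (nat_lit 194) (nat_lit 61897) (nat_lit 20412770) (nat_lit 0) (nat_lit 0),Row.mk (nat_lit 12936) (nat_lit 32912) (nat_lit 243) (nat_lit 61897) (nat_lit 20412722) (nat_lit 0) (nat_lit 0),Row.mk (nat_lit 13104) (nat_lit 32912) (nat_lit 303) (nat_lit 61897) (nat_lit 20412661) (nat_lit 0) (nat_lit 0),Row.mk (nat_lit 13272) (nat_lit 32912) (nat_lit 379) (nat_lit 61897) (nat_lit 20412586) (nat_lit 0) (nat_lit 0),Row.mk (nat_lit 13440) (nat_lit 32912) (nat_lit 473) (nat_lit 61897) (nat_lit 20412491) (nat_lit 0) (nat_lit 0),Row.mk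 (nat_lit 13608) (nat_lit 32912) (nat_lit 591) (nat_lit 61897) (nat_lit 20412374) (nat_lit 0) (nat_lit 0),Row.mk (nat_lit 13776) (nat_lit 32912) (nat_lit 738) (nat_lit 61897) (nat_lit 20412226) (nat_lit 0) (nat_lit 0),Row.mk (nat_lit 13944) (nat_lit 32912) (nat_lit 922) (nat_lit 61897) (nat_lit 20412042) (nat_lit 0) (nat_lit 0),Row.mk (nat_lit 14112) (nat_lit 32912) (nat_lit 1152) (nat_lit 61897) (nat_lit 20411813) (nat_lit 0) (nat_lit 0),Row.mk (nat_lit 14280) (nat_lit 32912) (nat_lit 1439) (nat_lit 61897) (nat_lit 20411526) (nat_lit 0) (nat_lit 0),Row.mk (nat_lit 14448) (nat_lit 32912) (nat_lit 1797) (nat_lit 61897) (nat_lit 20411168) (nat_lit 0) (nat_lit 0),Row.mk (nat_lit 14616) (nat_lit 32912) (nat_lit 2244) (nat_lit 61897) (nat_lit 20410720) (nat_lit 0) (nat_lit 0),Row.mk (nat_lit 14784) (nat_lit 32912) (nat_lit 2803) (nat_lit 61897) (nat_lit 20410161) (nat_lit 0) (nat_lit 0),Row.mk (nat_lit 14952) (nat_lit 32912) (nat_lit 3501)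 (nat_lit 61897) (nat_lit 20409463) (nat_lit 0) (nat_lit 0),Row.mk (nat_lit 15120) (nat_lit 32912) (nat_lit 4373) (nat_lit 61897) (nat_lit 20408591) (nat_lit 0) (nat_lit 0),Row.mk (nat_lit 15288) (nat_lit 32912) (nat_lit 5462) (nat_lit 61897) (nat_lit 20407502) (nat_lit 0) (nat_lit 0),Row.mk (nat_lit 15456) (nat_lit 32912) (nat_lit 6822) (nat_lit 61897) (nat_lit 20406142) (nat_lit 0) (nat_lit 0),Row.mk (nat_lit 15624) (nat_lit 32912) (nat_lit 8521) (nat_lit 61897) (nat_lit 20404443) (nat_lit 0) (nat_lit 0),Row.mk (nat_lit 15792) (nat_lit 32912) (nat_lit 10643) (nat_lit 61897) (nat_lit 20402322) (nat_lit 0) (nat_lit 0),Row.mk (nat_lit 15960) (nat_lit 32912) (nat_lit 13292) (nat_lit 61897) (nat_lit 20399672) (nat_lit 0) (nat_lit 0),Row.mk (nat_lit 16128) (nat_lit 32912) (nat_lit 16602) (nat_lit 61897) (nat_lit 20396362) (nat_lit 0) (nat_lit 0),Row.mk (nat_lit 16296) (nat_lit 32912) (nat_lit 20736) (nat_lit 61897) (nat_lit 20392229) (nat_lit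 0) (nat_lit 0),Row.mk (nat_lit 16464) (nat_lit 32912) (nat_lit 25899) (nat_lit 61897) (nat_lit 20387066) (nat_lit 0) (nat_lit 0),Row.mk (nat_lit 16632) (nat_lit 0) (nat_lit 162268) (nat_lit 748) (nat_lit 20283043) (nat_lit 0) (nat_lit 0),Row.mk (nat_lit 16800) (nat_lit 561) (nat_lit 202670) (nat_lit 1309) (nat_lit 20250696) (nat_lit 0) (nat_lit 0),Row.mk (nat_lit 16968) (nat_lit 1122) (nat_lit 253129) (nat_lit 1870) (nat_lit 20210295) (nat_lit 0) (nat_lit 0),Row.mk (nat_lit 17136) (nat_lit 1683) (nat_lit 316153) (nat_lit 2431) (nat_lit 20159835) (nat_lit 0) (nat_lit 0),Row.mk (nat_lit 17304) (nat_lit 2244) (nat_lit 394867) (nat_lit 2992) (nat_lit 20096812) (nat_lit 0) (nat_lit 0),Row.mk (nat_lit 17472) (nat_lit 2805) (nat_lit 493180) (nat_lit 3553) (nat_lit 20018097) (nat_lit 0) (nat_lit 0),Row.mk (nat_lit 17640) (nat_lit 3366) (nat_lit 615970) (nat_lit 4114) (nat_lit 19919785) (nat_lit 0) (nat_lit 0),Row.mk (nat_lit 17808) (nat_lit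 3927) (nat_lit 769331) (nat_lit 4675) (nat_lit 19796995) (nat_lit 0) (nat_lit 0),Row.mk (nat_lit 17976) (nat_lit 4488) (nat_lit 960877) (nat_lit 5236) (nat_lit 19643633) (nat_lit 0) (nat_lit 0),Row.mk (nat_lit 18144) (nat_lit 5049) (nat_lit 1200112) (nat_lit 5797) (nat_lit 19452088) (nat_lit 0) (nat_lit 0),Row.mk (nat_lit 18312) (nat_lit 5610) (nat_lit 1498911) (nat_lit 6358) (nat_lit 19212853) (nat_lit 0) (nat_lit 0),Row.mk (nat_lit 18480) (nat_lit 6171) (nat_lit 1872104) (nat_lit 6919) (nat_lit 18914054) (nat_lit 0) (nat_lit 0),Row.mk (nat_lit 18648) (nat_lit 6732) (nat_lit 2338212) (nat_lit 7480) (nat_lit 18540861) (nat_lit 0) (nat_lit 0),Row.mk (nat_lit 18816) (nat_lit 7293) (nat_lit 2920371) (nat_lit 8041) (nat_lit 18074752) (nat_lit 0) (nat_lit 0),Row.mk (nat_lit 18984) (nat_lit 7854) (nat_lit 3647473) (nat_lit 8602) (nat_lit 17492594) (nat_lit 0) (nat_lit 0),Row.mk (nat_lit 19152) (nat_lit 8415) (nat_lit 4555606) (nat_lit 9163)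 (nat_lit 16765492) (nat_lit 0) (nat_lit 0),Row.mk (nat_lit 19320) (nat_lit 8976) (nat_lit 5689842) (nat_lit 9724) (nat_lit 15857359) (nat_lit 0) (nat_lit 0),Row.mk (nat_lit 19488) (nat_lit 9537) (nat_lit 7106475) (nat_lit 10285) (nat_lit 14723123) (nat_lit 0) (nat_lit 0),Row.mk (nat_lit 19656) (nat_lit 10098) (nat_lit 8875816) (nat_lit 10846) (nat_lit 13306489) (nat_lit 0) (nat_lit 0),Row.mk (nat_lit 19824) (nat_lit 10659) (nat_lit 11085681) (nat_lit 11407) (nat_lit 11537148) (nat_lit 0) (nat_lit 0),Row.mk (nat_lit 19992) (nat_lit 11220) (nat_lit 13845748) (nat_lit 11968) (nat_lit 9327284) (nat_lit 0) (nat_lit 0),Row.mk (nat_lit 20160) (nat_lit 11781) (nat_lit 17293005) (nat_lit 12716) (nat_lit 6567217) (nat_lit 0) (nat_lit 0),Row.mk (nat_lit 20328) (nat_lit 12529) (nat_lit 21598546) (nat_lit 13464) (nat_lit 3119959) (nat_lit 0) (nat_lit 0),Row.mk (nat_lit 20496) (nat_lit 12342) (nat_lit 1480762) (nat_lit 13277) (nat_lit 24309720)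 (nat_lit 0) (nat_lit 0),Row.mk (nat_lit 20664) (nat_lit 13090) (nat_lit 8197151) (nat_lit 14025) (nat_lit 18932203) (nat_lit 0) (nat_lit 0),Row.mk (nat_lit 20832) (nat_lit 13838) (nat_lit 16585759) (nat_lit 15147) (nat_lit 12215813) (nat_lit 0) (nat_lit 0),Row.mk (nat_lit 21000) (nat_lit 14960) (nat_lit 27062928) (nat_lit 16456) (nat_lit 3827205) (nat_lit 0) (nat_lit 0),Row.mk (nat_lit 21168) (nat_lit 14773) (nat_lit 8305643) (nat_lit 16269) (nat_lit 25193053) (nat_lit 0) (nat_lit 0),Row.mk (nat_lit 21336) (nat_lit 16082) (nat_lit 24649406) (nat_lit 17765) (nat_lit 12107321) (nat_lit 0) (nat_lit 0),Row.mk (nat_lit 21504) (nat_lit 15895) (nat_lit 5291212) (nat_lit 17578) (nat_lit 35534718) (nat_lit 0) (nat_lit 0),Row.mk (nat_lit 21672) (nat_lit 17391) (nat_lit 30786513) (nat_lit 19635) (nat_lit 15121753) (nat_lit 0) (nat_lit 0),Row.mk (nat_lit 21840) (nat_lit 17204) (nat_lit 12956311) (nat_lit 19448) (nat_lit 39299670) (nat_lit 0)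 (nat_lit 0),Row.mk (nat_lit 22008) (nat_lit 19261) (nat_lit 52727471) (nat_lit 25806) (nat_lit 7456653) (nat_lit 0) (nat_lit 0),Row.mk (nat_lit 22176) (nat_lit 19074) (nat_lit 40360037) (nat_lit 25619) (nat_lit 29726146) (nat_lit 0) (nat_lit 0),Row.mk (nat_lit 22344) (nat_lit 18887) (nat_lit 24913412) (nat_lit 25432) (nat_lit 57540204) (nat_lit 0) (nat_lit 0),Row.mk (nat_lit 22512) (nat_lit 18700) (nat_lit 5620949) (nat_lit 25245) (nat_lit 92279293) (nat_lit 0) (nat_lit 0),Row.mk (nat_lit 22680) (nat_lit 25058) (nat_lit 102400689) (nat_lit 31603) (nat_lit 14792015) (nat_lit 0) (nat_lit 0),Row.mk (nat_lit 22848) (nat_lit 24871) (nat_lit 102400689) (nat_lit 31416) (nat_lit 38887836) (nat_lit 0) (nat_lit 0),Row.mk (nat_lit 23016) (nat_lit 24684) (nat_lit 102400689) (nat_lit 31229) (nat_lit 68982935) (nat_lit 0) (nat_lit 0),Row.mk (nat_lit 23184) (nat_lit 24497) (nat_lit 102400689) (nat_lit 31042) (nat_lit 106570987) (nat_lit 0) (nat_lit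 0),Row.mk (nat_lit 23352) (nat_lit 24310) (nat_lit 102400689) (nat_lit 30855) (nat_lit 153517557) (nat_lit 0) (nat_lit 0),Row.mk (nat_lit 23520) (nat_lit 24123) (nat_lit 102400689) (nat_lit 30668) (nat_lit 212152691) (nat_lit 0) (nat_lit 0),Row.mk (nat_lit 23688) (nat_lit 23936) (nat_lit 102400689) (nat_lit 30481) (nat_lit 285386559) (nat_lit 0) (nat_lit 0),Row.mk (nat_lit 23856) (nat_lit 23749) (nat_lit 102400689) (nat_lit 30294) (nat_lit 376853893) (nat_lit 0) (nat_lit 0),Row.mk (nat_lit 24024) (nat_lit 23562) (nat_lit 102400689) (nat_lit 30107) (nat_lit 491094387) (nat_lit 0) (nat_lit 0),Row.mk (nat_lit 24192) (nat_lit 23375) (nat_lit 102400689) (nat_lit 29920) (nat_lit 633778008) (nat_lit 0) (nat_lit 0),Row.mk (nat_lit 24360) (nat_lit 23188) (nat_lit 102400689) (nat_lit 29733) (nat_lit 811986408) (nat_lit 0) (nat_lit 0),Row.mk (nat_lit 24528) (nat_lit 23001) (nat_lit 102400689) (nat_lit 29546) (nat_lit 1034564401) (nat_lit 0)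 (nat_lit 0),Row.mk (nat_lit 24696) (nat_lit 22814) (nat_lit 102400689) (nat_lit 29359) (nat_lit 1312558945) (nat_lit 0) (nat_lit 0),Row.mk (nat_lit 24864) (nat_lit 22627) (nat_lit 102400689) (nat_lit 29172) (nat_lit 1659767424) (nat_lit 0) (nat_lit 0),Row.mk (nat_lit 25032) (nat_lit 22440) (nat_lit 102400689) (nat_lit 28985) (nat_lit 2093422438) (nat_lit 0) (nat_lit 0),Row.mk (nat_lit 25200) (nat_lit 22253) (nat_lit 102400689) (nat_lit 28798) (nat_lit 2635047090) (nat_lit 0) (nat_lit 0),Row.mk (nat_lit 25368) (nat_lit 22066) (nat_lit 102400689) (nat_lit 28611) (nat_lit 3311523213) (nat_lit 0) (nat_lit 0),Row.mk (nat_lit 25536) (nat_lit 21879) (nat_lit 102400689) (nat_lit 28424) (nat_lit 4156425573) (nat_lit 0) (nat_lit 0),Row.mk (nat_lit 25704) (nat_lit 21692) (nat_lit 102400689) (nat_lit 28237) (nat_lit 5211688237) (nat_lit 0) (nat_lit 0),Row.mk (nat_lit 25872) (nat_lit 21505) (nat_lit 102400689) (nat_lit 28050) (nat_lit 6529685848)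 (nat_lit 0) (nat_lit 0),Row.mk (nat_lit 26040) (nat_lit 21318) (nat_lit 102400689) (nat_lit 27863) (nat_lit 8175833068) (nat_lit 0) (nat_lit 0),Row.mk (nat_lit 26208) (nat_lit 21131) (nat_lit 102400689) (nat_lit 27676) (nat_lit 10231831236) (nat_lit 0) (nat_lit 0),Row.mk (nat_lit 26376) (nat_lit 20944) (nat_lit 102400689) (nat_lit 27489) (nat_lit 12799723349) (nat_lit 0) (nat_lit 0),Row.mk (nat_lit 26544) (nat_lit 32912) (nat_lit 20412965) (nat_lit 62084) (nat_lit 16068533409) (nat_lit 0) (nat_lit 0),Row.mk (nat_lit 26712) (nat_lit 32912) (nat_lit 20412965) (nat_lit 62084) (nat_lit 20074292929) (nat_lit 0) (nat_lit 0),Row.mk (nat_lit 26880) (nat_lit 32912) (nat_lit 20412965) (nat_lit 62084) (nat_lit 25077389936) (nat_lit 0) (nat_lit 0)],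
[Row.mk (nat_lit 11088) (nat_lit 32912) (nat_lit 21) (nat_lit 61897) (nat_lit 25495280) (nat_lit 0) (nat_lit 0),Row.mk (nat_lit 11256) (nat_lit 32912) (nat_lit 26) (nat_lit 61897) (nat_lit 25495275) (nat_lit 0) (nat_lit 0),Row.mk (nat_lit 11424) (nat_lit 32912) (nat_lit 32) (nat_lit 61897) (nat_lit 25495268) (nat_lit 0) (nat_lit 0),Row.mk (nat_lit 11592) (nat_lit 32912) (nat_lit 41) (nat_lit 61897) (nat_lit 25495260) (nat_lit 0) (nat_lit 0),Row.mk (nat_lit 11760) (nat_lit 32912) (nat_lit 51) (nat_lit 61897) (nat_lit 25495250) (nat_lit 0) (nat_lit 0),Row.mk (nat_lit 11928) (nat_lit 32912) (nat_lit 64) (nat_lit 61897) (nat_lit 25495237) (nat_lit 0) (nat_lit 0),Row.mk (nat_lit 12096) (nat_lit 32912) (nat_lit 79) (nat_lit 61897) (nat_lit 25495221) (nat_lit 0) (nat_lit 0),Row.mk (nat_lit 12264) (nat_lit 32912) (nat_lit 99) (nat_lit 61897) (nat_lit 25495201) (nat_lit 0) (nat_lit 0),Row.mk (nat_lit 12432) (nat_lit 32912) (nat_lit 124) (nat_lit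 61897) (nat_lit 25495176) (nat_lit 0) (nat_lit 0),Row.mk (nat_lit 12600) (nat_lit 32912) (nat_lit 155) (nat_lit 61897) (nat_lit 25495145) (nat_lit 0) (nat_lit 0),Row.mk (nat_lit 12768) (nat_lit 32912) (nat_lit 194) (nat_lit 61897) (nat_lit 25495106) (nat_lit 0) (nat_lit 0),Row.mk (nat_lit 12936) (nat_lit 32912) (nat_lit 243) (nat_lit 61897) (nat_lit 25495058) (nat_lit 0) (nat_lit 0),Row.mk (nat_lit 13104) (nat_lit 32912) (nat_lit 303) (nat_lit 61897) (nat_lit 25494997) (nat_lit 0) (nat_lit 0),Row.mk (nat_lit 13272) (nat_lit 32912) (nat_lit 379) (nat_lit 61897) (nat_lit 25494922) (nat_lit 0) (nat_lit 0),Row.mk (nat_lit 13440) (nat_lit 32912) (nat_lit 473) (nat_lit 61897) (nat_lit 25494827) (nat_lit 0) (nat_lit 0),Row.mk (nat_lit 13608) (nat_lit 32912) (nat_lit 591) (nat_lit 61897) (nat_lit 25494710) (nat_lit 0) (nat_lit 0),Row.mk (nat_lit 13776) (nat_lit 32912) (nat_lit 738) (nat_lit 61897) (nat_lit 25494562) (nat_lit 0) (nat_lit 0),Row.mk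 (nat_lit 13944) (nat_lit 32912) (nat_lit 922) (nat_lit 61897) (nat_lit 25494378) (nat_lit 0) (nat_lit 0),Row.mk (nat_lit 14112) (nat_lit 32912) (nat_lit 1152) (nat_lit 61897) (nat_lit 25494149) (nat_lit 0) (nat_lit 0),Row.mk (nat_lit 14280) (nat_lit 32912) (nat_lit 1439) (nat_lit 61897) (nat_lit 25493862) (nat_lit 0) (nat_lit 0),Row.mk (nat_lit 14448) (nat_lit 32912) (nat_lit 1797) (nat_lit 61897) (nat_lit 25493504) (nat_lit 0) (nat_lit 0),Row.mk (nat_lit 14616) (nat_lit 32912) (nat_lit 2244) (nat_lit 61897) (nat_lit 25493056) (nat_lit 0) (nat_lit 0),Row.mk (nat_lit 14784) (nat_lit 32912) (nat_lit 2803) (nat_lit 61897) (nat_lit 25492497) (nat_lit 0) (nat_lit 0),Row.mk (nat_lit 14952) (nat_lit 32912) (nat_lit 3501) (nat_lit 61897) (nat_lit 25491799) (nat_lit 0) (nat_lit 0),Row.mk (nat_lit 15120) (nat_lit 32912) (nat_lit 4373) (nat_lit 61897) (nat_lit 25490927) (nat_lit 0) (nat_lit 0),Row.mk (nat_lit 15288) (nat_lit 32912) (nat_lit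 5462) (nat_lit 61897) (nat_lit 25489838) (nat_lit 0) (nat_lit 0),Row.mk (nat_lit 15456) (nat_lit 32912) (nat_lit 6822) (nat_lit 61897) (nat_lit 25488478) (nat_lit 0) (nat_lit 0),Row.mk (nat_lit 15624) (nat_lit 32912) (nat_lit 8521) (nat_lit 61897) (nat_lit 25486779) (nat_lit 0) (nat_lit 0),Row.mk (nat_lit 15792) (nat_lit 32912) (nat_lit 10643) (nat_lit 61897) (nat_lit 25484658) (nat_lit 0) (nat_lit 0),Row.mk (nat_lit 15960) (nat_lit 32912) (nat_lit 13292) (nat_lit 61897) (nat_lit 25482008) (nat_lit 0) (nat_lit 0),Row.mk (nat_lit 16128) (nat_lit 32912) (nat_lit 16602) (nat_lit 61897) (nat_lit 25478698) (nat_lit 0) (nat_lit 0),Row.mk (nat_lit 16296) (nat_lit 32912) (nat_lit 20736) (nat_lit 61897) (nat_lit 25474565) (nat_lit 0) (nat_lit 0),Row.mk (nat_lit 16464) (nat_lit 32912) (nat_lit 25899) (nat_lit 61897) (nat_lit 25469402) (nat_lit 0) (nat_lit 0),Row.mk (nat_lit 16632) (nat_lit 32912) (nat_lit 32347) (nat_lit 61897) (nat_lit 25462954)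 (nat_lit 0) (nat_lit 0),Row.mk (nat_lit 16800) (nat_lit 0) (nat_lit 202670) (nat_lit 748) (nat_lit 25333032) (nat_lit 0) (nat_lit 0),Row.mk (nat_lit 16968) (nat_lit 561) (nat_lit 253129) (nat_lit 1309) (nat_lit 25292631) (nat_lit 0) (nat_lit 0),Row.mk (nat_lit 17136) (nat_lit 1122) (nat_lit 316153) (nat_lit 1870) (nat_lit 25242171) (nat_lit 0) (nat_lit 0),Row.mk (nat_lit 17304) (nat_lit 1683) (nat_lit 394867) (nat_lit 2431) (nat_lit 25179148) (nat_lit 0) (nat_lit 0),Row.mk (nat_lit 17472) (nat_lit 2244) (nat_lit 493180) (nat_lit 2992) (nat_lit 25100433) (nat_lit 0) (nat_lit 0),Row.mk (nat_lit 17640) (nat_lit 2805) (nat_lit 615970) (nat_lit 3553) (nat_lit 25002121) (nat_lit 0) (nat_lit 0),Row.mk (nat_lit 17808) (nat_lit 3366) (nat_lit 769331) (nat_lit 4114) (nat_lit 24879331) (nat_lit 0) (nat_lit 0),Row.mk (nat_lit 17976) (nat_lit 3927) (nat_lit 960877) (nat_lit 4675) (nat_lit 24725969) (nat_lit 0) (nat_lit 0),Row.mk (nat_lit 18144)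 (nat_lit 4488) (nat_lit 1200112) (nat_lit 5236) (nat_lit 24534424) (nat_lit 0) (nat_lit 0),Row.mk (nat_lit 18312) (nat_lit 5049) (nat_lit 1498911) (nat_lit 5797) (nat_lit 24295189) (nat_lit 0) (nat_lit 0),Row.mk (nat_lit 18480) (nat_lit 5610) (nat_lit 1872104) (nat_lit 6358) (nat_lit 23996390) (nat_lit 0) (nat_lit 0),Row.mk (nat_lit 18648) (nat_lit 6171) (nat_lit 2338212) (nat_lit 6919) (nat_lit 23623197) (nat_lit 0) (nat_lit 0),Row.mk (nat_lit 18816) (nat_lit 6732) (nat_lit 2920371) (nat_lit 7480) (nat_lit 23157088) (nat_lit 0) (nat_lit 0),Row.mk (nat_lit 18984) (nat_lit 7293) (nat_lit 3647473) (nat_lit 8041) (nat_lit 22574930) (nat_lit 0) (nat_lit 0),Row.mk (nat_lit 19152) (nat_lit 7854) (nat_lit 4555606) (nat_lit 8602) (nat_lit 21847828) (nat_lit 0) (nat_lit 0),Row.mk (nat_lit 19320) (nat_lit 8415) (nat_lit 5689842) (nat_lit 9163) (nat_lit 20939695) (nat_lit 0) (nat_lit 0),Row.mk (nat_lit 19488) (nat_lit 8976) (nat_lit 7106475)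 (nat_lit 9724) (nat_lit 19805459) (nat_lit 0) (nat_lit 0),Row.mk (nat_lit 19656) (nat_lit 9537) (nat_lit 8875816) (nat_lit 10285) (nat_lit 18388825) (nat_lit 0) (nat_lit 0),Row.mk (nat_lit 19824) (nat_lit 10098) (nat_lit 11085681) (nat_lit 10846) (nat_lit 16619484) (nat_lit 0) (nat_lit 0),Row.mk (nat_lit 19992) (nat_lit 10659) (nat_lit 13845748) (nat_lit 11407) (nat_lit 14409620) (nat_lit 0) (nat_lit 0),Row.mk (nat_lit 20160) (nat_lit 11220) (nat_lit 17293005) (nat_lit 11968) (nat_lit 11649553) (nat_lit 0) (nat_lit 0),Row.mk (nat_lit 20328) (nat_lit 11781) (nat_lit 21598546) (nat_lit 12716) (nat_lit 8202295) (nat_lit 0) (nat_lit 0),Row.mk (nat_lit 20496) (nat_lit 12529) (nat_lit 26976063) (nat_lit 13464) (nat_lit 3896754) (nat_lit 0) (nat_lit 0),Row.mk (nat_lit 20664) (nat_lit 12342) (nat_lit 1849436) (nat_lit 13277) (nat_lit 30362254) (nat_lit 0) (nat_lit 0),Row.mk (nat_lit 20832) (nat_lit 13090) (nat_lit 10238044) (nat_lit 14025)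 (nat_lit 23645864) (nat_lit 0) (nat_lit 0),Row.mk (nat_lit 21000) (nat_lit 13838) (nat_lit 20715213) (nat_lit 15147) (nat_lit 15257256) (nat_lit 0) (nat_lit 0),Row.mk (nat_lit 21168) (nat_lit 14960) (nat_lit 33800944) (nat_lit 16456) (nat_lit 4780087) (nat_lit 0) (nat_lit 0),Row.mk (nat_lit 21336) (nat_lit 14773) (nat_lit 10373548) (nat_lit 16269) (nat_lit 31465515) (nat_lit 0) (nat_lit 0),Row.mk (nat_lit 21504) (nat_lit 16082) (nat_lit 30786513) (nat_lit 17765) (nat_lit 15121753) (nat_lit 0) (nat_lit 0),Row.mk (nat_lit 21672) (nat_lit 15895) (nat_lit 6608596) (nat_lit 17578) (nat_lit 44382006) (nat_lit 0) (nat_lit 0),Row.mk (nat_lit 21840) (nat_lit 17391) (nat_lit 38451613) (nat_lit 19635) (nat_lit 18886704) (nat_lit 0) (nat_lit 0),Row.mk (nat_lit 22008) (nat_lit 17204) (nat_lit 16182120) (nat_lit 19448) (nat_lit 49084340) (nat_lit 0) (nat_lit 0),Row.mk (nat_lit 22176) (nat_lit 19261) (nat_lit 65855339) (nat_lit 25806) (nat_lit 9313180)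 (nat_lit 0) (nat_lit 0),Row.mk (nat_lit 22344) (nat_lit 19074) (nat_lit 50408713) (nat_lit 25619) (nat_lit 37127239) (nat_lit 0) (nat_lit 0),Row.mk (nat_lit 22512) (nat_lit 18887) (nat_lit 31116250) (nat_lit 25432) (nat_lit 71866327) (nat_lit 0) (nat_lit 0),Row.mk (nat_lit 22680) (nat_lit 18700) (nat_lit 7020430) (nat_lit 25245) (nat_lit 115254611) (nat_lit 0) (nat_lit 0),Row.mk (nat_lit 22848) (nat_lit 25058) (nat_lit 127895991) (nat_lit 31603) (nat_lit 18474871) (nat_lit 0) (nat_lit 0),Row.mk (nat_lit 23016) (nat_lit 24871) (nat_lit 127895991) (nat_lit 31416) (nat_lit 48569969) (nat_lit 0) (nat_lit 0),Row.mk (nat_lit 23184) (nat_lit 24684) (nat_lit 127895991) (nat_lit 31229) (nat_lit 86158021) (nat_lit 0) (nat_lit 0),Row.mk (nat_lit 23352) (nat_lit 24497) (nat_lit 127895991) (nat_lit 31042) (nat_lit 133104592) (nat_lit 0) (nat_lit 0),Row.mk (nat_lit 23520) (nat_lit 24310) (nat_lit 127895991) (nat_lit 30855) (nat_lit 191739726) (nat_lit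 0) (nat_lit 0),Row.mk (nat_lit 23688) (nat_lit 24123) (nat_lit 127895991) (nat_lit 30668) (nat_lit 264973594) (nat_lit 0) (nat_lit 0),Row.mk (nat_lit 23856) (nat_lit 23936) (nat_lit 127895991) (nat_lit 30481) (nat_lit 356440928) (nat_lit 0) (nat_lit 0),Row.mk (nat_lit 24024) (nat_lit 23749) (nat_lit 127895991) (nat_lit 30294) (nat_lit 470681421) (nat_lit 0) (nat_lit 0),Row.mk (nat_lit 24192) (nat_lit 23562) (nat_lit 127895991) (nat_lit 30107) (nat_lit 613365042) (nat_lit 0) (nat_lit 0),Row.mk (nat_lit 24360) (nat_lit 23375) (nat_lit 127895991) (nat_lit 29920) (nat_lit 791573443) (nat_lit 0) (nat_lit 0),Row.mk (nat_lit 24528) (nat_lit 23188) (nat_lit 127895991) (nat_lit 29733) (nat_lit 1014151436) (nat_lit 0) (nat_lit 0),Row.mk (nat_lit 24696) (nat_lit 23001) (nat_lit 127895991) (nat_lit 29546) (nat_lit 1292145980) (nat_lit 0) (nat_lit 0),Row.mk (nat_lit 24864) (nat_lit 22814) (nat_lit 127895991) (nat_lit 29359) (nat_lit 1639354459)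 (nat_lit 0) (nat_lit 0),Row.mk (nat_lit 25032) (nat_lit 22627) (nat_lit 127895991) (nat_lit 29172) (nat_lit 2073009473) (nat_lit 0) (nat_lit 0),Row.mk (nat_lit 25200) (nat_lit 22440) (nat_lit 127895991) (nat_lit 28985) (nat_lit 2614634124) (nat_lit 0) (nat_lit 0),Row.mk (nat_lit 25368) (nat_lit 22253) (nat_lit 127895991) (nat_lit 28798) (nat_lit 3291110248) (nat_lit 0) (nat_lit 0),Row.mk (nat_lit 25536) (nat_lit 22066) (nat_lit 127895991) (nat_lit 28611) (nat_lit 4136012607) (nat_lit 0) (nat_lit 0),Row.mk (nat_lit 25704) (nat_lit 21879) (nat_lit 127895991) (nat_lit 28424) (nat_lit 5191275271) (nat_lit 0) (nat_lit 0),Row.mk (nat_lit 25872) (nat_lit 21692) (nat_lit 127895991) (nat_lit 28237) (nat_lit 6509272882) (nat_lit 0) (nat_lit 0),Row.mk (nat_lit 26040) (nat_lit 21505) (nat_lit 127895991) (nat_lit 28050) (nat_lit 8155420103) (nat_lit 0) (nat_lit 0),Row.mk (nat_lit 26208) (nat_lit 21318) (nat_lit 127895991) (nat_lit 27863) (nat_lit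 10211418270) (nat_lit 0) (nat_lit 0),Row.mk (nat_lit 26376) (nat_lit 21131) (nat_lit 127895991) (nat_lit 27676) (nat_lit 12779310383) (nat_lit 0) (nat_lit 0),Row.mk (nat_lit 26544) (nat_lit 20944) (nat_lit 127895991) (nat_lit 27489) (nat_lit 15986545684) (nat_lit 0) (nat_lit 0),Row.mk (nat_lit 26712) (nat_lit 32912) (nat_lit 25495301) (nat_lit 62084) (nat_lit 20069210593) (nat_lit 0) (nat_lit 0),Row.mk (nat_lit 26880) (nat_lit 32912) (nat_lit 25495301) (nat_lit 62084) (nat_lit 25072307600) (nat_lit 0) (nat_lit 0),Row.mk (nat_lit 27048) (nat_lit 32912) (nat_lit 25495301) (nat_lit 62084) (nat_lit 31321055069) (nat_lit 0) (nat_lit 0)],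
[Row.mk (nat_lit 11424) (nat_lit 32912) (nat_lit 32) (nat_lit 61897) (nat_lit 31842983) (nat_lit 0) (nat_lit 0),Row.mk (nat_lit 11592) (nat_lit 32912) (nat_lit 41) (nat_lit 61897) (nat_lit 31842975) (nat_lit 0) (nat_lit 0),Row.mk (nat_lit 11760) (nat_lit 32912) (nat_lit 51) (nat_lit 61897) (nat_lit 31842965) (nat_lit 0) (nat_lit 0),Row.mk (nat_lit 11928) (nat_lit 32912) (nat_lit 64) (nat_lit 61897) (nat_lit 31842952) (nat_lit 0) (nat_lit 0),Row.mk (nat_lit 12096) (nat_lit 32912) (nat_lit 79) (nat_lit 61897) (nat_lit 31842936) (nat_lit 0) (nat_lit 0),Row.mk (nat_lit 12264) (nat_lit 32912) (nat_lit 99) (nat_lit 61897) (nat_lit 31842916) (nat_lit 0) (nat_lit 0),Row.mk (nat_lit 12432) (nat_lit 32912) (nat_lit 124) (nat_lit 61897) (nat_lit 31842891) (nat_lit 0) (nat_lit 0),Row.mk (nat_lit 12600) (nat_lit 32912) (nat_lit 155) (nat_lit 61897) (nat_lit 31842860) (nat_lit 0) (nat_lit 0),Row.mk (nat_lit 12768) (nat_lit 32912) (nat_lit 194)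 (nat_lit 61897) (nat_lit 31842821) (nat_lit 0) (nat_lit 0),Row.mk (nat_lit 12936) (nat_lit 32912) (nat_lit 243) (nat_lit 61897) (nat_lit 31842773) (nat_lit 0) (nat_lit 0),Row.mk (nat_lit 13104) (nat_lit 32912) (nat_lit 303) (nat_lit 61897) (nat_lit 31842712) (nat_lit 0) (nat_lit 0),Row.mk (nat_lit 13272) (nat_lit 32912) (nat_lit 379) (nat_lit 61897) (nat_lit 31842637) (nat_lit 0) (nat_lit 0),Row.mk (nat_lit 13440) (nat_lit 32912) (nat_lit 473) (nat_lit 61897) (nat_lit 31842542) (nat_lit 0) (nat_lit 0),Row.mk (nat_lit 13608) (nat_lit 32912) (nat_lit 591) (nat_lit 61897) (nat_lit 31842425) (nat_lit 0) (nat_lit 0),Row.mk (nat_lit 13776) (nat_lit 32912) (nat_lit 738) (nat_lit 61897) (nat_lit 31842277) (nat_lit 0) (nat_lit 0),Row.mk (nat_lit 13944) (nat_lit 32912) (nat_lit 922) (nat_lit 61897) (nat_lit 31842093) (nat_lit 0) (nat_lit 0),Row.mk (nat_lit 14112) (nat_lit 32912) (nat_lit 1152) (nat_lit 61897) (nat_lit 31841864) (nat_lit 0)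 (nat_lit 0),Row.mk (nat_lit 14280) (nat_lit 32912) (nat_lit 1439) (nat_lit 61897) (nat_lit 31841577) (nat_lit 0) (nat_lit 0),Row.mk (nat_lit 14448) (nat_lit 32912) (nat_lit 1797) (nat_lit 61897) (nat_lit 31841219) (nat_lit 0) (nat_lit 0),Row.mk (nat_lit 14616) (nat_lit 32912) (nat_lit 2244) (nat_lit 61897) (nat_lit 31840771) (nat_lit 0) (nat_lit 0),Row.mk (nat_lit 14784) (nat_lit 32912) (nat_lit 2803) (nat_lit 61897) (nat_lit 31840212) (nat_lit 0) (nat_lit 0),Row.mk (nat_lit 14952) (nat_lit 32912) (nat_lit 3501) (nat_lit 61897) (nat_lit 31839514) (nat_lit 0) (nat_lit 0),Row.mk (nat_lit 15120) (nat_lit 32912) (nat_lit 4373) (nat_lit 61897) (nat_lit 31838642) (nat_lit 0) (nat_lit 0),Row.mk (nat_lit 15288) (nat_lit 32912) (nat_lit 5462) (nat_lit 61897) (nat_lit 31837553) (nat_lit 0) (nat_lit 0),Row.mk (nat_lit 15456) (nat_lit 32912) (nat_lit 6822) (nat_lit 61897) (nat_lit 31836193) (nat_lit 0) (nat_lit 0),Row.mk (nat_lit 15624) (nat_lit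 32912) (nat_lit 8521) (nat_lit 61897) (nat_lit 31834494) (nat_lit 0) (nat_lit 0),Row.mk (nat_lit 15792) (nat_lit 32912) (nat_lit 10643) (nat_lit 61897) (nat_lit 31832373) (nat_lit 0) (nat_lit 0),Row.mk (nat_lit 15960) (nat_lit 32912) (nat_lit 13292) (nat_lit 61897) (nat_lit 31829723) (nat_lit 0) (nat_lit 0),Row.mk (nat_lit 16128) (nat_lit 32912) (nat_lit 16602) (nat_lit 61897) (nat_lit 31826413) (nat_lit 0) (nat_lit 0),Row.mk (nat_lit 16296) (nat_lit 32912) (nat_lit 20736) (nat_lit 61897) (nat_lit 31822280) (nat_lit 0) (nat_lit 0),Row.mk (nat_lit 16464) (nat_lit 32912) (nat_lit 25899) (nat_lit 61897) (nat_lit 31817117) (nat_lit 0) (nat_lit 0),Row.mk (nat_lit 16632) (nat_lit 32912) (nat_lit 32347) (nat_lit 61897) (nat_lit 31810669) (nat_lit 0) (nat_lit 0),Row.mk (nat_lit 16800) (nat_lit 32912) (nat_lit 40401) (nat_lit 61897) (nat_lit 31802615) (nat_lit 0) (nat_lit 0),Row.mk (nat_lit 16968) (nat_lit 0) (nat_lit 253129) (nat_lit 748)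 (nat_lit 31640346) (nat_lit 0) (nat_lit 0),Row.mk (nat_lit 17136) (nat_lit 561) (nat_lit 316153) (nat_lit 1309) (nat_lit 31589886) (nat_lit 0) (nat_lit 0),Row.mk (nat_lit 17304) (nat_lit 1122) (nat_lit 394867) (nat_lit 1870) (nat_lit 31526863) (nat_lit 0) (nat_lit 0),Row.mk (nat_lit 17472) (nat_lit 1683) (nat_lit 493180) (nat_lit 2431) (nat_lit 31448148) (nat_lit 0) (nat_lit 0),Row.mk (nat_lit 17640) (nat_lit 2244) (nat_lit 615970) (nat_lit 2992) (nat_lit 31349836) (nat_lit 0) (nat_lit 0),Row.mk (nat_lit 17808) (nat_lit 2805) (nat_lit 769331) (nat_lit 3553) (nat_lit 31227046) (nat_lit 0) (nat_lit 0),Row.mk (nat_lit 17976) (nat_lit 3366) (nat_lit 960877) (nat_lit 4114) (nat_lit 31073684) (nat_lit 0) (nat_lit 0),Row.mk (nat_lit 18144) (nat_lit 3927) (nat_lit 1200112) (nat_lit 4675) (nat_lit 30882139) (nat_lit 0) (nat_lit 0),Row.mk (nat_lit 18312) (nat_lit 4488) (nat_lit 1498911) (nat_lit 5236) (nat_lit 30642904) (nat_lit 0) (nat_lit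 0),Row.mk (nat_lit 18480) (nat_lit 5049) (nat_lit 1872104) (nat_lit 5797) (nat_lit 30344105) (nat_lit 0) (nat_lit 0),Row.mk (nat_lit 18648) (nat_lit 5610) (nat_lit 2338212) (nat_lit 6358) (nat_lit 29970912) (nat_lit 0) (nat_lit 0),Row.mk (nat_lit 18816) (nat_lit 6171) (nat_lit 2920371) (nat_lit 6919) (nat_lit 29504803) (nat_lit 0) (nat_lit 0),Row.mk (nat_lit 18984) (nat_lit 6732) (nat_lit 3647473) (nat_lit 7480) (nat_lit 28922645) (nat_lit 0) (nat_lit 0),Row.mk (nat_lit 19152) (nat_lit 7293) (nat_lit 4555606) (nat_lit 8041) (nat_lit 28195543) (nat_lit 0) (nat_lit 0),Row.mk (nat_lit 19320) (nat_lit 7854) (nat_lit 5689842) (nat_lit 8602) (nat_lit 27287410) (nat_lit 0) (nat_lit 0),Row.mk (nat_lit 19488) (nat_lit 8415) (nat_lit 7106475) (nat_lit 9163) (nat_lit 26153174) (nat_lit 0) (nat_lit 0),Row.mk (nat_lit 19656) (nat_lit 8976) (nat_lit 8875816) (nat_lit 9724) (nat_lit 24736540) (nat_lit 0) (nat_lit 0),Row.mk (nat_lit 19824) (nat_lit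 9537) (nat_lit 11085681) (nat_lit 10285) (nat_lit 22967199) (nat_lit 0) (nat_lit 0),Row.mk (nat_lit 19992) (nat_lit 10098) (nat_lit 13845748) (nat_lit 10846) (nat_lit 20757335) (nat_lit 0) (nat_lit 0),Row.mk (nat_lit 20160) (nat_lit 10659) (nat_lit 17293005) (nat_lit 11407) (nat_lit 17997268) (nat_lit 0) (nat_lit 0),Row.mk (nat_lit 20328) (nat_lit 11220) (nat_lit 21598546) (nat_lit 11968) (nat_lit 14550010) (nat_lit 0) (nat_lit 0),Row.mk (nat_lit 20496) (nat_lit 11781) (nat_lit 26976063) (nat_lit 12716) (nat_lit 10244469) (nat_lit 0) (nat_lit 0),Row.mk (nat_lit 20664) (nat_lit 12529) (nat_lit 33692452) (nat_lit 13464) (nat_lit 4866952) (nat_lit 0) (nat_lit 0),Row.mk (nat_lit 20832) (nat_lit 12342) (nat_lit 2309901) (nat_lit 13277) (nat_lit 37921722) (nat_lit 0) (nat_lit 0),Row.mk (nat_lit 21000) (nat_lit 13090) (nat_lit 12787070) (nat_lit 14025) (nat_lit 29533114) (nat_lit 0) (nat_lit 0),Row.mk (nat_lit 21168) (nat_lit 13838) (nat_lit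 25872802) (nat_lit 15147) (nat_lit 19055945) (nat_lit 0) (nat_lit 0),Row.mk (nat_lit 21336) (nat_lit 14960) (nat_lit 42216564) (nat_lit 16456) (nat_lit 5970214) (nat_lit 0) (nat_lit 0),Row.mk (nat_lit 21504) (nat_lit 14773) (nat_lit 12956311) (nat_lit 16269) (nat_lit 39299670) (nat_lit 0) (nat_lit 0),Row.mk (nat_lit 21672) (nat_lit 16082) (nat_lit 38451613) (nat_lit 17765) (nat_lit 18886704) (nat_lit 0) (nat_lit 0),Row.mk (nat_lit 21840) (nat_lit 15895) (nat_lit 8253977) (nat_lit 17578) (nat_lit 55432055) (nat_lit 0) (nat_lit 0),Row.mk (nat_lit 22008) (nat_lit 17391) (nat_lit 48025137) (nat_lit 19635) (nat_lit 23589038) (nat_lit 0) (nat_lit 0),Row.mk (nat_lit 22176) (nat_lit 17204) (nat_lit 20211078) (nat_lit 19448) (nat_lit 61305156) (nat_lit 0) (nat_lit 0),Row.mk (nat_lit 22344) (nat_lit 19261) (nat_lit 82251730) (nat_lit 25806) (nat_lit 11631938) (nat_lit 0) (nat_lit 0),Row.mk (nat_lit 22512) (nat_lit 19074) (nat_lit 62959267)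 (nat_lit 25619) (nat_lit 46371026) (nat_lit 0) (nat_lit 0),Row.mk (nat_lit 22680) (nat_lit 18887) (nat_lit 38863446) (nat_lit 25432) (nat_lit 89759309) (nat_lit 0) (nat_lit 0),Row.mk (nat_lit 22848) (nat_lit 18700) (nat_lit 8768348) (nat_lit 25245) (nat_lit 143950228) (nat_lit 0) (nat_lit 0),Row.mk (nat_lit 23016) (nat_lit 25058) (nat_lit 159739007) (nat_lit 31603) (nat_lit 23074668) (nat_lit 0) (nat_lit 0),Row.mk (nat_lit 23184) (nat_lit 24871) (nat_lit 159739007) (nat_lit 31416) (nat_lit 60662720) (nat_lit 0) (nat_lit 0),Row.mk (nat_lit 23352) (nat_lit 24684) (nat_lit 159739007) (nat_lit 31229) (nat_lit 107609290) (nat_lit 0) (nat_lit 0),Row.mk (nat_lit 23520) (nat_lit 24497) (nat_lit 159739007) (nat_lit 31042) (nat_lit 166244424) (nat_lit 0) (nat_lit 0),Row.mk (nat_lit 23688) (nat_lit 24310) (nat_lit 159739007) (nat_lit 30855) (nat_lit 239478292) (nat_lit 0) (nat_lit 0),Row.mk (nat_lit 23856) (nat_lit 24123) (nat_lit 159739007)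 (nat_lit 30668) (nat_lit 330945626) (nat_lit 0) (nat_lit 0),Row.mk (nat_lit 24024) (nat_lit 23936) (nat_lit 159739007) (nat_lit 30481) (nat_lit 445186120) (nat_lit 0) (nat_lit 0),Row.mk (nat_lit 24192) (nat_lit 23749) (nat_lit 159739007) (nat_lit 30294) (nat_lit 587869741) (nat_lit 0) (nat_lit 0),Row.mk (nat_lit 24360) (nat_lit 23562) (nat_lit 159739007) (nat_lit 30107) (nat_lit 766078141) (nat_lit 0) (nat_lit 0),Row.mk (nat_lit 24528) (nat_lit 23375) (nat_lit 159739007) (nat_lit 29920) (nat_lit 988656134) (nat_lit 0) (nat_lit 0),Row.mk (nat_lit 24696) (nat_lit 23188) (nat_lit 159739007) (nat_lit 29733) (nat_lit 1266650678) (nat_lit 0) (nat_lit 0),Row.mk (nat_lit 24864) (nat_lit 23001) (nat_lit 159739007) (nat_lit 29546) (nat_lit 1613859157) (nat_lit 0) (nat_lit 0),Row.mk (nat_lit 25032) (nat_lit 22814) (nat_lit 159739007) (nat_lit 29359) (nat_lit 2047514171) (nat_lit 0) (nat_lit 0),Row.mk (nat_lit 25200) (nat_lit 22627) (nat_lit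 159739007) (nat_lit 29172) (nat_lit 2589138823) (nat_lit 0) (nat_lit 0),Row.mk (nat_lit 25368) (nat_lit 22440) (nat_lit 159739007) (nat_lit 28985) (nat_lit 3265614946) (nat_lit 0) (nat_lit 0),Row.mk (nat_lit 25536) (nat_lit 22253) (nat_lit 159739007) (nat_lit 28798) (nat_lit 4110517306) (nat_lit 0) (nat_lit 0),Row.mk (nat_lit 25704) (nat_lit 22066) (nat_lit 159739007) (nat_lit 28611) (nat_lit 5165779970) (nat_lit 0) (nat_lit 0),Row.mk (nat_lit 25872) (nat_lit 21879) (nat_lit 159739007) (nat_lit 28424) (nat_lit 6483777581) (nat_lit 0) (nat_lit 0),Row.mk (nat_lit 26040) (nat_lit 21692) (nat_lit 159739007) (nat_lit 28237) (nat_lit 8129924802) (nat_lit 0) (nat_lit 0),Row.mk (nat_lit 26208) (nat_lit 21505) (nat_lit 159739007) (nat_lit 28050) (nat_lit 10185922969) (nat_lit 0) (nat_lit 0),Row.mk (nat_lit 26376) (nat_lit 21318) (nat_lit 159739007) (nat_lit 27863) (nat_lit 12753815082) (nat_lit 0) (nat_lit 0),Row.mk (nat_lit 26544) (nat_lit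 21131) (nat_lit 159739007) (nat_lit 27676) (nat_lit 15961050383) (nat_lit 0) (nat_lit 0),Row.mk (nat_lit 26712) (nat_lit 20944) (nat_lit 159739007) (nat_lit 27489) (nat_lit 19966809904) (nat_lit 0) (nat_lit 0),Row.mk (nat_lit 26880) (nat_lit 32912) (nat_lit 31843016) (nat_lit 62084) (nat_lit 25065959885) (nat_lit 0) (nat_lit 0),Row.mk (nat_lit 27048) (nat_lit 32912) (nat_lit 31843016) (nat_lit 62084) (nat_lit 31314707354) (nat_lit 0) (nat_lit 0),Row.mk (nat_lit 27216) (nat_lit 32912) (nat_lit 31843016) (nat_lit 62084) (nat_lit 39119242198) (nat_lit 0) (nat_lit 0)],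
[Row.mk (nat_lit 11592) (nat_lit 32912) (nat_lit 41) (nat_lit 61897) (nat_lit 39771118) (nat_lit 0) (nat_lit 0),Row.mk (nat_lit 11760) (nat_lit 32912) (nat_lit 51) (nat_lit 61897) (nat_lit 39771108) (nat_lit 0) (nat_lit 0),Row.mk (nat_lit 11928) (nat_lit 32912) (nat_lit 64) (nat_lit 61897) (nat_lit 39771095) (nat_lit 0) (nat_lit 0),Row.mk (nat_lit 12096) (nat_lit 32912) (nat_lit 79) (nat_lit 61897) (nat_lit 39771079) (nat_lit 0) (nat_lit 0),Row.mk (nat_lit 12264) (nat_lit 32912) (nat_lit 99) (nat_lit 61897) (nat_lit 39771059) (nat_lit 0) (nat_lit 0),Row.mk (nat_lit 12432) (nat_lit 32912) (nat_lit 124) (nat_lit 61897) (nat_lit 39771034) (nat_lit 0) (nat_lit 0),Row.mk (nat_lit 12600) (nat_lit 32912) (nat_lit 155) (nat_lit 61897) (nat_lit 39771003) (nat_lit 0) (nat_lit 0),Row.mk (nat_lit 12768) (nat_lit 32912) (nat_lit 194) (nat_lit 61897) (nat_lit 39770964) (nat_lit 0) (nat_lit 0),Row.mk (nat_lit 12936) (nat_lit 32912) (nat_lit 243)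 (nat_lit 61897) (nat_lit 39770916) (nat_lit 0) (nat_lit 0),Row.mk (nat_lit 13104) (nat_lit 32912) (nat_lit 303) (nat_lit 61897) (nat_lit 39770855) (nat_lit 0) (nat_lit 0),Row.mk (nat_lit 13272) (nat_lit 32912) (nat_lit 379) (nat_lit 61897) (nat_lit 39770780) (nat_lit 0) (nat_lit 0),Row.mk (nat_lit 13440) (nat_lit 32912) (nat_lit 473) (nat_lit 61897) (nat_lit 39770685) (nat_lit 0) (nat_lit 0),Row.mk (nat_lit 13608) (nat_lit 32912) (nat_lit 591) (nat_lit 61897) (nat_lit 39770567) (nat_lit 0) (nat_lit 0),Row.mk (nat_lit 13776) (nat_lit 32912) (nat_lit 738) (nat_lit 61897) (nat_lit 39770420) (nat_lit 0) (nat_lit 0),Row.mk (nat_lit 13944) (nat_lit 32912) (nat_lit 922) (nat_lit 61897) (nat_lit 39770236) (nat_lit 0) (nat_lit 0),Row.mk (nat_lit 14112) (nat_lit 32912) (nat_lit 1152) (nat_lit 61897) (nat_lit 39770007) (nat_lit 0) (nat_lit 0),Row.mk (nat_lit 14280) (nat_lit 32912) (nat_lit 1439) (nat_lit 61897) (nat_lit 39769720) (nat_lit 0)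 (nat_lit 0),Row.mk (nat_lit 14448) (nat_lit 32912) (nat_lit 1797) (nat_lit 61897) (nat_lit 39769361) (nat_lit 0) (nat_lit 0),Row.mk (nat_lit 14616) (nat_lit 32912) (nat_lit 2244) (nat_lit 61897) (nat_lit 39768914) (nat_lit 0) (nat_lit 0),Row.mk (nat_lit 14784) (nat_lit 32912) (nat_lit 2803) (nat_lit 61897) (nat_lit 39768355) (nat_lit 0) (nat_lit 0),Row.mk (nat_lit 14952) (nat_lit 32912) (nat_lit 3501) (nat_lit 61897) (nat_lit 39767657) (nat_lit 0) (nat_lit 0),Row.mk (nat_lit 15120) (nat_lit 32912) (nat_lit 4373) (nat_lit 61897) (nat_lit 39766785) (nat_lit 0) (nat_lit 0),Row.mk (nat_lit 15288) (nat_lit 32912) (nat_lit 5462) (nat_lit 61897) (nat_lit 39765696) (nat_lit 0) (nat_lit 0),Row.mk (nat_lit 15456) (nat_lit 32912) (nat_lit 6822) (nat_lit 61897) (nat_lit 39764336) (nat_lit 0) (nat_lit 0),Row.mk (nat_lit 15624) (nat_lit 32912) (nat_lit 8521) (nat_lit 61897) (nat_lit 39762637) (nat_lit 0) (nat_lit 0),Row.mk (nat_lit 15792) (nat_lit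 32912) (nat_lit 10643) (nat_lit 61897) (nat_lit 39760516) (nat_lit 0) (nat_lit 0),Row.mk (nat_lit 15960) (nat_lit 32912) (nat_lit 13292) (nat_lit 61897) (nat_lit 39757866) (nat_lit 0) (nat_lit 0),Row.mk (nat_lit 16128) (nat_lit 32912) (nat_lit 16602) (nat_lit 61897) (nat_lit 39754556) (nat_lit 0) (nat_lit 0),Row.mk (nat_lit 16296) (nat_lit 32912) (nat_lit 20736) (nat_lit 61897) (nat_lit 39750423) (nat_lit 0) (nat_lit 0),Row.mk (nat_lit 16464) (nat_lit 32912) (nat_lit 25899) (nat_lit 61897) (nat_lit 39745260) (nat_lit 0) (nat_lit 0),Row.mk (nat_lit 16632) (nat_lit 32912) (nat_lit 32347) (nat_lit 61897) (nat_lit 39738812) (nat_lit 0) (nat_lit 0),Row.mk (nat_lit 16800) (nat_lit 32912) (nat_lit 40401) (nat_lit 61897) (nat_lit 39730758) (nat_lit 0) (nat_lit 0),Row.mk (nat_lit 16968) (nat_lit 32912) (nat_lit 50459) (nat_lit 61897) (nat_lit 39720699) (nat_lit 0) (nat_lit 0),Row.mk (nat_lit 17136) (nat_lit 0) (nat_lit 316153) (nat_lit 748)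 (nat_lit 39518029) (nat_lit 0) (nat_lit 0),Row.mk (nat_lit 17304) (nat_lit 561) (nat_lit 394867) (nat_lit 1309) (nat_lit 39455006) (nat_lit 0) (nat_lit 0),Row.mk (nat_lit 17472) (nat_lit 1122) (nat_lit 493180) (nat_lit 1870) (nat_lit 39376291) (nat_lit 0) (nat_lit 0),Row.mk (nat_lit 17640) (nat_lit 1683) (nat_lit 615970) (nat_lit 2431) (nat_lit 39277979) (nat_lit 0) (nat_lit 0),Row.mk (nat_lit 17808) (nat_lit 2244) (nat_lit 769331) (nat_lit 2992) (nat_lit 39155189) (nat_lit 0) (nat_lit 0),Row.mk (nat_lit 17976) (nat_lit 2805) (nat_lit 960877) (nat_lit 3553) (nat_lit 39001827) (nat_lit 0) (nat_lit 0),Row.mk (nat_lit 18144) (nat_lit 3366) (nat_lit 1200112) (nat_lit 4114) (nat_lit 38810282) (nat_lit 0) (nat_lit 0),Row.mk (nat_lit 18312) (nat_lit 3927) (nat_lit 1498911) (nat_lit 4675) (nat_lit 38571047) (nat_lit 0) (nat_lit 0),Row.mk (nat_lit 18480) (nat_lit 4488) (nat_lit 1872104) (nat_lit 5236) (nat_lit 38272248) (nat_lit 0) (nat_lit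 0),Row.mk (nat_lit 18648) (nat_lit 5049) (nat_lit 2338212) (nat_lit 5797) (nat_lit 37899055) (nat_lit 0) (nat_lit 0),Row.mk (nat_lit 18816) (nat_lit 5610) (nat_lit 2920371) (nat_lit 6358) (nat_lit 37432946) (nat_lit 0) (nat_lit 0),Row.mk (nat_lit 18984) (nat_lit 6171) (nat_lit 3647473) (nat_lit 6919) (nat_lit 36850787) (nat_lit 0) (nat_lit 0),Row.mk (nat_lit 19152) (nat_lit 6732) (nat_lit 4555606) (nat_lit 7480) (nat_lit 36123685) (nat_lit 0) (nat_lit 0),Row.mk (nat_lit 19320) (nat_lit 7293) (nat_lit 5689842) (nat_lit 8041) (nat_lit 35215553) (nat_lit 0) (nat_lit 0),Row.mk (nat_lit 19488) (nat_lit 7854) (nat_lit 7106475) (nat_lit 8602) (nat_lit 34081317) (nat_lit 0) (nat_lit 0),Row.mk (nat_lit 19656) (nat_lit 8415) (nat_lit 8875816) (nat_lit 9163) (nat_lit 32664683) (nat_lit 0) (nat_lit 0),Row.mk (nat_lit 19824) (nat_lit 8976) (nat_lit 11085681) (nat_lit 9724) (nat_lit 30895342) (nat_lit 0) (nat_lit 0),Row.mk (nat_lit 19992) (nat_lit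 9537) (nat_lit 13845748) (nat_lit 10285) (nat_lit 28685478) (nat_lit 0) (nat_lit 0),Row.mk (nat_lit 20160) (nat_lit 10098) (nat_lit 17293005) (nat_lit 10846) (nat_lit 25925411) (nat_lit 0) (nat_lit 0),Row.mk (nat_lit 20328) (nat_lit 10659) (nat_lit 21598546) (nat_lit 11407) (nat_lit 22478153) (nat_lit 0) (nat_lit 0),Row.mk (nat_lit 20496) (nat_lit 11220) (nat_lit 26976063) (nat_lit 11968) (nat_lit 18172612) (nat_lit 0) (nat_lit 0),Row.mk (nat_lit 20664) (nat_lit 11781) (nat_lit 33692452) (nat_lit 12716) (nat_lit 12795095) (nat_lit 0) (nat_lit 0),Row.mk (nat_lit 20832) (nat_lit 12529) (nat_lit 42081060) (nat_lit 13464) (nat_lit 6078706) (nat_lit 0) (nat_lit 0),Row.mk (nat_lit 21000) (nat_lit 12342) (nat_lit 2885011) (nat_lit 13277) (nat_lit 47363316) (nat_lit 0) (nat_lit 0),Row.mk (nat_lit 21168) (nat_lit 13090) (nat_lit 15970742) (nat_lit 14025) (nat_lit 36886147) (nat_lit 0) (nat_lit 0),Row.mk (nat_lit 21336) (nat_lit 13838) (nat_lit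 32314505) (nat_lit 15147) (nat_lit 23800416) (nat_lit 0) (nat_lit 0),Row.mk (nat_lit 21504) (nat_lit 14960) (nat_lit 52727471) (nat_lit 16456) (nat_lit 7456653) (nat_lit 0) (nat_lit 0),Row.mk (nat_lit 21672) (nat_lit 14773) (nat_lit 16182120) (nat_lit 16269) (nat_lit 49084340) (nat_lit 0) (nat_lit 0),Row.mk (nat_lit 21840) (nat_lit 16082) (nat_lit 48025137) (nat_lit 17765) (nat_lit 23589038) (nat_lit 0) (nat_lit 0),Row.mk (nat_lit 22008) (nat_lit 15895) (nat_lit 10309019) (nat_lit 17578) (nat_lit 69233299) (nat_lit 0) (nat_lit 0),Row.mk (nat_lit 22176) (nat_lit 17391) (nat_lit 59982237) (nat_lit 19635) (nat_lit 29462140) (nat_lit 0) (nat_lit 0),Row.mk (nat_lit 22344) (nat_lit 17204) (nat_lit 25243149) (nat_lit 19448) (nat_lit 76568661) (nat_lit 0) (nat_lit 0),Row.mk (nat_lit 22512) (nat_lit 19261) (nat_lit 102730426) (nat_lit 25806) (nat_lit 14528009) (nat_lit 0) (nat_lit 0),Row.mk (nat_lit 22680) (nat_lit 19074) (nat_lit 78634606)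 (nat_lit 25619) (nat_lit 57916293) (nat_lit 0) (nat_lit 0),Row.mk (nat_lit 22848) (nat_lit 18887) (nat_lit 48539507) (nat_lit 25432) (nat_lit 112107212) (nat_lit 0) (nat_lit 0),Row.mk (nat_lit 23016) (nat_lit 18700) (nat_lit 10951455) (nat_lit 25245) (nat_lit 179790363) (nat_lit 0) (nat_lit 0),Row.mk (nat_lit 23184) (nat_lit 25058) (nat_lit 199510166) (nat_lit 31603) (nat_lit 28819704) (nat_lit 0) (nat_lit 0),Row.mk (nat_lit 23352) (nat_lit 24871) (nat_lit 199510166) (nat_lit 31416) (nat_lit 75766274) (nat_lit 0) (nat_lit 0),Row.mk (nat_lit 23520) (nat_lit 24684) (nat_lit 199510166) (nat_lit 31229) (nat_lit 134401408) (nat_lit 0) (nat_lit 0),Row.mk (nat_lit 23688) (nat_lit 24497) (nat_lit 199510166) (nat_lit 31042) (nat_lit 207635276) (nat_lit 0) (nat_lit 0),Row.mk (nat_lit 23856) (nat_lit 24310) (nat_lit 199510166) (nat_lit 30855) (nat_lit 299102610) (nat_lit 0) (nat_lit 0),Row.mk (nat_lit 24024) (nat_lit 24123) (nat_lit 199510166)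 (nat_lit 30668) (nat_lit 413343104) (nat_lit 0) (nat_lit 0),Row.mk (nat_lit 24192) (nat_lit 23936) (nat_lit 199510166) (nat_lit 30481) (nat_lit 556026724) (nat_lit 0) (nat_lit 0),Row.mk (nat_lit 24360) (nat_lit 23749) (nat_lit 199510166) (nat_lit 30294) (nat_lit 734235125) (nat_lit 0) (nat_lit 0),Row.mk (nat_lit 24528) (nat_lit 23562) (nat_lit 199510166) (nat_lit 30107) (nat_lit 956813118) (nat_lit 0) (nat_lit 0),Row.mk (nat_lit 24696) (nat_lit 23375) (nat_lit 199510166) (nat_lit 29920) (nat_lit 1234807662) (nat_lit 0) (nat_lit 0),Row.mk (nat_lit 24864) (nat_lit 23188) (nat_lit 199510166) (nat_lit 29733) (nat_lit 1582016141) (nat_lit 0) (nat_lit 0),Row.mk (nat_lit 25032) (nat_lit 23001) (nat_lit 199510166) (nat_lit 29546) (nat_lit 2015671155) (nat_lit 0) (nat_lit 0),Row.mk (nat_lit 25200) (nat_lit 22814) (nat_lit 199510166) (nat_lit 29359) (nat_lit 2557295806) (nat_lit 0) (nat_lit 0),Row.mk (nat_lit 25368) (nat_lit 22627) (nat_lit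 199510166) (nat_lit 29172) (nat_lit 3233771930) (nat_lit 0) (nat_lit 0),Row.mk (nat_lit 25536) (nat_lit 22440) (nat_lit 199510166) (nat_lit 28985) (nat_lit 4078674289) (nat_lit 0) (nat_lit 0),Row.mk (nat_lit 25704) (nat_lit 22253) (nat_lit 199510166) (nat_lit 28798) (nat_lit 5133936954) (nat_lit 0) (nat_lit 0),Row.mk (nat_lit 25872) (nat_lit 22066) (nat_lit 199510166) (nat_lit 28611) (nat_lit 6451934564) (nat_lit 0) (nat_lit 0),Row.mk (nat_lit 26040) (nat_lit 21879) (nat_lit 199510166) (nat_lit 28424) (nat_lit 8098081785) (nat_lit 0) (nat_lit 0),Row.mk (nat_lit 26208) (nat_lit 21692) (nat_lit 199510166) (nat_lit 28237) (nat_lit 10154079953) (nat_lit 0) (nat_lit 0),Row.mk (nat_lit 26376) (nat_lit 21505) (nat_lit 199510166) (nat_lit 28050) (nat_lit 12721972065) (nat_lit 0) (nat_lit 0),Row.mk (nat_lit 26544) (nat_lit 21318) (nat_lit 199510166) (nat_lit 27863) (nat_lit 15929207367) (nat_lit 0) (nat_lit 0),Row.mk (nat_lit 26712) (nat_lit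 21131) (nat_lit 199510166) (nat_lit 27676) (nat_lit 19934966887) (nat_lit 0) (nat_lit 0),Row.mk (nat_lit 26880) (nat_lit 20944) (nat_lit 199510166) (nat_lit 27489) (nat_lit 24938063894) (nat_lit 0) (nat_lit 0),Row.mk (nat_lit 27048) (nat_lit 32912) (nat_lit 39771159) (nat_lit 62084) (nat_lit 31306779211) (nat_lit 0) (nat_lit 0),Row.mk (nat_lit 27216) (nat_lit 32912) (nat_lit 39771159) (nat_lit 62084) (nat_lit 39111314055) (nat_lit 0) (nat_lit 0)],
[Row.mk (nat_lit 11928) (nat_lit 32912) (nat_lit 64) (nat_lit 61897) (nat_lit 49673154) (nat_lit 0) (nat_lit 0),Row.mk (nat_lit 12096) (nat_lit 32912) (nat_lit 79) (nat_lit 61897) (nat_lit 49673138) (nat_lit 0) (nat_lit 0),Row.mk (nat_lit 12264) (nat_lit 32912) (nat_lit 99) (nat_lit 61897) (nat_lit 49673118) (nat_lit 0) (nat_lit 0),Row.mk (nat_lit 12432) (nat_lit 32912) (nat_lit 124) (nat_lit 61897) (nat_lit 49673093) (nat_lit 0) (nat_lit 0),Row.mk (nat_lit 12600) (nat_lit 32912) (nat_lit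 155) (nat_lit 61897) (nat_lit 49673062) (nat_lit 0) (nat_lit 0),Row.mk (nat_lit 12768) (nat_lit 32912) (nat_lit 194) (nat_lit 61897) (nat_lit 49673024) (nat_lit 0) (nat_lit 0),Row.mk (nat_lit 12936) (nat_lit 32912) (nat_lit 243) (nat_lit 61897) (nat_lit 49672975) (nat_lit 0) (nat_lit 0),Row.mk (nat_lit 13104) (nat_lit 32912) (nat_lit 303) (nat_lit 61897) (nat_lit 49672915) (nat_lit 0) (nat_lit 0),Row.mk (nat_lit 13272) (nat_lit 32912) (nat_lit 379) (nat_lit 61897) (nat_lit 49672839) (nat_lit 0) (nat_lit 0),Row.mk (nat_lit 13440) (nat_lit 32912) (nat_lit 473) (nat_lit 61897) (nat_lit 49672745) (nat_lit 0) (nat_lit 0),Row.mk (nat_lit 13608) (nat_lit 32912) (nat_lit 591) (nat_lit 61897) (nat_lit 49672627) (nat_lit 0) (nat_lit 0),Row.mk (nat_lit 13776) (nat_lit 32912) (nat_lit 738) (nat_lit 61897) (nat_lit 49672479) (nat_lit 0) (nat_lit 0),Row.mk (nat_lit 13944) (nat_lit 32912) (nat_lit 922) (nat_lit 61897) (nat_lit 49672296) (nat_lit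 0) (nat_lit 0),Row.mk (nat_lit 14112) (nat_lit 32912) (nat_lit 1152) (nat_lit 61897) (nat_lit 49672066) (nat_lit 0) (nat_lit 0),Row.mk (nat_lit 14280) (nat_lit 32912) (nat_lit 1439) (nat_lit 61897) (nat_lit 49671779) (nat_lit 0) (nat_lit 0),Row.mk (nat_lit 14448) (nat_lit 32912) (nat_lit 1797) (nat_lit 61897) (nat_lit 49671421) (nat_lit 0) (nat_lit 0),Row.mk (nat_lit 14616) (nat_lit 32912) (nat_lit 2244) (nat_lit 61897) (nat_lit 49670973) (nat_lit 0) (nat_lit 0),Row.mk (nat_lit 14784) (nat_lit 32912) (nat_lit 2803) (nat_lit 61897) (nat_lit 49670414) (nat_lit 0) (nat_lit 0),Row.mk (nat_lit 14952) (nat_lit 32912) (nat_lit 3501) (nat_lit 61897) (nat_lit 49669716) (nat_lit 0) (nat_lit 0),Row.mk (nat_lit 15120) (nat_lit 32912) (nat_lit 4373) (nat_lit 61897) (nat_lit 49668844) (nat_lit 0) (nat_lit 0),Row.mk (nat_lit 15288) (nat_lit 32912) (nat_lit 5462) (nat_lit 61897) (nat_lit 49667755) (nat_lit 0) (nat_lit 0),Row.mk (nat_lit 15456) (nat_lit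 32912) (nat_lit 6822) (nat_lit 61897) (nat_lit 49666395) (nat_lit 0) (nat_lit 0),Row.mk (nat_lit 15624) (nat_lit 32912) (nat_lit 8521) (nat_lit 61897) (nat_lit 49664697) (nat_lit 0) (nat_lit 0),Row.mk (nat_lit 15792) (nat_lit 32912) (nat_lit 10643) (nat_lit 61897) (nat_lit 49662575) (nat_lit 0) (nat_lit 0),Row.mk (nat_lit 15960) (nat_lit 32912) (nat_lit 13292) (nat_lit 61897) (nat_lit 49659925) (nat_lit 0) (nat_lit 0),Row.mk (nat_lit 16128) (nat_lit 32912) (nat_lit 16602) (nat_lit 61897) (nat_lit 49656615) (nat_lit 0) (nat_lit 0),Row.mk (nat_lit 16296) (nat_lit 32912) (nat_lit 20736) (nat_lit 61897) (nat_lit 49652482) (nat_lit 0) (nat_lit 0),Row.mk (nat_lit 16464) (nat_lit 32912) (nat_lit 25899) (nat_lit 61897) (nat_lit 49647319) (nat_lit 0) (nat_lit 0),Row.mk (nat_lit 16632) (nat_lit 32912) (nat_lit 32347) (nat_lit 61897) (nat_lit 49640871) (nat_lit 0) (nat_lit 0),Row.mk (nat_lit 16800) (nat_lit 32912) (nat_lit 40401) (nat_lit 61897)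 (nat_lit 49632817) (nat_lit 0) (nat_lit 0),Row.mk (nat_lit 16968) (nat_lit 32912) (nat_lit 50459) (nat_lit 61897) (nat_lit 49622758) (nat_lit 0) (nat_lit 0),Row.mk (nat_lit 17136) (nat_lit 32912) (nat_lit 63023) (nat_lit 61897) (nat_lit 49610195) (nat_lit 0) (nat_lit 0),Row.mk (nat_lit 17304) (nat_lit 0) (nat_lit 394867) (nat_lit 748) (nat_lit 49357065) (nat_lit 0) (nat_lit 0),Row.mk (nat_lit 17472) (nat_lit 561) (nat_lit 493180) (nat_lit 1309) (nat_lit 49278350) (nat_lit 0) (nat_lit 0),Row.mk (nat_lit 17640) (nat_lit 1122) (nat_lit 615970) (nat_lit 1870) (nat_lit 49180038) (nat_lit 0) (nat_lit 0),Row.mk (nat_lit 17808) (nat_lit 1683) (nat_lit 769331) (nat_lit 2431) (nat_lit 49057248) (nat_lit 0) (nat_lit 0),Row.mk (nat_lit 17976) (nat_lit 2244) (nat_lit 960877) (nat_lit 2992) (nat_lit 48903886) (nat_lit 0) (nat_lit 0),Row.mk (nat_lit 18144) (nat_lit 2805) (nat_lit 1200112) (nat_lit 3553) (nat_lit 48712341) (nat_lit 0) (nat_lit 0),Row.mk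 (nat_lit 18312) (nat_lit 3366) (nat_lit 1498911) (nat_lit 4114) (nat_lit 48473106) (nat_lit 0) (nat_lit 0),Row.mk (nat_lit 18480) (nat_lit 3927) (nat_lit 1872104) (nat_lit 4675) (nat_lit 48174307) (nat_lit 0) (nat_lit 0),Row.mk (nat_lit 18648) (nat_lit 4488) (nat_lit 2338212) (nat_lit 5236) (nat_lit 47801114) (nat_lit 0) (nat_lit 0),Row.mk (nat_lit 18816) (nat_lit 5049) (nat_lit 2920371) (nat_lit 5797) (nat_lit 47335005) (nat_lit 0) (nat_lit 0),Row.mk (nat_lit 18984) (nat_lit 5610) (nat_lit 3647473) (nat_lit 6358) (nat_lit 46752847) (nat_lit 0) (nat_lit 0),Row.mk (nat_lit 19152) (nat_lit 6171) (nat_lit 4555606) (nat_lit 6919) (nat_lit 46025745) (nat_lit 0) (nat_lit 0),Row.mk (nat_lit 19320) (nat_lit 6732) (nat_lit 5689842) (nat_lit 7480) (nat_lit 45117612) (nat_lit 0) (nat_lit 0),Row.mk (nat_lit 19488) (nat_lit 7293) (nat_lit 7106475) (nat_lit 8041) (nat_lit 43983376) (nat_lit 0) (nat_lit 0),Row.mk (nat_lit 19656) (nat_lit 7854) (nat_lit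 8875816) (nat_lit 8602) (nat_lit 42566742) (nat_lit 0) (nat_lit 0),Row.mk (nat_lit 19824) (nat_lit 8415) (nat_lit 11085681) (nat_lit 9163) (nat_lit 40797401) (nat_lit 0) (nat_lit 0),Row.mk (nat_lit 19992) (nat_lit 8976) (nat_lit 13845748) (nat_lit 9724) (nat_lit 38587537) (nat_lit 0) (nat_lit 0),Row.mk (nat_lit 20160) (nat_lit 9537) (nat_lit 17293005) (nat_lit 10285) (nat_lit 35827470) (nat_lit 0) (nat_lit 0),Row.mk (nat_lit 20328) (nat_lit 10098) (nat_lit 21598546) (nat_lit 10846) (nat_lit 32380213) (nat_lit 0) (nat_lit 0),Row.mk (nat_lit 20496) (nat_lit 10659) (nat_lit 26976063) (nat_lit 11407) (nat_lit 28074671) (nat_lit 0) (nat_lit 0),Row.mk (nat_lit 20664) (nat_lit 11220) (nat_lit 33692452) (nat_lit 11968) (nat_lit 22697154) (nat_lit 0) (nat_lit 0),Row.mk (nat_lit 20832) (nat_lit 11781) (nat_lit 42081060) (nat_lit 12716) (nat_lit 15980765) (nat_lit 0) (nat_lit 0),Row.mk (nat_lit 21000) (nat_lit 12529) (nat_lit 52558229) (nat_lit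 13464) (nat_lit 7592157) (nat_lit 0) (nat_lit 0),Row.mk (nat_lit 21168) (nat_lit 12342) (nat_lit 3603309) (nat_lit 13277) (nat_lit 59155640) (nat_lit 0) (nat_lit 0),Row.mk (nat_lit 21336) (nat_lit 13090) (nat_lit 19947072) (nat_lit 14025) (nat_lit 46069908) (nat_lit 0) (nat_lit 0),Row.mk (nat_lit 21504) (nat_lit 13838) (nat_lit 40360037) (nat_lit 15147) (nat_lit 29726146) (nat_lit 0) (nat_lit 0),Row.mk (nat_lit 21672) (nat_lit 14960) (nat_lit 65855339) (nat_lit 16456) (nat_lit 9313180) (nat_lit 0) (nat_lit 0),Row.mk (nat_lit 21840) (nat_lit 14773) (nat_lit 20211078) (nat_lit 16269) (nat_lit 61305156) (nat_lit 0) (nat_lit 0),Row.mk (nat_lit 22008) (nat_lit 16082) (nat_lit 59982237) (nat_lit 17765) (nat_lit 29462140) (nat_lit 0) (nat_lit 0),Row.mk (nat_lit 22176) (nat_lit 15895) (nat_lit 12875716) (nat_lit 17578) (nat_lit 86470720) (nat_lit 0) (nat_lit 0),Row.mk (nat_lit 22344) (nat_lit 17391) (nat_lit 74916367) (nat_lit 19635) (nat_lit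 36797502) (nat_lit 0) (nat_lit 0),Row.mk (nat_lit 22512) (nat_lit 17204) (nat_lit 31528084) (nat_lit 19448) (nat_lit 95632411) (nat_lit 0) (nat_lit 0),Row.mk (nat_lit 22680) (nat_lit 19261) (nat_lit 128307824) (nat_lit 25806) (nat_lit 18145133) (nat_lit 0) (nat_lit 0),Row.mk (nat_lit 22848) (nat_lit 19074) (nat_lit 98212726) (nat_lit 25619) (nat_lit 72336053) (nat_lit 0) (nat_lit 0),Row.mk (nat_lit 23016) (nat_lit 18887) (nat_lit 60624673) (nat_lit 25432) (nat_lit 140019204) (nat_lit 0) (nat_lit 0),Row.mk (nat_lit 23184) (nat_lit 18700) (nat_lit 13678103) (nat_lit 25245) (nat_lit 224553826) (nat_lit 0) (nat_lit 0),Row.mk (nat_lit 23352) (nat_lit 25058) (nat_lit 249183385) (nat_lit 31603) (nat_lit 35995115) (nat_lit 0) (nat_lit 0),Row.mk (nat_lit 23520) (nat_lit 24871) (nat_lit 249183385) (nat_lit 31416) (nat_lit 94630249) (nat_lit 0) (nat_lit 0),Row.mk (nat_lit 23688) (nat_lit 24684) (nat_lit 249183385) (nat_lit 31229) (nat_lit 167864116)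 (nat_lit 0) (nat_lit 0),Row.mk (nat_lit 23856) (nat_lit 24497) (nat_lit 249183385) (nat_lit 31042) (nat_lit 259331450) (nat_lit 0) (nat_lit 0),Row.mk (nat_lit 24024) (nat_lit 24310) (nat_lit 249183385) (nat_lit 30855) (nat_lit 373571944) (nat_lit 0) (nat_lit 0),Row.mk (nat_lit 24192) (nat_lit 24123) (nat_lit 249183385) (nat_lit 30668) (nat_lit 516255565) (nat_lit 0) (nat_lit 0),Row.mk (nat_lit 24360) (nat_lit 23936) (nat_lit 249183385) (nat_lit 30481) (nat_lit 694463966) (nat_lit 0) (nat_lit 0),Row.mk (nat_lit 24528) (nat_lit 23749) (nat_lit 249183385) (nat_lit 30294) (nat_lit 917041959) (nat_lit 0) (nat_lit 0),Row.mk (nat_lit 24696) (nat_lit 23562) (nat_lit 249183385) (nat_lit 30107) (nat_lit 1195036502) (nat_lit 0) (nat_lit 0),Row.mk (nat_lit 24864) (nat_lit 23375) (nat_lit 249183385) (nat_lit 29920) (nat_lit 1542244981) (nat_lit 0) (nat_lit 0),Row.mk (nat_lit 25032) (nat_lit 23188) (nat_lit 249183385) (nat_lit 29733) (nat_lit 1975899996)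 (nat_lit 0) (nat_lit 0),Row.mk (nat_lit 25200) (nat_lit 23001) (nat_lit 249183385) (nat_lit 29546) (nat_lit 2517524647) (nat_lit 0) (nat_lit 0),Row.mk (nat_lit 25368) (nat_lit 22814) (nat_lit 249183385) (nat_lit 29359) (nat_lit 3194000771) (nat_lit 0) (nat_lit 0),Row.mk (nat_lit 25536) (nat_lit 22627) (nat_lit 249183385) (nat_lit 29172) (nat_lit 4038903130) (nat_lit 0) (nat_lit 0),Row.mk (nat_lit 25704) (nat_lit 22440) (nat_lit 249183385) (nat_lit 28985) (nat_lit 5094165794) (nat_lit 0) (nat_lit 0),Row.mk (nat_lit 25872) (nat_lit 22253) (nat_lit 249183385) (nat_lit 28798) (nat_lit 6412163405) (nat_lit 0) (nat_lit 0),Row.mk (nat_lit 26040) (nat_lit 22066) (nat_lit 249183385) (nat_lit 28611) (nat_lit 8058310626) (nat_lit 0) (nat_lit 0),Row.mk (nat_lit 26208) (nat_lit 21879) (nat_lit 249183385) (nat_lit 28424) (nat_lit 10114308793) (nat_lit 0) (nat_lit 0),Row.mk (nat_lit 26376) (nat_lit 21692) (nat_lit 249183385) (nat_lit 28237) (nat_lit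 12682200906) (nat_lit 0) (nat_lit 0),Row.mk (nat_lit 26544) (nat_lit 21505) (nat_lit 249183385) (nat_lit 28050) (nat_lit 15889436207) (nat_lit 0) (nat_lit 0),Row.mk (nat_lit 26712) (nat_lit 21318) (nat_lit 249183385) (nat_lit 27863) (nat_lit 19895195728) (nat_lit 0) (nat_lit 0),Row.mk (nat_lit 26880) (nat_lit 21131) (nat_lit 249183385) (nat_lit 27676) (nat_lit 24898292735) (nat_lit 0) (nat_lit 0),Row.mk (nat_lit 27048) (nat_lit 20944) (nat_lit 249183385) (nat_lit 27489) (nat_lit 31147040203) (nat_lit 0) (nat_lit 0),Row.mk (nat_lit 27216) (nat_lit 32912) (nat_lit 49673218) (nat_lit 62084) (nat_lit 39101411996) (nat_lit 0) (nat_lit 0),Row.mk (nat_lit 27384) (nat_lit 32912) (nat_lit 49673218) (nat_lit 62084) (nat_lit 48849087741) (nat_lit 0) (nat_lit 0)],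
[Row.mk (nat_lit 12096) (nat_lit 32912) (nat_lit 79) (nat_lit 61897) (nat_lit 62040571) (nat_lit 0) (nat_lit 0),Row.mk (nat_lit 12264) (nat_lit 32912) (nat_lit 99) (nat_lit 61897) (nat_lit 62040551) (nat_lit 0) (nat_lit 0),Row.mk (nat_lit 12432) (nat_lit 32912) (nat_lit 124) (nat_lit 61897) (nat_lit 62040526) (nat_lit 0) (nat_lit 0),Row.mk (nat_lit 12600) (nat_lit 32912) (nat_lit 155) (nat_lit 61897) (nat_lit 62040495) (nat_lit 0) (nat_lit 0),Row.mk (nat_lit 12768) (nat_lit 32912) (nat_lit 194) (nat_lit 61897) (nat_lit 62040457) (nat_lit 0) (nat_lit 0),Row.mk (nat_lit 12936) (nat_lit 32912) (nat_lit 243) (nat_lit 61897) (nat_lit 62040408) (nat_lit 0) (nat_lit 0),Row.mk (nat_lit 13104) (nat_lit 32912) (nat_lit 303) (nat_lit 61897) (nat_lit 62040348) (nat_lit 0) (nat_lit 0),Row.mk (nat_lit 13272) (nat_lit 32912) (nat_lit 379) (nat_lit 61897) (nat_lit 62040272) (nat_lit 0) (nat_lit 0),Row.mk (nat_lit 13440) (nat_lit 32912) (nat_lit 473)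 (nat_lit 61897) (nat_lit 62040178) (nat_lit 0) (nat_lit 0),Row.mk (nat_lit 13608) (nat_lit 32912) (nat_lit 591) (nat_lit 61897) (nat_lit 62040060) (nat_lit 0) (nat_lit 0),Row.mk (nat_lit 13776) (nat_lit 32912) (nat_lit 738) (nat_lit 61897) (nat_lit 62039913) (nat_lit 0) (nat_lit 0),Row.mk (nat_lit 13944) (nat_lit 32912) (nat_lit 922) (nat_lit 61897) (nat_lit 62039729) (nat_lit 0) (nat_lit 0),Row.mk (nat_lit 14112) (nat_lit 32912) (nat_lit 1152) (nat_lit 61897) (nat_lit 62039499) (nat_lit 0) (nat_lit 0),Row.mk (nat_lit 14280) (nat_lit 32912) (nat_lit 1439) (nat_lit 61897) (nat_lit 62039212) (nat_lit 0) (nat_lit 0),Row.mk (nat_lit 14448) (nat_lit 32912) (nat_lit 1797) (nat_lit 61897) (nat_lit 62038854) (nat_lit 0) (nat_lit 0),Row.mk (nat_lit 14616) (nat_lit 32912) (nat_lit 2244) (nat_lit 61897) (nat_lit 62038406) (nat_lit 0) (nat_lit 0),Row.mk (nat_lit 14784) (nat_lit 32912) (nat_lit 2803) (nat_lit 61897) (nat_lit 62037847) (nat_lit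 0) (nat_lit 0),Row.mk (nat_lit 14952) (nat_lit 32912) (nat_lit 3501) (nat_lit 61897) (nat_lit 62037149) (nat_lit 0) (nat_lit 0),Row.mk (nat_lit 15120) (nat_lit 32912) (nat_lit 4373) (nat_lit 61897) (nat_lit 62036277) (nat_lit 0) (nat_lit 0),Row.mk (nat_lit 15288) (nat_lit 32912) (nat_lit 5462) (nat_lit 61897) (nat_lit 62035189) (nat_lit 0) (nat_lit 0),Row.mk (nat_lit 15456) (nat_lit 32912) (nat_lit 6822) (nat_lit 61897) (nat_lit 62033828) (nat_lit 0) (nat_lit 0),Row.mk (nat_lit 15624) (nat_lit 32912) (nat_lit 8521) (nat_lit 61897) (nat_lit 62032130) (nat_lit 0) (nat_lit 0),Row.mk (nat_lit 15792) (nat_lit 32912) (nat_lit 10643) (nat_lit 61897) (nat_lit 62030008) (nat_lit 0) (nat_lit 0),Row.mk (nat_lit 15960) (nat_lit 32912) (nat_lit 13292) (nat_lit 61897) (nat_lit 62027358) (nat_lit 0) (nat_lit 0),Row.mk (nat_lit 16128) (nat_lit 32912) (nat_lit 16602) (nat_lit 61897) (nat_lit 62024049) (nat_lit 0) (nat_lit 0),Row.mk (nat_lit 16296)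 (nat_lit 32912) (nat_lit 20736) (nat_lit 61897) (nat_lit 62019915) (nat_lit 0) (nat_lit 0),Row.mk (nat_lit 16464) (nat_lit 32912) (nat_lit 25899) (nat_lit 61897) (nat_lit 62014752) (nat_lit 0) (nat_lit 0),Row.mk (nat_lit 16632) (nat_lit 32912) (nat_lit 32347) (nat_lit 61897) (nat_lit 62008304) (nat_lit 0) (nat_lit 0),Row.mk (nat_lit 16800) (nat_lit 32912) (nat_lit 40401) (nat_lit 61897) (nat_lit 62000250) (nat_lit 0) (nat_lit 0),Row.mk (nat_lit 16968) (nat_lit 32912) (nat_lit 50459) (nat_lit 61897) (nat_lit 61990191) (nat_lit 0) (nat_lit 0),Row.mk (nat_lit 17136) (nat_lit 32912) (nat_lit 63023) (nat_lit 61897) (nat_lit 61977628) (nat_lit 0) (nat_lit 0),Row.mk (nat_lit 17304) (nat_lit 32912) (nat_lit 78714) (nat_lit 61897) (nat_lit 61961937) (nat_lit 0) (nat_lit 0),Row.mk (nat_lit 17472) (nat_lit 0) (nat_lit 493180) (nat_lit 748) (nat_lit 61645784) (nat_lit 0) (nat_lit 0),Row.mk (nat_lit 17640) (nat_lit 561) (nat_lit 615970) (nat_lit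 1309) (nat_lit 61547471) (nat_lit 0) (nat_lit 0),Row.mk (nat_lit 17808) (nat_lit 1122) (nat_lit 769331) (nat_lit 1870) (nat_lit 61424681) (nat_lit 0) (nat_lit 0),Row.mk (nat_lit 17976) (nat_lit 1683) (nat_lit 960877) (nat_lit 2431) (nat_lit 61271319) (nat_lit 0) (nat_lit 0),Row.mk (nat_lit 18144) (nat_lit 2244) (nat_lit 1200112) (nat_lit 2992) (nat_lit 61079774) (nat_lit 0) (nat_lit 0),Row.mk (nat_lit 18312) (nat_lit 2805) (nat_lit 1498911) (nat_lit 3553) (nat_lit 60840539) (nat_lit 0) (nat_lit 0),Row.mk (nat_lit 18480) (nat_lit 3366) (nat_lit 1872104) (nat_lit 4114) (nat_lit 60541740) (nat_lit 0) (nat_lit 0),Row.mk (nat_lit 18648) (nat_lit 3927) (nat_lit 2338212) (nat_lit 4675) (nat_lit 60168547) (nat_lit 0) (nat_lit 0),Row.mk (nat_lit 18816) (nat_lit 4488) (nat_lit 2920371) (nat_lit 5236) (nat_lit 59702438) (nat_lit 0) (nat_lit 0),Row.mk (nat_lit 18984) (nat_lit 5049) (nat_lit 3647473) (nat_lit 5797) (nat_lit 59120280) (nat_lit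 0) (nat_lit 0),Row.mk (nat_lit 19152) (nat_lit 5610) (nat_lit 4555606) (nat_lit 6358) (nat_lit 58393178) (nat_lit 0) (nat_lit 0),Row.mk (nat_lit 19320) (nat_lit 6171) (nat_lit 5689842) (nat_lit 6919) (nat_lit 57485045) (nat_lit 0) (nat_lit 0),Row.mk (nat_lit 19488) (nat_lit 6732) (nat_lit 7106475) (nat_lit 7480) (nat_lit 56350809) (nat_lit 0) (nat_lit 0),Row.mk (nat_lit 19656) (nat_lit 7293) (nat_lit 8875816) (nat_lit 8041) (nat_lit 54934175) (nat_lit 0) (nat_lit 0),Row.mk (nat_lit 19824) (nat_lit 7854) (nat_lit 11085681) (nat_lit 8602) (nat_lit 53164834) (nat_lit 0) (nat_lit 0),Row.mk (nat_lit 19992) (nat_lit 8415) (nat_lit 13845748) (nat_lit 9163) (nat_lit 50954970) (nat_lit 0) (nat_lit 0),Row.mk (nat_lit 20160) (nat_lit 8976) (nat_lit 17293005) (nat_lit 9724) (nat_lit 48194903) (nat_lit 0) (nat_lit 0),Row.mk (nat_lit 20328) (nat_lit 9537) (nat_lit 21598546) (nat_lit 10285) (nat_lit 44747646) (nat_lit 0) (nat_lit 0),Row.mk (nat_lit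 20496) (nat_lit 10098) (nat_lit 26976063) (nat_lit 10846) (nat_lit 40442104) (nat_lit 0) (nat_lit 0),Row.mk (nat_lit 20664) (nat_lit 10659) (nat_lit 33692452) (nat_lit 11407) (nat_lit 35064587) (nat_lit 0) (nat_lit 0),Row.mk (nat_lit 20832) (nat_lit 11220) (nat_lit 42081060) (nat_lit 11968) (nat_lit 28348198) (nat_lit 0) (nat_lit 0),Row.mk (nat_lit 21000) (nat_lit 11781) (nat_lit 52558229) (nat_lit 12716) (nat_lit 19959590) (nat_lit 0) (nat_lit 0),Row.mk (nat_lit 21168) (nat_lit 12529) (nat_lit 65643961) (nat_lit 13464) (nat_lit 9482421) (nat_lit 0) (nat_lit 0),Row.mk (nat_lit 21336) (nat_lit 12342) (nat_lit 4500446) (nat_lit 13277) (nat_lit 73883967) (nat_lit 0) (nat_lit 0),Row.mk (nat_lit 21504) (nat_lit 13090) (nat_lit 24913412) (nat_lit 14025) (nat_lit 57540204) (nat_lit 0) (nat_lit 0),Row.mk (nat_lit 21672) (nat_lit 13838) (nat_lit 50408713) (nat_lit 15147) (nat_lit 37127239) (nat_lit 0) (nat_lit 0),Row.mk (nat_lit 21840) (nat_lit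 14960) (nat_lit 82251730) (nat_lit 16456) (nat_lit 11631938) (nat_lit 0) (nat_lit 0),Row.mk (nat_lit 22008) (nat_lit 14773) (nat_lit 25243149) (nat_lit 16269) (nat_lit 76568661) (nat_lit 0) (nat_lit 0),Row.mk (nat_lit 22176) (nat_lit 16082) (nat_lit 74916367) (nat_lit 17765) (nat_lit 36797502) (nat_lit 0) (nat_lit 0),Row.mk (nat_lit 22344) (nat_lit 15895) (nat_lit 16081458) (nat_lit 17578) (nat_lit 107999844) (nat_lit 0) (nat_lit 0),Row.mk (nat_lit 22512) (nat_lit 17391) (nat_lit 93568736) (nat_lit 19635) (nat_lit 45959192) (nat_lit 0) (nat_lit 0),Row.mk (nat_lit 22680) (nat_lit 17204) (nat_lit 39377817) (nat_lit 19448) (nat_lit 119442574) (nat_lit 0) (nat_lit 0),Row.mk (nat_lit 22848) (nat_lit 19261) (nat_lit 160253377) (nat_lit 25806) (nat_lit 22662834) (nat_lit 0) (nat_lit 0),Row.mk (nat_lit 23016) (nat_lit 19074) (nat_lit 122665325) (nat_lit 25619) (nat_lit 90345985) (nat_lit 0) (nat_lit 0),Row.mk (nat_lit 23184) (nat_lit 18887)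 (nat_lit 75718755) (nat_lit 25432) (nat_lit 174880608) (nat_lit 0) (nat_lit 0),Row.mk (nat_lit 23352) (nat_lit 18700) (nat_lit 17083621) (nat_lit 25245) (nat_lit 280462312) (nat_lit 0) (nat_lit 0),Row.mk (nat_lit 23520) (nat_lit 25058) (nat_lit 311224037) (nat_lit 31603) (nat_lit 44957030) (nat_lit 0) (nat_lit 0),Row.mk (nat_lit 23688) (nat_lit 24871) (nat_lit 311224037) (nat_lit 31416) (nat_lit 118190898) (nat_lit 0) (nat_lit 0),Row.mk (nat_lit 23856) (nat_lit 24684) (nat_lit 311224037) (nat_lit 31229) (nat_lit 209658232) (nat_lit 0) (nat_lit 0),Row.mk (nat_lit 24024) (nat_lit 24497) (nat_lit 311224037) (nat_lit 31042) (nat_lit 323898726) (nat_lit 0) (nat_lit 0),Row.mk (nat_lit 24192) (nat_lit 24310) (nat_lit 311224037) (nat_lit 30855) (nat_lit 466582347) (nat_lit 0) (nat_lit 0),Row.mk (nat_lit 24360) (nat_lit 24123) (nat_lit 311224037) (nat_lit 30668) (nat_lit 644790747) (nat_lit 0) (nat_lit 0),Row.mk (nat_lit 24528) (nat_lit 23936)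 (nat_lit 311224037) (nat_lit 30481) (nat_lit 867368740) (nat_lit 0) (nat_lit 0),Row.mk (nat_lit 24696) (nat_lit 23749) (nat_lit 311224037) (nat_lit 30294) (nat_lit 1145363284) (nat_lit 0) (nat_lit 0),Row.mk (nat_lit 24864) (nat_lit 23562) (nat_lit 311224037) (nat_lit 30107) (nat_lit 1492571763) (nat_lit 0) (nat_lit 0),Row.mk (nat_lit 25032) (nat_lit 23375) (nat_lit 311224037) (nat_lit 29920) (nat_lit 1926226777) (nat_lit 0) (nat_lit 0),Row.mk (nat_lit 25200) (nat_lit 23188) (nat_lit 311224037) (nat_lit 29733) (nat_lit 2467851429) (nat_lit 0) (nat_lit 0),Row.mk (nat_lit 25368) (nat_lit 23001) (nat_lit 311224037) (nat_lit 29546) (nat_lit 3144327552) (nat_lit 0) (nat_lit 0),Row.mk (nat_lit 25536) (nat_lit 22814) (nat_lit 311224037) (nat_lit 29359) (nat_lit 3989229911) (nat_lit 0) (nat_lit 0),Row.mk (nat_lit 25704) (nat_lit 22627) (nat_lit 311224037) (nat_lit 29172) (nat_lit 5044492576) (nat_lit 0) (nat_lit 0),Row.mk (nat_lit 25872) (nat_lit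 22440) (nat_lit 311224037) (nat_lit 28985) (nat_lit 6362490186) (nat_lit 0) (nat_lit 0),Row.mk (nat_lit 26040) (nat_lit 22253) (nat_lit 311224037) (nat_lit 28798) (nat_lit 8008637407) (nat_lit 0) (nat_lit 0),Row.mk (nat_lit 26208) (nat_lit 22066) (nat_lit 311224037) (nat_lit 28611) (nat_lit 10064635575) (nat_lit 0) (nat_lit 0),Row.mk (nat_lit 26376) (nat_lit 21879) (nat_lit 311224037) (nat_lit 28424) (nat_lit 12632527687) (nat_lit 0) (nat_lit 0),Row.mk (nat_lit 26544) (nat_lit 21692) (nat_lit 311224037) (nat_lit 28237) (nat_lit 15839762989) (nat_lit 0) (nat_lit 0),Row.mk (nat_lit 26712) (nat_lit 21505) (nat_lit 311224037) (nat_lit 28050) (nat_lit 19845522509) (nat_lit 0) (nat_lit 0),Row.mk (nat_lit 26880) (nat_lit 21318) (nat_lit 311224037) (nat_lit 27863) (nat_lit 24848619516) (nat_lit 0) (nat_lit 0),Row.mk (nat_lit 27048) (nat_lit 21131) (nat_lit 311224037) (nat_lit 27676) (nat_lit 31097366985) (nat_lit 0) (nat_lit 0),Row.mk (nat_lit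 27216) (nat_lit 20944) (nat_lit 311224037) (nat_lit 27489) (nat_lit 38901901829) (nat_lit 0) (nat_lit 0),Row.mk (nat_lit 27384) (nat_lit 32912) (nat_lit 62040651) (nat_lit 62084) (nat_lit 48836720308) (nat_lit 0) (nat_lit 0),Row.mk (nat_lit 27552) (nat_lit 32912) (nat_lit 62040651) (nat_lit 62084) (nat_lit 61011332163) (nat_lit 0) (nat_lit 0)],
[Row.mk (nat_lit 12264) (nat_lit 32912) (nat_lit 99) (nat_lit 61897) (nat_lit 77487177) (nat_lit 0) (nat_lit 0),Row.mk (nat_lit 12432) (nat_lit 32912) (nat_lit 124) (nat_lit 61897) (nat_lit 77487152) (nat_lit 0) (nat_lit 0),Row.mk (nat_lit 12600) (nat_lit 32912) (nat_lit 155) (nat_lit 61897) (nat_lit 77487121) (nat_lit 0) (nat_lit 0),Row.mk (nat_lit 12768) (nat_lit 32912) (nat_lit 194) (nat_lit 61897) (nat_lit 77487082) (nat_lit 0) (nat_lit 0),Row.mk (nat_lit 12936) (nat_lit 32912) (nat_lit 243) (nat_lit 61897) (nat_lit 77487034) (nat_lit 0) (nat_lit 0),Row.mk (nat_lit 13104) (nat_lit 32912)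 (nat_lit 303) (nat_lit 61897) (nat_lit 77486973) (nat_lit 0) (nat_lit 0),Row.mk (nat_lit 13272) (nat_lit 32912) (nat_lit 379) (nat_lit 61897) (nat_lit 77486898) (nat_lit 0) (nat_lit 0),Row.mk (nat_lit 13440) (nat_lit 32912) (nat_lit 473) (nat_lit 61897) (nat_lit 77486803) (nat_lit 0) (nat_lit 0),Row.mk (nat_lit 13608) (nat_lit 32912) (nat_lit 591) (nat_lit 61897) (nat_lit 77486685) (nat_lit 0) (nat_lit 0),Row.mk (nat_lit 13776) (nat_lit 32912) (nat_lit 738) (nat_lit 61897) (nat_lit 77486538) (nat_lit 0) (nat_lit 0),Row.mk (nat_lit 13944) (nat_lit 32912) (nat_lit 922) (nat_lit 61897) (nat_lit 77486354) (nat_lit 0) (nat_lit 0),Row.mk (nat_lit 14112) (nat_lit 32912) (nat_lit 1152) (nat_lit 61897) (nat_lit 77486125) (nat_lit 0) (nat_lit 0),Row.mk (nat_lit 14280) (nat_lit 32912) (nat_lit 1439) (nat_lit 61897) (nat_lit 77485838) (nat_lit 0) (nat_lit 0),Row.mk (nat_lit 14448) (nat_lit 32912) (nat_lit 1797) (nat_lit 61897) (nat_lit 77485479)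 (nat_lit 0) (nat_lit 0),Row.mk (nat_lit 14616) (nat_lit 32912) (nat_lit 2244) (nat_lit 61897) (nat_lit 77485032) (nat_lit 0) (nat_lit 0),Row.mk (nat_lit 14784) (nat_lit 32912) (nat_lit 2803) (nat_lit 61897) (nat_lit 77484473) (nat_lit 0) (nat_lit 0),Row.mk (nat_lit 14952) (nat_lit 32912) (nat_lit 3501) (nat_lit 61897) (nat_lit 77483775) (nat_lit 0) (nat_lit 0),Row.mk (nat_lit 15120) (nat_lit 32912) (nat_lit 4373) (nat_lit 61897) (nat_lit 77482903) (nat_lit 0) (nat_lit 0),Row.mk (nat_lit 15288) (nat_lit 32912) (nat_lit 5462) (nat_lit 61897) (nat_lit 77481814) (nat_lit 0) (nat_lit 0),Row.mk (nat_lit 15456) (nat_lit 32912) (nat_lit 6822) (nat_lit 61897) (nat_lit 77480454) (nat_lit 0) (nat_lit 0),Row.mk (nat_lit 15624) (nat_lit 32912) (nat_lit 8521) (nat_lit 61897) (nat_lit 77478755) (nat_lit 0) (nat_lit 0),Row.mk (nat_lit 15792) (nat_lit 32912) (nat_lit 10643) (nat_lit 61897) (nat_lit 77476634) (nat_lit 0) (nat_lit 0),Row.mk (nat_lit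 15960) (nat_lit 32912) (nat_lit 13292) (nat_lit 61897) (nat_lit 77473984) (nat_lit 0) (nat_lit 0),Row.mk (nat_lit 16128) (nat_lit 32912) (nat_lit 16602) (nat_lit 61897) (nat_lit 77470674) (nat_lit 0) (nat_lit 0),Row.mk (nat_lit 16296) (nat_lit 32912) (nat_lit 20736) (nat_lit 61897) (nat_lit 77466541) (nat_lit 0) (nat_lit 0),Row.mk (nat_lit 16464) (nat_lit 32912) (nat_lit 25899) (nat_lit 61897) (nat_lit 77461378) (nat_lit 0) (nat_lit 0),Row.mk (nat_lit 16632) (nat_lit 32912) (nat_lit 32347) (nat_lit 61897) (nat_lit 77454929) (nat_lit 0) (nat_lit 0),Row.mk (nat_lit 16800) (nat_lit 32912) (nat_lit 40401) (nat_lit 61897) (nat_lit 77446876) (nat_lit 0) (nat_lit 0),Row.mk (nat_lit 16968) (nat_lit 32912) (nat_lit 50459) (nat_lit 61897) (nat_lit 77436817) (nat_lit 0) (nat_lit 0),Row.mk (nat_lit 17136) (nat_lit 32912) (nat_lit 63023) (nat_lit 61897) (nat_lit 77424254) (nat_lit 0) (nat_lit 0),Row.mk (nat_lit 17304) (nat_lit 32912) (nat_lit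 78714) (nat_lit 61897) (nat_lit 77408562) (nat_lit 0) (nat_lit 0),Row.mk (nat_lit 17472) (nat_lit 32912) (nat_lit 98312) (nat_lit 61897) (nat_lit 77388964) (nat_lit 0) (nat_lit 0),Row.mk (nat_lit 17640) (nat_lit 0) (nat_lit 615970) (nat_lit 748) (nat_lit 76994097) (nat_lit 0) (nat_lit 0),Row.mk (nat_lit 17808) (nat_lit 561) (nat_lit 769331) (nat_lit 1309) (nat_lit 76871307) (nat_lit 0) (nat_lit 0),Row.mk (nat_lit 17976) (nat_lit 1122) (nat_lit 960877) (nat_lit 1870) (nat_lit 76717945) (nat_lit 0) (nat_lit 0),Row.mk (nat_lit 18144) (nat_lit 1683) (nat_lit 1200112) (nat_lit 2431) (nat_lit 76526400) (nat_lit 0) (nat_lit 0),Row.mk (nat_lit 18312) (nat_lit 2244) (nat_lit 1498911) (nat_lit 2992) (nat_lit 76287165) (nat_lit 0) (nat_lit 0),Row.mk (nat_lit 18480) (nat_lit 2805) (nat_lit 1872104) (nat_lit 3553) (nat_lit 75988366) (nat_lit 0) (nat_lit 0),Row.mk (nat_lit 18648) (nat_lit 3366) (nat_lit 2338212) (nat_lit 4114) (nat_lit 75615173)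 (nat_lit 0) (nat_lit 0),Row.mk (nat_lit 18816) (nat_lit 3927) (nat_lit 2920371) (nat_lit 4675) (nat_lit 75149064) (nat_lit 0) (nat_lit 0),Row.mk (nat_lit 18984) (nat_lit 4488) (nat_lit 3647473) (nat_lit 5236) (nat_lit 74566905) (nat_lit 0) (nat_lit 0),Row.mk (nat_lit 19152) (nat_lit 5049) (nat_lit 4555606) (nat_lit 5797) (nat_lit 73839803) (nat_lit 0) (nat_lit 0),Row.mk (nat_lit 19320) (nat_lit 5610) (nat_lit 5689842) (nat_lit 6358) (nat_lit 72931671) (nat_lit 0) (nat_lit 0),Row.mk (nat_lit 19488) (nat_lit 6171) (nat_lit 7106475) (nat_lit 6919) (nat_lit 71797435) (nat_lit 0) (nat_lit 0),Row.mk (nat_lit 19656) (nat_lit 6732) (nat_lit 8875816) (nat_lit 7480) (nat_lit 70380801) (nat_lit 0) (nat_lit 0),Row.mk (nat_lit 19824) (nat_lit 7293) (nat_lit 11085681) (nat_lit 8041) (nat_lit 68611460) (nat_lit 0) (nat_lit 0),Row.mk (nat_lit 19992) (nat_lit 7854) (nat_lit 13845748) (nat_lit 8602) (nat_lit 66401596) (nat_lit 0) (nat_lit 0),Row.mk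 (nat_lit 20160) (nat_lit 8415) (nat_lit 17293005) (nat_lit 9163) (nat_lit 63641529) (nat_lit 0) (nat_lit 0),Row.mk (nat_lit 20328) (nat_lit 8976) (nat_lit 21598546) (nat_lit 9724) (nat_lit 60194271) (nat_lit 0) (nat_lit 0),Row.mk (nat_lit 20496) (nat_lit 9537) (nat_lit 26976063) (nat_lit 10285) (nat_lit 55888730) (nat_lit 0) (nat_lit 0),Row.mk (nat_lit 20664) (nat_lit 10098) (nat_lit 33692452) (nat_lit 10846) (nat_lit 50511213) (nat_lit 0) (nat_lit 0),Row.mk (nat_lit 20832) (nat_lit 10659) (nat_lit 42081060) (nat_lit 11407) (nat_lit 43794824) (nat_lit 0) (nat_lit 0),Row.mk (nat_lit 21000) (nat_lit 11220) (nat_lit 52558229) (nat_lit 11968) (nat_lit 35406216) (nat_lit 0) (nat_lit 0),Row.mk (nat_lit 21168) (nat_lit 11781) (nat_lit 65643961) (nat_lit 12716) (nat_lit 24929047) (nat_lit 0) (nat_lit 0),Row.mk (nat_lit 21336) (nat_lit 12529) (nat_lit 81987724) (nat_lit 13464) (nat_lit 11843315) (nat_lit 0) (nat_lit 0),Row.mk (nat_lit 21504)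 (nat_lit 12342) (nat_lit 5620949) (nat_lit 13277) (nat_lit 92279293) (nat_lit 0) (nat_lit 0),Row.mk (nat_lit 21672) (nat_lit 13090) (nat_lit 31116250) (nat_lit 14025) (nat_lit 71866327) (nat_lit 0) (nat_lit 0),Row.mk (nat_lit 21840) (nat_lit 13838) (nat_lit 62959267) (nat_lit 15147) (nat_lit 46371026) (nat_lit 0) (nat_lit 0),Row.mk (nat_lit 22008) (nat_lit 14960) (nat_lit 102730426) (nat_lit 16456) (nat_lit 14528009) (nat_lit 0) (nat_lit 0),Row.mk (nat_lit 22176) (nat_lit 14773) (nat_lit 31528084) (nat_lit 16269) (nat_lit 95632411) (nat_lit 0) (nat_lit 0),Row.mk (nat_lit 22344) (nat_lit 16082) (nat_lit 93568736) (nat_lit 17765) (nat_lit 45959192) (nat_lit 0) (nat_lit 0),Row.mk (nat_lit 22512) (nat_lit 15895) (nat_lit 20085354) (nat_lit 17578) (nat_lit 134889200) (nat_lit 0) (nat_lit 0),Row.mk (nat_lit 22680) (nat_lit 17391) (nat_lit 116865094) (nat_lit 19635) (nat_lit 57401923) (nat_lit 0) (nat_lit 0),Row.mk (nat_lit 22848) (nat_lit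 17204) (nat_lit 49181943) (nat_lit 19448) (nat_lit 149180894) (nat_lit 0) (nat_lit 0),Row.mk (nat_lit 23016) (nat_lit 19261) (nat_lit 200152602) (nat_lit 25806) (nat_lit 28305333) (nat_lit 0) (nat_lit 0),Row.mk (nat_lit 23184) (nat_lit 19074) (nat_lit 153206032) (nat_lit 25619) (nat_lit 112839956) (nat_lit 0) (nat_lit 0),Row.mk (nat_lit 23352) (nat_lit 18887) (nat_lit 94570898) (nat_lit 25432) (nat_lit 218421660) (nat_lit 0) (nat_lit 0),Row.mk (nat_lit 23520) (nat_lit 18700) (nat_lit 21337030) (nat_lit 25245) (nat_lit 350290662) (nat_lit 0) (nat_lit 0),Row.mk (nat_lit 23688) (nat_lit 25058) (nat_lit 388711314) (nat_lit 31603) (nat_lit 56150246) (nat_lit 0) (nat_lit 0),Row.mk (nat_lit 23856) (nat_lit 24871) (nat_lit 388711314) (nat_lit 31416) (nat_lit 147617580) (nat_lit 0) (nat_lit 0),Row.mk (nat_lit 24024) (nat_lit 24684) (nat_lit 388711314) (nat_lit 31229) (nat_lit 261858074) (nat_lit 0) (nat_lit 0),Row.mk (nat_lit 24192) (nat_lit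 24497) (nat_lit 388711314) (nat_lit 31042) (nat_lit 404541695) (nat_lit 0) (nat_lit 0),Row.mk (nat_lit 24360) (nat_lit 24310) (nat_lit 388711314) (nat_lit 30855) (nat_lit 582750095) (nat_lit 0) (nat_lit 0),Row.mk (nat_lit 24528) (nat_lit 24123) (nat_lit 388711314) (nat_lit 30668) (nat_lit 805328088) (nat_lit 0) (nat_lit 0),Row.mk (nat_lit 24696) (nat_lit 23936) (nat_lit 388711314) (nat_lit 30481) (nat_lit 1083322632) (nat_lit 0) (nat_lit 0),Row.mk (nat_lit 24864) (nat_lit 23749) (nat_lit 388711314) (nat_lit 30294) (nat_lit 1430531111) (nat_lit 0) (nat_lit 0),Row.mk (nat_lit 25032) (nat_lit 23562) (nat_lit 388711314) (nat_lit 30107) (nat_lit 1864186125) (nat_lit 0) (nat_lit 0),Row.mk (nat_lit 25200) (nat_lit 23375) (nat_lit 388711314) (nat_lit 29920) (nat_lit 2405810777) (nat_lit 0) (nat_lit 0),Row.mk (nat_lit 25368) (nat_lit 23188) (nat_lit 388711314) (nat_lit 29733) (nat_lit 3082286900) (nat_lit 0) (nat_lit 0),Row.mk (nat_lit 25536)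 (nat_lit 23001) (nat_lit 388711314) (nat_lit 29546) (nat_lit 3927189260) (nat_lit 0) (nat_lit 0),Row.mk (nat_lit 25704) (nat_lit 22814) (nat_lit 388711314) (nat_lit 29359) (nat_lit 4982451924) (nat_lit 0) (nat_lit 0),Row.mk (nat_lit 25872) (nat_lit 22627) (nat_lit 388711314) (nat_lit 29172) (nat_lit 6300449535) (nat_lit 0) (nat_lit 0),Row.mk (nat_lit 26040) (nat_lit 22440) (nat_lit 388711314) (nat_lit 28985) (nat_lit 7946596756) (nat_lit 0) (nat_lit 0),Row.mk (nat_lit 26208) (nat_lit 22253) (nat_lit 388711314) (nat_lit 28798) (nat_lit 10002594923) (nat_lit 0) (nat_lit 0),Row.mk (nat_lit 26376) (nat_lit 22066) (nat_lit 388711314) (nat_lit 28611) (nat_lit 12570487036) (nat_lit 0) (nat_lit 0),Row.mk (nat_lit 26544) (nat_lit 21879) (nat_lit 388711314) (nat_lit 28424) (nat_lit 15777722337) (nat_lit 0) (nat_lit 0),Row.mk (nat_lit 26712) (nat_lit 21692) (nat_lit 388711314) (nat_lit 28237) (nat_lit 19783481858) (nat_lit 0) (nat_lit 0),Row.mk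 (nat_lit 26880) (nat_lit 21505) (nat_lit 388711314) (nat_lit 28050) (nat_lit 24786578865) (nat_lit 0) (nat_lit 0),Row.mk (nat_lit 27048) (nat_lit 21318) (nat_lit 388711314) (nat_lit 27863) (nat_lit 31035326333) (nat_lit 0) (nat_lit 0),Row.mk (nat_lit 27216) (nat_lit 21131) (nat_lit 388711314) (nat_lit 27676) (nat_lit 38839861177) (nat_lit 0) (nat_lit 0),Row.mk (nat_lit 27384) (nat_lit 20944) (nat_lit 388711314) (nat_lit 27489) (nat_lit 48587536922) (nat_lit 0) (nat_lit 0),Row.mk (nat_lit 27552) (nat_lit 32912) (nat_lit 77487277) (nat_lit 62084) (nat_lit 60995885537) (nat_lit 0) (nat_lit 0),Row.mk (nat_lit 27720) (nat_lit 32912) (nat_lit 77487277) (nat_lit 62084) (nat_lit 76201682046) (nat_lit 0) (nat_lit 0)],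
[Row.mk (nat_lit 12432) (nat_lit 32912) (nat_lit 124) (nat_lit 61897) (nat_lit 96779615) (nat_lit 0) (nat_lit 0),Row.mk (nat_lit 12600) (nat_lit 32912) (nat_lit 155) (nat_lit 61897) (nat_lit 96779584) (nat_lit 0) (nat_lit 0),Row.mk (nat_lit 12768) (nat_lit 32912) (nat_lit 194) (nat_lit 61897) (nat_lit 96779545) (nat_lit 0) (nat_lit 0),Row.mk (nat_lit 12936) (nat_lit 32912) (nat_lit 243) (nat_lit 61897) (nat_lit 96779497) (nat_lit 0) (nat_lit 0),Row.mk (nat_lit 13104) (nat_lit 32912) (nat_lit 303) (nat_lit 61897) (nat_lit 96779436) (nat_lit 0) (nat_lit 0),Row.mk (nat_lit 13272) (nat_lit 32912) (nat_lit 379) (nat_lit 61897) (nat_lit 96779361) (nat_lit 0) (nat_lit 0),Row.mk (nat_lit 13440) (nat_lit 32912) (nat_lit 473) (nat_lit 61897) (nat_lit 96779266) (nat_lit 0) (nat_lit 0),Row.mk (nat_lit 13608) (nat_lit 32912) (nat_lit 591) (nat_lit 61897) (nat_lit 96779148) (nat_lit 0) (nat_lit 0),Row.mk (nat_lit 13776) (nat_lit 32912) (nat_lit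 738) (nat_lit 61897) (nat_lit 96779001) (nat_lit 0) (nat_lit 0),Row.mk (nat_lit 13944) (nat_lit 32912) (nat_lit 922) (nat_lit 61897) (nat_lit 96778817) (nat_lit 0) (nat_lit 0),Row.mk (nat_lit 14112) (nat_lit 32912) (nat_lit 1152) (nat_lit 61897) (nat_lit 96778587) (nat_lit 0) (nat_lit 0),Row.mk (nat_lit 14280) (nat_lit 32912) (nat_lit 1439) (nat_lit 61897) (nat_lit 96778301) (nat_lit 0) (nat_lit 0),Row.mk (nat_lit 14448) (nat_lit 32912) (nat_lit 1797) (nat_lit 61897) (nat_lit 96777942) (nat_lit 0) (nat_lit 0),Row.mk (nat_lit 14616) (nat_lit 32912) (nat_lit 2244) (nat_lit 61897) (nat_lit 96777495) (nat_lit 0) (nat_lit 0),Row.mk (nat_lit 14784) (nat_lit 32912) (nat_lit 2803) (nat_lit 61897) (nat_lit 96776936) (nat_lit 0) (nat_lit 0),Row.mk (nat_lit 14952) (nat_lit 32912) (nat_lit 3501) (nat_lit 61897) (nat_lit 96776238) (nat_lit 0) (nat_lit 0),Row.mk (nat_lit 15120) (nat_lit 32912) (nat_lit 4373) (nat_lit 61897) (nat_lit 96775366) (nat_lit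 0) (nat_lit 0),Row.mk (nat_lit 15288) (nat_lit 32912) (nat_lit 5462) (nat_lit 61897) (nat_lit 96774277) (nat_lit 0) (nat_lit 0),Row.mk (nat_lit 15456) (nat_lit 32912) (nat_lit 6822) (nat_lit 61897) (nat_lit 96772917) (nat_lit 0) (nat_lit 0),Row.mk (nat_lit 15624) (nat_lit 32912) (nat_lit 8521) (nat_lit 61897) (nat_lit 96771218) (nat_lit 0) (nat_lit 0),Row.mk (nat_lit 15792) (nat_lit 32912) (nat_lit 10643) (nat_lit 61897) (nat_lit 96769097) (nat_lit 0) (nat_lit 0),Row.mk (nat_lit 15960) (nat_lit 32912) (nat_lit 13292) (nat_lit 61897) (nat_lit 96766447) (nat_lit 0) (nat_lit 0),Row.mk (nat_lit 16128) (nat_lit 32912) (nat_lit 16602) (nat_lit 61897) (nat_lit 96763137) (nat_lit 0) (nat_lit 0),Row.mk (nat_lit 16296) (nat_lit 32912) (nat_lit 20736) (nat_lit 61897) (nat_lit 96759003) (nat_lit 0) (nat_lit 0),Row.mk (nat_lit 16464) (nat_lit 32912) (nat_lit 25899) (nat_lit 61897) (nat_lit 96753841) (nat_lit 0) (nat_lit 0),Row.mk (nat_lit 16632)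 (nat_lit 32912) (nat_lit 32347) (nat_lit 61897) (nat_lit 96747392) (nat_lit 0) (nat_lit 0),Row.mk (nat_lit 16800) (nat_lit 32912) (nat_lit 40401) (nat_lit 61897) (nat_lit 96739339) (nat_lit 0) (nat_lit 0),Row.mk (nat_lit 16968) (nat_lit 32912) (nat_lit 50459) (nat_lit 61897) (nat_lit 96729280) (nat_lit 0) (nat_lit 0),Row.mk (nat_lit 17136) (nat_lit 32912) (nat_lit 63023) (nat_lit 61897) (nat_lit 96716716) (nat_lit 0) (nat_lit 0),Row.mk (nat_lit 17304) (nat_lit 32912) (nat_lit 78714) (nat_lit 61897) (nat_lit 96701025) (nat_lit 0) (nat_lit 0),Row.mk (nat_lit 17472) (nat_lit 32912) (nat_lit 98312) (nat_lit 61897) (nat_lit 96681427) (nat_lit 0) (nat_lit 0),Row.mk (nat_lit 17640) (nat_lit 32912) (nat_lit 122789) (nat_lit 61897) (nat_lit 96656950) (nat_lit 0) (nat_lit 0),Row.mk (nat_lit 17808) (nat_lit 0) (nat_lit 769331) (nat_lit 748) (nat_lit 96163769) (nat_lit 0) (nat_lit 0),Row.mk (nat_lit 17976) (nat_lit 561) (nat_lit 960877) (nat_lit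 1309) (nat_lit 96010408) (nat_lit 0) (nat_lit 0),Row.mk (nat_lit 18144) (nat_lit 1122) (nat_lit 1200112) (nat_lit 1870) (nat_lit 95818863) (nat_lit 0) (nat_lit 0),Row.mk (nat_lit 18312) (nat_lit 1683) (nat_lit 1498911) (nat_lit 2431) (nat_lit 95579627) (nat_lit 0) (nat_lit 0),Row.mk (nat_lit 18480) (nat_lit 2244) (nat_lit 1872104) (nat_lit 2992) (nat_lit 95280828) (nat_lit 0) (nat_lit 0),Row.mk (nat_lit 18648) (nat_lit 2805) (nat_lit 2338212) (nat_lit 3553) (nat_lit 94907636) (nat_lit 0) (nat_lit 0),Row.mk (nat_lit 18816) (nat_lit 3366) (nat_lit 2920371) (nat_lit 4114) (nat_lit 94441527) (nat_lit 0) (nat_lit 0),Row.mk (nat_lit 18984) (nat_lit 3927) (nat_lit 3647473) (nat_lit 4675) (nat_lit 93859368) (nat_lit 0) (nat_lit 0),Row.mk (nat_lit 19152) (nat_lit 4488) (nat_lit 4555606) (nat_lit 5236) (nat_lit 93132266) (nat_lit 0) (nat_lit 0),Row.mk (nat_lit 19320) (nat_lit 5049) (nat_lit 5689842) (nat_lit 5797) (nat_lit 92224133) (nat_lit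 0) (nat_lit 0),Row.mk (nat_lit 19488) (nat_lit 5610) (nat_lit 7106475) (nat_lit 6358) (nat_lit 91089897) (nat_lit 0) (nat_lit 0),Row.mk (nat_lit 19656) (nat_lit 6171) (nat_lit 8875816) (nat_lit 6919) (nat_lit 89673264) (nat_lit 0) (nat_lit 0),Row.mk (nat_lit 19824) (nat_lit 6732) (nat_lit 11085681) (nat_lit 7480) (nat_lit 87903923) (nat_lit 0) (nat_lit 0),Row.mk (nat_lit 19992) (nat_lit 7293) (nat_lit 13845748) (nat_lit 8041) (nat_lit 85694059) (nat_lit 0) (nat_lit 0),Row.mk (nat_lit 20160) (nat_lit 7854) (nat_lit 17293005) (nat_lit 8602) (nat_lit 82933991) (nat_lit 0) (nat_lit 0),Row.mk (nat_lit 20328) (nat_lit 8415) (nat_lit 21598546) (nat_lit 9163) (nat_lit 79486734) (nat_lit 0) (nat_lit 0),Row.mk (nat_lit 20496) (nat_lit 8976) (nat_lit 26976063) (nat_lit 9724) (nat_lit 75181193) (nat_lit 0) (nat_lit 0),Row.mk (nat_lit 20664) (nat_lit 9537) (nat_lit 33692452) (nat_lit 10285) (nat_lit 69803676) (nat_lit 0) (nat_lit 0),Row.mk (nat_lit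 20832) (nat_lit 10098) (nat_lit 42081060) (nat_lit 10846) (nat_lit 63087287) (nat_lit 0) (nat_lit 0),Row.mk (nat_lit 21000) (nat_lit 10659) (nat_lit 52558229) (nat_lit 11407) (nat_lit 54698679) (nat_lit 0) (nat_lit 0),Row.mk (nat_lit 21168) (nat_lit 11220) (nat_lit 65643961) (nat_lit 11968) (nat_lit 44221510) (nat_lit 0) (nat_lit 0),Row.mk (nat_lit 21336) (nat_lit 11781) (nat_lit 81987724) (nat_lit 12716) (nat_lit 31135778) (nat_lit 0) (nat_lit 0),Row.mk (nat_lit 21504) (nat_lit 12529) (nat_lit 102400689) (nat_lit 13464) (nat_lit 14792015) (nat_lit 0) (nat_lit 0),Row.mk (nat_lit 21672) (nat_lit 12342) (nat_lit 7020430) (nat_lit 13277) (nat_lit 115254611) (nat_lit 0) (nat_lit 0),Row.mk (nat_lit 21840) (nat_lit 13090) (nat_lit 38863446) (nat_lit 14025) (nat_lit 89759309) (nat_lit 0) (nat_lit 0),Row.mk (nat_lit 22008) (nat_lit 13838) (nat_lit 78634606) (nat_lit 15147) (nat_lit 57916293) (nat_lit 0) (nat_lit 0),Row.mk (nat_lit 22176)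 (nat_lit 14960) (nat_lit 128307824) (nat_lit 16456) (nat_lit 18145133) (nat_lit 0) (nat_lit 0),Row.mk (nat_lit 22344) (nat_lit 14773) (nat_lit 39377817) (nat_lit 16269) (nat_lit 119442574) (nat_lit 0) (nat_lit 0),Row.mk (nat_lit 22512) (nat_lit 16082) (nat_lit 116865094) (nat_lit 17765) (nat_lit 57401923) (nat_lit 0) (nat_lit 0),Row.mk (nat_lit 22680) (nat_lit 15895) (nat_lit 25086123) (nat_lit 17578) (nat_lit 168473357) (nat_lit 0) (nat_lit 0),Row.mk (nat_lit 22848) (nat_lit 17391) (nat_lit 145961683) (nat_lit 19635) (nat_lit 71693617) (nat_lit 0) (nat_lit 0),Row.mk (nat_lit 23016) (nat_lit 17204) (nat_lit 61427061) (nat_lit 19448) (nat_lit 186323338) (nat_lit 0) (nat_lit 0),Row.mk (nat_lit 23184) (nat_lit 19261) (nat_lit 249985772) (nat_lit 25806) (nat_lit 35352678) (nat_lit 0) (nat_lit 0),Row.mk (nat_lit 23352) (nat_lit 19074) (nat_lit 191350638) (nat_lit 25619) (nat_lit 140934383) (nat_lit 0) (nat_lit 0),Row.mk (nat_lit 23520)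 (nat_lit 18887) (nat_lit 118116770) (nat_lit 25432) (nat_lit 272803385) (nat_lit 0) (nat_lit 0),Row.mk (nat_lit 23688) (nat_lit 18700) (nat_lit 26649436) (nat_lit 25245) (nat_lit 437504586) (nat_lit 0) (nat_lit 0),Row.mk (nat_lit 23856) (nat_lit 25058) (nat_lit 485491054) (nat_lit 31603) (nat_lit 70130303) (nat_lit 0) (nat_lit 0),Row.mk (nat_lit 24024) (nat_lit 24871) (nat_lit 485491054) (nat_lit 31416) (nat_lit 184370797) (nat_lit 0) (nat_lit 0),Row.mk (nat_lit 24192) (nat_lit 24684) (nat_lit 485491054) (nat_lit 31229) (nat_lit 327054417) (nat_lit 0) (nat_lit 0),Row.mk (nat_lit 24360) (nat_lit 24497) (nat_lit 485491054) (nat_lit 31042) (nat_lit 505262818) (nat_lit 0) (nat_lit 0),Row.mk (nat_lit 24528) (nat_lit 24310) (nat_lit 485491054) (nat_lit 30855) (nat_lit 727840811) (nat_lit 0) (nat_lit 0),Row.mk (nat_lit 24696) (nat_lit 24123) (nat_lit 485491054) (nat_lit 30668) (nat_lit 1005835355) (nat_lit 0) (nat_lit 0),Row.mk (nat_lit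 24864) (nat_lit 23936) (nat_lit 485491054) (nat_lit 30481) (nat_lit 1353043834) (nat_lit 0) (nat_lit 0),Row.mk (nat_lit 25032) (nat_lit 23749) (nat_lit 485491054) (nat_lit 30294) (nat_lit 1786698848) (nat_lit 0) (nat_lit 0),Row.mk (nat_lit 25200) (nat_lit 23562) (nat_lit 485491054) (nat_lit 30107) (nat_lit 2328323499) (nat_lit 0) (nat_lit 0),Row.mk (nat_lit 25368) (nat_lit 23375) (nat_lit 485491054) (nat_lit 29920) (nat_lit 3004799623) (nat_lit 0) (nat_lit 0),Row.mk (nat_lit 25536) (nat_lit 23188) (nat_lit 485491054) (nat_lit 29733) (nat_lit 3849701982) (nat_lit 0) (nat_lit 0),Row.mk (nat_lit 25704) (nat_lit 23001) (nat_lit 485491054) (nat_lit 29546) (nat_lit 4904964647) (nat_lit 0) (nat_lit 0),Row.mk (nat_lit 25872) (nat_lit 22814) (nat_lit 485491054) (nat_lit 29359) (nat_lit 6222962257) (nat_lit 0) (nat_lit 0),Row.mk (nat_lit 26040) (nat_lit 22627) (nat_lit 485491054) (nat_lit 29172) (nat_lit 7869109478) (nat_lit 0) (nat_lit 0),Row.mk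 (nat_lit 26208) (nat_lit 22440) (nat_lit 485491054) (nat_lit 28985) (nat_lit 9925107646) (nat_lit 0) (nat_lit 0),Row.mk (nat_lit 26376) (nat_lit 22253) (nat_lit 485491054) (nat_lit 28798) (nat_lit 12492999758) (nat_lit 0) (nat_lit 0),Row.mk (nat_lit 26544) (nat_lit 22066) (nat_lit 485491054) (nat_lit 28611) (nat_lit 15700235060) (nat_lit 0) (nat_lit 0),Row.mk (nat_lit 26712) (nat_lit 21879) (nat_lit 485491054) (nat_lit 28424) (nat_lit 19705994580) (nat_lit 0) (nat_lit 0),Row.mk (nat_lit 26880) (nat_lit 21692) (nat_lit 485491054) (nat_lit 28237) (nat_lit 24709091587) (nat_lit 0) (nat_lit 0),Row.mk (nat_lit 27048) (nat_lit 21505) (nat_lit 485491054) (nat_lit 28050) (nat_lit 30957839056) (nat_lit 0) (nat_lit 0),Row.mk (nat_lit 27216) (nat_lit 21318) (nat_lit 485491054) (nat_lit 27863) (nat_lit 38762373900) (nat_lit 0) (nat_lit 0),Row.mk (nat_lit 27384) (nat_lit 21131) (nat_lit 485491054) (nat_lit 27676) (nat_lit 48510049645) (nat_lit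 0) (nat_lit 0),Row.mk (nat_lit 27552) (nat_lit 20944) (nat_lit 485491054) (nat_lit 27489) (nat_lit 60684661500) (nat_lit 0) (nat_lit 0),Row.mk (nat_lit 27720) (nat_lit 32912) (nat_lit 96779740) (nat_lit 62084) (nat_lit 76182389583) (nat_lit 0) (nat_lit 0),Row.mk (nat_lit 27888) (nat_lit 32912) (nat_lit 96779740) (nat_lit 62084) (nat_lit 95174062601) (nat_lit 0) (nat_lit 0)],
[Row.mk (nat_lit 12600) (nat_lit 32912) (nat_lit 155) (nat_lit 61897) (nat_lit 120875404) (nat_lit 0) (nat_lit 0),Row.mk (nat_lit 12768) (nat_lit 32912) (nat_lit 194) (nat_lit 61897) (nat_lit 120875366) (nat_lit 0) (nat_lit 0),Row.mk (nat_lit 12936) (nat_lit 32912) (nat_lit 243) (nat_lit 61897) (nat_lit 120875317) (nat_lit 0) (nat_lit 0),Row.mk (nat_lit 13104) (nat_lit 32912) (nat_lit 303) (nat_lit 61897) (nat_lit 120875257) (nat_lit 0) (nat_lit 0),Row.mk (nat_lit 13272) (nat_lit 32912) (nat_lit 379) (nat_lit 61897) (nat_lit 120875181) (nat_lit 0) (nat_lit 0),Row.mk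 (nat_lit 13440) (nat_lit 32912) (nat_lit 473) (nat_lit 61897) (nat_lit 120875087) (nat_lit 0) (nat_lit 0),Row.mk (nat_lit 13608) (nat_lit 32912) (nat_lit 591) (nat_lit 61897) (nat_lit 120874969) (nat_lit 0) (nat_lit 0),Row.mk (nat_lit 13776) (nat_lit 32912) (nat_lit 738) (nat_lit 61897) (nat_lit 120874822) (nat_lit 0) (nat_lit 0),Row.mk (nat_lit 13944) (nat_lit 32912) (nat_lit 922) (nat_lit 61897) (nat_lit 120874638) (nat_lit 0) (nat_lit 0),Row.mk (nat_lit 14112) (nat_lit 32912) (nat_lit 1152) (nat_lit 61897) (nat_lit 120874408) (nat_lit 0) (nat_lit 0),Row.mk (nat_lit 14280) (nat_lit 32912) (nat_lit 1439) (nat_lit 61897) (nat_lit 120874121) (nat_lit 0) (nat_lit 0),Row.mk (nat_lit 14448) (nat_lit 32912) (nat_lit 1797) (nat_lit 61897) (nat_lit 120873763) (nat_lit 0) (nat_lit 0),Row.mk (nat_lit 14616) (nat_lit 32912) (nat_lit 2244) (nat_lit 61897) (nat_lit 120873315) (nat_lit 0) (nat_lit 0),Row.mk (nat_lit 14784) (nat_lit 32912) (nat_lit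 2803) (nat_lit 61897) (nat_lit 120872756) (nat_lit 0) (nat_lit 0),Row.mk (nat_lit 14952) (nat_lit 32912) (nat_lit 3501) (nat_lit 61897) (nat_lit 120872058) (nat_lit 0) (nat_lit 0),Row.mk (nat_lit 15120) (nat_lit 32912) (nat_lit 4373) (nat_lit 61897) (nat_lit 120871186) (nat_lit 0) (nat_lit 0),Row.mk (nat_lit 15288) (nat_lit 32912) (nat_lit 5462) (nat_lit 61897) (nat_lit 120870098) (nat_lit 0) (nat_lit 0),Row.mk (nat_lit 15456) (nat_lit 32912) (nat_lit 6822) (nat_lit 61897) (nat_lit 120868737) (nat_lit 0) (nat_lit 0),Row.mk (nat_lit 15624) (nat_lit 32912) (nat_lit 8521) (nat_lit 61897) (nat_lit 120867039) (nat_lit 0) (nat_lit 0),Row.mk (nat_lit 15792) (nat_lit 32912) (nat_lit 10643) (nat_lit 61897) (nat_lit 120864917) (nat_lit 0) (nat_lit 0),Row.mk (nat_lit 15960) (nat_lit 32912) (nat_lit 13292) (nat_lit 61897) (nat_lit 120862267) (nat_lit 0) (nat_lit 0),Row.mk (nat_lit 16128) (nat_lit 32912) (nat_lit 16602) (nat_lit 61897) (nat_lit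 120858958) (nat_lit 0) (nat_lit 0),Row.mk (nat_lit 16296) (nat_lit 32912) (nat_lit 20736) (nat_lit 61897) (nat_lit 120854824) (nat_lit 0) (nat_lit 0),Row.mk (nat_lit 16464) (nat_lit 32912) (nat_lit 25899) (nat_lit 61897) (nat_lit 120849661) (nat_lit 0) (nat_lit 0),Row.mk (nat_lit 16632) (nat_lit 32912) (nat_lit 32347) (nat_lit 61897) (nat_lit 120843213) (nat_lit 0) (nat_lit 0),Row.mk (nat_lit 16800) (nat_lit 32912) (nat_lit 40401) (nat_lit 61897) (nat_lit 120835159) (nat_lit 0) (nat_lit 0),Row.mk (nat_lit 16968) (nat_lit 32912) (nat_lit 50459) (nat_lit 61897) (nat_lit 120825100) (nat_lit 0) (nat_lit 0),Row.mk (nat_lit 17136) (nat_lit 32912) (nat_lit 63023) (nat_lit 61897) (nat_lit 120812537) (nat_lit 0) (nat_lit 0),Row.mk (nat_lit 17304) (nat_lit 32912) (nat_lit 78714) (nat_lit 61897) (nat_lit 120796846) (nat_lit 0) (nat_lit 0),Row.mk (nat_lit 17472) (nat_lit 32912) (nat_lit 98312) (nat_lit 61897) (nat_lit 120777248) (nat_lit 0) (nat_lit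 0),Row.mk (nat_lit 17640) (nat_lit 32912) (nat_lit 122789) (nat_lit 61897) (nat_lit 120752770) (nat_lit 0) (nat_lit 0),Row.mk (nat_lit 17808) (nat_lit 32912) (nat_lit 153361) (nat_lit 61897) (nat_lit 120722198) (nat_lit 0) (nat_lit 0),Row.mk (nat_lit 17976) (nat_lit 0) (nat_lit 960877) (nat_lit 748) (nat_lit 120106228) (nat_lit 0) (nat_lit 0),Row.mk (nat_lit 18144) (nat_lit 561) (nat_lit 1200112) (nat_lit 1309) (nat_lit 119914683) (nat_lit 0) (nat_lit 0),Row.mk (nat_lit 18312) (nat_lit 1122) (nat_lit 1498911) (nat_lit 1870) (nat_lit 119675448) (nat_lit 0) (nat_lit 0),Row.mk (nat_lit 18480) (nat_lit 1683) (nat_lit 1872104) (nat_lit 2431) (nat_lit 119376649) (nat_lit 0) (nat_lit 0),Row.mk (nat_lit 18648) (nat_lit 2244) (nat_lit 2338212) (nat_lit 2992) (nat_lit 119003456) (nat_lit 0) (nat_lit 0),Row.mk (nat_lit 18816) (nat_lit 2805) (nat_lit 2920371) (nat_lit 3553) (nat_lit 118537347) (nat_lit 0) (nat_lit 0),Row.mk (nat_lit 18984) (nat_lit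 3366) (nat_lit 3647473) (nat_lit 4114) (nat_lit 117955189) (nat_lit 0) (nat_lit 0),Row.mk (nat_lit 19152) (nat_lit 3927) (nat_lit 4555606) (nat_lit 4675) (nat_lit 117228087) (nat_lit 0) (nat_lit 0),Row.mk (nat_lit 19320) (nat_lit 4488) (nat_lit 5689842) (nat_lit 5236) (nat_lit 116319954) (nat_lit 0) (nat_lit 0),Row.mk (nat_lit 19488) (nat_lit 5049) (nat_lit 7106475) (nat_lit 5797) (nat_lit 115185718) (nat_lit 0) (nat_lit 0),Row.mk (nat_lit 19656) (nat_lit 5610) (nat_lit 8875816) (nat_lit 6358) (nat_lit 113769084) (nat_lit 0) (nat_lit 0),Row.mk (nat_lit 19824) (nat_lit 6171) (nat_lit 11085681) (nat_lit 6919) (nat_lit 111999743) (nat_lit 0) (nat_lit 0),Row.mk (nat_lit 19992) (nat_lit 6732) (nat_lit 13845748) (nat_lit 7480) (nat_lit 109789879) (nat_lit 0) (nat_lit 0),Row.mk (nat_lit 20160) (nat_lit 7293) (nat_lit 17293005) (nat_lit 8041) (nat_lit 107029812) (nat_lit 0) (nat_lit 0),Row.mk (nat_lit 20328) (nat_lit 7854) (nat_lit 21598546)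 (nat_lit 8602) (nat_lit 103582555) (nat_lit 0) (nat_lit 0),Row.mk (nat_lit 20496) (nat_lit 8415) (nat_lit 26976063) (nat_lit 9163) (nat_lit 99277013) (nat_lit 0) (nat_lit 0),Row.mk (nat_lit 20664) (nat_lit 8976) (nat_lit 33692452) (nat_lit 9724) (nat_lit 93899496) (nat_lit 0) (nat_lit 0),Row.mk (nat_lit 20832) (nat_lit 9537) (nat_lit 42081060) (nat_lit 10285) (nat_lit 87183107) (nat_lit 0) (nat_lit 0),Row.mk (nat_lit 21000) (nat_lit 10098) (nat_lit 52558229) (nat_lit 10846) (nat_lit 78794499) (nat_lit 0) (nat_lit 0),Row.mk (nat_lit 21168) (nat_lit 10659) (nat_lit 65643961) (nat_lit 11407) (nat_lit 68317330) (nat_lit 0) (nat_lit 0),Row.mk (nat_lit 21336) (nat_lit 11220) (nat_lit 81987724) (nat_lit 11968) (nat_lit 55231599) (nat_lit 0) (nat_lit 0),Row.mk (nat_lit 21504) (nat_lit 11781) (nat_lit 102400689) (nat_lit 12716) (nat_lit 38887836) (nat_lit 0) (nat_lit 0),Row.mk (nat_lit 21672) (nat_lit 12529) (nat_lit 127895991) (nat_lit 13464)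 (nat_lit 18474871) (nat_lit 0) (nat_lit 0),Row.mk (nat_lit 21840) (nat_lit 12342) (nat_lit 8768348) (nat_lit 13277) (nat_lit 143950228) (nat_lit 0) (nat_lit 0),Row.mk (nat_lit 22008) (nat_lit 13090) (nat_lit 48539507) (nat_lit 14025) (nat_lit 112107212) (nat_lit 0) (nat_lit 0),Row.mk (nat_lit 22176) (nat_lit 13838) (nat_lit 98212726) (nat_lit 15147) (nat_lit 72336053) (nat_lit 0) (nat_lit 0),Row.mk (nat_lit 22344) (nat_lit 14960) (nat_lit 160253377) (nat_lit 16456) (nat_lit 22662834) (nat_lit 0) (nat_lit 0),Row.mk (nat_lit 22512) (nat_lit 14773) (nat_lit 49181943) (nat_lit 16269) (nat_lit 149180894) (nat_lit 0) (nat_lit 0),Row.mk (nat_lit 22680) (nat_lit 16082) (nat_lit 145961683) (nat_lit 17765) (nat_lit 71693617) (nat_lit 0) (nat_lit 0),Row.mk (nat_lit 22848) (nat_lit 15895) (nat_lit 31331962) (nat_lit 17578) (nat_lit 210419158) (nat_lit 0) (nat_lit 0),Row.mk (nat_lit 23016) (nat_lit 17391) (nat_lit 182302621) (nat_lit 19635) (nat_lit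 89543598) (nat_lit 0) (nat_lit 0),Row.mk (nat_lit 23184) (nat_lit 17204) (nat_lit 76720917) (nat_lit 19448) (nat_lit 232713354) (nat_lit 0) (nat_lit 0),Row.mk (nat_lit 23352) (nat_lit 19261) (nat_lit 312226199) (nat_lit 25806) (nat_lit 44154643) (nat_lit 0) (nat_lit 0),Row.mk (nat_lit 23520) (nat_lit 19074) (nat_lit 238992331) (nat_lit 25619) (nat_lit 176023644) (nat_lit 0) (nat_lit 0),Row.mk (nat_lit 23688) (nat_lit 18887) (nat_lit 147524997) (nat_lit 25432) (nat_lit 340724846) (nat_lit 0) (nat_lit 0),Row.mk (nat_lit 23856) (nat_lit 18700) (nat_lit 33284503) (nat_lit 25245) (nat_lit 546432674) (nat_lit 0) (nat_lit 0),Row.mk (nat_lit 24024) (nat_lit 25058) (nat_lit 606366615) (nat_lit 31603) (nat_lit 87591057) (nat_lit 0) (nat_lit 0),Row.mk (nat_lit 24192) (nat_lit 24871) (nat_lit 606366615) (nat_lit 31416) (nat_lit 230274677) (nat_lit 0) (nat_lit 0),Row.mk (nat_lit 24360) (nat_lit 24684) (nat_lit 606366615) (nat_lit 31229) (nat_lit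 408483078) (nat_lit 0) (nat_lit 0),Row.mk (nat_lit 24528) (nat_lit 24497) (nat_lit 606366615) (nat_lit 31042) (nat_lit 631061071) (nat_lit 0) (nat_lit 0),Row.mk (nat_lit 24696) (nat_lit 24310) (nat_lit 606366615) (nat_lit 30855) (nat_lit 909055615) (nat_lit 0) (nat_lit 0),Row.mk (nat_lit 24864) (nat_lit 24123) (nat_lit 606366615) (nat_lit 30668) (nat_lit 1256264094) (nat_lit 0) (nat_lit 0),Row.mk (nat_lit 25032) (nat_lit 23936) (nat_lit 606366615) (nat_lit 30481) (nat_lit 1689919108) (nat_lit 0) (nat_lit 0),Row.mk (nat_lit 25200) (nat_lit 23749) (nat_lit 606366615) (nat_lit 30294) (nat_lit 2231543759) (nat_lit 0) (nat_lit 0),Row.mk (nat_lit 25368) (nat_lit 23562) (nat_lit 606366615) (nat_lit 30107) (nat_lit 2908019883) (nat_lit 0) (nat_lit 0),Row.mk (nat_lit 25536) (nat_lit 23375) (nat_lit 606366615) (nat_lit 29920) (nat_lit 3752922242) (nat_lit 0) (nat_lit 0),Row.mk (nat_lit 25704) (nat_lit 23188) (nat_lit 606366615) (nat_lit 29733)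 (nat_lit 4808184906) (nat_lit 0) (nat_lit 0),Row.mk (nat_lit 25872) (nat_lit 23001) (nat_lit 606366615) (nat_lit 29546) (nat_lit 6126182517) (nat_lit 0) (nat_lit 0),Row.mk (nat_lit 26040) (nat_lit 22814) (nat_lit 606366615) (nat_lit 29359) (nat_lit 7772329738) (nat_lit 0) (nat_lit 0),Row.mk (nat_lit 26208) (nat_lit 22627) (nat_lit 606366615) (nat_lit 29172) (nat_lit 9828327905) (nat_lit 0) (nat_lit 0),Row.mk (nat_lit 26376) (nat_lit 22440) (nat_lit 606366615) (nat_lit 28985) (nat_lit 12396220018) (nat_lit 0) (nat_lit 0),Row.mk (nat_lit 26544) (nat_lit 22253) (nat_lit 606366615) (nat_lit 28798) (nat_lit 15603455319) (nat_lit 0) (nat_lit 0),Row.mk (nat_lit 26712) (nat_lit 22066) (nat_lit 606366615) (nat_lit 28611) (nat_lit 19609214840) (nat_lit 0) (nat_lit 0),Row.mk (nat_lit 26880) (nat_lit 21879) (nat_lit 606366615) (nat_lit 28424) (nat_lit 24612311847) (nat_lit 0) (nat_lit 0),Row.mk (nat_lit 27048) (nat_lit 21692) (nat_lit 606366615)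 (nat_lit 28237) (nat_lit 30861059315) (nat_lit 0) (nat_lit 0),Row.mk (nat_lit 27216) (nat_lit 21505) (nat_lit 606366615) (nat_lit 28050) (nat_lit 38665594160) (nat_lit 0) (nat_lit 0),Row.mk (nat_lit 27384) (nat_lit 21318) (nat_lit 606366615) (nat_lit 27863) (nat_lit 48413269905) (nat_lit 0) (nat_lit 0),Row.mk (nat_lit 27552) (nat_lit 21131) (nat_lit 606366615) (nat_lit 27676) (nat_lit 60587881760) (nat_lit 0) (nat_lit 0),Row.mk (nat_lit 27720) (nat_lit 20944) (nat_lit 606366615) (nat_lit 27489) (nat_lit 75793678268) (nat_lit 0) (nat_lit 0),Row.mk (nat_lit 27888) (nat_lit 32912) (nat_lit 120875560) (nat_lit 62084) (nat_lit 95149966780) (nat_lit 0) (nat_lit 0),Row.mk (nat_lit 28056) (nat_lit 32912) (nat_lit 120875560) (nat_lit 62084) (nat_lit 118870108228) (nat_lit 0) (nat_lit 0)],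
[Row.mk (nat_lit 12936) (nat_lit 32912) (nat_lit 243) (nat_lit 61897) (nat_lit 150970416) (nat_lit 0) (nat_lit 0),Row.mk (nat_lit 13104) (nat_lit 32912) (nat_lit 303) (nat_lit 61897) (nat_lit 150970355) (nat_lit 0) (nat_lit 0),Row.mk (nat_lit 13272) (nat_lit 32912) (nat_lit 379) (nat_lit 61897) (nat_lit 150970280) (nat_lit 0) (nat_lit 0),Row.mk (nat_lit 13440) (nat_lit 32912) (nat_lit 473) (nat_lit 61897) (nat_lit 150970185) (nat_lit 0) (nat_lit 0),Row.mk (nat_lit 13608) (nat_lit 32912) (nat_lit 591) (nat_lit 61897) (nat_lit 150970067) (nat_lit 0) (nat_lit 0),Row.mk (nat_lit 13776) (nat_lit 32912) (nat_lit 738) (nat_lit 61897) (nat_lit 150969920) (nat_lit 0) (nat_lit 0),Row.mk (nat_lit 13944) (nat_lit 32912) (nat_lit 922) (nat_lit 61897) (nat_lit 150969736) (nat_lit 0) (nat_lit 0),Row.mk (nat_lit 14112) (nat_lit 32912) (nat_lit 1152) (nat_lit 61897) (nat_lit 150969507) (nat_lit 0) (nat_lit 0),Row.mk (nat_lit 14280) (nat_lit 32912)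 (nat_lit 1439) (nat_lit 61897) (nat_lit 150969220) (nat_lit 0) (nat_lit 0),Row.mk (nat_lit 14448) (nat_lit 32912) (nat_lit 1797) (nat_lit 61897) (nat_lit 150968861) (nat_lit 0) (nat_lit 0),Row.mk (nat_lit 14616) (nat_lit 32912) (nat_lit 2244) (nat_lit 61897) (nat_lit 150968414) (nat_lit 0) (nat_lit 0),Row.mk (nat_lit 14784) (nat_lit 32912) (nat_lit 2803) (nat_lit 61897) (nat_lit 150967855) (nat_lit 0) (nat_lit 0),Row.mk (nat_lit 14952) (nat_lit 32912) (nat_lit 3501) (nat_lit 61897) (nat_lit 150967157) (nat_lit 0) (nat_lit 0),Row.mk (nat_lit 15120) (nat_lit 32912) (nat_lit 4373) (nat_lit 61897) (nat_lit 150966285) (nat_lit 0) (nat_lit 0),Row.mk (nat_lit 15288) (nat_lit 32912) (nat_lit 5462) (nat_lit 61897) (nat_lit 150965196) (nat_lit 0) (nat_lit 0),Row.mk (nat_lit 15456) (nat_lit 32912) (nat_lit 6822) (nat_lit 61897) (nat_lit 150963836) (nat_lit 0) (nat_lit 0),Row.mk (nat_lit 15624) (nat_lit 32912) (nat_lit 8521) (nat_lit 61897) (nat_lit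 150962137) (nat_lit 0) (nat_lit 0),Row.mk (nat_lit 15792) (nat_lit 32912) (nat_lit 10643) (nat_lit 61897) (nat_lit 150960016) (nat_lit 0) (nat_lit 0),Row.mk (nat_lit 15960) (nat_lit 32912) (nat_lit 13292) (nat_lit 61897) (nat_lit 150957366) (nat_lit 0) (nat_lit 0),Row.mk (nat_lit 16128) (nat_lit 32912) (nat_lit 16602) (nat_lit 61897) (nat_lit 150954056) (nat_lit 0) (nat_lit 0),Row.mk (nat_lit 16296) (nat_lit 32912) (nat_lit 20736) (nat_lit 61897) (nat_lit 150949923) (nat_lit 0) (nat_lit 0),Row.mk (nat_lit 16464) (nat_lit 32912) (nat_lit 25899) (nat_lit 61897) (nat_lit 150944760) (nat_lit 0) (nat_lit 0),Row.mk (nat_lit 16632) (nat_lit 32912) (nat_lit 32347) (nat_lit 61897) (nat_lit 150938311) (nat_lit 0) (nat_lit 0),Row.mk (nat_lit 16800) (nat_lit 32912) (nat_lit 40401) (nat_lit 61897) (nat_lit 150930258) (nat_lit 0) (nat_lit 0),Row.mk (nat_lit 16968) (nat_lit 32912) (nat_lit 50459) (nat_lit 61897) (nat_lit 150920199) (nat_lit 0) (nat_lit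 0),Row.mk (nat_lit 17136) (nat_lit 32912) (nat_lit 63023) (nat_lit 61897) (nat_lit 150907636) (nat_lit 0) (nat_lit 0),Row.mk (nat_lit 17304) (nat_lit 32912) (nat_lit 78714) (nat_lit 61897) (nat_lit 150891944) (nat_lit 0) (nat_lit 0),Row.mk (nat_lit 17472) (nat_lit 32912) (nat_lit 98312) (nat_lit 61897) (nat_lit 150872346) (nat_lit 0) (nat_lit 0),Row.mk (nat_lit 17640) (nat_lit 32912) (nat_lit 122789) (nat_lit 61897) (nat_lit 150847869) (nat_lit 0) (nat_lit 0),Row.mk (nat_lit 17808) (nat_lit 32912) (nat_lit 153361) (nat_lit 61897) (nat_lit 150817297) (nat_lit 0) (nat_lit 0),Row.mk (nat_lit 17976) (nat_lit 32912) (nat_lit 191545) (nat_lit 61897) (nat_lit 150779114) (nat_lit 0) (nat_lit 0),Row.mk (nat_lit 18144) (nat_lit 0) (nat_lit 1200112) (nat_lit 748) (nat_lit 150009782) (nat_lit 0) (nat_lit 0),Row.mk (nat_lit 18312) (nat_lit 561) (nat_lit 1498911) (nat_lit 1309) (nat_lit 149770547) (nat_lit 0) (nat_lit 0),Row.mk (nat_lit 18480)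 (nat_lit 1122) (nat_lit 1872104) (nat_lit 1870) (nat_lit 149471748) (nat_lit 0) (nat_lit 0),Row.mk (nat_lit 18648) (nat_lit 1683) (nat_lit 2338212) (nat_lit 2431) (nat_lit 149098555) (nat_lit 0) (nat_lit 0),Row.mk (nat_lit 18816) (nat_lit 2244) (nat_lit 2920371) (nat_lit 2992) (nat_lit 148632446) (nat_lit 0) (nat_lit 0),Row.mk (nat_lit 18984) (nat_lit 2805) (nat_lit 3647473) (nat_lit 3553) (nat_lit 148050287) (nat_lit 0) (nat_lit 0),Row.mk (nat_lit 19152) (nat_lit 3366) (nat_lit 4555606) (nat_lit 4114) (nat_lit 147323185) (nat_lit 0) (nat_lit 0),Row.mk (nat_lit 19320) (nat_lit 3927) (nat_lit 5689842) (nat_lit 4675) (nat_lit 146415053) (nat_lit 0) (nat_lit 0),Row.mk (nat_lit 19488) (nat_lit 4488) (nat_lit 7106475) (nat_lit 5236) (nat_lit 145280817) (nat_lit 0) (nat_lit 0),Row.mk (nat_lit 19656) (nat_lit 5049) (nat_lit 8875816) (nat_lit 5797) (nat_lit 143864183) (nat_lit 0) (nat_lit 0),Row.mk (nat_lit 19824) (nat_lit 5610) (nat_lit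 11085681) (nat_lit 6358) (nat_lit 142094842) (nat_lit 0) (nat_lit 0),Row.mk (nat_lit 19992) (nat_lit 6171) (nat_lit 13845748) (nat_lit 6919) (nat_lit 139884978) (nat_lit 0) (nat_lit 0),Row.mk (nat_lit 20160) (nat_lit 6732) (nat_lit 17293005) (nat_lit 7480) (nat_lit 137124911) (nat_lit 0) (nat_lit 0),Row.mk (nat_lit 20328) (nat_lit 7293) (nat_lit 21598546) (nat_lit 8041) (nat_lit 133677653) (nat_lit 0) (nat_lit 0),Row.mk (nat_lit 20496) (nat_lit 7854) (nat_lit 26976063) (nat_lit 8602) (nat_lit 129372112) (nat_lit 0) (nat_lit 0),Row.mk (nat_lit 20664) (nat_lit 8415) (nat_lit 33692452) (nat_lit 9163) (nat_lit 123994595) (nat_lit 0) (nat_lit 0),Row.mk (nat_lit 20832) (nat_lit 8976) (nat_lit 42081060) (nat_lit 9724) (nat_lit 117278206) (nat_lit 0) (nat_lit 0),Row.mk (nat_lit 21000) (nat_lit 9537) (nat_lit 52558229) (nat_lit 10285) (nat_lit 108889598) (nat_lit 0) (nat_lit 0),Row.mk (nat_lit 21168) (nat_lit 10098) (nat_lit 65643961) (nat_lit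 10846) (nat_lit 98412429) (nat_lit 0) (nat_lit 0),Row.mk (nat_lit 21336) (nat_lit 10659) (nat_lit 81987724) (nat_lit 11407) (nat_lit 85326697) (nat_lit 0) (nat_lit 0),Row.mk (nat_lit 21504) (nat_lit 11220) (nat_lit 102400689) (nat_lit 11968) (nat_lit 68982935) (nat_lit 0) (nat_lit 0),Row.mk (nat_lit 21672) (nat_lit 11781) (nat_lit 127895991) (nat_lit 12716) (nat_lit 48569969) (nat_lit 0) (nat_lit 0),Row.mk (nat_lit 21840) (nat_lit 12529) (nat_lit 159739007) (nat_lit 13464) (nat_lit 23074668) (nat_lit 0) (nat_lit 0),Row.mk (nat_lit 22008) (nat_lit 12342) (nat_lit 10951455) (nat_lit 13277) (nat_lit 179790363) (nat_lit 0) (nat_lit 0),Row.mk (nat_lit 22176) (nat_lit 13090) (nat_lit 60624673) (nat_lit 14025) (nat_lit 140019204) (nat_lit 0) (nat_lit 0),Row.mk (nat_lit 22344) (nat_lit 13838) (nat_lit 122665325) (nat_lit 15147) (nat_lit 90345985) (nat_lit 0) (nat_lit 0),Row.mk (nat_lit 22512) (nat_lit 14960) (nat_lit 200152602) (nat_lit 16456)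 (nat_lit 28305333) (nat_lit 0) (nat_lit 0),Row.mk (nat_lit 22680) (nat_lit 14773) (nat_lit 61427061) (nat_lit 16269) (nat_lit 186323338) (nat_lit 0) (nat_lit 0),Row.mk (nat_lit 22848) (nat_lit 16082) (nat_lit 182302621) (nat_lit 17765) (nat_lit 89543598) (nat_lit 0) (nat_lit 0),Row.mk (nat_lit 23016) (nat_lit 15895) (nat_lit 39132865) (nat_lit 17578) (nat_lit 262808453) (nat_lit 0) (nat_lit 0),Row.mk (nat_lit 23184) (nat_lit 17391) (nat_lit 227691576) (nat_lit 19635) (nat_lit 111837794) (nat_lit 0) (nat_lit 0),Row.mk (nat_lit 23352) (nat_lit 17204) (nat_lit 95822575) (nat_lit 19448) (nat_lit 290653366) (nat_lit 0) (nat_lit 0),Row.mk (nat_lit 23520) (nat_lit 19261) (nat_lit 389962991) (nat_lit 25806) (nat_lit 55148084) (nat_lit 0) (nat_lit 0),Row.mk (nat_lit 23688) (nat_lit 19074) (nat_lit 298495656) (nat_lit 25619) (nat_lit 219849286) (nat_lit 0) (nat_lit 0),Row.mk (nat_lit 23856) (nat_lit 18887) (nat_lit 184255163) (nat_lit 25432)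 (nat_lit 425557114) (nat_lit 0) (nat_lit 0),Row.mk (nat_lit 24024) (nat_lit 18700) (nat_lit 41571542) (nat_lit 25245) (nat_lit 682481228) (nat_lit 0) (nat_lit 0),Row.mk (nat_lit 24192) (nat_lit 25058) (nat_lit 757337274) (nat_lit 31603) (nat_lit 109399117) (nat_lit 0) (nat_lit 0),Row.mk (nat_lit 24360) (nat_lit 24871) (nat_lit 757337274) (nat_lit 31416) (nat_lit 287607517) (nat_lit 0) (nat_lit 0),Row.mk (nat_lit 24528) (nat_lit 24684) (nat_lit 757337274) (nat_lit 31229) (nat_lit 510185510) (nat_lit 0) (nat_lit 0),Row.mk (nat_lit 24696) (nat_lit 24497) (nat_lit 757337274) (nat_lit 31042) (nat_lit 788180054) (nat_lit 0) (nat_lit 0),Row.mk (nat_lit 24864) (nat_lit 24310) (nat_lit 757337274) (nat_lit 30855) (nat_lit 1135388533) (nat_lit 0) (nat_lit 0),Row.mk (nat_lit 25032) (nat_lit 24123) (nat_lit 757337274) (nat_lit 30668) (nat_lit 1569043547) (nat_lit 0) (nat_lit 0),Row.mk (nat_lit 25200) (nat_lit 23936) (nat_lit 757337274) (nat_lit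 30481) (nat_lit 2110668199) (nat_lit 0) (nat_lit 0),Row.mk (nat_lit 25368) (nat_lit 23749) (nat_lit 757337274) (nat_lit 30294) (nat_lit 2787144322) (nat_lit 0) (nat_lit 0),Row.mk (nat_lit 25536) (nat_lit 23562) (nat_lit 757337274) (nat_lit 30107) (nat_lit 3632046681) (nat_lit 0) (nat_lit 0),Row.mk (nat_lit 25704) (nat_lit 23375) (nat_lit 757337274) (nat_lit 29920) (nat_lit 4687309346) (nat_lit 0) (nat_lit 0),Row.mk (nat_lit 25872) (nat_lit 23188) (nat_lit 757337274) (nat_lit 29733) (nat_lit 6005306957) (nat_lit 0) (nat_lit 0),Row.mk (nat_lit 26040) (nat_lit 23001) (nat_lit 757337274) (nat_lit 29546) (nat_lit 7651454177) (nat_lit 0) (nat_lit 0),Row.mk (nat_lit 26208) (nat_lit 22814) (nat_lit 757337274) (nat_lit 29359) (nat_lit 9707452345) (nat_lit 0) (nat_lit 0),Row.mk (nat_lit 26376) (nat_lit 22627) (nat_lit 757337274) (nat_lit 29172) (nat_lit 12275344457) (nat_lit 0) (nat_lit 0),Row.mk (nat_lit 26544) (nat_lit 22440) (nat_lit 757337274)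 (nat_lit 28985) (nat_lit 15482579759) (nat_lit 0) (nat_lit 0),Row.mk (nat_lit 26712) (nat_lit 22253) (nat_lit 757337274) (nat_lit 28798) (nat_lit 19488339279) (nat_lit 0) (nat_lit 0),Row.mk (nat_lit 26880) (nat_lit 22066) (nat_lit 757337274) (nat_lit 28611) (nat_lit 24491436287) (nat_lit 0) (nat_lit 0),Row.mk (nat_lit 27048) (nat_lit 21879) (nat_lit 757337274) (nat_lit 28424) (nat_lit 30740183755) (nat_lit 0) (nat_lit 0),Row.mk (nat_lit 27216) (nat_lit 21692) (nat_lit 757337274) (nat_lit 28237) (nat_lit 38544718599) (nat_lit 0) (nat_lit 0),Row.mk (nat_lit 27384) (nat_lit 21505) (nat_lit 757337274) (nat_lit 28050) (nat_lit 48292394344) (nat_lit 0) (nat_lit 0),Row.mk (nat_lit 27552) (nat_lit 21318) (nat_lit 757337274) (nat_lit 27863) (nat_lit 60467006199) (nat_lit 0) (nat_lit 0),Row.mk (nat_lit 27720) (nat_lit 21131) (nat_lit 757337274) (nat_lit 27676) (nat_lit 75672802708) (nat_lit 0) (nat_lit 0),Row.mk (nat_lit 27888) (nat_lit 20944)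 (nat_lit 757337274) (nat_lit 27489) (nat_lit 94664475726) (nat_lit 0) (nat_lit 0),Row.mk (nat_lit 28056) (nat_lit 32912) (nat_lit 150970659) (nat_lit 62084) (nat_lit 118840013129) (nat_lit 0) (nat_lit 0),Row.mk (nat_lit 28224) (nat_lit 32912) (nat_lit 150970659) (nat_lit 62084) (nat_lit 148465897577) (nat_lit 0) (nat_lit 0)],
[Row.mk (nat_lit 13104) (nat_lit 32912) (nat_lit 303) (nat_lit 61897) (nat_lit 188558407) (nat_lit 0) (nat_lit 0),Row.mk (nat_lit 13272) (nat_lit 32912) (nat_lit 379) (nat_lit 61897) (nat_lit 188558332) (nat_lit 0) (nat_lit 0),Row.mk (nat_lit 13440) (nat_lit 32912) (nat_lit 473) (nat_lit 61897) (nat_lit 188558238) (nat_lit 0) (nat_lit 0),Row.mk (nat_lit 13608) (nat_lit 32912) (nat_lit 591) (nat_lit 61897) (nat_lit 188558120) (nat_lit 0) (nat_lit 0),Row.mk (nat_lit 13776) (nat_lit 32912) (nat_lit 738) (nat_lit 61897) (nat_lit 188557972) (nat_lit 0) (nat_lit 0),Row.mk (nat_lit 13944) (nat_lit 32912) (nat_lit 922)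 (nat_lit 61897) (nat_lit 188557789) (nat_lit 0) (nat_lit 0),Row.mk (nat_lit 14112) (nat_lit 32912) (nat_lit 1152) (nat_lit 61897) (nat_lit 188557559) (nat_lit 0) (nat_lit 0),Row.mk (nat_lit 14280) (nat_lit 32912) (nat_lit 1439) (nat_lit 61897) (nat_lit 188557272) (nat_lit 0) (nat_lit 0),Row.mk (nat_lit 14448) (nat_lit 32912) (nat_lit 1797) (nat_lit 61897) (nat_lit 188556914) (nat_lit 0) (nat_lit 0),Row.mk (nat_lit 14616) (nat_lit 32912) (nat_lit 2244) (nat_lit 61897) (nat_lit 188556466) (nat_lit 0) (nat_lit 0),Row.mk (nat_lit 14784) (nat_lit 32912) (nat_lit 2803) (nat_lit 61897) (nat_lit 188555907) (nat_lit 0) (nat_lit 0),Row.mk (nat_lit 14952) (nat_lit 32912) (nat_lit 3501) (nat_lit 61897) (nat_lit 188555209) (nat_lit 0) (nat_lit 0),Row.mk (nat_lit 15120) (nat_lit 32912) (nat_lit 4373) (nat_lit 61897) (nat_lit 188554337) (nat_lit 0) (nat_lit 0),Row.mk (nat_lit 15288) (nat_lit 32912) (nat_lit 5462) (nat_lit 61897) (nat_lit 188553248)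 (nat_lit 0) (nat_lit 0),Row.mk (nat_lit 15456) (nat_lit 32912) (nat_lit 6822) (nat_lit 61897) (nat_lit 188551888) (nat_lit 0) (nat_lit 0),Row.mk (nat_lit 15624) (nat_lit 32912) (nat_lit 8521) (nat_lit 61897) (nat_lit 188550190) (nat_lit 0) (nat_lit 0),Row.mk (nat_lit 15792) (nat_lit 32912) (nat_lit 10643) (nat_lit 61897) (nat_lit 188548068) (nat_lit 0) (nat_lit 0),Row.mk (nat_lit 15960) (nat_lit 32912) (nat_lit 13292) (nat_lit 61897) (nat_lit 188545418) (nat_lit 0) (nat_lit 0),Row.mk (nat_lit 16128) (nat_lit 32912) (nat_lit 16602) (nat_lit 61897) (nat_lit 188542108) (nat_lit 0) (nat_lit 0),Row.mk (nat_lit 16296) (nat_lit 32912) (nat_lit 20736) (nat_lit 61897) (nat_lit 188537975) (nat_lit 0) (nat_lit 0),Row.mk (nat_lit 16464) (nat_lit 32912) (nat_lit 25899) (nat_lit 61897) (nat_lit 188532812) (nat_lit 0) (nat_lit 0),Row.mk (nat_lit 16632) (nat_lit 32912) (nat_lit 32347) (nat_lit 61897) (nat_lit 188526364) (nat_lit 0) (nat_lit 0),Row.mk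 (nat_lit 16800) (nat_lit 32912) (nat_lit 40401) (nat_lit 61897) (nat_lit 188518310) (nat_lit 0) (nat_lit 0),Row.mk (nat_lit 16968) (nat_lit 32912) (nat_lit 50459) (nat_lit 61897) (nat_lit 188508251) (nat_lit 0) (nat_lit 0),Row.mk (nat_lit 17136) (nat_lit 32912) (nat_lit 63023) (nat_lit 61897) (nat_lit 188495688) (nat_lit 0) (nat_lit 0),Row.mk (nat_lit 17304) (nat_lit 32912) (nat_lit 78714) (nat_lit 61897) (nat_lit 188479997) (nat_lit 0) (nat_lit 0),Row.mk (nat_lit 17472) (nat_lit 32912) (nat_lit 98312) (nat_lit 61897) (nat_lit 188460398) (nat_lit 0) (nat_lit 0),Row.mk (nat_lit 17640) (nat_lit 32912) (nat_lit 122789) (nat_lit 61897) (nat_lit 188435921) (nat_lit 0) (nat_lit 0),Row.mk (nat_lit 17808) (nat_lit 32912) (nat_lit 153361) (nat_lit 61897) (nat_lit 188405349) (nat_lit 0) (nat_lit 0),Row.mk (nat_lit 17976) (nat_lit 32912) (nat_lit 191545) (nat_lit 61897) (nat_lit 188367166) (nat_lit 0) (nat_lit 0),Row.mk (nat_lit 18144) (nat_lit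 32912) (nat_lit 239235) (nat_lit 61897) (nat_lit 188319476) (nat_lit 0) (nat_lit 0),Row.mk (nat_lit 18312) (nat_lit 0) (nat_lit 1498911) (nat_lit 748) (nat_lit 187358599) (nat_lit 0) (nat_lit 0),Row.mk (nat_lit 18480) (nat_lit 561) (nat_lit 1872104) (nat_lit 1309) (nat_lit 187059800) (nat_lit 0) (nat_lit 0),Row.mk (nat_lit 18648) (nat_lit 1122) (nat_lit 2338212) (nat_lit 1870) (nat_lit 186686607) (nat_lit 0) (nat_lit 0),Row.mk (nat_lit 18816) (nat_lit 1683) (nat_lit 2920371) (nat_lit 2431) (nat_lit 186220498) (nat_lit 0) (nat_lit 0),Row.mk (nat_lit 18984) (nat_lit 2244) (nat_lit 3647473) (nat_lit 2992) (nat_lit 185638340) (nat_lit 0) (nat_lit 0),Row.mk (nat_lit 19152) (nat_lit 2805) (nat_lit 4555606) (nat_lit 3553) (nat_lit 184911238) (nat_lit 0) (nat_lit 0),Row.mk (nat_lit 19320) (nat_lit 3366) (nat_lit 5689842) (nat_lit 4114) (nat_lit 184003105) (nat_lit 0) (nat_lit 0),Row.mk (nat_lit 19488) (nat_lit 3927) (nat_lit 7106475) (nat_lit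 4675) (nat_lit 182868869) (nat_lit 0) (nat_lit 0),Row.mk (nat_lit 19656) (nat_lit 4488) (nat_lit 8875816) (nat_lit 5236) (nat_lit 181452235) (nat_lit 0) (nat_lit 0),Row.mk (nat_lit 19824) (nat_lit 5049) (nat_lit 11085681) (nat_lit 5797) (nat_lit 179682894) (nat_lit 0) (nat_lit 0),Row.mk (nat_lit 19992) (nat_lit 5610) (nat_lit 13845748) (nat_lit 6358) (nat_lit 177473030) (nat_lit 0) (nat_lit 0),Row.mk (nat_lit 20160) (nat_lit 6171) (nat_lit 17293005) (nat_lit 6919) (nat_lit 174712963) (nat_lit 0) (nat_lit 0),Row.mk (nat_lit 20328) (nat_lit 6732) (nat_lit 21598546) (nat_lit 7480) (nat_lit 171265705) (nat_lit 0) (nat_lit 0),Row.mk (nat_lit 20496) (nat_lit 7293) (nat_lit 26976063) (nat_lit 8041) (nat_lit 166960164) (nat_lit 0) (nat_lit 0),Row.mk (nat_lit 20664) (nat_lit 7854) (nat_lit 33692452) (nat_lit 8602) (nat_lit 161582647) (nat_lit 0) (nat_lit 0),Row.mk (nat_lit 20832) (nat_lit 8415) (nat_lit 42081060) (nat_lit 9163) (nat_lit 154866258)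 (nat_lit 0) (nat_lit 0),Row.mk (nat_lit 21000) (nat_lit 8976) (nat_lit 52558229) (nat_lit 9724) (nat_lit 146477650) (nat_lit 0) (nat_lit 0),Row.mk (nat_lit 21168) (nat_lit 9537) (nat_lit 65643961) (nat_lit 10285) (nat_lit 136000481) (nat_lit 0) (nat_lit 0),Row.mk (nat_lit 21336) (nat_lit 10098) (nat_lit 81987724) (nat_lit 10846) (nat_lit 122914750) (nat_lit 0) (nat_lit 0),Row.mk (nat_lit 21504) (nat_lit 10659) (nat_lit 102400689) (nat_lit 11407) (nat_lit 106570987) (nat_lit 0) (nat_lit 0),Row.mk (nat_lit 21672) (nat_lit 11220) (nat_lit 127895991) (nat_lit 11968) (nat_lit 86158021) (nat_lit 0) (nat_lit 0),Row.mk (nat_lit 21840) (nat_lit 11781) (nat_lit 159739007) (nat_lit 12716) (nat_lit 60662720) (nat_lit 0) (nat_lit 0),Row.mk (nat_lit 22008) (nat_lit 12529) (nat_lit 199510166) (nat_lit 13464) (nat_lit 28819704) (nat_lit 0) (nat_lit 0),Row.mk (nat_lit 22176) (nat_lit 12342) (nat_lit 13678103) (nat_lit 13277) (nat_lit 224553826) (nat_lit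 0) (nat_lit 0),Row.mk (nat_lit 22344) (nat_lit 13090) (nat_lit 75718755) (nat_lit 14025) (nat_lit 174880608) (nat_lit 0) (nat_lit 0),Row.mk (nat_lit 22512) (nat_lit 13838) (nat_lit 153206032) (nat_lit 15147) (nat_lit 112839956) (nat_lit 0) (nat_lit 0),Row.mk (nat_lit 22680) (nat_lit 14960) (nat_lit 249985772) (nat_lit 16456) (nat_lit 35352678) (nat_lit 0) (nat_lit 0),Row.mk (nat_lit 22848) (nat_lit 14773) (nat_lit 76720917) (nat_lit 16269) (nat_lit 232713354) (nat_lit 0) (nat_lit 0),Row.mk (nat_lit 23016) (nat_lit 16082) (nat_lit 227691576) (nat_lit 17765) (nat_lit 111837794) (nat_lit 0) (nat_lit 0),Row.mk (nat_lit 23184) (nat_lit 15895) (nat_lit 48876004) (nat_lit 17578) (nat_lit 328241418) (nat_lit 0) (nat_lit 0),Row.mk (nat_lit 23352) (nat_lit 17391) (nat_lit 284381286) (nat_lit 19635) (nat_lit 139682706) (nat_lit 0) (nat_lit 0),Row.mk (nat_lit 23520) (nat_lit 17204) (nat_lit 119680084) (nat_lit 19448) (nat_lit 363019042) (nat_lit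 0) (nat_lit 0),Row.mk (nat_lit 23688) (nat_lit 19261) (nat_lit 487054368) (nat_lit 25806) (nat_lit 68878626) (nat_lit 0) (nat_lit 0),Row.mk (nat_lit 23856) (nat_lit 19074) (nat_lit 372813874) (nat_lit 25619) (nat_lit 274586454) (nat_lit 0) (nat_lit 0),Row.mk (nat_lit 24024) (nat_lit 18887) (nat_lit 230130253) (nat_lit 25432) (nat_lit 531510569) (nat_lit 0) (nat_lit 0),Row.mk (nat_lit 24192) (nat_lit 18700) (nat_lit 51921853) (nat_lit 25245) (nat_lit 852402590) (nat_lit 0) (nat_lit 0),Row.mk (nat_lit 24360) (nat_lit 25058) (nat_lit 945895986) (nat_lit 31603) (nat_lit 136636858) (nat_lit 0) (nat_lit 0),Row.mk (nat_lit 24528) (nat_lit 24871) (nat_lit 945895986) (nat_lit 31416) (nat_lit 359214851) (nat_lit 0) (nat_lit 0),Row.mk (nat_lit 24696) (nat_lit 24684) (nat_lit 945895986) (nat_lit 31229) (nat_lit 637209395) (nat_lit 0) (nat_lit 0),Row.mk (nat_lit 24864) (nat_lit 24497) (nat_lit 945895986) (nat_lit 31042) (nat_lit 984417874) (nat_lit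 0) (nat_lit 0),Row.mk (nat_lit 25032) (nat_lit 24310) (nat_lit 945895986) (nat_lit 30855) (nat_lit 1418072888) (nat_lit 0) (nat_lit 0),Row.mk (nat_lit 25200) (nat_lit 24123) (nat_lit 945895986) (nat_lit 30668) (nat_lit 1959697539) (nat_lit 0) (nat_lit 0),Row.mk (nat_lit 25368) (nat_lit 23936) (nat_lit 945895986) (nat_lit 30481) (nat_lit 2636173663) (nat_lit 0) (nat_lit 0),Row.mk (nat_lit 25536) (nat_lit 23749) (nat_lit 945895986) (nat_lit 30294) (nat_lit 3481076022) (nat_lit 0) (nat_lit 0),Row.mk (nat_lit 25704) (nat_lit 23562) (nat_lit 945895986) (nat_lit 30107) (nat_lit 4536338686) (nat_lit 0) (nat_lit 0),Row.mk (nat_lit 25872) (nat_lit 23375) (nat_lit 945895986) (nat_lit 29920) (nat_lit 5854336297) (nat_lit 0) (nat_lit 0),Row.mk (nat_lit 26040) (nat_lit 23188) (nat_lit 945895986) (nat_lit 29733) (nat_lit 7500483518) (nat_lit 0) (nat_lit 0),Row.mk (nat_lit 26208) (nat_lit 23001) (nat_lit 945895986) (nat_lit 29546) (nat_lit 9556481685)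 (nat_lit 0) (nat_lit 0),Row.mk (nat_lit 26376) (nat_lit 22814) (nat_lit 945895986) (nat_lit 29359) (nat_lit 12124373798) (nat_lit 0) (nat_lit 0),Row.mk (nat_lit 26544) (nat_lit 22627) (nat_lit 945895986) (nat_lit 29172) (nat_lit 15331609099) (nat_lit 0) (nat_lit 0),Row.mk (nat_lit 26712) (nat_lit 22440) (nat_lit 945895986) (nat_lit 28985) (nat_lit 19337368620) (nat_lit 0) (nat_lit 0),Row.mk (nat_lit 26880) (nat_lit 22253) (nat_lit 945895986) (nat_lit 28798) (nat_lit 24340465627) (nat_lit 0) (nat_lit 0),Row.mk (nat_lit 27048) (nat_lit 22066) (nat_lit 945895986) (nat_lit 28611) (nat_lit 30589213095) (nat_lit 0) (nat_lit 0),Row.mk (nat_lit 27216) (nat_lit 21879) (nat_lit 945895986) (nat_lit 28424) (nat_lit 38393747940) (nat_lit 0) (nat_lit 0),Row.mk (nat_lit 27384) (nat_lit 21692) (nat_lit 945895986) (nat_lit 28237) (nat_lit 48141423685) (nat_lit 0) (nat_lit 0),Row.mk (nat_lit 27552) (nat_lit 21505) (nat_lit 945895986) (nat_lit 28050)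 (nat_lit 60316035540) (nat_lit 0) (nat_lit 0),Row.mk (nat_lit 27720) (nat_lit 21318) (nat_lit 945895986) (nat_lit 27863) (nat_lit 75521832048) (nat_lit 0) (nat_lit 0),Row.mk (nat_lit 27888) (nat_lit 21131) (nat_lit 945895986) (nat_lit 27676) (nat_lit 94513505066) (nat_lit 0) (nat_lit 0),Row.mk (nat_lit 28056) (nat_lit 20944) (nat_lit 945895986) (nat_lit 27489) (nat_lit 118233646514) (nat_lit 0) (nat_lit 0),Row.mk (nat_lit 28224) (nat_lit 32912) (nat_lit 188558711) (nat_lit 62084) (nat_lit 148428309525) (nat_lit 0) (nat_lit 0),Row.mk (nat_lit 28392) (nat_lit 32912) (nat_lit 188558711) (nat_lit 62084) (nat_lit 185430324512) (nat_lit 0) (nat_lit 0)],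
[Row.mk (nat_lit 13272) (nat_lit 32912) (nat_lit 379) (nat_lit 61897) (nat_lit 235504902) (nat_lit 0) (nat_lit 0),Row.mk (nat_lit 13440) (nat_lit 32912) (nat_lit 473) (nat_lit 61897) (nat_lit 235504808) (nat_lit 0) (nat_lit 0),Row.mk (nat_lit 13608) (nat_lit 32912) (nat_lit 591) (nat_lit 61897) (nat_lit 235504690) (nat_lit 0) (nat_lit 0),Row.mk (nat_lit 13776) (nat_lit 32912) (nat_lit 738) (nat_lit 61897) (nat_lit 235504543) (nat_lit 0) (nat_lit 0),Row.mk (nat_lit 13944) (nat_lit 32912) (nat_lit 922) (nat_lit 61897) (nat_lit 235504359) (nat_lit 0) (nat_lit 0),Row.mk (nat_lit 14112) (nat_lit 32912) (nat_lit 1152) (nat_lit 61897) (nat_lit 235504129) (nat_lit 0) (nat_lit 0),Row.mk (nat_lit 14280) (nat_lit 32912) (nat_lit 1439) (nat_lit 61897) (nat_lit 235503842) (nat_lit 0) (nat_lit 0),Row.mk (nat_lit 14448) (nat_lit 32912) (nat_lit 1797) (nat_lit 61897) (nat_lit 235503484) (nat_lit 0) (nat_lit 0),Row.mk (nat_lit 14616) (nat_lit 32912)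 (nat_lit 2244) (nat_lit 61897) (nat_lit 235503037) (nat_lit 0) (nat_lit 0),Row.mk (nat_lit 14784) (nat_lit 32912) (nat_lit 2803) (nat_lit 61897) (nat_lit 235502478) (nat_lit 0) (nat_lit 0),Row.mk (nat_lit 14952) (nat_lit 32912) (nat_lit 3501) (nat_lit 61897) (nat_lit 235501780) (nat_lit 0) (nat_lit 0),Row.mk (nat_lit 15120) (nat_lit 32912) (nat_lit 4373) (nat_lit 61897) (nat_lit 235500908) (nat_lit 0) (nat_lit 0),Row.mk (nat_lit 15288) (nat_lit 32912) (nat_lit 5462) (nat_lit 61897) (nat_lit 235499819) (nat_lit 0) (nat_lit 0),Row.mk (nat_lit 15456) (nat_lit 32912) (nat_lit 6822) (nat_lit 61897) (nat_lit 235498459) (nat_lit 0) (nat_lit 0),Row.mk (nat_lit 15624) (nat_lit 32912) (nat_lit 8521) (nat_lit 61897) (nat_lit 235496760) (nat_lit 0) (nat_lit 0),Row.mk (nat_lit 15792) (nat_lit 32912) (nat_lit 10643) (nat_lit 61897) (nat_lit 235494638) (nat_lit 0) (nat_lit 0),Row.mk (nat_lit 15960) (nat_lit 32912) (nat_lit 13292) (nat_lit 61897)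 (nat_lit 235491988) (nat_lit 0) (nat_lit 0),Row.mk (nat_lit 16128) (nat_lit 32912) (nat_lit 16602) (nat_lit 61897) (nat_lit 235488679) (nat_lit 0) (nat_lit 0),Row.mk (nat_lit 16296) (nat_lit 32912) (nat_lit 20736) (nat_lit 61897) (nat_lit 235484545) (nat_lit 0) (nat_lit 0),Row.mk (nat_lit 16464) (nat_lit 32912) (nat_lit 25899) (nat_lit 61897) (nat_lit 235479382) (nat_lit 0) (nat_lit 0),Row.mk (nat_lit 16632) (nat_lit 32912) (nat_lit 32347) (nat_lit 61897) (nat_lit 235472934) (nat_lit 0) (nat_lit 0),Row.mk (nat_lit 16800) (nat_lit 32912) (nat_lit 40401) (nat_lit 61897) (nat_lit 235464880) (nat_lit 0) (nat_lit 0),Row.mk (nat_lit 16968) (nat_lit 32912) (nat_lit 50459) (nat_lit 61897) (nat_lit 235454821) (nat_lit 0) (nat_lit 0),Row.mk (nat_lit 17136) (nat_lit 32912) (nat_lit 63023) (nat_lit 61897) (nat_lit 235442258) (nat_lit 0) (nat_lit 0),Row.mk (nat_lit 17304) (nat_lit 32912) (nat_lit 78714) (nat_lit 61897) (nat_lit 235426567) (nat_lit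 0) (nat_lit 0),Row.mk (nat_lit 17472) (nat_lit 32912) (nat_lit 98312) (nat_lit 61897) (nat_lit 235406969) (nat_lit 0) (nat_lit 0),Row.mk (nat_lit 17640) (nat_lit 32912) (nat_lit 122789) (nat_lit 61897) (nat_lit 235382491) (nat_lit 0) (nat_lit 0),Row.mk (nat_lit 17808) (nat_lit 32912) (nat_lit 153361) (nat_lit 61897) (nat_lit 235351920) (nat_lit 0) (nat_lit 0),Row.mk (nat_lit 17976) (nat_lit 32912) (nat_lit 191545) (nat_lit 61897) (nat_lit 235313736) (nat_lit 0) (nat_lit 0),Row.mk (nat_lit 18144) (nat_lit 32912) (nat_lit 239235) (nat_lit 61897) (nat_lit 235266046) (nat_lit 0) (nat_lit 0),Row.mk (nat_lit 18312) (nat_lit 32912) (nat_lit 298799) (nat_lit 61897) (nat_lit 235206482) (nat_lit 0) (nat_lit 0),Row.mk (nat_lit 18480) (nat_lit 0) (nat_lit 1872104) (nat_lit 748) (nat_lit 234006370) (nat_lit 0) (nat_lit 0),Row.mk (nat_lit 18648) (nat_lit 561) (nat_lit 2338212) (nat_lit 1309) (nat_lit 233633177) (nat_lit 0) (nat_lit 0),Row.mk (nat_lit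 18816) (nat_lit 1122) (nat_lit 2920371) (nat_lit 1870) (nat_lit 233167069) (nat_lit 0) (nat_lit 0),Row.mk (nat_lit 18984) (nat_lit 1683) (nat_lit 3647473) (nat_lit 2431) (nat_lit 232584910) (nat_lit 0) (nat_lit 0),Row.mk (nat_lit 19152) (nat_lit 2244) (nat_lit 4555606) (nat_lit 2992) (nat_lit 231857808) (nat_lit 0) (nat_lit 0),Row.mk (nat_lit 19320) (nat_lit 2805) (nat_lit 5689842) (nat_lit 3553) (nat_lit 230949675) (nat_lit 0) (nat_lit 0),Row.mk (nat_lit 19488) (nat_lit 3366) (nat_lit 7106475) (nat_lit 4114) (nat_lit 229815439) (nat_lit 0) (nat_lit 0),Row.mk (nat_lit 19656) (nat_lit 3927) (nat_lit 8875816) (nat_lit 4675) (nat_lit 228398806) (nat_lit 0) (nat_lit 0),Row.mk (nat_lit 19824) (nat_lit 4488) (nat_lit 11085681) (nat_lit 5236) (nat_lit 226629465) (nat_lit 0) (nat_lit 0),Row.mk (nat_lit 19992) (nat_lit 5049) (nat_lit 13845748) (nat_lit 5797) (nat_lit 224419600) (nat_lit 0) (nat_lit 0),Row.mk (nat_lit 20160) (nat_lit 5610)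 (nat_lit 17293005) (nat_lit 6358) (nat_lit 221659533) (nat_lit 0) (nat_lit 0),Row.mk (nat_lit 20328) (nat_lit 6171) (nat_lit 21598546) (nat_lit 6919) (nat_lit 218212276) (nat_lit 0) (nat_lit 0),Row.mk (nat_lit 20496) (nat_lit 6732) (nat_lit 26976063) (nat_lit 7480) (nat_lit 213906735) (nat_lit 0) (nat_lit 0),Row.mk (nat_lit 20664) (nat_lit 7293) (nat_lit 33692452) (nat_lit 8041) (nat_lit 208529218) (nat_lit 0) (nat_lit 0),Row.mk (nat_lit 20832) (nat_lit 7854) (nat_lit 42081060) (nat_lit 8602) (nat_lit 201812828) (nat_lit 0) (nat_lit 0),Row.mk (nat_lit 21000) (nat_lit 8415) (nat_lit 52558229) (nat_lit 9163) (nat_lit 193424220) (nat_lit 0) (nat_lit 0),Row.mk (nat_lit 21168) (nat_lit 8976) (nat_lit 65643961) (nat_lit 9724) (nat_lit 182947051) (nat_lit 0) (nat_lit 0),Row.mk (nat_lit 21336) (nat_lit 9537) (nat_lit 81987724) (nat_lit 10285) (nat_lit 169861320) (nat_lit 0) (nat_lit 0),Row.mk (nat_lit 21504) (nat_lit 10098) (nat_lit 102400689)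 (nat_lit 10846) (nat_lit 153517557) (nat_lit 0) (nat_lit 0),Row.mk (nat_lit 21672) (nat_lit 10659) (nat_lit 127895991) (nat_lit 11407) (nat_lit 133104592) (nat_lit 0) (nat_lit 0),Row.mk (nat_lit 21840) (nat_lit 11220) (nat_lit 159739007) (nat_lit 11968) (nat_lit 107609290) (nat_lit 0) (nat_lit 0),Row.mk (nat_lit 22008) (nat_lit 11781) (nat_lit 199510166) (nat_lit 12716) (nat_lit 75766274) (nat_lit 0) (nat_lit 0),Row.mk (nat_lit 22176) (nat_lit 12529) (nat_lit 249183385) (nat_lit 13464) (nat_lit 35995115) (nat_lit 0) (nat_lit 0),Row.mk (nat_lit 22344) (nat_lit 12342) (nat_lit 17083621) (nat_lit 13277) (nat_lit 280462312) (nat_lit 0) (nat_lit 0),Row.mk (nat_lit 22512) (nat_lit 13090) (nat_lit 94570898) (nat_lit 14025) (nat_lit 218421660) (nat_lit 0) (nat_lit 0),Row.mk (nat_lit 22680) (nat_lit 13838) (nat_lit 191350638) (nat_lit 15147) (nat_lit 140934383) (nat_lit 0) (nat_lit 0),Row.mk (nat_lit 22848) (nat_lit 14960) (nat_lit 312226199)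 (nat_lit 16456) (nat_lit 44154643) (nat_lit 0) (nat_lit 0),Row.mk (nat_lit 23016) (nat_lit 14773) (nat_lit 95822575) (nat_lit 16269) (nat_lit 290653366) (nat_lit 0) (nat_lit 0),Row.mk (nat_lit 23184) (nat_lit 16082) (nat_lit 284381286) (nat_lit 17765) (nat_lit 139682706) (nat_lit 0) (nat_lit 0),Row.mk (nat_lit 23352) (nat_lit 15895) (nat_lit 61044950) (nat_lit 17578) (nat_lit 409965613) (nat_lit 0) (nat_lit 0),Row.mk (nat_lit 23520) (nat_lit 17391) (nat_lit 355185366) (nat_lit 19635) (nat_lit 174460331) (nat_lit 0) (nat_lit 0),Row.mk (nat_lit 23688) (nat_lit 17204) (nat_lit 149477538) (nat_lit 19448) (nat_lit 453402026) (nat_lit 0) (nat_lit 0),Row.mk (nat_lit 23856) (nat_lit 19261) (nat_lit 608319156) (nat_lit 25806) (nat_lit 86027743) (nat_lit 0) (nat_lit 0),Row.mk (nat_lit 24024) (nat_lit 19074) (nat_lit 465635535) (nat_lit 25619) (nat_lit 342951857) (nat_lit 0) (nat_lit 0),Row.mk (nat_lit 24192) (nat_lit 18887) (nat_lit 287427135)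 (nat_lit 25432) (nat_lit 663843879) (nat_lit 0) (nat_lit 0),Row.mk (nat_lit 24360) (nat_lit 18700) (nat_lit 64849142) (nat_lit 25245) (nat_lit 1064630272) (nat_lit 0) (nat_lit 0),Row.mk (nat_lit 24528) (nat_lit 25058) (nat_lit 1181401268) (nat_lit 31603) (nat_lit 170656139) (nat_lit 0) (nat_lit 0),Row.mk (nat_lit 24696) (nat_lit 24871) (nat_lit 1181401268) (nat_lit 31416) (nat_lit 448650683) (nat_lit 0) (nat_lit 0),Row.mk (nat_lit 24864) (nat_lit 24684) (nat_lit 1181401268) (nat_lit 31229) (nat_lit 795859162) (nat_lit 0) (nat_lit 0),Row.mk (nat_lit 25032) (nat_lit 24497) (nat_lit 1181401268) (nat_lit 31042) (nat_lit 1229514176) (nat_lit 0) (nat_lit 0),Row.mk (nat_lit 25200) (nat_lit 24310) (nat_lit 1181401268) (nat_lit 30855) (nat_lit 1771138828) (nat_lit 0) (nat_lit 0),Row.mk (nat_lit 25368) (nat_lit 24123) (nat_lit 1181401268) (nat_lit 30668) (nat_lit 2447614951) (nat_lit 0) (nat_lit 0),Row.mk (nat_lit 25536) (nat_lit 23936) (nat_lit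 1181401268) (nat_lit 30481) (nat_lit 3292517311) (nat_lit 0) (nat_lit 0),Row.mk (nat_lit 25704) (nat_lit 23749) (nat_lit 1181401268) (nat_lit 30294) (nat_lit 4347779975) (nat_lit 0) (nat_lit 0),Row.mk (nat_lit 25872) (nat_lit 23562) (nat_lit 1181401268) (nat_lit 30107) (nat_lit 5665777586) (nat_lit 0) (nat_lit 0),Row.mk (nat_lit 26040) (nat_lit 23375) (nat_lit 1181401268) (nat_lit 29920) (nat_lit 7311924806) (nat_lit 0) (nat_lit 0),Row.mk (nat_lit 26208) (nat_lit 23188) (nat_lit 1181401268) (nat_lit 29733) (nat_lit 9367922974) (nat_lit 0) (nat_lit 0),Row.mk (nat_lit 26376) (nat_lit 23001) (nat_lit 1181401268) (nat_lit 29546) (nat_lit 11935815087) (nat_lit 0) (nat_lit 0),Row.mk (nat_lit 26544) (nat_lit 22814) (nat_lit 1181401268) (nat_lit 29359) (nat_lit 15143050388) (nat_lit 0) (nat_lit 0),Row.mk (nat_lit 26712) (nat_lit 22627) (nat_lit 1181401268) (nat_lit 29172) (nat_lit 19148809909) (nat_lit 0) (nat_lit 0),Row.mk (nat_lit 26880)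 (nat_lit 22440) (nat_lit 1181401268) (nat_lit 28985) (nat_lit 24151906916) (nat_lit 0) (nat_lit 0),Row.mk (nat_lit 27048) (nat_lit 22253) (nat_lit 1181401268) (nat_lit 28798) (nat_lit 30400654384) (nat_lit 0) (nat_lit 0),Row.mk (nat_lit 27216) (nat_lit 22066) (nat_lit 1181401268) (nat_lit 28611) (nat_lit 38205189228) (nat_lit 0) (nat_lit 0),Row.mk (nat_lit 27384) (nat_lit 21879) (nat_lit 1181401268) (nat_lit 28424) (nat_lit 47952864973) (nat_lit 0) (nat_lit 0),Row.mk (nat_lit 27552) (nat_lit 21692) (nat_lit 1181401268) (nat_lit 28237) (nat_lit 60127476828) (nat_lit 0) (nat_lit 0),Row.mk (nat_lit 27720) (nat_lit 21505) (nat_lit 1181401268) (nat_lit 28050) (nat_lit 75333273337) (nat_lit 0) (nat_lit 0),Row.mk (nat_lit 27888) (nat_lit 21318) (nat_lit 1181401268) (nat_lit 27863) (nat_lit 94324946355) (nat_lit 0) (nat_lit 0),Row.mk (nat_lit 28056) (nat_lit 21131) (nat_lit 1181401268) (nat_lit 27676) (nat_lit 118045087802) (nat_lit 0) (nat_lit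 0),Row.mk (nat_lit 28224) (nat_lit 20944) (nat_lit 1181401268) (nat_lit 27489) (nat_lit 147670972251) (nat_lit 0) (nat_lit 0),Row.mk (nat_lit 28392) (nat_lit 32912) (nat_lit 235505281) (nat_lit 62084) (nat_lit 185383377941) (nat_lit 0) (nat_lit 0),Row.mk (nat_lit 28560) (nat_lit 32912) (nat_lit 235505281) (nat_lit 62084) (nat_lit 231598002030) (nat_lit 0) (nat_lit 0)],
[Row.mk (nat_lit 13440) (nat_lit 32912) (nat_lit 473) (nat_lit 61897) (nat_lit 294139942) (nat_lit 0) (nat_lit 0),Row.mk (nat_lit 13608) (nat_lit 32912) (nat_lit 591) (nat_lit 61897) (nat_lit 294139824) (nat_lit 0) (nat_lit 0),Row.mk (nat_lit 13776) (nat_lit 32912) (nat_lit 738) (nat_lit 61897) (nat_lit 294139677) (nat_lit 0) (nat_lit 0),Row.mk (nat_lit 13944) (nat_lit 32912) (nat_lit 922) (nat_lit 61897) (nat_lit 294139493) (nat_lit 0) (nat_lit 0),Row.mk (nat_lit 14112) (nat_lit 32912) (nat_lit 1152) (nat_lit 61897) (nat_lit 294139263) (nat_lit 0) (nat_lit 0),Row.mk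 (nat_lit 14280) (nat_lit 32912) (nat_lit 1439) (nat_lit 61897) (nat_lit 294138976) (nat_lit 0) (nat_lit 0),Row.mk (nat_lit 14448) (nat_lit 32912) (nat_lit 1797) (nat_lit 61897) (nat_lit 294138618) (nat_lit 0) (nat_lit 0),Row.mk (nat_lit 14616) (nat_lit 32912) (nat_lit 2244) (nat_lit 61897) (nat_lit 294138170) (nat_lit 0) (nat_lit 0),Row.mk (nat_lit 14784) (nat_lit 32912) (nat_lit 2803) (nat_lit 61897) (nat_lit 294137612) (nat_lit 0) (nat_lit 0),Row.mk (nat_lit 14952) (nat_lit 32912) (nat_lit 3501) (nat_lit 61897) (nat_lit 294136914) (nat_lit 0) (nat_lit 0),Row.mk (nat_lit 15120) (nat_lit 32912) (nat_lit 4373) (nat_lit 61897) (nat_lit 294136042) (nat_lit 0) (nat_lit 0),Row.mk (nat_lit 15288) (nat_lit 32912) (nat_lit 5462) (nat_lit 61897) (nat_lit 294134953) (nat_lit 0) (nat_lit 0),Row.mk (nat_lit 15456) (nat_lit 32912) (nat_lit 6822) (nat_lit 61897) (nat_lit 294133593) (nat_lit 0) (nat_lit 0),Row.mk (nat_lit 15624) (nat_lit 32912)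 (nat_lit 8521) (nat_lit 61897) (nat_lit 294131894) (nat_lit 0) (nat_lit 0),Row.mk (nat_lit 15792) (nat_lit 32912) (nat_lit 10643) (nat_lit 61897) (nat_lit 294129772) (nat_lit 0) (nat_lit 0),Row.mk (nat_lit 15960) (nat_lit 32912) (nat_lit 13292) (nat_lit 61897) (nat_lit 294127122) (nat_lit 0) (nat_lit 0),Row.mk (nat_lit 16128) (nat_lit 32912) (nat_lit 16602) (nat_lit 61897) (nat_lit 294123813) (nat_lit 0) (nat_lit 0),Row.mk (nat_lit 16296) (nat_lit 32912) (nat_lit 20736) (nat_lit 61897) (nat_lit 294119679) (nat_lit 0) (nat_lit 0),Row.mk (nat_lit 16464) (nat_lit 32912) (nat_lit 25899) (nat_lit 61897) (nat_lit 294114516) (nat_lit 0) (nat_lit 0),Row.mk (nat_lit 16632) (nat_lit 32912) (nat_lit 32347) (nat_lit 61897) (nat_lit 294108068) (nat_lit 0) (nat_lit 0),Row.mk (nat_lit 16800) (nat_lit 32912) (nat_lit 40401) (nat_lit 61897) (nat_lit 294100014) (nat_lit 0) (nat_lit 0),Row.mk (nat_lit 16968) (nat_lit 32912) (nat_lit 50459) (nat_lit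 61897) (nat_lit 294089955) (nat_lit 0) (nat_lit 0),Row.mk (nat_lit 17136) (nat_lit 32912) (nat_lit 63023) (nat_lit 61897) (nat_lit 294077392) (nat_lit 0) (nat_lit 0),Row.mk (nat_lit 17304) (nat_lit 32912) (nat_lit 78714) (nat_lit 61897) (nat_lit 294061701) (nat_lit 0) (nat_lit 0),Row.mk (nat_lit 17472) (nat_lit 32912) (nat_lit 98312) (nat_lit 61897) (nat_lit 294042103) (nat_lit 0) (nat_lit 0),Row.mk (nat_lit 17640) (nat_lit 32912) (nat_lit 122789) (nat_lit 61897) (nat_lit 294017625) (nat_lit 0) (nat_lit 0),Row.mk (nat_lit 17808) (nat_lit 32912) (nat_lit 153361) (nat_lit 61897) (nat_lit 293987054) (nat_lit 0) (nat_lit 0),Row.mk (nat_lit 17976) (nat_lit 32912) (nat_lit 191545) (nat_lit 61897) (nat_lit 293948870) (nat_lit 0) (nat_lit 0),Row.mk (nat_lit 18144) (nat_lit 32912) (nat_lit 239235) (nat_lit 61897) (nat_lit 293901180) (nat_lit 0) (nat_lit 0),Row.mk (nat_lit 18312) (nat_lit 32912) (nat_lit 298799) (nat_lit 61897) (nat_lit 293841616)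 (nat_lit 0) (nat_lit 0),Row.mk (nat_lit 18480) (nat_lit 32912) (nat_lit 373192) (nat_lit 61897) (nat_lit 293767223) (nat_lit 0) (nat_lit 0),Row.mk (nat_lit 18648) (nat_lit 0) (nat_lit 2338212) (nat_lit 748) (nat_lit 292268311) (nat_lit 0) (nat_lit 0),Row.mk (nat_lit 18816) (nat_lit 561) (nat_lit 2920371) (nat_lit 1309) (nat_lit 291802203) (nat_lit 0) (nat_lit 0),Row.mk (nat_lit 18984) (nat_lit 1122) (nat_lit 3647473) (nat_lit 1870) (nat_lit 291220044) (nat_lit 0) (nat_lit 0),Row.mk (nat_lit 19152) (nat_lit 1683) (nat_lit 4555606) (nat_lit 2431) (nat_lit 290492942) (nat_lit 0) (nat_lit 0),Row.mk (nat_lit 19320) (nat_lit 2244) (nat_lit 5689842) (nat_lit 2992) (nat_lit 289584809) (nat_lit 0) (nat_lit 0),Row.mk (nat_lit 19488) (nat_lit 2805) (nat_lit 7106475) (nat_lit 3553) (nat_lit 288450573) (nat_lit 0) (nat_lit 0),Row.mk (nat_lit 19656) (nat_lit 3366) (nat_lit 8875816) (nat_lit 4114) (nat_lit 287033940) (nat_lit 0) (nat_lit 0),Row.mk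 (nat_lit 19824) (nat_lit 3927) (nat_lit 11085681) (nat_lit 4675) (nat_lit 285264599) (nat_lit 0) (nat_lit 0),Row.mk (nat_lit 19992) (nat_lit 4488) (nat_lit 13845748) (nat_lit 5236) (nat_lit 283054734) (nat_lit 0) (nat_lit 0),Row.mk (nat_lit 20160) (nat_lit 5049) (nat_lit 17293005) (nat_lit 5797) (nat_lit 280294667) (nat_lit 0) (nat_lit 0),Row.mk (nat_lit 20328) (nat_lit 5610) (nat_lit 21598546) (nat_lit 6358) (nat_lit 276847410) (nat_lit 0) (nat_lit 0),Row.mk (nat_lit 20496) (nat_lit 6171) (nat_lit 26976063) (nat_lit 6919) (nat_lit 272541869) (nat_lit 0) (nat_lit 0),Row.mk (nat_lit 20664) (nat_lit 6732) (nat_lit 33692452) (nat_lit 7480) (nat_lit 267164352) (nat_lit 0) (nat_lit 0),Row.mk (nat_lit 20832) (nat_lit 7293) (nat_lit 42081060) (nat_lit 8041) (nat_lit 260447962) (nat_lit 0) (nat_lit 0),Row.mk (nat_lit 21000) (nat_lit 7854) (nat_lit 52558229) (nat_lit 8602) (nat_lit 252059354) (nat_lit 0) (nat_lit 0),Row.mk (nat_lit 21168)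 (nat_lit 8415) (nat_lit 65643961) (nat_lit 9163) (nat_lit 241582185) (nat_lit 0) (nat_lit 0),Row.mk (nat_lit 21336) (nat_lit 8976) (nat_lit 81987724) (nat_lit 9724) (nat_lit 228496454) (nat_lit 0) (nat_lit 0),Row.mk (nat_lit 21504) (nat_lit 9537) (nat_lit 102400689) (nat_lit 10285) (nat_lit 212152691) (nat_lit 0) (nat_lit 0),Row.mk (nat_lit 21672) (nat_lit 10098) (nat_lit 127895991) (nat_lit 10846) (nat_lit 191739726) (nat_lit 0) (nat_lit 0),Row.mk (nat_lit 21840) (nat_lit 10659) (nat_lit 159739007) (nat_lit 11407) (nat_lit 166244424) (nat_lit 0) (nat_lit 0),Row.mk (nat_lit 22008) (nat_lit 11220) (nat_lit 199510166) (nat_lit 11968) (nat_lit 134401408) (nat_lit 0) (nat_lit 0),Row.mk (nat_lit 22176) (nat_lit 11781) (nat_lit 249183385) (nat_lit 12716) (nat_lit 94630249) (nat_lit 0) (nat_lit 0),Row.mk (nat_lit 22344) (nat_lit 12529) (nat_lit 311224037) (nat_lit 13464) (nat_lit 44957030) (nat_lit 0) (nat_lit 0),Row.mk (nat_lit 22512) (nat_lit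 12342) (nat_lit 21337030) (nat_lit 13277) (nat_lit 350290662) (nat_lit 0) (nat_lit 0),Row.mk (nat_lit 22680) (nat_lit 13090) (nat_lit 118116770) (nat_lit 14025) (nat_lit 272803385) (nat_lit 0) (nat_lit 0),Row.mk (nat_lit 22848) (nat_lit 13838) (nat_lit 238992331) (nat_lit 15147) (nat_lit 176023644) (nat_lit 0) (nat_lit 0),Row.mk (nat_lit 23016) (nat_lit 14960) (nat_lit 389962991) (nat_lit 16456) (nat_lit 55148084) (nat_lit 0) (nat_lit 0),Row.mk (nat_lit 23184) (nat_lit 14773) (nat_lit 119680084) (nat_lit 16269) (nat_lit 363019042) (nat_lit 0) (nat_lit 0),Row.mk (nat_lit 23352) (nat_lit 16082) (nat_lit 355185366) (nat_lit 17765) (nat_lit 174460331) (nat_lit 0) (nat_lit 0),Row.mk (nat_lit 23520) (nat_lit 15895) (nat_lit 76243670) (nat_lit 17578) (nat_lit 512037160) (nat_lit 0) (nat_lit 0),Row.mk (nat_lit 23688) (nat_lit 17391) (nat_lit 443617954) (nat_lit 19635) (nat_lit 217896744) (nat_lit 0) (nat_lit 0),Row.mk (nat_lit 23856) (nat_lit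 17204) (nat_lit 186693839) (nat_lit 19448) (nat_lit 566288193) (nat_lit 0) (nat_lit 0),Row.mk (nat_lit 24024) (nat_lit 19261) (nat_lit 759775951) (nat_lit 25806) (nat_lit 107446575) (nat_lit 0) (nat_lit 0),Row.mk (nat_lit 24192) (nat_lit 19074) (nat_lit 581567551) (nat_lit 25619) (nat_lit 428338597) (nat_lit 0) (nat_lit 0),Row.mk (nat_lit 24360) (nat_lit 18887) (nat_lit 358989558) (nat_lit 25432) (nat_lit 829124990) (nat_lit 0) (nat_lit 0),Row.mk (nat_lit 24528) (nat_lit 18700) (nat_lit 80995014) (nat_lit 25245) (nat_lit 1329697527) (nat_lit 0) (nat_lit 0),Row.mk (nat_lit 24696) (nat_lit 25058) (nat_lit 1475541683) (nat_lit 31603) (nat_lit 213145401) (nat_lit 0) (nat_lit 0),Row.mk (nat_lit 24864) (nat_lit 24871) (nat_lit 1475541683) (nat_lit 31416) (nat_lit 560353880) (nat_lit 0) (nat_lit 0),Row.mk (nat_lit 25032) (nat_lit 24684) (nat_lit 1475541683) (nat_lit 31229) (nat_lit 994008894) (nat_lit 0) (nat_lit 0),Row.mk (nat_lit 25200)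 (nat_lit 24497) (nat_lit 1475541683) (nat_lit 31042) (nat_lit 1535633546) (nat_lit 0) (nat_lit 0),Row.mk (nat_lit 25368) (nat_lit 24310) (nat_lit 1475541683) (nat_lit 30855) (nat_lit 2212109669) (nat_lit 0) (nat_lit 0),Row.mk (nat_lit 25536) (nat_lit 24123) (nat_lit 1475541683) (nat_lit 30668) (nat_lit 3057012029) (nat_lit 0) (nat_lit 0),Row.mk (nat_lit 25704) (nat_lit 23936) (nat_lit 1475541683) (nat_lit 30481) (nat_lit 4112274693) (nat_lit 0) (nat_lit 0),Row.mk (nat_lit 25872) (nat_lit 23749) (nat_lit 1475541683) (nat_lit 30294) (nat_lit 5430272304) (nat_lit 0) (nat_lit 0),Row.mk (nat_lit 26040) (nat_lit 23562) (nat_lit 1475541683) (nat_lit 30107) (nat_lit 7076419525) (nat_lit 0) (nat_lit 0),Row.mk (nat_lit 26208) (nat_lit 23375) (nat_lit 1475541683) (nat_lit 29920) (nat_lit 9132417692) (nat_lit 0) (nat_lit 0),Row.mk (nat_lit 26376) (nat_lit 23188) (nat_lit 1475541683) (nat_lit 29733) (nat_lit 11700309805) (nat_lit 0) (nat_lit 0),Row.mk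 (nat_lit 26544) (nat_lit 23001) (nat_lit 1475541683) (nat_lit 29546) (nat_lit 14907545106) (nat_lit 0) (nat_lit 0),Row.mk (nat_lit 26712) (nat_lit 22814) (nat_lit 1475541683) (nat_lit 29359) (nat_lit 18913304627) (nat_lit 0) (nat_lit 0),Row.mk (nat_lit 26880) (nat_lit 22627) (nat_lit 1475541683) (nat_lit 29172) (nat_lit 23916401634) (nat_lit 0) (nat_lit 0),Row.mk (nat_lit 27048) (nat_lit 22440) (nat_lit 1475541683) (nat_lit 28985) (nat_lit 30165149102) (nat_lit 0) (nat_lit 0),Row.mk (nat_lit 27216) (nat_lit 22253) (nat_lit 1475541683) (nat_lit 28798) (nat_lit 37969683946) (nat_lit 0) (nat_lit 0),Row.mk (nat_lit 27384) (nat_lit 22066) (nat_lit 1475541683) (nat_lit 28611) (nat_lit 47717359691) (nat_lit 0) (nat_lit 0),Row.mk (nat_lit 27552) (nat_lit 21879) (nat_lit 1475541683) (nat_lit 28424) (nat_lit 59891971546) (nat_lit 0) (nat_lit 0),Row.mk (nat_lit 27720) (nat_lit 21692) (nat_lit 1475541683) (nat_lit 28237) (nat_lit 75097768055)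 (nat_lit 0) (nat_lit 0),Row.mk (nat_lit 27888) (nat_lit 21505) (nat_lit 1475541683) (nat_lit 28050) (nat_lit 94089441073) (nat_lit 0) (nat_lit 0),Row.mk (nat_lit 28056) (nat_lit 21318) (nat_lit 1475541683) (nat_lit 27863) (nat_lit 117809582520) (nat_lit 0) (nat_lit 0),Row.mk (nat_lit 28224) (nat_lit 21131) (nat_lit 1475541683) (nat_lit 27676) (nat_lit 147435466969) (nat_lit 0) (nat_lit 0),Row.mk (nat_lit 28392) (nat_lit 20944) (nat_lit 1475541683) (nat_lit 27489) (nat_lit 184437481955) (nat_lit 0) (nat_lit 0),Row.mk (nat_lit 28560) (nat_lit 32912) (nat_lit 294140415) (nat_lit 62084) (nat_lit 231539366896) (nat_lit 0) (nat_lit 0),Row.mk (nat_lit 28728) (nat_lit 32912) (nat_lit 294140415) (nat_lit 62084) (nat_lit 289260317511) (nat_lit 0) (nat_lit 0)],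
[Row.mk (nat_lit 13608) (nat_lit 32912) (nat_lit 591) (nat_lit 61897) (nat_lit 367373692) (nat_lit 0) (nat_lit 0),Row.mk (nat_lit 13776) (nat_lit 32912) (nat_lit 738) (nat_lit 61897) (nat_lit 367373545) (nat_lit 0) (nat_lit 0),Row.mk (nat_lit 13944) (nat_lit 32912) (nat_lit 922) (nat_lit 61897) (nat_lit 367373361) (nat_lit 0) (nat_lit 0),Row.mk (nat_lit 14112) (nat_lit 32912) (nat_lit 1152) (nat_lit 61897) (nat_lit 367373131) (nat_lit 0) (nat_lit 0),Row.mk (nat_lit 14280) (nat_lit 32912) (nat_lit 1439) (nat_lit 61897) (nat_lit 367372844) (nat_lit 0) (nat_lit 0),Row.mk (nat_lit 14448) (nat_lit 32912) (nat_lit 1797) (nat_lit 61897) (nat_lit 367372486) (nat_lit 0) (nat_lit 0),Row.mk (nat_lit 14616) (nat_lit 32912) (nat_lit 2244) (nat_lit 61897) (nat_lit 367372038) (nat_lit 0) (nat_lit 0),Row.mk (nat_lit 14784) (nat_lit 32912) (nat_lit 2803) (nat_lit 61897) (nat_lit 367371479) (nat_lit 0) (nat_lit 0),Row.mk (nat_lit 14952) (nat_lit 32912)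 (nat_lit 3501) (nat_lit 61897) (nat_lit 367370781) (nat_lit 0) (nat_lit 0),Row.mk (nat_lit 15120) (nat_lit 32912) (nat_lit 4373) (nat_lit 61897) (nat_lit 367369909) (nat_lit 0) (nat_lit 0),Row.mk (nat_lit 15288) (nat_lit 32912) (nat_lit 5462) (nat_lit 61897) (nat_lit 367368820) (nat_lit 0) (nat_lit 0),Row.mk (nat_lit 15456) (nat_lit 32912) (nat_lit 6822) (nat_lit 61897) (nat_lit 367367460) (nat_lit 0) (nat_lit 0),Row.mk (nat_lit 15624) (nat_lit 32912) (nat_lit 8521) (nat_lit 61897) (nat_lit 367365762) (nat_lit 0) (nat_lit 0),Row.mk (nat_lit 15792) (nat_lit 32912) (nat_lit 10643) (nat_lit 61897) (nat_lit 367363640) (nat_lit 0) (nat_lit 0),Row.mk (nat_lit 15960) (nat_lit 32912) (nat_lit 13292) (nat_lit 61897) (nat_lit 367360990) (nat_lit 0) (nat_lit 0),Row.mk (nat_lit 16128) (nat_lit 32912) (nat_lit 16602) (nat_lit 61897) (nat_lit 367357681) (nat_lit 0) (nat_lit 0),Row.mk (nat_lit 16296) (nat_lit 32912) (nat_lit 20736) (nat_lit 61897)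 (nat_lit 367353547) (nat_lit 0) (nat_lit 0),Row.mk (nat_lit 16464) (nat_lit 32912) (nat_lit 25899) (nat_lit 61897) (nat_lit 367348384) (nat_lit 0) (nat_lit 0),Row.mk (nat_lit 16632) (nat_lit 32912) (nat_lit 32347) (nat_lit 61897) (nat_lit 367341936) (nat_lit 0) (nat_lit 0),Row.mk (nat_lit 16800) (nat_lit 32912) (nat_lit 40401) (nat_lit 61897) (nat_lit 367333882) (nat_lit 0) (nat_lit 0),Row.mk (nat_lit 16968) (nat_lit 32912) (nat_lit 50459) (nat_lit 61897) (nat_lit 367323823) (nat_lit 0) (nat_lit 0),Row.mk (nat_lit 17136) (nat_lit 32912) (nat_lit 63023) (nat_lit 61897) (nat_lit 367311260) (nat_lit 0) (nat_lit 0),Row.mk (nat_lit 17304) (nat_lit 32912) (nat_lit 78714) (nat_lit 61897) (nat_lit 367295569) (nat_lit 0) (nat_lit 0),Row.mk (nat_lit 17472) (nat_lit 32912) (nat_lit 98312) (nat_lit 61897) (nat_lit 367275971) (nat_lit 0) (nat_lit 0),Row.mk (nat_lit 17640) (nat_lit 32912) (nat_lit 122789) (nat_lit 61897) (nat_lit 367251493) (nat_lit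 0) (nat_lit 0),Row.mk (nat_lit 17808) (nat_lit 32912) (nat_lit 153361) (nat_lit 61897) (nat_lit 367220921) (nat_lit 0) (nat_lit 0),Row.mk (nat_lit 17976) (nat_lit 32912) (nat_lit 191545) (nat_lit 61897) (nat_lit 367182738) (nat_lit 0) (nat_lit 0),Row.mk (nat_lit 18144) (nat_lit 32912) (nat_lit 239235) (nat_lit 61897) (nat_lit 367135048) (nat_lit 0) (nat_lit 0),Row.mk (nat_lit 18312) (nat_lit 32912) (nat_lit 298799) (nat_lit 61897) (nat_lit 367075484) (nat_lit 0) (nat_lit 0),Row.mk (nat_lit 18480) (nat_lit 32912) (nat_lit 373192) (nat_lit 61897) (nat_lit 367001090) (nat_lit 0) (nat_lit 0),Row.mk (nat_lit 18648) (nat_lit 32912) (nat_lit 466108) (nat_lit 61897) (nat_lit 366908174) (nat_lit 0) (nat_lit 0),Row.mk (nat_lit 18816) (nat_lit 0) (nat_lit 2920371) (nat_lit 748) (nat_lit 365036070) (nat_lit 0) (nat_lit 0),Row.mk (nat_lit 18984) (nat_lit 561) (nat_lit 3647473) (nat_lit 1309) (nat_lit 364453912) (nat_lit 0) (nat_lit 0),Row.mk (nat_lit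 19152) (nat_lit 1122) (nat_lit 4555606) (nat_lit 1870) (nat_lit 363726810) (nat_lit 0) (nat_lit 0),Row.mk (nat_lit 19320) (nat_lit 1683) (nat_lit 5689842) (nat_lit 2431) (nat_lit 362818677) (nat_lit 0) (nat_lit 0),Row.mk (nat_lit 19488) (nat_lit 2244) (nat_lit 7106475) (nat_lit 2992) (nat_lit 361684441) (nat_lit 0) (nat_lit 0),Row.mk (nat_lit 19656) (nat_lit 2805) (nat_lit 8875816) (nat_lit 3553) (nat_lit 360267807) (nat_lit 0) (nat_lit 0),Row.mk (nat_lit 19824) (nat_lit 3366) (nat_lit 11085681) (nat_lit 4114) (nat_lit 358498466) (nat_lit 0) (nat_lit 0),Row.mk (nat_lit 19992) (nat_lit 3927) (nat_lit 13845748) (nat_lit 4675) (nat_lit 356288602) (nat_lit 0) (nat_lit 0),Row.mk (nat_lit 20160) (nat_lit 4488) (nat_lit 17293005) (nat_lit 5236) (nat_lit 353528535) (nat_lit 0) (nat_lit 0),Row.mk (nat_lit 20328) (nat_lit 5049) (nat_lit 21598546) (nat_lit 5797) (nat_lit 350081278) (nat_lit 0) (nat_lit 0),Row.mk (nat_lit 20496) (nat_lit 5610)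 (nat_lit 26976063) (nat_lit 6358) (nat_lit 345775736) (nat_lit 0) (nat_lit 0),Row.mk (nat_lit 20664) (nat_lit 6171) (nat_lit 33692452) (nat_lit 6919) (nat_lit 340398219) (nat_lit 0) (nat_lit 0),Row.mk (nat_lit 20832) (nat_lit 6732) (nat_lit 42081060) (nat_lit 7480) (nat_lit 333681830) (nat_lit 0) (nat_lit 0),Row.mk (nat_lit 21000) (nat_lit 7293) (nat_lit 52558229) (nat_lit 8041) (nat_lit 325293222) (nat_lit 0) (nat_lit 0),Row.mk (nat_lit 21168) (nat_lit 7854) (nat_lit 65643961) (nat_lit 8602) (nat_lit 314816053) (nat_lit 0) (nat_lit 0),Row.mk (nat_lit 21336) (nat_lit 8415) (nat_lit 81987724) (nat_lit 9163) (nat_lit 301730322) (nat_lit 0) (nat_lit 0),Row.mk (nat_lit 21504) (nat_lit 8976) (nat_lit 102400689) (nat_lit 9724) (nat_lit 285386559) (nat_lit 0) (nat_lit 0),Row.mk (nat_lit 21672) (nat_lit 9537) (nat_lit 127895991) (nat_lit 10285) (nat_lit 264973594) (nat_lit 0) (nat_lit 0),Row.mk (nat_lit 21840) (nat_lit 10098) (nat_lit 159739007)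 (nat_lit 10846) (nat_lit 239478292) (nat_lit 0) (nat_lit 0),Row.mk (nat_lit 22008) (nat_lit 10659) (nat_lit 199510166) (nat_lit 11407) (nat_lit 207635276) (nat_lit 0) (nat_lit 0),Row.mk (nat_lit 22176) (nat_lit 11220) (nat_lit 249183385) (nat_lit 11968) (nat_lit 167864116) (nat_lit 0) (nat_lit 0),Row.mk (nat_lit 22344) (nat_lit 11781) (nat_lit 311224037) (nat_lit 12716) (nat_lit 118190898) (nat_lit 0) (nat_lit 0),Row.mk (nat_lit 22512) (nat_lit 12529) (nat_lit 388711314) (nat_lit 13464) (nat_lit 56150246) (nat_lit 0) (nat_lit 0),Row.mk (nat_lit 22680) (nat_lit 12342) (nat_lit 26649436) (nat_lit 13277) (nat_lit 437504586) (nat_lit 0) (nat_lit 0),Row.mk (nat_lit 22848) (nat_lit 13090) (nat_lit 147524997) (nat_lit 14025) (nat_lit 340724846) (nat_lit 0) (nat_lit 0),Row.mk (nat_lit 23016) (nat_lit 13838) (nat_lit 298495656) (nat_lit 15147) (nat_lit 219849286) (nat_lit 0) (nat_lit 0),Row.mk (nat_lit 23184) (nat_lit 14960) (nat_lit 487054368)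 (nat_lit 16456) (nat_lit 68878626) (nat_lit 0) (nat_lit 0),Row.mk (nat_lit 23352) (nat_lit 14773) (nat_lit 149477538) (nat_lit 16269) (nat_lit 453402026) (nat_lit 0) (nat_lit 0),Row.mk (nat_lit 23520) (nat_lit 16082) (nat_lit 443617954) (nat_lit 17765) (nat_lit 217896744) (nat_lit 0) (nat_lit 0),Row.mk (nat_lit 23688) (nat_lit 15895) (nat_lit 95226505) (nat_lit 17578) (nat_lit 639522061) (nat_lit 0) (nat_lit 0),Row.mk (nat_lit 23856) (nat_lit 17391) (nat_lit 554068123) (nat_lit 19635) (nat_lit 272147777) (nat_lit 0) (nat_lit 0),Row.mk (nat_lit 24024) (nat_lit 17204) (nat_lit 233176102) (nat_lit 19448) (nat_lit 707280292) (nat_lit 0) (nat_lit 0),Row.mk (nat_lit 24192) (nat_lit 19261) (nat_lit 948941834) (nat_lit 25806) (nat_lit 134198181) (nat_lit 0) (nat_lit 0),Row.mk (nat_lit 24360) (nat_lit 19074) (nat_lit 726363841) (nat_lit 25619) (nat_lit 534984574) (nat_lit 0) (nat_lit 0),Row.mk (nat_lit 24528) (nat_lit 18887) (nat_lit 448369297)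 (nat_lit 25432) (nat_lit 1035557111) (nat_lit 0) (nat_lit 0),Row.mk (nat_lit 24696) (nat_lit 18700) (nat_lit 101160818) (nat_lit 25245) (nat_lit 1660760134) (nat_lit 0) (nat_lit 0),Row.mk (nat_lit 24864) (nat_lit 25058) (nat_lit 1842915967) (nat_lit 31603) (nat_lit 266213464) (nat_lit 0) (nat_lit 0),Row.mk (nat_lit 25032) (nat_lit 24871) (nat_lit 1842915967) (nat_lit 31416) (nat_lit 699868479) (nat_lit 0) (nat_lit 0),Row.mk (nat_lit 25200) (nat_lit 24684) (nat_lit 1842915967) (nat_lit 31229) (nat_lit 1241493130) (nat_lit 0) (nat_lit 0),Row.mk (nat_lit 25368) (nat_lit 24497) (nat_lit 1842915967) (nat_lit 31042) (nat_lit 1917969254) (nat_lit 0) (nat_lit 0),Row.mk (nat_lit 25536) (nat_lit 24310) (nat_lit 1842915967) (nat_lit 30855) (nat_lit 2762871613) (nat_lit 0) (nat_lit 0),Row.mk (nat_lit 25704) (nat_lit 24123) (nat_lit 1842915967) (nat_lit 30668) (nat_lit 3818134277) (nat_lit 0) (nat_lit 0),Row.mk (nat_lit 25872) (nat_lit 23936)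 (nat_lit 1842915967) (nat_lit 30481) (nat_lit 5136131888) (nat_lit 0) (nat_lit 0),Row.mk (nat_lit 26040) (nat_lit 23749) (nat_lit 1842915967) (nat_lit 30294) (nat_lit 6782279109) (nat_lit 0) (nat_lit 0),Row.mk (nat_lit 26208) (nat_lit 23562) (nat_lit 1842915967) (nat_lit 30107) (nat_lit 8838277276) (nat_lit 0) (nat_lit 0),Row.mk (nat_lit 26376) (nat_lit 23375) (nat_lit 1842915967) (nat_lit 29920) (nat_lit 11406169389) (nat_lit 0) (nat_lit 0),Row.mk (nat_lit 26544) (nat_lit 23188) (nat_lit 1842915967) (nat_lit 29733) (nat_lit 14613404690) (nat_lit 0) (nat_lit 0),Row.mk (nat_lit 26712) (nat_lit 23001) (nat_lit 1842915967) (nat_lit 29546) (nat_lit 18619164211) (nat_lit 0) (nat_lit 0),Row.mk (nat_lit 26880) (nat_lit 22814) (nat_lit 1842915967) (nat_lit 29359) (nat_lit 23622261218) (nat_lit 0) (nat_lit 0),Row.mk (nat_lit 27048) (nat_lit 22627) (nat_lit 1842915967) (nat_lit 29172) (nat_lit 29871008686) (nat_lit 0) (nat_lit 0),Row.mk (nat_lit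 27216) (nat_lit 22440) (nat_lit 1842915967) (nat_lit 28985) (nat_lit 37675543530) (nat_lit 0) (nat_lit 0),Row.mk (nat_lit 27384) (nat_lit 22253) (nat_lit 1842915967) (nat_lit 28798) (nat_lit 47423219276) (nat_lit 0) (nat_lit 0),Row.mk (nat_lit 27552) (nat_lit 22066) (nat_lit 1842915967) (nat_lit 28611) (nat_lit 59597831130) (nat_lit 0) (nat_lit 0),Row.mk (nat_lit 27720) (nat_lit 21879) (nat_lit 1842915967) (nat_lit 28424) (nat_lit 74803627639) (nat_lit 0) (nat_lit 0),Row.mk (nat_lit 27888) (nat_lit 21692) (nat_lit 1842915967) (nat_lit 28237) (nat_lit 93795300657) (nat_lit 0) (nat_lit 0),Row.mk (nat_lit 28056) (nat_lit 21505) (nat_lit 1842915967) (nat_lit 28050) (nat_lit 117515442105) (nat_lit 0) (nat_lit 0),Row.mk (nat_lit 28224) (nat_lit 21318) (nat_lit 1842915967) (nat_lit 27863) (nat_lit 147141326553) (nat_lit 0) (nat_lit 0),Row.mk (nat_lit 28392) (nat_lit 21131) (nat_lit 1842915967) (nat_lit 27676) (nat_lit 184143341539) (nat_lit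 0) (nat_lit 0),Row.mk (nat_lit 28560) (nat_lit 20944) (nat_lit 1842915967) (nat_lit 27489) (nat_lit 230357965628) (nat_lit 0) (nat_lit 0),Row.mk (nat_lit 28728) (nat_lit 32912) (nat_lit 367374283) (nat_lit 62084) (nat_lit 289187083643) (nat_lit 0) (nat_lit 0),Row.mk (nat_lit 28896) (nat_lit 32912) (nat_lit 367374283) (nat_lit 62084) (nat_lit 361279158512) (nat_lit 0) (nat_lit 0)],
[Row.mk (nat_lit 13776) (nat_lit 32912) (nat_lit 738) (nat_lit 61897) (nat_lit 458840879) (nat_lit 0) (nat_lit 0),Row.mk (nat_lit 13944) (nat_lit 32912) (nat_lit 922) (nat_lit 61897) (nat_lit 458840695) (nat_lit 0) (nat_lit 0),Row.mk (nat_lit 14112) (nat_lit 32912) (nat_lit 1152) (nat_lit 61897) (nat_lit 458840465) (nat_lit 0) (nat_lit 0),Row.mk (nat_lit 14280) (nat_lit 32912) (nat_lit 1439) (nat_lit 61897) (nat_lit 458840178) (nat_lit 0) (nat_lit 0),Row.mk (nat_lit 14448) (nat_lit 32912) (nat_lit 1797) (nat_lit 61897) (nat_lit 458839820) (nat_lit 0) (nat_lit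 0),Row.mk (nat_lit 14616) (nat_lit 32912) (nat_lit 2244) (nat_lit 61897) (nat_lit 458839372) (nat_lit 0) (nat_lit 0),Row.mk (nat_lit 14784) (nat_lit 32912) (nat_lit 2803) (nat_lit 61897) (nat_lit 458838814) (nat_lit 0) (nat_lit 0),Row.mk (nat_lit 14952) (nat_lit 32912) (nat_lit 3501) (nat_lit 61897) (nat_lit 458838115) (nat_lit 0) (nat_lit 0),Row.mk (nat_lit 15120) (nat_lit 32912) (nat_lit 4373) (nat_lit 61897) (nat_lit 458837244) (nat_lit 0) (nat_lit 0),Row.mk (nat_lit 15288) (nat_lit 32912) (nat_lit 5462) (nat_lit 61897) (nat_lit 458836155) (nat_lit 0) (nat_lit 0),Row.mk (nat_lit 15456) (nat_lit 32912) (nat_lit 6822) (nat_lit 61897) (nat_lit 458834795) (nat_lit 0) (nat_lit 0),Row.mk (nat_lit 15624) (nat_lit 32912) (nat_lit 8521) (nat_lit 61897) (nat_lit 458833096) (nat_lit 0) (nat_lit 0),Row.mk (nat_lit 15792) (nat_lit 32912) (nat_lit 10643) (nat_lit 61897) (nat_lit 458830974) (nat_lit 0) (nat_lit 0),Row.mk (nat_lit 15960) (nat_lit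 32912) (nat_lit 13292) (nat_lit 61897) (nat_lit 458828324) (nat_lit 0) (nat_lit 0),Row.mk (nat_lit 16128) (nat_lit 32912) (nat_lit 16602) (nat_lit 61897) (nat_lit 458825015) (nat_lit 0) (nat_lit 0),Row.mk (nat_lit 16296) (nat_lit 32912) (nat_lit 20736) (nat_lit 61897) (nat_lit 458820881) (nat_lit 0) (nat_lit 0),Row.mk (nat_lit 16464) (nat_lit 32912) (nat_lit 25899) (nat_lit 61897) (nat_lit 458815718) (nat_lit 0) (nat_lit 0),Row.mk (nat_lit 16632) (nat_lit 32912) (nat_lit 32347) (nat_lit 61897) (nat_lit 458809270) (nat_lit 0) (nat_lit 0),Row.mk (nat_lit 16800) (nat_lit 32912) (nat_lit 40401) (nat_lit 61897) (nat_lit 458801216) (nat_lit 0) (nat_lit 0),Row.mk (nat_lit 16968) (nat_lit 32912) (nat_lit 50459) (nat_lit 61897) (nat_lit 458791157) (nat_lit 0) (nat_lit 0),Row.mk (nat_lit 17136) (nat_lit 32912) (nat_lit 63023) (nat_lit 61897) (nat_lit 458778594) (nat_lit 0) (nat_lit 0),Row.mk (nat_lit 17304) (nat_lit 32912) (nat_lit 78714) (nat_lit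 61897) (nat_lit 458762903) (nat_lit 0) (nat_lit 0),Row.mk (nat_lit 17472) (nat_lit 32912) (nat_lit 98312) (nat_lit 61897) (nat_lit 458743305) (nat_lit 0) (nat_lit 0),Row.mk (nat_lit 17640) (nat_lit 32912) (nat_lit 122789) (nat_lit 61897) (nat_lit 458718827) (nat_lit 0) (nat_lit 0),Row.mk (nat_lit 17808) (nat_lit 32912) (nat_lit 153361) (nat_lit 61897) (nat_lit 458688256) (nat_lit 0) (nat_lit 0),Row.mk (nat_lit 17976) (nat_lit 32912) (nat_lit 191545) (nat_lit 61897) (nat_lit 458650072) (nat_lit 0) (nat_lit 0),Row.mk (nat_lit 18144) (nat_lit 32912) (nat_lit 239235) (nat_lit 61897) (nat_lit 458602382) (nat_lit 0) (nat_lit 0),Row.mk (nat_lit 18312) (nat_lit 32912) (nat_lit 298799) (nat_lit 61897) (nat_lit 458542818) (nat_lit 0) (nat_lit 0),Row.mk (nat_lit 18480) (nat_lit 32912) (nat_lit 373192) (nat_lit 61897) (nat_lit 458468425) (nat_lit 0) (nat_lit 0),Row.mk (nat_lit 18648) (nat_lit 32912) (nat_lit 466108) (nat_lit 61897) (nat_lit 458375509)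 (nat_lit 0) (nat_lit 0),Row.mk (nat_lit 18816) (nat_lit 32912) (nat_lit 582158) (nat_lit 61897) (nat_lit 458259459) (nat_lit 0) (nat_lit 0),Row.mk (nat_lit 18984) (nat_lit 0) (nat_lit 3647473) (nat_lit 748) (nat_lit 455921246) (nat_lit 0) (nat_lit 0),Row.mk (nat_lit 19152) (nat_lit 561) (nat_lit 4555606) (nat_lit 1309) (nat_lit 455194144) (nat_lit 0) (nat_lit 0),Row.mk (nat_lit 19320) (nat_lit 1122) (nat_lit 5689842) (nat_lit 1870) (nat_lit 454286011) (nat_lit 0) (nat_lit 0),Row.mk (nat_lit 19488) (nat_lit 1683) (nat_lit 7106475) (nat_lit 2431) (nat_lit 453151775) (nat_lit 0) (nat_lit 0),Row.mk (nat_lit 19656) (nat_lit 2244) (nat_lit 8875816) (nat_lit 2992) (nat_lit 451735142) (nat_lit 0) (nat_lit 0),Row.mk (nat_lit 19824) (nat_lit 2805) (nat_lit 11085681) (nat_lit 3553) (nat_lit 449965800) (nat_lit 0) (nat_lit 0),Row.mk (nat_lit 19992) (nat_lit 3366) (nat_lit 13845748) (nat_lit 4114) (nat_lit 447755936) (nat_lit 0) (nat_lit 0),Row.mk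 (nat_lit 20160) (nat_lit 3927) (nat_lit 17293005) (nat_lit 4675) (nat_lit 444995869) (nat_lit 0) (nat_lit 0),Row.mk (nat_lit 20328) (nat_lit 4488) (nat_lit 21598546) (nat_lit 5236) (nat_lit 441548612) (nat_lit 0) (nat_lit 0),Row.mk (nat_lit 20496) (nat_lit 5049) (nat_lit 26976063) (nat_lit 5797) (nat_lit 437243071) (nat_lit 0) (nat_lit 0),Row.mk (nat_lit 20664) (nat_lit 5610) (nat_lit 33692452) (nat_lit 6358) (nat_lit 431865553) (nat_lit 0) (nat_lit 0),Row.mk (nat_lit 20832) (nat_lit 6171) (nat_lit 42081060) (nat_lit 6919) (nat_lit 425149164) (nat_lit 0) (nat_lit 0),Row.mk (nat_lit 21000) (nat_lit 6732) (nat_lit 52558229) (nat_lit 7480) (nat_lit 416760556) (nat_lit 0) (nat_lit 0),Row.mk (nat_lit 21168) (nat_lit 7293) (nat_lit 65643961) (nat_lit 8041) (nat_lit 406283387) (nat_lit 0) (nat_lit 0),Row.mk (nat_lit 21336) (nat_lit 7854) (nat_lit 81987724) (nat_lit 8602) (nat_lit 393197656) (nat_lit 0) (nat_lit 0),Row.mk (nat_lit 21504)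 (nat_lit 8415) (nat_lit 102400689) (nat_lit 9163) (nat_lit 376853893) (nat_lit 0) (nat_lit 0),Row.mk (nat_lit 21672) (nat_lit 8976) (nat_lit 127895991) (nat_lit 9724) (nat_lit 356440928) (nat_lit 0) (nat_lit 0),Row.mk (nat_lit 21840) (nat_lit 9537) (nat_lit 159739007) (nat_lit 10285) (nat_lit 330945626) (nat_lit 0) (nat_lit 0),Row.mk (nat_lit 22008) (nat_lit 10098) (nat_lit 199510166) (nat_lit 10846) (nat_lit 299102610) (nat_lit 0) (nat_lit 0),Row.mk (nat_lit 22176) (nat_lit 10659) (nat_lit 249183385) (nat_lit 11407) (nat_lit 259331450) (nat_lit 0) (nat_lit 0),Row.mk (nat_lit 22344) (nat_lit 11220) (nat_lit 311224037) (nat_lit 11968) (nat_lit 209658232) (nat_lit 0) (nat_lit 0),Row.mk (nat_lit 22512) (nat_lit 11781) (nat_lit 388711314) (nat_lit 12716) (nat_lit 147617580) (nat_lit 0) (nat_lit 0),Row.mk (nat_lit 22680) (nat_lit 12529) (nat_lit 485491054) (nat_lit 13464) (nat_lit 70130303) (nat_lit 0) (nat_lit 0),Row.mk (nat_lit 22848)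 (nat_lit 12342) (nat_lit 33284503) (nat_lit 13277) (nat_lit 546432674) (nat_lit 0) (nat_lit 0),Row.mk (nat_lit 23016) (nat_lit 13090) (nat_lit 184255163) (nat_lit 14025) (nat_lit 425557114) (nat_lit 0) (nat_lit 0),Row.mk (nat_lit 23184) (nat_lit 13838) (nat_lit 372813874) (nat_lit 15147) (nat_lit 274586454) (nat_lit 0) (nat_lit 0),Row.mk (nat_lit 23352) (nat_lit 14960) (nat_lit 608319156) (nat_lit 16456) (nat_lit 86027743) (nat_lit 0) (nat_lit 0),Row.mk (nat_lit 23520) (nat_lit 14773) (nat_lit 186693839) (nat_lit 16269) (nat_lit 566288193) (nat_lit 0) (nat_lit 0),Row.mk (nat_lit 23688) (nat_lit 16082) (nat_lit 554068123) (nat_lit 17765) (nat_lit 272147777) (nat_lit 0) (nat_lit 0),Row.mk (nat_lit 23856) (nat_lit 15895) (nat_lit 118935608) (nat_lit 17578) (nat_lit 798747627) (nat_lit 0) (nat_lit 0),Row.mk (nat_lit 24024) (nat_lit 17391) (nat_lit 692017720) (nat_lit 19635) (nat_lit 339906009) (nat_lit 0) (nat_lit 0),Row.mk (nat_lit 24192)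 (nat_lit 17204) (nat_lit 291231326) (nat_lit 19448) (nat_lit 883376023) (nat_lit 0) (nat_lit 0),Row.mk (nat_lit 24360) (nat_lit 19261) (nat_lit 1185205459) (nat_lit 25806) (nat_lit 167610291) (nat_lit 0) (nat_lit 0),Row.mk (nat_lit 24528) (nat_lit 19074) (nat_lit 907210915) (nat_lit 25619) (nat_lit 668182828) (nat_lit 0) (nat_lit 0),Row.mk (nat_lit 24696) (nat_lit 18887) (nat_lit 560002436) (nat_lit 25432) (nat_lit 1293385850) (nat_lit 0) (nat_lit 0),Row.mk (nat_lit 24864) (nat_lit 18700) (nat_lit 126347422) (nat_lit 25245) (nat_lit 2074249344) (nat_lit 0) (nat_lit 0),Row.mk (nat_lit 25032) (nat_lit 25058) (nat_lit 2301757585) (nat_lit 31603) (nat_lit 332494195) (nat_lit 0) (nat_lit 0),Row.mk (nat_lit 25200) (nat_lit 24871) (nat_lit 2301757585) (nat_lit 31416) (nat_lit 874118846) (nat_lit 0) (nat_lit 0),Row.mk (nat_lit 25368) (nat_lit 24684) (nat_lit 2301757585) (nat_lit 31229) (nat_lit 1550594970) (nat_lit 0) (nat_lit 0),Row.mk (nat_lit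 25536) (nat_lit 24497) (nat_lit 2301757585) (nat_lit 31042) (nat_lit 2395497329) (nat_lit 0) (nat_lit 0),Row.mk (nat_lit 25704) (nat_lit 24310) (nat_lit 2301757585) (nat_lit 30855) (nat_lit 3450759993) (nat_lit 0) (nat_lit 0),Row.mk (nat_lit 25872) (nat_lit 24123) (nat_lit 2301757585) (nat_lit 30668) (nat_lit 4768757604) (nat_lit 0) (nat_lit 0),Row.mk (nat_lit 26040) (nat_lit 23936) (nat_lit 2301757585) (nat_lit 30481) (nat_lit 6414904825) (nat_lit 0) (nat_lit 0),Row.mk (nat_lit 26208) (nat_lit 23749) (nat_lit 2301757585) (nat_lit 30294) (nat_lit 8470902992) (nat_lit 0) (nat_lit 0),Row.mk (nat_lit 26376) (nat_lit 23562) (nat_lit 2301757585) (nat_lit 30107) (nat_lit 11038795105) (nat_lit 0) (nat_lit 0),Row.mk (nat_lit 26544) (nat_lit 23375) (nat_lit 2301757585) (nat_lit 29920) (nat_lit 14246030406) (nat_lit 0) (nat_lit 0),Row.mk (nat_lit 26712) (nat_lit 23188) (nat_lit 2301757585) (nat_lit 29733) (nat_lit 18251789927) (nat_lit 0) (nat_lit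 0),Row.mk (nat_lit 26880) (nat_lit 23001) (nat_lit 2301757585) (nat_lit 29546) (nat_lit 23254886934) (nat_lit 0) (nat_lit 0),Row.mk (nat_lit 27048) (nat_lit 22814) (nat_lit 2301757585) (nat_lit 29359) (nat_lit 29503634402) (nat_lit 0) (nat_lit 0),Row.mk (nat_lit 27216) (nat_lit 22627) (nat_lit 2301757585) (nat_lit 29172) (nat_lit 37308169247) (nat_lit 0) (nat_lit 0),Row.mk (nat_lit 27384) (nat_lit 22440) (nat_lit 2301757585) (nat_lit 28985) (nat_lit 47055844992) (nat_lit 0) (nat_lit 0),Row.mk (nat_lit 27552) (nat_lit 22253) (nat_lit 2301757585) (nat_lit 28798) (nat_lit 59230456847) (nat_lit 0) (nat_lit 0),Row.mk (nat_lit 27720) (nat_lit 22066) (nat_lit 2301757585) (nat_lit 28611) (nat_lit 74436253355) (nat_lit 0) (nat_lit 0),Row.mk (nat_lit 27888) (nat_lit 21879) (nat_lit 2301757585) (nat_lit 28424) (nat_lit 93427926373) (nat_lit 0) (nat_lit 0),Row.mk (nat_lit 28056) (nat_lit 21692) (nat_lit 2301757585) (nat_lit 28237) (nat_lit 117148067821)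 (nat_lit 0) (nat_lit 0),Row.mk (nat_lit 28224) (nat_lit 21505) (nat_lit 2301757585) (nat_lit 28050) (nat_lit 146773952269) (nat_lit 0) (nat_lit 0),Row.mk (nat_lit 28392) (nat_lit 21318) (nat_lit 2301757585) (nat_lit 27863) (nat_lit 183775967256) (nat_lit 0) (nat_lit 0),Row.mk (nat_lit 28560) (nat_lit 21131) (nat_lit 2301757585) (nat_lit 27676) (nat_lit 229990591345) (nat_lit 0) (nat_lit 0),Row.mk (nat_lit 28728) (nat_lit 20944) (nat_lit 2301757585) (nat_lit 27489) (nat_lit 287711541959) (nat_lit 0) (nat_lit 0),Row.mk (nat_lit 28896) (nat_lit 32912) (nat_lit 458841617) (nat_lit 62084) (nat_lit 361187691178) (nat_lit 0) (nat_lit 0),Row.mk (nat_lit 29064) (nat_lit 32912) (nat_lit 458841617) (nat_lit 62084) (nat_lit 451228953553) (nat_lit 0) (nat_lit 0)],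
[Row.mk (nat_lit 13944) (nat_lit 32912) (nat_lit 922) (nat_lit 61897) (nat_lit 573081189) (nat_lit 0) (nat_lit 0),Row.mk (nat_lit 14112) (nat_lit 32912) (nat_lit 1152) (nat_lit 61897) (nat_lit 573080959) (nat_lit 0) (nat_lit 0),Row.mk (nat_lit 14280) (nat_lit 32912) (nat_lit 1439) (nat_lit 61897) (nat_lit 573080672) (nat_lit 0) (nat_lit 0),Row.mk (nat_lit 14448) (nat_lit 32912) (nat_lit 1797) (nat_lit 61897) (nat_lit 573080314) (nat_lit 0) (nat_lit 0),Row.mk (nat_lit 14616) (nat_lit 32912) (nat_lit 2244) (nat_lit 61897) (nat_lit 573079866) (nat_lit 0) (nat_lit 0),Row.mk (nat_lit 14784) (nat_lit 32912) (nat_lit 2803) (nat_lit 61897) (nat_lit 573079307) (nat_lit 0) (nat_lit 0),Row.mk (nat_lit 14952) (nat_lit 32912) (nat_lit 3501) (nat_lit 61897) (nat_lit 573078609) (nat_lit 0) (nat_lit 0),Row.mk (nat_lit 15120) (nat_lit 32912) (nat_lit 4373) (nat_lit 61897) (nat_lit 573077737) (nat_lit 0) (nat_lit 0),Row.mk (nat_lit 15288) (nat_lit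 32912) (nat_lit 5462) (nat_lit 61897) (nat_lit 573076648) (nat_lit 0) (nat_lit 0),Row.mk (nat_lit 15456) (nat_lit 32912) (nat_lit 6822) (nat_lit 61897) (nat_lit 573075288) (nat_lit 0) (nat_lit 0),Row.mk (nat_lit 15624) (nat_lit 32912) (nat_lit 8521) (nat_lit 61897) (nat_lit 573073590) (nat_lit 0) (nat_lit 0),Row.mk (nat_lit 15792) (nat_lit 32912) (nat_lit 10643) (nat_lit 61897) (nat_lit 573071468) (nat_lit 0) (nat_lit 0),Row.mk (nat_lit 15960) (nat_lit 32912) (nat_lit 13292) (nat_lit 61897) (nat_lit 573068818) (nat_lit 0) (nat_lit 0),Row.mk (nat_lit 16128) (nat_lit 32912) (nat_lit 16602) (nat_lit 61897) (nat_lit 573065508) (nat_lit 0) (nat_lit 0),Row.mk (nat_lit 16296) (nat_lit 32912) (nat_lit 20736) (nat_lit 61897) (nat_lit 573061375) (nat_lit 0) (nat_lit 0),Row.mk (nat_lit 16464) (nat_lit 32912) (nat_lit 25899) (nat_lit 61897) (nat_lit 573056212) (nat_lit 0) (nat_lit 0),Row.mk (nat_lit 16632) (nat_lit 32912) (nat_lit 32347) (nat_lit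 61897) (nat_lit 573049764) (nat_lit 0) (nat_lit 0),Row.mk (nat_lit 16800) (nat_lit 32912) (nat_lit 40401) (nat_lit 61897) (nat_lit 573041710) (nat_lit 0) (nat_lit 0),Row.mk (nat_lit 16968) (nat_lit 32912) (nat_lit 50459) (nat_lit 61897) (nat_lit 573031651) (nat_lit 0) (nat_lit 0),Row.mk (nat_lit 17136) (nat_lit 32912) (nat_lit 63023) (nat_lit 61897) (nat_lit 573019088) (nat_lit 0) (nat_lit 0),Row.mk (nat_lit 17304) (nat_lit 32912) (nat_lit 78714) (nat_lit 61897) (nat_lit 573003397) (nat_lit 0) (nat_lit 0),Row.mk (nat_lit 17472) (nat_lit 32912) (nat_lit 98312) (nat_lit 61897) (nat_lit 572983799) (nat_lit 0) (nat_lit 0),Row.mk (nat_lit 17640) (nat_lit 32912) (nat_lit 122789) (nat_lit 61897) (nat_lit 572959321) (nat_lit 0) (nat_lit 0),Row.mk (nat_lit 17808) (nat_lit 32912) (nat_lit 153361) (nat_lit 61897) (nat_lit 572928749) (nat_lit 0) (nat_lit 0),Row.mk (nat_lit 17976) (nat_lit 32912) (nat_lit 191545) (nat_lit 61897) (nat_lit 572890566)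 (nat_lit 0) (nat_lit 0),Row.mk (nat_lit 18144) (nat_lit 32912) (nat_lit 239235) (nat_lit 61897) (nat_lit 572842876) (nat_lit 0) (nat_lit 0),Row.mk (nat_lit 18312) (nat_lit 32912) (nat_lit 298799) (nat_lit 61897) (nat_lit 572783312) (nat_lit 0) (nat_lit 0),Row.mk (nat_lit 18480) (nat_lit 32912) (nat_lit 373192) (nat_lit 61897) (nat_lit 572708918) (nat_lit 0) (nat_lit 0),Row.mk (nat_lit 18648) (nat_lit 32912) (nat_lit 466108) (nat_lit 61897) (nat_lit 572616002) (nat_lit 0) (nat_lit 0),Row.mk (nat_lit 18816) (nat_lit 32912) (nat_lit 582158) (nat_lit 61897) (nat_lit 572499953) (nat_lit 0) (nat_lit 0),Row.mk (nat_lit 18984) (nat_lit 32912) (nat_lit 727102) (nat_lit 61897) (nat_lit 572355009) (nat_lit 0) (nat_lit 0),Row.mk (nat_lit 19152) (nat_lit 0) (nat_lit 4555606) (nat_lit 748) (nat_lit 569434638) (nat_lit 0) (nat_lit 0),Row.mk (nat_lit 19320) (nat_lit 561) (nat_lit 5689842) (nat_lit 1309) (nat_lit 568526505) (nat_lit 0) (nat_lit 0),Row.mk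 (nat_lit 19488) (nat_lit 1122) (nat_lit 7106475) (nat_lit 1870) (nat_lit 567392269) (nat_lit 0) (nat_lit 0),Row.mk (nat_lit 19656) (nat_lit 1683) (nat_lit 8875816) (nat_lit 2431) (nat_lit 565975635) (nat_lit 0) (nat_lit 0),Row.mk (nat_lit 19824) (nat_lit 2244) (nat_lit 11085681) (nat_lit 2992) (nat_lit 564206294) (nat_lit 0) (nat_lit 0),Row.mk (nat_lit 19992) (nat_lit 2805) (nat_lit 13845748) (nat_lit 3553) (nat_lit 561996430) (nat_lit 0) (nat_lit 0),Row.mk (nat_lit 20160) (nat_lit 3366) (nat_lit 17293005) (nat_lit 4114) (nat_lit 559236363) (nat_lit 0) (nat_lit 0),Row.mk (nat_lit 20328) (nat_lit 3927) (nat_lit 21598546) (nat_lit 4675) (nat_lit 555789106) (nat_lit 0) (nat_lit 0),Row.mk (nat_lit 20496) (nat_lit 4488) (nat_lit 26976063) (nat_lit 5236) (nat_lit 551483564) (nat_lit 0) (nat_lit 0),Row.mk (nat_lit 20664) (nat_lit 5049) (nat_lit 33692452) (nat_lit 5797) (nat_lit 546106047) (nat_lit 0) (nat_lit 0),Row.mk (nat_lit 20832) (nat_lit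 5610) (nat_lit 42081060) (nat_lit 6358) (nat_lit 539389658) (nat_lit 0) (nat_lit 0),Row.mk (nat_lit 21000) (nat_lit 6171) (nat_lit 52558229) (nat_lit 6919) (nat_lit 531001050) (nat_lit 0) (nat_lit 0),Row.mk (nat_lit 21168) (nat_lit 6732) (nat_lit 65643961) (nat_lit 7480) (nat_lit 520523881) (nat_lit 0) (nat_lit 0),Row.mk (nat_lit 21336) (nat_lit 7293) (nat_lit 81987724) (nat_lit 8041) (nat_lit 507438150) (nat_lit 0) (nat_lit 0),Row.mk (nat_lit 21504) (nat_lit 7854) (nat_lit 102400689) (nat_lit 8602) (nat_lit 491094387) (nat_lit 0) (nat_lit 0),Row.mk (nat_lit 21672) (nat_lit 8415) (nat_lit 127895991) (nat_lit 9163) (nat_lit 470681421) (nat_lit 0) (nat_lit 0),Row.mk (nat_lit 21840) (nat_lit 8976) (nat_lit 159739007) (nat_lit 9724) (nat_lit 445186120) (nat_lit 0) (nat_lit 0),Row.mk (nat_lit 22008) (nat_lit 9537) (nat_lit 199510166) (nat_lit 10285) (nat_lit 413343104) (nat_lit 0) (nat_lit 0),Row.mk (nat_lit 22176) (nat_lit 10098) (nat_lit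 249183385) (nat_lit 10846) (nat_lit 373571944) (nat_lit 0) (nat_lit 0),Row.mk (nat_lit 22344) (nat_lit 10659) (nat_lit 311224037) (nat_lit 11407) (nat_lit 323898726) (nat_lit 0) (nat_lit 0),Row.mk (nat_lit 22512) (nat_lit 11220) (nat_lit 388711314) (nat_lit 11968) (nat_lit 261858074) (nat_lit 0) (nat_lit 0),Row.mk (nat_lit 22680) (nat_lit 11781) (nat_lit 485491054) (nat_lit 12716) (nat_lit 184370797) (nat_lit 0) (nat_lit 0),Row.mk (nat_lit 22848) (nat_lit 12529) (nat_lit 606366615) (nat_lit 13464) (nat_lit 87591057) (nat_lit 0) (nat_lit 0),Row.mk (nat_lit 23016) (nat_lit 12342) (nat_lit 41571542) (nat_lit 13277) (nat_lit 682481228) (nat_lit 0) (nat_lit 0),Row.mk (nat_lit 23184) (nat_lit 13090) (nat_lit 230130253) (nat_lit 14025) (nat_lit 531510569) (nat_lit 0) (nat_lit 0),Row.mk (nat_lit 23352) (nat_lit 13838) (nat_lit 465635535) (nat_lit 15147) (nat_lit 342951857) (nat_lit 0) (nat_lit 0),Row.mk (nat_lit 23520) (nat_lit 14960) (nat_lit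 759775951) (nat_lit 16456) (nat_lit 107446575) (nat_lit 0) (nat_lit 0),Row.mk (nat_lit 23688) (nat_lit 14773) (nat_lit 233176102) (nat_lit 16269) (nat_lit 707280292) (nat_lit 0) (nat_lit 0),Row.mk (nat_lit 23856) (nat_lit 16082) (nat_lit 692017720) (nat_lit 17765) (nat_lit 339906009) (nat_lit 0) (nat_lit 0),Row.mk (nat_lit 24024) (nat_lit 15895) (nat_lit 148547705) (nat_lit 17578) (nat_lit 997616517) (nat_lit 0) (nat_lit 0),Row.mk (nat_lit 24192) (nat_lit 17391) (nat_lit 864313438) (nat_lit 19635) (nat_lit 424534405) (nat_lit 0) (nat_lit 0),Row.mk (nat_lit 24360) (nat_lit 17204) (nat_lit 363740901) (nat_lit 19448) (nat_lit 1103315343) (nat_lit 0) (nat_lit 0),Row.mk (nat_lit 24528) (nat_lit 19261) (nat_lit 1480293027) (nat_lit 25806) (nat_lit 209341210) (nat_lit 0) (nat_lit 0),Row.mk (nat_lit 24696) (nat_lit 19074) (nat_lit 1133084548) (nat_lit 25619) (nat_lit 834544233) (nat_lit 0) (nat_lit 0),Row.mk (nat_lit 24864) (nat_lit 18887)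 (nat_lit 699429533) (nat_lit 25432) (nat_lit 1615407726) (nat_lit 0) (nat_lit 0),Row.mk (nat_lit 25032) (nat_lit 18700) (nat_lit 157804882) (nat_lit 25245) (nat_lit 2590687392) (nat_lit 0) (nat_lit 0),Row.mk (nat_lit 25200) (nat_lit 25058) (nat_lit 2874839696) (nat_lit 31603) (nat_lit 415277229) (nat_lit 0) (nat_lit 0),Row.mk (nat_lit 25368) (nat_lit 24871) (nat_lit 2874839696) (nat_lit 31416) (nat_lit 1091753352) (nat_lit 0) (nat_lit 0),Row.mk (nat_lit 25536) (nat_lit 24684) (nat_lit 2874839696) (nat_lit 31229) (nat_lit 1936655711) (nat_lit 0) (nat_lit 0),Row.mk (nat_lit 25704) (nat_lit 24497) (nat_lit 2874839696) (nat_lit 31042) (nat_lit 2991918376) (nat_lit 0) (nat_lit 0),Row.mk (nat_lit 25872) (nat_lit 24310) (nat_lit 2874839696) (nat_lit 30855) (nat_lit 4309915986) (nat_lit 0) (nat_lit 0),Row.mk (nat_lit 26040) (nat_lit 24123) (nat_lit 2874839696) (nat_lit 30668) (nat_lit 5956063207) (nat_lit 0) (nat_lit 0),Row.mk (nat_lit 26208)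 (nat_lit 23936) (nat_lit 2874839696) (nat_lit 30481) (nat_lit 8012061375) (nat_lit 0) (nat_lit 0),Row.mk (nat_lit 26376) (nat_lit 23749) (nat_lit 2874839696) (nat_lit 30294) (nat_lit 10579953487) (nat_lit 0) (nat_lit 0),Row.mk (nat_lit 26544) (nat_lit 23562) (nat_lit 2874839696) (nat_lit 30107) (nat_lit 13787188789) (nat_lit 0) (nat_lit 0),Row.mk (nat_lit 26712) (nat_lit 23375) (nat_lit 2874839696) (nat_lit 29920) (nat_lit 17792948309) (nat_lit 0) (nat_lit 0),Row.mk (nat_lit 26880) (nat_lit 23188) (nat_lit 2874839696) (nat_lit 29733) (nat_lit 22796045316) (nat_lit 0) (nat_lit 0),Row.mk (nat_lit 27048) (nat_lit 23001) (nat_lit 2874839696) (nat_lit 29546) (nat_lit 29044792785) (nat_lit 0) (nat_lit 0),Row.mk (nat_lit 27216) (nat_lit 22814) (nat_lit 2874839696) (nat_lit 29359) (nat_lit 36849327629) (nat_lit 0) (nat_lit 0),Row.mk (nat_lit 27384) (nat_lit 22627) (nat_lit 2874839696) (nat_lit 29172) (nat_lit 46597003374) (nat_lit 0) (nat_lit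 0),Row.mk (nat_lit 27552) (nat_lit 22440) (nat_lit 2874839696) (nat_lit 28985) (nat_lit 58771615229) (nat_lit 0) (nat_lit 0),Row.mk (nat_lit 27720) (nat_lit 22253) (nat_lit 2874839696) (nat_lit 28798) (nat_lit 73977411738) (nat_lit 0) (nat_lit 0),Row.mk (nat_lit 27888) (nat_lit 22066) (nat_lit 2874839696) (nat_lit 28611) (nat_lit 92969084755) (nat_lit 0) (nat_lit 0),Row.mk (nat_lit 28056) (nat_lit 21879) (nat_lit 2874839696) (nat_lit 28424) (nat_lit 116689226203) (nat_lit 0) (nat_lit 0),Row.mk (nat_lit 28224) (nat_lit 21692) (nat_lit 2874839696) (nat_lit 28237) (nat_lit 146315110651) (nat_lit 0) (nat_lit 0),Row.mk (nat_lit 28392) (nat_lit 21505) (nat_lit 2874839696) (nat_lit 28050) (nat_lit 183317125638) (nat_lit 0) (nat_lit 0),Row.mk (nat_lit 28560) (nat_lit 21318) (nat_lit 2874839696) (nat_lit 27863) (nat_lit 229531749727) (nat_lit 0) (nat_lit 0),Row.mk (nat_lit 28728) (nat_lit 21131) (nat_lit 2874839696) (nat_lit 27676) (nat_lit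 287252700342) (nat_lit 0) (nat_lit 0),Row.mk (nat_lit 28896) (nat_lit 20944) (nat_lit 2874839696) (nat_lit 27489) (nat_lit 359344775210) (nat_lit 0) (nat_lit 0),Row.mk (nat_lit 29064) (nat_lit 32912) (nat_lit 573082111) (nat_lit 62084) (nat_lit 451114713060) (nat_lit 0) (nat_lit 0),Row.mk (nat_lit 29232) (nat_lit 32912) (nat_lit 573082111) (nat_lit 62084) (nat_lit 563574077629) (nat_lit 0) (nat_lit 0)],
[Row.mk (nat_lit 14112) (nat_lit 32912) (nat_lit 1152) (nat_lit 61897) (nat_lit 715764580) (nat_lit 0) (nat_lit 0),Row.mk (nat_lit 14280) (nat_lit 32912) (nat_lit 1439) (nat_lit 61897) (nat_lit 715764293) (nat_lit 0) (nat_lit 0),Row.mk (nat_lit 14448) (nat_lit 32912) (nat_lit 1797) (nat_lit 61897) (nat_lit 715763935) (nat_lit 0) (nat_lit 0),Row.mk (nat_lit 14616) (nat_lit 32912) (nat_lit 2244) (nat_lit 61897) (nat_lit 715763487) (nat_lit 0) (nat_lit 0),Row.mk (nat_lit 14784) (nat_lit 32912) (nat_lit 2803) (nat_lit 61897) (nat_lit 715762928)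 (nat_lit 0) (nat_lit 0),Row.mk (nat_lit 14952) (nat_lit 32912) (nat_lit 3501) (nat_lit 61897) (nat_lit 715762230) (nat_lit 0) (nat_lit 0),Row.mk (nat_lit 15120) (nat_lit 32912) (nat_lit 4373) (nat_lit 61897) (nat_lit 715761358) (nat_lit 0) (nat_lit 0),Row.mk (nat_lit 15288) (nat_lit 32912) (nat_lit 5462) (nat_lit 61897) (nat_lit 715760269) (nat_lit 0) (nat_lit 0),Row.mk (nat_lit 15456) (nat_lit 32912) (nat_lit 6822) (nat_lit 61897) (nat_lit 715758909) (nat_lit 0) (nat_lit 0),Row.mk (nat_lit 15624) (nat_lit 32912) (nat_lit 8521) (nat_lit 61897) (nat_lit 715757211) (nat_lit 0) (nat_lit 0),Row.mk (nat_lit 15792) (nat_lit 32912) (nat_lit 10643) (nat_lit 61897) (nat_lit 715755089) (nat_lit 0) (nat_lit 0),Row.mk (nat_lit 15960) (nat_lit 32912) (nat_lit 13292) (nat_lit 61897) (nat_lit 715752439) (nat_lit 0) (nat_lit 0),Row.mk (nat_lit 16128) (nat_lit 32912) (nat_lit 16602) (nat_lit 61897) (nat_lit 715749129) (nat_lit 0) (nat_lit 0),Row.mk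 (nat_lit 16296) (nat_lit 32912) (nat_lit 20736) (nat_lit 61897) (nat_lit 715744996) (nat_lit 0) (nat_lit 0),Row.mk (nat_lit 16464) (nat_lit 32912) (nat_lit 25899) (nat_lit 61897) (nat_lit 715739833) (nat_lit 0) (nat_lit 0),Row.mk (nat_lit 16632) (nat_lit 32912) (nat_lit 32347) (nat_lit 61897) (nat_lit 715733385) (nat_lit 0) (nat_lit 0),Row.mk (nat_lit 16800) (nat_lit 32912) (nat_lit 40401) (nat_lit 61897) (nat_lit 715725331) (nat_lit 0) (nat_lit 0),Row.mk (nat_lit 16968) (nat_lit 32912) (nat_lit 50459) (nat_lit 61897) (nat_lit 715715272) (nat_lit 0) (nat_lit 0),Row.mk (nat_lit 17136) (nat_lit 32912) (nat_lit 63023) (nat_lit 61897) (nat_lit 715702709) (nat_lit 0) (nat_lit 0),Row.mk (nat_lit 17304) (nat_lit 32912) (nat_lit 78714) (nat_lit 61897) (nat_lit 715687017) (nat_lit 0) (nat_lit 0),Row.mk (nat_lit 17472) (nat_lit 32912) (nat_lit 98312) (nat_lit 61897) (nat_lit 715667419) (nat_lit 0) (nat_lit 0),Row.mk (nat_lit 17640) (nat_lit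 32912) (nat_lit 122789) (nat_lit 61897) (nat_lit 715642942) (nat_lit 0) (nat_lit 0),Row.mk (nat_lit 17808) (nat_lit 32912) (nat_lit 153361) (nat_lit 61897) (nat_lit 715612370) (nat_lit 0) (nat_lit 0),Row.mk (nat_lit 17976) (nat_lit 32912) (nat_lit 191545) (nat_lit 61897) (nat_lit 715574187) (nat_lit 0) (nat_lit 0),Row.mk (nat_lit 18144) (nat_lit 32912) (nat_lit 239235) (nat_lit 61897) (nat_lit 715526497) (nat_lit 0) (nat_lit 0),Row.mk (nat_lit 18312) (nat_lit 32912) (nat_lit 298799) (nat_lit 61897) (nat_lit 715466933) (nat_lit 0) (nat_lit 0),Row.mk (nat_lit 18480) (nat_lit 32912) (nat_lit 373192) (nat_lit 61897) (nat_lit 715392539) (nat_lit 0) (nat_lit 0),Row.mk (nat_lit 18648) (nat_lit 32912) (nat_lit 466108) (nat_lit 61897) (nat_lit 715299623) (nat_lit 0) (nat_lit 0),Row.mk (nat_lit 18816) (nat_lit 32912) (nat_lit 582158) (nat_lit 61897) (nat_lit 715183573) (nat_lit 0) (nat_lit 0),Row.mk (nat_lit 18984) (nat_lit 32912) (nat_lit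 727102) (nat_lit 61897) (nat_lit 715038630) (nat_lit 0) (nat_lit 0),Row.mk (nat_lit 19152) (nat_lit 32912) (nat_lit 908132) (nat_lit 61897) (nat_lit 714857599) (nat_lit 0) (nat_lit 0),Row.mk (nat_lit 19320) (nat_lit 0) (nat_lit 5689842) (nat_lit 748) (nat_lit 711210126) (nat_lit 0) (nat_lit 0),Row.mk (nat_lit 19488) (nat_lit 561) (nat_lit 7106475) (nat_lit 1309) (nat_lit 710075890) (nat_lit 0) (nat_lit 0),Row.mk (nat_lit 19656) (nat_lit 1122) (nat_lit 8875816) (nat_lit 1870) (nat_lit 708659256) (nat_lit 0) (nat_lit 0),Row.mk (nat_lit 19824) (nat_lit 1683) (nat_lit 11085681) (nat_lit 2431) (nat_lit 706889915) (nat_lit 0) (nat_lit 0),Row.mk (nat_lit 19992) (nat_lit 2244) (nat_lit 13845748) (nat_lit 2992) (nat_lit 704680051) (nat_lit 0) (nat_lit 0),Row.mk (nat_lit 20160) (nat_lit 2805) (nat_lit 17293005) (nat_lit 3553) (nat_lit 701919984) (nat_lit 0) (nat_lit 0),Row.mk (nat_lit 20328) (nat_lit 3366) (nat_lit 21598546) (nat_lit 4114)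 (nat_lit 698472726) (nat_lit 0) (nat_lit 0),Row.mk (nat_lit 20496) (nat_lit 3927) (nat_lit 26976063) (nat_lit 4675) (nat_lit 694167185) (nat_lit 0) (nat_lit 0),Row.mk (nat_lit 20664) (nat_lit 4488) (nat_lit 33692452) (nat_lit 5236) (nat_lit 688789668) (nat_lit 0) (nat_lit 0),Row.mk (nat_lit 20832) (nat_lit 5049) (nat_lit 42081060) (nat_lit 5797) (nat_lit 682073279) (nat_lit 0) (nat_lit 0),Row.mk (nat_lit 21000) (nat_lit 5610) (nat_lit 52558229) (nat_lit 6358) (nat_lit 673684671) (nat_lit 0) (nat_lit 0),Row.mk (nat_lit 21168) (nat_lit 6171) (nat_lit 65643961) (nat_lit 6919) (nat_lit 663207502) (nat_lit 0) (nat_lit 0),Row.mk (nat_lit 21336) (nat_lit 6732) (nat_lit 81987724) (nat_lit 7480) (nat_lit 650121771) (nat_lit 0) (nat_lit 0),Row.mk (nat_lit 21504) (nat_lit 7293) (nat_lit 102400689) (nat_lit 8041) (nat_lit 633778008) (nat_lit 0) (nat_lit 0),Row.mk (nat_lit 21672) (nat_lit 7854) (nat_lit 127895991) (nat_lit 8602) (nat_lit 613365042)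 (nat_lit 0) (nat_lit 0),Row.mk (nat_lit 21840) (nat_lit 8415) (nat_lit 159739007) (nat_lit 9163) (nat_lit 587869741) (nat_lit 0) (nat_lit 0),Row.mk (nat_lit 22008) (nat_lit 8976) (nat_lit 199510166) (nat_lit 9724) (nat_lit 556026724) (nat_lit 0) (nat_lit 0),Row.mk (nat_lit 22176) (nat_lit 9537) (nat_lit 249183385) (nat_lit 10285) (nat_lit 516255565) (nat_lit 0) (nat_lit 0),Row.mk (nat_lit 22344) (nat_lit 10098) (nat_lit 311224037) (nat_lit 10846) (nat_lit 466582347) (nat_lit 0) (nat_lit 0),Row.mk (nat_lit 22512) (nat_lit 10659) (nat_lit 388711314) (nat_lit 11407) (nat_lit 404541695) (nat_lit 0) (nat_lit 0),Row.mk (nat_lit 22680) (nat_lit 11220) (nat_lit 485491054) (nat_lit 11968) (nat_lit 327054417) (nat_lit 0) (nat_lit 0),Row.mk (nat_lit 22848) (nat_lit 11781) (nat_lit 606366615) (nat_lit 12716) (nat_lit 230274677) (nat_lit 0) (nat_lit 0),Row.mk (nat_lit 23016) (nat_lit 12529) (nat_lit 757337274) (nat_lit 13464) (nat_lit 109399117)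 (nat_lit 0) (nat_lit 0),Row.mk (nat_lit 23184) (nat_lit 12342) (nat_lit 51921853) (nat_lit 13277) (nat_lit 852402590) (nat_lit 0) (nat_lit 0),Row.mk (nat_lit 23352) (nat_lit 13090) (nat_lit 287427135) (nat_lit 14025) (nat_lit 663843879) (nat_lit 0) (nat_lit 0),Row.mk (nat_lit 23520) (nat_lit 13838) (nat_lit 581567551) (nat_lit 15147) (nat_lit 428338597) (nat_lit 0) (nat_lit 0),Row.mk (nat_lit 23688) (nat_lit 14960) (nat_lit 948941834) (nat_lit 16456) (nat_lit 134198181) (nat_lit 0) (nat_lit 0),Row.mk (nat_lit 23856) (nat_lit 14773) (nat_lit 291231326) (nat_lit 16269) (nat_lit 883376023) (nat_lit 0) (nat_lit 0),Row.mk (nat_lit 24024) (nat_lit 16082) (nat_lit 864313438) (nat_lit 17765) (nat_lit 424534405) (nat_lit 0) (nat_lit 0),Row.mk (nat_lit 24192) (nat_lit 15895) (nat_lit 185532500) (nat_lit 17578) (nat_lit 1245998964) (nat_lit 0) (nat_lit 0),Row.mk (nat_lit 24360) (nat_lit 17391) (nat_lit 1079506633) (nat_lit 19635) (nat_lit 530233231)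 (nat_lit 0) (nat_lit 0),Row.mk (nat_lit 24528) (nat_lit 17204) (nat_lit 454303610) (nat_lit 19448) (nat_lit 1378014247) (nat_lit 0) (nat_lit 0),Row.mk (nat_lit 24696) (nat_lit 19261) (nat_lit 1848850280) (nat_lit 25806) (nat_lit 261462121) (nat_lit 0) (nat_lit 0),Row.mk (nat_lit 24864) (nat_lit 19074) (nat_lit 1415195266) (nat_lit 25619) (nat_lit 1042325614) (nat_lit 0) (nat_lit 0),Row.mk (nat_lit 25032) (nat_lit 18887) (nat_lit 873570614) (nat_lit 25432) (nat_lit 2017605280) (nat_lit 0) (nat_lit 0),Row.mk (nat_lit 25200) (nat_lit 18700) (nat_lit 197094491) (nat_lit 25245) (nat_lit 3235706055) (nat_lit 0) (nat_lit 0),Row.mk (nat_lit 25368) (nat_lit 25058) (nat_lit 3590605429) (nat_lit 31603) (nat_lit 518671241) (nat_lit 0) (nat_lit 0),Row.mk (nat_lit 25536) (nat_lit 24871) (nat_lit 3590605429) (nat_lit 31416) (nat_lit 1363573600) (nat_lit 0) (nat_lit 0),Row.mk (nat_lit 25704) (nat_lit 24684) (nat_lit 3590605429) (nat_lit 31229) (nat_lit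 2418836264) (nat_lit 0) (nat_lit 0),Row.mk (nat_lit 25872) (nat_lit 24497) (nat_lit 3590605429) (nat_lit 31042) (nat_lit 3736833875) (nat_lit 0) (nat_lit 0),Row.mk (nat_lit 26040) (nat_lit 24310) (nat_lit 3590605429) (nat_lit 30855) (nat_lit 5382981096) (nat_lit 0) (nat_lit 0),Row.mk (nat_lit 26208) (nat_lit 24123) (nat_lit 3590605429) (nat_lit 30668) (nat_lit 7438979263) (nat_lit 0) (nat_lit 0),Row.mk (nat_lit 26376) (nat_lit 23936) (nat_lit 3590605429) (nat_lit 30481) (nat_lit 10006871376) (nat_lit 0) (nat_lit 0),Row.mk (nat_lit 26544) (nat_lit 23749) (nat_lit 3590605429) (nat_lit 30294) (nat_lit 13214106677) (nat_lit 0) (nat_lit 0),Row.mk (nat_lit 26712) (nat_lit 23562) (nat_lit 3590605429) (nat_lit 30107) (nat_lit 17219866198) (nat_lit 0) (nat_lit 0),Row.mk (nat_lit 26880) (nat_lit 23375) (nat_lit 3590605429) (nat_lit 29920) (nat_lit 22222963205) (nat_lit 0) (nat_lit 0),Row.mk (nat_lit 27048) (nat_lit 23188) (nat_lit 3590605429)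 (nat_lit 29733) (nat_lit 28471710673) (nat_lit 0) (nat_lit 0),Row.mk (nat_lit 27216) (nat_lit 23001) (nat_lit 3590605429) (nat_lit 29546) (nat_lit 36276245517) (nat_lit 0) (nat_lit 0),Row.mk (nat_lit 27384) (nat_lit 22814) (nat_lit 3590605429) (nat_lit 29359) (nat_lit 46023921262) (nat_lit 0) (nat_lit 0),Row.mk (nat_lit 27552) (nat_lit 22627) (nat_lit 3590605429) (nat_lit 29172) (nat_lit 58198533117) (nat_lit 0) (nat_lit 0),Row.mk (nat_lit 27720) (nat_lit 22440) (nat_lit 3590605429) (nat_lit 28985) (nat_lit 73404329626) (nat_lit 0) (nat_lit 0),Row.mk (nat_lit 27888) (nat_lit 22253) (nat_lit 3590605429) (nat_lit 28798) (nat_lit 92396002644) (nat_lit 0) (nat_lit 0),Row.mk (nat_lit 28056) (nat_lit 22066) (nat_lit 3590605429) (nat_lit 28611) (nat_lit 116116144092) (nat_lit 0) (nat_lit 0),Row.mk (nat_lit 28224) (nat_lit 21879) (nat_lit 3590605429) (nat_lit 28424) (nat_lit 145742028540) (nat_lit 0) (nat_lit 0),Row.mk (nat_lit 28392) (nat_lit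 21692) (nat_lit 3590605429) (nat_lit 28237) (nat_lit 182744043526) (nat_lit 0) (nat_lit 0),Row.mk (nat_lit 28560) (nat_lit 21505) (nat_lit 3590605429) (nat_lit 28050) (nat_lit 228958667615) (nat_lit 0) (nat_lit 0),Row.mk (nat_lit 28728) (nat_lit 21318) (nat_lit 3590605429) (nat_lit 27863) (nat_lit 286679618230) (nat_lit 0) (nat_lit 0),Row.mk (nat_lit 28896) (nat_lit 21131) (nat_lit 3590605429) (nat_lit 27676) (nat_lit 358771693099) (nat_lit 0) (nat_lit 0),Row.mk (nat_lit 29064) (nat_lit 20944) (nat_lit 3590605429) (nat_lit 27489) (nat_lit 448812955474) (nat_lit 0) (nat_lit 0),Row.mk (nat_lit 29232) (nat_lit 32912) (nat_lit 715765732) (nat_lit 62084) (nat_lit 563431394008) (nat_lit 0) (nat_lit 0),Row.mk (nat_lit 29400) (nat_lit 32912) (nat_lit 715765732) (nat_lit 62084) (nat_lit 703890427407) (nat_lit 0) (nat_lit 0)],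
[Row.mk (nat_lit 14280) (nat_lit 32912) (nat_lit 1439) (nat_lit 61897) (nat_lit 893972693) (nat_lit 0) (nat_lit 0),Row.mk (nat_lit 14448) (nat_lit 32912) (nat_lit 1797) (nat_lit 61897) (nat_lit 893972335) (nat_lit 0) (nat_lit 0),Row.mk (nat_lit 14616) (nat_lit 32912) (nat_lit 2244) (nat_lit 61897) (nat_lit 893971888) (nat_lit 0) (nat_lit 0),Row.mk (nat_lit 14784) (nat_lit 32912) (nat_lit 2803) (nat_lit 61897) (nat_lit 893971329) (nat_lit 0) (nat_lit 0),Row.mk (nat_lit 14952) (nat_lit 32912) (nat_lit 3501) (nat_lit 61897) (nat_lit 893970631) (nat_lit 0) (nat_lit 0),Row.mk (nat_lit 15120) (nat_lit 32912) (nat_lit 4373) (nat_lit 61897) (nat_lit 893969759) (nat_lit 0) (nat_lit 0),Row.mk (nat_lit 15288) (nat_lit 32912) (nat_lit 5462) (nat_lit 61897) (nat_lit 893968670) (nat_lit 0) (nat_lit 0),Row.mk (nat_lit 15456) (nat_lit 32912) (nat_lit 6822) (nat_lit 61897) (nat_lit 893967310) (nat_lit 0) (nat_lit 0),Row.mk (nat_lit 15624) (nat_lit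 32912) (nat_lit 8521) (nat_lit 61897) (nat_lit 893965611) (nat_lit 0) (nat_lit 0),Row.mk (nat_lit 15792) (nat_lit 32912) (nat_lit 10643) (nat_lit 61897) (nat_lit 893963489) (nat_lit 0) (nat_lit 0),Row.mk (nat_lit 15960) (nat_lit 32912) (nat_lit 13292) (nat_lit 61897) (nat_lit 893960839) (nat_lit 0) (nat_lit 0),Row.mk (nat_lit 16128) (nat_lit 32912) (nat_lit 16602) (nat_lit 61897) (nat_lit 893957530) (nat_lit 0) (nat_lit 0),Row.mk (nat_lit 16296) (nat_lit 32912) (nat_lit 20736) (nat_lit 61897) (nat_lit 893953396) (nat_lit 0) (nat_lit 0),Row.mk (nat_lit 16464) (nat_lit 32912) (nat_lit 25899) (nat_lit 61897) (nat_lit 893948233) (nat_lit 0) (nat_lit 0),Row.mk (nat_lit 16632) (nat_lit 32912) (nat_lit 32347) (nat_lit 61897) (nat_lit 893941785) (nat_lit 0) (nat_lit 0),Row.mk (nat_lit 16800) (nat_lit 32912) (nat_lit 40401) (nat_lit 61897) (nat_lit 893933731) (nat_lit 0) (nat_lit 0),Row.mk (nat_lit 16968) (nat_lit 32912) (nat_lit 50459) (nat_lit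 61897) (nat_lit 893923672) (nat_lit 0) (nat_lit 0),Row.mk (nat_lit 17136) (nat_lit 32912) (nat_lit 63023) (nat_lit 61897) (nat_lit 893911109) (nat_lit 0) (nat_lit 0),Row.mk (nat_lit 17304) (nat_lit 32912) (nat_lit 78714) (nat_lit 61897) (nat_lit 893895418) (nat_lit 0) (nat_lit 0),Row.mk (nat_lit 17472) (nat_lit 32912) (nat_lit 98312) (nat_lit 61897) (nat_lit 893875820) (nat_lit 0) (nat_lit 0),Row.mk (nat_lit 17640) (nat_lit 32912) (nat_lit 122789) (nat_lit 61897) (nat_lit 893851342) (nat_lit 0) (nat_lit 0),Row.mk (nat_lit 17808) (nat_lit 32912) (nat_lit 153361) (nat_lit 61897) (nat_lit 893820771) (nat_lit 0) (nat_lit 0),Row.mk (nat_lit 17976) (nat_lit 32912) (nat_lit 191545) (nat_lit 61897) (nat_lit 893782587) (nat_lit 0) (nat_lit 0),Row.mk (nat_lit 18144) (nat_lit 32912) (nat_lit 239235) (nat_lit 61897) (nat_lit 893734897) (nat_lit 0) (nat_lit 0),Row.mk (nat_lit 18312) (nat_lit 32912) (nat_lit 298799) (nat_lit 61897) (nat_lit 893675333)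 (nat_lit 0) (nat_lit 0),Row.mk (nat_lit 18480) (nat_lit 32912) (nat_lit 373192) (nat_lit 61897) (nat_lit 893600940) (nat_lit 0) (nat_lit 0),Row.mk (nat_lit 18648) (nat_lit 32912) (nat_lit 466108) (nat_lit 61897) (nat_lit 893508024) (nat_lit 0) (nat_lit 0),Row.mk (nat_lit 18816) (nat_lit 32912) (nat_lit 582158) (nat_lit 61897) (nat_lit 893391974) (nat_lit 0) (nat_lit 0),Row.mk (nat_lit 18984) (nat_lit 32912) (nat_lit 727102) (nat_lit 61897) (nat_lit 893247030) (nat_lit 0) (nat_lit 0),Row.mk (nat_lit 19152) (nat_lit 32912) (nat_lit 908132) (nat_lit 61897) (nat_lit 893065999) (nat_lit 0) (nat_lit 0),Row.mk (nat_lit 19320) (nat_lit 32912) (nat_lit 1134236) (nat_lit 61897) (nat_lit 892839896) (nat_lit 0) (nat_lit 0),Row.mk (nat_lit 19488) (nat_lit 0) (nat_lit 7106475) (nat_lit 748) (nat_lit 888284290) (nat_lit 0) (nat_lit 0),Row.mk (nat_lit 19656) (nat_lit 561) (nat_lit 8875816) (nat_lit 1309) (nat_lit 886867657) (nat_lit 0) (nat_lit 0),Row.mk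 (nat_lit 19824) (nat_lit 1122) (nat_lit 11085681) (nat_lit 1870) (nat_lit 885098316) (nat_lit 0) (nat_lit 0),Row.mk (nat_lit 19992) (nat_lit 1683) (nat_lit 13845748) (nat_lit 2431) (nat_lit 882888451) (nat_lit 0) (nat_lit 0),Row.mk (nat_lit 20160) (nat_lit 2244) (nat_lit 17293005) (nat_lit 2992) (nat_lit 880128384) (nat_lit 0) (nat_lit 0),Row.mk (nat_lit 20328) (nat_lit 2805) (nat_lit 21598546) (nat_lit 3553) (nat_lit 876681127) (nat_lit 0) (nat_lit 0),Row.mk (nat_lit 20496) (nat_lit 3366) (nat_lit 26976063) (nat_lit 4114) (nat_lit 872375586) (nat_lit 0) (nat_lit 0),Row.mk (nat_lit 20664) (nat_lit 3927) (nat_lit 33692452) (nat_lit 4675) (nat_lit 866998069) (nat_lit 0) (nat_lit 0),Row.mk (nat_lit 20832) (nat_lit 4488) (nat_lit 42081060) (nat_lit 5236) (nat_lit 860281679) (nat_lit 0) (nat_lit 0),Row.mk (nat_lit 21000) (nat_lit 5049) (nat_lit 52558229) (nat_lit 5797) (nat_lit 851893071) (nat_lit 0) (nat_lit 0),Row.mk (nat_lit 21168)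 (nat_lit 5610) (nat_lit 65643961) (nat_lit 6358) (nat_lit 841415902) (nat_lit 0) (nat_lit 0),Row.mk (nat_lit 21336) (nat_lit 6171) (nat_lit 81987724) (nat_lit 6919) (nat_lit 828330171) (nat_lit 0) (nat_lit 0),Row.mk (nat_lit 21504) (nat_lit 6732) (nat_lit 102400689) (nat_lit 7480) (nat_lit 811986408) (nat_lit 0) (nat_lit 0),Row.mk (nat_lit 21672) (nat_lit 7293) (nat_lit 127895991) (nat_lit 8041) (nat_lit 791573443) (nat_lit 0) (nat_lit 0),Row.mk (nat_lit 21840) (nat_lit 7854) (nat_lit 159739007) (nat_lit 8602) (nat_lit 766078141) (nat_lit 0) (nat_lit 0),Row.mk (nat_lit 22008) (nat_lit 8415) (nat_lit 199510166) (nat_lit 9163) (nat_lit 734235125) (nat_lit 0) (nat_lit 0),Row.mk (nat_lit 22176) (nat_lit 8976) (nat_lit 249183385) (nat_lit 9724) (nat_lit 694463966) (nat_lit 0) (nat_lit 0),Row.mk (nat_lit 22344) (nat_lit 9537) (nat_lit 311224037) (nat_lit 10285) (nat_lit 644790747) (nat_lit 0) (nat_lit 0),Row.mk (nat_lit 22512) (nat_lit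 10098) (nat_lit 388711314) (nat_lit 10846) (nat_lit 582750095) (nat_lit 0) (nat_lit 0),Row.mk (nat_lit 22680) (nat_lit 10659) (nat_lit 485491054) (nat_lit 11407) (nat_lit 505262818) (nat_lit 0) (nat_lit 0),Row.mk (nat_lit 22848) (nat_lit 11220) (nat_lit 606366615) (nat_lit 11968) (nat_lit 408483078) (nat_lit 0) (nat_lit 0),Row.mk (nat_lit 23016) (nat_lit 11781) (nat_lit 757337274) (nat_lit 12716) (nat_lit 287607517) (nat_lit 0) (nat_lit 0),Row.mk (nat_lit 23184) (nat_lit 12529) (nat_lit 945895986) (nat_lit 13464) (nat_lit 136636858) (nat_lit 0) (nat_lit 0),Row.mk (nat_lit 23352) (nat_lit 12342) (nat_lit 64849142) (nat_lit 13277) (nat_lit 1064630272) (nat_lit 0) (nat_lit 0),Row.mk (nat_lit 23520) (nat_lit 13090) (nat_lit 358989558) (nat_lit 14025) (nat_lit 829124990) (nat_lit 0) (nat_lit 0),Row.mk (nat_lit 23688) (nat_lit 13838) (nat_lit 726363841) (nat_lit 15147) (nat_lit 534984574) (nat_lit 0) (nat_lit 0),Row.mk (nat_lit 23856) (nat_lit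 14960) (nat_lit 1185205459) (nat_lit 16456) (nat_lit 167610291) (nat_lit 0) (nat_lit 0),Row.mk (nat_lit 24024) (nat_lit 14773) (nat_lit 363740901) (nat_lit 16269) (nat_lit 1103315343) (nat_lit 0) (nat_lit 0),Row.mk (nat_lit 24192) (nat_lit 16082) (nat_lit 1079506633) (nat_lit 17765) (nat_lit 530233231) (nat_lit 0) (nat_lit 0),Row.mk (nat_lit 24360) (nat_lit 15895) (nat_lit 231725617) (nat_lit 17578) (nat_lit 1556222647) (nat_lit 0) (nat_lit 0),Row.mk (nat_lit 24528) (nat_lit 17391) (nat_lit 1348277743) (nat_lit 19635) (nat_lit 662248514) (nat_lit 0) (nat_lit 0),Row.mk (nat_lit 24696) (nat_lit 17204) (nat_lit 567414250) (nat_lit 19448) (nat_lit 1721106552) (nat_lit 0) (nat_lit 0),Row.mk (nat_lit 24864) (nat_lit 19261) (nat_lit 2309169399) (nat_lit 25806) (nat_lit 326559882) (nat_lit 0) (nat_lit 0),Row.mk (nat_lit 25032) (nat_lit 19074) (nat_lit 1767544747) (nat_lit 25619) (nat_lit 1301839548) (nat_lit 0) (nat_lit 0),Row.mk (nat_lit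 25200) (nat_lit 18887) (nat_lit 1091068624) (nat_lit 25432) (nat_lit 2519940323) (nat_lit 0) (nat_lit 0),Row.mk (nat_lit 25368) (nat_lit 18700) (nat_lit 246166265) (nat_lit 25245) (nat_lit 4041318805) (nat_lit 0) (nat_lit 0),Row.mk (nat_lit 25536) (nat_lit 25058) (nat_lit 4484579562) (nat_lit 31603) (nat_lit 647807867) (nat_lit 0) (nat_lit 0),Row.mk (nat_lit 25704) (nat_lit 24871) (nat_lit 4484579562) (nat_lit 31416) (nat_lit 1703070532) (nat_lit 0) (nat_lit 0),Row.mk (nat_lit 25872) (nat_lit 24684) (nat_lit 4484579562) (nat_lit 31229) (nat_lit 3021068142) (nat_lit 0) (nat_lit 0),Row.mk (nat_lit 26040) (nat_lit 24497) (nat_lit 4484579562) (nat_lit 31042) (nat_lit 4667215363) (nat_lit 0) (nat_lit 0),Row.mk (nat_lit 26208) (nat_lit 24310) (nat_lit 4484579562) (nat_lit 30855) (nat_lit 6723213531) (nat_lit 0) (nat_lit 0),Row.mk (nat_lit 26376) (nat_lit 24123) (nat_lit 4484579562) (nat_lit 30668) (nat_lit 9291105643) (nat_lit 0) (nat_lit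 0),Row.mk (nat_lit 26544) (nat_lit 23936) (nat_lit 4484579562) (nat_lit 30481) (nat_lit 12498340945) (nat_lit 0) (nat_lit 0),Row.mk (nat_lit 26712) (nat_lit 23749) (nat_lit 4484579562) (nat_lit 30294) (nat_lit 16504100465) (nat_lit 0) (nat_lit 0),Row.mk (nat_lit 26880) (nat_lit 23562) (nat_lit 4484579562) (nat_lit 30107) (nat_lit 21507197472) (nat_lit 0) (nat_lit 0),Row.mk (nat_lit 27048) (nat_lit 23375) (nat_lit 4484579562) (nat_lit 29920) (nat_lit 27755944941) (nat_lit 0) (nat_lit 0),Row.mk (nat_lit 27216) (nat_lit 23188) (nat_lit 4484579562) (nat_lit 29733) (nat_lit 35560479785) (nat_lit 0) (nat_lit 0),Row.mk (nat_lit 27384) (nat_lit 23001) (nat_lit 4484579562) (nat_lit 29546) (nat_lit 45308155530) (nat_lit 0) (nat_lit 0),Row.mk (nat_lit 27552) (nat_lit 22814) (nat_lit 4484579562) (nat_lit 29359) (nat_lit 57482767385) (nat_lit 0) (nat_lit 0),Row.mk (nat_lit 27720) (nat_lit 22627) (nat_lit 4484579562) (nat_lit 29172) (nat_lit 72688563894)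 (nat_lit 0) (nat_lit 0),Row.mk (nat_lit 27888) (nat_lit 22440) (nat_lit 4484579562) (nat_lit 28985) (nat_lit 91680236911) (nat_lit 0) (nat_lit 0),Row.mk (nat_lit 28056) (nat_lit 22253) (nat_lit 4484579562) (nat_lit 28798) (nat_lit 115400378359) (nat_lit 0) (nat_lit 0),Row.mk (nat_lit 28224) (nat_lit 22066) (nat_lit 4484579562) (nat_lit 28611) (nat_lit 145026262807) (nat_lit 0) (nat_lit 0),Row.mk (nat_lit 28392) (nat_lit 21879) (nat_lit 4484579562) (nat_lit 28424) (nat_lit 182028277794) (nat_lit 0) (nat_lit 0),Row.mk (nat_lit 28560) (nat_lit 21692) (nat_lit 4484579562) (nat_lit 28237) (nat_lit 228242901883) (nat_lit 0) (nat_lit 0),Row.mk (nat_lit 28728) (nat_lit 21505) (nat_lit 4484579562) (nat_lit 28050) (nat_lit 285963852497) (nat_lit 0) (nat_lit 0),Row.mk (nat_lit 28896) (nat_lit 21318) (nat_lit 4484579562) (nat_lit 27863) (nat_lit 358055927366) (nat_lit 0) (nat_lit 0),Row.mk (nat_lit 29064) (nat_lit 21131) (nat_lit 4484579562)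 (nat_lit 27676) (nat_lit 448097189742) (nat_lit 0) (nat_lit 0),Row.mk (nat_lit 29232) (nat_lit 20944) (nat_lit 4484579562) (nat_lit 27489) (nat_lit 560556554311) (nat_lit 0) (nat_lit 0),Row.mk (nat_lit 29400) (nat_lit 32912) (nat_lit 893974132) (nat_lit 62084) (nat_lit 703712219007) (nat_lit 0) (nat_lit 0),Row.mk (nat_lit 29568) (nat_lit 32912) (nat_lit 893974132) (nat_lit 62084) (nat_lit 879142163316) (nat_lit 0) (nat_lit 0)],
[Row.mk (nat_lit 14448) (nat_lit 32912) (nat_lit 1797) (nat_lit 61897) (nat_lit 1116550328) (nat_lit 0) (nat_lit 0),Row.mk (nat_lit 14616) (nat_lit 32912) (nat_lit 2244) (nat_lit 61897) (nat_lit 1116549881) (nat_lit 0) (nat_lit 0),Row.mk (nat_lit 14784) (nat_lit 32912) (nat_lit 2803) (nat_lit 61897) (nat_lit 1116549322) (nat_lit 0) (nat_lit 0),Row.mk (nat_lit 14952) (nat_lit 32912) (nat_lit 3501) (nat_lit 61897) (nat_lit 1116548624) (nat_lit 0) (nat_lit 0),Row.mk (nat_lit 15120) (nat_lit 32912) (nat_lit 4373)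 (nat_lit 61897) (nat_lit 1116547752) (nat_lit 0) (nat_lit 0),Row.mk (nat_lit 15288) (nat_lit 32912) (nat_lit 5462) (nat_lit 61897) (nat_lit 1116546663) (nat_lit 0) (nat_lit 0),Row.mk (nat_lit 15456) (nat_lit 32912) (nat_lit 6822) (nat_lit 61897) (nat_lit 1116545303) (nat_lit 0) (nat_lit 0),Row.mk (nat_lit 15624) (nat_lit 32912) (nat_lit 8521) (nat_lit 61897) (nat_lit 1116543604) (nat_lit 0) (nat_lit 0),Row.mk (nat_lit 15792) (nat_lit 32912) (nat_lit 10643) (nat_lit 61897) (nat_lit 1116541482) (nat_lit 0) (nat_lit 0),Row.mk (nat_lit 15960) (nat_lit 32912) (nat_lit 13292) (nat_lit 61897) (nat_lit 1116538832) (nat_lit 0) (nat_lit 0),Row.mk (nat_lit 16128) (nat_lit 32912) (nat_lit 16602) (nat_lit 61897) (nat_lit 1116535523) (nat_lit 0) (nat_lit 0),Row.mk (nat_lit 16296) (nat_lit 32912) (nat_lit 20736) (nat_lit 61897) (nat_lit 1116531389) (nat_lit 0) (nat_lit 0),Row.mk (nat_lit 16464) (nat_lit 32912) (nat_lit 25899) (nat_lit 61897) (nat_lit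 1116526226) (nat_lit 0) (nat_lit 0),Row.mk (nat_lit 16632) (nat_lit 32912) (nat_lit 32347) (nat_lit 61897) (nat_lit 1116519778) (nat_lit 0) (nat_lit 0),Row.mk (nat_lit 16800) (nat_lit 32912) (nat_lit 40401) (nat_lit 61897) (nat_lit 1116511724) (nat_lit 0) (nat_lit 0),Row.mk (nat_lit 16968) (nat_lit 32912) (nat_lit 50459) (nat_lit 61897) (nat_lit 1116501665) (nat_lit 0) (nat_lit 0),Row.mk (nat_lit 17136) (nat_lit 32912) (nat_lit 63023) (nat_lit 61897) (nat_lit 1116489102) (nat_lit 0) (nat_lit 0),Row.mk (nat_lit 17304) (nat_lit 32912) (nat_lit 78714) (nat_lit 61897) (nat_lit 1116473411) (nat_lit 0) (nat_lit 0),Row.mk (nat_lit 17472) (nat_lit 32912) (nat_lit 98312) (nat_lit 61897) (nat_lit 1116453813) (nat_lit 0) (nat_lit 0),Row.mk (nat_lit 17640) (nat_lit 32912) (nat_lit 122789) (nat_lit 61897) (nat_lit 1116429335) (nat_lit 0) (nat_lit 0),Row.mk (nat_lit 17808) (nat_lit 32912) (nat_lit 153361) (nat_lit 61897) (nat_lit 1116398764) (nat_lit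 0) (nat_lit 0),Row.mk (nat_lit 17976) (nat_lit 32912) (nat_lit 191545) (nat_lit 61897) (nat_lit 1116360580) (nat_lit 0) (nat_lit 0),Row.mk (nat_lit 18144) (nat_lit 32912) (nat_lit 239235) (nat_lit 61897) (nat_lit 1116312890) (nat_lit 0) (nat_lit 0),Row.mk (nat_lit 18312) (nat_lit 32912) (nat_lit 298799) (nat_lit 61897) (nat_lit 1116253326) (nat_lit 0) (nat_lit 0),Row.mk (nat_lit 18480) (nat_lit 32912) (nat_lit 373192) (nat_lit 61897) (nat_lit 1116178933) (nat_lit 0) (nat_lit 0),Row.mk (nat_lit 18648) (nat_lit 32912) (nat_lit 466108) (nat_lit 61897) (nat_lit 1116086017) (nat_lit 0) (nat_lit 0),Row.mk (nat_lit 18816) (nat_lit 32912) (nat_lit 582158) (nat_lit 61897) (nat_lit 1115969967) (nat_lit 0) (nat_lit 0),Row.mk (nat_lit 18984) (nat_lit 32912) (nat_lit 727102) (nat_lit 61897) (nat_lit 1115825023) (nat_lit 0) (nat_lit 0),Row.mk (nat_lit 19152) (nat_lit 32912) (nat_lit 908132) (nat_lit 61897) (nat_lit 1115643993) (nat_lit 0) (nat_lit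 0),Row.mk (nat_lit 19320) (nat_lit 32912) (nat_lit 1134236) (nat_lit 61897) (nat_lit 1115417889) (nat_lit 0) (nat_lit 0),Row.mk (nat_lit 19488) (nat_lit 32912) (nat_lit 1416633) (nat_lit 61897) (nat_lit 1115135492) (nat_lit 0) (nat_lit 0),Row.mk (nat_lit 19656) (nat_lit 0) (nat_lit 8875816) (nat_lit 748) (nat_lit 1109445650) (nat_lit 0) (nat_lit 0),Row.mk (nat_lit 19824) (nat_lit 561) (nat_lit 11085681) (nat_lit 1309) (nat_lit 1107676309) (nat_lit 0) (nat_lit 0),Row.mk (nat_lit 19992) (nat_lit 1122) (nat_lit 13845748) (nat_lit 1870) (nat_lit 1105466444) (nat_lit 0) (nat_lit 0),Row.mk (nat_lit 20160) (nat_lit 1683) (nat_lit 17293005) (nat_lit 2431) (nat_lit 1102706377) (nat_lit 0) (nat_lit 0),Row.mk (nat_lit 20328) (nat_lit 2244) (nat_lit 21598546) (nat_lit 2992) (nat_lit 1099259120) (nat_lit 0) (nat_lit 0),Row.mk (nat_lit 20496) (nat_lit 2805) (nat_lit 26976063) (nat_lit 3553) (nat_lit 1094953579) (nat_lit 0) (nat_lit 0),Row.mk (nat_lit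 20664) (nat_lit 3366) (nat_lit 33692452) (nat_lit 4114) (nat_lit 1089576062) (nat_lit 0) (nat_lit 0),Row.mk (nat_lit 20832) (nat_lit 3927) (nat_lit 42081060) (nat_lit 4675) (nat_lit 1082859672) (nat_lit 0) (nat_lit 0),Row.mk (nat_lit 21000) (nat_lit 4488) (nat_lit 52558229) (nat_lit 5236) (nat_lit 1074471064) (nat_lit 0) (nat_lit 0),Row.mk (nat_lit 21168) (nat_lit 5049) (nat_lit 65643961) (nat_lit 5797) (nat_lit 1063993895) (nat_lit 0) (nat_lit 0),Row.mk (nat_lit 21336) (nat_lit 5610) (nat_lit 81987724) (nat_lit 6358) (nat_lit 1050908164) (nat_lit 0) (nat_lit 0),Row.mk (nat_lit 21504) (nat_lit 6171) (nat_lit 102400689) (nat_lit 6919) (nat_lit 1034564401) (nat_lit 0) (nat_lit 0),Row.mk (nat_lit 21672) (nat_lit 6732) (nat_lit 127895991) (nat_lit 7480) (nat_lit 1014151436) (nat_lit 0) (nat_lit 0),Row.mk (nat_lit 21840) (nat_lit 7293) (nat_lit 159739007) (nat_lit 8041) (nat_lit 988656134) (nat_lit 0) (nat_lit 0),Row.mk (nat_lit 22008)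 (nat_lit 7854) (nat_lit 199510166) (nat_lit 8602) (nat_lit 956813118) (nat_lit 0) (nat_lit 0),Row.mk (nat_lit 22176) (nat_lit 8415) (nat_lit 249183385) (nat_lit 9163) (nat_lit 917041959) (nat_lit 0) (nat_lit 0),Row.mk (nat_lit 22344) (nat_lit 8976) (nat_lit 311224037) (nat_lit 9724) (nat_lit 867368740) (nat_lit 0) (nat_lit 0),Row.mk (nat_lit 22512) (nat_lit 9537) (nat_lit 388711314) (nat_lit 10285) (nat_lit 805328088) (nat_lit 0) (nat_lit 0),Row.mk (nat_lit 22680) (nat_lit 10098) (nat_lit 485491054) (nat_lit 10846) (nat_lit 727840811) (nat_lit 0) (nat_lit 0),Row.mk (nat_lit 22848) (nat_lit 10659) (nat_lit 606366615) (nat_lit 11407) (nat_lit 631061071) (nat_lit 0) (nat_lit 0),Row.mk (nat_lit 23016) (nat_lit 11220) (nat_lit 757337274) (nat_lit 11968) (nat_lit 510185510) (nat_lit 0) (nat_lit 0),Row.mk (nat_lit 23184) (nat_lit 11781) (nat_lit 945895986) (nat_lit 12716) (nat_lit 359214851) (nat_lit 0) (nat_lit 0),Row.mk (nat_lit 23352)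 (nat_lit 12529) (nat_lit 1181401268) (nat_lit 13464) (nat_lit 170656139) (nat_lit 0) (nat_lit 0),Row.mk (nat_lit 23520) (nat_lit 12342) (nat_lit 80995014) (nat_lit 13277) (nat_lit 1329697527) (nat_lit 0) (nat_lit 0),Row.mk (nat_lit 23688) (nat_lit 13090) (nat_lit 448369297) (nat_lit 14025) (nat_lit 1035557111) (nat_lit 0) (nat_lit 0),Row.mk (nat_lit 23856) (nat_lit 13838) (nat_lit 907210915) (nat_lit 15147) (nat_lit 668182828) (nat_lit 0) (nat_lit 0),Row.mk (nat_lit 24024) (nat_lit 14960) (nat_lit 1480293027) (nat_lit 16456) (nat_lit 209341210) (nat_lit 0) (nat_lit 0),Row.mk (nat_lit 24192) (nat_lit 14773) (nat_lit 454303610) (nat_lit 16269) (nat_lit 1378014247) (nat_lit 0) (nat_lit 0),Row.mk (nat_lit 24360) (nat_lit 16082) (nat_lit 1348277743) (nat_lit 17765) (nat_lit 662248514) (nat_lit 0) (nat_lit 0),Row.mk (nat_lit 24528) (nat_lit 15895) (nat_lit 289419706) (nat_lit 17578) (nat_lit 1943684545) (nat_lit 0) (nat_lit 0),Row.mk (nat_lit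 24696) (nat_lit 17391) (nat_lit 1683966376) (nat_lit 19635) (nat_lit 827132419) (nat_lit 0) (nat_lit 0),Row.mk (nat_lit 24864) (nat_lit 17204) (nat_lit 708686710) (nat_lit 19448) (nat_lit 2149620563) (nat_lit 0) (nat_lit 0),Row.mk (nat_lit 25032) (nat_lit 19261) (nat_lit 2884096873) (nat_lit 25806) (nat_lit 407865415) (nat_lit 0) (nat_lit 0),Row.mk (nat_lit 25200) (nat_lit 19074) (nat_lit 2207620750) (nat_lit 25619) (nat_lit 1625966190) (nat_lit 0) (nat_lit 0),Row.mk (nat_lit 25368) (nat_lit 18887) (nat_lit 1362718391) (nat_lit 25432) (nat_lit 3147344672) (nat_lit 0) (nat_lit 0),Row.mk (nat_lit 25536) (nat_lit 18700) (nat_lit 307455726) (nat_lit 25245) (nat_lit 5047509696) (nat_lit 0) (nat_lit 0),Row.mk (nat_lit 25704) (nat_lit 25058) (nat_lit 5601131688) (nat_lit 31603) (nat_lit 809096399) (nat_lit 0) (nat_lit 0),Row.mk (nat_lit 25872) (nat_lit 24871) (nat_lit 5601131688) (nat_lit 31416) (nat_lit 2127094010) (nat_lit 0) (nat_lit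 0),Row.mk (nat_lit 26040) (nat_lit 24684) (nat_lit 5601131688) (nat_lit 31229) (nat_lit 3773241230) (nat_lit 0) (nat_lit 0),Row.mk (nat_lit 26208) (nat_lit 24497) (nat_lit 5601131688) (nat_lit 31042) (nat_lit 5829239398) (nat_lit 0) (nat_lit 0),Row.mk (nat_lit 26376) (nat_lit 24310) (nat_lit 5601131688) (nat_lit 30855) (nat_lit 8397131510) (nat_lit 0) (nat_lit 0),Row.mk (nat_lit 26544) (nat_lit 24123) (nat_lit 5601131688) (nat_lit 30668) (nat_lit 11604366812) (nat_lit 0) (nat_lit 0),Row.mk (nat_lit 26712) (nat_lit 23936) (nat_lit 5601131688) (nat_lit 30481) (nat_lit 15610126332) (nat_lit 0) (nat_lit 0),Row.mk (nat_lit 26880) (nat_lit 23749) (nat_lit 5601131688) (nat_lit 30294) (nat_lit 20613223340) (nat_lit 0) (nat_lit 0),Row.mk (nat_lit 27048) (nat_lit 23562) (nat_lit 5601131688) (nat_lit 30107) (nat_lit 26861970808) (nat_lit 0) (nat_lit 0),Row.mk (nat_lit 27216) (nat_lit 23375) (nat_lit 5601131688) (nat_lit 29920) (nat_lit 34666505652)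 (nat_lit 0) (nat_lit 0),Row.mk (nat_lit 27384) (nat_lit 23188) (nat_lit 5601131688) (nat_lit 29733) (nat_lit 44414181397) (nat_lit 0) (nat_lit 0),Row.mk (nat_lit 27552) (nat_lit 23001) (nat_lit 5601131688) (nat_lit 29546) (nat_lit 56588793252) (nat_lit 0) (nat_lit 0),Row.mk (nat_lit 27720) (nat_lit 22814) (nat_lit 5601131688) (nat_lit 29359) (nat_lit 71794589761) (nat_lit 0) (nat_lit 0),Row.mk (nat_lit 27888) (nat_lit 22627) (nat_lit 5601131688) (nat_lit 29172) (nat_lit 90786262778) (nat_lit 0) (nat_lit 0),Row.mk (nat_lit 28056) (nat_lit 22440) (nat_lit 5601131688) (nat_lit 28985) (nat_lit 114506404226) (nat_lit 0) (nat_lit 0),Row.mk (nat_lit 28224) (nat_lit 22253) (nat_lit 5601131688) (nat_lit 28798) (nat_lit 144132288674) (nat_lit 0) (nat_lit 0),Row.mk (nat_lit 28392) (nat_lit 22066) (nat_lit 5601131688) (nat_lit 28611) (nat_lit 181134303661) (nat_lit 0) (nat_lit 0),Row.mk (nat_lit 28560) (nat_lit 21879) (nat_lit 5601131688) (nat_lit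 28424) (nat_lit 227348927750) (nat_lit 0) (nat_lit 0),Row.mk (nat_lit 28728) (nat_lit 21692) (nat_lit 5601131688) (nat_lit 28237) (nat_lit 285069878365) (nat_lit 0) (nat_lit 0),Row.mk (nat_lit 28896) (nat_lit 21505) (nat_lit 5601131688) (nat_lit 28050) (nat_lit 357161953233) (nat_lit 0) (nat_lit 0),Row.mk (nat_lit 29064) (nat_lit 21318) (nat_lit 5601131688) (nat_lit 27863) (nat_lit 447203215609) (nat_lit 0) (nat_lit 0),Row.mk (nat_lit 29232) (nat_lit 21131) (nat_lit 5601131688) (nat_lit 27676) (nat_lit 559662580178) (nat_lit 0) (nat_lit 0),Row.mk (nat_lit 29400) (nat_lit 20944) (nat_lit 5601131688) (nat_lit 27489) (nat_lit 700121613578) (nat_lit 0) (nat_lit 0),Row.mk (nat_lit 29568) (nat_lit 32912) (nat_lit 1116552125) (nat_lit 62084) (nat_lit 878919585323) (nat_lit 0) (nat_lit 0),Row.mk (nat_lit 29736) (nat_lit 32912) (nat_lit 1116552125) (nat_lit 62084) (nat_lit 1098027353728) (nat_lit 0) (nat_lit 0)],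
[Row.mk (nat_lit 14616) (nat_lit 32912) (nat_lit 2244) (nat_lit 61897) (nat_lit 1394544424) (nat_lit 0) (nat_lit 0),Row.mk (nat_lit 14784) (nat_lit 32912) (nat_lit 2803) (nat_lit 61897) (nat_lit 1394543865) (nat_lit 0) (nat_lit 0),Row.mk (nat_lit 14952) (nat_lit 32912) (nat_lit 3501) (nat_lit 61897) (nat_lit 1394543167) (nat_lit 0) (nat_lit 0),Row.mk (nat_lit 15120) (nat_lit 32912) (nat_lit 4373) (nat_lit 61897) (nat_lit 1394542296) (nat_lit 0) (nat_lit 0),Row.mk (nat_lit 15288) (nat_lit 32912) (nat_lit 5462) (nat_lit 61897) (nat_lit 1394541207) (nat_lit 0) (nat_lit 0),Row.mk (nat_lit 15456) (nat_lit 32912) (nat_lit 6822) (nat_lit 61897) (nat_lit 1394539846) (nat_lit 0) (nat_lit 0),Row.mk (nat_lit 15624) (nat_lit 32912) (nat_lit 8521) (nat_lit 61897) (nat_lit 1394538148) (nat_lit 0) (nat_lit 0),Row.mk (nat_lit 15792) (nat_lit 32912) (nat_lit 10643) (nat_lit 61897) (nat_lit 1394536026) (nat_lit 0) (nat_lit 0),Row.mk (nat_lit 15960)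 (nat_lit 32912) (nat_lit 13292) (nat_lit 61897) (nat_lit 1394533376) (nat_lit 0) (nat_lit 0),Row.mk (nat_lit 16128) (nat_lit 32912) (nat_lit 16602) (nat_lit 61897) (nat_lit 1394530067) (nat_lit 0) (nat_lit 0),Row.mk (nat_lit 16296) (nat_lit 32912) (nat_lit 20736) (nat_lit 61897) (nat_lit 1394525933) (nat_lit 0) (nat_lit 0),Row.mk (nat_lit 16464) (nat_lit 32912) (nat_lit 25899) (nat_lit 61897) (nat_lit 1394520770) (nat_lit 0) (nat_lit 0),Row.mk (nat_lit 16632) (nat_lit 32912) (nat_lit 32347) (nat_lit 61897) (nat_lit 1394514322) (nat_lit 0) (nat_lit 0),Row.mk (nat_lit 16800) (nat_lit 32912) (nat_lit 40401) (nat_lit 61897) (nat_lit 1394506268) (nat_lit 0) (nat_lit 0),Row.mk (nat_lit 16968) (nat_lit 32912) (nat_lit 50459) (nat_lit 61897) (nat_lit 1394496209) (nat_lit 0) (nat_lit 0),Row.mk (nat_lit 17136) (nat_lit 32912) (nat_lit 63023) (nat_lit 61897) (nat_lit 1394483646) (nat_lit 0) (nat_lit 0),Row.mk (nat_lit 17304) (nat_lit 32912)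 (nat_lit 78714) (nat_lit 61897) (nat_lit 1394467955) (nat_lit 0) (nat_lit 0),Row.mk (nat_lit 17472) (nat_lit 32912) (nat_lit 98312) (nat_lit 61897) (nat_lit 1394448357) (nat_lit 0) (nat_lit 0),Row.mk (nat_lit 17640) (nat_lit 32912) (nat_lit 122789) (nat_lit 61897) (nat_lit 1394423879) (nat_lit 0) (nat_lit 0),Row.mk (nat_lit 17808) (nat_lit 32912) (nat_lit 153361) (nat_lit 61897) (nat_lit 1394393308) (nat_lit 0) (nat_lit 0),Row.mk (nat_lit 17976) (nat_lit 32912) (nat_lit 191545) (nat_lit 61897) (nat_lit 1394355124) (nat_lit 0) (nat_lit 0),Row.mk (nat_lit 18144) (nat_lit 32912) (nat_lit 239235) (nat_lit 61897) (nat_lit 1394307434) (nat_lit 0) (nat_lit 0),Row.mk (nat_lit 18312) (nat_lit 32912) (nat_lit 298799) (nat_lit 61897) (nat_lit 1394247870) (nat_lit 0) (nat_lit 0),Row.mk (nat_lit 18480) (nat_lit 32912) (nat_lit 373192) (nat_lit 61897) (nat_lit 1394173477) (nat_lit 0) (nat_lit 0),Row.mk (nat_lit 18648) (nat_lit 32912) (nat_lit 466108)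 (nat_lit 61897) (nat_lit 1394080561) (nat_lit 0) (nat_lit 0),Row.mk (nat_lit 18816) (nat_lit 32912) (nat_lit 582158) (nat_lit 61897) (nat_lit 1393964511) (nat_lit 0) (nat_lit 0),Row.mk (nat_lit 18984) (nat_lit 32912) (nat_lit 727102) (nat_lit 61897) (nat_lit 1393819567) (nat_lit 0) (nat_lit 0),Row.mk (nat_lit 19152) (nat_lit 32912) (nat_lit 908132) (nat_lit 61897) (nat_lit 1393638536) (nat_lit 0) (nat_lit 0),Row.mk (nat_lit 19320) (nat_lit 32912) (nat_lit 1134236) (nat_lit 61897) (nat_lit 1393412433) (nat_lit 0) (nat_lit 0),Row.mk (nat_lit 19488) (nat_lit 32912) (nat_lit 1416633) (nat_lit 61897) (nat_lit 1393130036) (nat_lit 0) (nat_lit 0),Row.mk (nat_lit 19656) (nat_lit 32912) (nat_lit 1769341) (nat_lit 61897) (nat_lit 1392777328) (nat_lit 0) (nat_lit 0),Row.mk (nat_lit 19824) (nat_lit 0) (nat_lit 11085681) (nat_lit 748) (nat_lit 1385670852) (nat_lit 0) (nat_lit 0),Row.mk (nat_lit 19992) (nat_lit 561) (nat_lit 13845748) (nat_lit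 1309) (nat_lit 1383460988) (nat_lit 0) (nat_lit 0),Row.mk (nat_lit 20160) (nat_lit 1122) (nat_lit 17293005) (nat_lit 1870) (nat_lit 1380700921) (nat_lit 0) (nat_lit 0),Row.mk (nat_lit 20328) (nat_lit 1683) (nat_lit 21598546) (nat_lit 2431) (nat_lit 1377253664) (nat_lit 0) (nat_lit 0),Row.mk (nat_lit 20496) (nat_lit 2244) (nat_lit 26976063) (nat_lit 2992) (nat_lit 1372948123) (nat_lit 0) (nat_lit 0),Row.mk (nat_lit 20664) (nat_lit 2805) (nat_lit 33692452) (nat_lit 3553) (nat_lit 1367570605) (nat_lit 0) (nat_lit 0),Row.mk (nat_lit 20832) (nat_lit 3366) (nat_lit 42081060) (nat_lit 4114) (nat_lit 1360854216) (nat_lit 0) (nat_lit 0),Row.mk (nat_lit 21000) (nat_lit 3927) (nat_lit 52558229) (nat_lit 4675) (nat_lit 1352465608) (nat_lit 0) (nat_lit 0),Row.mk (nat_lit 21168) (nat_lit 4488) (nat_lit 65643961) (nat_lit 5236) (nat_lit 1341988439) (nat_lit 0) (nat_lit 0),Row.mk (nat_lit 21336) (nat_lit 5049) (nat_lit 81987724) (nat_lit 5797) (nat_lit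 1328902708) (nat_lit 0) (nat_lit 0),Row.mk (nat_lit 21504) (nat_lit 5610) (nat_lit 102400689) (nat_lit 6358) (nat_lit 1312558945) (nat_lit 0) (nat_lit 0),Row.mk (nat_lit 21672) (nat_lit 6171) (nat_lit 127895991) (nat_lit 6919) (nat_lit 1292145980) (nat_lit 0) (nat_lit 0),Row.mk (nat_lit 21840) (nat_lit 6732) (nat_lit 159739007) (nat_lit 7480) (nat_lit 1266650678) (nat_lit 0) (nat_lit 0),Row.mk (nat_lit 22008) (nat_lit 7293) (nat_lit 199510166) (nat_lit 8041) (nat_lit 1234807662) (nat_lit 0) (nat_lit 0),Row.mk (nat_lit 22176) (nat_lit 7854) (nat_lit 249183385) (nat_lit 8602) (nat_lit 1195036502) (nat_lit 0) (nat_lit 0),Row.mk (nat_lit 22344) (nat_lit 8415) (nat_lit 311224037) (nat_lit 9163) (nat_lit 1145363284) (nat_lit 0) (nat_lit 0),Row.mk (nat_lit 22512) (nat_lit 8976) (nat_lit 388711314) (nat_lit 9724) (nat_lit 1083322632) (nat_lit 0) (nat_lit 0),Row.mk (nat_lit 22680) (nat_lit 9537) (nat_lit 485491054) (nat_lit 10285) (nat_lit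 1005835355) (nat_lit 0) (nat_lit 0),Row.mk (nat_lit 22848) (nat_lit 10098) (nat_lit 606366615) (nat_lit 10846) (nat_lit 909055615) (nat_lit 0) (nat_lit 0),Row.mk (nat_lit 23016) (nat_lit 10659) (nat_lit 757337274) (nat_lit 11407) (nat_lit 788180054) (nat_lit 0) (nat_lit 0),Row.mk (nat_lit 23184) (nat_lit 11220) (nat_lit 945895986) (nat_lit 11968) (nat_lit 637209395) (nat_lit 0) (nat_lit 0),Row.mk (nat_lit 23352) (nat_lit 11781) (nat_lit 1181401268) (nat_lit 12716) (nat_lit 448650683) (nat_lit 0) (nat_lit 0),Row.mk (nat_lit 23520) (nat_lit 12529) (nat_lit 1475541683) (nat_lit 13464) (nat_lit 213145401) (nat_lit 0) (nat_lit 0),Row.mk (nat_lit 23688) (nat_lit 12342) (nat_lit 101160818) (nat_lit 13277) (nat_lit 1660760134) (nat_lit 0) (nat_lit 0),Row.mk (nat_lit 23856) (nat_lit 13090) (nat_lit 560002436) (nat_lit 14025) (nat_lit 1293385850) (nat_lit 0) (nat_lit 0),Row.mk (nat_lit 24024) (nat_lit 13838) (nat_lit 1133084548) (nat_lit 15147)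 (nat_lit 834544233) (nat_lit 0) (nat_lit 0),Row.mk (nat_lit 24192) (nat_lit 14960) (nat_lit 1848850280) (nat_lit 16456) (nat_lit 261462121) (nat_lit 0) (nat_lit 0),Row.mk (nat_lit 24360) (nat_lit 14773) (nat_lit 567414250) (nat_lit 16269) (nat_lit 1721106552) (nat_lit 0) (nat_lit 0),Row.mk (nat_lit 24528) (nat_lit 16082) (nat_lit 1683966376) (nat_lit 17765) (nat_lit 827132419) (nat_lit 0) (nat_lit 0),Row.mk (nat_lit 24696) (nat_lit 15895) (nat_lit 361478231) (nat_lit 17578) (nat_lit 2427615107) (nat_lit 0) (nat_lit 0),Row.mk (nat_lit 24864) (nat_lit 17391) (nat_lit 2103233380) (nat_lit 19635) (nat_lit 1033068438) (nat_lit 0) (nat_lit 0),Row.mk (nat_lit 25032) (nat_lit 17204) (nat_lit 885132605) (nat_lit 19448) (nat_lit 2684824227) (nat_lit 0) (nat_lit 0),Row.mk (nat_lit 25200) (nat_lit 19261) (nat_lit 3602167419) (nat_lit 25806) (nat_lit 509414064) (nat_lit 0) (nat_lit 0),Row.mk (nat_lit 25368) (nat_lit 19074) (nat_lit 2757265060)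 (nat_lit 25619) (nat_lit 2030792547) (nat_lit 0) (nat_lit 0),Row.mk (nat_lit 25536) (nat_lit 18887) (nat_lit 1702002396) (nat_lit 25432) (nat_lit 3930957570) (nat_lit 0) (nat_lit 0),Row.mk (nat_lit 25704) (nat_lit 18700) (nat_lit 384004785) (nat_lit 25245) (nat_lit 6304217845) (nat_lit 0) (nat_lit 0),Row.mk (nat_lit 25872) (nat_lit 25058) (nat_lit 6995678357) (nat_lit 31603) (nat_lit 1010541884) (nat_lit 0) (nat_lit 0),Row.mk (nat_lit 26040) (nat_lit 24871) (nat_lit 6995678357) (nat_lit 31416) (nat_lit 2656689104) (nat_lit 0) (nat_lit 0),Row.mk (nat_lit 26208) (nat_lit 24684) (nat_lit 6995678357) (nat_lit 31229) (nat_lit 4712687272) (nat_lit 0) (nat_lit 0),Row.mk (nat_lit 26376) (nat_lit 24497) (nat_lit 6995678357) (nat_lit 31042) (nat_lit 7280579385) (nat_lit 0) (nat_lit 0),Row.mk (nat_lit 26544) (nat_lit 24310) (nat_lit 6995678357) (nat_lit 30855) (nat_lit 10487814686) (nat_lit 0) (nat_lit 0),Row.mk (nat_lit 26712) (nat_lit 24123)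 (nat_lit 6995678357) (nat_lit 30668) (nat_lit 14493574206) (nat_lit 0) (nat_lit 0),Row.mk (nat_lit 26880) (nat_lit 23936) (nat_lit 6995678357) (nat_lit 30481) (nat_lit 19496671214) (nat_lit 0) (nat_lit 0),Row.mk (nat_lit 27048) (nat_lit 23749) (nat_lit 6995678357) (nat_lit 30294) (nat_lit 25745418682) (nat_lit 0) (nat_lit 0),Row.mk (nat_lit 27216) (nat_lit 23562) (nat_lit 6995678357) (nat_lit 30107) (nat_lit 33549953526) (nat_lit 0) (nat_lit 0),Row.mk (nat_lit 27384) (nat_lit 23375) (nat_lit 6995678357) (nat_lit 29920) (nat_lit 43297629271) (nat_lit 0) (nat_lit 0),Row.mk (nat_lit 27552) (nat_lit 23188) (nat_lit 6995678357) (nat_lit 29733) (nat_lit 55472241126) (nat_lit 0) (nat_lit 0),Row.mk (nat_lit 27720) (nat_lit 23001) (nat_lit 6995678357) (nat_lit 29546) (nat_lit 70678037635) (nat_lit 0) (nat_lit 0),Row.mk (nat_lit 27888) (nat_lit 22814) (nat_lit 6995678357) (nat_lit 29359) (nat_lit 89669710653) (nat_lit 0) (nat_lit 0),Row.mk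 (nat_lit 28056) (nat_lit 22627) (nat_lit 6995678357) (nat_lit 29172) (nat_lit 113389852100) (nat_lit 0) (nat_lit 0),Row.mk (nat_lit 28224) (nat_lit 22440) (nat_lit 6995678357) (nat_lit 28985) (nat_lit 143015736549) (nat_lit 0) (nat_lit 0),Row.mk (nat_lit 28392) (nat_lit 22253) (nat_lit 6995678357) (nat_lit 28798) (nat_lit 180017751535) (nat_lit 0) (nat_lit 0),Row.mk (nat_lit 28560) (nat_lit 22066) (nat_lit 6995678357) (nat_lit 28611) (nat_lit 226232375624) (nat_lit 0) (nat_lit 0),Row.mk (nat_lit 28728) (nat_lit 21879) (nat_lit 6995678357) (nat_lit 28424) (nat_lit 283953326239) (nat_lit 0) (nat_lit 0),Row.mk (nat_lit 28896) (nat_lit 21692) (nat_lit 6995678357) (nat_lit 28237) (nat_lit 356045401107) (nat_lit 0) (nat_lit 0),Row.mk (nat_lit 29064) (nat_lit 21505) (nat_lit 6995678357) (nat_lit 28050) (nat_lit 446086663483) (nat_lit 0) (nat_lit 0),Row.mk (nat_lit 29232) (nat_lit 21318) (nat_lit 6995678357) (nat_lit 27863) (nat_lit 558546028052)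 (nat_lit 0) (nat_lit 0),Row.mk (nat_lit 29400) (nat_lit 21131) (nat_lit 6995678357) (nat_lit 27676) (nat_lit 699005061452) (nat_lit 0) (nat_lit 0),Row.mk (nat_lit 29568) (nat_lit 20944) (nat_lit 6995678357) (nat_lit 27489) (nat_lit 874435005761) (nat_lit 0) (nat_lit 0),Row.mk (nat_lit 29736) (nat_lit 32912) (nat_lit 1394546669) (nat_lit 62084) (nat_lit 1097749359184) (nat_lit 0) (nat_lit 0)],
[Row.mk (nat_lit 14784) (nat_lit 32912) (nat_lit 2803) (nat_lit 61897) (nat_lit 1741752344) (nat_lit 0) (nat_lit 0),Row.mk (nat_lit 14952) (nat_lit 32912) (nat_lit 3501) (nat_lit 61897) (nat_lit 1741751646) (nat_lit 0) (nat_lit 0),Row.mk (nat_lit 15120) (nat_lit 32912) (nat_lit 4373) (nat_lit 61897) (nat_lit 1741750775) (nat_lit 0) (nat_lit 0),Row.mk (nat_lit 15288) (nat_lit 32912) (nat_lit 5462) (nat_lit 61897) (nat_lit 1741749686) (nat_lit 0) (nat_lit 0),Row.mk (nat_lit 15456) (nat_lit 32912) (nat_lit 6822) (nat_lit 61897) (nat_lit 1741748325)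 (nat_lit 0) (nat_lit 0),Row.mk (nat_lit 15624) (nat_lit 32912) (nat_lit 8521) (nat_lit 61897) (nat_lit 1741746627) (nat_lit 0) (nat_lit 0),Row.mk (nat_lit 15792) (nat_lit 32912) (nat_lit 10643) (nat_lit 61897) (nat_lit 1741744505) (nat_lit 0) (nat_lit 0),Row.mk (nat_lit 15960) (nat_lit 32912) (nat_lit 13292) (nat_lit 61897) (nat_lit 1741741855) (nat_lit 0) (nat_lit 0),Row.mk (nat_lit 16128) (nat_lit 32912) (nat_lit 16602) (nat_lit 61897) (nat_lit 1741738546) (nat_lit 0) (nat_lit 0),Row.mk (nat_lit 16296) (nat_lit 32912) (nat_lit 20736) (nat_lit 61897) (nat_lit 1741734412) (nat_lit 0) (nat_lit 0),Row.mk (nat_lit 16464) (nat_lit 32912) (nat_lit 25899) (nat_lit 61897) (nat_lit 1741729249) (nat_lit 0) (nat_lit 0),Row.mk (nat_lit 16632) (nat_lit 32912) (nat_lit 32347) (nat_lit 61897) (nat_lit 1741722801) (nat_lit 0) (nat_lit 0),Row.mk (nat_lit 16800) (nat_lit 32912) (nat_lit 40401) (nat_lit 61897) (nat_lit 1741714747) (nat_lit 0) (nat_lit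 0),Row.mk (nat_lit 16968) (nat_lit 32912) (nat_lit 50459) (nat_lit 61897) (nat_lit 1741704688) (nat_lit 0) (nat_lit 0),Row.mk (nat_lit 17136) (nat_lit 32912) (nat_lit 63023) (nat_lit 61897) (nat_lit 1741692125) (nat_lit 0) (nat_lit 0),Row.mk (nat_lit 17304) (nat_lit 32912) (nat_lit 78714) (nat_lit 61897) (nat_lit 1741676434) (nat_lit 0) (nat_lit 0),Row.mk (nat_lit 17472) (nat_lit 32912) (nat_lit 98312) (nat_lit 61897) (nat_lit 1741656836) (nat_lit 0) (nat_lit 0),Row.mk (nat_lit 17640) (nat_lit 32912) (nat_lit 122789) (nat_lit 61897) (nat_lit 1741632358) (nat_lit 0) (nat_lit 0),Row.mk (nat_lit 17808) (nat_lit 32912) (nat_lit 153361) (nat_lit 61897) (nat_lit 1741601787) (nat_lit 0) (nat_lit 0),Row.mk (nat_lit 17976) (nat_lit 32912) (nat_lit 191545) (nat_lit 61897) (nat_lit 1741563603) (nat_lit 0) (nat_lit 0),Row.mk (nat_lit 18144) (nat_lit 32912) (nat_lit 239235) (nat_lit 61897) (nat_lit 1741515913) (nat_lit 0) (nat_lit 0),Row.mk (nat_lit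 18312) (nat_lit 32912) (nat_lit 298799) (nat_lit 61897) (nat_lit 1741456349) (nat_lit 0) (nat_lit 0),Row.mk (nat_lit 18480) (nat_lit 32912) (nat_lit 373192) (nat_lit 61897) (nat_lit 1741381955) (nat_lit 0) (nat_lit 0),Row.mk (nat_lit 18648) (nat_lit 32912) (nat_lit 466108) (nat_lit 61897) (nat_lit 1741289040) (nat_lit 0) (nat_lit 0),Row.mk (nat_lit 18816) (nat_lit 32912) (nat_lit 582158) (nat_lit 61897) (nat_lit 1741172990) (nat_lit 0) (nat_lit 0),Row.mk (nat_lit 18984) (nat_lit 32912) (nat_lit 727102) (nat_lit 61897) (nat_lit 1741028046) (nat_lit 0) (nat_lit 0),Row.mk (nat_lit 19152) (nat_lit 32912) (nat_lit 908132) (nat_lit 61897) (nat_lit 1740847015) (nat_lit 0) (nat_lit 0),Row.mk (nat_lit 19320) (nat_lit 32912) (nat_lit 1134236) (nat_lit 61897) (nat_lit 1740620912) (nat_lit 0) (nat_lit 0),Row.mk (nat_lit 19488) (nat_lit 32912) (nat_lit 1416633) (nat_lit 61897) (nat_lit 1740338515) (nat_lit 0) (nat_lit 0),Row.mk (nat_lit 19656)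 (nat_lit 32912) (nat_lit 1769341) (nat_lit 61897) (nat_lit 1739985807) (nat_lit 0) (nat_lit 0),Row.mk (nat_lit 19824) (nat_lit 32912) (nat_lit 2209864) (nat_lit 61897) (nat_lit 1739545284) (nat_lit 0) (nat_lit 0),Row.mk (nat_lit 19992) (nat_lit 0) (nat_lit 13845748) (nat_lit 748) (nat_lit 1730669467) (nat_lit 0) (nat_lit 0),Row.mk (nat_lit 20160) (nat_lit 561) (nat_lit 17293005) (nat_lit 1309) (nat_lit 1727909400) (nat_lit 0) (nat_lit 0),Row.mk (nat_lit 20328) (nat_lit 1122) (nat_lit 21598546) (nat_lit 1870) (nat_lit 1724462143) (nat_lit 0) (nat_lit 0),Row.mk (nat_lit 20496) (nat_lit 1683) (nat_lit 26976063) (nat_lit 2431) (nat_lit 1720156602) (nat_lit 0) (nat_lit 0),Row.mk (nat_lit 20664) (nat_lit 2244) (nat_lit 33692452) (nat_lit 2992) (nat_lit 1714779084) (nat_lit 0) (nat_lit 0),Row.mk (nat_lit 20832) (nat_lit 2805) (nat_lit 42081060) (nat_lit 3553) (nat_lit 1708062695) (nat_lit 0) (nat_lit 0),Row.mk (nat_lit 21000) (nat_lit 3366)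 (nat_lit 52558229) (nat_lit 4114) (nat_lit 1699674087) (nat_lit 0) (nat_lit 0),Row.mk (nat_lit 21168) (nat_lit 3927) (nat_lit 65643961) (nat_lit 4675) (nat_lit 1689196918) (nat_lit 0) (nat_lit 0),Row.mk (nat_lit 21336) (nat_lit 4488) (nat_lit 81987724) (nat_lit 5236) (nat_lit 1676111187) (nat_lit 0) (nat_lit 0),Row.mk (nat_lit 21504) (nat_lit 5049) (nat_lit 102400689) (nat_lit 5797) (nat_lit 1659767424) (nat_lit 0) (nat_lit 0),Row.mk (nat_lit 21672) (nat_lit 5610) (nat_lit 127895991) (nat_lit 6358) (nat_lit 1639354459) (nat_lit 0) (nat_lit 0),Row.mk (nat_lit 21840) (nat_lit 6171) (nat_lit 159739007) (nat_lit 6919) (nat_lit 1613859157) (nat_lit 0) (nat_lit 0),Row.mk (nat_lit 22008) (nat_lit 6732) (nat_lit 199510166) (nat_lit 7480) (nat_lit 1582016141) (nat_lit 0) (nat_lit 0),Row.mk (nat_lit 22176) (nat_lit 7293) (nat_lit 249183385) (nat_lit 8041) (nat_lit 1542244981) (nat_lit 0) (nat_lit 0),Row.mk (nat_lit 22344) (nat_lit 7854) (nat_lit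 311224037) (nat_lit 8602) (nat_lit 1492571763) (nat_lit 0) (nat_lit 0),Row.mk (nat_lit 22512) (nat_lit 8415) (nat_lit 388711314) (nat_lit 9163) (nat_lit 1430531111) (nat_lit 0) (nat_lit 0),Row.mk (nat_lit 22680) (nat_lit 8976) (nat_lit 485491054) (nat_lit 9724) (nat_lit 1353043834) (nat_lit 0) (nat_lit 0),Row.mk (nat_lit 22848) (nat_lit 9537) (nat_lit 606366615) (nat_lit 10285) (nat_lit 1256264094) (nat_lit 0) (nat_lit 0),Row.mk (nat_lit 23016) (nat_lit 10098) (nat_lit 757337274) (nat_lit 10846) (nat_lit 1135388533) (nat_lit 0) (nat_lit 0),Row.mk (nat_lit 23184) (nat_lit 10659) (nat_lit 945895986) (nat_lit 11407) (nat_lit 984417874) (nat_lit 0) (nat_lit 0),Row.mk (nat_lit 23352) (nat_lit 11220) (nat_lit 1181401268) (nat_lit 11968) (nat_lit 795859162) (nat_lit 0) (nat_lit 0),Row.mk (nat_lit 23520) (nat_lit 11781) (nat_lit 1475541683) (nat_lit 12716) (nat_lit 560353880) (nat_lit 0) (nat_lit 0),Row.mk (nat_lit 23688) (nat_lit 12529)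 (nat_lit 1842915967) (nat_lit 13464) (nat_lit 266213464) (nat_lit 0) (nat_lit 0),Row.mk (nat_lit 23856) (nat_lit 12342) (nat_lit 126347422) (nat_lit 13277) (nat_lit 2074249344) (nat_lit 0) (nat_lit 0),Row.mk (nat_lit 24024) (nat_lit 13090) (nat_lit 699429533) (nat_lit 14025) (nat_lit 1615407726) (nat_lit 0) (nat_lit 0),Row.mk (nat_lit 24192) (nat_lit 13838) (nat_lit 1415195266) (nat_lit 15147) (nat_lit 1042325614) (nat_lit 0) (nat_lit 0),Row.mk (nat_lit 24360) (nat_lit 14960) (nat_lit 2309169399) (nat_lit 16456) (nat_lit 326559882) (nat_lit 0) (nat_lit 0),Row.mk (nat_lit 24528) (nat_lit 14773) (nat_lit 708686710) (nat_lit 16269) (nat_lit 2149620563) (nat_lit 0) (nat_lit 0),Row.mk (nat_lit 24696) (nat_lit 16082) (nat_lit 2103233380) (nat_lit 17765) (nat_lit 1033068438) (nat_lit 0) (nat_lit 0),Row.mk (nat_lit 24864) (nat_lit 15895) (nat_lit 451477591) (nat_lit 17578) (nat_lit 3032032706) (nat_lit 0) (nat_lit 0),Row.mk (nat_lit 25032)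 (nat_lit 17391) (nat_lit 2626887754) (nat_lit 19635) (nat_lit 1290277557) (nat_lit 0) (nat_lit 0),Row.mk (nat_lit 25200) (nat_lit 17204) (nat_lit 1105509271) (nat_lit 19448) (nat_lit 3353280691) (nat_lit 0) (nat_lit 0),Row.mk (nat_lit 25368) (nat_lit 19261) (nat_lit 4499020209) (nat_lit 25806) (nat_lit 636245877) (nat_lit 0) (nat_lit 0),Row.mk (nat_lit 25536) (nat_lit 19074) (nat_lit 3443757545) (nat_lit 25619) (nat_lit 2536410900) (nat_lit 0) (nat_lit 0),Row.mk (nat_lit 25704) (nat_lit 18887) (nat_lit 2125759934) (nat_lit 25432) (nat_lit 4909671175) (nat_lit 0) (nat_lit 0),Row.mk (nat_lit 25872) (nat_lit 18700) (nat_lit 479612713) (nat_lit 25245) (nat_lit 7873816007) (nat_lit 0) (nat_lit 0),Row.mk (nat_lit 26040) (nat_lit 25058) (nat_lit 8737433506) (nat_lit 31603) (nat_lit 1262142435) (nat_lit 0) (nat_lit 0),Row.mk (nat_lit 26208) (nat_lit 24871) (nat_lit 8737433506) (nat_lit 31416) (nat_lit 3318140602) (nat_lit 0) (nat_lit 0),Row.mk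 (nat_lit 26376) (nat_lit 24684) (nat_lit 8737433506) (nat_lit 31229) (nat_lit 5886032715) (nat_lit 0) (nat_lit 0),Row.mk (nat_lit 26544) (nat_lit 24497) (nat_lit 8737433506) (nat_lit 31042) (nat_lit 9093268016) (nat_lit 0) (nat_lit 0),Row.mk (nat_lit 26712) (nat_lit 24310) (nat_lit 8737433506) (nat_lit 30855) (nat_lit 13099027537) (nat_lit 0) (nat_lit 0),Row.mk (nat_lit 26880) (nat_lit 24123) (nat_lit 8737433506) (nat_lit 30668) (nat_lit 18102124544) (nat_lit 0) (nat_lit 0),Row.mk (nat_lit 27048) (nat_lit 23936) (nat_lit 8737433506) (nat_lit 30481) (nat_lit 24350872012) (nat_lit 0) (nat_lit 0),Row.mk (nat_lit 27216) (nat_lit 23749) (nat_lit 8737433506) (nat_lit 30294) (nat_lit 32155406856) (nat_lit 0) (nat_lit 0),Row.mk (nat_lit 27384) (nat_lit 23562) (nat_lit 8737433506) (nat_lit 30107) (nat_lit 41903082602) (nat_lit 0) (nat_lit 0),Row.mk (nat_lit 27552) (nat_lit 23375) (nat_lit 8737433506) (nat_lit 29920) (nat_lit 54077694456) (nat_lit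 0) (nat_lit 0),Row.mk (nat_lit 27720) (nat_lit 23188) (nat_lit 8737433506) (nat_lit 29733) (nat_lit 69283490965) (nat_lit 0) (nat_lit 0),Row.mk (nat_lit 27888) (nat_lit 23001) (nat_lit 8737433506) (nat_lit 29546) (nat_lit 88275163983) (nat_lit 0) (nat_lit 0),Row.mk (nat_lit 28056) (nat_lit 22814) (nat_lit 8737433506) (nat_lit 29359) (nat_lit 111995305431) (nat_lit 0) (nat_lit 0),Row.mk (nat_lit 28224) (nat_lit 22627) (nat_lit 8737433506) (nat_lit 29172) (nat_lit 141621189879) (nat_lit 0) (nat_lit 0),Row.mk (nat_lit 28392) (nat_lit 22440) (nat_lit 8737433506) (nat_lit 28985) (nat_lit 178623204865) (nat_lit 0) (nat_lit 0),Row.mk (nat_lit 28560) (nat_lit 22253) (nat_lit 8737433506) (nat_lit 28798) (nat_lit 224837828954) (nat_lit 0) (nat_lit 0),Row.mk (nat_lit 28728) (nat_lit 22066) (nat_lit 8737433506) (nat_lit 28611) (nat_lit 282558779569) (nat_lit 0) (nat_lit 0),Row.mk (nat_lit 28896) (nat_lit 21879) (nat_lit 8737433506) (nat_lit 28424)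 (nat_lit 354650854438) (nat_lit 0) (nat_lit 0),Row.mk (nat_lit 29064) (nat_lit 21692) (nat_lit 8737433506) (nat_lit 28237) (nat_lit 444692116813) (nat_lit 0) (nat_lit 0),Row.mk (nat_lit 29232) (nat_lit 21505) (nat_lit 8737433506) (nat_lit 28050) (nat_lit 557151481383) (nat_lit 0) (nat_lit 0),Row.mk (nat_lit 29400) (nat_lit 21318) (nat_lit 8737433506) (nat_lit 27863) (nat_lit 697610514782) (nat_lit 0) (nat_lit 0),Row.mk (nat_lit 29568) (nat_lit 21131) (nat_lit 8737433506) (nat_lit 27676) (nat_lit 873040459091) (nat_lit 0) (nat_lit 0),Row.mk (nat_lit 29736) (nat_lit 20944) (nat_lit 8737433506) (nat_lit 27489) (nat_lit 1092148227496) (nat_lit 0) (nat_lit 0),Row.mk (nat_lit 29904) (nat_lit 32912) (nat_lit 1741755148) (nat_lit 62084) (nat_lit 1371062467729) (nat_lit 0) (nat_lit 0)],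
[Row.mk (nat_lit 14952) (nat_lit 32912) (nat_lit 3501) (nat_lit 61897) (nat_lit 2175406661) (nat_lit 0) (nat_lit 0),Row.mk (nat_lit 15120) (nat_lit 32912) (nat_lit 4373) (nat_lit 61897) (nat_lit 2175405789) (nat_lit 0) (nat_lit 0),Row.mk (nat_lit 15288) (nat_lit 32912) (nat_lit 5462) (nat_lit 61897) (nat_lit 2175404700) (nat_lit 0) (nat_lit 0),Row.mk (nat_lit 15456) (nat_lit 32912) (nat_lit 6822) (nat_lit 61897) (nat_lit 2175403340) (nat_lit 0) (nat_lit 0),Row.mk (nat_lit 15624) (nat_lit 32912) (nat_lit 8521) (nat_lit 61897) (nat_lit 2175401641) (nat_lit 0) (nat_lit 0),Row.mk (nat_lit 15792) (nat_lit 32912) (nat_lit 10643) (nat_lit 61897) (nat_lit 2175399519) (nat_lit 0) (nat_lit 0),Row.mk (nat_lit 15960) (nat_lit 32912) (nat_lit 13292) (nat_lit 61897) (nat_lit 2175396870) (nat_lit 0) (nat_lit 0),Row.mk (nat_lit 16128) (nat_lit 32912) (nat_lit 16602) (nat_lit 61897) (nat_lit 2175393560) (nat_lit 0) (nat_lit 0),Row.mk (nat_lit 16296)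 (nat_lit 32912) (nat_lit 20736) (nat_lit 61897) (nat_lit 2175389426) (nat_lit 0) (nat_lit 0),Row.mk (nat_lit 16464) (nat_lit 32912) (nat_lit 25899) (nat_lit 61897) (nat_lit 2175384263) (nat_lit 0) (nat_lit 0),Row.mk (nat_lit 16632) (nat_lit 32912) (nat_lit 32347) (nat_lit 61897) (nat_lit 2175377815) (nat_lit 0) (nat_lit 0),Row.mk (nat_lit 16800) (nat_lit 32912) (nat_lit 40401) (nat_lit 61897) (nat_lit 2175369761) (nat_lit 0) (nat_lit 0),Row.mk (nat_lit 16968) (nat_lit 32912) (nat_lit 50459) (nat_lit 61897) (nat_lit 2175359703) (nat_lit 0) (nat_lit 0),Row.mk (nat_lit 17136) (nat_lit 32912) (nat_lit 63023) (nat_lit 61897) (nat_lit 2175347139) (nat_lit 0) (nat_lit 0),Row.mk (nat_lit 17304) (nat_lit 32912) (nat_lit 78714) (nat_lit 61897) (nat_lit 2175331448) (nat_lit 0) (nat_lit 0),Row.mk (nat_lit 17472) (nat_lit 32912) (nat_lit 98312) (nat_lit 61897) (nat_lit 2175311850) (nat_lit 0) (nat_lit 0),Row.mk (nat_lit 17640) (nat_lit 32912)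 (nat_lit 122789) (nat_lit 61897) (nat_lit 2175287373) (nat_lit 0) (nat_lit 0),Row.mk (nat_lit 17808) (nat_lit 32912) (nat_lit 153361) (nat_lit 61897) (nat_lit 2175256801) (nat_lit 0) (nat_lit 0),Row.mk (nat_lit 17976) (nat_lit 32912) (nat_lit 191545) (nat_lit 61897) (nat_lit 2175218617) (nat_lit 0) (nat_lit 0),Row.mk (nat_lit 18144) (nat_lit 32912) (nat_lit 239235) (nat_lit 61897) (nat_lit 2175170927) (nat_lit 0) (nat_lit 0),Row.mk (nat_lit 18312) (nat_lit 32912) (nat_lit 298799) (nat_lit 61897) (nat_lit 2175111364) (nat_lit 0) (nat_lit 0),Row.mk (nat_lit 18480) (nat_lit 32912) (nat_lit 373192) (nat_lit 61897) (nat_lit 2175036970) (nat_lit 0) (nat_lit 0),Row.mk (nat_lit 18648) (nat_lit 32912) (nat_lit 466108) (nat_lit 61897) (nat_lit 2174944054) (nat_lit 0) (nat_lit 0),Row.mk (nat_lit 18816) (nat_lit 32912) (nat_lit 582158) (nat_lit 61897) (nat_lit 2174828004) (nat_lit 0) (nat_lit 0),Row.mk (nat_lit 18984) (nat_lit 32912) (nat_lit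 727102) (nat_lit 61897) (nat_lit 2174683061) (nat_lit 0) (nat_lit 0),Row.mk (nat_lit 19152) (nat_lit 32912) (nat_lit 908132) (nat_lit 61897) (nat_lit 2174502030) (nat_lit 0) (nat_lit 0),Row.mk (nat_lit 19320) (nat_lit 32912) (nat_lit 1134236) (nat_lit 61897) (nat_lit 2174275926) (nat_lit 0) (nat_lit 0),Row.mk (nat_lit 19488) (nat_lit 32912) (nat_lit 1416633) (nat_lit 61897) (nat_lit 2173993529) (nat_lit 0) (nat_lit 0),Row.mk (nat_lit 19656) (nat_lit 32912) (nat_lit 1769341) (nat_lit 61897) (nat_lit 2173640821) (nat_lit 0) (nat_lit 0),Row.mk (nat_lit 19824) (nat_lit 32912) (nat_lit 2209864) (nat_lit 61897) (nat_lit 2173200298) (nat_lit 0) (nat_lit 0),Row.mk (nat_lit 19992) (nat_lit 32912) (nat_lit 2760067) (nat_lit 61897) (nat_lit 2172650095) (nat_lit 0) (nat_lit 0),Row.mk (nat_lit 20160) (nat_lit 0) (nat_lit 17293005) (nat_lit 748) (nat_lit 2161564414) (nat_lit 0) (nat_lit 0),Row.mk (nat_lit 20328) (nat_lit 561) (nat_lit 21598546)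 (nat_lit 1309) (nat_lit 2158117157) (nat_lit 0) (nat_lit 0),Row.mk (nat_lit 20496) (nat_lit 1122) (nat_lit 26976063) (nat_lit 1870) (nat_lit 2153811616) (nat_lit 0) (nat_lit 0),Row.mk (nat_lit 20664) (nat_lit 1683) (nat_lit 33692452) (nat_lit 2431) (nat_lit 2148434099) (nat_lit 0) (nat_lit 0),Row.mk (nat_lit 20832) (nat_lit 2244) (nat_lit 42081060) (nat_lit 2992) (nat_lit 2141717710) (nat_lit 0) (nat_lit 0),Row.mk (nat_lit 21000) (nat_lit 2805) (nat_lit 52558229) (nat_lit 3553) (nat_lit 2133329102) (nat_lit 0) (nat_lit 0),Row.mk (nat_lit 21168) (nat_lit 3366) (nat_lit 65643961) (nat_lit 4114) (nat_lit 2122851933) (nat_lit 0) (nat_lit 0),Row.mk (nat_lit 21336) (nat_lit 3927) (nat_lit 81987724) (nat_lit 4675) (nat_lit 2109766201) (nat_lit 0) (nat_lit 0),Row.mk (nat_lit 21504) (nat_lit 4488) (nat_lit 102400689) (nat_lit 5236) (nat_lit 2093422438) (nat_lit 0) (nat_lit 0),Row.mk (nat_lit 21672) (nat_lit 5049) (nat_lit 127895991) (nat_lit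 5797) (nat_lit 2073009473) (nat_lit 0) (nat_lit 0),Row.mk (nat_lit 21840) (nat_lit 5610) (nat_lit 159739007) (nat_lit 6358) (nat_lit 2047514171) (nat_lit 0) (nat_lit 0),Row.mk (nat_lit 22008) (nat_lit 6171) (nat_lit 199510166) (nat_lit 6919) (nat_lit 2015671155) (nat_lit 0) (nat_lit 0),Row.mk (nat_lit 22176) (nat_lit 6732) (nat_lit 249183385) (nat_lit 7480) (nat_lit 1975899996) (nat_lit 0) (nat_lit 0),Row.mk (nat_lit 22344) (nat_lit 7293) (nat_lit 311224037) (nat_lit 8041) (nat_lit 1926226777) (nat_lit 0) (nat_lit 0),Row.mk (nat_lit 22512) (nat_lit 7854) (nat_lit 388711314) (nat_lit 8602) (nat_lit 1864186125) (nat_lit 0) (nat_lit 0),Row.mk (nat_lit 22680) (nat_lit 8415) (nat_lit 485491054) (nat_lit 9163) (nat_lit 1786698848) (nat_lit 0) (nat_lit 0),Row.mk (nat_lit 22848) (nat_lit 8976) (nat_lit 606366615) (nat_lit 9724) (nat_lit 1689919108) (nat_lit 0) (nat_lit 0),Row.mk (nat_lit 23016) (nat_lit 9537) (nat_lit 757337274) (nat_lit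 10285) (nat_lit 1569043547) (nat_lit 0) (nat_lit 0),Row.mk (nat_lit 23184) (nat_lit 10098) (nat_lit 945895986) (nat_lit 10846) (nat_lit 1418072888) (nat_lit 0) (nat_lit 0),Row.mk (nat_lit 23352) (nat_lit 10659) (nat_lit 1181401268) (nat_lit 11407) (nat_lit 1229514176) (nat_lit 0) (nat_lit 0),Row.mk (nat_lit 23520) (nat_lit 11220) (nat_lit 1475541683) (nat_lit 11968) (nat_lit 994008894) (nat_lit 0) (nat_lit 0),Row.mk (nat_lit 23688) (nat_lit 11781) (nat_lit 1842915967) (nat_lit 12716) (nat_lit 699868479) (nat_lit 0) (nat_lit 0),Row.mk (nat_lit 23856) (nat_lit 12529) (nat_lit 2301757585) (nat_lit 13464) (nat_lit 332494195) (nat_lit 0) (nat_lit 0),Row.mk (nat_lit 24024) (nat_lit 12342) (nat_lit 157804882) (nat_lit 13277) (nat_lit 2590687392) (nat_lit 0) (nat_lit 0),Row.mk (nat_lit 24192) (nat_lit 13090) (nat_lit 873570614) (nat_lit 14025) (nat_lit 2017605280) (nat_lit 0) (nat_lit 0),Row.mk (nat_lit 24360) (nat_lit 13838) (nat_lit 1767544747)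 (nat_lit 15147) (nat_lit 1301839548) (nat_lit 0) (nat_lit 0),Row.mk (nat_lit 24528) (nat_lit 14960) (nat_lit 2884096873) (nat_lit 16456) (nat_lit 407865415) (nat_lit 0) (nat_lit 0),Row.mk (nat_lit 24696) (nat_lit 14773) (nat_lit 885132605) (nat_lit 16269) (nat_lit 2684824227) (nat_lit 0) (nat_lit 0),Row.mk (nat_lit 24864) (nat_lit 16082) (nat_lit 2626887754) (nat_lit 17765) (nat_lit 1290277557) (nat_lit 0) (nat_lit 0),Row.mk (nat_lit 25032) (nat_lit 15895) (nat_lit 563884620) (nat_lit 17578) (nat_lit 3786935705) (nat_lit 0) (nat_lit 0),Row.mk (nat_lit 25200) (nat_lit 17391) (nat_lit 3280919434) (nat_lit 19635) (nat_lit 1611525542) (nat_lit 0) (nat_lit 0),Row.mk (nat_lit 25368) (nat_lit 17204) (nat_lit 1380754410) (nat_lit 19448) (nat_lit 4188166690) (nat_lit 0) (nat_lit 0),Row.mk (nat_lit 25536) (nat_lit 19261) (nat_lit 5619167708) (nat_lit 25806) (nat_lit 794655752) (nat_lit 0) (nat_lit 0),Row.mk (nat_lit 25704) (nat_lit 19074) (nat_lit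 4301170097) (nat_lit 25619) (nat_lit 3167916027) (nat_lit 0) (nat_lit 0),Row.mk (nat_lit 25872) (nat_lit 18887) (nat_lit 2655022876) (nat_lit 25432) (nat_lit 6132060858) (nat_lit 0) (nat_lit 0),Row.mk (nat_lit 26040) (nat_lit 18700) (nat_lit 599024709) (nat_lit 25245) (nat_lit 9834206247) (nat_lit 0) (nat_lit 0),Row.mk (nat_lit 26208) (nat_lit 25058) (nat_lit 10912843669) (nat_lit 31603) (nat_lit 1576385453) (nat_lit 0) (nat_lit 0),Row.mk (nat_lit 26376) (nat_lit 24871) (nat_lit 10912843669) (nat_lit 31416) (nat_lit 4144277566) (nat_lit 0) (nat_lit 0),Row.mk (nat_lit 26544) (nat_lit 24684) (nat_lit 10912843669) (nat_lit 31229) (nat_lit 7351512867) (nat_lit 0) (nat_lit 0),Row.mk (nat_lit 26712) (nat_lit 24497) (nat_lit 10912843669) (nat_lit 31042) (nat_lit 11357272388) (nat_lit 0) (nat_lit 0),Row.mk (nat_lit 26880) (nat_lit 24310) (nat_lit 10912843669) (nat_lit 30855) (nat_lit 16360369395) (nat_lit 0) (nat_lit 0),Row.mk (nat_lit 27048)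 (nat_lit 24123) (nat_lit 10912843669) (nat_lit 30668) (nat_lit 22609116863) (nat_lit 0) (nat_lit 0),Row.mk (nat_lit 27216) (nat_lit 23936) (nat_lit 10912843669) (nat_lit 30481) (nat_lit 30413651707) (nat_lit 0) (nat_lit 0),Row.mk (nat_lit 27384) (nat_lit 23749) (nat_lit 10912843669) (nat_lit 30294) (nat_lit 40161327453) (nat_lit 0) (nat_lit 0),Row.mk (nat_lit 27552) (nat_lit 23562) (nat_lit 10912843669) (nat_lit 30107) (nat_lit 52335939308) (nat_lit 0) (nat_lit 0),Row.mk (nat_lit 27720) (nat_lit 23375) (nat_lit 10912843669) (nat_lit 29920) (nat_lit 67541735816) (nat_lit 0) (nat_lit 0),Row.mk (nat_lit 27888) (nat_lit 23188) (nat_lit 10912843669) (nat_lit 29733) (nat_lit 86533408834) (nat_lit 0) (nat_lit 0),Row.mk (nat_lit 28056) (nat_lit 23001) (nat_lit 10912843669) (nat_lit 29546) (nat_lit 110253550282) (nat_lit 0) (nat_lit 0),Row.mk (nat_lit 28224) (nat_lit 22814) (nat_lit 10912843669) (nat_lit 29359) (nat_lit 139879434730) (nat_lit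 0) (nat_lit 0),Row.mk (nat_lit 28392) (nat_lit 22627) (nat_lit 10912843669) (nat_lit 29172) (nat_lit 176881449717) (nat_lit 0) (nat_lit 0),Row.mk (nat_lit 28560) (nat_lit 22440) (nat_lit 10912843669) (nat_lit 28985) (nat_lit 223096073806) (nat_lit 0) (nat_lit 0),Row.mk (nat_lit 28728) (nat_lit 22253) (nat_lit 10912843669) (nat_lit 28798) (nat_lit 280817024420) (nat_lit 0) (nat_lit 0),Row.mk (nat_lit 28896) (nat_lit 22066) (nat_lit 10912843669) (nat_lit 28611) (nat_lit 352909099289) (nat_lit 0) (nat_lit 0),Row.mk (nat_lit 29064) (nat_lit 21879) (nat_lit 10912843669) (nat_lit 28424) (nat_lit 442950361664) (nat_lit 0) (nat_lit 0),Row.mk (nat_lit 29232) (nat_lit 21692) (nat_lit 10912843669) (nat_lit 28237) (nat_lit 555409726234) (nat_lit 0) (nat_lit 0),Row.mk (nat_lit 29400) (nat_lit 21505) (nat_lit 10912843669) (nat_lit 28050) (nat_lit 695868759633) (nat_lit 0) (nat_lit 0),Row.mk (nat_lit 29568) (nat_lit 21318) (nat_lit 10912843669)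 (nat_lit 27863) (nat_lit 871298703943) (nat_lit 0) (nat_lit 0),Row.mk (nat_lit 29736) (nat_lit 21131) (nat_lit 10912843669) (nat_lit 27676) (nat_lit 1090406472347) (nat_lit 0) (nat_lit 0),Row.mk (nat_lit 29904) (nat_lit 20944) (nat_lit 10912843669) (nat_lit 27489) (nat_lit 1364066789372) (nat_lit 0) (nat_lit 0),Row.mk (nat_lit 30072) (nat_lit 32912) (nat_lit 2175410163) (nat_lit 62084) (nat_lit 1712423946950) (nat_lit 0) (nat_lit 0)],
[Row.mk (nat_lit 15120) (nat_lit 32912) (nat_lit 4373) (nat_lit 61897) (nat_lit 2717030440) (nat_lit 0) (nat_lit 0),Row.mk (nat_lit 15288) (nat_lit 32912) (nat_lit 5462) (nat_lit 61897) (nat_lit 2717029351) (nat_lit 0) (nat_lit 0),Row.mk (nat_lit 15456) (nat_lit 32912) (nat_lit 6822) (nat_lit 61897) (nat_lit 2717027991) (nat_lit 0) (nat_lit 0),Row.mk (nat_lit 15624) (nat_lit 32912) (nat_lit 8521) (nat_lit 61897) (nat_lit 2717026292) (nat_lit 0) (nat_lit 0),Row.mk (nat_lit 15792) (nat_lit 32912) (nat_lit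 10643) (nat_lit 61897) (nat_lit 2717024171) (nat_lit 0) (nat_lit 0),Row.mk (nat_lit 15960) (nat_lit 32912) (nat_lit 13292) (nat_lit 61897) (nat_lit 2717021521) (nat_lit 0) (nat_lit 0),Row.mk (nat_lit 16128) (nat_lit 32912) (nat_lit 16602) (nat_lit 61897) (nat_lit 2717018211) (nat_lit 0) (nat_lit 0),Row.mk (nat_lit 16296) (nat_lit 32912) (nat_lit 20736) (nat_lit 61897) (nat_lit 2717014078) (nat_lit 0) (nat_lit 0),Row.mk (nat_lit 16464) (nat_lit 32912) (nat_lit 25899) (nat_lit 61897) (nat_lit 2717008915) (nat_lit 0) (nat_lit 0),Row.mk (nat_lit 16632) (nat_lit 32912) (nat_lit 32347) (nat_lit 61897) (nat_lit 2717002467) (nat_lit 0) (nat_lit 0),Row.mk (nat_lit 16800) (nat_lit 32912) (nat_lit 40401) (nat_lit 61897) (nat_lit 2716994413) (nat_lit 0) (nat_lit 0),Row.mk (nat_lit 16968) (nat_lit 32912) (nat_lit 50459) (nat_lit 61897) (nat_lit 2716984354) (nat_lit 0) (nat_lit 0),Row.mk (nat_lit 17136) (nat_lit 32912) (nat_lit 63023) (nat_lit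 61897) (nat_lit 2716971791) (nat_lit 0) (nat_lit 0),Row.mk (nat_lit 17304) (nat_lit 32912) (nat_lit 78714) (nat_lit 61897) (nat_lit 2716956099) (nat_lit 0) (nat_lit 0),Row.mk (nat_lit 17472) (nat_lit 32912) (nat_lit 98312) (nat_lit 61897) (nat_lit 2716936501) (nat_lit 0) (nat_lit 0),Row.mk (nat_lit 17640) (nat_lit 32912) (nat_lit 122789) (nat_lit 61897) (nat_lit 2716912024) (nat_lit 0) (nat_lit 0),Row.mk (nat_lit 17808) (nat_lit 32912) (nat_lit 153361) (nat_lit 61897) (nat_lit 2716881452) (nat_lit 0) (nat_lit 0),Row.mk (nat_lit 17976) (nat_lit 32912) (nat_lit 191545) (nat_lit 61897) (nat_lit 2716843269) (nat_lit 0) (nat_lit 0),Row.mk (nat_lit 18144) (nat_lit 32912) (nat_lit 239235) (nat_lit 61897) (nat_lit 2716795579) (nat_lit 0) (nat_lit 0),Row.mk (nat_lit 18312) (nat_lit 32912) (nat_lit 298799) (nat_lit 61897) (nat_lit 2716736015) (nat_lit 0) (nat_lit 0),Row.mk (nat_lit 18480) (nat_lit 32912) (nat_lit 373192) (nat_lit 61897) (nat_lit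 2716661621) (nat_lit 0) (nat_lit 0),Row.mk (nat_lit 18648) (nat_lit 32912) (nat_lit 466108) (nat_lit 61897) (nat_lit 2716568705) (nat_lit 0) (nat_lit 0),Row.mk (nat_lit 18816) (nat_lit 32912) (nat_lit 582158) (nat_lit 61897) (nat_lit 2716452655) (nat_lit 0) (nat_lit 0),Row.mk (nat_lit 18984) (nat_lit 32912) (nat_lit 727102) (nat_lit 61897) (nat_lit 2716307712) (nat_lit 0) (nat_lit 0),Row.mk (nat_lit 19152) (nat_lit 32912) (nat_lit 908132) (nat_lit 61897) (nat_lit 2716126681) (nat_lit 0) (nat_lit 0),Row.mk (nat_lit 19320) (nat_lit 32912) (nat_lit 1134236) (nat_lit 61897) (nat_lit 2715900578) (nat_lit 0) (nat_lit 0),Row.mk (nat_lit 19488) (nat_lit 32912) (nat_lit 1416633) (nat_lit 61897) (nat_lit 2715618180) (nat_lit 0) (nat_lit 0),Row.mk (nat_lit 19656) (nat_lit 32912) (nat_lit 1769341) (nat_lit 61897) (nat_lit 2715265473) (nat_lit 0) (nat_lit 0),Row.mk (nat_lit 19824) (nat_lit 32912) (nat_lit 2209864) (nat_lit 61897) (nat_lit 2714824950)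 (nat_lit 0) (nat_lit 0),Row.mk (nat_lit 19992) (nat_lit 32912) (nat_lit 2760067) (nat_lit 61897) (nat_lit 2714274747) (nat_lit 0) (nat_lit 0),Row.mk (nat_lit 20160) (nat_lit 32912) (nat_lit 3447257) (nat_lit 61897) (nat_lit 2713587557) (nat_lit 0) (nat_lit 0),Row.mk (nat_lit 20328) (nat_lit 0) (nat_lit 21598546) (nat_lit 748) (nat_lit 2699741808) (nat_lit 0) (nat_lit 0),Row.mk (nat_lit 20496) (nat_lit 561) (nat_lit 26976063) (nat_lit 1309) (nat_lit 2695436267) (nat_lit 0) (nat_lit 0),Row.mk (nat_lit 20664) (nat_lit 1122) (nat_lit 33692452) (nat_lit 1870) (nat_lit 2690058750) (nat_lit 0) (nat_lit 0),Row.mk (nat_lit 20832) (nat_lit 1683) (nat_lit 42081060) (nat_lit 2431) (nat_lit 2683342361) (nat_lit 0) (nat_lit 0),Row.mk (nat_lit 21000) (nat_lit 2244) (nat_lit 52558229) (nat_lit 2992) (nat_lit 2674953753) (nat_lit 0) (nat_lit 0),Row.mk (nat_lit 21168) (nat_lit 2805) (nat_lit 65643961) (nat_lit 3553) (nat_lit 2664476584) (nat_lit 0)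 (nat_lit 0),Row.mk (nat_lit 21336) (nat_lit 3366) (nat_lit 81987724) (nat_lit 4114) (nat_lit 2651390853) (nat_lit 0) (nat_lit 0),Row.mk (nat_lit 21504) (nat_lit 3927) (nat_lit 102400689) (nat_lit 4675) (nat_lit 2635047090) (nat_lit 0) (nat_lit 0),Row.mk (nat_lit 21672) (nat_lit 4488) (nat_lit 127895991) (nat_lit 5236) (nat_lit 2614634124) (nat_lit 0) (nat_lit 0),Row.mk (nat_lit 21840) (nat_lit 5049) (nat_lit 159739007) (nat_lit 5797) (nat_lit 2589138823) (nat_lit 0) (nat_lit 0),Row.mk (nat_lit 22008) (nat_lit 5610) (nat_lit 199510166) (nat_lit 6358) (nat_lit 2557295806) (nat_lit 0) (nat_lit 0),Row.mk (nat_lit 22176) (nat_lit 6171) (nat_lit 249183385) (nat_lit 6919) (nat_lit 2517524647) (nat_lit 0) (nat_lit 0),Row.mk (nat_lit 22344) (nat_lit 6732) (nat_lit 311224037) (nat_lit 7480) (nat_lit 2467851429) (nat_lit 0) (nat_lit 0),Row.mk (nat_lit 22512) (nat_lit 7293) (nat_lit 388711314) (nat_lit 8041) (nat_lit 2405810777) (nat_lit 0) (nat_lit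 0),Row.mk (nat_lit 22680) (nat_lit 7854) (nat_lit 485491054) (nat_lit 8602) (nat_lit 2328323499) (nat_lit 0) (nat_lit 0),Row.mk (nat_lit 22848) (nat_lit 8415) (nat_lit 606366615) (nat_lit 9163) (nat_lit 2231543759) (nat_lit 0) (nat_lit 0),Row.mk (nat_lit 23016) (nat_lit 8976) (nat_lit 757337274) (nat_lit 9724) (nat_lit 2110668199) (nat_lit 0) (nat_lit 0),Row.mk (nat_lit 23184) (nat_lit 9537) (nat_lit 945895986) (nat_lit 10285) (nat_lit 1959697539) (nat_lit 0) (nat_lit 0),Row.mk (nat_lit 23352) (nat_lit 10098) (nat_lit 1181401268) (nat_lit 10846) (nat_lit 1771138828) (nat_lit 0) (nat_lit 0),Row.mk (nat_lit 23520) (nat_lit 10659) (nat_lit 1475541683) (nat_lit 11407) (nat_lit 1535633546) (nat_lit 0) (nat_lit 0),Row.mk (nat_lit 23688) (nat_lit 11220) (nat_lit 1842915967) (nat_lit 11968) (nat_lit 1241493130) (nat_lit 0) (nat_lit 0),Row.mk (nat_lit 23856) (nat_lit 11781) (nat_lit 2301757585) (nat_lit 12716) (nat_lit 874118846) (nat_lit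 0) (nat_lit 0),Row.mk (nat_lit 24024) (nat_lit 12529) (nat_lit 2874839696) (nat_lit 13464) (nat_lit 415277229) (nat_lit 0) (nat_lit 0),Row.mk (nat_lit 24192) (nat_lit 12342) (nat_lit 197094491) (nat_lit 13277) (nat_lit 3235706055) (nat_lit 0) (nat_lit 0),Row.mk (nat_lit 24360) (nat_lit 13090) (nat_lit 1091068624) (nat_lit 14025) (nat_lit 2519940323) (nat_lit 0) (nat_lit 0),Row.mk (nat_lit 24528) (nat_lit 13838) (nat_lit 2207620750) (nat_lit 15147) (nat_lit 1625966190) (nat_lit 0) (nat_lit 0),Row.mk (nat_lit 24696) (nat_lit 14960) (nat_lit 3602167419) (nat_lit 16456) (nat_lit 509414064) (nat_lit 0) (nat_lit 0),Row.mk (nat_lit 24864) (nat_lit 14773) (nat_lit 1105509271) (nat_lit 16269) (nat_lit 3353280691) (nat_lit 0) (nat_lit 0),Row.mk (nat_lit 25032) (nat_lit 16082) (nat_lit 3280919434) (nat_lit 17765) (nat_lit 1611525542) (nat_lit 0) (nat_lit 0),Row.mk (nat_lit 25200) (nat_lit 15895) (nat_lit 704278287) (nat_lit 17578) (nat_lit 4729791341)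 (nat_lit 0) (nat_lit 0),Row.mk (nat_lit 25368) (nat_lit 17391) (nat_lit 4097789225) (nat_lit 19635) (nat_lit 2012756527) (nat_lit 0) (nat_lit 0),Row.mk (nat_lit 25536) (nat_lit 17204) (nat_lit 1724528950) (nat_lit 19448) (nat_lit 5230919161) (nat_lit 0) (nat_lit 0),Row.mk (nat_lit 25704) (nat_lit 19261) (nat_lit 7018204911) (nat_lit 25806) (nat_lit 992505864) (nat_lit 0) (nat_lit 0),Row.mk (nat_lit 25872) (nat_lit 19074) (nat_lit 5372057691) (nat_lit 25619) (nat_lit 3956650695) (nat_lit 0) (nat_lit 0),Row.mk (nat_lit 26040) (nat_lit 18887) (nat_lit 3316059523) (nat_lit 25432) (nat_lit 7658796084) (nat_lit 0) (nat_lit 0),Row.mk (nat_lit 26208) (nat_lit 18700) (nat_lit 748167410) (nat_lit 25245) (nat_lit 12282686364) (nat_lit 0) (nat_lit 0),Row.mk (nat_lit 26376) (nat_lit 25058) (nat_lit 13629878484) (nat_lit 31603) (nat_lit 1968867403) (nat_lit 0) (nat_lit 0),Row.mk (nat_lit 26544) (nat_lit 24871) (nat_lit 13629878484) (nat_lit 31416)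 (nat_lit 5176102704) (nat_lit 0) (nat_lit 0),Row.mk (nat_lit 26712) (nat_lit 24684) (nat_lit 13629878484) (nat_lit 31229) (nat_lit 9181862225) (nat_lit 0) (nat_lit 0),Row.mk (nat_lit 26880) (nat_lit 24497) (nat_lit 13629878484) (nat_lit 31042) (nat_lit 14184959232) (nat_lit 0) (nat_lit 0),Row.mk (nat_lit 27048) (nat_lit 24310) (nat_lit 13629878484) (nat_lit 30855) (nat_lit 20433706700) (nat_lit 0) (nat_lit 0),Row.mk (nat_lit 27216) (nat_lit 24123) (nat_lit 13629878484) (nat_lit 30668) (nat_lit 28238241544) (nat_lit 0) (nat_lit 0),Row.mk (nat_lit 27384) (nat_lit 23936) (nat_lit 13629878484) (nat_lit 30481) (nat_lit 37985917290) (nat_lit 0) (nat_lit 0),Row.mk (nat_lit 27552) (nat_lit 23749) (nat_lit 13629878484) (nat_lit 30294) (nat_lit 50160529145) (nat_lit 0) (nat_lit 0),Row.mk (nat_lit 27720) (nat_lit 23562) (nat_lit 13629878484) (nat_lit 30107) (nat_lit 65366325653) (nat_lit 0) (nat_lit 0),Row.mk (nat_lit 27888) (nat_lit 23375)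 (nat_lit 13629878484) (nat_lit 29920) (nat_lit 84357998671) (nat_lit 0) (nat_lit 0),Row.mk (nat_lit 28056) (nat_lit 23188) (nat_lit 13629878484) (nat_lit 29733) (nat_lit 108078140119) (nat_lit 0) (nat_lit 0),Row.mk (nat_lit 28224) (nat_lit 23001) (nat_lit 13629878484) (nat_lit 29546) (nat_lit 137704024567) (nat_lit 0) (nat_lit 0),Row.mk (nat_lit 28392) (nat_lit 22814) (nat_lit 13629878484) (nat_lit 29359) (nat_lit 174706039554) (nat_lit 0) (nat_lit 0),Row.mk (nat_lit 28560) (nat_lit 22627) (nat_lit 13629878484) (nat_lit 29172) (nat_lit 220920663643) (nat_lit 0) (nat_lit 0),Row.mk (nat_lit 28728) (nat_lit 22440) (nat_lit 13629878484) (nat_lit 28985) (nat_lit 278641614257) (nat_lit 0) (nat_lit 0),Row.mk (nat_lit 28896) (nat_lit 22253) (nat_lit 13629878484) (nat_lit 28798) (nat_lit 350733689126) (nat_lit 0) (nat_lit 0),Row.mk (nat_lit 29064) (nat_lit 22066) (nat_lit 13629878484) (nat_lit 28611) (nat_lit 440774951501) (nat_lit 0) (nat_lit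 0),Row.mk (nat_lit 29232) (nat_lit 21879) (nat_lit 13629878484) (nat_lit 28424) (nat_lit 553234316071) (nat_lit 0) (nat_lit 0),Row.mk (nat_lit 29400) (nat_lit 21692) (nat_lit 13629878484) (nat_lit 28237) (nat_lit 693693349470) (nat_lit 0) (nat_lit 0),Row.mk (nat_lit 29568) (nat_lit 21505) (nat_lit 13629878484) (nat_lit 28050) (nat_lit 869123293780) (nat_lit 0) (nat_lit 0),Row.mk (nat_lit 29736) (nat_lit 21318) (nat_lit 13629878484) (nat_lit 27863) (nat_lit 1088231062184) (nat_lit 0) (nat_lit 0),Row.mk (nat_lit 29904) (nat_lit 21131) (nat_lit 13629878484) (nat_lit 27676) (nat_lit 1361891379209) (nat_lit 0) (nat_lit 0),Row.mk (nat_lit 30072) (nat_lit 20944) (nat_lit 13629878484) (nat_lit 27489) (nat_lit 1703686513444) (nat_lit 0) (nat_lit 0),Row.mk (nat_lit 30240) (nat_lit 32912) (nat_lit 2717034814) (nat_lit 62084) (nat_lit 2138776199559) (nat_lit 0) (nat_lit 0)],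
[Row.mk (nat_lit 15288) (nat_lit 32912) (nat_lit 5462) (nat_lit 61897) (nat_lit 3393505475) (nat_lit 0) (nat_lit 0),Row.mk (nat_lit 15456) (nat_lit 32912) (nat_lit 6822) (nat_lit 61897) (nat_lit 3393504115) (nat_lit 0) (nat_lit 0),Row.mk (nat_lit 15624) (nat_lit 32912) (nat_lit 8521) (nat_lit 61897) (nat_lit 3393502416) (nat_lit 0) (nat_lit 0),Row.mk (nat_lit 15792) (nat_lit 32912) (nat_lit 10643) (nat_lit 61897) (nat_lit 3393500294) (nat_lit 0) (nat_lit 0),Row.mk (nat_lit 15960) (nat_lit 32912) (nat_lit 13292) (nat_lit 61897) (nat_lit 3393497645) (nat_lit 0) (nat_lit 0),Row.mk (nat_lit 16128) (nat_lit 32912) (nat_lit 16602) (nat_lit 61897) (nat_lit 3393494335) (nat_lit 0) (nat_lit 0),Row.mk (nat_lit 16296) (nat_lit 32912) (nat_lit 20736) (nat_lit 61897) (nat_lit 3393490201) (nat_lit 0) (nat_lit 0),Row.mk (nat_lit 16464) (nat_lit 32912) (nat_lit 25899) (nat_lit 61897) (nat_lit 3393485038) (nat_lit 0) (nat_lit 0),Row.mk (nat_lit 16632)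 (nat_lit 32912) (nat_lit 32347) (nat_lit 61897) (nat_lit 3393478590) (nat_lit 0) (nat_lit 0),Row.mk (nat_lit 16800) (nat_lit 32912) (nat_lit 40401) (nat_lit 61897) (nat_lit 3393470536) (nat_lit 0) (nat_lit 0),Row.mk (nat_lit 16968) (nat_lit 32912) (nat_lit 50459) (nat_lit 61897) (nat_lit 3393460478) (nat_lit 0) (nat_lit 0),Row.mk (nat_lit 17136) (nat_lit 32912) (nat_lit 63023) (nat_lit 61897) (nat_lit 3393447914) (nat_lit 0) (nat_lit 0),Row.mk (nat_lit 17304) (nat_lit 32912) (nat_lit 78714) (nat_lit 61897) (nat_lit 3393432223) (nat_lit 0) (nat_lit 0),Row.mk (nat_lit 17472) (nat_lit 32912) (nat_lit 98312) (nat_lit 61897) (nat_lit 3393412625) (nat_lit 0) (nat_lit 0),Row.mk (nat_lit 17640) (nat_lit 32912) (nat_lit 122789) (nat_lit 61897) (nat_lit 3393388148) (nat_lit 0) (nat_lit 0),Row.mk (nat_lit 17808) (nat_lit 32912) (nat_lit 153361) (nat_lit 61897) (nat_lit 3393357576) (nat_lit 0) (nat_lit 0),Row.mk (nat_lit 17976) (nat_lit 32912)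 (nat_lit 191545) (nat_lit 61897) (nat_lit 3393319392) (nat_lit 0) (nat_lit 0),Row.mk (nat_lit 18144) (nat_lit 32912) (nat_lit 239235) (nat_lit 61897) (nat_lit 3393271702) (nat_lit 0) (nat_lit 0),Row.mk (nat_lit 18312) (nat_lit 32912) (nat_lit 298799) (nat_lit 61897) (nat_lit 3393212139) (nat_lit 0) (nat_lit 0),Row.mk (nat_lit 18480) (nat_lit 32912) (nat_lit 373192) (nat_lit 61897) (nat_lit 3393137745) (nat_lit 0) (nat_lit 0),Row.mk (nat_lit 18648) (nat_lit 32912) (nat_lit 466108) (nat_lit 61897) (nat_lit 3393044829) (nat_lit 0) (nat_lit 0),Row.mk (nat_lit 18816) (nat_lit 32912) (nat_lit 582158) (nat_lit 61897) (nat_lit 3392928779) (nat_lit 0) (nat_lit 0),Row.mk (nat_lit 18984) (nat_lit 32912) (nat_lit 727102) (nat_lit 61897) (nat_lit 3392783836) (nat_lit 0) (nat_lit 0),Row.mk (nat_lit 19152) (nat_lit 32912) (nat_lit 908132) (nat_lit 61897) (nat_lit 3392602805) (nat_lit 0) (nat_lit 0),Row.mk (nat_lit 19320) (nat_lit 32912) (nat_lit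 1134236) (nat_lit 61897) (nat_lit 3392376701) (nat_lit 0) (nat_lit 0),Row.mk (nat_lit 19488) (nat_lit 32912) (nat_lit 1416633) (nat_lit 61897) (nat_lit 3392094304) (nat_lit 0) (nat_lit 0),Row.mk (nat_lit 19656) (nat_lit 32912) (nat_lit 1769341) (nat_lit 61897) (nat_lit 3391741596) (nat_lit 0) (nat_lit 0),Row.mk (nat_lit 19824) (nat_lit 32912) (nat_lit 2209864) (nat_lit 61897) (nat_lit 3391301073) (nat_lit 0) (nat_lit 0),Row.mk (nat_lit 19992) (nat_lit 32912) (nat_lit 2760067) (nat_lit 61897) (nat_lit 3390750870) (nat_lit 0) (nat_lit 0),Row.mk (nat_lit 20160) (nat_lit 32912) (nat_lit 3447257) (nat_lit 61897) (nat_lit 3390063680) (nat_lit 0) (nat_lit 0),Row.mk (nat_lit 20328) (nat_lit 32912) (nat_lit 4305541) (nat_lit 61897) (nat_lit 3389205396) (nat_lit 0) (nat_lit 0),Row.mk (nat_lit 20496) (nat_lit 0) (nat_lit 26976063) (nat_lit 748) (nat_lit 3371912391) (nat_lit 0) (nat_lit 0),Row.mk (nat_lit 20664) (nat_lit 561) (nat_lit 33692452)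 (nat_lit 1309) (nat_lit 3366534874) (nat_lit 0) (nat_lit 0),Row.mk (nat_lit 20832) (nat_lit 1122) (nat_lit 42081060) (nat_lit 1870) (nat_lit 3359818485) (nat_lit 0) (nat_lit 0),Row.mk (nat_lit 21000) (nat_lit 1683) (nat_lit 52558229) (nat_lit 2431) (nat_lit 3351429877) (nat_lit 0) (nat_lit 0),Row.mk (nat_lit 21168) (nat_lit 2244) (nat_lit 65643961) (nat_lit 2992) (nat_lit 3340952708) (nat_lit 0) (nat_lit 0),Row.mk (nat_lit 21336) (nat_lit 2805) (nat_lit 81987724) (nat_lit 3553) (nat_lit 3327866976) (nat_lit 0) (nat_lit 0),Row.mk (nat_lit 21504) (nat_lit 3366) (nat_lit 102400689) (nat_lit 4114) (nat_lit 3311523213) (nat_lit 0) (nat_lit 0),Row.mk (nat_lit 21672) (nat_lit 3927) (nat_lit 127895991) (nat_lit 4675) (nat_lit 3291110248) (nat_lit 0) (nat_lit 0),Row.mk (nat_lit 21840) (nat_lit 4488) (nat_lit 159739007) (nat_lit 5236) (nat_lit 3265614946) (nat_lit 0) (nat_lit 0),Row.mk (nat_lit 22008) (nat_lit 5049) (nat_lit 199510166) (nat_lit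 5797) (nat_lit 3233771930) (nat_lit 0) (nat_lit 0),Row.mk (nat_lit 22176) (nat_lit 5610) (nat_lit 249183385) (nat_lit 6358) (nat_lit 3194000771) (nat_lit 0) (nat_lit 0),Row.mk (nat_lit 22344) (nat_lit 6171) (nat_lit 311224037) (nat_lit 6919) (nat_lit 3144327552) (nat_lit 0) (nat_lit 0),Row.mk (nat_lit 22512) (nat_lit 6732) (nat_lit 388711314) (nat_lit 7480) (nat_lit 3082286900) (nat_lit 0) (nat_lit 0),Row.mk (nat_lit 22680) (nat_lit 7293) (nat_lit 485491054) (nat_lit 8041) (nat_lit 3004799623) (nat_lit 0) (nat_lit 0),Row.mk (nat_lit 22848) (nat_lit 7854) (nat_lit 606366615) (nat_lit 8602) (nat_lit 2908019883) (nat_lit 0) (nat_lit 0),Row.mk (nat_lit 23016) (nat_lit 8415) (nat_lit 757337274) (nat_lit 9163) (nat_lit 2787144322) (nat_lit 0) (nat_lit 0),Row.mk (nat_lit 23184) (nat_lit 8976) (nat_lit 945895986) (nat_lit 9724) (nat_lit 2636173663) (nat_lit 0) (nat_lit 0),Row.mk (nat_lit 23352) (nat_lit 9537) (nat_lit 1181401268) (nat_lit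 10285) (nat_lit 2447614951) (nat_lit 0) (nat_lit 0),Row.mk (nat_lit 23520) (nat_lit 10098) (nat_lit 1475541683) (nat_lit 10846) (nat_lit 2212109669) (nat_lit 0) (nat_lit 0),Row.mk (nat_lit 23688) (nat_lit 10659) (nat_lit 1842915967) (nat_lit 11407) (nat_lit 1917969254) (nat_lit 0) (nat_lit 0),Row.mk (nat_lit 23856) (nat_lit 11220) (nat_lit 2301757585) (nat_lit 11968) (nat_lit 1550594970) (nat_lit 0) (nat_lit 0),Row.mk (nat_lit 24024) (nat_lit 11781) (nat_lit 2874839696) (nat_lit 12716) (nat_lit 1091753352) (nat_lit 0) (nat_lit 0),Row.mk (nat_lit 24192) (nat_lit 12529) (nat_lit 3590605429) (nat_lit 13464) (nat_lit 518671241) (nat_lit 0) (nat_lit 0),Row.mk (nat_lit 24360) (nat_lit 12342) (nat_lit 246166265) (nat_lit 13277) (nat_lit 4041318805) (nat_lit 0) (nat_lit 0),Row.mk (nat_lit 24528) (nat_lit 13090) (nat_lit 1362718391) (nat_lit 14025) (nat_lit 3147344672) (nat_lit 0) (nat_lit 0),Row.mk (nat_lit 24696) (nat_lit 13838) (nat_lit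 2757265060) (nat_lit 15147) (nat_lit 2030792547) (nat_lit 0) (nat_lit 0),Row.mk (nat_lit 24864) (nat_lit 14960) (nat_lit 4499020209) (nat_lit 16456) (nat_lit 636245877) (nat_lit 0) (nat_lit 0),Row.mk (nat_lit 25032) (nat_lit 14773) (nat_lit 1380754410) (nat_lit 16269) (nat_lit 4188166690) (nat_lit 0) (nat_lit 0),Row.mk (nat_lit 25200) (nat_lit 16082) (nat_lit 4097789225) (nat_lit 17765) (nat_lit 2012756527) (nat_lit 0) (nat_lit 0),Row.mk (nat_lit 25368) (nat_lit 15895) (nat_lit 879626591) (nat_lit 17578) (nat_lit 5907395284) (nat_lit 0) (nat_lit 0),Row.mk (nat_lit 25536) (nat_lit 17391) (nat_lit 5118039888) (nat_lit 19635) (nat_lit 2513884346) (nat_lit 0) (nat_lit 0),Row.mk (nat_lit 25704) (nat_lit 17204) (nat_lit 2153895056) (nat_lit 19448) (nat_lit 6533291842) (nat_lit 0) (nat_lit 0),Row.mk (nat_lit 25872) (nat_lit 19261) (nat_lit 8765568629) (nat_lit 25806) (nat_lit 1239615881) (nat_lit 0) (nat_lit 0),Row.mk (nat_lit 26040) (nat_lit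 19074) (nat_lit 6709570461) (nat_lit 25619) (nat_lit 4941761269) (nat_lit 0) (nat_lit 0),Row.mk (nat_lit 26208) (nat_lit 18887) (nat_lit 4141678348) (nat_lit 25432) (nat_lit 9565651549) (nat_lit 0) (nat_lit 0),Row.mk (nat_lit 26376) (nat_lit 18700) (nat_lit 934443047) (nat_lit 25245) (nat_lit 15340778963) (nat_lit 0) (nat_lit 0),Row.mk (nat_lit 26544) (nat_lit 25058) (nat_lit 17023389422) (nat_lit 31603) (nat_lit 2459067890) (nat_lit 0) (nat_lit 0),Row.mk (nat_lit 26712) (nat_lit 24871) (nat_lit 17023389422) (nat_lit 31416) (nat_lit 6464827411) (nat_lit 0) (nat_lit 0),Row.mk (nat_lit 26880) (nat_lit 24684) (nat_lit 17023389422) (nat_lit 31229) (nat_lit 11467924418) (nat_lit 0) (nat_lit 0),Row.mk (nat_lit 27048) (nat_lit 24497) (nat_lit 17023389422) (nat_lit 31042) (nat_lit 17716671886) (nat_lit 0) (nat_lit 0),Row.mk (nat_lit 27216) (nat_lit 24310) (nat_lit 17023389422) (nat_lit 30855) (nat_lit 25521206730) (nat_lit 0) (nat_lit 0),Row.mk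 (nat_lit 27384) (nat_lit 24123) (nat_lit 17023389422) (nat_lit 30668) (nat_lit 35268882475) (nat_lit 0) (nat_lit 0),Row.mk (nat_lit 27552) (nat_lit 23936) (nat_lit 17023389422) (nat_lit 30481) (nat_lit 47443494330) (nat_lit 0) (nat_lit 0),Row.mk (nat_lit 27720) (nat_lit 23749) (nat_lit 17023389422) (nat_lit 30294) (nat_lit 62649290839) (nat_lit 0) (nat_lit 0),Row.mk (nat_lit 27888) (nat_lit 23562) (nat_lit 17023389422) (nat_lit 30107) (nat_lit 81640963857) (nat_lit 0) (nat_lit 0),Row.mk (nat_lit 28056) (nat_lit 23375) (nat_lit 17023389422) (nat_lit 29920) (nat_lit 105361105304) (nat_lit 0) (nat_lit 0),Row.mk (nat_lit 28224) (nat_lit 23188) (nat_lit 17023389422) (nat_lit 29733) (nat_lit 134986989753) (nat_lit 0) (nat_lit 0),Row.mk (nat_lit 28392) (nat_lit 23001) (nat_lit 17023389422) (nat_lit 29546) (nat_lit 171989004739) (nat_lit 0) (nat_lit 0),Row.mk (nat_lit 28560) (nat_lit 22814) (nat_lit 17023389422) (nat_lit 29359) (nat_lit 218203628828)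 (nat_lit 0) (nat_lit 0),Row.mk (nat_lit 28728) (nat_lit 22627) (nat_lit 17023389422) (nat_lit 29172) (nat_lit 275924579443) (nat_lit 0) (nat_lit 0),Row.mk (nat_lit 28896) (nat_lit 22440) (nat_lit 17023389422) (nat_lit 28985) (nat_lit 348016654311) (nat_lit 0) (nat_lit 0),Row.mk (nat_lit 29064) (nat_lit 22253) (nat_lit 17023389422) (nat_lit 28798) (nat_lit 438057916687) (nat_lit 0) (nat_lit 0),Row.mk (nat_lit 29232) (nat_lit 22066) (nat_lit 17023389422) (nat_lit 28611) (nat_lit 550517281256) (nat_lit 0) (nat_lit 0),Row.mk (nat_lit 29400) (nat_lit 21879) (nat_lit 17023389422) (nat_lit 28424) (nat_lit 690976314656) (nat_lit 0) (nat_lit 0),Row.mk (nat_lit 29568) (nat_lit 21692) (nat_lit 17023389422) (nat_lit 28237) (nat_lit 866406258965) (nat_lit 0) (nat_lit 0),Row.mk (nat_lit 29736) (nat_lit 21505) (nat_lit 17023389422) (nat_lit 28050) (nat_lit 1085514027370) (nat_lit 0) (nat_lit 0),Row.mk (nat_lit 29904) (nat_lit 21318) (nat_lit 17023389422)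 (nat_lit 27863) (nat_lit 1359174344394) (nat_lit 0) (nat_lit 0),Row.mk (nat_lit 30072) (nat_lit 21131) (nat_lit 17023389422) (nat_lit 27676) (nat_lit 1700969478629) (nat_lit 0) (nat_lit 0),Row.mk (nat_lit 30240) (nat_lit 20944) (nat_lit 17023389422) (nat_lit 27489) (nat_lit 2127863355890) (nat_lit 0) (nat_lit 0),Row.mk (nat_lit 30408) (nat_lit 32912) (nat_lit 3393510938) (nat_lit 62084) (nat_lit 2671279877830) (nat_lit 0) (nat_lit 0)],
[Row.mk (nat_lit 15456) (nat_lit 32912) (nat_lit 6822) (nat_lit 61897) (nat_lit 4238406474) (nat_lit 0) (nat_lit 0),Row.mk (nat_lit 15624) (nat_lit 32912) (nat_lit 8521) (nat_lit 61897) (nat_lit 4238404775) (nat_lit 0) (nat_lit 0),Row.mk (nat_lit 15792) (nat_lit 32912) (nat_lit 10643) (nat_lit 61897) (nat_lit 4238402654) (nat_lit 0) (nat_lit 0),Row.mk (nat_lit 15960) (nat_lit 32912) (nat_lit 13292) (nat_lit 61897) (nat_lit 4238400004) (nat_lit 0) (nat_lit 0),Row.mk (nat_lit 16128) (nat_lit 32912) (nat_lit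 16602) (nat_lit 61897) (nat_lit 4238396694) (nat_lit 0) (nat_lit 0),Row.mk (nat_lit 16296) (nat_lit 32912) (nat_lit 20736) (nat_lit 61897) (nat_lit 4238392560) (nat_lit 0) (nat_lit 0),Row.mk (nat_lit 16464) (nat_lit 32912) (nat_lit 25899) (nat_lit 61897) (nat_lit 4238387398) (nat_lit 0) (nat_lit 0),Row.mk (nat_lit 16632) (nat_lit 32912) (nat_lit 32347) (nat_lit 61897) (nat_lit 4238380949) (nat_lit 0) (nat_lit 0),Row.mk (nat_lit 16800) (nat_lit 32912) (nat_lit 40401) (nat_lit 61897) (nat_lit 4238372896) (nat_lit 0) (nat_lit 0),Row.mk (nat_lit 16968) (nat_lit 32912) (nat_lit 50459) (nat_lit 61897) (nat_lit 4238362837) (nat_lit 0) (nat_lit 0),Row.mk (nat_lit 17136) (nat_lit 32912) (nat_lit 63023) (nat_lit 61897) (nat_lit 4238350273) (nat_lit 0) (nat_lit 0),Row.mk (nat_lit 17304) (nat_lit 32912) (nat_lit 78714) (nat_lit 61897) (nat_lit 4238334582) (nat_lit 0) (nat_lit 0),Row.mk (nat_lit 17472) (nat_lit 32912) (nat_lit 98312) (nat_lit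 61897) (nat_lit 4238314984) (nat_lit 0) (nat_lit 0),Row.mk (nat_lit 17640) (nat_lit 32912) (nat_lit 122789) (nat_lit 61897) (nat_lit 4238290507) (nat_lit 0) (nat_lit 0),Row.mk (nat_lit 17808) (nat_lit 32912) (nat_lit 153361) (nat_lit 61897) (nat_lit 4238259935) (nat_lit 0) (nat_lit 0),Row.mk (nat_lit 17976) (nat_lit 32912) (nat_lit 191545) (nat_lit 61897) (nat_lit 4238221752) (nat_lit 0) (nat_lit 0),Row.mk (nat_lit 18144) (nat_lit 32912) (nat_lit 239235) (nat_lit 61897) (nat_lit 4238174061) (nat_lit 0) (nat_lit 0),Row.mk (nat_lit 18312) (nat_lit 32912) (nat_lit 298799) (nat_lit 61897) (nat_lit 4238114498) (nat_lit 0) (nat_lit 0),Row.mk (nat_lit 18480) (nat_lit 32912) (nat_lit 373192) (nat_lit 61897) (nat_lit 4238040104) (nat_lit 0) (nat_lit 0),Row.mk (nat_lit 18648) (nat_lit 32912) (nat_lit 466108) (nat_lit 61897) (nat_lit 4237947188) (nat_lit 0) (nat_lit 0),Row.mk (nat_lit 18816) (nat_lit 32912) (nat_lit 582158) (nat_lit 61897) (nat_lit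 4237831138) (nat_lit 0) (nat_lit 0),Row.mk (nat_lit 18984) (nat_lit 32912) (nat_lit 727102) (nat_lit 61897) (nat_lit 4237686195) (nat_lit 0) (nat_lit 0),Row.mk (nat_lit 19152) (nat_lit 32912) (nat_lit 908132) (nat_lit 61897) (nat_lit 4237505164) (nat_lit 0) (nat_lit 0),Row.mk (nat_lit 19320) (nat_lit 32912) (nat_lit 1134236) (nat_lit 61897) (nat_lit 4237279061) (nat_lit 0) (nat_lit 0),Row.mk (nat_lit 19488) (nat_lit 32912) (nat_lit 1416633) (nat_lit 61897) (nat_lit 4236996663) (nat_lit 0) (nat_lit 0),Row.mk (nat_lit 19656) (nat_lit 32912) (nat_lit 1769341) (nat_lit 61897) (nat_lit 4236643956) (nat_lit 0) (nat_lit 0),Row.mk (nat_lit 19824) (nat_lit 32912) (nat_lit 2209864) (nat_lit 61897) (nat_lit 4236203432) (nat_lit 0) (nat_lit 0),Row.mk (nat_lit 19992) (nat_lit 32912) (nat_lit 2760067) (nat_lit 61897) (nat_lit 4235653230) (nat_lit 0) (nat_lit 0),Row.mk (nat_lit 20160) (nat_lit 32912) (nat_lit 3447257) (nat_lit 61897) (nat_lit 4234966039)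 (nat_lit 0) (nat_lit 0),Row.mk (nat_lit 20328) (nat_lit 32912) (nat_lit 4305541) (nat_lit 61897) (nat_lit 4234107755) (nat_lit 0) (nat_lit 0),Row.mk (nat_lit 20496) (nat_lit 32912) (nat_lit 5377517) (nat_lit 61897) (nat_lit 4233035780) (nat_lit 0) (nat_lit 0),Row.mk (nat_lit 20664) (nat_lit 0) (nat_lit 33692452) (nat_lit 748) (nat_lit 4211437233) (nat_lit 0) (nat_lit 0),Row.mk (nat_lit 20832) (nat_lit 561) (nat_lit 42081060) (nat_lit 1309) (nat_lit 4204720844) (nat_lit 0) (nat_lit 0),Row.mk (nat_lit 21000) (nat_lit 1122) (nat_lit 52558229) (nat_lit 1870) (nat_lit 4196332236) (nat_lit 0) (nat_lit 0),Row.mk (nat_lit 21168) (nat_lit 1683) (nat_lit 65643961) (nat_lit 2431) (nat_lit 4185855067) (nat_lit 0) (nat_lit 0),Row.mk (nat_lit 21336) (nat_lit 2244) (nat_lit 81987724) (nat_lit 2992) (nat_lit 4172769335) (nat_lit 0) (nat_lit 0),Row.mk (nat_lit 21504) (nat_lit 2805) (nat_lit 102400689) (nat_lit 3553) (nat_lit 4156425573) (nat_lit 0)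 (nat_lit 0),Row.mk (nat_lit 21672) (nat_lit 3366) (nat_lit 127895991) (nat_lit 4114) (nat_lit 4136012607) (nat_lit 0) (nat_lit 0),Row.mk (nat_lit 21840) (nat_lit 3927) (nat_lit 159739007) (nat_lit 4675) (nat_lit 4110517306) (nat_lit 0) (nat_lit 0),Row.mk (nat_lit 22008) (nat_lit 4488) (nat_lit 199510166) (nat_lit 5236) (nat_lit 4078674289) (nat_lit 0) (nat_lit 0),Row.mk (nat_lit 22176) (nat_lit 5049) (nat_lit 249183385) (nat_lit 5797) (nat_lit 4038903130) (nat_lit 0) (nat_lit 0),Row.mk (nat_lit 22344) (nat_lit 5610) (nat_lit 311224037) (nat_lit 6358) (nat_lit 3989229911) (nat_lit 0) (nat_lit 0),Row.mk (nat_lit 22512) (nat_lit 6171) (nat_lit 388711314) (nat_lit 6919) (nat_lit 3927189260) (nat_lit 0) (nat_lit 0),Row.mk (nat_lit 22680) (nat_lit 6732) (nat_lit 485491054) (nat_lit 7480) (nat_lit 3849701982) (nat_lit 0) (nat_lit 0),Row.mk (nat_lit 22848) (nat_lit 7293) (nat_lit 606366615) (nat_lit 8041) (nat_lit 3752922242) (nat_lit 0)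 (nat_lit 0),Row.mk (nat_lit 23016) (nat_lit 7854) (nat_lit 757337274) (nat_lit 8602) (nat_lit 3632046681) (nat_lit 0) (nat_lit 0),Row.mk (nat_lit 23184) (nat_lit 8415) (nat_lit 945895986) (nat_lit 9163) (nat_lit 3481076022) (nat_lit 0) (nat_lit 0),Row.mk (nat_lit 23352) (nat_lit 8976) (nat_lit 1181401268) (nat_lit 9724) (nat_lit 3292517311) (nat_lit 0) (nat_lit 0),Row.mk (nat_lit 23520) (nat_lit 9537) (nat_lit 1475541683) (nat_lit 10285) (nat_lit 3057012029) (nat_lit 0) (nat_lit 0),Row.mk (nat_lit 23688) (nat_lit 10098) (nat_lit 1842915967) (nat_lit 10846) (nat_lit 2762871613) (nat_lit 0) (nat_lit 0),Row.mk (nat_lit 23856) (nat_lit 10659) (nat_lit 2301757585) (nat_lit 11407) (nat_lit 2395497329) (nat_lit 0) (nat_lit 0),Row.mk (nat_lit 24024) (nat_lit 11220) (nat_lit 2874839696) (nat_lit 11968) (nat_lit 1936655711) (nat_lit 0) (nat_lit 0),Row.mk (nat_lit 24192) (nat_lit 11781) (nat_lit 3590605429) (nat_lit 12716) (nat_lit 1363573600)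 (nat_lit 0) (nat_lit 0),Row.mk (nat_lit 24360) (nat_lit 12529) (nat_lit 4484579562) (nat_lit 13464) (nat_lit 647807867) (nat_lit 0) (nat_lit 0),Row.mk (nat_lit 24528) (nat_lit 12342) (nat_lit 307455726) (nat_lit 13277) (nat_lit 5047509696) (nat_lit 0) (nat_lit 0),Row.mk (nat_lit 24696) (nat_lit 13090) (nat_lit 1702002396) (nat_lit 14025) (nat_lit 3930957570) (nat_lit 0) (nat_lit 0),Row.mk (nat_lit 24864) (nat_lit 13838) (nat_lit 3443757545) (nat_lit 15147) (nat_lit 2536410900) (nat_lit 0) (nat_lit 0),Row.mk (nat_lit 25032) (nat_lit 14960) (nat_lit 5619167708) (nat_lit 16456) (nat_lit 794655752) (nat_lit 0) (nat_lit 0),Row.mk (nat_lit 25200) (nat_lit 14773) (nat_lit 1724528950) (nat_lit 16269) (nat_lit 5230919161) (nat_lit 0) (nat_lit 0),Row.mk (nat_lit 25368) (nat_lit 16082) (nat_lit 5118039888) (nat_lit 17765) (nat_lit 2513884346) (nat_lit 0) (nat_lit 0),Row.mk (nat_lit 25536) (nat_lit 15895) (nat_lit 1098632392) (nat_lit 17578)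 (nat_lit 7378194202) (nat_lit 0) (nat_lit 0),Row.mk (nat_lit 25704) (nat_lit 17391) (nat_lit 6392308353) (nat_lit 19635) (nat_lit 3139780904) (nat_lit 0) (nat_lit 0),Row.mk (nat_lit 25872) (nat_lit 17204) (nat_lit 2690162965) (nat_lit 19448) (nat_lit 8159923903) (nat_lit 0) (nat_lit 0),Row.mk (nat_lit 26040) (nat_lit 19261) (nat_lit 10947983758) (nat_lit 25806) (nat_lit 1548250331) (nat_lit 0) (nat_lit 0),Row.mk (nat_lit 26208) (nat_lit 19074) (nat_lit 8380091646) (nat_lit 25619) (nat_lit 6172140611) (nat_lit 0) (nat_lit 0),Row.mk (nat_lit 26376) (nat_lit 18887) (nat_lit 5172856344) (nat_lit 25432) (nat_lit 11947268025) (nat_lit 0) (nat_lit 0),Row.mk (nat_lit 26544) (nat_lit 18700) (nat_lit 1167096824) (nat_lit 25245) (nat_lit 19160262847) (nat_lit 0) (nat_lit 0),Row.mk (nat_lit 26712) (nat_lit 25058) (nat_lit 21261802719) (nat_lit 31603) (nat_lit 3071316473) (nat_lit 0) (nat_lit 0),Row.mk (nat_lit 26880) (nat_lit 24871) (nat_lit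 21261802719) (nat_lit 31416) (nat_lit 8074413480) (nat_lit 0) (nat_lit 0),Row.mk (nat_lit 27048) (nat_lit 24684) (nat_lit 21261802719) (nat_lit 31229) (nat_lit 14323160948) (nat_lit 0) (nat_lit 0),Row.mk (nat_lit 27216) (nat_lit 24497) (nat_lit 21261802719) (nat_lit 31042) (nat_lit 22127695792) (nat_lit 0) (nat_lit 0),Row.mk (nat_lit 27384) (nat_lit 24310) (nat_lit 21261802719) (nat_lit 30855) (nat_lit 31875371537) (nat_lit 0) (nat_lit 0),Row.mk (nat_lit 27552) (nat_lit 24123) (nat_lit 21261802719) (nat_lit 30668) (nat_lit 44049983392) (nat_lit 0) (nat_lit 0),Row.mk (nat_lit 27720) (nat_lit 23936) (nat_lit 21261802719) (nat_lit 30481) (nat_lit 59255779901) (nat_lit 0) (nat_lit 0),Row.mk (nat_lit 27888) (nat_lit 23749) (nat_lit 21261802719) (nat_lit 30294) (nat_lit 78247452919) (nat_lit 0) (nat_lit 0),Row.mk (nat_lit 28056) (nat_lit 23562) (nat_lit 21261802719) (nat_lit 30107) (nat_lit 101967594366) (nat_lit 0) (nat_lit 0),Row.mk (nat_lit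 28224) (nat_lit 23375) (nat_lit 21261802719) (nat_lit 29920) (nat_lit 131593478815) (nat_lit 0) (nat_lit 0),Row.mk (nat_lit 28392) (nat_lit 23188) (nat_lit 21261802719) (nat_lit 29733) (nat_lit 168595493801) (nat_lit 0) (nat_lit 0),Row.mk (nat_lit 28560) (nat_lit 23001) (nat_lit 21261802719) (nat_lit 29546) (nat_lit 214810117890) (nat_lit 0) (nat_lit 0),Row.mk (nat_lit 28728) (nat_lit 22814) (nat_lit 21261802719) (nat_lit 29359) (nat_lit 272531068505) (nat_lit 0) (nat_lit 0),Row.mk (nat_lit 28896) (nat_lit 22627) (nat_lit 21261802719) (nat_lit 29172) (nat_lit 344623143373) (nat_lit 0) (nat_lit 0),Row.mk (nat_lit 29064) (nat_lit 22440) (nat_lit 21261802719) (nat_lit 28985) (nat_lit 434664405749) (nat_lit 0) (nat_lit 0),Row.mk (nat_lit 29232) (nat_lit 22253) (nat_lit 21261802719) (nat_lit 28798) (nat_lit 547123770318) (nat_lit 0) (nat_lit 0),Row.mk (nat_lit 29400) (nat_lit 22066) (nat_lit 21261802719) (nat_lit 28611) (nat_lit 687582803718)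 (nat_lit 0) (nat_lit 0),Row.mk (nat_lit 29568) (nat_lit 21879) (nat_lit 21261802719) (nat_lit 28424) (nat_lit 863012748027) (nat_lit 0) (nat_lit 0),Row.mk (nat_lit 29736) (nat_lit 21692) (nat_lit 21261802719) (nat_lit 28237) (nat_lit 1082120516432) (nat_lit 0) (nat_lit 0),Row.mk (nat_lit 29904) (nat_lit 21505) (nat_lit 21261802719) (nat_lit 28050) (nat_lit 1355780833456) (nat_lit 0) (nat_lit 0),Row.mk (nat_lit 30072) (nat_lit 21318) (nat_lit 21261802719) (nat_lit 27863) (nat_lit 1697575967691) (nat_lit 0) (nat_lit 0),Row.mk (nat_lit 30240) (nat_lit 21131) (nat_lit 21261802719) (nat_lit 27676) (nat_lit 2124469844952) (nat_lit 0) (nat_lit 0),Row.mk (nat_lit 30408) (nat_lit 20944) (nat_lit 21261802719) (nat_lit 27489) (nat_lit 2657649999345) (nat_lit 0) (nat_lit 0),Row.mk (nat_lit 30576) (nat_lit 32912) (nat_lit 4238413297) (nat_lit 62084) (nat_lit 3336364125974) (nat_lit 0) (nat_lit 0)],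
[Row.mk (nat_lit 15624) (nat_lit 32912) (nat_lit 8521) (nat_lit 61897) (nat_lit 5293667440) (nat_lit 0) (nat_lit 0),Row.mk (nat_lit 15792) (nat_lit 32912) (nat_lit 10643) (nat_lit 61897) (nat_lit 5293665318) (nat_lit 0) (nat_lit 0),Row.mk (nat_lit 15960) (nat_lit 32912) (nat_lit 13292) (nat_lit 61897) (nat_lit 5293662668) (nat_lit 0) (nat_lit 0),Row.mk (nat_lit 16128) (nat_lit 32912) (nat_lit 16602) (nat_lit 61897) (nat_lit 5293659358) (nat_lit 0) (nat_lit 0),Row.mk (nat_lit 16296) (nat_lit 32912) (nat_lit 20736) (nat_lit 61897) (nat_lit 5293655225) (nat_lit 0) (nat_lit 0),Row.mk (nat_lit 16464) (nat_lit 32912) (nat_lit 25899) (nat_lit 61897) (nat_lit 5293650062) (nat_lit 0) (nat_lit 0),Row.mk (nat_lit 16632) (nat_lit 32912) (nat_lit 32347) (nat_lit 61897) (nat_lit 5293643614) (nat_lit 0) (nat_lit 0),Row.mk (nat_lit 16800) (nat_lit 32912) (nat_lit 40401) (nat_lit 61897) (nat_lit 5293635560) (nat_lit 0) (nat_lit 0),Row.mk (nat_lit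 16968) (nat_lit 32912) (nat_lit 50459) (nat_lit 61897) (nat_lit 5293625501) (nat_lit 0) (nat_lit 0),Row.mk (nat_lit 17136) (nat_lit 32912) (nat_lit 63023) (nat_lit 61897) (nat_lit 5293612938) (nat_lit 0) (nat_lit 0),Row.mk (nat_lit 17304) (nat_lit 32912) (nat_lit 78714) (nat_lit 61897) (nat_lit 5293597247) (nat_lit 0) (nat_lit 0),Row.mk (nat_lit 17472) (nat_lit 32912) (nat_lit 98312) (nat_lit 61897) (nat_lit 5293577649) (nat_lit 0) (nat_lit 0),Row.mk (nat_lit 17640) (nat_lit 32912) (nat_lit 122789) (nat_lit 61897) (nat_lit 5293553171) (nat_lit 0) (nat_lit 0),Row.mk (nat_lit 17808) (nat_lit 32912) (nat_lit 153361) (nat_lit 61897) (nat_lit 5293522599) (nat_lit 0) (nat_lit 0),Row.mk (nat_lit 17976) (nat_lit 32912) (nat_lit 191545) (nat_lit 61897) (nat_lit 5293484416) (nat_lit 0) (nat_lit 0),Row.mk (nat_lit 18144) (nat_lit 32912) (nat_lit 239235) (nat_lit 61897) (nat_lit 5293436726) (nat_lit 0) (nat_lit 0),Row.mk (nat_lit 18312) (nat_lit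 32912) (nat_lit 298799) (nat_lit 61897) (nat_lit 5293377162) (nat_lit 0) (nat_lit 0),Row.mk (nat_lit 18480) (nat_lit 32912) (nat_lit 373192) (nat_lit 61897) (nat_lit 5293302768) (nat_lit 0) (nat_lit 0),Row.mk (nat_lit 18648) (nat_lit 32912) (nat_lit 466108) (nat_lit 61897) (nat_lit 5293209852) (nat_lit 0) (nat_lit 0),Row.mk (nat_lit 18816) (nat_lit 32912) (nat_lit 582158) (nat_lit 61897) (nat_lit 5293093802) (nat_lit 0) (nat_lit 0),Row.mk (nat_lit 18984) (nat_lit 32912) (nat_lit 727102) (nat_lit 61897) (nat_lit 5292948859) (nat_lit 0) (nat_lit 0),Row.mk (nat_lit 19152) (nat_lit 32912) (nat_lit 908132) (nat_lit 61897) (nat_lit 5292767828) (nat_lit 0) (nat_lit 0),Row.mk (nat_lit 19320) (nat_lit 32912) (nat_lit 1134236) (nat_lit 61897) (nat_lit 5292541725) (nat_lit 0) (nat_lit 0),Row.mk (nat_lit 19488) (nat_lit 32912) (nat_lit 1416633) (nat_lit 61897) (nat_lit 5292259328) (nat_lit 0) (nat_lit 0),Row.mk (nat_lit 19656) (nat_lit 32912)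 (nat_lit 1769341) (nat_lit 61897) (nat_lit 5291906620) (nat_lit 0) (nat_lit 0),Row.mk (nat_lit 19824) (nat_lit 32912) (nat_lit 2209864) (nat_lit 61897) (nat_lit 5291466097) (nat_lit 0) (nat_lit 0),Row.mk (nat_lit 19992) (nat_lit 32912) (nat_lit 2760067) (nat_lit 61897) (nat_lit 5290915894) (nat_lit 0) (nat_lit 0),Row.mk (nat_lit 20160) (nat_lit 32912) (nat_lit 3447257) (nat_lit 61897) (nat_lit 5290228704) (nat_lit 0) (nat_lit 0),Row.mk (nat_lit 20328) (nat_lit 32912) (nat_lit 4305541) (nat_lit 61897) (nat_lit 5289370420) (nat_lit 0) (nat_lit 0),Row.mk (nat_lit 20496) (nat_lit 32912) (nat_lit 5377517) (nat_lit 61897) (nat_lit 5288298444) (nat_lit 0) (nat_lit 0),Row.mk (nat_lit 20664) (nat_lit 32912) (nat_lit 6716389) (nat_lit 61897) (nat_lit 5286959572) (nat_lit 0) (nat_lit 0),Row.mk (nat_lit 20832) (nat_lit 0) (nat_lit 42081060) (nat_lit 748) (nat_lit 5259983508) (nat_lit 0) (nat_lit 0),Row.mk (nat_lit 21000) (nat_lit 561) (nat_lit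 52558229) (nat_lit 1309) (nat_lit 5251594900) (nat_lit 0) (nat_lit 0),Row.mk (nat_lit 21168) (nat_lit 1122) (nat_lit 65643961) (nat_lit 1870) (nat_lit 5241117731) (nat_lit 0) (nat_lit 0),Row.mk (nat_lit 21336) (nat_lit 1683) (nat_lit 81987724) (nat_lit 2431) (nat_lit 5228032000) (nat_lit 0) (nat_lit 0),Row.mk (nat_lit 21504) (nat_lit 2244) (nat_lit 102400689) (nat_lit 2992) (nat_lit 5211688237) (nat_lit 0) (nat_lit 0),Row.mk (nat_lit 21672) (nat_lit 2805) (nat_lit 127895991) (nat_lit 3553) (nat_lit 5191275271) (nat_lit 0) (nat_lit 0),Row.mk (nat_lit 21840) (nat_lit 3366) (nat_lit 159739007) (nat_lit 4114) (nat_lit 5165779970) (nat_lit 0) (nat_lit 0),Row.mk (nat_lit 22008) (nat_lit 3927) (nat_lit 199510166) (nat_lit 4675) (nat_lit 5133936954) (nat_lit 0) (nat_lit 0),Row.mk (nat_lit 22176) (nat_lit 4488) (nat_lit 249183385) (nat_lit 5236) (nat_lit 5094165794) (nat_lit 0) (nat_lit 0),Row.mk (nat_lit 22344) (nat_lit 5049) (nat_lit 311224037)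 (nat_lit 5797) (nat_lit 5044492576) (nat_lit 0) (nat_lit 0),Row.mk (nat_lit 22512) (nat_lit 5610) (nat_lit 388711314) (nat_lit 6358) (nat_lit 4982451924) (nat_lit 0) (nat_lit 0),Row.mk (nat_lit 22680) (nat_lit 6171) (nat_lit 485491054) (nat_lit 6919) (nat_lit 4904964647) (nat_lit 0) (nat_lit 0),Row.mk (nat_lit 22848) (nat_lit 6732) (nat_lit 606366615) (nat_lit 7480) (nat_lit 4808184906) (nat_lit 0) (nat_lit 0),Row.mk (nat_lit 23016) (nat_lit 7293) (nat_lit 757337274) (nat_lit 8041) (nat_lit 4687309346) (nat_lit 0) (nat_lit 0),Row.mk (nat_lit 23184) (nat_lit 7854) (nat_lit 945895986) (nat_lit 8602) (nat_lit 4536338686) (nat_lit 0) (nat_lit 0),Row.mk (nat_lit 23352) (nat_lit 8415) (nat_lit 1181401268) (nat_lit 9163) (nat_lit 4347779975) (nat_lit 0) (nat_lit 0),Row.mk (nat_lit 23520) (nat_lit 8976) (nat_lit 1475541683) (nat_lit 9724) (nat_lit 4112274693) (nat_lit 0) (nat_lit 0),Row.mk (nat_lit 23688) (nat_lit 9537) (nat_lit 1842915967)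 (nat_lit 10285) (nat_lit 3818134277) (nat_lit 0) (nat_lit 0),Row.mk (nat_lit 23856) (nat_lit 10098) (nat_lit 2301757585) (nat_lit 10846) (nat_lit 3450759993) (nat_lit 0) (nat_lit 0),Row.mk (nat_lit 24024) (nat_lit 10659) (nat_lit 2874839696) (nat_lit 11407) (nat_lit 2991918376) (nat_lit 0) (nat_lit 0),Row.mk (nat_lit 24192) (nat_lit 11220) (nat_lit 3590605429) (nat_lit 11968) (nat_lit 2418836264) (nat_lit 0) (nat_lit 0),Row.mk (nat_lit 24360) (nat_lit 11781) (nat_lit 4484579562) (nat_lit 12716) (nat_lit 1703070532) (nat_lit 0) (nat_lit 0),Row.mk (nat_lit 24528) (nat_lit 12529) (nat_lit 5601131688) (nat_lit 13464) (nat_lit 809096399) (nat_lit 0) (nat_lit 0),Row.mk (nat_lit 24696) (nat_lit 12342) (nat_lit 384004785) (nat_lit 13277) (nat_lit 6304217845) (nat_lit 0) (nat_lit 0),Row.mk (nat_lit 24864) (nat_lit 13090) (nat_lit 2125759934) (nat_lit 14025) (nat_lit 4909671175) (nat_lit 0) (nat_lit 0),Row.mk (nat_lit 25032) (nat_lit 13838)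 (nat_lit 4301170097) (nat_lit 15147) (nat_lit 3167916027) (nat_lit 0) (nat_lit 0),Row.mk (nat_lit 25200) (nat_lit 14960) (nat_lit 7018204911) (nat_lit 16456) (nat_lit 992505864) (nat_lit 0) (nat_lit 0),Row.mk (nat_lit 25368) (nat_lit 14773) (nat_lit 2153895056) (nat_lit 16269) (nat_lit 6533291842) (nat_lit 0) (nat_lit 0),Row.mk (nat_lit 25536) (nat_lit 16082) (nat_lit 6392308353) (nat_lit 17765) (nat_lit 3139780904) (nat_lit 0) (nat_lit 0),Row.mk (nat_lit 25704) (nat_lit 15895) (nat_lit 1372165354) (nat_lit 17578) (nat_lit 9215186568) (nat_lit 0) (nat_lit 0),Row.mk (nat_lit 25872) (nat_lit 17391) (nat_lit 7983838927) (nat_lit 19635) (nat_lit 3921510606) (nat_lit 0) (nat_lit 0),Row.mk (nat_lit 26040) (nat_lit 17204) (nat_lit 3359948647) (nat_lit 19448) (nat_lit 10191548107) (nat_lit 0) (nat_lit 0),Row.mk (nat_lit 26208) (nat_lit 19261) (nat_lit 13673767607) (nat_lit 25806) (nat_lit 1933727314) (nat_lit 0) (nat_lit 0),Row.mk (nat_lit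 26376) (nat_lit 19074) (nat_lit 10466532306) (nat_lit 25619) (nat_lit 7708854728) (nat_lit 0) (nat_lit 0),Row.mk (nat_lit 26544) (nat_lit 18887) (nat_lit 6460772785) (nat_lit 25432) (nat_lit 14921849550) (nat_lit 0) (nat_lit 0),Row.mk (nat_lit 26712) (nat_lit 18700) (nat_lit 1457675778) (nat_lit 25245) (nat_lit 23930706078) (nat_lit 0) (nat_lit 0),Row.mk (nat_lit 26880) (nat_lit 25058) (nat_lit 26555478680) (nat_lit 31603) (nat_lit 3836000182) (nat_lit 0) (nat_lit 0),Row.mk (nat_lit 27048) (nat_lit 24871) (nat_lit 26555478680) (nat_lit 31416) (nat_lit 10084747651) (nat_lit 0) (nat_lit 0),Row.mk (nat_lit 27216) (nat_lit 24684) (nat_lit 26555478680) (nat_lit 31229) (nat_lit 17889282495) (nat_lit 0) (nat_lit 0),Row.mk (nat_lit 27384) (nat_lit 24497) (nat_lit 26555478680) (nat_lit 31042) (nat_lit 27636958240) (nat_lit 0) (nat_lit 0),Row.mk (nat_lit 27552) (nat_lit 24310) (nat_lit 26555478680) (nat_lit 30855) (nat_lit 39811570095) (nat_lit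 0) (nat_lit 0),Row.mk (nat_lit 27720) (nat_lit 24123) (nat_lit 26555478680) (nat_lit 30668) (nat_lit 55017366604) (nat_lit 0) (nat_lit 0),Row.mk (nat_lit 27888) (nat_lit 23936) (nat_lit 26555478680) (nat_lit 30481) (nat_lit 74009039621) (nat_lit 0) (nat_lit 0),Row.mk (nat_lit 28056) (nat_lit 23749) (nat_lit 26555478680) (nat_lit 30294) (nat_lit 97729181069) (nat_lit 0) (nat_lit 0),Row.mk (nat_lit 28224) (nat_lit 23562) (nat_lit 26555478680) (nat_lit 30107) (nat_lit 127355065517) (nat_lit 0) (nat_lit 0),Row.mk (nat_lit 28392) (nat_lit 23375) (nat_lit 26555478680) (nat_lit 29920) (nat_lit 164357080504) (nat_lit 0) (nat_lit 0),Row.mk (nat_lit 28560) (nat_lit 23188) (nat_lit 26555478680) (nat_lit 29733) (nat_lit 210571704593) (nat_lit 0) (nat_lit 0),Row.mk (nat_lit 28728) (nat_lit 23001) (nat_lit 26555478680) (nat_lit 29546) (nat_lit 268292655208) (nat_lit 0) (nat_lit 0),Row.mk (nat_lit 28896) (nat_lit 22814) (nat_lit 26555478680) (nat_lit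 29359) (nat_lit 340384730076) (nat_lit 0) (nat_lit 0),Row.mk (nat_lit 29064) (nat_lit 22627) (nat_lit 26555478680) (nat_lit 29172) (nat_lit 430425992452) (nat_lit 0) (nat_lit 0),Row.mk (nat_lit 29232) (nat_lit 22440) (nat_lit 26555478680) (nat_lit 28985) (nat_lit 542885357021) (nat_lit 0) (nat_lit 0),Row.mk (nat_lit 29400) (nat_lit 22253) (nat_lit 26555478680) (nat_lit 28798) (nat_lit 683344390420) (nat_lit 0) (nat_lit 0),Row.mk (nat_lit 29568) (nat_lit 22066) (nat_lit 26555478680) (nat_lit 28611) (nat_lit 858774334730) (nat_lit 0) (nat_lit 0),Row.mk (nat_lit 29736) (nat_lit 21879) (nat_lit 26555478680) (nat_lit 28424) (nat_lit 1077882103135) (nat_lit 0) (nat_lit 0),Row.mk (nat_lit 29904) (nat_lit 21692) (nat_lit 26555478680) (nat_lit 28237) (nat_lit 1351542420159) (nat_lit 0) (nat_lit 0),Row.mk (nat_lit 30072) (nat_lit 21505) (nat_lit 26555478680) (nat_lit 28050) (nat_lit 1693337554394) (nat_lit 0) (nat_lit 0),Row.mk (nat_lit 30240)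 (nat_lit 21318) (nat_lit 26555478680) (nat_lit 27863) (nat_lit 2120231431655) (nat_lit 0) (nat_lit 0),Row.mk (nat_lit 30408) (nat_lit 21131) (nat_lit 26555478680) (nat_lit 27676) (nat_lit 2653411586048) (nat_lit 0) (nat_lit 0),Row.mk (nat_lit 30576) (nat_lit 20944) (nat_lit 26555478680) (nat_lit 27489) (nat_lit 3319340736552) (nat_lit 0) (nat_lit 0),Row.mk (nat_lit 30744) (nat_lit 32912) (nat_lit 5293675961) (nat_lit 62084) (nat_lit 4167038307543) (nat_lit 0) (nat_lit 0)],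
[Row.mk (nat_lit 15792) (nat_lit 32912) (nat_lit 10643) (nat_lit 61897) (nat_lit 6611662929) (nat_lit 0) (nat_lit 0),Row.mk (nat_lit 15960) (nat_lit 32912) (nat_lit 13292) (nat_lit 61897) (nat_lit 6611660279) (nat_lit 0) (nat_lit 0),Row.mk (nat_lit 16128) (nat_lit 32912) (nat_lit 16602) (nat_lit 61897) (nat_lit 6611656969) (nat_lit 0) (nat_lit 0),Row.mk (nat_lit 16296) (nat_lit 32912) (nat_lit 20736) (nat_lit 61897) (nat_lit 6611652836) (nat_lit 0) (nat_lit 0),Row.mk (nat_lit 16464) (nat_lit 32912) (nat_lit 25899) (nat_lit 61897) (nat_lit 6611647673) (nat_lit 0) (nat_lit 0),Row.mk (nat_lit 16632) (nat_lit 32912) (nat_lit 32347) (nat_lit 61897) (nat_lit 6611641225) (nat_lit 0) (nat_lit 0),Row.mk (nat_lit 16800) (nat_lit 32912) (nat_lit 40401) (nat_lit 61897) (nat_lit 6611633171) (nat_lit 0) (nat_lit 0),Row.mk (nat_lit 16968) (nat_lit 32912) (nat_lit 50459) (nat_lit 61897) (nat_lit 6611623112) (nat_lit 0) (nat_lit 0),Row.mk (nat_lit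 17136) (nat_lit 32912) (nat_lit 63023) (nat_lit 61897) (nat_lit 6611610549) (nat_lit 0) (nat_lit 0),Row.mk (nat_lit 17304) (nat_lit 32912) (nat_lit 78714) (nat_lit 61897) (nat_lit 6611594857) (nat_lit 0) (nat_lit 0),Row.mk (nat_lit 17472) (nat_lit 32912) (nat_lit 98312) (nat_lit 61897) (nat_lit 6611575259) (nat_lit 0) (nat_lit 0),Row.mk (nat_lit 17640) (nat_lit 32912) (nat_lit 122789) (nat_lit 61897) (nat_lit 6611550782) (nat_lit 0) (nat_lit 0),Row.mk (nat_lit 17808) (nat_lit 32912) (nat_lit 153361) (nat_lit 61897) (nat_lit 6611520210) (nat_lit 0) (nat_lit 0),Row.mk (nat_lit 17976) (nat_lit 32912) (nat_lit 191545) (nat_lit 61897) (nat_lit 6611482027) (nat_lit 0) (nat_lit 0),Row.mk (nat_lit 18144) (nat_lit 32912) (nat_lit 239235) (nat_lit 61897) (nat_lit 6611434337) (nat_lit 0) (nat_lit 0),Row.mk (nat_lit 18312) (nat_lit 32912) (nat_lit 298799) (nat_lit 61897) (nat_lit 6611374773) (nat_lit 0) (nat_lit 0),Row.mk (nat_lit 18480) (nat_lit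 32912) (nat_lit 373192) (nat_lit 61897) (nat_lit 6611300379) (nat_lit 0) (nat_lit 0),Row.mk (nat_lit 18648) (nat_lit 32912) (nat_lit 466108) (nat_lit 61897) (nat_lit 6611207463) (nat_lit 0) (nat_lit 0),Row.mk (nat_lit 18816) (nat_lit 32912) (nat_lit 582158) (nat_lit 61897) (nat_lit 6611091413) (nat_lit 0) (nat_lit 0),Row.mk (nat_lit 18984) (nat_lit 32912) (nat_lit 727102) (nat_lit 61897) (nat_lit 6610946470) (nat_lit 0) (nat_lit 0),Row.mk (nat_lit 19152) (nat_lit 32912) (nat_lit 908132) (nat_lit 61897) (nat_lit 6610765439) (nat_lit 0) (nat_lit 0),Row.mk (nat_lit 19320) (nat_lit 32912) (nat_lit 1134236) (nat_lit 61897) (nat_lit 6610539336) (nat_lit 0) (nat_lit 0),Row.mk (nat_lit 19488) (nat_lit 32912) (nat_lit 1416633) (nat_lit 61897) (nat_lit 6610256938) (nat_lit 0) (nat_lit 0),Row.mk (nat_lit 19656) (nat_lit 32912) (nat_lit 1769341) (nat_lit 61897) (nat_lit 6609904231) (nat_lit 0) (nat_lit 0),Row.mk (nat_lit 19824) (nat_lit 32912)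 (nat_lit 2209864) (nat_lit 61897) (nat_lit 6609463708) (nat_lit 0) (nat_lit 0),Row.mk (nat_lit 19992) (nat_lit 32912) (nat_lit 2760067) (nat_lit 61897) (nat_lit 6608913505) (nat_lit 0) (nat_lit 0),Row.mk (nat_lit 20160) (nat_lit 32912) (nat_lit 3447257) (nat_lit 61897) (nat_lit 6608226315) (nat_lit 0) (nat_lit 0),Row.mk (nat_lit 20328) (nat_lit 32912) (nat_lit 4305541) (nat_lit 61897) (nat_lit 6607368031) (nat_lit 0) (nat_lit 0),Row.mk (nat_lit 20496) (nat_lit 32912) (nat_lit 5377517) (nat_lit 61897) (nat_lit 6606296055) (nat_lit 0) (nat_lit 0),Row.mk (nat_lit 20664) (nat_lit 32912) (nat_lit 6716389) (nat_lit 61897) (nat_lit 6604957183) (nat_lit 0) (nat_lit 0),Row.mk (nat_lit 20832) (nat_lit 32912) (nat_lit 8388608) (nat_lit 61897) (nat_lit 6603284964) (nat_lit 0) (nat_lit 0),Row.mk (nat_lit 21000) (nat_lit 0) (nat_lit 52558229) (nat_lit 748) (nat_lit 6569592511) (nat_lit 0) (nat_lit 0),Row.mk (nat_lit 21168) (nat_lit 561) (nat_lit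 65643961) (nat_lit 1309) (nat_lit 6559115342) (nat_lit 0) (nat_lit 0),Row.mk (nat_lit 21336) (nat_lit 1122) (nat_lit 81987724) (nat_lit 1870) (nat_lit 6546029610) (nat_lit 0) (nat_lit 0),Row.mk (nat_lit 21504) (nat_lit 1683) (nat_lit 102400689) (nat_lit 2431) (nat_lit 6529685848) (nat_lit 0) (nat_lit 0),Row.mk (nat_lit 21672) (nat_lit 2244) (nat_lit 127895991) (nat_lit 2992) (nat_lit 6509272882) (nat_lit 0) (nat_lit 0),Row.mk (nat_lit 21840) (nat_lit 2805) (nat_lit 159739007) (nat_lit 3553) (nat_lit 6483777581) (nat_lit 0) (nat_lit 0),Row.mk (nat_lit 22008) (nat_lit 3366) (nat_lit 199510166) (nat_lit 4114) (nat_lit 6451934564) (nat_lit 0) (nat_lit 0),Row.mk (nat_lit 22176) (nat_lit 3927) (nat_lit 249183385) (nat_lit 4675) (nat_lit 6412163405) (nat_lit 0) (nat_lit 0),Row.mk (nat_lit 22344) (nat_lit 4488) (nat_lit 311224037) (nat_lit 5236) (nat_lit 6362490186) (nat_lit 0) (nat_lit 0),Row.mk (nat_lit 22512) (nat_lit 5049) (nat_lit 388711314)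 (nat_lit 5797) (nat_lit 6300449535) (nat_lit 0) (nat_lit 0),Row.mk (nat_lit 22680) (nat_lit 5610) (nat_lit 485491054) (nat_lit 6358) (nat_lit 6222962257) (nat_lit 0) (nat_lit 0),Row.mk (nat_lit 22848) (nat_lit 6171) (nat_lit 606366615) (nat_lit 6919) (nat_lit 6126182517) (nat_lit 0) (nat_lit 0),Row.mk (nat_lit 23016) (nat_lit 6732) (nat_lit 757337274) (nat_lit 7480) (nat_lit 6005306957) (nat_lit 0) (nat_lit 0),Row.mk (nat_lit 23184) (nat_lit 7293) (nat_lit 945895986) (nat_lit 8041) (nat_lit 5854336297) (nat_lit 0) (nat_lit 0),Row.mk (nat_lit 23352) (nat_lit 7854) (nat_lit 1181401268) (nat_lit 8602) (nat_lit 5665777586) (nat_lit 0) (nat_lit 0),Row.mk (nat_lit 23520) (nat_lit 8415) (nat_lit 1475541683) (nat_lit 9163) (nat_lit 5430272304) (nat_lit 0) (nat_lit 0),Row.mk (nat_lit 23688) (nat_lit 8976) (nat_lit 1842915967) (nat_lit 9724) (nat_lit 5136131888) (nat_lit 0) (nat_lit 0),Row.mk (nat_lit 23856) (nat_lit 9537) (nat_lit 2301757585)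 (nat_lit 10285) (nat_lit 4768757604) (nat_lit 0) (nat_lit 0),Row.mk (nat_lit 24024) (nat_lit 10098) (nat_lit 2874839696) (nat_lit 10846) (nat_lit 4309915986) (nat_lit 0) (nat_lit 0),Row.mk (nat_lit 24192) (nat_lit 10659) (nat_lit 3590605429) (nat_lit 11407) (nat_lit 3736833875) (nat_lit 0) (nat_lit 0),Row.mk (nat_lit 24360) (nat_lit 11220) (nat_lit 4484579562) (nat_lit 11968) (nat_lit 3021068142) (nat_lit 0) (nat_lit 0),Row.mk (nat_lit 24528) (nat_lit 11781) (nat_lit 5601131688) (nat_lit 12716) (nat_lit 2127094010) (nat_lit 0) (nat_lit 0),Row.mk (nat_lit 24696) (nat_lit 12529) (nat_lit 6995678357) (nat_lit 13464) (nat_lit 1010541884) (nat_lit 0) (nat_lit 0),Row.mk (nat_lit 24864) (nat_lit 12342) (nat_lit 479612713) (nat_lit 13277) (nat_lit 7873816007) (nat_lit 0) (nat_lit 0),Row.mk (nat_lit 25032) (nat_lit 13090) (nat_lit 2655022876) (nat_lit 14025) (nat_lit 6132060858) (nat_lit 0) (nat_lit 0),Row.mk (nat_lit 25200) (nat_lit 13838)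 (nat_lit 5372057691) (nat_lit 15147) (nat_lit 3956650695) (nat_lit 0) (nat_lit 0),Row.mk (nat_lit 25368) (nat_lit 14960) (nat_lit 8765568629) (nat_lit 16456) (nat_lit 1239615881) (nat_lit 0) (nat_lit 0),Row.mk (nat_lit 25536) (nat_lit 14773) (nat_lit 2690162965) (nat_lit 16269) (nat_lit 8159923903) (nat_lit 0) (nat_lit 0),Row.mk (nat_lit 25704) (nat_lit 16082) (nat_lit 7983838927) (nat_lit 17765) (nat_lit 3921510606) (nat_lit 0) (nat_lit 0),Row.mk (nat_lit 25872) (nat_lit 15895) (nat_lit 1713801426) (nat_lit 17578) (nat_lit 11509545718) (nat_lit 0) (nat_lit 0),Row.mk (nat_lit 26040) (nat_lit 17391) (nat_lit 9971622219) (nat_lit 19635) (nat_lit 4897872146) (nat_lit 0) (nat_lit 0),Row.mk (nat_lit 26208) (nat_lit 17204) (nat_lit 4196494805) (nat_lit 19448) (nat_lit 12728997727) (nat_lit 0) (nat_lit 0),Row.mk (nat_lit 26376) (nat_lit 19261) (nat_lit 17078205878) (nat_lit 25806) (nat_lit 2415178766) (nat_lit 0) (nat_lit 0),Row.mk (nat_lit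 26544) (nat_lit 19074) (nat_lit 13072446358) (nat_lit 25619) (nat_lit 9628173588) (nat_lit 0) (nat_lit 0),Row.mk (nat_lit 26712) (nat_lit 18887) (nat_lit 8069349350) (nat_lit 25432) (nat_lit 18637030116) (nat_lit 0) (nat_lit 0),Row.mk (nat_lit 26880) (nat_lit 18700) (nat_lit 1820601882) (nat_lit 25245) (nat_lit 29888874591) (nat_lit 0) (nat_lit 0),Row.mk (nat_lit 27048) (nat_lit 25058) (nat_lit 33167152253) (nat_lit 31603) (nat_lit 4791071689) (nat_lit 0) (nat_lit 0),Row.mk (nat_lit 27216) (nat_lit 24871) (nat_lit 33167152253) (nat_lit 31416) (nat_lit 12595606533) (nat_lit 0) (nat_lit 0),Row.mk (nat_lit 27384) (nat_lit 24684) (nat_lit 33167152253) (nat_lit 31229) (nat_lit 22343282279) (nat_lit 0) (nat_lit 0),Row.mk (nat_lit 27552) (nat_lit 24497) (nat_lit 33167152253) (nat_lit 31042) (nat_lit 34517894133) (nat_lit 0) (nat_lit 0),Row.mk (nat_lit 27720) (nat_lit 24310) (nat_lit 33167152253) (nat_lit 30855) (nat_lit 49723690642) (nat_lit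 0) (nat_lit 0),Row.mk (nat_lit 27888) (nat_lit 24123) (nat_lit 33167152253) (nat_lit 30668) (nat_lit 68715363660) (nat_lit 0) (nat_lit 0),Row.mk (nat_lit 28056) (nat_lit 23936) (nat_lit 33167152253) (nat_lit 30481) (nat_lit 92435505108) (nat_lit 0) (nat_lit 0),Row.mk (nat_lit 28224) (nat_lit 23749) (nat_lit 33167152253) (nat_lit 30294) (nat_lit 122061389556) (nat_lit 0) (nat_lit 0),Row.mk (nat_lit 28392) (nat_lit 23562) (nat_lit 33167152253) (nat_lit 30107) (nat_lit 159063404542) (nat_lit 0) (nat_lit 0),Row.mk (nat_lit 28560) (nat_lit 23375) (nat_lit 33167152253) (nat_lit 29920) (nat_lit 205278028631) (nat_lit 0) (nat_lit 0),Row.mk (nat_lit 28728) (nat_lit 23188) (nat_lit 33167152253) (nat_lit 29733) (nat_lit 262998979246) (nat_lit 0) (nat_lit 0),Row.mk (nat_lit 28896) (nat_lit 23001) (nat_lit 33167152253) (nat_lit 29546) (nat_lit 335091054115) (nat_lit 0) (nat_lit 0),Row.mk (nat_lit 29064) (nat_lit 22814) (nat_lit 33167152253) (nat_lit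 29359) (nat_lit 425132316490) (nat_lit 0) (nat_lit 0),Row.mk (nat_lit 29232) (nat_lit 22627) (nat_lit 33167152253) (nat_lit 29172) (nat_lit 537591681060) (nat_lit 0) (nat_lit 0),Row.mk (nat_lit 29400) (nat_lit 22440) (nat_lit 33167152253) (nat_lit 28985) (nat_lit 678050714459) (nat_lit 0) (nat_lit 0),Row.mk (nat_lit 29568) (nat_lit 22253) (nat_lit 33167152253) (nat_lit 28798) (nat_lit 853480658768) (nat_lit 0) (nat_lit 0),Row.mk (nat_lit 29736) (nat_lit 22066) (nat_lit 33167152253) (nat_lit 28611) (nat_lit 1072588427173) (nat_lit 0) (nat_lit 0),Row.mk (nat_lit 29904) (nat_lit 21879) (nat_lit 33167152253) (nat_lit 28424) (nat_lit 1346248744197) (nat_lit 0) (nat_lit 0),Row.mk (nat_lit 30072) (nat_lit 21692) (nat_lit 33167152253) (nat_lit 28237) (nat_lit 1688043878433) (nat_lit 0) (nat_lit 0),Row.mk (nat_lit 30240) (nat_lit 21505) (nat_lit 33167152253) (nat_lit 28050) (nat_lit 2114937755693) (nat_lit 0) (nat_lit 0),Row.mk (nat_lit 30408)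 (nat_lit 21318) (nat_lit 33167152253) (nat_lit 27863) (nat_lit 2648117910087) (nat_lit 0) (nat_lit 0),Row.mk (nat_lit 30576) (nat_lit 21131) (nat_lit 33167152253) (nat_lit 27676) (nat_lit 3314047060590) (nat_lit 0) (nat_lit 0),Row.mk (nat_lit 30744) (nat_lit 20944) (nat_lit 33167152253) (nat_lit 27489) (nat_lit 4145776504824) (nat_lit 0) (nat_lit 0),Row.mk (nat_lit 30912) (nat_lit 32912) (nat_lit 6611673572) (nat_lit 62084) (nat_lit 5204530321301) (nat_lit 0) (nat_lit 0)],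
[Row.mk (nat_lit 16128) (nat_lit 32912) (nat_lit 16602) (nat_lit 61897) (nat_lit 8257804190) (nat_lit 0) (nat_lit 0),Row.mk (nat_lit 16296) (nat_lit 32912) (nat_lit 20736) (nat_lit 61897) (nat_lit 8257800056) (nat_lit 0) (nat_lit 0),Row.mk (nat_lit 16464) (nat_lit 32912) (nat_lit 25899) (nat_lit 61897) (nat_lit 8257794894) (nat_lit 0) (nat_lit 0),Row.mk (nat_lit 16632) (nat_lit 32912) (nat_lit 32347) (nat_lit 61897) (nat_lit 8257788445) (nat_lit 0) (nat_lit 0),Row.mk (nat_lit 16800) (nat_lit 32912) (nat_lit 40401) (nat_lit 61897) (nat_lit 8257780392) (nat_lit 0) (nat_lit 0),Row.mk (nat_lit 16968) (nat_lit 32912) (nat_lit 50459) (nat_lit 61897) (nat_lit 8257770333) (nat_lit 0) (nat_lit 0),Row.mk (nat_lit 17136) (nat_lit 32912) (nat_lit 63023) (nat_lit 61897) (nat_lit 8257757769) (nat_lit 0) (nat_lit 0),Row.mk (nat_lit 17304) (nat_lit 32912) (nat_lit 78714) (nat_lit 61897) (nat_lit 8257742078) (nat_lit 0) (nat_lit 0),Row.mk (nat_lit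 17472) (nat_lit 32912) (nat_lit 98312) (nat_lit 61897) (nat_lit 8257722480) (nat_lit 0) (nat_lit 0),Row.mk (nat_lit 17640) (nat_lit 32912) (nat_lit 122789) (nat_lit 61897) (nat_lit 8257698003) (nat_lit 0) (nat_lit 0),Row.mk (nat_lit 17808) (nat_lit 32912) (nat_lit 153361) (nat_lit 61897) (nat_lit 8257667431) (nat_lit 0) (nat_lit 0),Row.mk (nat_lit 17976) (nat_lit 32912) (nat_lit 191545) (nat_lit 61897) (nat_lit 8257629248) (nat_lit 0) (nat_lit 0),Row.mk (nat_lit 18144) (nat_lit 32912) (nat_lit 239235) (nat_lit 61897) (nat_lit 8257581557) (nat_lit 0) (nat_lit 0),Row.mk (nat_lit 18312) (nat_lit 32912) (nat_lit 298799) (nat_lit 61897) (nat_lit 8257521994) (nat_lit 0) (nat_lit 0),Row.mk (nat_lit 18480) (nat_lit 32912) (nat_lit 373192) (nat_lit 61897) (nat_lit 8257447600) (nat_lit 0) (nat_lit 0),Row.mk (nat_lit 18648) (nat_lit 32912) (nat_lit 466108) (nat_lit 61897) (nat_lit 8257354684) (nat_lit 0) (nat_lit 0),Row.mk (nat_lit 18816) (nat_lit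 32912) (nat_lit 582158) (nat_lit 61897) (nat_lit 8257238634) (nat_lit 0) (nat_lit 0),Row.mk (nat_lit 18984) (nat_lit 32912) (nat_lit 727102) (nat_lit 61897) (nat_lit 8257093691) (nat_lit 0) (nat_lit 0),Row.mk (nat_lit 19152) (nat_lit 32912) (nat_lit 908132) (nat_lit 61897) (nat_lit 8256912660) (nat_lit 0) (nat_lit 0),Row.mk (nat_lit 19320) (nat_lit 32912) (nat_lit 1134236) (nat_lit 61897) (nat_lit 8256686557) (nat_lit 0) (nat_lit 0),Row.mk (nat_lit 19488) (nat_lit 32912) (nat_lit 1416633) (nat_lit 61897) (nat_lit 8256404159) (nat_lit 0) (nat_lit 0),Row.mk (nat_lit 19656) (nat_lit 32912) (nat_lit 1769341) (nat_lit 61897) (nat_lit 8256051452) (nat_lit 0) (nat_lit 0),Row.mk (nat_lit 19824) (nat_lit 32912) (nat_lit 2209864) (nat_lit 61897) (nat_lit 8255610928) (nat_lit 0) (nat_lit 0),Row.mk (nat_lit 19992) (nat_lit 32912) (nat_lit 2760067) (nat_lit 61897) (nat_lit 8255060725) (nat_lit 0) (nat_lit 0),Row.mk (nat_lit 20160) (nat_lit 32912)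 (nat_lit 3447257) (nat_lit 61897) (nat_lit 8254373535) (nat_lit 0) (nat_lit 0),Row.mk (nat_lit 20328) (nat_lit 32912) (nat_lit 4305541) (nat_lit 61897) (nat_lit 8253515251) (nat_lit 0) (nat_lit 0),Row.mk (nat_lit 20496) (nat_lit 32912) (nat_lit 5377517) (nat_lit 61897) (nat_lit 8252443276) (nat_lit 0) (nat_lit 0),Row.mk (nat_lit 20664) (nat_lit 32912) (nat_lit 6716389) (nat_lit 61897) (nat_lit 8251104404) (nat_lit 0) (nat_lit 0),Row.mk (nat_lit 20832) (nat_lit 32912) (nat_lit 8388608) (nat_lit 61897) (nat_lit 8249432185) (nat_lit 0) (nat_lit 0),Row.mk (nat_lit 21000) (nat_lit 32912) (nat_lit 10477169) (nat_lit 61897) (nat_lit 8247343624) (nat_lit 0) (nat_lit 0),Row.mk (nat_lit 21168) (nat_lit 0) (nat_lit 65643961) (nat_lit 748) (nat_lit 8205262563) (nat_lit 0) (nat_lit 0),Row.mk (nat_lit 21336) (nat_lit 561) (nat_lit 81987724) (nat_lit 1309) (nat_lit 8192176831) (nat_lit 0) (nat_lit 0),Row.mk (nat_lit 21504) (nat_lit 1122) (nat_lit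 102400689) (nat_lit 1870) (nat_lit 8175833068) (nat_lit 0) (nat_lit 0),Row.mk (nat_lit 21672) (nat_lit 1683) (nat_lit 127895991) (nat_lit 2431) (nat_lit 8155420103) (nat_lit 0) (nat_lit 0),Row.mk (nat_lit 21840) (nat_lit 2244) (nat_lit 159739007) (nat_lit 2992) (nat_lit 8129924802) (nat_lit 0) (nat_lit 0),Row.mk (nat_lit 22008) (nat_lit 2805) (nat_lit 199510166) (nat_lit 3553) (nat_lit 8098081785) (nat_lit 0) (nat_lit 0),Row.mk (nat_lit 22176) (nat_lit 3366) (nat_lit 249183385) (nat_lit 4114) (nat_lit 8058310626) (nat_lit 0) (nat_lit 0),Row.mk (nat_lit 22344) (nat_lit 3927) (nat_lit 311224037) (nat_lit 4675) (nat_lit 8008637407) (nat_lit 0) (nat_lit 0),Row.mk (nat_lit 22512) (nat_lit 4488) (nat_lit 388711314) (nat_lit 5236) (nat_lit 7946596756) (nat_lit 0) (nat_lit 0),Row.mk (nat_lit 22680) (nat_lit 5049) (nat_lit 485491054) (nat_lit 5797) (nat_lit 7869109478) (nat_lit 0) (nat_lit 0),Row.mk (nat_lit 22848) (nat_lit 5610) (nat_lit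 606366615) (nat_lit 6358) (nat_lit 7772329738) (nat_lit 0) (nat_lit 0),Row.mk (nat_lit 23016) (nat_lit 6171) (nat_lit 757337274) (nat_lit 6919) (nat_lit 7651454177) (nat_lit 0) (nat_lit 0),Row.mk (nat_lit 23184) (nat_lit 6732) (nat_lit 945895986) (nat_lit 7480) (nat_lit 7500483518) (nat_lit 0) (nat_lit 0),Row.mk (nat_lit 23352) (nat_lit 7293) (nat_lit 1181401268) (nat_lit 8041) (nat_lit 7311924806) (nat_lit 0) (nat_lit 0),Row.mk (nat_lit 23520) (nat_lit 7854) (nat_lit 1475541683) (nat_lit 8602) (nat_lit 7076419525) (nat_lit 0) (nat_lit 0),Row.mk (nat_lit 23688) (nat_lit 8415) (nat_lit 1842915967) (nat_lit 9163) (nat_lit 6782279109) (nat_lit 0) (nat_lit 0),Row.mk (nat_lit 23856) (nat_lit 8976) (nat_lit 2301757585) (nat_lit 9724) (nat_lit 6414904825) (nat_lit 0) (nat_lit 0),Row.mk (nat_lit 24024) (nat_lit 9537) (nat_lit 2874839696) (nat_lit 10285) (nat_lit 5956063207) (nat_lit 0) (nat_lit 0),Row.mk (nat_lit 24192) (nat_lit 10098) (nat_lit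 3590605429) (nat_lit 10846) (nat_lit 5382981096) (nat_lit 0) (nat_lit 0),Row.mk (nat_lit 24360) (nat_lit 10659) (nat_lit 4484579562) (nat_lit 11407) (nat_lit 4667215363) (nat_lit 0) (nat_lit 0),Row.mk (nat_lit 24528) (nat_lit 11220) (nat_lit 5601131688) (nat_lit 11968) (nat_lit 3773241230) (nat_lit 0) (nat_lit 0),Row.mk (nat_lit 24696) (nat_lit 11781) (nat_lit 6995678357) (nat_lit 12716) (nat_lit 2656689104) (nat_lit 0) (nat_lit 0),Row.mk (nat_lit 24864) (nat_lit 12529) (nat_lit 8737433506) (nat_lit 13464) (nat_lit 1262142435) (nat_lit 0) (nat_lit 0),Row.mk (nat_lit 25032) (nat_lit 12342) (nat_lit 599024709) (nat_lit 13277) (nat_lit 9834206247) (nat_lit 0) (nat_lit 0),Row.mk (nat_lit 25200) (nat_lit 13090) (nat_lit 3316059523) (nat_lit 14025) (nat_lit 7658796084) (nat_lit 0) (nat_lit 0),Row.mk (nat_lit 25368) (nat_lit 13838) (nat_lit 6709570461) (nat_lit 15147) (nat_lit 4941761269) (nat_lit 0) (nat_lit 0),Row.mk (nat_lit 25536) (nat_lit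 14960) (nat_lit 10947983758) (nat_lit 16456) (nat_lit 1548250331) (nat_lit 0) (nat_lit 0),Row.mk (nat_lit 25704) (nat_lit 14773) (nat_lit 3359948647) (nat_lit 16269) (nat_lit 10191548107) (nat_lit 0) (nat_lit 0),Row.mk (nat_lit 25872) (nat_lit 16082) (nat_lit 9971622219) (nat_lit 17765) (nat_lit 4897872146) (nat_lit 0) (nat_lit 0),Row.mk (nat_lit 26040) (nat_lit 15895) (nat_lit 2140496638) (nat_lit 17578) (nat_lit 14375144948) (nat_lit 0) (nat_lit 0),Row.mk (nat_lit 26208) (nat_lit 17391) (nat_lit 12454315598) (nat_lit 19635) (nat_lit 6117324155) (nat_lit 0) (nat_lit 0),Row.mk (nat_lit 26376) (nat_lit 17204) (nat_lit 5241320776) (nat_lit 19448) (nat_lit 15898211089) (nat_lit 0) (nat_lit 0),Row.mk (nat_lit 26544) (nat_lit 19261) (nat_lit 21330267151) (nat_lit 25806) (nat_lit 3016500016) (nat_lit 0) (nat_lit 0),Row.mk (nat_lit 26712) (nat_lit 19074) (nat_lit 16327170144) (nat_lit 25619) (nat_lit 12025356544) (nat_lit 0) (nat_lit 0),Row.mk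 (nat_lit 26880) (nat_lit 18887) (nat_lit 10078422675) (nat_lit 25432) (nat_lit 23277201019) (nat_lit 0) (nat_lit 0),Row.mk (nat_lit 27048) (nat_lit 18700) (nat_lit 2273887831) (nat_lit 25245) (nat_lit 37330483331) (nat_lit 0) (nat_lit 0),Row.mk (nat_lit 27216) (nat_lit 25058) (nat_lit 41424973046) (nat_lit 31603) (nat_lit 5983932961) (nat_lit 0) (nat_lit 0),Row.mk (nat_lit 27384) (nat_lit 24871) (nat_lit 41424973046) (nat_lit 31416) (nat_lit 15731608706) (nat_lit 0) (nat_lit 0),Row.mk (nat_lit 27552) (nat_lit 24684) (nat_lit 41424973046) (nat_lit 31229) (nat_lit 27906220561) (nat_lit 0) (nat_lit 0),Row.mk (nat_lit 27720) (nat_lit 24497) (nat_lit 41424973046) (nat_lit 31042) (nat_lit 43112017070) (nat_lit 0) (nat_lit 0),Row.mk (nat_lit 27888) (nat_lit 24310) (nat_lit 41424973046) (nat_lit 30855) (nat_lit 62103690088) (nat_lit 0) (nat_lit 0),Row.mk (nat_lit 28056) (nat_lit 24123) (nat_lit 41424973046) (nat_lit 30668) (nat_lit 85823831535)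 (nat_lit 0) (nat_lit 0),Row.mk (nat_lit 28224) (nat_lit 23936) (nat_lit 41424973046) (nat_lit 30481) (nat_lit 115449715983) (nat_lit 0) (nat_lit 0),Row.mk (nat_lit 28392) (nat_lit 23749) (nat_lit 41424973046) (nat_lit 30294) (nat_lit 152451730970) (nat_lit 0) (nat_lit 0),Row.mk (nat_lit 28560) (nat_lit 23562) (nat_lit 41424973046) (nat_lit 30107) (nat_lit 198666355059) (nat_lit 0) (nat_lit 0),Row.mk (nat_lit 28728) (nat_lit 23375) (nat_lit 41424973046) (nat_lit 29920) (nat_lit 256387305674) (nat_lit 0) (nat_lit 0),Row.mk (nat_lit 28896) (nat_lit 23188) (nat_lit 41424973046) (nat_lit 29733) (nat_lit 328479380542) (nat_lit 0) (nat_lit 0),Row.mk (nat_lit 29064) (nat_lit 23001) (nat_lit 41424973046) (nat_lit 29546) (nat_lit 418520642918) (nat_lit 0) (nat_lit 0),Row.mk (nat_lit 29232) (nat_lit 22814) (nat_lit 41424973046) (nat_lit 29359) (nat_lit 530980007487) (nat_lit 0) (nat_lit 0),Row.mk (nat_lit 29400) (nat_lit 22627) (nat_lit 41424973046)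 (nat_lit 29172) (nat_lit 671439040887) (nat_lit 0) (nat_lit 0),Row.mk (nat_lit 29568) (nat_lit 22440) (nat_lit 41424973046) (nat_lit 28985) (nat_lit 846868985196) (nat_lit 0) (nat_lit 0),Row.mk (nat_lit 29736) (nat_lit 22253) (nat_lit 41424973046) (nat_lit 28798) (nat_lit 1065976753601) (nat_lit 0) (nat_lit 0),Row.mk (nat_lit 29904) (nat_lit 22066) (nat_lit 41424973046) (nat_lit 28611) (nat_lit 1339637070625) (nat_lit 0) (nat_lit 0),Row.mk (nat_lit 30072) (nat_lit 21879) (nat_lit 41424973046) (nat_lit 28424) (nat_lit 1681432204860) (nat_lit 0) (nat_lit 0),Row.mk (nat_lit 30240) (nat_lit 21692) (nat_lit 41424973046) (nat_lit 28237) (nat_lit 2108326082121) (nat_lit 0) (nat_lit 0),Row.mk (nat_lit 30408) (nat_lit 21505) (nat_lit 41424973046) (nat_lit 28050) (nat_lit 2641506236514) (nat_lit 0) (nat_lit 0),Row.mk (nat_lit 30576) (nat_lit 21318) (nat_lit 41424973046) (nat_lit 27863) (nat_lit 3307435387018) (nat_lit 0) (nat_lit 0),Row.mk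 (nat_lit 30744) (nat_lit 21131) (nat_lit 41424973046) (nat_lit 27676) (nat_lit 4139164831251) (nat_lit 0) (nat_lit 0),Row.mk (nat_lit 30912) (nat_lit 20944) (nat_lit 41424973046) (nat_lit 27489) (nat_lit 5177974842620) (nat_lit 0) (nat_lit 0)],
[Row.mk (nat_lit 18312) (nat_lit 32912) (nat_lit 298799) (nat_lit 61897) (nat_lit 10313520161) (nat_lit 0) (nat_lit 0),Row.mk (nat_lit 18480) (nat_lit 32912) (nat_lit 373192) (nat_lit 61897) (nat_lit 10313445767) (nat_lit 0) (nat_lit 0),Row.mk (nat_lit 18648) (nat_lit 32912) (nat_lit 466108) (nat_lit 61897) (nat_lit 10313352851) (nat_lit 0) (nat_lit 0),Row.mk (nat_lit 18816) (nat_lit 32912) (nat_lit 582158) (nat_lit 61897) (nat_lit 10313236801) (nat_lit 0) (nat_lit 0),Row.mk (nat_lit 18984) (nat_lit 32912) (nat_lit 727102) (nat_lit 61897) (nat_lit 10313091858) (nat_lit 0) (nat_lit 0),Row.mk (nat_lit 19152) (nat_lit 32912) (nat_lit 908132) (nat_lit 61897) (nat_lit 10312910827) (nat_lit 0) (nat_lit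 0),Row.mk (nat_lit 19320) (nat_lit 32912) (nat_lit 1134236) (nat_lit 61897) (nat_lit 10312684724) (nat_lit 0) (nat_lit 0),Row.mk (nat_lit 19488) (nat_lit 32912) (nat_lit 1416633) (nat_lit 61897) (nat_lit 10312402327) (nat_lit 0) (nat_lit 0),Row.mk (nat_lit 19656) (nat_lit 32912) (nat_lit 1769341) (nat_lit 61897) (nat_lit 10312049619) (nat_lit 0) (nat_lit 0),Row.mk (nat_lit 19824) (nat_lit 32912) (nat_lit 2209864) (nat_lit 61897) (nat_lit 10311609096) (nat_lit 0) (nat_lit 0),Row.mk (nat_lit 19992) (nat_lit 32912) (nat_lit 2760067) (nat_lit 61897) (nat_lit 10311058893) (nat_lit 0) (nat_lit 0),Row.mk (nat_lit 20160) (nat_lit 32912) (nat_lit 3447257) (nat_lit 61897) (nat_lit 10310371703) (nat_lit 0) (nat_lit 0),Row.mk (nat_lit 20328) (nat_lit 32912) (nat_lit 4305541) (nat_lit 61897) (nat_lit 10309513419) (nat_lit 0) (nat_lit 0),Row.mk (nat_lit 20496) (nat_lit 32912) (nat_lit 5377517) (nat_lit 61897) (nat_lit 10308441443) (nat_lit 0) (nat_lit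 0),Row.mk (nat_lit 20664) (nat_lit 32912) (nat_lit 6716389) (nat_lit 61897) (nat_lit 10307102571) (nat_lit 0) (nat_lit 0),Row.mk (nat_lit 20832) (nat_lit 32912) (nat_lit 8388608) (nat_lit 61897) (nat_lit 10305430352) (nat_lit 0) (nat_lit 0),Row.mk (nat_lit 21000) (nat_lit 32912) (nat_lit 10477169) (nat_lit 61897) (nat_lit 10303341791) (nat_lit 0) (nat_lit 0),Row.mk (nat_lit 21168) (nat_lit 32912) (nat_lit 13085731) (nat_lit 61897) (nat_lit 10300733229) (nat_lit 0) (nat_lit 0),Row.mk (nat_lit 21336) (nat_lit 0) (nat_lit 81987724) (nat_lit 748) (nat_lit 10248174999) (nat_lit 0) (nat_lit 0),Row.mk (nat_lit 21504) (nat_lit 561) (nat_lit 102400689) (nat_lit 1309) (nat_lit 10231831236) (nat_lit 0) (nat_lit 0),Row.mk (nat_lit 21672) (nat_lit 1122) (nat_lit 127895991) (nat_lit 1870) (nat_lit 10211418270) (nat_lit 0) (nat_lit 0),Row.mk (nat_lit 21840) (nat_lit 1683) (nat_lit 159739007) (nat_lit 2431) (nat_lit 10185922969) (nat_lit 0) (nat_lit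 0),Row.mk (nat_lit 22008) (nat_lit 2244) (nat_lit 199510166) (nat_lit 2992) (nat_lit 10154079953) (nat_lit 0) (nat_lit 0),Row.mk (nat_lit 22176) (nat_lit 2805) (nat_lit 249183385) (nat_lit 3553) (nat_lit 10114308793) (nat_lit 0) (nat_lit 0),Row.mk (nat_lit 22344) (nat_lit 3366) (nat_lit 311224037) (nat_lit 4114) (nat_lit 10064635575) (nat_lit 0) (nat_lit 0),Row.mk (nat_lit 22512) (nat_lit 3927) (nat_lit 388711314) (nat_lit 4675) (nat_lit 10002594923) (nat_lit 0) (nat_lit 0),Row.mk (nat_lit 22680) (nat_lit 4488) (nat_lit 485491054) (nat_lit 5236) (nat_lit 9925107646) (nat_lit 0) (nat_lit 0),Row.mk (nat_lit 22848) (nat_lit 5049) (nat_lit 606366615) (nat_lit 5797) (nat_lit 9828327905) (nat_lit 0) (nat_lit 0),Row.mk (nat_lit 23016) (nat_lit 5610) (nat_lit 757337274) (nat_lit 6358) (nat_lit 9707452345) (nat_lit 0) (nat_lit 0),Row.mk (nat_lit 23184) (nat_lit 6171) (nat_lit 945895986) (nat_lit 6919) (nat_lit 9556481685) (nat_lit 0) (nat_lit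 0),Row.mk (nat_lit 23352) (nat_lit 6732) (nat_lit 1181401268) (nat_lit 7480) (nat_lit 9367922974) (nat_lit 0) (nat_lit 0),Row.mk (nat_lit 23520) (nat_lit 7293) (nat_lit 1475541683) (nat_lit 8041) (nat_lit 9132417692) (nat_lit 0) (nat_lit 0),Row.mk (nat_lit 23688) (nat_lit 7854) (nat_lit 1842915967) (nat_lit 8602) (nat_lit 8838277276) (nat_lit 0) (nat_lit 0),Row.mk (nat_lit 23856) (nat_lit 8415) (nat_lit 2301757585) (nat_lit 9163) (nat_lit 8470902992) (nat_lit 0) (nat_lit 0),Row.mk (nat_lit 24024) (nat_lit 8976) (nat_lit 2874839696) (nat_lit 9724) (nat_lit 8012061375) (nat_lit 0) (nat_lit 0),Row.mk (nat_lit 24192) (nat_lit 9537) (nat_lit 3590605429) (nat_lit 10285) (nat_lit 7438979263) (nat_lit 0) (nat_lit 0),Row.mk (nat_lit 24360) (nat_lit 10098) (nat_lit 4484579562) (nat_lit 10846) (nat_lit 6723213531) (nat_lit 0) (nat_lit 0),Row.mk (nat_lit 24528) (nat_lit 10659) (nat_lit 5601131688) (nat_lit 11407) (nat_lit 5829239398) (nat_lit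 0) (nat_lit 0),Row.mk (nat_lit 24696) (nat_lit 11220) (nat_lit 6995678357) (nat_lit 11968) (nat_lit 4712687272) (nat_lit 0) (nat_lit 0),Row.mk (nat_lit 24864) (nat_lit 11781) (nat_lit 8737433506) (nat_lit 12716) (nat_lit 3318140602) (nat_lit 0) (nat_lit 0),Row.mk (nat_lit 25032) (nat_lit 12529) (nat_lit 10912843669) (nat_lit 13464) (nat_lit 1576385453) (nat_lit 0) (nat_lit 0),Row.mk (nat_lit 25200) (nat_lit 12342) (nat_lit 748167410) (nat_lit 13277) (nat_lit 12282686364) (nat_lit 0) (nat_lit 0),Row.mk (nat_lit 25368) (nat_lit 13090) (nat_lit 4141678348) (nat_lit 14025) (nat_lit 9565651549) (nat_lit 0) (nat_lit 0),Row.mk (nat_lit 25536) (nat_lit 13838) (nat_lit 8380091646) (nat_lit 15147) (nat_lit 6172140611) (nat_lit 0) (nat_lit 0),Row.mk (nat_lit 25704) (nat_lit 14960) (nat_lit 13673767607) (nat_lit 16456) (nat_lit 1933727314) (nat_lit 0) (nat_lit 0),Row.mk (nat_lit 25872) (nat_lit 14773) (nat_lit 4196494805) (nat_lit 16269) (nat_lit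 12728997727) (nat_lit 0) (nat_lit 0),Row.mk (nat_lit 26040) (nat_lit 16082) (nat_lit 12454315598) (nat_lit 17765) (nat_lit 6117324155) (nat_lit 0) (nat_lit 0),Row.mk (nat_lit 26208) (nat_lit 15895) (nat_lit 2673428664) (nat_lit 17578) (nat_lit 17954209257) (nat_lit 0) (nat_lit 0),Row.mk (nat_lit 26376) (nat_lit 17391) (nat_lit 15555139737) (nat_lit 19635) (nat_lit 7640390296) (nat_lit 0) (nat_lit 0),Row.mk (nat_lit 26544) (nat_lit 17204) (nat_lit 6546283209) (nat_lit 19448) (nat_lit 19856482125) (nat_lit 0) (nat_lit 0),Row.mk (nat_lit 26712) (nat_lit 19261) (nat_lit 26640989104) (nat_lit 25806) (nat_lit 3767535751) (nat_lit 0) (nat_lit 0),Row.mk (nat_lit 26880) (nat_lit 19074) (nat_lit 20392241636) (nat_lit 25619) (nat_lit 15019380226) (nat_lit 0) (nat_lit 0),Row.mk (nat_lit 27048) (nat_lit 18887) (nat_lit 12587706792) (nat_lit 25432) (nat_lit 29072662538) (nat_lit 0) (nat_lit 0),Row.mk (nat_lit 27216) (nat_lit 18700) (nat_lit 2840031047)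 (nat_lit 25245) (nat_lit 46624873128) (nat_lit 0) (nat_lit 0),Row.mk (nat_lit 27384) (nat_lit 25058) (nat_lit 51738792006) (nat_lit 31603) (nat_lit 7473787913) (nat_lit 0) (nat_lit 0),Row.mk (nat_lit 27552) (nat_lit 24871) (nat_lit 51738792006) (nat_lit 31416) (nat_lit 19648399768) (nat_lit 0) (nat_lit 0),Row.mk (nat_lit 27720) (nat_lit 24684) (nat_lit 51738792006) (nat_lit 31229) (nat_lit 34854196277) (nat_lit 0) (nat_lit 0),Row.mk (nat_lit 27888) (nat_lit 24497) (nat_lit 51738792006) (nat_lit 31042) (nat_lit 53845869294) (nat_lit 0) (nat_lit 0),Row.mk (nat_lit 28056) (nat_lit 24310) (nat_lit 51738792006) (nat_lit 30855) (nat_lit 77566010742) (nat_lit 0) (nat_lit 0),Row.mk (nat_lit 28224) (nat_lit 24123) (nat_lit 51738792006) (nat_lit 30668) (nat_lit 107191895190) (nat_lit 0) (nat_lit 0),Row.mk (nat_lit 28392) (nat_lit 23936) (nat_lit 51738792006) (nat_lit 30481) (nat_lit 144193910177) (nat_lit 0) (nat_lit 0),Row.mk (nat_lit 28560)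 (nat_lit 23749) (nat_lit 51738792006) (nat_lit 30294) (nat_lit 190408534266) (nat_lit 0) (nat_lit 0),Row.mk (nat_lit 28728) (nat_lit 23562) (nat_lit 51738792006) (nat_lit 30107) (nat_lit 248129484880) (nat_lit 0) (nat_lit 0),Row.mk (nat_lit 28896) (nat_lit 23375) (nat_lit 51738792006) (nat_lit 29920) (nat_lit 320221559749) (nat_lit 0) (nat_lit 0),Row.mk (nat_lit 29064) (nat_lit 23188) (nat_lit 51738792006) (nat_lit 29733) (nat_lit 410262822125) (nat_lit 0) (nat_lit 0),Row.mk (nat_lit 29232) (nat_lit 23001) (nat_lit 51738792006) (nat_lit 29546) (nat_lit 522722186694) (nat_lit 0) (nat_lit 0),Row.mk (nat_lit 29400) (nat_lit 22814) (nat_lit 51738792006) (nat_lit 29359) (nat_lit 663181220093) (nat_lit 0) (nat_lit 0),Row.mk (nat_lit 29568) (nat_lit 22627) (nat_lit 51738792006) (nat_lit 29172) (nat_lit 838611164403) (nat_lit 0) (nat_lit 0),Row.mk (nat_lit 29736) (nat_lit 22440) (nat_lit 51738792006) (nat_lit 28985) (nat_lit 1057718932808)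 (nat_lit 0) (nat_lit 0),Row.mk (nat_lit 29904) (nat_lit 22253) (nat_lit 51738792006) (nat_lit 28798) (nat_lit 1331379249832) (nat_lit 0) (nat_lit 0),Row.mk (nat_lit 30072) (nat_lit 22066) (nat_lit 51738792006) (nat_lit 28611) (nat_lit 1673174384067) (nat_lit 0) (nat_lit 0),Row.mk (nat_lit 30240) (nat_lit 21879) (nat_lit 51738792006) (nat_lit 28424) (nat_lit 2100068261328) (nat_lit 0) (nat_lit 0),Row.mk (nat_lit 30408) (nat_lit 21692) (nat_lit 51738792006) (nat_lit 28237) (nat_lit 2633248415721) (nat_lit 0) (nat_lit 0),Row.mk (nat_lit 30576) (nat_lit 21505) (nat_lit 51738792006) (nat_lit 28050) (nat_lit 3299177566225) (nat_lit 0) (nat_lit 0),Row.mk (nat_lit 30744) (nat_lit 21318) (nat_lit 51738792006) (nat_lit 27863) (nat_lit 4130907010458) (nat_lit 0) (nat_lit 0),Row.mk (nat_lit 30912) (nat_lit 21131) (nat_lit 51738792006) (nat_lit 27676) (nat_lit 5169717021827) (nat_lit 0) (nat_lit 0),Row.mk (nat_lit 31080) (nat_lit 20944) (nat_lit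 51738792006) (nat_lit 27489) (nat_lit 6467165665977) (nat_lit 0) (nat_lit 0)],
[Row.mk (nat_lit 20328) (nat_lit 32912) (nat_lit 4305541) (nat_lit 61897) (nat_lit 12877405531) (nat_lit 0) (nat_lit 0),Row.mk (nat_lit 20496) (nat_lit 32912) (nat_lit 5377517) (nat_lit 61897) (nat_lit 12876333556) (nat_lit 0) (nat_lit 0),Row.mk (nat_lit 20664) (nat_lit 32912) (nat_lit 6716389) (nat_lit 61897) (nat_lit 12874994684) (nat_lit 0) (nat_lit 0),Row.mk (nat_lit 20832) (nat_lit 32912) (nat_lit 8388608) (nat_lit 61897) (nat_lit 12873322465) (nat_lit 0) (nat_lit 0),Row.mk (nat_lit 21000) (nat_lit 32912) (nat_lit 10477169) (nat_lit 61897) (nat_lit 12871233904) (nat_lit 0) (nat_lit 0),Row.mk (nat_lit 21168) (nat_lit 32912) (nat_lit 13085731) (nat_lit 61897) (nat_lit 12868625341) (nat_lit 0) (nat_lit 0),Row.mk (nat_lit 21336) (nat_lit 32912) (nat_lit 16343762) (nat_lit 61897) (nat_lit 12865367310) (nat_lit 0) (nat_lit 0),Row.mk (nat_lit 21504) (nat_lit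 0) (nat_lit 102400689) (nat_lit 748) (nat_lit 12799723349) (nat_lit 0) (nat_lit 0),Row.mk (nat_lit 21672) (nat_lit 561) (nat_lit 127895991) (nat_lit 1309) (nat_lit 12779310383) (nat_lit 0) (nat_lit 0),Row.mk (nat_lit 21840) (nat_lit 1122) (nat_lit 159739007) (nat_lit 1870) (nat_lit 12753815082) (nat_lit 0) (nat_lit 0),Row.mk (nat_lit 22008) (nat_lit 1683) (nat_lit 199510166) (nat_lit 2431) (nat_lit 12721972065) (nat_lit 0) (nat_lit 0),Row.mk (nat_lit 22176) (nat_lit 2244) (nat_lit 249183385) (nat_lit 2992) (nat_lit 12682200906) (nat_lit 0) (nat_lit 0),Row.mk (nat_lit 22344) (nat_lit 2805) (nat_lit 311224037) (nat_lit 3553) (nat_lit 12632527687) (nat_lit 0) (nat_lit 0),Row.mk (nat_lit 22512) (nat_lit 3366) (nat_lit 388711314) (nat_lit 4114) (nat_lit 12570487036) (nat_lit 0) (nat_lit 0),Row.mk (nat_lit 22680) (nat_lit 3927) (nat_lit 485491054) (nat_lit 4675) (nat_lit 12492999758) (nat_lit 0) (nat_lit 0),Row.mk (nat_lit 22848) (nat_lit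 4488) (nat_lit 606366615) (nat_lit 5236) (nat_lit 12396220018) (nat_lit 0) (nat_lit 0),Row.mk (nat_lit 23016) (nat_lit 5049) (nat_lit 757337274) (nat_lit 5797) (nat_lit 12275344457) (nat_lit 0) (nat_lit 0),Row.mk (nat_lit 23184) (nat_lit 5610) (nat_lit 945895986) (nat_lit 6358) (nat_lit 12124373798) (nat_lit 0) (nat_lit 0),Row.mk (nat_lit 23352) (nat_lit 6171) (nat_lit 1181401268) (nat_lit 6919) (nat_lit 11935815087) (nat_lit 0) (nat_lit 0),Row.mk (nat_lit 23520) (nat_lit 6732) (nat_lit 1475541683) (nat_lit 7480) (nat_lit 11700309805) (nat_lit 0) (nat_lit 0),Row.mk (nat_lit 23688) (nat_lit 7293) (nat_lit 1842915967) (nat_lit 8041) (nat_lit 11406169389) (nat_lit 0) (nat_lit 0),Row.mk (nat_lit 23856) (nat_lit 7854) (nat_lit 2301757585) (nat_lit 8602) (nat_lit 11038795105) (nat_lit 0) (nat_lit 0),Row.mk (nat_lit 24024) (nat_lit 8415) (nat_lit 2874839696) (nat_lit 9163) (nat_lit 10579953487) (nat_lit 0) (nat_lit 0),Row.mk (nat_lit 24192)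 (nat_lit 8976) (nat_lit 3590605429) (nat_lit 9724) (nat_lit 10006871376) (nat_lit 0) (nat_lit 0),Row.mk (nat_lit 24360) (nat_lit 9537) (nat_lit 4484579562) (nat_lit 10285) (nat_lit 9291105643) (nat_lit 0) (nat_lit 0),Row.mk (nat_lit 24528) (nat_lit 10098) (nat_lit 5601131688) (nat_lit 10846) (nat_lit 8397131510) (nat_lit 0) (nat_lit 0),Row.mk (nat_lit 24696) (nat_lit 10659) (nat_lit 6995678357) (nat_lit 11407) (nat_lit 7280579385) (nat_lit 0) (nat_lit 0),Row.mk (nat_lit 24864) (nat_lit 11220) (nat_lit 8737433506) (nat_lit 11968) (nat_lit 5886032715) (nat_lit 0) (nat_lit 0),Row.mk (nat_lit 25032) (nat_lit 11781) (nat_lit 10912843669) (nat_lit 12716) (nat_lit 4144277566) (nat_lit 0) (nat_lit 0),Row.mk (nat_lit 25200) (nat_lit 12529) (nat_lit 13629878484) (nat_lit 13464) (nat_lit 1968867403) (nat_lit 0) (nat_lit 0),Row.mk (nat_lit 25368) (nat_lit 12342) (nat_lit 934443047) (nat_lit 13277) (nat_lit 15340778963) (nat_lit 0) (nat_lit 0),Row.mk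 (nat_lit 25536) (nat_lit 13090) (nat_lit 5172856344) (nat_lit 14025) (nat_lit 11947268025) (nat_lit 0) (nat_lit 0),Row.mk (nat_lit 25704) (nat_lit 13838) (nat_lit 10466532306) (nat_lit 15147) (nat_lit 7708854728) (nat_lit 0) (nat_lit 0),Row.mk (nat_lit 25872) (nat_lit 14960) (nat_lit 17078205878) (nat_lit 16456) (nat_lit 2415178766) (nat_lit 0) (nat_lit 0),Row.mk (nat_lit 26040) (nat_lit 14773) (nat_lit 5241320776) (nat_lit 16269) (nat_lit 15898211089) (nat_lit 0) (nat_lit 0),Row.mk (nat_lit 26208) (nat_lit 16082) (nat_lit 15555139737) (nat_lit 17765) (nat_lit 7640390296) (nat_lit 0) (nat_lit 0),Row.mk (nat_lit 26376) (nat_lit 15895) (nat_lit 3339047908) (nat_lit 17578) (nat_lit 22424374238) (nat_lit 0) (nat_lit 0),Row.mk (nat_lit 26544) (nat_lit 17391) (nat_lit 19427994282) (nat_lit 19635) (nat_lit 9542663165) (nat_lit 0) (nat_lit 0),Row.mk (nat_lit 26712) (nat_lit 17204) (nat_lit 8176149807) (nat_lit 19448) (nat_lit 24800267161)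 (nat_lit 0) (nat_lit 0),Row.mk (nat_lit 26880) (nat_lit 19261) (nat_lit 33273952709) (nat_lit 25806) (nat_lit 4705561265) (nat_lit 0) (nat_lit 0),Row.mk (nat_lit 27048) (nat_lit 19074) (nat_lit 25469417865) (nat_lit 25619) (nat_lit 18758843578) (nat_lit 0) (nat_lit 0),Row.mk (nat_lit 27216) (nat_lit 18887) (nat_lit 15721742120) (nat_lit 25432) (nat_lit 36311054167) (nat_lit 0) (nat_lit 0),Row.mk (nat_lit 27384) (nat_lit 18700) (nat_lit 3547130265) (nat_lit 25245) (nat_lit 58233341767) (nat_lit 0) (nat_lit 0),Row.mk (nat_lit 27552) (nat_lit 25058) (nat_lit 64620503080) (nat_lit 31603) (nat_lit 9334580807) (nat_lit 0) (nat_lit 0),Row.mk (nat_lit 27720) (nat_lit 24871) (nat_lit 64620503080) (nat_lit 31416) (nat_lit 24540377316) (nat_lit 0) (nat_lit 0),Row.mk (nat_lit 27888) (nat_lit 24684) (nat_lit 64620503080) (nat_lit 31229) (nat_lit 43532050334) (nat_lit 0) (nat_lit 0),Row.mk (nat_lit 28056) (nat_lit 24497) (nat_lit 64620503080) (nat_lit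 31042) (nat_lit 67252191782) (nat_lit 0) (nat_lit 0),Row.mk (nat_lit 28224) (nat_lit 24310) (nat_lit 64620503080) (nat_lit 30855) (nat_lit 96878076230) (nat_lit 0) (nat_lit 0),Row.mk (nat_lit 28392) (nat_lit 24123) (nat_lit 64620503080) (nat_lit 30668) (nat_lit 133880091216) (nat_lit 0) (nat_lit 0),Row.mk (nat_lit 28560) (nat_lit 23936) (nat_lit 64620503080) (nat_lit 30481) (nat_lit 180094715305) (nat_lit 0) (nat_lit 0),Row.mk (nat_lit 28728) (nat_lit 23749) (nat_lit 64620503080) (nat_lit 30294) (nat_lit 237815665920) (nat_lit 0) (nat_lit 0),Row.mk (nat_lit 28896) (nat_lit 23562) (nat_lit 64620503080) (nat_lit 30107) (nat_lit 309907740788) (nat_lit 0) (nat_lit 0),Row.mk (nat_lit 29064) (nat_lit 23375) (nat_lit 64620503080) (nat_lit 29920) (nat_lit 399949003164) (nat_lit 0) (nat_lit 0),Row.mk (nat_lit 29232) (nat_lit 23188) (nat_lit 64620503080) (nat_lit 29733) (nat_lit 512408367734) (nat_lit 0) (nat_lit 0),Row.mk (nat_lit 29400) (nat_lit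 23001) (nat_lit 64620503080) (nat_lit 29546) (nat_lit 652867401133) (nat_lit 0) (nat_lit 0),Row.mk (nat_lit 29568) (nat_lit 22814) (nat_lit 64620503080) (nat_lit 29359) (nat_lit 828297345442) (nat_lit 0) (nat_lit 0),Row.mk (nat_lit 29736) (nat_lit 22627) (nat_lit 64620503080) (nat_lit 29172) (nat_lit 1047405113847) (nat_lit 0) (nat_lit 0),Row.mk (nat_lit 29904) (nat_lit 22440) (nat_lit 64620503080) (nat_lit 28985) (nat_lit 1321065430871) (nat_lit 0) (nat_lit 0),Row.mk (nat_lit 30072) (nat_lit 22253) (nat_lit 64620503080) (nat_lit 28798) (nat_lit 1662860565106) (nat_lit 0) (nat_lit 0),Row.mk (nat_lit 30240) (nat_lit 22066) (nat_lit 64620503080) (nat_lit 28611) (nat_lit 2089754442367) (nat_lit 0) (nat_lit 0),Row.mk (nat_lit 30408) (nat_lit 21879) (nat_lit 64620503080) (nat_lit 28424) (nat_lit 2622934596761) (nat_lit 0) (nat_lit 0),Row.mk (nat_lit 30576) (nat_lit 21692) (nat_lit 64620503080) (nat_lit 28237) (nat_lit 3288863747264) (nat_lit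 0) (nat_lit 0),Row.mk (nat_lit 30744) (nat_lit 21505) (nat_lit 64620503080) (nat_lit 28050) (nat_lit 4120593191498) (nat_lit 0) (nat_lit 0),Row.mk (nat_lit 30912) (nat_lit 21318) (nat_lit 64620503080) (nat_lit 27863) (nat_lit 5159403202867) (nat_lit 0) (nat_lit 0),Row.mk (nat_lit 31080) (nat_lit 21131) (nat_lit 64620503080) (nat_lit 27676) (nat_lit 6456851847016) (nat_lit 0) (nat_lit 0)],
[Row.mk (nat_lit 20832) (nat_lit 32912) (nat_lit 8388608) (nat_lit 61897) (nat_lit 16080557766) (nat_lit 0) (nat_lit 0),Row.mk (nat_lit 21000) (nat_lit 32912) (nat_lit 10477169) (nat_lit 61897) (nat_lit 16078469205) (nat_lit 0) (nat_lit 0),Row.mk (nat_lit 21168) (nat_lit 32912) (nat_lit 13085731) (nat_lit 61897) (nat_lit 16075860643) (nat_lit 0) (nat_lit 0),Row.mk (nat_lit 21336) (nat_lit 32912) (nat_lit 16343762) (nat_lit 61897) (nat_lit 16072602611) (nat_lit 0) (nat_lit 0),Row.mk (nat_lit 21504) (nat_lit 32912) (nat_lit 20412965) (nat_lit 61897)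 (nat_lit 16068533409) (nat_lit 0) (nat_lit 0),Row.mk (nat_lit 21672) (nat_lit 0) (nat_lit 127895991) (nat_lit 748) (nat_lit 15986545684) (nat_lit 0) (nat_lit 0),Row.mk (nat_lit 21840) (nat_lit 561) (nat_lit 159739007) (nat_lit 1309) (nat_lit 15961050383) (nat_lit 0) (nat_lit 0),Row.mk (nat_lit 22008) (nat_lit 1122) (nat_lit 199510166) (nat_lit 1870) (nat_lit 15929207367) (nat_lit 0) (nat_lit 0),Row.mk (nat_lit 22176) (nat_lit 1683) (nat_lit 249183385) (nat_lit 2431) (nat_lit 15889436207) (nat_lit 0) (nat_lit 0),Row.mk (nat_lit 22344) (nat_lit 2244) (nat_lit 311224037) (nat_lit 2992) (nat_lit 15839762989) (nat_lit 0) (nat_lit 0),Row.mk (nat_lit 22512) (nat_lit 2805) (nat_lit 388711314) (nat_lit 3553) (nat_lit 15777722337) (nat_lit 0) (nat_lit 0),Row.mk (nat_lit 22680) (nat_lit 3366) (nat_lit 485491054) (nat_lit 4114) (nat_lit 15700235060) (nat_lit 0) (nat_lit 0),Row.mk (nat_lit 22848) (nat_lit 3927) (nat_lit 606366615) (nat_lit 4675)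 (nat_lit 15603455319) (nat_lit 0) (nat_lit 0),Row.mk (nat_lit 23016) (nat_lit 4488) (nat_lit 757337274) (nat_lit 5236) (nat_lit 15482579759) (nat_lit 0) (nat_lit 0),Row.mk (nat_lit 23184) (nat_lit 5049) (nat_lit 945895986) (nat_lit 5797) (nat_lit 15331609099) (nat_lit 0) (nat_lit 0),Row.mk (nat_lit 23352) (nat_lit 5610) (nat_lit 1181401268) (nat_lit 6358) (nat_lit 15143050388) (nat_lit 0) (nat_lit 0),Row.mk (nat_lit 23520) (nat_lit 6171) (nat_lit 1475541683) (nat_lit 6919) (nat_lit 14907545106) (nat_lit 0) (nat_lit 0),Row.mk (nat_lit 23688) (nat_lit 6732) (nat_lit 1842915967) (nat_lit 7480) (nat_lit 14613404690) (nat_lit 0) (nat_lit 0),Row.mk (nat_lit 23856) (nat_lit 7293) (nat_lit 2301757585) (nat_lit 8041) (nat_lit 14246030406) (nat_lit 0) (nat_lit 0),Row.mk (nat_lit 24024) (nat_lit 7854) (nat_lit 2874839696) (nat_lit 8602) (nat_lit 13787188789) (nat_lit 0) (nat_lit 0),Row.mk (nat_lit 24192) (nat_lit 8415) (nat_lit 3590605429) (nat_lit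 9163) (nat_lit 13214106677) (nat_lit 0) (nat_lit 0),Row.mk (nat_lit 24360) (nat_lit 8976) (nat_lit 4484579562) (nat_lit 9724) (nat_lit 12498340945) (nat_lit 0) (nat_lit 0),Row.mk (nat_lit 24528) (nat_lit 9537) (nat_lit 5601131688) (nat_lit 10285) (nat_lit 11604366812) (nat_lit 0) (nat_lit 0),Row.mk (nat_lit 24696) (nat_lit 10098) (nat_lit 6995678357) (nat_lit 10846) (nat_lit 10487814686) (nat_lit 0) (nat_lit 0),Row.mk (nat_lit 24864) (nat_lit 10659) (nat_lit 8737433506) (nat_lit 11407) (nat_lit 9093268016) (nat_lit 0) (nat_lit 0),Row.mk (nat_lit 25032) (nat_lit 11220) (nat_lit 10912843669) (nat_lit 11968) (nat_lit 7351512867) (nat_lit 0) (nat_lit 0),Row.mk (nat_lit 25200) (nat_lit 11781) (nat_lit 13629878484) (nat_lit 12716) (nat_lit 5176102704) (nat_lit 0) (nat_lit 0),Row.mk (nat_lit 25368) (nat_lit 12529) (nat_lit 17023389422) (nat_lit 13464) (nat_lit 2459067890) (nat_lit 0) (nat_lit 0),Row.mk (nat_lit 25536) (nat_lit 12342) (nat_lit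 1167096824) (nat_lit 13277) (nat_lit 19160262847) (nat_lit 0) (nat_lit 0),Row.mk (nat_lit 25704) (nat_lit 13090) (nat_lit 6460772785) (nat_lit 14025) (nat_lit 14921849550) (nat_lit 0) (nat_lit 0),Row.mk (nat_lit 25872) (nat_lit 13838) (nat_lit 13072446358) (nat_lit 15147) (nat_lit 9628173588) (nat_lit 0) (nat_lit 0),Row.mk (nat_lit 26040) (nat_lit 14960) (nat_lit 21330267151) (nat_lit 16456) (nat_lit 3016500016) (nat_lit 0) (nat_lit 0),Row.mk (nat_lit 26208) (nat_lit 14773) (nat_lit 6546283209) (nat_lit 16269) (nat_lit 19856482125) (nat_lit 0) (nat_lit 0),Row.mk (nat_lit 26376) (nat_lit 16082) (nat_lit 19427994282) (nat_lit 17765) (nat_lit 9542663165) (nat_lit 0) (nat_lit 0),Row.mk (nat_lit 26544) (nat_lit 15895) (nat_lit 4170390286) (nat_lit 17578) (nat_lit 28007502462) (nat_lit 0) (nat_lit 0),Row.mk (nat_lit 26712) (nat_lit 17391) (nat_lit 24265096181) (nat_lit 19635) (nat_lit 11918556087) (nat_lit 0) (nat_lit 0),Row.mk (nat_lit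 26880) (nat_lit 17204) (nat_lit 10211813869) (nat_lit 19448) (nat_lit 30974935407) (nat_lit 0) (nat_lit 0),Row.mk (nat_lit 27048) (nat_lit 19261) (nat_lit 41558364240) (nat_lit 25806) (nat_lit 5877132504) (nat_lit 0) (nat_lit 0),Row.mk (nat_lit 27216) (nat_lit 19074) (nat_lit 31810688494) (nat_lit 25619) (nat_lit 23429343094) (nat_lit 0) (nat_lit 0),Row.mk (nat_lit 27384) (nat_lit 18887) (nat_lit 19636076639) (nat_lit 25432) (nat_lit 45351630694) (nat_lit 0) (nat_lit 0),Row.mk (nat_lit 27552) (nat_lit 18700) (nat_lit 4430280131) (nat_lit 25245) (nat_lit 72732039058) (nat_lit 0) (nat_lit 0),Row.mk (nat_lit 27720) (nat_lit 25058) (nat_lit 80709449454) (nat_lit 31603) (nat_lit 11658666243) (nat_lit 0) (nat_lit 0),Row.mk (nat_lit 27888) (nat_lit 24871) (nat_lit 80709449454) (nat_lit 31416) (nat_lit 30650339261) (nat_lit 0) (nat_lit 0),Row.mk (nat_lit 28056) (nat_lit 24684) (nat_lit 80709449454) (nat_lit 31229) (nat_lit 54370480708) (nat_lit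 0) (nat_lit 0),Row.mk (nat_lit 28224) (nat_lit 24497) (nat_lit 80709449454) (nat_lit 31042) (nat_lit 83996365157) (nat_lit 0) (nat_lit 0),Row.mk (nat_lit 28392) (nat_lit 24310) (nat_lit 80709449454) (nat_lit 30855) (nat_lit 120998380143) (nat_lit 0) (nat_lit 0),Row.mk (nat_lit 28560) (nat_lit 24123) (nat_lit 80709449454) (nat_lit 30668) (nat_lit 167213004232) (nat_lit 0) (nat_lit 0),Row.mk (nat_lit 28728) (nat_lit 23936) (nat_lit 80709449454) (nat_lit 30481) (nat_lit 224933954847) (nat_lit 0) (nat_lit 0),Row.mk (nat_lit 28896) (nat_lit 23749) (nat_lit 80709449454) (nat_lit 30294) (nat_lit 297026029715) (nat_lit 0) (nat_lit 0),Row.mk (nat_lit 29064) (nat_lit 23562) (nat_lit 80709449454) (nat_lit 30107) (nat_lit 387067292091) (nat_lit 0) (nat_lit 0),Row.mk (nat_lit 29232) (nat_lit 23375) (nat_lit 80709449454) (nat_lit 29920) (nat_lit 499526656660) (nat_lit 0) (nat_lit 0),Row.mk (nat_lit 29400) (nat_lit 23188) (nat_lit 80709449454) (nat_lit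 29733) (nat_lit 639985690060) (nat_lit 0) (nat_lit 0),Row.mk (nat_lit 29568) (nat_lit 23001) (nat_lit 80709449454) (nat_lit 29546) (nat_lit 815415634369) (nat_lit 0) (nat_lit 0),Row.mk (nat_lit 29736) (nat_lit 22814) (nat_lit 80709449454) (nat_lit 29359) (nat_lit 1034523402774) (nat_lit 0) (nat_lit 0),Row.mk (nat_lit 29904) (nat_lit 22627) (nat_lit 80709449454) (nat_lit 29172) (nat_lit 1308183719798) (nat_lit 0) (nat_lit 0),Row.mk (nat_lit 30072) (nat_lit 22440) (nat_lit 80709449454) (nat_lit 28985) (nat_lit 1649978854033) (nat_lit 0) (nat_lit 0),Row.mk (nat_lit 30240) (nat_lit 22253) (nat_lit 80709449454) (nat_lit 28798) (nat_lit 2076872731294) (nat_lit 0) (nat_lit 0),Row.mk (nat_lit 30408) (nat_lit 22066) (nat_lit 80709449454) (nat_lit 28611) (nat_lit 2610052885687) (nat_lit 0) (nat_lit 0),Row.mk (nat_lit 30576) (nat_lit 21879) (nat_lit 80709449454) (nat_lit 28424) (nat_lit 3275982036191) (nat_lit 0) (nat_lit 0),Row.mk (nat_lit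 30744) (nat_lit 21692) (nat_lit 80709449454) (nat_lit 28237) (nat_lit 4107711480425) (nat_lit 0) (nat_lit 0),Row.mk (nat_lit 30912) (nat_lit 21505) (nat_lit 80709449454) (nat_lit 28050) (nat_lit 5146521491793) (nat_lit 0) (nat_lit 0),Row.mk (nat_lit 31080) (nat_lit 21318) (nat_lit 80709449454) (nat_lit 27863) (nat_lit 6443970135943) (nat_lit 0) (nat_lit 0)],
[Row.mk (nat_lit 21168) (nat_lit 32912) (nat_lit 13085731) (nat_lit 61897) (nat_lit 20081620163) (nat_lit 0) (nat_lit 0),Row.mk (nat_lit 21336) (nat_lit 32912) (nat_lit 16343762) (nat_lit 61897) (nat_lit 20078362132) (nat_lit 0) (nat_lit 0),Row.mk (nat_lit 21504) (nat_lit 32912) (nat_lit 20412965) (nat_lit 61897) (nat_lit 20074292929) (nat_lit 0) (nat_lit 0),Row.mk (nat_lit 21672) (nat_lit 32912) (nat_lit 25495301) (nat_lit 61897) (nat_lit 20069210593) (nat_lit 0) (nat_lit 0),Row.mk (nat_lit 21840) (nat_lit 0) (nat_lit 159739007) (nat_lit 748) (nat_lit 19966809904) (nat_lit 0)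 (nat_lit 0),Row.mk (nat_lit 22008) (nat_lit 561) (nat_lit 199510166) (nat_lit 1309) (nat_lit 19934966887) (nat_lit 0) (nat_lit 0),Row.mk (nat_lit 22176) (nat_lit 1122) (nat_lit 249183385) (nat_lit 1870) (nat_lit 19895195728) (nat_lit 0) (nat_lit 0),Row.mk (nat_lit 22344) (nat_lit 1683) (nat_lit 311224037) (nat_lit 2431) (nat_lit 19845522509) (nat_lit 0) (nat_lit 0),Row.mk (nat_lit 22512) (nat_lit 2244) (nat_lit 388711314) (nat_lit 2992) (nat_lit 19783481858) (nat_lit 0) (nat_lit 0),Row.mk (nat_lit 22680) (nat_lit 2805) (nat_lit 485491054) (nat_lit 3553) (nat_lit 19705994580) (nat_lit 0) (nat_lit 0),Row.mk (nat_lit 22848) (nat_lit 3366) (nat_lit 606366615) (nat_lit 4114) (nat_lit 19609214840) (nat_lit 0) (nat_lit 0),Row.mk (nat_lit 23016) (nat_lit 3927) (nat_lit 757337274) (nat_lit 4675) (nat_lit 19488339279) (nat_lit 0) (nat_lit 0),Row.mk (nat_lit 23184) (nat_lit 4488) (nat_lit 945895986) (nat_lit 5236) (nat_lit 19337368620) (nat_lit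 0) (nat_lit 0),Row.mk (nat_lit 23352) (nat_lit 5049) (nat_lit 1181401268) (nat_lit 5797) (nat_lit 19148809909) (nat_lit 0) (nat_lit 0),Row.mk (nat_lit 23520) (nat_lit 5610) (nat_lit 1475541683) (nat_lit 6358) (nat_lit 18913304627) (nat_lit 0) (nat_lit 0),Row.mk (nat_lit 23688) (nat_lit 6171) (nat_lit 1842915967) (nat_lit 6919) (nat_lit 18619164211) (nat_lit 0) (nat_lit 0),Row.mk (nat_lit 23856) (nat_lit 6732) (nat_lit 2301757585) (nat_lit 7480) (nat_lit 18251789927) (nat_lit 0) (nat_lit 0),Row.mk (nat_lit 24024) (nat_lit 7293) (nat_lit 2874839696) (nat_lit 8041) (nat_lit 17792948309) (nat_lit 0) (nat_lit 0),Row.mk (nat_lit 24192) (nat_lit 7854) (nat_lit 3590605429) (nat_lit 8602) (nat_lit 17219866198) (nat_lit 0) (nat_lit 0),Row.mk (nat_lit 24360) (nat_lit 8415) (nat_lit 4484579562) (nat_lit 9163) (nat_lit 16504100465) (nat_lit 0) (nat_lit 0),Row.mk (nat_lit 24528) (nat_lit 8976) (nat_lit 5601131688) (nat_lit 9724) (nat_lit 15610126332)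 (nat_lit 0) (nat_lit 0),Row.mk (nat_lit 24696) (nat_lit 9537) (nat_lit 6995678357) (nat_lit 10285) (nat_lit 14493574206) (nat_lit 0) (nat_lit 0),Row.mk (nat_lit 24864) (nat_lit 10098) (nat_lit 8737433506) (nat_lit 10846) (nat_lit 13099027537) (nat_lit 0) (nat_lit 0),Row.mk (nat_lit 25032) (nat_lit 10659) (nat_lit 10912843669) (nat_lit 11407) (nat_lit 11357272388) (nat_lit 0) (nat_lit 0),Row.mk (nat_lit 25200) (nat_lit 11220) (nat_lit 13629878484) (nat_lit 11968) (nat_lit 9181862225) (nat_lit 0) (nat_lit 0),Row.mk (nat_lit 25368) (nat_lit 11781) (nat_lit 17023389422) (nat_lit 12716) (nat_lit 6464827411) (nat_lit 0) (nat_lit 0),Row.mk (nat_lit 25536) (nat_lit 12529) (nat_lit 21261802719) (nat_lit 13464) (nat_lit 3071316473) (nat_lit 0) (nat_lit 0),Row.mk (nat_lit 25704) (nat_lit 12342) (nat_lit 1457675778) (nat_lit 13277) (nat_lit 23930706078) (nat_lit 0) (nat_lit 0),Row.mk (nat_lit 25872) (nat_lit 13090) (nat_lit 8069349350) (nat_lit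 14025) (nat_lit 18637030116) (nat_lit 0) (nat_lit 0),Row.mk (nat_lit 26040) (nat_lit 13838) (nat_lit 16327170144) (nat_lit 15147) (nat_lit 12025356544) (nat_lit 0) (nat_lit 0),Row.mk (nat_lit 26208) (nat_lit 14960) (nat_lit 26640989104) (nat_lit 16456) (nat_lit 3767535751) (nat_lit 0) (nat_lit 0),Row.mk (nat_lit 26376) (nat_lit 14773) (nat_lit 8176149807) (nat_lit 16269) (nat_lit 24800267161) (nat_lit 0) (nat_lit 0),Row.mk (nat_lit 26544) (nat_lit 16082) (nat_lit 24265096181) (nat_lit 17765) (nat_lit 11918556087) (nat_lit 0) (nat_lit 0),Row.mk (nat_lit 26712) (nat_lit 15895) (nat_lit 5208716862) (nat_lit 17578) (nat_lit 34980694927) (nat_lit 0) (nat_lit 0),Row.mk (nat_lit 26880) (nat_lit 17391) (nat_lit 30306519764) (nat_lit 19635) (nat_lit 14885989032) (nat_lit 0) (nat_lit 0),Row.mk (nat_lit 27048) (nat_lit 17204) (nat_lit 12754309175) (nat_lit 19448) (nat_lit 38686947090) (nat_lit 0) (nat_lit 0),Row.mk (nat_lit 27216) (nat_lit 19261)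 (nat_lit 51905394389) (nat_lit 25806) (nat_lit 7340396719) (nat_lit 0) (nat_lit 0),Row.mk (nat_lit 27384) (nat_lit 19074) (nat_lit 39730782535) (nat_lit 25619) (nat_lit 29262684320) (nat_lit 0) (nat_lit 0),Row.mk (nat_lit 27552) (nat_lit 18887) (nat_lit 24524986026) (nat_lit 25432) (nat_lit 56643092683) (nat_lit 0) (nat_lit 0),Row.mk (nat_lit 27720) (nat_lit 18700) (nat_lit 5533313008) (nat_lit 25245) (nat_lit 90840562210) (nat_lit 0) (nat_lit 0),Row.mk (nat_lit 27888) (nat_lit 25058) (nat_lit 100804155349) (nat_lit 31603) (nat_lit 14561392886) (nat_lit 0) (nat_lit 0),Row.mk (nat_lit 28056) (nat_lit 24871) (nat_lit 100804155349) (nat_lit 31416) (nat_lit 38281534334) (nat_lit 0) (nat_lit 0),Row.mk (nat_lit 28224) (nat_lit 24684) (nat_lit 100804155349) (nat_lit 31229) (nat_lit 67907418782) (nat_lit 0) (nat_lit 0),Row.mk (nat_lit 28392) (nat_lit 24497) (nat_lit 100804155349) (nat_lit 31042) (nat_lit 104909433769) (nat_lit 0) (nat_lit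 0),Row.mk (nat_lit 28560) (nat_lit 24310) (nat_lit 100804155349) (nat_lit 30855) (nat_lit 151124057858) (nat_lit 0) (nat_lit 0),Row.mk (nat_lit 28728) (nat_lit 24123) (nat_lit 100804155349) (nat_lit 30668) (nat_lit 208845008472) (nat_lit 0) (nat_lit 0),Row.mk (nat_lit 28896) (nat_lit 23936) (nat_lit 100804155349) (nat_lit 30481) (nat_lit 280937083341) (nat_lit 0) (nat_lit 0),Row.mk (nat_lit 29064) (nat_lit 23749) (nat_lit 100804155349) (nat_lit 30294) (nat_lit 370978345716) (nat_lit 0) (nat_lit 0),Row.mk (nat_lit 29232) (nat_lit 23562) (nat_lit 100804155349) (nat_lit 30107) (nat_lit 483437710286) (nat_lit 0) (nat_lit 0),Row.mk (nat_lit 29400) (nat_lit 23375) (nat_lit 100804155349) (nat_lit 29920) (nat_lit 623896743685) (nat_lit 0) (nat_lit 0),Row.mk (nat_lit 29568) (nat_lit 23188) (nat_lit 100804155349) (nat_lit 29733) (nat_lit 799326687995) (nat_lit 0) (nat_lit 0),Row.mk (nat_lit 29736) (nat_lit 23001) (nat_lit 100804155349) (nat_lit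 29546) (nat_lit 1018434456399) (nat_lit 0) (nat_lit 0),Row.mk (nat_lit 29904) (nat_lit 22814) (nat_lit 100804155349) (nat_lit 29359) (nat_lit 1292094773424) (nat_lit 0) (nat_lit 0),Row.mk (nat_lit 30072) (nat_lit 22627) (nat_lit 100804155349) (nat_lit 29172) (nat_lit 1633889907659) (nat_lit 0) (nat_lit 0),Row.mk (nat_lit 30240) (nat_lit 22440) (nat_lit 100804155349) (nat_lit 28985) (nat_lit 2060783784919) (nat_lit 0) (nat_lit 0),Row.mk (nat_lit 30408) (nat_lit 22253) (nat_lit 100804155349) (nat_lit 28798) (nat_lit 2593963939313) (nat_lit 0) (nat_lit 0),Row.mk (nat_lit 30576) (nat_lit 22066) (nat_lit 100804155349) (nat_lit 28611) (nat_lit 3259893089816) (nat_lit 0) (nat_lit 0),Row.mk (nat_lit 30744) (nat_lit 21879) (nat_lit 100804155349) (nat_lit 28424) (nat_lit 4091622534050) (nat_lit 0) (nat_lit 0),Row.mk (nat_lit 30912) (nat_lit 21692) (nat_lit 100804155349) (nat_lit 28237) (nat_lit 5130432545419) (nat_lit 0) (nat_lit 0),Row.mk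 (nat_lit 31080) (nat_lit 21505) (nat_lit 100804155349) (nat_lit 28050) (nat_lit 6427881189568) (nat_lit 0) (nat_lit 0)],
[Row.mk (nat_lit 21504) (nat_lit 32912) (nat_lit 20412965) (nat_lit 61897) (nat_lit 25077389936) (nat_lit 0) (nat_lit 0),Row.mk (nat_lit 21672) (nat_lit 32912) (nat_lit 25495301) (nat_lit 61897) (nat_lit 25072307600) (nat_lit 0) (nat_lit 0),Row.mk (nat_lit 21840) (nat_lit 32912) (nat_lit 31843016) (nat_lit 61897) (nat_lit 25065959885) (nat_lit 0) (nat_lit 0),Row.mk (nat_lit 22008) (nat_lit 0) (nat_lit 199510166) (nat_lit 748) (nat_lit 24938063894) (nat_lit 0) (nat_lit 0),Row.mk (nat_lit 22176) (nat_lit 561) (nat_lit 249183385) (nat_lit 1309) (nat_lit 24898292735) (nat_lit 0) (nat_lit 0),Row.mk (nat_lit 22344) (nat_lit 1122) (nat_lit 311224037) (nat_lit 1870) (nat_lit 24848619516) (nat_lit 0) (nat_lit 0),Row.mk (nat_lit 22512) (nat_lit 1683) (nat_lit 388711314) (nat_lit 2431) (nat_lit 24786578865) (nat_lit 0) (nat_lit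 0),Row.mk (nat_lit 22680) (nat_lit 2244) (nat_lit 485491054) (nat_lit 2992) (nat_lit 24709091587) (nat_lit 0) (nat_lit 0),Row.mk (nat_lit 22848) (nat_lit 2805) (nat_lit 606366615) (nat_lit 3553) (nat_lit 24612311847) (nat_lit 0) (nat_lit 0),Row.mk (nat_lit 23016) (nat_lit 3366) (nat_lit 757337274) (nat_lit 4114) (nat_lit 24491436287) (nat_lit 0) (nat_lit 0),Row.mk (nat_lit 23184) (nat_lit 3927) (nat_lit 945895986) (nat_lit 4675) (nat_lit 24340465627) (nat_lit 0) (nat_lit 0),Row.mk (nat_lit 23352) (nat_lit 4488) (nat_lit 1181401268) (nat_lit 5236) (nat_lit 24151906916) (nat_lit 0) (nat_lit 0),Row.mk (nat_lit 23520) (nat_lit 5049) (nat_lit 1475541683) (nat_lit 5797) (nat_lit 23916401634) (nat_lit 0) (nat_lit 0),Row.mk (nat_lit 23688) (nat_lit 5610) (nat_lit 1842915967) (nat_lit 6358) (nat_lit 23622261218) (nat_lit 0) (nat_lit 0),Row.mk (nat_lit 23856) (nat_lit 6171) (nat_lit 2301757585) (nat_lit 6919) (nat_lit 23254886934) (nat_lit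 0) (nat_lit 0),Row.mk (nat_lit 24024) (nat_lit 6732) (nat_lit 2874839696) (nat_lit 7480) (nat_lit 22796045316) (nat_lit 0) (nat_lit 0),Row.mk (nat_lit 24192) (nat_lit 7293) (nat_lit 3590605429) (nat_lit 8041) (nat_lit 22222963205) (nat_lit 0) (nat_lit 0),Row.mk (nat_lit 24360) (nat_lit 7854) (nat_lit 4484579562) (nat_lit 8602) (nat_lit 21507197472) (nat_lit 0) (nat_lit 0),Row.mk (nat_lit 24528) (nat_lit 8415) (nat_lit 5601131688) (nat_lit 9163) (nat_lit 20613223340) (nat_lit 0) (nat_lit 0),Row.mk (nat_lit 24696) (nat_lit 8976) (nat_lit 6995678357) (nat_lit 9724) (nat_lit 19496671214) (nat_lit 0) (nat_lit 0),Row.mk (nat_lit 24864) (nat_lit 9537) (nat_lit 8737433506) (nat_lit 10285) (nat_lit 18102124544) (nat_lit 0) (nat_lit 0),Row.mk (nat_lit 25032) (nat_lit 10098) (nat_lit 10912843669) (nat_lit 10846) (nat_lit 16360369395) (nat_lit 0) (nat_lit 0),Row.mk (nat_lit 25200) (nat_lit 10659) (nat_lit 13629878484) (nat_lit 11407) (nat_lit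 14184959232) (nat_lit 0) (nat_lit 0),Row.mk (nat_lit 25368) (nat_lit 11220) (nat_lit 17023389422) (nat_lit 11968) (nat_lit 11467924418) (nat_lit 0) (nat_lit 0),Row.mk (nat_lit 25536) (nat_lit 11781) (nat_lit 21261802719) (nat_lit 12716) (nat_lit 8074413480) (nat_lit 0) (nat_lit 0),Row.mk (nat_lit 25704) (nat_lit 12529) (nat_lit 26555478680) (nat_lit 13464) (nat_lit 3836000182) (nat_lit 0) (nat_lit 0),Row.mk (nat_lit 25872) (nat_lit 12342) (nat_lit 1820601882) (nat_lit 13277) (nat_lit 29888874591) (nat_lit 0) (nat_lit 0),Row.mk (nat_lit 26040) (nat_lit 13090) (nat_lit 10078422675) (nat_lit 14025) (nat_lit 23277201019) (nat_lit 0) (nat_lit 0),Row.mk (nat_lit 26208) (nat_lit 13838) (nat_lit 20392241636) (nat_lit 15147) (nat_lit 15019380226) (nat_lit 0) (nat_lit 0),Row.mk (nat_lit 26376) (nat_lit 14960) (nat_lit 33273952709) (nat_lit 16456) (nat_lit 4705561265) (nat_lit 0) (nat_lit 0),Row.mk (nat_lit 26544) (nat_lit 14773) (nat_lit 10211813869)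 (nat_lit 16269) (nat_lit 30974935407) (nat_lit 0) (nat_lit 0),Row.mk (nat_lit 26712) (nat_lit 16082) (nat_lit 30306519764) (nat_lit 17765) (nat_lit 14885989032) (nat_lit 0) (nat_lit 0),Row.mk (nat_lit 26880) (nat_lit 15895) (nat_lit 6505561707) (nat_lit 17578) (nat_lit 43690044097) (nat_lit 0) (nat_lit 0),Row.mk (nat_lit 27048) (nat_lit 17391) (nat_lit 37852112077) (nat_lit 19635) (nat_lit 18592241195) (nat_lit 0) (nat_lit 0),Row.mk (nat_lit 27216) (nat_lit 17204) (nat_lit 15929824477) (nat_lit 19448) (nat_lit 48319063639) (nat_lit 0) (nat_lit 0),Row.mk (nat_lit 27384) (nat_lit 19261) (nat_lit 64828585437) (nat_lit 25806) (nat_lit 9167978424) (nat_lit 0) (nat_lit 0),Row.mk (nat_lit 27552) (nat_lit 19074) (nat_lit 49622788928) (nat_lit 25619) (nat_lit 36548386788) (nat_lit 0) (nat_lit 0),Row.mk (nat_lit 27720) (nat_lit 18887) (nat_lit 30631115910) (nat_lit 25432) (nat_lit 70745856314) (nat_lit 0) (nat_lit 0),Row.mk (nat_lit 27888)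 (nat_lit 18700) (nat_lit 6910974463) (nat_lit 25245) (nat_lit 113457670780) (nat_lit 0) (nat_lit 0),Row.mk (nat_lit 28056) (nat_lit 25058) (nat_lit 125901958252) (nat_lit 31603) (nat_lit 18186828439) (nat_lit 0) (nat_lit 0),Row.mk (nat_lit 28224) (nat_lit 24871) (nat_lit 125901958252) (nat_lit 31416) (nat_lit 47812712887) (nat_lit 0) (nat_lit 0),Row.mk (nat_lit 28392) (nat_lit 24684) (nat_lit 125901958252) (nat_lit 31229) (nat_lit 84814727873) (nat_lit 0) (nat_lit 0),Row.mk (nat_lit 28560) (nat_lit 24497) (nat_lit 125901958252) (nat_lit 31042) (nat_lit 131029351962) (nat_lit 0) (nat_lit 0),Row.mk (nat_lit 28728) (nat_lit 24310) (nat_lit 125901958252) (nat_lit 30855) (nat_lit 188750302577) (nat_lit 0) (nat_lit 0),Row.mk (nat_lit 28896) (nat_lit 24123) (nat_lit 125901958252) (nat_lit 30668) (nat_lit 260842377446) (nat_lit 0) (nat_lit 0),Row.mk (nat_lit 29064) (nat_lit 23936) (nat_lit 125901958252) (nat_lit 30481) (nat_lit 350883639821)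 (nat_lit 0) (nat_lit 0),Row.mk (nat_lit 29232) (nat_lit 23749) (nat_lit 125901958252) (nat_lit 30294) (nat_lit 463343004391) (nat_lit 0) (nat_lit 0),Row.mk (nat_lit 29400) (nat_lit 23562) (nat_lit 125901958252) (nat_lit 30107) (nat_lit 603802037790) (nat_lit 0) (nat_lit 0),Row.mk (nat_lit 29568) (nat_lit 23375) (nat_lit 125901958252) (nat_lit 29920) (nat_lit 779231982099) (nat_lit 0) (nat_lit 0),Row.mk (nat_lit 29736) (nat_lit 23188) (nat_lit 125901958252) (nat_lit 29733) (nat_lit 998339750504) (nat_lit 0) (nat_lit 0),Row.mk (nat_lit 29904) (nat_lit 23001) (nat_lit 125901958252) (nat_lit 29546) (nat_lit 1272000067528) (nat_lit 0) (nat_lit 0),Row.mk (nat_lit 30072) (nat_lit 22814) (nat_lit 125901958252) (nat_lit 29359) (nat_lit 1613795201764) (nat_lit 0) (nat_lit 0),Row.mk (nat_lit 30240) (nat_lit 22627) (nat_lit 125901958252) (nat_lit 29172) (nat_lit 2040689079024) (nat_lit 0) (nat_lit 0),Row.mk (nat_lit 30408) (nat_lit 22440) (nat_lit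 125901958252) (nat_lit 28985) (nat_lit 2573869233418) (nat_lit 0) (nat_lit 0),Row.mk (nat_lit 30576) (nat_lit 22253) (nat_lit 125901958252) (nat_lit 28798) (nat_lit 3239798383921) (nat_lit 0) (nat_lit 0),Row.mk (nat_lit 30744) (nat_lit 22066) (nat_lit 125901958252) (nat_lit 28611) (nat_lit 4071527828155) (nat_lit 0) (nat_lit 0),Row.mk (nat_lit 30912) (nat_lit 21879) (nat_lit 125901958252) (nat_lit 28424) (nat_lit 5110337839524) (nat_lit 0) (nat_lit 0),Row.mk (nat_lit 31080) (nat_lit 21692) (nat_lit 125901958252) (nat_lit 28237) (nat_lit 6407786483673) (nat_lit 0) (nat_lit 0)],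
[Row.mk (nat_lit 21672) (nat_lit 32912) (nat_lit 25495301) (nat_lit 61897) (nat_lit 31321055069) (nat_lit 0) (nat_lit 0),Row.mk (nat_lit 21840) (nat_lit 32912) (nat_lit 31843016) (nat_lit 61897) (nat_lit 31314707354) (nat_lit 0) (nat_lit 0),Row.mk (nat_lit 22008) (nat_lit 32912) (nat_lit 39771159) (nat_lit 61897) (nat_lit 31306779211) (nat_lit 0) (nat_lit 0),Row.mk (nat_lit 22176) (nat_lit 0) (nat_lit 249183385) (nat_lit 748) (nat_lit 31147040203) (nat_lit 0) (nat_lit 0),Row.mk (nat_lit 22344) (nat_lit 561) (nat_lit 311224037) (nat_lit 1309) (nat_lit 31097366985) (nat_lit 0) (nat_lit 0),Row.mk (nat_lit 22512) (nat_lit 1122) (nat_lit 388711314) (nat_lit 1870) (nat_lit 31035326333) (nat_lit 0) (nat_lit 0),Row.mk (nat_lit 22680) (nat_lit 1683) (nat_lit 485491054) (nat_lit 2431) (nat_lit 30957839056) (nat_lit 0) (nat_lit 0),Row.mk (nat_lit 22848) (nat_lit 2244) (nat_lit 606366615) (nat_lit 2992) (nat_lit 30861059315) (nat_lit 0) (nat_lit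 0),Row.mk (nat_lit 23016) (nat_lit 2805) (nat_lit 757337274) (nat_lit 3553) (nat_lit 30740183755) (nat_lit 0) (nat_lit 0),Row.mk (nat_lit 23184) (nat_lit 3366) (nat_lit 945895986) (nat_lit 4114) (nat_lit 30589213095) (nat_lit 0) (nat_lit 0),Row.mk (nat_lit 23352) (nat_lit 3927) (nat_lit 1181401268) (nat_lit 4675) (nat_lit 30400654384) (nat_lit 0) (nat_lit 0),Row.mk (nat_lit 23520) (nat_lit 4488) (nat_lit 1475541683) (nat_lit 5236) (nat_lit 30165149102) (nat_lit 0) (nat_lit 0),Row.mk (nat_lit 23688) (nat_lit 5049) (nat_lit 1842915967) (nat_lit 5797) (nat_lit 29871008686) (nat_lit 0) (nat_lit 0),Row.mk (nat_lit 23856) (nat_lit 5610) (nat_lit 2301757585) (nat_lit 6358) (nat_lit 29503634402) (nat_lit 0) (nat_lit 0),Row.mk (nat_lit 24024) (nat_lit 6171) (nat_lit 2874839696) (nat_lit 6919) (nat_lit 29044792785) (nat_lit 0) (nat_lit 0),Row.mk (nat_lit 24192) (nat_lit 6732) (nat_lit 3590605429) (nat_lit 7480) (nat_lit 28471710673) (nat_lit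 0) (nat_lit 0),Row.mk (nat_lit 24360) (nat_lit 7293) (nat_lit 4484579562) (nat_lit 8041) (nat_lit 27755944941) (nat_lit 0) (nat_lit 0),Row.mk (nat_lit 24528) (nat_lit 7854) (nat_lit 5601131688) (nat_lit 8602) (nat_lit 26861970808) (nat_lit 0) (nat_lit 0),Row.mk (nat_lit 24696) (nat_lit 8415) (nat_lit 6995678357) (nat_lit 9163) (nat_lit 25745418682) (nat_lit 0) (nat_lit 0),Row.mk (nat_lit 24864) (nat_lit 8976) (nat_lit 8737433506) (nat_lit 9724) (nat_lit 24350872012) (nat_lit 0) (nat_lit 0),Row.mk (nat_lit 25032) (nat_lit 9537) (nat_lit 10912843669) (nat_lit 10285) (nat_lit 22609116863) (nat_lit 0) (nat_lit 0),Row.mk (nat_lit 25200) (nat_lit 10098) (nat_lit 13629878484) (nat_lit 10846) (nat_lit 20433706700) (nat_lit 0) (nat_lit 0),Row.mk (nat_lit 25368) (nat_lit 10659) (nat_lit 17023389422) (nat_lit 11407) (nat_lit 17716671886) (nat_lit 0) (nat_lit 0),Row.mk (nat_lit 25536) (nat_lit 11220) (nat_lit 21261802719) (nat_lit 11968) (nat_lit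 14323160948) (nat_lit 0) (nat_lit 0),Row.mk (nat_lit 25704) (nat_lit 11781) (nat_lit 26555478680) (nat_lit 12716) (nat_lit 10084747651) (nat_lit 0) (nat_lit 0),Row.mk (nat_lit 25872) (nat_lit 12529) (nat_lit 33167152253) (nat_lit 13464) (nat_lit 4791071689) (nat_lit 0) (nat_lit 0),Row.mk (nat_lit 26040) (nat_lit 12342) (nat_lit 2273887831) (nat_lit 13277) (nat_lit 37330483331) (nat_lit 0) (nat_lit 0),Row.mk (nat_lit 26208) (nat_lit 13090) (nat_lit 12587706792) (nat_lit 14025) (nat_lit 29072662538) (nat_lit 0) (nat_lit 0),Row.mk (nat_lit 26376) (nat_lit 13838) (nat_lit 25469417865) (nat_lit 15147) (nat_lit 18758843578) (nat_lit 0) (nat_lit 0),Row.mk (nat_lit 26544) (nat_lit 14960) (nat_lit 41558364240) (nat_lit 16456) (nat_lit 5877132504) (nat_lit 0) (nat_lit 0),Row.mk (nat_lit 26712) (nat_lit 14773) (nat_lit 12754309175) (nat_lit 16269) (nat_lit 38686947090) (nat_lit 0) (nat_lit 0),Row.mk (nat_lit 26880) (nat_lit 16082) (nat_lit 37852112077)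 (nat_lit 17765) (nat_lit 18592241195) (nat_lit 0) (nat_lit 0),Row.mk (nat_lit 27048) (nat_lit 15895) (nat_lit 8125289633) (nat_lit 17578) (nat_lit 54567811107) (nat_lit 0) (nat_lit 0),Row.mk (nat_lit 27216) (nat_lit 17391) (nat_lit 47276374847) (nat_lit 19635) (nat_lit 23221260737) (nat_lit 0) (nat_lit 0),Row.mk (nat_lit 27384) (nat_lit 17204) (nat_lit 19895966484) (nat_lit 19448) (nat_lit 60349344846) (nat_lit 0) (nat_lit 0),Row.mk (nat_lit 27552) (nat_lit 19261) (nat_lit 80969339299) (nat_lit 25806) (nat_lit 11450583886) (nat_lit 0) (nat_lit 0),Row.mk (nat_lit 27720) (nat_lit 19074) (nat_lit 61977666281) (nat_lit 25619) (nat_lit 45648053412) (nat_lit 0) (nat_lit 0),Row.mk (nat_lit 27888) (nat_lit 18887) (nat_lit 38257524833) (nat_lit 25432) (nat_lit 88359867878) (nat_lit 0) (nat_lit 0),Row.mk (nat_lit 28056) (nat_lit 18700) (nat_lit 8631640385) (nat_lit 25245) (nat_lit 141705893774) (nat_lit 0) (nat_lit 0),Row.mk (nat_lit 28224)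 (nat_lit 25058) (nat_lit 157248508622) (nat_lit 31603) (nat_lit 22714909984) (nat_lit 0) (nat_lit 0),Row.mk (nat_lit 28392) (nat_lit 24871) (nat_lit 157248508622) (nat_lit 31416) (nat_lit 59716924971) (nat_lit 0) (nat_lit 0),Row.mk (nat_lit 28560) (nat_lit 24684) (nat_lit 157248508622) (nat_lit 31229) (nat_lit 105931549060) (nat_lit 0) (nat_lit 0),Row.mk (nat_lit 28728) (nat_lit 24497) (nat_lit 157248508622) (nat_lit 31042) (nat_lit 163652499675) (nat_lit 0) (nat_lit 0),Row.mk (nat_lit 28896) (nat_lit 24310) (nat_lit 157248508622) (nat_lit 30855) (nat_lit 235744574543) (nat_lit 0) (nat_lit 0),Row.mk (nat_lit 29064) (nat_lit 24123) (nat_lit 157248508622) (nat_lit 30668) (nat_lit 325785836919) (nat_lit 0) (nat_lit 0),Row.mk (nat_lit 29232) (nat_lit 23936) (nat_lit 157248508622) (nat_lit 30481) (nat_lit 438245201488) (nat_lit 0) (nat_lit 0),Row.mk (nat_lit 29400) (nat_lit 23749) (nat_lit 157248508622) (nat_lit 30294) (nat_lit 578704234888)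 (nat_lit 0) (nat_lit 0),Row.mk (nat_lit 29568) (nat_lit 23562) (nat_lit 157248508622) (nat_lit 30107) (nat_lit 754134179197) (nat_lit 0) (nat_lit 0),Row.mk (nat_lit 29736) (nat_lit 23375) (nat_lit 157248508622) (nat_lit 29920) (nat_lit 973241947602) (nat_lit 0) (nat_lit 0),Row.mk (nat_lit 29904) (nat_lit 23188) (nat_lit 157248508622) (nat_lit 29733) (nat_lit 1246902264626) (nat_lit 0) (nat_lit 0),Row.mk (nat_lit 30072) (nat_lit 23001) (nat_lit 157248508622) (nat_lit 29546) (nat_lit 1588697398861) (nat_lit 0) (nat_lit 0),Row.mk (nat_lit 30240) (nat_lit 22814) (nat_lit 157248508622) (nat_lit 29359) (nat_lit 2015591276122) (nat_lit 0) (nat_lit 0),Row.mk (nat_lit 30408) (nat_lit 22627) (nat_lit 157248508622) (nat_lit 29172) (nat_lit 2548771430515) (nat_lit 0) (nat_lit 0),Row.mk (nat_lit 30576) (nat_lit 22440) (nat_lit 157248508622) (nat_lit 28985) (nat_lit 3214700581019) (nat_lit 0) (nat_lit 0),Row.mk (nat_lit 30744) (nat_lit 22253) (nat_lit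 157248508622) (nat_lit 28798) (nat_lit 4046430025253) (nat_lit 0) (nat_lit 0),Row.mk (nat_lit 30912) (nat_lit 22066) (nat_lit 157248508622) (nat_lit 28611) (nat_lit 5085240036621) (nat_lit 0) (nat_lit 0),Row.mk (nat_lit 31080) (nat_lit 21879) (nat_lit 157248508622) (nat_lit 28424) (nat_lit 6382688680771) (nat_lit 0) (nat_lit 0)],
[Row.mk (nat_lit 21840) (nat_lit 32912) (nat_lit 31843016) (nat_lit 61897) (nat_lit 39119242198) (nat_lit 0) (nat_lit 0),Row.mk (nat_lit 22008) (nat_lit 32912) (nat_lit 39771159) (nat_lit 61897) (nat_lit 39111314055) (nat_lit 0) (nat_lit 0),Row.mk (nat_lit 22176) (nat_lit 32912) (nat_lit 49673218) (nat_lit 61897) (nat_lit 39101411996) (nat_lit 0) (nat_lit 0),Row.mk (nat_lit 22344) (nat_lit 0) (nat_lit 311224037) (nat_lit 748) (nat_lit 38901901829) (nat_lit 0) (nat_lit 0),Row.mk (nat_lit 22512) (nat_lit 561) (nat_lit 388711314) (nat_lit 1309) (nat_lit 38839861177) (nat_lit 0) (nat_lit 0),Row.mk (nat_lit 22680)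 (nat_lit 1122) (nat_lit 485491054) (nat_lit 1870) (nat_lit 38762373900) (nat_lit 0) (nat_lit 0),Row.mk (nat_lit 22848) (nat_lit 1683) (nat_lit 606366615) (nat_lit 2431) (nat_lit 38665594160) (nat_lit 0) (nat_lit 0),Row.mk (nat_lit 23016) (nat_lit 2244) (nat_lit 757337274) (nat_lit 2992) (nat_lit 38544718599) (nat_lit 0) (nat_lit 0),Row.mk (nat_lit 23184) (nat_lit 2805) (nat_lit 945895986) (nat_lit 3553) (nat_lit 38393747940) (nat_lit 0) (nat_lit 0),Row.mk (nat_lit 23352) (nat_lit 3366) (nat_lit 1181401268) (nat_lit 4114) (nat_lit 38205189228) (nat_lit 0) (nat_lit 0),Row.mk (nat_lit 23520) (nat_lit 3927) (nat_lit 1475541683) (nat_lit 4675) (nat_lit 37969683946) (nat_lit 0) (nat_lit 0),Row.mk (nat_lit 23688) (nat_lit 4488) (nat_lit 1842915967) (nat_lit 5236) (nat_lit 37675543530) (nat_lit 0) (nat_lit 0),Row.mk (nat_lit 23856) (nat_lit 5049) (nat_lit 2301757585) (nat_lit 5797) (nat_lit 37308169247) (nat_lit 0) (nat_lit 0),Row.mk (nat_lit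 24024) (nat_lit 5610) (nat_lit 2874839696) (nat_lit 6358) (nat_lit 36849327629) (nat_lit 0) (nat_lit 0),Row.mk (nat_lit 24192) (nat_lit 6171) (nat_lit 3590605429) (nat_lit 6919) (nat_lit 36276245517) (nat_lit 0) (nat_lit 0),Row.mk (nat_lit 24360) (nat_lit 6732) (nat_lit 4484579562) (nat_lit 7480) (nat_lit 35560479785) (nat_lit 0) (nat_lit 0),Row.mk (nat_lit 24528) (nat_lit 7293) (nat_lit 5601131688) (nat_lit 8041) (nat_lit 34666505652) (nat_lit 0) (nat_lit 0),Row.mk (nat_lit 24696) (nat_lit 7854) (nat_lit 6995678357) (nat_lit 8602) (nat_lit 33549953526) (nat_lit 0) (nat_lit 0),Row.mk (nat_lit 24864) (nat_lit 8415) (nat_lit 8737433506) (nat_lit 9163) (nat_lit 32155406856) (nat_lit 0) (nat_lit 0),Row.mk (nat_lit 25032) (nat_lit 8976) (nat_lit 10912843669) (nat_lit 9724) (nat_lit 30413651707) (nat_lit 0) (nat_lit 0),Row.mk (nat_lit 25200) (nat_lit 9537) (nat_lit 13629878484) (nat_lit 10285) (nat_lit 28238241544) (nat_lit 0) (nat_lit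 0),Row.mk (nat_lit 25368) (nat_lit 10098) (nat_lit 17023389422) (nat_lit 10846) (nat_lit 25521206730) (nat_lit 0) (nat_lit 0),Row.mk (nat_lit 25536) (nat_lit 10659) (nat_lit 21261802719) (nat_lit 11407) (nat_lit 22127695792) (nat_lit 0) (nat_lit 0),Row.mk (nat_lit 25704) (nat_lit 11220) (nat_lit 26555478680) (nat_lit 11968) (nat_lit 17889282495) (nat_lit 0) (nat_lit 0),Row.mk (nat_lit 25872) (nat_lit 11781) (nat_lit 33167152253) (nat_lit 12716) (nat_lit 12595606533) (nat_lit 0) (nat_lit 0),Row.mk (nat_lit 26040) (nat_lit 12529) (nat_lit 41424973046) (nat_lit 13464) (nat_lit 5983932961) (nat_lit 0) (nat_lit 0),Row.mk (nat_lit 26208) (nat_lit 12342) (nat_lit 2840031047) (nat_lit 13277) (nat_lit 46624873128) (nat_lit 0) (nat_lit 0),Row.mk (nat_lit 26376) (nat_lit 13090) (nat_lit 15721742120) (nat_lit 14025) (nat_lit 36311054167) (nat_lit 0) (nat_lit 0),Row.mk (nat_lit 26544) (nat_lit 13838) (nat_lit 31810688494) (nat_lit 15147) (nat_lit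 23429343094) (nat_lit 0) (nat_lit 0),Row.mk (nat_lit 26712) (nat_lit 14960) (nat_lit 51905394389) (nat_lit 16456) (nat_lit 7340396719) (nat_lit 0) (nat_lit 0),Row.mk (nat_lit 26880) (nat_lit 14773) (nat_lit 15929824477) (nat_lit 16269) (nat_lit 48319063639) (nat_lit 0) (nat_lit 0),Row.mk (nat_lit 27048) (nat_lit 16082) (nat_lit 47276374847) (nat_lit 17765) (nat_lit 23221260737) (nat_lit 0) (nat_lit 0),Row.mk (nat_lit 27216) (nat_lit 15895) (nat_lit 10148290739) (nat_lit 17578) (nat_lit 68153879690) (nat_lit 0) (nat_lit 0),Row.mk (nat_lit 27384) (nat_lit 17391) (nat_lit 59047051699) (nat_lit 19635) (nat_lit 29002794475) (nat_lit 0) (nat_lit 0),Row.mk (nat_lit 27552) (nat_lit 17204) (nat_lit 24849582172) (nat_lit 19448) (nat_lit 75374875856) (nat_lit 0) (nat_lit 0),Row.mk (nat_lit 27720) (nat_lit 19261) (nat_lit 101128751496) (nat_lit 25806) (nat_lit 14301503042) (nat_lit 0) (nat_lit 0),Row.mk (nat_lit 27888) (nat_lit 19074) (nat_lit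 77408610048) (nat_lit 25619) (nat_lit 57013317507) (nat_lit 0) (nat_lit 0),Row.mk (nat_lit 28056) (nat_lit 18887) (nat_lit 47782725600) (nat_lit 25432) (nat_lit 110359343403) (nat_lit 0) (nat_lit 0),Row.mk (nat_lit 28224) (nat_lit 18700) (nat_lit 10780710613) (nat_lit 25245) (nat_lit 176987242838) (nat_lit 0) (nat_lit 0),Row.mk (nat_lit 28392) (nat_lit 25058) (nat_lit 196399593837) (nat_lit 31603) (nat_lit 28370374601) (nat_lit 0) (nat_lit 0),Row.mk (nat_lit 28560) (nat_lit 24871) (nat_lit 196399593837) (nat_lit 31416) (nat_lit 74584998690) (nat_lit 0) (nat_lit 0),Row.mk (nat_lit 28728) (nat_lit 24684) (nat_lit 196399593837) (nat_lit 31229) (nat_lit 132305949304) (nat_lit 0) (nat_lit 0),Row.mk (nat_lit 28896) (nat_lit 24497) (nat_lit 196399593837) (nat_lit 31042) (nat_lit 204398024173) (nat_lit 0) (nat_lit 0),Row.mk (nat_lit 29064) (nat_lit 24310) (nat_lit 196399593837) (nat_lit 30855) (nat_lit 294439286548) (nat_lit 0) (nat_lit 0),Row.mk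 (nat_lit 29232) (nat_lit 24123) (nat_lit 196399593837) (nat_lit 30668) (nat_lit 406898651118) (nat_lit 0) (nat_lit 0),Row.mk (nat_lit 29400) (nat_lit 23936) (nat_lit 196399593837) (nat_lit 30481) (nat_lit 547357684517) (nat_lit 0) (nat_lit 0),Row.mk (nat_lit 29568) (nat_lit 23749) (nat_lit 196399593837) (nat_lit 30294) (nat_lit 722787628827) (nat_lit 0) (nat_lit 0),Row.mk (nat_lit 29736) (nat_lit 23562) (nat_lit 196399593837) (nat_lit 30107) (nat_lit 941895397231) (nat_lit 0) (nat_lit 0),Row.mk (nat_lit 29904) (nat_lit 23375) (nat_lit 196399593837) (nat_lit 29920) (nat_lit 1215555714256) (nat_lit 0) (nat_lit 0),Row.mk (nat_lit 30072) (nat_lit 23188) (nat_lit 196399593837) (nat_lit 29733) (nat_lit 1557350848491) (nat_lit 0) (nat_lit 0),Row.mk (nat_lit 30240) (nat_lit 23001) (nat_lit 196399593837) (nat_lit 29546) (nat_lit 1984244725751) (nat_lit 0) (nat_lit 0),Row.mk (nat_lit 30408) (nat_lit 22814) (nat_lit 196399593837) (nat_lit 29359)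 (nat_lit 2517424880145) (nat_lit 0) (nat_lit 0),Row.mk (nat_lit 30576) (nat_lit 22627) (nat_lit 196399593837) (nat_lit 29172) (nat_lit 3183354030648) (nat_lit 0) (nat_lit 0),Row.mk (nat_lit 30744) (nat_lit 22440) (nat_lit 196399593837) (nat_lit 28985) (nat_lit 4015083474882) (nat_lit 0) (nat_lit 0),Row.mk (nat_lit 30912) (nat_lit 22253) (nat_lit 196399593837) (nat_lit 28798) (nat_lit 5053893486251) (nat_lit 0) (nat_lit 0),Row.mk (nat_lit 31080) (nat_lit 22066) (nat_lit 196399593837) (nat_lit 28611) (nat_lit 6351342130400) (nat_lit 0) (nat_lit 0)],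
[Row.mk (nat_lit 22176) (nat_lit 32912) (nat_lit 49673218) (nat_lit 61897) (nat_lit 48849087741) (nat_lit 0) (nat_lit 0),Row.mk (nat_lit 22344) (nat_lit 32912) (nat_lit 62040651) (nat_lit 61897) (nat_lit 48836720308) (nat_lit 0) (nat_lit 0),Row.mk (nat_lit 22512) (nat_lit 0) (nat_lit 388711314) (nat_lit 748) (nat_lit 48587536922) (nat_lit 0) (nat_lit 0),Row.mk (nat_lit 22680) (nat_lit 561) (nat_lit 485491054) (nat_lit 1309) (nat_lit 48510049645) (nat_lit 0) (nat_lit 0),Row.mk (nat_lit 22848) (nat_lit 1122) (nat_lit 606366615) (nat_lit 1870) (nat_lit 48413269905) (nat_lit 0) (nat_lit 0),Row.mk (nat_lit 23016) (nat_lit 1683) (nat_lit 757337274) (nat_lit 2431) (nat_lit 48292394344) (nat_lit 0) (nat_lit 0),Row.mk (nat_lit 23184) (nat_lit 2244) (nat_lit 945895986) (nat_lit 2992) (nat_lit 48141423685) (nat_lit 0) (nat_lit 0),Row.mk (nat_lit 23352) (nat_lit 2805) (nat_lit 1181401268) (nat_lit 3553) (nat_lit 47952864973) (nat_lit 0) (nat_lit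 0),Row.mk (nat_lit 23520) (nat_lit 3366) (nat_lit 1475541683) (nat_lit 4114) (nat_lit 47717359691) (nat_lit 0) (nat_lit 0),Row.mk (nat_lit 23688) (nat_lit 3927) (nat_lit 1842915967) (nat_lit 4675) (nat_lit 47423219276) (nat_lit 0) (nat_lit 0),Row.mk (nat_lit 23856) (nat_lit 4488) (nat_lit 2301757585) (nat_lit 5236) (nat_lit 47055844992) (nat_lit 0) (nat_lit 0),Row.mk (nat_lit 24024) (nat_lit 5049) (nat_lit 2874839696) (nat_lit 5797) (nat_lit 46597003374) (nat_lit 0) (nat_lit 0),Row.mk (nat_lit 24192) (nat_lit 5610) (nat_lit 3590605429) (nat_lit 6358) (nat_lit 46023921262) (nat_lit 0) (nat_lit 0),Row.mk (nat_lit 24360) (nat_lit 6171) (nat_lit 4484579562) (nat_lit 6919) (nat_lit 45308155530) (nat_lit 0) (nat_lit 0),Row.mk (nat_lit 24528) (nat_lit 6732) (nat_lit 5601131688) (nat_lit 7480) (nat_lit 44414181397) (nat_lit 0) (nat_lit 0),Row.mk (nat_lit 24696) (nat_lit 7293) (nat_lit 6995678357) (nat_lit 8041) (nat_lit 43297629271) (nat_lit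 0) (nat_lit 0),Row.mk (nat_lit 24864) (nat_lit 7854) (nat_lit 8737433506) (nat_lit 8602) (nat_lit 41903082602) (nat_lit 0) (nat_lit 0),Row.mk (nat_lit 25032) (nat_lit 8415) (nat_lit 10912843669) (nat_lit 9163) (nat_lit 40161327453) (nat_lit 0) (nat_lit 0),Row.mk (nat_lit 25200) (nat_lit 8976) (nat_lit 13629878484) (nat_lit 9724) (nat_lit 37985917290) (nat_lit 0) (nat_lit 0),Row.mk (nat_lit 25368) (nat_lit 9537) (nat_lit 17023389422) (nat_lit 10285) (nat_lit 35268882475) (nat_lit 0) (nat_lit 0),Row.mk (nat_lit 25536) (nat_lit 10098) (nat_lit 21261802719) (nat_lit 10846) (nat_lit 31875371537) (nat_lit 0) (nat_lit 0),Row.mk (nat_lit 25704) (nat_lit 10659) (nat_lit 26555478680) (nat_lit 11407) (nat_lit 27636958240) (nat_lit 0) (nat_lit 0),Row.mk (nat_lit 25872) (nat_lit 11220) (nat_lit 33167152253) (nat_lit 11968) (nat_lit 22343282279) (nat_lit 0) (nat_lit 0),Row.mk (nat_lit 26040) (nat_lit 11781) (nat_lit 41424973046) (nat_lit 12716)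 (nat_lit 15731608706) (nat_lit 0) (nat_lit 0),Row.mk (nat_lit 26208) (nat_lit 12529) (nat_lit 51738792006) (nat_lit 13464) (nat_lit 7473787913) (nat_lit 0) (nat_lit 0),Row.mk (nat_lit 26376) (nat_lit 12342) (nat_lit 3547130265) (nat_lit 13277) (nat_lit 58233341767) (nat_lit 0) (nat_lit 0),Row.mk (nat_lit 26544) (nat_lit 13090) (nat_lit 19636076639) (nat_lit 14025) (nat_lit 45351630694) (nat_lit 0) (nat_lit 0),Row.mk (nat_lit 26712) (nat_lit 13838) (nat_lit 39730782535) (nat_lit 15147) (nat_lit 29262684320) (nat_lit 0) (nat_lit 0),Row.mk (nat_lit 26880) (nat_lit 14960) (nat_lit 64828585437) (nat_lit 16456) (nat_lit 9167978424) (nat_lit 0) (nat_lit 0),Row.mk (nat_lit 27048) (nat_lit 14773) (nat_lit 19895966484) (nat_lit 16269) (nat_lit 60349344846) (nat_lit 0) (nat_lit 0),Row.mk (nat_lit 27216) (nat_lit 16082) (nat_lit 59047051699) (nat_lit 17765) (nat_lit 29002794475) (nat_lit 0) (nat_lit 0),Row.mk (nat_lit 27384) (nat_lit 15895) (nat_lit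 12674970317) (nat_lit 17578) (nat_lit 85122551602) (nat_lit 0) (nat_lit 0),Row.mk (nat_lit 27552) (nat_lit 17391) (nat_lit 73748343132) (nat_lit 19635) (nat_lit 36223790642) (nat_lit 0) (nat_lit 0),Row.mk (nat_lit 27720) (nat_lit 17204) (nat_lit 31036528667) (nat_lit 19448) (nat_lit 94141401616) (nat_lit 0) (nat_lit 0),Row.mk (nat_lit 27888) (nat_lit 19261) (nat_lit 126307371008) (nat_lit 25806) (nat_lit 17862232292) (nat_lit 0) (nat_lit 0),Row.mk (nat_lit 28056) (nat_lit 19074) (nat_lit 96681486560) (nat_lit 25619) (nat_lit 71208258188) (nat_lit 0) (nat_lit 0),Row.mk (nat_lit 28224) (nat_lit 18887) (nat_lit 59679471573) (nat_lit 25432) (nat_lit 137836157623) (nat_lit 0) (nat_lit 0),Row.mk (nat_lit 28392) (nat_lit 18700) (nat_lit 13464847484) (nat_lit 25245) (nat_lit 221052796699) (nat_lit 0) (nat_lit 0),Row.mk (nat_lit 28560) (nat_lit 25058) (nat_lit 245298354797) (nat_lit 31603) (nat_lit 35433913475) (nat_lit 0) (nat_lit 0),Row.mk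 (nat_lit 28728) (nat_lit 24871) (nat_lit 245298354797) (nat_lit 31416) (nat_lit 93154864090) (nat_lit 0) (nat_lit 0),Row.mk (nat_lit 28896) (nat_lit 24684) (nat_lit 245298354797) (nat_lit 31229) (nat_lit 165246938958) (nat_lit 0) (nat_lit 0),Row.mk (nat_lit 29064) (nat_lit 24497) (nat_lit 245298354797) (nat_lit 31042) (nat_lit 255288201334) (nat_lit 0) (nat_lit 0),Row.mk (nat_lit 29232) (nat_lit 24310) (nat_lit 245298354797) (nat_lit 30855) (nat_lit 367747565903) (nat_lit 0) (nat_lit 0),Row.mk (nat_lit 29400) (nat_lit 24123) (nat_lit 245298354797) (nat_lit 30668) (nat_lit 508206599302) (nat_lit 0) (nat_lit 0),Row.mk (nat_lit 29568) (nat_lit 23936) (nat_lit 245298354797) (nat_lit 30481) (nat_lit 683636543612) (nat_lit 0) (nat_lit 0),Row.mk (nat_lit 29736) (nat_lit 23749) (nat_lit 245298354797) (nat_lit 30294) (nat_lit 902744312017) (nat_lit 0) (nat_lit 0),Row.mk (nat_lit 29904) (nat_lit 23562) (nat_lit 245298354797) (nat_lit 30107)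 (nat_lit 1176404629041) (nat_lit 0) (nat_lit 0),Row.mk (nat_lit 30072) (nat_lit 23375) (nat_lit 245298354797) (nat_lit 29920) (nat_lit 1518199763276) (nat_lit 0) (nat_lit 0),Row.mk (nat_lit 30240) (nat_lit 23188) (nat_lit 245298354797) (nat_lit 29733) (nat_lit 1945093640537) (nat_lit 0) (nat_lit 0),Row.mk (nat_lit 30408) (nat_lit 23001) (nat_lit 245298354797) (nat_lit 29546) (nat_lit 2478273794930) (nat_lit 0) (nat_lit 0),Row.mk (nat_lit 30576) (nat_lit 22814) (nat_lit 245298354797) (nat_lit 29359) (nat_lit 3144202945434) (nat_lit 0) (nat_lit 0),Row.mk (nat_lit 30744) (nat_lit 22627) (nat_lit 245298354797) (nat_lit 29172) (nat_lit 3975932389667) (nat_lit 0) (nat_lit 0),Row.mk (nat_lit 30912) (nat_lit 22440) (nat_lit 245298354797) (nat_lit 28985) (nat_lit 5014742401036) (nat_lit 0) (nat_lit 0),Row.mk (nat_lit 31080) (nat_lit 22253) (nat_lit 245298354797) (nat_lit 28798) (nat_lit 6312191045186) (nat_lit 0) (nat_lit 0)],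
[Row.mk (nat_lit 22344) (nat_lit 32912) (nat_lit 62040651) (nat_lit 61897) (nat_lit 61011332163) (nat_lit 0) (nat_lit 0),Row.mk (nat_lit 22512) (nat_lit 32912) (nat_lit 77487277) (nat_lit 61897) (nat_lit 60995885537) (nat_lit 0) (nat_lit 0),Row.mk (nat_lit 22680) (nat_lit 0) (nat_lit 485491054) (nat_lit 748) (nat_lit 60684661500) (nat_lit 0) (nat_lit 0),Row.mk (nat_lit 22848) (nat_lit 561) (nat_lit 606366615) (nat_lit 1309) (nat_lit 60587881760) (nat_lit 0) (nat_lit 0),Row.mk (nat_lit 23016) (nat_lit 1122) (nat_lit 757337274) (nat_lit 1870) (nat_lit 60467006199) (nat_lit 0) (nat_lit 0),Row.mk (nat_lit 23184) (nat_lit 1683) (nat_lit 945895986) (nat_lit 2431) (nat_lit 60316035540) (nat_lit 0) (nat_lit 0),Row.mk (nat_lit 23352) (nat_lit 2244) (nat_lit 1181401268) (nat_lit 2992) (nat_lit 60127476828) (nat_lit 0) (nat_lit 0),Row.mk (nat_lit 23520) (nat_lit 2805) (nat_lit 1475541683) (nat_lit 3553) (nat_lit 59891971546) (nat_lit 0) (nat_lit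 0),Row.mk (nat_lit 23688) (nat_lit 3366) (nat_lit 1842915967) (nat_lit 4114) (nat_lit 59597831130) (nat_lit 0) (nat_lit 0),Row.mk (nat_lit 23856) (nat_lit 3927) (nat_lit 2301757585) (nat_lit 4675) (nat_lit 59230456847) (nat_lit 0) (nat_lit 0),Row.mk (nat_lit 24024) (nat_lit 4488) (nat_lit 2874839696) (nat_lit 5236) (nat_lit 58771615229) (nat_lit 0) (nat_lit 0),Row.mk (nat_lit 24192) (nat_lit 5049) (nat_lit 3590605429) (nat_lit 5797) (nat_lit 58198533117) (nat_lit 0) (nat_lit 0),Row.mk (nat_lit 24360) (nat_lit 5610) (nat_lit 4484579562) (nat_lit 6358) (nat_lit 57482767385) (nat_lit 0) (nat_lit 0),Row.mk (nat_lit 24528) (nat_lit 6171) (nat_lit 5601131688) (nat_lit 6919) (nat_lit 56588793252) (nat_lit 0) (nat_lit 0),Row.mk (nat_lit 24696) (nat_lit 6732) (nat_lit 6995678357) (nat_lit 7480) (nat_lit 55472241126) (nat_lit 0) (nat_lit 0),Row.mk (nat_lit 24864) (nat_lit 7293) (nat_lit 8737433506) (nat_lit 8041) (nat_lit 54077694456) (nat_lit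 0) (nat_lit 0),Row.mk (nat_lit 25032) (nat_lit 7854) (nat_lit 10912843669) (nat_lit 8602) (nat_lit 52335939308) (nat_lit 0) (nat_lit 0),Row.mk (nat_lit 25200) (nat_lit 8415) (nat_lit 13629878484) (nat_lit 9163) (nat_lit 50160529145) (nat_lit 0) (nat_lit 0),Row.mk (nat_lit 25368) (nat_lit 8976) (nat_lit 17023389422) (nat_lit 9724) (nat_lit 47443494330) (nat_lit 0) (nat_lit 0),Row.mk (nat_lit 25536) (nat_lit 9537) (nat_lit 21261802719) (nat_lit 10285) (nat_lit 44049983392) (nat_lit 0) (nat_lit 0),Row.mk (nat_lit 25704) (nat_lit 10098) (nat_lit 26555478680) (nat_lit 10846) (nat_lit 39811570095) (nat_lit 0) (nat_lit 0),Row.mk (nat_lit 25872) (nat_lit 10659) (nat_lit 33167152253) (nat_lit 11407) (nat_lit 34517894133) (nat_lit 0) (nat_lit 0),Row.mk (nat_lit 26040) (nat_lit 11220) (nat_lit 41424973046) (nat_lit 11968) (nat_lit 27906220561) (nat_lit 0) (nat_lit 0),Row.mk (nat_lit 26208) (nat_lit 11781) (nat_lit 51738792006) (nat_lit 12716)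 (nat_lit 19648399768) (nat_lit 0) (nat_lit 0),Row.mk (nat_lit 26376) (nat_lit 12529) (nat_lit 64620503080) (nat_lit 13464) (nat_lit 9334580807) (nat_lit 0) (nat_lit 0),Row.mk (nat_lit 26544) (nat_lit 12342) (nat_lit 4430280131) (nat_lit 13277) (nat_lit 72732039058) (nat_lit 0) (nat_lit 0),Row.mk (nat_lit 26712) (nat_lit 13090) (nat_lit 24524986026) (nat_lit 14025) (nat_lit 56643092683) (nat_lit 0) (nat_lit 0),Row.mk (nat_lit 26880) (nat_lit 13838) (nat_lit 49622788928) (nat_lit 15147) (nat_lit 36548386788) (nat_lit 0) (nat_lit 0),Row.mk (nat_lit 27048) (nat_lit 14960) (nat_lit 80969339299) (nat_lit 16456) (nat_lit 11450583886) (nat_lit 0) (nat_lit 0),Row.mk (nat_lit 27216) (nat_lit 14773) (nat_lit 24849582172) (nat_lit 16269) (nat_lit 75374875856) (nat_lit 0) (nat_lit 0),Row.mk (nat_lit 27384) (nat_lit 16082) (nat_lit 73748343132) (nat_lit 17765) (nat_lit 36223790642) (nat_lit 0) (nat_lit 0),Row.mk (nat_lit 27552) (nat_lit 15895)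 (nat_lit 15830732158) (nat_lit 17578) (nat_lit 106316013471) (nat_lit 0) (nat_lit 0),Row.mk (nat_lit 27720) (nat_lit 17391) (nat_lit 92109901481) (nat_lit 19635) (nat_lit 45242640656) (nat_lit 0) (nat_lit 0),Row.mk (nat_lit 27888) (nat_lit 17204) (nat_lit 38763875585) (nat_lit 19448) (nat_lit 117580339570) (nat_lit 0) (nat_lit 0),Row.mk (nat_lit 28056) (nat_lit 19261) (nat_lit 157754859374) (nat_lit 25806) (nat_lit 22309497228) (nat_lit 0) (nat_lit 0),Row.mk (nat_lit 28224) (nat_lit 19074) (nat_lit 120752844388) (nat_lit 25619) (nat_lit 88937396663) (nat_lit 0) (nat_lit 0),Row.mk (nat_lit 28392) (nat_lit 18887) (nat_lit 74538220299) (nat_lit 25432) (nat_lit 172154035739) (nat_lit 0) (nat_lit 0),Row.mk (nat_lit 28560) (nat_lit 18700) (nat_lit 16817269684) (nat_lit 25245) (nat_lit 276089610442) (nat_lit 0) (nat_lit 0),Row.mk (nat_lit 28728) (nat_lit 25058) (nat_lit 306371727612) (nat_lit 31603) (nat_lit 44256103130) (nat_lit 0) (nat_lit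 0),Row.mk (nat_lit 28896) (nat_lit 24871) (nat_lit 306371727612) (nat_lit 31416) (nat_lit 116348177998) (nat_lit 0) (nat_lit 0),Row.mk (nat_lit 29064) (nat_lit 24684) (nat_lit 306371727612) (nat_lit 31229) (nat_lit 206389440374) (nat_lit 0) (nat_lit 0),Row.mk (nat_lit 29232) (nat_lit 24497) (nat_lit 306371727612) (nat_lit 31042) (nat_lit 318848804943) (nat_lit 0) (nat_lit 0),Row.mk (nat_lit 29400) (nat_lit 24310) (nat_lit 306371727612) (nat_lit 30855) (nat_lit 459307838343) (nat_lit 0) (nat_lit 0),Row.mk (nat_lit 29568) (nat_lit 24123) (nat_lit 306371727612) (nat_lit 30668) (nat_lit 634737782652) (nat_lit 0) (nat_lit 0),Row.mk (nat_lit 29736) (nat_lit 23936) (nat_lit 306371727612) (nat_lit 30481) (nat_lit 853845551057) (nat_lit 0) (nat_lit 0),Row.mk (nat_lit 29904) (nat_lit 23749) (nat_lit 306371727612) (nat_lit 30294) (nat_lit 1127505868081) (nat_lit 0) (nat_lit 0),Row.mk (nat_lit 30072) (nat_lit 23562) (nat_lit 306371727612) (nat_lit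 30107) (nat_lit 1469301002316) (nat_lit 0) (nat_lit 0),Row.mk (nat_lit 30240) (nat_lit 23375) (nat_lit 306371727612) (nat_lit 29920) (nat_lit 1896194879577) (nat_lit 0) (nat_lit 0),Row.mk (nat_lit 30408) (nat_lit 23188) (nat_lit 306371727612) (nat_lit 29733) (nat_lit 2429375033970) (nat_lit 0) (nat_lit 0),Row.mk (nat_lit 30576) (nat_lit 23001) (nat_lit 306371727612) (nat_lit 29546) (nat_lit 3095304184474) (nat_lit 0) (nat_lit 0),Row.mk (nat_lit 30744) (nat_lit 22814) (nat_lit 306371727612) (nat_lit 29359) (nat_lit 3927033628707) (nat_lit 0) (nat_lit 0),Row.mk (nat_lit 30912) (nat_lit 22627) (nat_lit 306371727612) (nat_lit 29172) (nat_lit 4965843640076) (nat_lit 0) (nat_lit 0),Row.mk (nat_lit 31080) (nat_lit 22440) (nat_lit 306371727612) (nat_lit 28985) (nat_lit 6263292284226) (nat_lit 0) (nat_lit 0)],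
[Row.mk (nat_lit 22512) (nat_lit 32912) (nat_lit 77487277) (nat_lit 61897) (nat_lit 76201682046) (nat_lit 0) (nat_lit 0),Row.mk (nat_lit 22680) (nat_lit 32912) (nat_lit 96779740) (nat_lit 61897) (nat_lit 76182389583) (nat_lit 0) (nat_lit 0),Row.mk (nat_lit 22848) (nat_lit 0) (nat_lit 606366615) (nat_lit 748) (nat_lit 75793678268) (nat_lit 0) (nat_lit 0),Row.mk (nat_lit 23016) (nat_lit 561) (nat_lit 757337274) (nat_lit 1309) (nat_lit 75672802708) (nat_lit 0) (nat_lit 0),Row.mk (nat_lit 23184) (nat_lit 1122) (nat_lit 945895986) (nat_lit 1870) (nat_lit 75521832048) (nat_lit 0) (nat_lit 0),Row.mk (nat_lit 23352) (nat_lit 1683) (nat_lit 1181401268) (nat_lit 2431) (nat_lit 75333273337) (nat_lit 0) (nat_lit 0),Row.mk (nat_lit 23520) (nat_lit 2244) (nat_lit 1475541683) (nat_lit 2992) (nat_lit 75097768055) (nat_lit 0) (nat_lit 0),Row.mk (nat_lit 23688) (nat_lit 2805) (nat_lit 1842915967) (nat_lit 3553) (nat_lit 74803627639) (nat_lit 0) (nat_lit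 0),Row.mk (nat_lit 23856) (nat_lit 3366) (nat_lit 2301757585) (nat_lit 4114) (nat_lit 74436253355) (nat_lit 0) (nat_lit 0),Row.mk (nat_lit 24024) (nat_lit 3927) (nat_lit 2874839696) (nat_lit 4675) (nat_lit 73977411738) (nat_lit 0) (nat_lit 0),Row.mk (nat_lit 24192) (nat_lit 4488) (nat_lit 3590605429) (nat_lit 5236) (nat_lit 73404329626) (nat_lit 0) (nat_lit 0),Row.mk (nat_lit 24360) (nat_lit 5049) (nat_lit 4484579562) (nat_lit 5797) (nat_lit 72688563894) (nat_lit 0) (nat_lit 0),Row.mk (nat_lit 24528) (nat_lit 5610) (nat_lit 5601131688) (nat_lit 6358) (nat_lit 71794589761) (nat_lit 0) (nat_lit 0),Row.mk (nat_lit 24696) (nat_lit 6171) (nat_lit 6995678357) (nat_lit 6919) (nat_lit 70678037635) (nat_lit 0) (nat_lit 0),Row.mk (nat_lit 24864) (nat_lit 6732) (nat_lit 8737433506) (nat_lit 7480) (nat_lit 69283490965) (nat_lit 0) (nat_lit 0),Row.mk (nat_lit 25032) (nat_lit 7293) (nat_lit 10912843669) (nat_lit 8041) (nat_lit 67541735816) (nat_lit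 0) (nat_lit 0),Row.mk (nat_lit 25200) (nat_lit 7854) (nat_lit 13629878484) (nat_lit 8602) (nat_lit 65366325653) (nat_lit 0) (nat_lit 0),Row.mk (nat_lit 25368) (nat_lit 8415) (nat_lit 17023389422) (nat_lit 9163) (nat_lit 62649290839) (nat_lit 0) (nat_lit 0),Row.mk (nat_lit 25536) (nat_lit 8976) (nat_lit 21261802719) (nat_lit 9724) (nat_lit 59255779901) (nat_lit 0) (nat_lit 0),Row.mk (nat_lit 25704) (nat_lit 9537) (nat_lit 26555478680) (nat_lit 10285) (nat_lit 55017366604) (nat_lit 0) (nat_lit 0),Row.mk (nat_lit 25872) (nat_lit 10098) (nat_lit 33167152253) (nat_lit 10846) (nat_lit 49723690642) (nat_lit 0) (nat_lit 0),Row.mk (nat_lit 26040) (nat_lit 10659) (nat_lit 41424973046) (nat_lit 11407) (nat_lit 43112017070) (nat_lit 0) (nat_lit 0),Row.mk (nat_lit 26208) (nat_lit 11220) (nat_lit 51738792006) (nat_lit 11968) (nat_lit 34854196277) (nat_lit 0) (nat_lit 0),Row.mk (nat_lit 26376) (nat_lit 11781) (nat_lit 64620503080) (nat_lit 12716)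 (nat_lit 24540377316) (nat_lit 0) (nat_lit 0),Row.mk (nat_lit 26544) (nat_lit 12529) (nat_lit 80709449454) (nat_lit 13464) (nat_lit 11658666243) (nat_lit 0) (nat_lit 0),Row.mk (nat_lit 26712) (nat_lit 12342) (nat_lit 5533313008) (nat_lit 13277) (nat_lit 90840562210) (nat_lit 0) (nat_lit 0),Row.mk (nat_lit 26880) (nat_lit 13090) (nat_lit 30631115910) (nat_lit 14025) (nat_lit 70745856314) (nat_lit 0) (nat_lit 0),Row.mk (nat_lit 27048) (nat_lit 13838) (nat_lit 61977666281) (nat_lit 15147) (nat_lit 45648053412) (nat_lit 0) (nat_lit 0),Row.mk (nat_lit 27216) (nat_lit 14960) (nat_lit 101128751496) (nat_lit 16456) (nat_lit 14301503042) (nat_lit 0) (nat_lit 0),Row.mk (nat_lit 27384) (nat_lit 14773) (nat_lit 31036528667) (nat_lit 16269) (nat_lit 94141401616) (nat_lit 0) (nat_lit 0),Row.mk (nat_lit 27552) (nat_lit 16082) (nat_lit 92109901481) (nat_lit 17765) (nat_lit 45242640656) (nat_lit 0) (nat_lit 0),Row.mk (nat_lit 27720) (nat_lit 15895)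 (nat_lit 19772202568) (nat_lit 17578) (nat_lit 132786136078) (nat_lit 0) (nat_lit 0),Row.mk (nat_lit 27888) (nat_lit 17391) (nat_lit 115043044909) (nat_lit 19635) (nat_lit 56506966755) (nat_lit 0) (nat_lit 0),Row.mk (nat_lit 28056) (nat_lit 17204) (nat_lit 48415145474) (nat_lit 19448) (nat_lit 146855007637) (nat_lit 0) (nat_lit 0),Row.mk (nat_lit 28224) (nat_lit 19261) (nat_lit 197032013711) (nat_lit 25806) (nat_lit 27864023848) (nat_lit 0) (nat_lit 0),Row.mk (nat_lit 28392) (nat_lit 19074) (nat_lit 150817389622) (nat_lit 25619) (nat_lit 111080662924) (nat_lit 0) (nat_lit 0),Row.mk (nat_lit 28560) (nat_lit 18887) (nat_lit 93096439008) (nat_lit 25432) (nat_lit 215016237628) (nat_lit 0) (nat_lit 0),Row.mk (nat_lit 28728) (nat_lit 18700) (nat_lit 21004364139) (nat_lit 25245) (nat_lit 344829263111) (nat_lit 0) (nat_lit 0),Row.mk (nat_lit 28896) (nat_lit 25058) (nat_lit 382650896935) (nat_lit 31603) (nat_lit 55274805183) (nat_lit 0) (nat_lit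 0),Row.mk (nat_lit 29064) (nat_lit 24871) (nat_lit 382650896935) (nat_lit 31416) (nat_lit 145316067559) (nat_lit 0) (nat_lit 0),Row.mk (nat_lit 29232) (nat_lit 24684) (nat_lit 382650896935) (nat_lit 31229) (nat_lit 257775432128) (nat_lit 0) (nat_lit 0),Row.mk (nat_lit 29400) (nat_lit 24497) (nat_lit 382650896935) (nat_lit 31042) (nat_lit 398234465528) (nat_lit 0) (nat_lit 0),Row.mk (nat_lit 29568) (nat_lit 24310) (nat_lit 382650896935) (nat_lit 30855) (nat_lit 573664409837) (nat_lit 0) (nat_lit 0),Row.mk (nat_lit 29736) (nat_lit 24123) (nat_lit 382650896935) (nat_lit 30668) (nat_lit 792772178242) (nat_lit 0) (nat_lit 0),Row.mk (nat_lit 29904) (nat_lit 23936) (nat_lit 382650896935) (nat_lit 30481) (nat_lit 1066432495266) (nat_lit 0) (nat_lit 0),Row.mk (nat_lit 30072) (nat_lit 23749) (nat_lit 382650896935) (nat_lit 30294) (nat_lit 1408227629501) (nat_lit 0) (nat_lit 0),Row.mk (nat_lit 30240) (nat_lit 23562) (nat_lit 382650896935) (nat_lit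 30107) (nat_lit 1835121506762) (nat_lit 0) (nat_lit 0),Row.mk (nat_lit 30408) (nat_lit 23375) (nat_lit 382650896935) (nat_lit 29920) (nat_lit 2368301661155) (nat_lit 0) (nat_lit 0),Row.mk (nat_lit 30576) (nat_lit 23188) (nat_lit 382650896935) (nat_lit 29733) (nat_lit 3034230811659) (nat_lit 0) (nat_lit 0),Row.mk (nat_lit 30744) (nat_lit 23001) (nat_lit 382650896935) (nat_lit 29546) (nat_lit 3865960255893) (nat_lit 0) (nat_lit 0),Row.mk (nat_lit 30912) (nat_lit 22814) (nat_lit 382650896935) (nat_lit 29359) (nat_lit 4904770267261) (nat_lit 0) (nat_lit 0),Row.mk (nat_lit 31080) (nat_lit 22627) (nat_lit 382650896935) (nat_lit 29172) (nat_lit 6202218911411) (nat_lit 0) (nat_lit 0)],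
[Row.mk (nat_lit 22680) (nat_lit 32912) (nat_lit 96779740) (nat_lit 61897) (nat_lit 95174062601) (nat_lit 0) (nat_lit 0),Row.mk (nat_lit 22848) (nat_lit 32912) (nat_lit 120875560) (nat_lit 61897) (nat_lit 95149966780) (nat_lit 0) (nat_lit 0),Row.mk (nat_lit 23016) (nat_lit 0) (nat_lit 757337274) (nat_lit 748) (nat_lit 94664475726) (nat_lit 0) (nat_lit 0),Row.mk (nat_lit 23184) (nat_lit 561) (nat_lit 945895986) (nat_lit 1309) (nat_lit 94513505066) (nat_lit 0) (nat_lit 0),Row.mk (nat_lit 23352) (nat_lit 1122) (nat_lit 1181401268) (nat_lit 1870) (nat_lit 94324946355) (nat_lit 0) (nat_lit 0),Row.mk (nat_lit 23520) (nat_lit 1683) (nat_lit 1475541683) (nat_lit 2431) (nat_lit 94089441073) (nat_lit 0) (nat_lit 0),Row.mk (nat_lit 23688) (nat_lit 2244) (nat_lit 1842915967) (nat_lit 2992) (nat_lit 93795300657) (nat_lit 0) (nat_lit 0),Row.mk (nat_lit 23856) (nat_lit 2805) (nat_lit 2301757585) (nat_lit 3553) (nat_lit 93427926373) (nat_lit 0) (nat_lit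 0),Row.mk (nat_lit 24024) (nat_lit 3366) (nat_lit 2874839696) (nat_lit 4114) (nat_lit 92969084755) (nat_lit 0) (nat_lit 0),Row.mk (nat_lit 24192) (nat_lit 3927) (nat_lit 3590605429) (nat_lit 4675) (nat_lit 92396002644) (nat_lit 0) (nat_lit 0),Row.mk (nat_lit 24360) (nat_lit 4488) (nat_lit 4484579562) (nat_lit 5236) (nat_lit 91680236911) (nat_lit 0) (nat_lit 0),Row.mk (nat_lit 24528) (nat_lit 5049) (nat_lit 5601131688) (nat_lit 5797) (nat_lit 90786262778) (nat_lit 0) (nat_lit 0),Row.mk (nat_lit 24696) (nat_lit 5610) (nat_lit 6995678357) (nat_lit 6358) (nat_lit 89669710653) (nat_lit 0) (nat_lit 0),Row.mk (nat_lit 24864) (nat_lit 6171) (nat_lit 8737433506) (nat_lit 6919) (nat_lit 88275163983) (nat_lit 0) (nat_lit 0),Row.mk (nat_lit 25032) (nat_lit 6732) (nat_lit 10912843669) (nat_lit 7480) (nat_lit 86533408834) (nat_lit 0) (nat_lit 0),Row.mk (nat_lit 25200) (nat_lit 7293) (nat_lit 13629878484) (nat_lit 8041) (nat_lit 84357998671) (nat_lit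 0) (nat_lit 0),Row.mk (nat_lit 25368) (nat_lit 7854) (nat_lit 17023389422) (nat_lit 8602) (nat_lit 81640963857) (nat_lit 0) (nat_lit 0),Row.mk (nat_lit 25536) (nat_lit 8415) (nat_lit 21261802719) (nat_lit 9163) (nat_lit 78247452919) (nat_lit 0) (nat_lit 0),Row.mk (nat_lit 25704) (nat_lit 8976) (nat_lit 26555478680) (nat_lit 9724) (nat_lit 74009039621) (nat_lit 0) (nat_lit 0),Row.mk (nat_lit 25872) (nat_lit 9537) (nat_lit 33167152253) (nat_lit 10285) (nat_lit 68715363660) (nat_lit 0) (nat_lit 0),Row.mk (nat_lit 26040) (nat_lit 10098) (nat_lit 41424973046) (nat_lit 10846) (nat_lit 62103690088) (nat_lit 0) (nat_lit 0),Row.mk (nat_lit 26208) (nat_lit 10659) (nat_lit 51738792006) (nat_lit 11407) (nat_lit 53845869294) (nat_lit 0) (nat_lit 0),Row.mk (nat_lit 26376) (nat_lit 11220) (nat_lit 64620503080) (nat_lit 11968) (nat_lit 43532050334) (nat_lit 0) (nat_lit 0),Row.mk (nat_lit 26544) (nat_lit 11781) (nat_lit 80709449454) (nat_lit 12716)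 (nat_lit 30650339261) (nat_lit 0) (nat_lit 0),Row.mk (nat_lit 26712) (nat_lit 12529) (nat_lit 100804155349) (nat_lit 13464) (nat_lit 14561392886) (nat_lit 0) (nat_lit 0),Row.mk (nat_lit 26880) (nat_lit 12342) (nat_lit 6910974463) (nat_lit 13277) (nat_lit 113457670780) (nat_lit 0) (nat_lit 0),Row.mk (nat_lit 27048) (nat_lit 13090) (nat_lit 38257524833) (nat_lit 14025) (nat_lit 88359867878) (nat_lit 0) (nat_lit 0),Row.mk (nat_lit 27216) (nat_lit 13838) (nat_lit 77408610048) (nat_lit 15147) (nat_lit 57013317507) (nat_lit 0) (nat_lit 0),Row.mk (nat_lit 27384) (nat_lit 14960) (nat_lit 126307371008) (nat_lit 16456) (nat_lit 17862232292) (nat_lit 0) (nat_lit 0),Row.mk (nat_lit 27552) (nat_lit 14773) (nat_lit 38763875585) (nat_lit 16269) (nat_lit 117580339570) (nat_lit 0) (nat_lit 0),Row.mk (nat_lit 27720) (nat_lit 16082) (nat_lit 115043044909) (nat_lit 17765) (nat_lit 56506966755) (nat_lit 0) (nat_lit 0),Row.mk (nat_lit 27888) (nat_lit 15895)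 (nat_lit 24695004026) (nat_lit 17578) (nat_lit 165846680655) (nat_lit 0) (nat_lit 0),Row.mk (nat_lit 28056) (nat_lit 17391) (nat_lit 143685987815) (nat_lit 19635) (nat_lit 70575838314) (nat_lit 0) (nat_lit 0),Row.mk (nat_lit 28224) (nat_lit 17204) (nat_lit 60469348740) (nat_lit 19448) (nat_lit 183418361838) (nat_lit 0) (nat_lit 0),Row.mk (nat_lit 28392) (nat_lit 19261) (nat_lit 246088231964) (nat_lit 25806) (nat_lit 34801493601) (nat_lit 0) (nat_lit 0),Row.mk (nat_lit 28560) (nat_lit 19074) (nat_lit 188367281349) (nat_lit 25619) (nat_lit 138737068304) (nat_lit 0) (nat_lit 0),Row.mk (nat_lit 28728) (nat_lit 18887) (nat_lit 116275206481) (nat_lit 25432) (nat_lit 268550093787) (nat_lit 0) (nat_lit 0),Row.mk (nat_lit 28896) (nat_lit 18700) (nat_lit 26233944105) (nat_lit 25245) (nat_lit 430683431031) (nat_lit 0) (nat_lit 0),Row.mk (nat_lit 29064) (nat_lit 25058) (nat_lit 477921739277) (nat_lit 31603) (nat_lit 69036898235) (nat_lit 0) (nat_lit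 0),Row.mk (nat_lit 29232) (nat_lit 24871) (nat_lit 477921739277) (nat_lit 31416) (nat_lit 181496262805) (nat_lit 0) (nat_lit 0),Row.mk (nat_lit 29400) (nat_lit 24684) (nat_lit 477921739277) (nat_lit 31229) (nat_lit 321955296204) (nat_lit 0) (nat_lit 0),Row.mk (nat_lit 29568) (nat_lit 24497) (nat_lit 477921739277) (nat_lit 31042) (nat_lit 497385240514) (nat_lit 0) (nat_lit 0),Row.mk (nat_lit 29736) (nat_lit 24310) (nat_lit 477921739277) (nat_lit 30855) (nat_lit 716493008918) (nat_lit 0) (nat_lit 0),Row.mk (nat_lit 29904) (nat_lit 24123) (nat_lit 477921739277) (nat_lit 30668) (nat_lit 990153325943) (nat_lit 0) (nat_lit 0),Row.mk (nat_lit 30072) (nat_lit 23936) (nat_lit 477921739277) (nat_lit 30481) (nat_lit 1331948460178) (nat_lit 0) (nat_lit 0),Row.mk (nat_lit 30240) (nat_lit 23749) (nat_lit 477921739277) (nat_lit 30294) (nat_lit 1758842337438) (nat_lit 0) (nat_lit 0),Row.mk (nat_lit 30408) (nat_lit 23562) (nat_lit 477921739277) (nat_lit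 30107) (nat_lit 2292022491832) (nat_lit 0) (nat_lit 0),Row.mk (nat_lit 30576) (nat_lit 23375) (nat_lit 477921739277) (nat_lit 29920) (nat_lit 2957951642335) (nat_lit 0) (nat_lit 0),Row.mk (nat_lit 30744) (nat_lit 23188) (nat_lit 477921739277) (nat_lit 29733) (nat_lit 3789681086569) (nat_lit 0) (nat_lit 0),Row.mk (nat_lit 30912) (nat_lit 23001) (nat_lit 477921739277) (nat_lit 29546) (nat_lit 4828491097938) (nat_lit 0) (nat_lit 0),Row.mk (nat_lit 31080) (nat_lit 22814) (nat_lit 477921739277) (nat_lit 29359) (nat_lit 6125939742087) (nat_lit 0) (nat_lit 0)],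
[Row.mk (nat_lit 22848) (nat_lit 32912) (nat_lit 120875560) (nat_lit 61897) (nat_lit 118870108228) (nat_lit 0) (nat_lit 0),Row.mk (nat_lit 23016) (nat_lit 32912) (nat_lit 150970659) (nat_lit 61897) (nat_lit 118840013129) (nat_lit 0) (nat_lit 0),Row.mk (nat_lit 23184) (nat_lit 0) (nat_lit 945895986) (nat_lit 748) (nat_lit 118233646514) (nat_lit 0) (nat_lit 0),Row.mk (nat_lit 23352) (nat_lit 561) (nat_lit 1181401268) (nat_lit 1309) (nat_lit 118045087802) (nat_lit 0) (nat_lit 0),Row.mk (nat_lit 23520) (nat_lit 1122) (nat_lit 1475541683) (nat_lit 1870) (nat_lit 117809582520) (nat_lit 0) (nat_lit 0),Row.mk (nat_lit 23688) (nat_lit 1683) (nat_lit 1842915967) (nat_lit 2431) (nat_lit 117515442105) (nat_lit 0) (nat_lit 0),Row.mk (nat_lit 23856) (nat_lit 2244) (nat_lit 2301757585) (nat_lit 2992) (nat_lit 117148067821) (nat_lit 0) (nat_lit 0),Row.mk (nat_lit 24024) (nat_lit 2805) (nat_lit 2874839696) (nat_lit 3553) (nat_lit 116689226203) (nat_lit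 0) (nat_lit 0),Row.mk (nat_lit 24192) (nat_lit 3366) (nat_lit 3590605429) (nat_lit 4114) (nat_lit 116116144092) (nat_lit 0) (nat_lit 0),Row.mk (nat_lit 24360) (nat_lit 3927) (nat_lit 4484579562) (nat_lit 4675) (nat_lit 115400378359) (nat_lit 0) (nat_lit 0),Row.mk (nat_lit 24528) (nat_lit 4488) (nat_lit 5601131688) (nat_lit 5236) (nat_lit 114506404226) (nat_lit 0) (nat_lit 0),Row.mk (nat_lit 24696) (nat_lit 5049) (nat_lit 6995678357) (nat_lit 5797) (nat_lit 113389852100) (nat_lit 0) (nat_lit 0),Row.mk (nat_lit 24864) (nat_lit 5610) (nat_lit 8737433506) (nat_lit 6358) (nat_lit 111995305431) (nat_lit 0) (nat_lit 0),Row.mk (nat_lit 25032) (nat_lit 6171) (nat_lit 10912843669) (nat_lit 6919) (nat_lit 110253550282) (nat_lit 0) (nat_lit 0),Row.mk (nat_lit 25200) (nat_lit 6732) (nat_lit 13629878484) (nat_lit 7480) (nat_lit 108078140119) (nat_lit 0) (nat_lit 0),Row.mk (nat_lit 25368) (nat_lit 7293) (nat_lit 17023389422) (nat_lit 8041) (nat_lit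 105361105304) (nat_lit 0) (nat_lit 0),Row.mk (nat_lit 25536) (nat_lit 7854) (nat_lit 21261802719) (nat_lit 8602) (nat_lit 101967594366) (nat_lit 0) (nat_lit 0),Row.mk (nat_lit 25704) (nat_lit 8415) (nat_lit 26555478680) (nat_lit 9163) (nat_lit 97729181069) (nat_lit 0) (nat_lit 0),Row.mk (nat_lit 25872) (nat_lit 8976) (nat_lit 33167152253) (nat_lit 9724) (nat_lit 92435505108) (nat_lit 0) (nat_lit 0),Row.mk (nat_lit 26040) (nat_lit 9537) (nat_lit 41424973046) (nat_lit 10285) (nat_lit 85823831535) (nat_lit 0) (nat_lit 0),Row.mk (nat_lit 26208) (nat_lit 10098) (nat_lit 51738792006) (nat_lit 10846) (nat_lit 77566010742) (nat_lit 0) (nat_lit 0),Row.mk (nat_lit 26376) (nat_lit 10659) (nat_lit 64620503080) (nat_lit 11407) (nat_lit 67252191782) (nat_lit 0) (nat_lit 0),Row.mk (nat_lit 26544) (nat_lit 11220) (nat_lit 80709449454) (nat_lit 11968) (nat_lit 54370480708) (nat_lit 0) (nat_lit 0),Row.mk (nat_lit 26712) (nat_lit 11781) (nat_lit 100804155349)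 (nat_lit 12716) (nat_lit 38281534334) (nat_lit 0) (nat_lit 0),Row.mk (nat_lit 26880) (nat_lit 12529) (nat_lit 125901958252) (nat_lit 13464) (nat_lit 18186828439) (nat_lit 0) (nat_lit 0),Row.mk (nat_lit 27048) (nat_lit 12342) (nat_lit 8631640385) (nat_lit 13277) (nat_lit 141705893774) (nat_lit 0) (nat_lit 0),Row.mk (nat_lit 27216) (nat_lit 13090) (nat_lit 47782725600) (nat_lit 14025) (nat_lit 110359343403) (nat_lit 0) (nat_lit 0),Row.mk (nat_lit 27384) (nat_lit 13838) (nat_lit 96681486560) (nat_lit 15147) (nat_lit 71208258188) (nat_lit 0) (nat_lit 0),Row.mk (nat_lit 27552) (nat_lit 14960) (nat_lit 157754859374) (nat_lit 16456) (nat_lit 22309497228) (nat_lit 0) (nat_lit 0),Row.mk (nat_lit 27720) (nat_lit 14773) (nat_lit 48415145474) (nat_lit 16269) (nat_lit 146855007637) (nat_lit 0) (nat_lit 0),Row.mk (nat_lit 27888) (nat_lit 16082) (nat_lit 143685987815) (nat_lit 17765) (nat_lit 70575838314) (nat_lit 0) (nat_lit 0),Row.mk (nat_lit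 28056) (nat_lit 15895) (nat_lit 30843464292) (nat_lit 17578) (nat_lit 207138503285) (nat_lit 0) (nat_lit 0),Row.mk (nat_lit 28224) (nat_lit 17391) (nat_lit 179460332529) (nat_lit 19635) (nat_lit 88147519496) (nat_lit 0) (nat_lit 0),Row.mk (nat_lit 28392) (nat_lit 17204) (nat_lit 75524757825) (nat_lit 19448) (nat_lit 229085109187) (nat_lit 0) (nat_lit 0),Row.mk (nat_lit 28560) (nat_lit 19261) (nat_lit 307358265138) (nat_lit 25806) (nat_lit 43466225963) (nat_lit 0) (nat_lit 0),Row.mk (nat_lit 28728) (nat_lit 19074) (nat_lit 235266190270) (nat_lit 25619) (nat_lit 173279251446) (nat_lit 0) (nat_lit 0),Row.mk (nat_lit 28896) (nat_lit 18887) (nat_lit 145224927894) (nat_lit 25432) (nat_lit 335412588690) (nat_lit 0) (nat_lit 0),Row.mk (nat_lit 29064) (nat_lit 18700) (nat_lit 32765563325) (nat_lit 25245) (nat_lit 537913215635) (nat_lit 0) (nat_lit 0),Row.mk (nat_lit 29232) (nat_lit 25058) (nat_lit 596912723066) (nat_lit 31603) (nat_lit 86225420464)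 (nat_lit 0) (nat_lit 0),Row.mk (nat_lit 29400) (nat_lit 24871) (nat_lit 596912723066) (nat_lit 31416) (nat_lit 226684453863) (nat_lit 0) (nat_lit 0),Row.mk (nat_lit 29568) (nat_lit 24684) (nat_lit 596912723066) (nat_lit 31229) (nat_lit 402114398172) (nat_lit 0) (nat_lit 0),Row.mk (nat_lit 29736) (nat_lit 24497) (nat_lit 596912723066) (nat_lit 31042) (nat_lit 621222166577) (nat_lit 0) (nat_lit 0),Row.mk (nat_lit 29904) (nat_lit 24310) (nat_lit 596912723066) (nat_lit 30855) (nat_lit 894882483601) (nat_lit 0) (nat_lit 0),Row.mk (nat_lit 30072) (nat_lit 24123) (nat_lit 596912723066) (nat_lit 30668) (nat_lit 1236677617836) (nat_lit 0) (nat_lit 0),Row.mk (nat_lit 30240) (nat_lit 23936) (nat_lit 596912723066) (nat_lit 30481) (nat_lit 1663571495097) (nat_lit 0) (nat_lit 0),Row.mk (nat_lit 30408) (nat_lit 23749) (nat_lit 596912723066) (nat_lit 30294) (nat_lit 2196751649491) (nat_lit 0) (nat_lit 0),Row.mk (nat_lit 30576) (nat_lit 23562) (nat_lit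 596912723066) (nat_lit 30107) (nat_lit 2862680799994) (nat_lit 0) (nat_lit 0),Row.mk (nat_lit 30744) (nat_lit 23375) (nat_lit 596912723066) (nat_lit 29920) (nat_lit 3694410244228) (nat_lit 0) (nat_lit 0),Row.mk (nat_lit 30912) (nat_lit 23188) (nat_lit 596912723066) (nat_lit 29733) (nat_lit 4733220255597) (nat_lit 0) (nat_lit 0),Row.mk (nat_lit 31080) (nat_lit 23001) (nat_lit 596912723066) (nat_lit 29546) (nat_lit 6030668899746) (nat_lit 0) (nat_lit 0)],
[Row.mk (nat_lit 23016) (nat_lit 32912) (nat_lit 150970659) (nat_lit 61897) (nat_lit 148465897577) (nat_lit 0) (nat_lit 0),Row.mk (nat_lit 23184) (nat_lit 32912) (nat_lit 188558711) (nat_lit 61897) (nat_lit 148428309525) (nat_lit 0) (nat_lit 0),Row.mk (nat_lit 23352) (nat_lit 0) (nat_lit 1181401268) (nat_lit 748) (nat_lit 147670972251) (nat_lit 0) (nat_lit 0),Row.mk (nat_lit 23520) (nat_lit 561) (nat_lit 1475541683) (nat_lit 1309) (nat_lit 147435466969) (nat_lit 0) (nat_lit 0),Row.mk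 (nat_lit 23688) (nat_lit 1122) (nat_lit 1842915967) (nat_lit 1870) (nat_lit 147141326553) (nat_lit 0) (nat_lit 0),Row.mk (nat_lit 23856) (nat_lit 1683) (nat_lit 2301757585) (nat_lit 2431) (nat_lit 146773952269) (nat_lit 0) (nat_lit 0),Row.mk (nat_lit 24024) (nat_lit 2244) (nat_lit 2874839696) (nat_lit 2992) (nat_lit 146315110651) (nat_lit 0) (nat_lit 0),Row.mk (nat_lit 24192) (nat_lit 2805) (nat_lit 3590605429) (nat_lit 3553) (nat_lit 145742028540) (nat_lit 0) (nat_lit 0),Row.mk (nat_lit 24360) (nat_lit 3366) (nat_lit 4484579562) (nat_lit 4114) (nat_lit 145026262807) (nat_lit 0) (nat_lit 0),Row.mk (nat_lit 24528) (nat_lit 3927) (nat_lit 5601131688) (nat_lit 4675) (nat_lit 144132288674) (nat_lit 0) (nat_lit 0),Row.mk (nat_lit 24696) (nat_lit 4488) (nat_lit 6995678357) (nat_lit 5236) (nat_lit 143015736549) (nat_lit 0) (nat_lit 0),Row.mk (nat_lit 24864) (nat_lit 5049) (nat_lit 8737433506) (nat_lit 5797) (nat_lit 141621189879) (nat_lit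 0) (nat_lit 0),Row.mk (nat_lit 25032) (nat_lit 5610) (nat_lit 10912843669) (nat_lit 6358) (nat_lit 139879434730) (nat_lit 0) (nat_lit 0),Row.mk (nat_lit 25200) (nat_lit 6171) (nat_lit 13629878484) (nat_lit 6919) (nat_lit 137704024567) (nat_lit 0) (nat_lit 0),Row.mk (nat_lit 25368) (nat_lit 6732) (nat_lit 17023389422) (nat_lit 7480) (nat_lit 134986989753) (nat_lit 0) (nat_lit 0),Row.mk (nat_lit 25536) (nat_lit 7293) (nat_lit 21261802719) (nat_lit 8041) (nat_lit 131593478815) (nat_lit 0) (nat_lit 0),Row.mk (nat_lit 25704) (nat_lit 7854) (nat_lit 26555478680) (nat_lit 8602) (nat_lit 127355065517) (nat_lit 0) (nat_lit 0),Row.mk (nat_lit 25872) (nat_lit 8415) (nat_lit 33167152253) (nat_lit 9163) (nat_lit 122061389556) (nat_lit 0) (nat_lit 0),Row.mk (nat_lit 26040) (nat_lit 8976) (nat_lit 41424973046) (nat_lit 9724) (nat_lit 115449715983) (nat_lit 0) (nat_lit 0),Row.mk (nat_lit 26208) (nat_lit 9537) (nat_lit 51738792006) (nat_lit 10285)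 (nat_lit 107191895190) (nat_lit 0) (nat_lit 0),Row.mk (nat_lit 26376) (nat_lit 10098) (nat_lit 64620503080) (nat_lit 10846) (nat_lit 96878076230) (nat_lit 0) (nat_lit 0),Row.mk (nat_lit 26544) (nat_lit 10659) (nat_lit 80709449454) (nat_lit 11407) (nat_lit 83996365157) (nat_lit 0) (nat_lit 0),Row.mk (nat_lit 26712) (nat_lit 11220) (nat_lit 100804155349) (nat_lit 11968) (nat_lit 67907418782) (nat_lit 0) (nat_lit 0),Row.mk (nat_lit 26880) (nat_lit 11781) (nat_lit 125901958252) (nat_lit 12716) (nat_lit 47812712887) (nat_lit 0) (nat_lit 0),Row.mk (nat_lit 27048) (nat_lit 12529) (nat_lit 157248508622) (nat_lit 13464) (nat_lit 22714909984) (nat_lit 0) (nat_lit 0),Row.mk (nat_lit 27216) (nat_lit 12342) (nat_lit 10780710613) (nat_lit 13277) (nat_lit 176987242838) (nat_lit 0) (nat_lit 0),Row.mk (nat_lit 27384) (nat_lit 13090) (nat_lit 59679471573) (nat_lit 14025) (nat_lit 137836157623) (nat_lit 0) (nat_lit 0),Row.mk (nat_lit 27552) (nat_lit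 13838) (nat_lit 120752844388) (nat_lit 15147) (nat_lit 88937396663) (nat_lit 0) (nat_lit 0),Row.mk (nat_lit 27720) (nat_lit 14960) (nat_lit 197032013711) (nat_lit 16456) (nat_lit 27864023848) (nat_lit 0) (nat_lit 0),Row.mk (nat_lit 27888) (nat_lit 14773) (nat_lit 60469348740) (nat_lit 16269) (nat_lit 183418361838) (nat_lit 0) (nat_lit 0),Row.mk (nat_lit 28056) (nat_lit 16082) (nat_lit 179460332529) (nat_lit 17765) (nat_lit 88147519496) (nat_lit 0) (nat_lit 0),Row.mk (nat_lit 28224) (nat_lit 15895) (nat_lit 38522742839) (nat_lit 17578) (nat_lit 258710993635) (nat_lit 0) (nat_lit 0),Row.mk (nat_lit 28392) (nat_lit 17391) (nat_lit 224141626063) (nat_lit 19635) (nat_lit 110094125398) (nat_lit 0) (nat_lit 0),Row.mk (nat_lit 28560) (nat_lit 17204) (nat_lit 94328600579) (nat_lit 19448) (nat_lit 286121774970) (nat_lit 0) (nat_lit 0),Row.mk (nat_lit 28728) (nat_lit 19261) (nat_lit 383883058507) (nat_lit 25806) (nat_lit 54288267657) (nat_lit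 0) (nat_lit 0),Row.mk (nat_lit 28896) (nat_lit 19074) (nat_lit 293841796131) (nat_lit 25619) (nat_lit 216421604901) (nat_lit 0) (nat_lit 0),Row.mk (nat_lit 29064) (nat_lit 18887) (nat_lit 181382431562) (nat_lit 25432) (nat_lit 418922231846) (nat_lit 0) (nat_lit 0),Row.mk (nat_lit 29232) (nat_lit 18700) (nat_lit 40923398162) (nat_lit 25245) (nat_lit 671840629815) (nat_lit 0) (nat_lit 0),Row.mk (nat_lit 29400) (nat_lit 25058) (nat_lit 745529591303) (nat_lit 31603) (nat_lit 107693470074) (nat_lit 0) (nat_lit 0),Row.mk (nat_lit 29568) (nat_lit 24871) (nat_lit 745529591303) (nat_lit 31416) (nat_lit 283123414383) (nat_lit 0) (nat_lit 0),Row.mk (nat_lit 29736) (nat_lit 24684) (nat_lit 745529591303) (nat_lit 31229) (nat_lit 502231182788) (nat_lit 0) (nat_lit 0),Row.mk (nat_lit 29904) (nat_lit 24497) (nat_lit 745529591303) (nat_lit 31042) (nat_lit 775891499812) (nat_lit 0) (nat_lit 0),Row.mk (nat_lit 30072) (nat_lit 24310) (nat_lit 745529591303)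 (nat_lit 30855) (nat_lit 1117686634047) (nat_lit 0) (nat_lit 0),Row.mk (nat_lit 30240) (nat_lit 24123) (nat_lit 745529591303) (nat_lit 30668) (nat_lit 1544580511308) (nat_lit 0) (nat_lit 0),Row.mk (nat_lit 30408) (nat_lit 23936) (nat_lit 745529591303) (nat_lit 30481) (nat_lit 2077760665701) (nat_lit 0) (nat_lit 0),Row.mk (nat_lit 30576) (nat_lit 23749) (nat_lit 745529591303) (nat_lit 30294) (nat_lit 2743689816205) (nat_lit 0) (nat_lit 0),Row.mk (nat_lit 30744) (nat_lit 23562) (nat_lit 745529591303) (nat_lit 30107) (nat_lit 3575419260439) (nat_lit 0) (nat_lit 0),Row.mk (nat_lit 30912) (nat_lit 23375) (nat_lit 745529591303) (nat_lit 29920) (nat_lit 4614229271808) (nat_lit 0) (nat_lit 0),Row.mk (nat_lit 31080) (nat_lit 23188) (nat_lit 745529591303) (nat_lit 29733) (nat_lit 5911677915957) (nat_lit 0) (nat_lit 0)],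
[Row.mk (nat_lit 23184) (nat_lit 32912) (nat_lit 188558711) (nat_lit 61897) (nat_lit 185430324512) (nat_lit 0) (nat_lit 0),Row.mk (nat_lit 23352) (nat_lit 32912) (nat_lit 235505281) (nat_lit 61897) (nat_lit 185383377941) (nat_lit 0) (nat_lit 0),Row.mk (nat_lit 23520) (nat_lit 0) (nat_lit 1475541683) (nat_lit 748) (nat_lit 184437481955) (nat_lit 0) (nat_lit 0),Row.mk (nat_lit 23688) (nat_lit 561) (nat_lit 1842915967) (nat_lit 1309) (nat_lit 184143341539) (nat_lit 0) (nat_lit 0),Row.mk (nat_lit 23856) (nat_lit 1122) (nat_lit 2301757585) (nat_lit 1870) (nat_lit 183775967256) (nat_lit 0) (nat_lit 0),Row.mk (nat_lit 24024) (nat_lit 1683) (nat_lit 2874839696) (nat_lit 2431) (nat_lit 183317125638) (nat_lit 0) (nat_lit 0),Row.mk (nat_lit 24192) (nat_lit 2244) (nat_lit 3590605429) (nat_lit 2992) (nat_lit 182744043526) (nat_lit 0) (nat_lit 0),Row.mk (nat_lit 24360) (nat_lit 2805) (nat_lit 4484579562) (nat_lit 3553) (nat_lit 182028277794) (nat_lit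 0) (nat_lit 0),Row.mk (nat_lit 24528) (nat_lit 3366) (nat_lit 5601131688) (nat_lit 4114) (nat_lit 181134303661) (nat_lit 0) (nat_lit 0),Row.mk (nat_lit 24696) (nat_lit 3927) (nat_lit 6995678357) (nat_lit 4675) (nat_lit 180017751535) (nat_lit 0) (nat_lit 0),Row.mk (nat_lit 24864) (nat_lit 4488) (nat_lit 8737433506) (nat_lit 5236) (nat_lit 178623204865) (nat_lit 0) (nat_lit 0),Row.mk (nat_lit 25032) (nat_lit 5049) (nat_lit 10912843669) (nat_lit 5797) (nat_lit 176881449717) (nat_lit 0) (nat_lit 0),Row.mk (nat_lit 25200) (nat_lit 5610) (nat_lit 13629878484) (nat_lit 6358) (nat_lit 174706039554) (nat_lit 0) (nat_lit 0),Row.mk (nat_lit 25368) (nat_lit 6171) (nat_lit 17023389422) (nat_lit 6919) (nat_lit 171989004739) (nat_lit 0) (nat_lit 0),Row.mk (nat_lit 25536) (nat_lit 6732) (nat_lit 21261802719) (nat_lit 7480) (nat_lit 168595493801) (nat_lit 0) (nat_lit 0),Row.mk (nat_lit 25704) (nat_lit 7293) (nat_lit 26555478680) (nat_lit 8041) (nat_lit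 164357080504) (nat_lit 0) (nat_lit 0),Row.mk (nat_lit 25872) (nat_lit 7854) (nat_lit 33167152253) (nat_lit 8602) (nat_lit 159063404542) (nat_lit 0) (nat_lit 0),Row.mk (nat_lit 26040) (nat_lit 8415) (nat_lit 41424973046) (nat_lit 9163) (nat_lit 152451730970) (nat_lit 0) (nat_lit 0),Row.mk (nat_lit 26208) (nat_lit 8976) (nat_lit 51738792006) (nat_lit 9724) (nat_lit 144193910177) (nat_lit 0) (nat_lit 0),Row.mk (nat_lit 26376) (nat_lit 9537) (nat_lit 64620503080) (nat_lit 10285) (nat_lit 133880091216) (nat_lit 0) (nat_lit 0),Row.mk (nat_lit 26544) (nat_lit 10098) (nat_lit 80709449454) (nat_lit 10846) (nat_lit 120998380143) (nat_lit 0) (nat_lit 0),Row.mk (nat_lit 26712) (nat_lit 10659) (nat_lit 100804155349) (nat_lit 11407) (nat_lit 104909433769) (nat_lit 0) (nat_lit 0),Row.mk (nat_lit 26880) (nat_lit 11220) (nat_lit 125901958252) (nat_lit 11968) (nat_lit 84814727873) (nat_lit 0) (nat_lit 0),Row.mk (nat_lit 27048) (nat_lit 11781) (nat_lit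 157248508622) (nat_lit 12716) (nat_lit 59716924971) (nat_lit 0) (nat_lit 0),Row.mk (nat_lit 27216) (nat_lit 12529) (nat_lit 196399593837) (nat_lit 13464) (nat_lit 28370374601) (nat_lit 0) (nat_lit 0),Row.mk (nat_lit 27384) (nat_lit 12342) (nat_lit 13464847484) (nat_lit 13277) (nat_lit 221052796699) (nat_lit 0) (nat_lit 0),Row.mk (nat_lit 27552) (nat_lit 13090) (nat_lit 74538220299) (nat_lit 14025) (nat_lit 172154035739) (nat_lit 0) (nat_lit 0),Row.mk (nat_lit 27720) (nat_lit 13838) (nat_lit 150817389622) (nat_lit 15147) (nat_lit 111080662924) (nat_lit 0) (nat_lit 0),Row.mk (nat_lit 27888) (nat_lit 14960) (nat_lit 246088231964) (nat_lit 16456) (nat_lit 34801493601) (nat_lit 0) (nat_lit 0),Row.mk (nat_lit 28056) (nat_lit 14773) (nat_lit 75524757825) (nat_lit 16269) (nat_lit 229085109187) (nat_lit 0) (nat_lit 0),Row.mk (nat_lit 28224) (nat_lit 16082) (nat_lit 224141626063) (nat_lit 17765) (nat_lit 110094125398) (nat_lit 0) (nat_lit 0),Row.mk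 (nat_lit 28392) (nat_lit 15895) (nat_lit 48113976490) (nat_lit 17578) (nat_lit 323123789956) (nat_lit 0) (nat_lit 0),Row.mk (nat_lit 28560) (nat_lit 17391) (nat_lit 279947483803) (nat_lit 19635) (nat_lit 137504906732) (nat_lit 0) (nat_lit 0),Row.mk (nat_lit 28728) (nat_lit 17204) (nat_lit 117814146559) (nat_lit 19448) (nat_lit 357359194591) (nat_lit 0) (nat_lit 0),Row.mk (nat_lit 28896) (nat_lit 19261) (nat_lit 479460679355) (nat_lit 25806) (nat_lit 67804736664) (nat_lit 0) (nat_lit 0),Row.mk (nat_lit 29064) (nat_lit 19074) (nat_lit 367001314786) (nat_lit 25619) (nat_lit 270305363609) (nat_lit 0) (nat_lit 0),Row.mk (nat_lit 29232) (nat_lit 18887) (nat_lit 226542281386) (nat_lit 25432) (nat_lit 523223761578) (nat_lit 0) (nat_lit 0),Row.mk (nat_lit 29400) (nat_lit 18700) (nat_lit 51112337077) (nat_lit 25245) (nat_lit 839112739286) (nat_lit 0) (nat_lit 0),Row.mk (nat_lit 29568) (nat_lit 25058) (nat_lit 931148474527) (nat_lit 31603) (nat_lit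 134506546146) (nat_lit 0) (nat_lit 0),Row.mk (nat_lit 29736) (nat_lit 24871) (nat_lit 931148474527) (nat_lit 31416) (nat_lit 353614314551) (nat_lit 0) (nat_lit 0),Row.mk (nat_lit 29904) (nat_lit 24684) (nat_lit 931148474527) (nat_lit 31229) (nat_lit 627274631575) (nat_lit 0) (nat_lit 0),Row.mk (nat_lit 30072) (nat_lit 24497) (nat_lit 931148474527) (nat_lit 31042) (nat_lit 969069765810) (nat_lit 0) (nat_lit 0),Row.mk (nat_lit 30240) (nat_lit 24310) (nat_lit 931148474527) (nat_lit 30855) (nat_lit 1395963643071) (nat_lit 0) (nat_lit 0),Row.mk (nat_lit 30408) (nat_lit 24123) (nat_lit 931148474527) (nat_lit 30668) (nat_lit 1929143797464) (nat_lit 0) (nat_lit 0),Row.mk (nat_lit 30576) (nat_lit 23936) (nat_lit 931148474527) (nat_lit 30481) (nat_lit 2595072947968) (nat_lit 0) (nat_lit 0),Row.mk (nat_lit 30744) (nat_lit 23749) (nat_lit 931148474527) (nat_lit 30294) (nat_lit 3426802392201) (nat_lit 0) (nat_lit 0),Row.mk (nat_lit 30912) (nat_lit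 23562) (nat_lit 931148474527) (nat_lit 30107) (nat_lit 4465612403570) (nat_lit 0) (nat_lit 0),Row.mk (nat_lit 31080) (nat_lit 23375) (nat_lit 931148474527) (nat_lit 29920) (nat_lit 5763061047720) (nat_lit 0) (nat_lit 0)],
[Row.mk (nat_lit 23352) (nat_lit 32912) (nat_lit 235505281) (nat_lit 61897) (nat_lit 231598002030) (nat_lit 0) (nat_lit 0),Row.mk (nat_lit 23520) (nat_lit 32912) (nat_lit 294140415) (nat_lit 61897) (nat_lit 231539366896) (nat_lit 0) (nat_lit 0),Row.mk (nat_lit 23688) (nat_lit 0) (nat_lit 1842915967) (nat_lit 748) (nat_lit 230357965628) (nat_lit 0) (nat_lit 0),Row.mk (nat_lit 23856) (nat_lit 561) (nat_lit 2301757585) (nat_lit 1309) (nat_lit 229990591345) (nat_lit 0) (nat_lit 0),Row.mk (nat_lit 24024) (nat_lit 1122) (nat_lit 2874839696) (nat_lit 1870) (nat_lit 229531749727) (nat_lit 0) (nat_lit 0),Row.mk (nat_lit 24192) (nat_lit 1683) (nat_lit 3590605429) (nat_lit 2431) (nat_lit 228958667615) (nat_lit 0) (nat_lit 0),Row.mk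 (nat_lit 24360) (nat_lit 2244) (nat_lit 4484579562) (nat_lit 2992) (nat_lit 228242901883) (nat_lit 0) (nat_lit 0),Row.mk (nat_lit 24528) (nat_lit 2805) (nat_lit 5601131688) (nat_lit 3553) (nat_lit 227348927750) (nat_lit 0) (nat_lit 0),Row.mk (nat_lit 24696) (nat_lit 3366) (nat_lit 6995678357) (nat_lit 4114) (nat_lit 226232375624) (nat_lit 0) (nat_lit 0),Row.mk (nat_lit 24864) (nat_lit 3927) (nat_lit 8737433506) (nat_lit 4675) (nat_lit 224837828954) (nat_lit 0) (nat_lit 0),Row.mk (nat_lit 25032) (nat_lit 4488) (nat_lit 10912843669) (nat_lit 5236) (nat_lit 223096073806) (nat_lit 0) (nat_lit 0),Row.mk (nat_lit 25200) (nat_lit 5049) (nat_lit 13629878484) (nat_lit 5797) (nat_lit 220920663643) (nat_lit 0) (nat_lit 0),Row.mk (nat_lit 25368) (nat_lit 5610) (nat_lit 17023389422) (nat_lit 6358) (nat_lit 218203628828) (nat_lit 0) (nat_lit 0),Row.mk (nat_lit 25536) (nat_lit 6171) (nat_lit 21261802719) (nat_lit 6919) (nat_lit 214810117890) (nat_lit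 0) (nat_lit 0),Row.mk (nat_lit 25704) (nat_lit 6732) (nat_lit 26555478680) (nat_lit 7480) (nat_lit 210571704593) (nat_lit 0) (nat_lit 0),Row.mk (nat_lit 25872) (nat_lit 7293) (nat_lit 33167152253) (nat_lit 8041) (nat_lit 205278028631) (nat_lit 0) (nat_lit 0),Row.mk (nat_lit 26040) (nat_lit 7854) (nat_lit 41424973046) (nat_lit 8602) (nat_lit 198666355059) (nat_lit 0) (nat_lit 0),Row.mk (nat_lit 26208) (nat_lit 8415) (nat_lit 51738792006) (nat_lit 9163) (nat_lit 190408534266) (nat_lit 0) (nat_lit 0),Row.mk (nat_lit 26376) (nat_lit 8976) (nat_lit 64620503080) (nat_lit 9724) (nat_lit 180094715305) (nat_lit 0) (nat_lit 0),Row.mk (nat_lit 26544) (nat_lit 9537) (nat_lit 80709449454) (nat_lit 10285) (nat_lit 167213004232) (nat_lit 0) (nat_lit 0),Row.mk (nat_lit 26712) (nat_lit 10098) (nat_lit 100804155349) (nat_lit 10846) (nat_lit 151124057858) (nat_lit 0) (nat_lit 0),Row.mk (nat_lit 26880) (nat_lit 10659) (nat_lit 125901958252) (nat_lit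 11407) (nat_lit 131029351962) (nat_lit 0) (nat_lit 0),Row.mk (nat_lit 27048) (nat_lit 11220) (nat_lit 157248508622) (nat_lit 11968) (nat_lit 105931549060) (nat_lit 0) (nat_lit 0),Row.mk (nat_lit 27216) (nat_lit 11781) (nat_lit 196399593837) (nat_lit 12716) (nat_lit 74584998690) (nat_lit 0) (nat_lit 0),Row.mk (nat_lit 27384) (nat_lit 12529) (nat_lit 245298354797) (nat_lit 13464) (nat_lit 35433913475) (nat_lit 0) (nat_lit 0),Row.mk (nat_lit 27552) (nat_lit 12342) (nat_lit 16817269684) (nat_lit 13277) (nat_lit 276089610442) (nat_lit 0) (nat_lit 0),Row.mk (nat_lit 27720) (nat_lit 13090) (nat_lit 93096439008) (nat_lit 14025) (nat_lit 215016237628) (nat_lit 0) (nat_lit 0),Row.mk (nat_lit 27888) (nat_lit 13838) (nat_lit 188367281349) (nat_lit 15147) (nat_lit 138737068304) (nat_lit 0) (nat_lit 0),Row.mk (nat_lit 28056) (nat_lit 14960) (nat_lit 307358265138) (nat_lit 16456) (nat_lit 43466225963) (nat_lit 0) (nat_lit 0),Row.mk (nat_lit 28224)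 (nat_lit 14773) (nat_lit 94328600579) (nat_lit 16269) (nat_lit 286121774970) (nat_lit 0) (nat_lit 0),Row.mk (nat_lit 28392) (nat_lit 16082) (nat_lit 279947483803) (nat_lit 17765) (nat_lit 137504906732) (nat_lit 0) (nat_lit 0),Row.mk (nat_lit 28560) (nat_lit 15895) (nat_lit 60093195944) (nat_lit 17578) (nat_lit 403573818680) (nat_lit 0) (nat_lit 0),Row.mk (nat_lit 28728) (nat_lit 17391) (nat_lit 349647653872) (nat_lit 19635) (nat_lit 171740311367) (nat_lit 0) (nat_lit 0),Row.mk (nat_lit 28896) (nat_lit 17204) (nat_lit 147147026927) (nat_lit 19448) (nat_lit 446333013181) (nat_lit 0) (nat_lit 0),Row.mk (nat_lit 29064) (nat_lit 19261) (nat_lit 598834822098) (nat_lit 25806) (nat_lit 84686480385) (nat_lit 0) (nat_lit 0),Row.mk (nat_lit 29232) (nat_lit 19074) (nat_lit 458375788699) (nat_lit 25619) (nat_lit 337604878354) (nat_lit 0) (nat_lit 0),Row.mk (nat_lit 29400) (nat_lit 18887) (nat_lit 282945844390) (nat_lit 25432) (nat_lit 653493856063)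 (nat_lit 0) (nat_lit 0),Row.mk (nat_lit 29568) (nat_lit 18700) (nat_lit 63838075985) (nat_lit 25245) (nat_lit 1048031568777) (nat_lit 0) (nat_lit 0),Row.mk (nat_lit 29736) (nat_lit 25058) (nat_lit 1162981981839) (nat_lit 31603) (nat_lit 167995431327) (nat_lit 0) (nat_lit 0),Row.mk (nat_lit 29904) (nat_lit 24871) (nat_lit 1162981981839) (nat_lit 31416) (nat_lit 441655748351) (nat_lit 0) (nat_lit 0),Row.mk (nat_lit 30072) (nat_lit 24684) (nat_lit 1162981981839) (nat_lit 31229) (nat_lit 783450882586) (nat_lit 0) (nat_lit 0),Row.mk (nat_lit 30240) (nat_lit 24497) (nat_lit 1162981981839) (nat_lit 31042) (nat_lit 1210344759847) (nat_lit 0) (nat_lit 0),Row.mk (nat_lit 30408) (nat_lit 24310) (nat_lit 1162981981839) (nat_lit 30855) (nat_lit 1743524914240) (nat_lit 0) (nat_lit 0),Row.mk (nat_lit 30576) (nat_lit 24123) (nat_lit 1162981981839) (nat_lit 30668) (nat_lit 2409454064744) (nat_lit 0) (nat_lit 0),Row.mk (nat_lit 30744) (nat_lit 23936)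 (nat_lit 1162981981839) (nat_lit 30481) (nat_lit 3241183508978) (nat_lit 0) (nat_lit 0),Row.mk (nat_lit 30912) (nat_lit 23749) (nat_lit 1162981981839) (nat_lit 30294) (nat_lit 4279993520346) (nat_lit 0) (nat_lit 0),Row.mk (nat_lit 31080) (nat_lit 23562) (nat_lit 1162981981839) (nat_lit 30107) (nat_lit 5577442164496) (nat_lit 0) (nat_lit 0)],
[Row.mk (nat_lit 23520) (nat_lit 32912) (nat_lit 294140415) (nat_lit 61897) (nat_lit 289260317511) (nat_lit 0) (nat_lit 0),Row.mk (nat_lit 23688) (nat_lit 32912) (nat_lit 367374283) (nat_lit 61897) (nat_lit 289187083643) (nat_lit 0) (nat_lit 0),Row.mk (nat_lit 23856) (nat_lit 0) (nat_lit 2301757585) (nat_lit 748) (nat_lit 287711541959) (nat_lit 0) (nat_lit 0),Row.mk (nat_lit 24024) (nat_lit 561) (nat_lit 2874839696) (nat_lit 1309) (nat_lit 287252700342) (nat_lit 0) (nat_lit 0),Row.mk (nat_lit 24192) (nat_lit 1122) (nat_lit 3590605429) (nat_lit 1870) (nat_lit 286679618230) (nat_lit 0) (nat_lit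 0),Row.mk (nat_lit 24360) (nat_lit 1683) (nat_lit 4484579562) (nat_lit 2431) (nat_lit 285963852497) (nat_lit 0) (nat_lit 0),Row.mk (nat_lit 24528) (nat_lit 2244) (nat_lit 5601131688) (nat_lit 2992) (nat_lit 285069878365) (nat_lit 0) (nat_lit 0),Row.mk (nat_lit 24696) (nat_lit 2805) (nat_lit 6995678357) (nat_lit 3553) (nat_lit 283953326239) (nat_lit 0) (nat_lit 0),Row.mk (nat_lit 24864) (nat_lit 3366) (nat_lit 8737433506) (nat_lit 4114) (nat_lit 282558779569) (nat_lit 0) (nat_lit 0),Row.mk (nat_lit 25032) (nat_lit 3927) (nat_lit 10912843669) (nat_lit 4675) (nat_lit 280817024420) (nat_lit 0) (nat_lit 0),Row.mk (nat_lit 25200) (nat_lit 4488) (nat_lit 13629878484) (nat_lit 5236) (nat_lit 278641614257) (nat_lit 0) (nat_lit 0),Row.mk (nat_lit 25368) (nat_lit 5049) (nat_lit 17023389422) (nat_lit 5797) (nat_lit 275924579443) (nat_lit 0) (nat_lit 0),Row.mk (nat_lit 25536) (nat_lit 5610) (nat_lit 21261802719) (nat_lit 6358) (nat_lit 272531068505)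 (nat_lit 0) (nat_lit 0),Row.mk (nat_lit 25704) (nat_lit 6171) (nat_lit 26555478680) (nat_lit 6919) (nat_lit 268292655208) (nat_lit 0) (nat_lit 0),Row.mk (nat_lit 25872) (nat_lit 6732) (nat_lit 33167152253) (nat_lit 7480) (nat_lit 262998979246) (nat_lit 0) (nat_lit 0),Row.mk (nat_lit 26040) (nat_lit 7293) (nat_lit 41424973046) (nat_lit 8041) (nat_lit 256387305674) (nat_lit 0) (nat_lit 0),Row.mk (nat_lit 26208) (nat_lit 7854) (nat_lit 51738792006) (nat_lit 8602) (nat_lit 248129484880) (nat_lit 0) (nat_lit 0),Row.mk (nat_lit 26376) (nat_lit 8415) (nat_lit 64620503080) (nat_lit 9163) (nat_lit 237815665920) (nat_lit 0) (nat_lit 0),Row.mk (nat_lit 26544) (nat_lit 8976) (nat_lit 80709449454) (nat_lit 9724) (nat_lit 224933954847) (nat_lit 0) (nat_lit 0),Row.mk (nat_lit 26712) (nat_lit 9537) (nat_lit 100804155349) (nat_lit 10285) (nat_lit 208845008472) (nat_lit 0) (nat_lit 0),Row.mk (nat_lit 26880) (nat_lit 10098) (nat_lit 125901958252) (nat_lit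 10846) (nat_lit 188750302577) (nat_lit 0) (nat_lit 0),Row.mk (nat_lit 27048) (nat_lit 10659) (nat_lit 157248508622) (nat_lit 11407) (nat_lit 163652499675) (nat_lit 0) (nat_lit 0),Row.mk (nat_lit 27216) (nat_lit 11220) (nat_lit 196399593837) (nat_lit 11968) (nat_lit 132305949304) (nat_lit 0) (nat_lit 0),Row.mk (nat_lit 27384) (nat_lit 11781) (nat_lit 245298354797) (nat_lit 12716) (nat_lit 93154864090) (nat_lit 0) (nat_lit 0),Row.mk (nat_lit 27552) (nat_lit 12529) (nat_lit 306371727612) (nat_lit 13464) (nat_lit 44256103130) (nat_lit 0) (nat_lit 0),Row.mk (nat_lit 27720) (nat_lit 12342) (nat_lit 21004364139) (nat_lit 13277) (nat_lit 344829263111) (nat_lit 0) (nat_lit 0),Row.mk (nat_lit 27888) (nat_lit 13090) (nat_lit 116275206481) (nat_lit 14025) (nat_lit 268550093787) (nat_lit 0) (nat_lit 0),Row.mk (nat_lit 28056) (nat_lit 13838) (nat_lit 235266190270) (nat_lit 15147) (nat_lit 173279251446) (nat_lit 0) (nat_lit 0),Row.mk (nat_lit 28224)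 (nat_lit 14960) (nat_lit 383883058507) (nat_lit 16456) (nat_lit 54288267657) (nat_lit 0) (nat_lit 0),Row.mk (nat_lit 28392) (nat_lit 14773) (nat_lit 117814146559) (nat_lit 16269) (nat_lit 357359194591) (nat_lit 0) (nat_lit 0),Row.mk (nat_lit 28560) (nat_lit 16082) (nat_lit 349647653872) (nat_lit 17765) (nat_lit 171740311367) (nat_lit 0) (nat_lit 0),Row.mk (nat_lit 28728) (nat_lit 15895) (nat_lit 75054952058) (nat_lit 17578) (nat_lit 504053963796) (nat_lit 0) (nat_lit 0),Row.mk (nat_lit 28896) (nat_lit 17391) (nat_lit 436701484854) (nat_lit 19635) (nat_lit 214499505868) (nat_lit 0) (nat_lit 0),Row.mk (nat_lit 29064) (nat_lit 17204) (nat_lit 183783086885) (nat_lit 19448) (nat_lit 557459166213) (nat_lit 0) (nat_lit 0),Row.mk (nat_lit 29232) (nat_lit 19261) (nat_lit 747930246627) (nat_lit 25806) (nat_lit 105771371041) (nat_lit 0) (nat_lit 0),Row.mk (nat_lit 29400) (nat_lit 19074) (nat_lit 572500302317) (nat_lit 25619) (nat_lit 421660348750)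 (nat_lit 0) (nat_lit 0),Row.mk (nat_lit 29568) (nat_lit 18887) (nat_lit 353392533912) (nat_lit 25432) (nat_lit 816198061464) (nat_lit 0) (nat_lit 0),Row.mk (nat_lit 29736) (nat_lit 18700) (nat_lit 79732216888) (nat_lit 25245) (nat_lit 1308966146893) (nat_lit 0) (nat_lit 0),Row.mk (nat_lit 29904) (nat_lit 25058) (nat_lit 1452536439767) (nat_lit 31603) (nat_lit 209822241038) (nat_lit 0) (nat_lit 0),Row.mk (nat_lit 30072) (nat_lit 24871) (nat_lit 1452536439767) (nat_lit 31416) (nat_lit 551617375273) (nat_lit 0) (nat_lit 0),Row.mk (nat_lit 30240) (nat_lit 24684) (nat_lit 1452536439767) (nat_lit 31229) (nat_lit 978511252534) (nat_lit 0) (nat_lit 0),Row.mk (nat_lit 30408) (nat_lit 24497) (nat_lit 1452536439767) (nat_lit 31042) (nat_lit 1511691406928) (nat_lit 0) (nat_lit 0),Row.mk (nat_lit 30576) (nat_lit 24310) (nat_lit 1452536439767) (nat_lit 30855) (nat_lit 2177620557431) (nat_lit 0) (nat_lit 0),Row.mk (nat_lit 30744) (nat_lit 24123)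 (nat_lit 1452536439767) (nat_lit 30668) (nat_lit 3009350001665) (nat_lit 0) (nat_lit 0),Row.mk (nat_lit 30912) (nat_lit 23936) (nat_lit 1452536439767) (nat_lit 30481) (nat_lit 4048160013034) (nat_lit 0) (nat_lit 0),Row.mk (nat_lit 31080) (nat_lit 23749) (nat_lit 1452536439767) (nat_lit 30294) (nat_lit 5345608657183) (nat_lit 0) (nat_lit 0)],
[Row.mk (nat_lit 23688) (nat_lit 32912) (nat_lit 367374283) (nat_lit 61897) (nat_lit 361279158512) (nat_lit 0) (nat_lit 0),Row.mk (nat_lit 23856) (nat_lit 32912) (nat_lit 458841617) (nat_lit 61897) (nat_lit 361187691178) (nat_lit 0) (nat_lit 0),Row.mk (nat_lit 24024) (nat_lit 0) (nat_lit 2874839696) (nat_lit 748) (nat_lit 359344775210) (nat_lit 0) (nat_lit 0),Row.mk (nat_lit 24192) (nat_lit 561) (nat_lit 3590605429) (nat_lit 1309) (nat_lit 358771693099) (nat_lit 0) (nat_lit 0),Row.mk (nat_lit 24360) (nat_lit 1122) (nat_lit 4484579562) (nat_lit 1870) (nat_lit 358055927366) (nat_lit 0) (nat_lit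 0),Row.mk (nat_lit 24528) (nat_lit 1683) (nat_lit 5601131688) (nat_lit 2431) (nat_lit 357161953233) (nat_lit 0) (nat_lit 0),Row.mk (nat_lit 24696) (nat_lit 2244) (nat_lit 6995678357) (nat_lit 2992) (nat_lit 356045401107) (nat_lit 0) (nat_lit 0),Row.mk (nat_lit 24864) (nat_lit 2805) (nat_lit 8737433506) (nat_lit 3553) (nat_lit 354650854438) (nat_lit 0) (nat_lit 0),Row.mk (nat_lit 25032) (nat_lit 3366) (nat_lit 10912843669) (nat_lit 4114) (nat_lit 352909099289) (nat_lit 0) (nat_lit 0),Row.mk (nat_lit 25200) (nat_lit 3927) (nat_lit 13629878484) (nat_lit 4675) (nat_lit 350733689126) (nat_lit 0) (nat_lit 0),Row.mk (nat_lit 25368) (nat_lit 4488) (nat_lit 17023389422) (nat_lit 5236) (nat_lit 348016654311) (nat_lit 0) (nat_lit 0),Row.mk (nat_lit 25536) (nat_lit 5049) (nat_lit 21261802719) (nat_lit 5797) (nat_lit 344623143373) (nat_lit 0) (nat_lit 0),Row.mk (nat_lit 25704) (nat_lit 5610) (nat_lit 26555478680) (nat_lit 6358) (nat_lit 340384730076)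 (nat_lit 0) (nat_lit 0),Row.mk (nat_lit 25872) (nat_lit 6171) (nat_lit 33167152253) (nat_lit 6919) (nat_lit 335091054115) (nat_lit 0) (nat_lit 0),Row.mk (nat_lit 26040) (nat_lit 6732) (nat_lit 41424973046) (nat_lit 7480) (nat_lit 328479380542) (nat_lit 0) (nat_lit 0),Row.mk (nat_lit 26208) (nat_lit 7293) (nat_lit 51738792006) (nat_lit 8041) (nat_lit 320221559749) (nat_lit 0) (nat_lit 0),Row.mk (nat_lit 26376) (nat_lit 7854) (nat_lit 64620503080) (nat_lit 8602) (nat_lit 309907740788) (nat_lit 0) (nat_lit 0),Row.mk (nat_lit 26544) (nat_lit 8415) (nat_lit 80709449454) (nat_lit 9163) (nat_lit 297026029715) (nat_lit 0) (nat_lit 0),Row.mk (nat_lit 26712) (nat_lit 8976) (nat_lit 100804155349) (nat_lit 9724) (nat_lit 280937083341) (nat_lit 0) (nat_lit 0),Row.mk (nat_lit 26880) (nat_lit 9537) (nat_lit 125901958252) (nat_lit 10285) (nat_lit 260842377446) (nat_lit 0) (nat_lit 0),Row.mk (nat_lit 27048) (nat_lit 10098) (nat_lit 157248508622) (nat_lit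 10846) (nat_lit 235744574543) (nat_lit 0) (nat_lit 0),Row.mk (nat_lit 27216) (nat_lit 10659) (nat_lit 196399593837) (nat_lit 11407) (nat_lit 204398024173) (nat_lit 0) (nat_lit 0),Row.mk (nat_lit 27384) (nat_lit 11220) (nat_lit 245298354797) (nat_lit 11968) (nat_lit 165246938958) (nat_lit 0) (nat_lit 0),Row.mk (nat_lit 27552) (nat_lit 11781) (nat_lit 306371727612) (nat_lit 12716) (nat_lit 116348177998) (nat_lit 0) (nat_lit 0),Row.mk (nat_lit 27720) (nat_lit 12529) (nat_lit 382650896935) (nat_lit 13464) (nat_lit 55274805183) (nat_lit 0) (nat_lit 0),Row.mk (nat_lit 27888) (nat_lit 12342) (nat_lit 26233944105) (nat_lit 13277) (nat_lit 430683431031) (nat_lit 0) (nat_lit 0),Row.mk (nat_lit 28056) (nat_lit 13090) (nat_lit 145224927894) (nat_lit 14025) (nat_lit 335412588690) (nat_lit 0) (nat_lit 0),Row.mk (nat_lit 28224) (nat_lit 13838) (nat_lit 293841796131) (nat_lit 15147) (nat_lit 216421604901) (nat_lit 0) (nat_lit 0),Row.mk (nat_lit 28392)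 (nat_lit 14960) (nat_lit 479460679355) (nat_lit 16456) (nat_lit 67804736664) (nat_lit 0) (nat_lit 0),Row.mk (nat_lit 28560) (nat_lit 14773) (nat_lit 147147026927) (nat_lit 16269) (nat_lit 446333013181) (nat_lit 0) (nat_lit 0),Row.mk (nat_lit 28728) (nat_lit 16082) (nat_lit 436701484854) (nat_lit 17765) (nat_lit 214499505868) (nat_lit 0) (nat_lit 0),Row.mk (nat_lit 28896) (nat_lit 15895) (nat_lit 93741824510) (nat_lit 17578) (nat_lit 629551241081) (nat_lit 0) (nat_lit 0),Row.mk (nat_lit 29064) (nat_lit 17391) (nat_lit 545429619681) (nat_lit 19635) (nat_lit 267904708285) (nat_lit 0) (nat_lit 0),Row.mk (nat_lit 29232) (nat_lit 17204) (nat_lit 229540641973) (nat_lit 19448) (nat_lit 696253050563) (nat_lit 0) (nat_lit 0),Row.mk (nat_lit 29400) (nat_lit 19261) (nat_lit 934146835113) (nat_lit 25806) (nat_lit 132105890822) (nat_lit 0) (nat_lit 0),Row.mk (nat_lit 29568) (nat_lit 19074) (nat_lit 715039066708) (nat_lit 25619) (nat_lit 526643603536)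 (nat_lit 0) (nat_lit 0),Row.mk (nat_lit 29736) (nat_lit 18887) (nat_lit 441378749684) (nat_lit 25432) (nat_lit 1019411688965) (nat_lit 0) (nat_lit 0),Row.mk (nat_lit 29904) (nat_lit 18700) (nat_lit 99583615449) (nat_lit 25245) (nat_lit 1634867140225) (nat_lit 0) (nat_lit 0),Row.mk (nat_lit 30072) (nat_lit 25058) (nat_lit 1814182972563) (nat_lit 31603) (nat_lit 262062917346) (nat_lit 0) (nat_lit 0),Row.mk (nat_lit 30240) (nat_lit 24871) (nat_lit 1814182972563) (nat_lit 31416) (nat_lit 688956794607) (nat_lit 0) (nat_lit 0),Row.mk (nat_lit 30408) (nat_lit 24684) (nat_lit 1814182972563) (nat_lit 31229) (nat_lit 1222136949000) (nat_lit 0) (nat_lit 0),Row.mk (nat_lit 30576) (nat_lit 24497) (nat_lit 1814182972563) (nat_lit 31042) (nat_lit 1888066099504) (nat_lit 0) (nat_lit 0),Row.mk (nat_lit 30744) (nat_lit 24310) (nat_lit 1814182972563) (nat_lit 30855) (nat_lit 2719795543737) (nat_lit 0) (nat_lit 0),Row.mk (nat_lit 30912) (nat_lit 24123)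 (nat_lit 1814182972563) (nat_lit 30668) (nat_lit 3758605555106) (nat_lit 0) (nat_lit 0),Row.mk (nat_lit 31080) (nat_lit 23936) (nat_lit 1814182972563) (nat_lit 30481) (nat_lit 5056054199256) (nat_lit 0) (nat_lit 0)],
[Row.mk (nat_lit 23856) (nat_lit 32912) (nat_lit 458841617) (nat_lit 61897) (nat_lit 451228953553) (nat_lit 0) (nat_lit 0),Row.mk (nat_lit 24024) (nat_lit 32912) (nat_lit 573082111) (nat_lit 61897) (nat_lit 451114713060) (nat_lit 0) (nat_lit 0),Row.mk (nat_lit 24192) (nat_lit 0) (nat_lit 3590605429) (nat_lit 748) (nat_lit 448812955474) (nat_lit 0) (nat_lit 0),Row.mk (nat_lit 24360) (nat_lit 561) (nat_lit 4484579562) (nat_lit 1309) (nat_lit 448097189742) (nat_lit 0) (nat_lit 0),Row.mk (nat_lit 24528) (nat_lit 1122) (nat_lit 5601131688) (nat_lit 1870) (nat_lit 447203215609) (nat_lit 0) (nat_lit 0),Row.mk (nat_lit 24696) (nat_lit 1683) (nat_lit 6995678357) (nat_lit 2431) (nat_lit 446086663483) (nat_lit 0) (nat_lit 0),Row.mk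 (nat_lit 24864) (nat_lit 2244) (nat_lit 8737433506) (nat_lit 2992) (nat_lit 444692116813) (nat_lit 0) (nat_lit 0),Row.mk (nat_lit 25032) (nat_lit 2805) (nat_lit 10912843669) (nat_lit 3553) (nat_lit 442950361664) (nat_lit 0) (nat_lit 0),Row.mk (nat_lit 25200) (nat_lit 3366) (nat_lit 13629878484) (nat_lit 4114) (nat_lit 440774951501) (nat_lit 0) (nat_lit 0),Row.mk (nat_lit 25368) (nat_lit 3927) (nat_lit 17023389422) (nat_lit 4675) (nat_lit 438057916687) (nat_lit 0) (nat_lit 0),Row.mk (nat_lit 25536) (nat_lit 4488) (nat_lit 21261802719) (nat_lit 5236) (nat_lit 434664405749) (nat_lit 0) (nat_lit 0),Row.mk (nat_lit 25704) (nat_lit 5049) (nat_lit 26555478680) (nat_lit 5797) (nat_lit 430425992452) (nat_lit 0) (nat_lit 0),Row.mk (nat_lit 25872) (nat_lit 5610) (nat_lit 33167152253) (nat_lit 6358) (nat_lit 425132316490) (nat_lit 0) (nat_lit 0),Row.mk (nat_lit 26040) (nat_lit 6171) (nat_lit 41424973046) (nat_lit 6919) (nat_lit 418520642918)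 (nat_lit 0) (nat_lit 0),Row.mk (nat_lit 26208) (nat_lit 6732) (nat_lit 51738792006) (nat_lit 7480) (nat_lit 410262822125) (nat_lit 0) (nat_lit 0),Row.mk (nat_lit 26376) (nat_lit 7293) (nat_lit 64620503080) (nat_lit 8041) (nat_lit 399949003164) (nat_lit 0) (nat_lit 0),Row.mk (nat_lit 26544) (nat_lit 7854) (nat_lit 80709449454) (nat_lit 8602) (nat_lit 387067292091) (nat_lit 0) (nat_lit 0),Row.mk (nat_lit 26712) (nat_lit 8415) (nat_lit 100804155349) (nat_lit 9163) (nat_lit 370978345716) (nat_lit 0) (nat_lit 0),Row.mk (nat_lit 26880) (nat_lit 8976) (nat_lit 125901958252) (nat_lit 9724) (nat_lit 350883639821) (nat_lit 0) (nat_lit 0),Row.mk (nat_lit 27048) (nat_lit 9537) (nat_lit 157248508622) (nat_lit 10285) (nat_lit 325785836919) (nat_lit 0) (nat_lit 0),Row.mk (nat_lit 27216) (nat_lit 10098) (nat_lit 196399593837) (nat_lit 10846) (nat_lit 294439286548) (nat_lit 0) (nat_lit 0),Row.mk (nat_lit 27384) (nat_lit 10659) (nat_lit 245298354797)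 (nat_lit 11407) (nat_lit 255288201334) (nat_lit 0) (nat_lit 0),Row.mk (nat_lit 27552) (nat_lit 11220) (nat_lit 306371727612) (nat_lit 11968) (nat_lit 206389440374) (nat_lit 0) (nat_lit 0),Row.mk (nat_lit 27720) (nat_lit 11781) (nat_lit 382650896935) (nat_lit 12716) (nat_lit 145316067559) (nat_lit 0) (nat_lit 0),Row.mk (nat_lit 27888) (nat_lit 12529) (nat_lit 477921739277) (nat_lit 13464) (nat_lit 69036898235) (nat_lit 0) (nat_lit 0),Row.mk (nat_lit 28056) (nat_lit 12342) (nat_lit 32765563325) (nat_lit 13277) (nat_lit 537913215635) (nat_lit 0) (nat_lit 0),Row.mk (nat_lit 28224) (nat_lit 13090) (nat_lit 181382431562) (nat_lit 14025) (nat_lit 418922231846) (nat_lit 0) (nat_lit 0),Row.mk (nat_lit 28392) (nat_lit 13838) (nat_lit 367001314786) (nat_lit 15147) (nat_lit 270305363609) (nat_lit 0) (nat_lit 0),Row.mk (nat_lit 28560) (nat_lit 14960) (nat_lit 598834822098) (nat_lit 16456) (nat_lit 84686480385) (nat_lit 0) (nat_lit 0),Row.mk (nat_lit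 28728) (nat_lit 14773) (nat_lit 183783086885) (nat_lit 16269) (nat_lit 557459166213) (nat_lit 0) (nat_lit 0),Row.mk (nat_lit 28896) (nat_lit 16082) (nat_lit 545429619681) (nat_lit 17765) (nat_lit 267904708285) (nat_lit 0) (nat_lit 0),Row.mk (nat_lit 29064) (nat_lit 15895) (nat_lit 117081277403) (nat_lit 17578) (nat_lit 786294312939) (nat_lit 0) (nat_lit 0),Row.mk (nat_lit 29232) (nat_lit 17391) (nat_lit 681228437144) (nat_lit 19635) (nat_lit 334606517767) (nat_lit 0) (nat_lit 0),Row.mk (nat_lit 29400) (nat_lit 17204) (nat_lit 286690724430) (nat_lit 19448) (nat_lit 869603263881) (nat_lit 0) (nat_lit 0),Row.mk (nat_lit 29568) (nat_lit 19261) (nat_lit 1166726861880) (nat_lit 25806) (nat_lit 164997070740) (nat_lit 0) (nat_lit 0),Row.mk (nat_lit 29736) (nat_lit 19074) (nat_lit 893066544856) (nat_lit 25619) (nat_lit 657765156169) (nat_lit 0) (nat_lit 0),Row.mk (nat_lit 29904) (nat_lit 18887) (nat_lit 551271410621) (nat_lit 25432) (nat_lit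 1273220607429) (nat_lit 0) (nat_lit 0),Row.mk (nat_lit 30072) (nat_lit 18700) (nat_lit 124377533360) (nat_lit 25245) (nat_lit 2041909618924) (nat_lit 0) (nat_lit 0),Row.mk (nat_lit 30240) (nat_lit 25058) (nat_lit 2265870767735) (nat_lit 31603) (nat_lit 327310261811) (nat_lit 0) (nat_lit 0),Row.mk (nat_lit 30408) (nat_lit 24871) (nat_lit 2265870767735) (nat_lit 31416) (nat_lit 860490416204) (nat_lit 0) (nat_lit 0),Row.mk (nat_lit 30576) (nat_lit 24684) (nat_lit 2265870767735) (nat_lit 31229) (nat_lit 1526419566708) (nat_lit 0) (nat_lit 0),Row.mk (nat_lit 30744) (nat_lit 24497) (nat_lit 2265870767735) (nat_lit 31042) (nat_lit 2358149010941) (nat_lit 0) (nat_lit 0),Row.mk (nat_lit 30912) (nat_lit 24310) (nat_lit 2265870767735) (nat_lit 30855) (nat_lit 3396959022310) (nat_lit 0) (nat_lit 0),Row.mk (nat_lit 31080) (nat_lit 24123) (nat_lit 2265870767735) (nat_lit 30668) (nat_lit 4694407666460) (nat_lit 0) (nat_lit 0)],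
[Row.mk (nat_lit 24024) (nat_lit 32912) (nat_lit 573082111) (nat_lit 61897) (nat_lit 563574077629) (nat_lit 0) (nat_lit 0),Row.mk (nat_lit 24192) (nat_lit 32912) (nat_lit 715765732) (nat_lit 61897) (nat_lit 563431394008) (nat_lit 0) (nat_lit 0),Row.mk (nat_lit 24360) (nat_lit 0) (nat_lit 4484579562) (nat_lit 748) (nat_lit 560556554311) (nat_lit 0) (nat_lit 0),Row.mk (nat_lit 24528) (nat_lit 561) (nat_lit 5601131688) (nat_lit 1309) (nat_lit 559662580178) (nat_lit 0) (nat_lit 0),Row.mk (nat_lit 24696) (nat_lit 1122) (nat_lit 6995678357) (nat_lit 1870) (nat_lit 558546028052) (nat_lit 0) (nat_lit 0),Row.mk (nat_lit 24864) (nat_lit 1683) (nat_lit 8737433506) (nat_lit 2431) (nat_lit 557151481383) (nat_lit 0) (nat_lit 0),Row.mk (nat_lit 25032) (nat_lit 2244) (nat_lit 10912843669) (nat_lit 2992) (nat_lit 555409726234) (nat_lit 0) (nat_lit 0),Row.mk (nat_lit 25200) (nat_lit 2805) (nat_lit 13629878484) (nat_lit 3553) (nat_lit 553234316071)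 (nat_lit 0) (nat_lit 0),Row.mk (nat_lit 25368) (nat_lit 3366) (nat_lit 17023389422) (nat_lit 4114) (nat_lit 550517281256) (nat_lit 0) (nat_lit 0),Row.mk (nat_lit 25536) (nat_lit 3927) (nat_lit 21261802719) (nat_lit 4675) (nat_lit 547123770318) (nat_lit 0) (nat_lit 0),Row.mk (nat_lit 25704) (nat_lit 4488) (nat_lit 26555478680) (nat_lit 5236) (nat_lit 542885357021) (nat_lit 0) (nat_lit 0),Row.mk (nat_lit 25872) (nat_lit 5049) (nat_lit 33167152253) (nat_lit 5797) (nat_lit 537591681060) (nat_lit 0) (nat_lit 0),Row.mk (nat_lit 26040) (nat_lit 5610) (nat_lit 41424973046) (nat_lit 6358) (nat_lit 530980007487) (nat_lit 0) (nat_lit 0),Row.mk (nat_lit 26208) (nat_lit 6171) (nat_lit 51738792006) (nat_lit 6919) (nat_lit 522722186694) (nat_lit 0) (nat_lit 0),Row.mk (nat_lit 26376) (nat_lit 6732) (nat_lit 64620503080) (nat_lit 7480) (nat_lit 512408367734) (nat_lit 0) (nat_lit 0),Row.mk (nat_lit 26544) (nat_lit 7293) (nat_lit 80709449454) (nat_lit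 8041) (nat_lit 499526656660) (nat_lit 0) (nat_lit 0),Row.mk (nat_lit 26712) (nat_lit 7854) (nat_lit 100804155349) (nat_lit 8602) (nat_lit 483437710286) (nat_lit 0) (nat_lit 0),Row.mk (nat_lit 26880) (nat_lit 8415) (nat_lit 125901958252) (nat_lit 9163) (nat_lit 463343004391) (nat_lit 0) (nat_lit 0),Row.mk (nat_lit 27048) (nat_lit 8976) (nat_lit 157248508622) (nat_lit 9724) (nat_lit 438245201488) (nat_lit 0) (nat_lit 0),Row.mk (nat_lit 27216) (nat_lit 9537) (nat_lit 196399593837) (nat_lit 10285) (nat_lit 406898651118) (nat_lit 0) (nat_lit 0),Row.mk (nat_lit 27384) (nat_lit 10098) (nat_lit 245298354797) (nat_lit 10846) (nat_lit 367747565903) (nat_lit 0) (nat_lit 0),Row.mk (nat_lit 27552) (nat_lit 10659) (nat_lit 306371727612) (nat_lit 11407) (nat_lit 318848804943) (nat_lit 0) (nat_lit 0),Row.mk (nat_lit 27720) (nat_lit 11220) (nat_lit 382650896935) (nat_lit 11968) (nat_lit 257775432128) (nat_lit 0) (nat_lit 0),Row.mk (nat_lit 27888)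 (nat_lit 11781) (nat_lit 477921739277) (nat_lit 12716) (nat_lit 181496262805) (nat_lit 0) (nat_lit 0),Row.mk (nat_lit 28056) (nat_lit 12529) (nat_lit 596912723066) (nat_lit 13464) (nat_lit 86225420464) (nat_lit 0) (nat_lit 0),Row.mk (nat_lit 28224) (nat_lit 12342) (nat_lit 40923398162) (nat_lit 13277) (nat_lit 671840629815) (nat_lit 0) (nat_lit 0),Row.mk (nat_lit 28392) (nat_lit 13090) (nat_lit 226542281386) (nat_lit 14025) (nat_lit 523223761578) (nat_lit 0) (nat_lit 0),Row.mk (nat_lit 28560) (nat_lit 13838) (nat_lit 458375788699) (nat_lit 15147) (nat_lit 337604878354) (nat_lit 0) (nat_lit 0),Row.mk (nat_lit 28728) (nat_lit 14960) (nat_lit 747930246627) (nat_lit 16456) (nat_lit 105771371041) (nat_lit 0) (nat_lit 0),Row.mk (nat_lit 28896) (nat_lit 14773) (nat_lit 229540641973) (nat_lit 16269) (nat_lit 696253050563) (nat_lit 0) (nat_lit 0),Row.mk (nat_lit 29064) (nat_lit 16082) (nat_lit 681228437144) (nat_lit 17765) (nat_lit 334606517767)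 (nat_lit 0) (nat_lit 0),Row.mk (nat_lit 29232) (nat_lit 15895) (nat_lit 146231691031) (nat_lit 17578) (nat_lit 982062628450) (nat_lit 0) (nat_lit 0),Row.mk (nat_lit 29400) (nat_lit 17391) (nat_lit 850837884171) (nat_lit 19635) (nat_lit 417915468709) (nat_lit 0) (nat_lit 0),Row.mk (nat_lit 29568) (nat_lit 17204) (nat_lit 358069798742) (nat_lit 19448) (nat_lit 1086113498447) (nat_lit 0) (nat_lit 0),Row.mk (nat_lit 29736) (nat_lit 19261) (nat_lit 1457213704597) (nat_lit 25806) (nat_lit 206077360998) (nat_lit 0) (nat_lit 0),Row.mk (nat_lit 29904) (nat_lit 19074) (nat_lit 1115418570362) (nat_lit 25619) (nat_lit 821532812257) (nat_lit 0) (nat_lit 0),Row.mk (nat_lit 30072) (nat_lit 18887) (nat_lit 688524693101) (nat_lit 25432) (nat_lit 1590221823753) (nat_lit 0) (nat_lit 0),Row.mk (nat_lit 30240) (nat_lit 18700) (nat_lit 155344538708) (nat_lit 25245) (nat_lit 2550295855407) (nat_lit 0) (nat_lit 0),Row.mk (nat_lit 30408) (nat_lit 25058) (nat_lit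 2830017927476) (nat_lit 31603) (nat_lit 408802621033) (nat_lit 0) (nat_lit 0),Row.mk (nat_lit 30576) (nat_lit 24871) (nat_lit 2830017927476) (nat_lit 31416) (nat_lit 1074731771536) (nat_lit 0) (nat_lit 0),Row.mk (nat_lit 30744) (nat_lit 24684) (nat_lit 2830017927476) (nat_lit 31229) (nat_lit 1906461215770) (nat_lit 0) (nat_lit 0),Row.mk (nat_lit 30912) (nat_lit 24497) (nat_lit 2830017927476) (nat_lit 31042) (nat_lit 2945271227139) (nat_lit 0) (nat_lit 0),Row.mk (nat_lit 31080) (nat_lit 24310) (nat_lit 2830017927476) (nat_lit 30855) (nat_lit 4242719871288) (nat_lit 0) (nat_lit 0),Row.mk (nat_lit 31248) (nat_lit 24123) (nat_lit 2830017927476) (nat_lit 30668) (nat_lit 5863201928432) (nat_lit 0) (nat_lit 0)],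
[Row.mk (nat_lit 24192) (nat_lit 32912) (nat_lit 715765732) (nat_lit 61897) (nat_lit 703890427407) (nat_lit 0) (nat_lit 0),Row.mk (nat_lit 24360) (nat_lit 32912) (nat_lit 893974132) (nat_lit 61897) (nat_lit 703712219007) (nat_lit 0) (nat_lit 0),Row.mk (nat_lit 24528) (nat_lit 0) (nat_lit 5601131688) (nat_lit 748) (nat_lit 700121613578) (nat_lit 0) (nat_lit 0),Row.mk (nat_lit 24696) (nat_lit 561) (nat_lit 6995678357) (nat_lit 1309) (nat_lit 699005061452) (nat_lit 0) (nat_lit 0),Row.mk (nat_lit 24864) (nat_lit 1122) (nat_lit 8737433506) (nat_lit 1870) (nat_lit 697610514782) (nat_lit 0) (nat_lit 0),Row.mk (nat_lit 25032) (nat_lit 1683) (nat_lit 10912843669) (nat_lit 2431) (nat_lit 695868759633) (nat_lit 0) (nat_lit 0),Row.mk (nat_lit 25200) (nat_lit 2244) (nat_lit 13629878484) (nat_lit 2992) (nat_lit 693693349470) (nat_lit 0) (nat_lit 0),Row.mk (nat_lit 25368) (nat_lit 2805) (nat_lit 17023389422) (nat_lit 3553) (nat_lit 690976314656)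 (nat_lit 0) (nat_lit 0),Row.mk (nat_lit 25536) (nat_lit 3366) (nat_lit 21261802719) (nat_lit 4114) (nat_lit 687582803718) (nat_lit 0) (nat_lit 0),Row.mk (nat_lit 25704) (nat_lit 3927) (nat_lit 26555478680) (nat_lit 4675) (nat_lit 683344390420) (nat_lit 0) (nat_lit 0),Row.mk (nat_lit 25872) (nat_lit 4488) (nat_lit 33167152253) (nat_lit 5236) (nat_lit 678050714459) (nat_lit 0) (nat_lit 0),Row.mk (nat_lit 26040) (nat_lit 5049) (nat_lit 41424973046) (nat_lit 5797) (nat_lit 671439040887) (nat_lit 0) (nat_lit 0),Row.mk (nat_lit 26208) (nat_lit 5610) (nat_lit 51738792006) (nat_lit 6358) (nat_lit 663181220093) (nat_lit 0) (nat_lit 0),Row.mk (nat_lit 26376) (nat_lit 6171) (nat_lit 64620503080) (nat_lit 6919) (nat_lit 652867401133) (nat_lit 0) (nat_lit 0),Row.mk (nat_lit 26544) (nat_lit 6732) (nat_lit 80709449454) (nat_lit 7480) (nat_lit 639985690060) (nat_lit 0) (nat_lit 0),Row.mk (nat_lit 26712) (nat_lit 7293) (nat_lit 100804155349) (nat_lit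 8041) (nat_lit 623896743685) (nat_lit 0) (nat_lit 0),Row.mk (nat_lit 26880) (nat_lit 7854) (nat_lit 125901958252) (nat_lit 8602) (nat_lit 603802037790) (nat_lit 0) (nat_lit 0),Row.mk (nat_lit 27048) (nat_lit 8415) (nat_lit 157248508622) (nat_lit 9163) (nat_lit 578704234888) (nat_lit 0) (nat_lit 0),Row.mk (nat_lit 27216) (nat_lit 8976) (nat_lit 196399593837) (nat_lit 9724) (nat_lit 547357684517) (nat_lit 0) (nat_lit 0),Row.mk (nat_lit 27384) (nat_lit 9537) (nat_lit 245298354797) (nat_lit 10285) (nat_lit 508206599302) (nat_lit 0) (nat_lit 0),Row.mk (nat_lit 27552) (nat_lit 10098) (nat_lit 306371727612) (nat_lit 10846) (nat_lit 459307838343) (nat_lit 0) (nat_lit 0),Row.mk (nat_lit 27720) (nat_lit 10659) (nat_lit 382650896935) (nat_lit 11407) (nat_lit 398234465528) (nat_lit 0) (nat_lit 0),Row.mk (nat_lit 27888) (nat_lit 11220) (nat_lit 477921739277) (nat_lit 11968) (nat_lit 321955296204) (nat_lit 0) (nat_lit 0),Row.mk (nat_lit 28056)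 (nat_lit 11781) (nat_lit 596912723066) (nat_lit 12716) (nat_lit 226684453863) (nat_lit 0) (nat_lit 0),Row.mk (nat_lit 28224) (nat_lit 12529) (nat_lit 745529591303) (nat_lit 13464) (nat_lit 107693470074) (nat_lit 0) (nat_lit 0),Row.mk (nat_lit 28392) (nat_lit 12342) (nat_lit 51112337077) (nat_lit 13277) (nat_lit 839112739286) (nat_lit 0) (nat_lit 0),Row.mk (nat_lit 28560) (nat_lit 13090) (nat_lit 282945844390) (nat_lit 14025) (nat_lit 653493856063) (nat_lit 0) (nat_lit 0),Row.mk (nat_lit 28728) (nat_lit 13838) (nat_lit 572500302317) (nat_lit 15147) (nat_lit 421660348750) (nat_lit 0) (nat_lit 0),Row.mk (nat_lit 28896) (nat_lit 14960) (nat_lit 934146835113) (nat_lit 16456) (nat_lit 132105890822) (nat_lit 0) (nat_lit 0),Row.mk (nat_lit 29064) (nat_lit 14773) (nat_lit 286690724430) (nat_lit 16269) (nat_lit 869603263881) (nat_lit 0) (nat_lit 0),Row.mk (nat_lit 29232) (nat_lit 16082) (nat_lit 850837884171) (nat_lit 17765) (nat_lit 417915468709)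 (nat_lit 0) (nat_lit 0),Row.mk (nat_lit 29400) (nat_lit 15895) (nat_lit 182639854433) (nat_lit 17578) (nat_lit 1226572531847) (nat_lit 0) (nat_lit 0),Row.mk (nat_lit 29568) (nat_lit 17391) (nat_lit 1062675991883) (nat_lit 19635) (nat_lit 521966338706) (nat_lit 0) (nat_lit 0),Row.mk (nat_lit 29736) (nat_lit 17204) (nat_lit 447220540623) (nat_lit 19448) (nat_lit 1356529558371) (nat_lit 0) (nat_lit 0),Row.mk (nat_lit 29904) (nat_lit 19261) (nat_lit 1820024763502) (nat_lit 25806) (nat_lit 257385652516) (nat_lit 0) (nat_lit 0),Row.mk (nat_lit 30072) (nat_lit 19074) (nat_lit 1393130886242) (nat_lit 25619) (nat_lit 1026074664012) (nat_lit 0) (nat_lit 0),Row.mk (nat_lit 30240) (nat_lit 18887) (nat_lit 859950731848) (nat_lit 25432) (nat_lit 1986148695666) (nat_lit 0) (nat_lit 0),Row.mk (nat_lit 30408) (nat_lit 18700) (nat_lit 194021581344) (nat_lit 25245) (nat_lit 3185258000563) (nat_lit 0) (nat_lit 0),Row.mk (nat_lit 30576) (nat_lit 25058)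 (nat_lit 3534624120616) (nat_lit 31603) (nat_lit 510584611795) (nat_lit 0) (nat_lit 0),Row.mk (nat_lit 30744) (nat_lit 24871) (nat_lit 3534624120616) (nat_lit 31416) (nat_lit 1342314056029) (nat_lit 0) (nat_lit 0),Row.mk (nat_lit 30912) (nat_lit 24684) (nat_lit 3534624120616) (nat_lit 31229) (nat_lit 2381124067398) (nat_lit 0) (nat_lit 0),Row.mk (nat_lit 31080) (nat_lit 24497) (nat_lit 3534624120616) (nat_lit 31042) (nat_lit 3678572711547) (nat_lit 0) (nat_lit 0),Row.mk (nat_lit 31248) (nat_lit 24310) (nat_lit 3534624120616) (nat_lit 30855) (nat_lit 5299054768691) (nat_lit 0) (nat_lit 0)],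
[Row.mk (nat_lit 24360) (nat_lit 32912) (nat_lit 893974132) (nat_lit 61897) (nat_lit 879142163316) (nat_lit 0) (nat_lit 0),Row.mk (nat_lit 24528) (nat_lit 32912) (nat_lit 1116552125) (nat_lit 61897) (nat_lit 878919585323) (nat_lit 0) (nat_lit 0),Row.mk (nat_lit 24696) (nat_lit 0) (nat_lit 6995678357) (nat_lit 748) (nat_lit 874435005761) (nat_lit 0) (nat_lit 0),Row.mk (nat_lit 24864) (nat_lit 561) (nat_lit 8737433506) (nat_lit 1309) (nat_lit 873040459091) (nat_lit 0) (nat_lit 0),Row.mk (nat_lit 25032) (nat_lit 1122) (nat_lit 10912843669) (nat_lit 1870) (nat_lit 871298703943) (nat_lit 0) (nat_lit 0),Row.mk (nat_lit 25200) (nat_lit 1683) (nat_lit 13629878484) (nat_lit 2431) (nat_lit 869123293780) (nat_lit 0) (nat_lit 0),Row.mk (nat_lit 25368) (nat_lit 2244) (nat_lit 17023389422) (nat_lit 2992) (nat_lit 866406258965) (nat_lit 0) (nat_lit 0),Row.mk (nat_lit 25536) (nat_lit 2805) (nat_lit 21261802719) (nat_lit 3553) (nat_lit 863012748027)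 (nat_lit 0) (nat_lit 0),Row.mk (nat_lit 25704) (nat_lit 3366) (nat_lit 26555478680) (nat_lit 4114) (nat_lit 858774334730) (nat_lit 0) (nat_lit 0),Row.mk (nat_lit 25872) (nat_lit 3927) (nat_lit 33167152253) (nat_lit 4675) (nat_lit 853480658768) (nat_lit 0) (nat_lit 0),Row.mk (nat_lit 26040) (nat_lit 4488) (nat_lit 41424973046) (nat_lit 5236) (nat_lit 846868985196) (nat_lit 0) (nat_lit 0),Row.mk (nat_lit 26208) (nat_lit 5049) (nat_lit 51738792006) (nat_lit 5797) (nat_lit 838611164403) (nat_lit 0) (nat_lit 0),Row.mk (nat_lit 26376) (nat_lit 5610) (nat_lit 64620503080) (nat_lit 6358) (nat_lit 828297345442) (nat_lit 0) (nat_lit 0),Row.mk (nat_lit 26544) (nat_lit 6171) (nat_lit 80709449454) (nat_lit 6919) (nat_lit 815415634369) (nat_lit 0) (nat_lit 0),Row.mk (nat_lit 26712) (nat_lit 6732) (nat_lit 100804155349) (nat_lit 7480) (nat_lit 799326687995) (nat_lit 0) (nat_lit 0),Row.mk (nat_lit 26880) (nat_lit 7293) (nat_lit 125901958252) (nat_lit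 8041) (nat_lit 779231982099) (nat_lit 0) (nat_lit 0),Row.mk (nat_lit 27048) (nat_lit 7854) (nat_lit 157248508622) (nat_lit 8602) (nat_lit 754134179197) (nat_lit 0) (nat_lit 0),Row.mk (nat_lit 27216) (nat_lit 8415) (nat_lit 196399593837) (nat_lit 9163) (nat_lit 722787628827) (nat_lit 0) (nat_lit 0),Row.mk (nat_lit 27384) (nat_lit 8976) (nat_lit 245298354797) (nat_lit 9724) (nat_lit 683636543612) (nat_lit 0) (nat_lit 0),Row.mk (nat_lit 27552) (nat_lit 9537) (nat_lit 306371727612) (nat_lit 10285) (nat_lit 634737782652) (nat_lit 0) (nat_lit 0),Row.mk (nat_lit 27720) (nat_lit 10098) (nat_lit 382650896935) (nat_lit 10846) (nat_lit 573664409837) (nat_lit 0) (nat_lit 0),Row.mk (nat_lit 27888) (nat_lit 10659) (nat_lit 477921739277) (nat_lit 11407) (nat_lit 497385240514) (nat_lit 0) (nat_lit 0),Row.mk (nat_lit 28056) (nat_lit 11220) (nat_lit 596912723066) (nat_lit 11968) (nat_lit 402114398172) (nat_lit 0) (nat_lit 0),Row.mk (nat_lit 28224)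 (nat_lit 11781) (nat_lit 745529591303) (nat_lit 12716) (nat_lit 283123414383) (nat_lit 0) (nat_lit 0),Row.mk (nat_lit 28392) (nat_lit 12529) (nat_lit 931148474527) (nat_lit 13464) (nat_lit 134506546146) (nat_lit 0) (nat_lit 0),Row.mk (nat_lit 28560) (nat_lit 12342) (nat_lit 63838075985) (nat_lit 13277) (nat_lit 1048031568777) (nat_lit 0) (nat_lit 0),Row.mk (nat_lit 28728) (nat_lit 13090) (nat_lit 353392533912) (nat_lit 14025) (nat_lit 816198061464) (nat_lit 0) (nat_lit 0),Row.mk (nat_lit 28896) (nat_lit 13838) (nat_lit 715039066708) (nat_lit 15147) (nat_lit 526643603536) (nat_lit 0) (nat_lit 0),Row.mk (nat_lit 29064) (nat_lit 14960) (nat_lit 1166726861880) (nat_lit 16456) (nat_lit 164997070740) (nat_lit 0) (nat_lit 0),Row.mk (nat_lit 29232) (nat_lit 14773) (nat_lit 358069798742) (nat_lit 16269) (nat_lit 1086113498447) (nat_lit 0) (nat_lit 0),Row.mk (nat_lit 29400) (nat_lit 16082) (nat_lit 1062675991883) (nat_lit 17765) (nat_lit 521966338706)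 (nat_lit 0) (nat_lit 0),Row.mk (nat_lit 29568) (nat_lit 15895) (nat_lit 228112772219) (nat_lit 17578) (nat_lit 1531959502680) (nat_lit 0) (nat_lit 0),Row.mk (nat_lit 29736) (nat_lit 17391) (nat_lit 1327256678073) (nat_lit 19635) (nat_lit 651923365230) (nat_lit 0) (nat_lit 0),Row.mk (nat_lit 29904) (nat_lit 17204) (nat_lit 558567666577) (nat_lit 19448) (nat_lit 1694272693750) (nat_lit 0) (nat_lit 0),Row.mk (nat_lit 30072) (nat_lit 19261) (nat_lit 2273167023691) (nat_lit 25806) (nat_lit 321468470871) (nat_lit 0) (nat_lit 0),Row.mk (nat_lit 30240) (nat_lit 19074) (nat_lit 1739986869298) (nat_lit 25619) (nat_lit 1281542502526) (nat_lit 0) (nat_lit 0),Row.mk (nat_lit 30408) (nat_lit 18887) (nat_lit 1074057718794) (nat_lit 25432) (nat_lit 2480651807423) (nat_lit 0) (nat_lit 0),Row.mk (nat_lit 30576) (nat_lit 18700) (nat_lit 242328274560) (nat_lit 25245) (nat_lit 3978310402160) (nat_lit 0) (nat_lit 0),Row.mk (nat_lit 30744) (nat_lit 25058)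 (nat_lit 4414660258066) (nat_lit 31603) (nat_lit 637707862888) (nat_lit 0) (nat_lit 0),Row.mk (nat_lit 30912) (nat_lit 24871) (nat_lit 4414660258066) (nat_lit 31416) (nat_lit 1676517874257) (nat_lit 0) (nat_lit 0),Row.mk (nat_lit 31080) (nat_lit 24684) (nat_lit 4414660258066) (nat_lit 31229) (nat_lit 2973966518407) (nat_lit 0) (nat_lit 0),Row.mk (nat_lit 31248) (nat_lit 24497) (nat_lit 4414660258066) (nat_lit 31042) (nat_lit 4594448575551) (nat_lit 0) (nat_lit 0)],
[Row.mk (nat_lit 24528) (nat_lit 32912) (nat_lit 1116552125) (nat_lit 61897) (nat_lit 1098027353728) (nat_lit 0) (nat_lit 0),Row.mk (nat_lit 24696) (nat_lit 32912) (nat_lit 1394546669) (nat_lit 61897) (nat_lit 1097749359184) (nat_lit 0) (nat_lit 0),Row.mk (nat_lit 24864) (nat_lit 0) (nat_lit 8737433506) (nat_lit 748) (nat_lit 1092148227496) (nat_lit 0) (nat_lit 0),Row.mk (nat_lit 25032) (nat_lit 561) (nat_lit 10912843669) (nat_lit 1309) (nat_lit 1090406472347) (nat_lit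 0) (nat_lit 0),Row.mk (nat_lit 25200) (nat_lit 1122) (nat_lit 13629878484) (nat_lit 1870) (nat_lit 1088231062184) (nat_lit 0) (nat_lit 0),Row.mk (nat_lit 25368) (nat_lit 1683) (nat_lit 17023389422) (nat_lit 2431) (nat_lit 1085514027370) (nat_lit 0) (nat_lit 0),Row.mk (nat_lit 25536) (nat_lit 2244) (nat_lit 21261802719) (nat_lit 2992) (nat_lit 1082120516432) (nat_lit 0) (nat_lit 0),Row.mk (nat_lit 25704) (nat_lit 2805) (nat_lit 26555478680) (nat_lit 3553) (nat_lit 1077882103135) (nat_lit 0) (nat_lit 0),Row.mk (nat_lit 25872) (nat_lit 3366) (nat_lit 33167152253) (nat_lit 4114) (nat_lit 1072588427173) (nat_lit 0) (nat_lit 0),Row.mk (nat_lit 26040) (nat_lit 3927) (nat_lit 41424973046) (nat_lit 4675) (nat_lit 1065976753601) (nat_lit 0) (nat_lit 0),Row.mk (nat_lit 26208) (nat_lit 4488) (nat_lit 51738792006) (nat_lit 5236) (nat_lit 1057718932808) (nat_lit 0) (nat_lit 0),Row.mk (nat_lit 26376) (nat_lit 5049) (nat_lit 64620503080) (nat_lit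 5797) (nat_lit 1047405113847) (nat_lit 0) (nat_lit 0),Row.mk (nat_lit 26544) (nat_lit 5610) (nat_lit 80709449454) (nat_lit 6358) (nat_lit 1034523402774) (nat_lit 0) (nat_lit 0),Row.mk (nat_lit 26712) (nat_lit 6171) (nat_lit 100804155349) (nat_lit 6919) (nat_lit 1018434456399) (nat_lit 0) (nat_lit 0),Row.mk (nat_lit 26880) (nat_lit 6732) (nat_lit 125901958252) (nat_lit 7480) (nat_lit 998339750504) (nat_lit 0) (nat_lit 0),Row.mk (nat_lit 27048) (nat_lit 7293) (nat_lit 157248508622) (nat_lit 8041) (nat_lit 973241947602) (nat_lit 0) (nat_lit 0),Row.mk (nat_lit 27216) (nat_lit 7854) (nat_lit 196399593837) (nat_lit 8602) (nat_lit 941895397231) (nat_lit 0) (nat_lit 0),Row.mk (nat_lit 27384) (nat_lit 8415) (nat_lit 245298354797) (nat_lit 9163) (nat_lit 902744312017) (nat_lit 0) (nat_lit 0),Row.mk (nat_lit 27552) (nat_lit 8976) (nat_lit 306371727612) (nat_lit 9724) (nat_lit 853845551057) (nat_lit 0) (nat_lit 0),Row.mk (nat_lit 27720) (nat_lit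 9537) (nat_lit 382650896935) (nat_lit 10285) (nat_lit 792772178242) (nat_lit 0) (nat_lit 0),Row.mk (nat_lit 27888) (nat_lit 10098) (nat_lit 477921739277) (nat_lit 10846) (nat_lit 716493008918) (nat_lit 0) (nat_lit 0),Row.mk (nat_lit 28056) (nat_lit 10659) (nat_lit 596912723066) (nat_lit 11407) (nat_lit 621222166577) (nat_lit 0) (nat_lit 0),Row.mk (nat_lit 28224) (nat_lit 11220) (nat_lit 745529591303) (nat_lit 11968) (nat_lit 502231182788) (nat_lit 0) (nat_lit 0),Row.mk (nat_lit 28392) (nat_lit 11781) (nat_lit 931148474527) (nat_lit 12716) (nat_lit 353614314551) (nat_lit 0) (nat_lit 0),Row.mk (nat_lit 28560) (nat_lit 12529) (nat_lit 1162981981839) (nat_lit 13464) (nat_lit 167995431327) (nat_lit 0) (nat_lit 0),Row.mk (nat_lit 28728) (nat_lit 12342) (nat_lit 79732216888) (nat_lit 13277) (nat_lit 1308966146893) (nat_lit 0) (nat_lit 0),Row.mk (nat_lit 28896) (nat_lit 13090) (nat_lit 441378749684) (nat_lit 14025) (nat_lit 1019411688965)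 (nat_lit 0) (nat_lit 0),Row.mk (nat_lit 29064) (nat_lit 13838) (nat_lit 893066544856) (nat_lit 15147) (nat_lit 657765156169) (nat_lit 0) (nat_lit 0),Row.mk (nat_lit 29232) (nat_lit 14960) (nat_lit 1457213704597) (nat_lit 16456) (nat_lit 206077360998) (nat_lit 0) (nat_lit 0),Row.mk (nat_lit 29400) (nat_lit 14773) (nat_lit 447220540623) (nat_lit 16269) (nat_lit 1356529558371) (nat_lit 0) (nat_lit 0),Row.mk (nat_lit 29568) (nat_lit 16082) (nat_lit 1327256678073) (nat_lit 17765) (nat_lit 651923365230) (nat_lit 0) (nat_lit 0),Row.mk (nat_lit 29736) (nat_lit 15895) (nat_lit 284907349553) (nat_lit 17578) (nat_lit 1913380462155) (nat_lit 0) (nat_lit 0),Row.mk (nat_lit 29904) (nat_lit 17391) (nat_lit 1657711572432) (nat_lit 19635) (nat_lit 814236556300) (nat_lit 0) (nat_lit 0),Row.mk (nat_lit 30072) (nat_lit 17204) (nat_lit 697637540778) (nat_lit 19448) (nat_lit 2116105722190) (nat_lit 0) (nat_lit 0),Row.mk (nat_lit 30240) (nat_lit 19261)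 (nat_lit 2839130775152) (nat_lit 25806) (nat_lit 401506365076) (nat_lit 0) (nat_lit 0),Row.mk (nat_lit 30408) (nat_lit 19074) (nat_lit 2173201624649) (nat_lit 25619) (nat_lit 1600615669973) (nat_lit 0) (nat_lit 0),Row.mk (nat_lit 30576) (nat_lit 18887) (nat_lit 1341472180415) (nat_lit 25432) (nat_lit 3098274264710) (nat_lit 0) (nat_lit 0),Row.mk (nat_lit 30744) (nat_lit 18700) (nat_lit 302662169046) (nat_lit 25245) (nat_lit 4968813720313) (nat_lit 0) (nat_lit 0),Row.mk (nat_lit 30912) (nat_lit 25058) (nat_lit 5513804163920) (nat_lit 31603) (nat_lit 796481736807) (nat_lit 0) (nat_lit 0),Row.mk (nat_lit 31080) (nat_lit 24871) (nat_lit 5513804163920) (nat_lit 31416) (nat_lit 2093930380957) (nat_lit 0) (nat_lit 0),Row.mk (nat_lit 31248) (nat_lit 24684) (nat_lit 5513804163920) (nat_lit 31229) (nat_lit 3714412438101) (nat_lit 0) (nat_lit 0)],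
[Row.mk (nat_lit 24864) (nat_lit 32912) (nat_lit 1741755148) (nat_lit 61897) (nat_lit 1371062467729) (nat_lit 0) (nat_lit 0),Row.mk (nat_lit 25032) (nat_lit 0) (nat_lit 10912843669) (nat_lit 748) (nat_lit 1364066789372) (nat_lit 0) (nat_lit 0),Row.mk (nat_lit 25200) (nat_lit 561) (nat_lit 13629878484) (nat_lit 1309) (nat_lit 1361891379209) (nat_lit 0) (nat_lit 0),Row.mk (nat_lit 25368) (nat_lit 1122) (nat_lit 17023389422) (nat_lit 1870) (nat_lit 1359174344394) (nat_lit 0) (nat_lit 0),Row.mk (nat_lit 25536) (nat_lit 1683) (nat_lit 21261802719) (nat_lit 2431) (nat_lit 1355780833456) (nat_lit 0) (nat_lit 0),Row.mk (nat_lit 25704) (nat_lit 2244) (nat_lit 26555478680) (nat_lit 2992) (nat_lit 1351542420159) (nat_lit 0) (nat_lit 0),Row.mk (nat_lit 25872) (nat_lit 2805) (nat_lit 33167152253) (nat_lit 3553) (nat_lit 1346248744197) (nat_lit 0) (nat_lit 0),Row.mk (nat_lit 26040) (nat_lit 3366) (nat_lit 41424973046) (nat_lit 4114) (nat_lit 1339637070625)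 (nat_lit 0) (nat_lit 0),Row.mk (nat_lit 26208) (nat_lit 3927) (nat_lit 51738792006) (nat_lit 4675) (nat_lit 1331379249832) (nat_lit 0) (nat_lit 0),Row.mk (nat_lit 26376) (nat_lit 4488) (nat_lit 64620503080) (nat_lit 5236) (nat_lit 1321065430871) (nat_lit 0) (nat_lit 0),Row.mk (nat_lit 26544) (nat_lit 5049) (nat_lit 80709449454) (nat_lit 5797) (nat_lit 1308183719798) (nat_lit 0) (nat_lit 0),Row.mk (nat_lit 26712) (nat_lit 5610) (nat_lit 100804155349) (nat_lit 6358) (nat_lit 1292094773424) (nat_lit 0) (nat_lit 0),Row.mk (nat_lit 26880) (nat_lit 6171) (nat_lit 125901958252) (nat_lit 6919) (nat_lit 1272000067528) (nat_lit 0) (nat_lit 0),Row.mk (nat_lit 27048) (nat_lit 6732) (nat_lit 157248508622) (nat_lit 7480) (nat_lit 1246902264626) (nat_lit 0) (nat_lit 0),Row.mk (nat_lit 27216) (nat_lit 7293) (nat_lit 196399593837) (nat_lit 8041) (nat_lit 1215555714256) (nat_lit 0) (nat_lit 0),Row.mk (nat_lit 27384) (nat_lit 7854) (nat_lit 245298354797)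 (nat_lit 8602) (nat_lit 1176404629041) (nat_lit 0) (nat_lit 0),Row.mk (nat_lit 27552) (nat_lit 8415) (nat_lit 306371727612) (nat_lit 9163) (nat_lit 1127505868081) (nat_lit 0) (nat_lit 0),Row.mk (nat_lit 27720) (nat_lit 8976) (nat_lit 382650896935) (nat_lit 9724) (nat_lit 1066432495266) (nat_lit 0) (nat_lit 0),Row.mk (nat_lit 27888) (nat_lit 9537) (nat_lit 477921739277) (nat_lit 10285) (nat_lit 990153325943) (nat_lit 0) (nat_lit 0),Row.mk (nat_lit 28056) (nat_lit 10098) (nat_lit 596912723066) (nat_lit 10846) (nat_lit 894882483601) (nat_lit 0) (nat_lit 0),Row.mk (nat_lit 28224) (nat_lit 10659) (nat_lit 745529591303) (nat_lit 11407) (nat_lit 775891499812) (nat_lit 0) (nat_lit 0),Row.mk (nat_lit 28392) (nat_lit 11220) (nat_lit 931148474527) (nat_lit 11968) (nat_lit 627274631575) (nat_lit 0) (nat_lit 0),Row.mk (nat_lit 28560) (nat_lit 11781) (nat_lit 1162981981839) (nat_lit 12716) (nat_lit 441655748351) (nat_lit 0) (nat_lit 0),Row.mk (nat_lit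 28728) (nat_lit 12529) (nat_lit 1452536439767) (nat_lit 13464) (nat_lit 209822241038) (nat_lit 0) (nat_lit 0),Row.mk (nat_lit 28896) (nat_lit 12342) (nat_lit 99583615449) (nat_lit 13277) (nat_lit 1634867140225) (nat_lit 0) (nat_lit 0),Row.mk (nat_lit 29064) (nat_lit 13090) (nat_lit 551271410621) (nat_lit 14025) (nat_lit 1273220607429) (nat_lit 0) (nat_lit 0),Row.mk (nat_lit 29232) (nat_lit 13838) (nat_lit 1115418570362) (nat_lit 15147) (nat_lit 821532812257) (nat_lit 0) (nat_lit 0),Row.mk (nat_lit 29400) (nat_lit 14960) (nat_lit 1820024763502) (nat_lit 16456) (nat_lit 257385652516) (nat_lit 0) (nat_lit 0),Row.mk (nat_lit 29568) (nat_lit 14773) (nat_lit 558567666577) (nat_lit 16269) (nat_lit 1694272693750) (nat_lit 0) (nat_lit 0),Row.mk (nat_lit 29736) (nat_lit 16082) (nat_lit 1657711572432) (nat_lit 17765) (nat_lit 814236556300) (nat_lit 0) (nat_lit 0),Row.mk (nat_lit 29904) (nat_lit 15895) (nat_lit 355842406543) (nat_lit 17578) (nat_lit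 2389766039214) (nat_lit 0) (nat_lit 0),Row.mk (nat_lit 30072) (nat_lit 17391) (nat_lit 2070441763656) (nat_lit 19635) (nat_lit 1016961816335) (nat_lit 0) (nat_lit 0),Row.mk (nat_lit 30240) (nat_lit 17204) (nat_lit 871332458759) (nat_lit 19448) (nat_lit 2642964998493) (nat_lit 0) (nat_lit 0),Row.mk (nat_lit 30408) (nat_lit 19261) (nat_lit 3546005847527) (nat_lit 25806) (nat_lit 501471764118) (nat_lit 0) (nat_lit 0),Row.mk (nat_lit 30576) (nat_lit 19074) (nat_lit 2714276403294) (nat_lit 25619) (nat_lit 1999130358856) (nat_lit 0) (nat_lit 0),Row.mk (nat_lit 30744) (nat_lit 18887) (nat_lit 1675466391925) (nat_lit 25432) (nat_lit 3869669814458) (nat_lit 0) (nat_lit 0),Row.mk (nat_lit 30912) (nat_lit 18700) (nat_lit 378017747775) (nat_lit 25245) (nat_lit 6205928469976) (nat_lit 0) (nat_lit 0),Row.mk (nat_lit 31080) (nat_lit 25058) (nat_lit 6886608386799) (nat_lit 31603) (nat_lit 994786475102) (nat_lit 0) (nat_lit 0),Row.mk (nat_lit 31248)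 (nat_lit 24871) (nat_lit 6886608386799) (nat_lit 31416) (nat_lit 2615268532246) (nat_lit 0) (nat_lit 0)],
[Row.mk (nat_lit 25032) (nat_lit 32912) (nat_lit 2175410163) (nat_lit 61897) (nat_lit 1712423946950) (nat_lit 0) (nat_lit 0),Row.mk (nat_lit 25200) (nat_lit 0) (nat_lit 13629878484) (nat_lit 748) (nat_lit 1703686513444) (nat_lit 0) (nat_lit 0),Row.mk (nat_lit 25368) (nat_lit 561) (nat_lit 17023389422) (nat_lit 1309) (nat_lit 1700969478629) (nat_lit 0) (nat_lit 0),Row.mk (nat_lit 25536) (nat_lit 1122) (nat_lit 21261802719) (nat_lit 1870) (nat_lit 1697575967691) (nat_lit 0) (nat_lit 0),Row.mk (nat_lit 25704) (nat_lit 1683) (nat_lit 26555478680) (nat_lit 2431) (nat_lit 1693337554394) (nat_lit 0) (nat_lit 0),Row.mk (nat_lit 25872) (nat_lit 2244) (nat_lit 33167152253) (nat_lit 2992) (nat_lit 1688043878433) (nat_lit 0) (nat_lit 0),Row.mk (nat_lit 26040) (nat_lit 2805) (nat_lit 41424973046) (nat_lit 3553) (nat_lit 1681432204860) (nat_lit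 0) (nat_lit 0),Row.mk (nat_lit 26208) (nat_lit 3366) (nat_lit 51738792006) (nat_lit 4114) (nat_lit 1673174384067) (nat_lit 0) (nat_lit 0),Row.mk (nat_lit 26376) (nat_lit 3927) (nat_lit 64620503080) (nat_lit 4675) (nat_lit 1662860565106) (nat_lit 0) (nat_lit 0),Row.mk (nat_lit 26544) (nat_lit 4488) (nat_lit 80709449454) (nat_lit 5236) (nat_lit 1649978854033) (nat_lit 0) (nat_lit 0),Row.mk (nat_lit 26712) (nat_lit 5049) (nat_lit 100804155349) (nat_lit 5797) (nat_lit 1633889907659) (nat_lit 0) (nat_lit 0),Row.mk (nat_lit 26880) (nat_lit 5610) (nat_lit 125901958252) (nat_lit 6358) (nat_lit 1613795201764) (nat_lit 0) (nat_lit 0),Row.mk (nat_lit 27048) (nat_lit 6171) (nat_lit 157248508622) (nat_lit 6919) (nat_lit 1588697398861) (nat_lit 0) (nat_lit 0),Row.mk (nat_lit 27216) (nat_lit 6732) (nat_lit 196399593837) (nat_lit 7480) (nat_lit 1557350848491) (nat_lit 0) (nat_lit 0),Row.mk (nat_lit 27384) (nat_lit 7293) (nat_lit 245298354797) (nat_lit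 8041) (nat_lit 1518199763276) (nat_lit 0) (nat_lit 0),Row.mk (nat_lit 27552) (nat_lit 7854) (nat_lit 306371727612) (nat_lit 8602) (nat_lit 1469301002316) (nat_lit 0) (nat_lit 0),Row.mk (nat_lit 27720) (nat_lit 8415) (nat_lit 382650896935) (nat_lit 9163) (nat_lit 1408227629501) (nat_lit 0) (nat_lit 0),Row.mk (nat_lit 27888) (nat_lit 8976) (nat_lit 477921739277) (nat_lit 9724) (nat_lit 1331948460178) (nat_lit 0) (nat_lit 0),Row.mk (nat_lit 28056) (nat_lit 9537) (nat_lit 596912723066) (nat_lit 10285) (nat_lit 1236677617836) (nat_lit 0) (nat_lit 0),Row.mk (nat_lit 28224) (nat_lit 10098) (nat_lit 745529591303) (nat_lit 10846) (nat_lit 1117686634047) (nat_lit 0) (nat_lit 0),Row.mk (nat_lit 28392) (nat_lit 10659) (nat_lit 931148474527) (nat_lit 11407) (nat_lit 969069765810) (nat_lit 0) (nat_lit 0),Row.mk (nat_lit 28560) (nat_lit 11220) (nat_lit 1162981981839) (nat_lit 11968) (nat_lit 783450882586) (nat_lit 0) (nat_lit 0),Row.mk (nat_lit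 28728) (nat_lit 11781) (nat_lit 1452536439767) (nat_lit 12716) (nat_lit 551617375273) (nat_lit 0) (nat_lit 0),Row.mk (nat_lit 28896) (nat_lit 12529) (nat_lit 1814182972563) (nat_lit 13464) (nat_lit 262062917346) (nat_lit 0) (nat_lit 0),Row.mk (nat_lit 29064) (nat_lit 12342) (nat_lit 124377533360) (nat_lit 13277) (nat_lit 2041909618924) (nat_lit 0) (nat_lit 0),Row.mk (nat_lit 29232) (nat_lit 13090) (nat_lit 688524693101) (nat_lit 14025) (nat_lit 1590221823753) (nat_lit 0) (nat_lit 0),Row.mk (nat_lit 29400) (nat_lit 13838) (nat_lit 1393130886242) (nat_lit 15147) (nat_lit 1026074664012) (nat_lit 0) (nat_lit 0),Row.mk (nat_lit 29568) (nat_lit 14960) (nat_lit 2273167023691) (nat_lit 16456) (nat_lit 321468470871) (nat_lit 0) (nat_lit 0),Row.mk (nat_lit 29736) (nat_lit 14773) (nat_lit 697637540778) (nat_lit 16269) (nat_lit 2116105722190) (nat_lit 0) (nat_lit 0),Row.mk (nat_lit 29904) (nat_lit 16082) (nat_lit 2070441763656) (nat_lit 17765)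 (nat_lit 1016961816335) (nat_lit 0) (nat_lit 0),Row.mk (nat_lit 30072) (nat_lit 15895) (nat_lit 444438581499) (nat_lit 17578) (nat_lit 2984760132728) (nat_lit 0) (nat_lit 0),Row.mk (nat_lit 30240) (nat_lit 17391) (nat_lit 2585931815873) (nat_lit 19635) (nat_lit 1270160775614) (nat_lit 0) (nat_lit 0),Row.mk (nat_lit 30408) (nat_lit 17204) (nat_lit 1088273221136) (nat_lit 19448) (nat_lit 3300999524745) (nat_lit 0) (nat_lit 0),Row.mk (nat_lit 30576) (nat_lit 19261) (nat_lit 4428875760408) (nat_lit 25806) (nat_lit 626326135977) (nat_lit 0) (nat_lit 0),Row.mk (nat_lit 30744) (nat_lit 19074) (nat_lit 3390065749039) (nat_lit 25619) (nat_lit 2496865591579) (nat_lit 0) (nat_lit 0),Row.mk (nat_lit 30912) (nat_lit 18887) (nat_lit 2092617104889) (nat_lit 25432) (nat_lit 4833124247098) (nat_lit 0) (nat_lit 0),Row.mk (nat_lit 31080) (nat_lit 18700) (nat_lit 472135047745) (nat_lit 25245) (nat_lit 7751054948391) (nat_lit 0) (nat_lit 0),Row.mk (nat_lit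 31248) (nat_lit 25058) (nat_lit 8601207743913) (nat_lit 31603) (nat_lit 1242464309368) (nat_lit 0) (nat_lit 0)],
[Row.mk (nat_lit 25200) (nat_lit 32912) (nat_lit 2717034814) (nat_lit 61897) (nat_lit 2138776199559) (nat_lit 0) (nat_lit 0),Row.mk (nat_lit 25368) (nat_lit 0) (nat_lit 17023389422) (nat_lit 748) (nat_lit 2127863355890) (nat_lit 0) (nat_lit 0),Row.mk (nat_lit 25536) (nat_lit 561) (nat_lit 21261802719) (nat_lit 1309) (nat_lit 2124469844952) (nat_lit 0) (nat_lit 0),Row.mk (nat_lit 25704) (nat_lit 1122) (nat_lit 26555478680) (nat_lit 1870) (nat_lit 2120231431655) (nat_lit 0) (nat_lit 0),Row.mk (nat_lit 25872) (nat_lit 1683) (nat_lit 33167152253) (nat_lit 2431) (nat_lit 2114937755693) (nat_lit 0) (nat_lit 0),Row.mk (nat_lit 26040) (nat_lit 2244) (nat_lit 41424973046) (nat_lit 2992) (nat_lit 2108326082121) (nat_lit 0) (nat_lit 0),Row.mk (nat_lit 26208) (nat_lit 2805) (nat_lit 51738792006) (nat_lit 3553) (nat_lit 2100068261328)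 (nat_lit 0) (nat_lit 0),Row.mk (nat_lit 26376) (nat_lit 3366) (nat_lit 64620503080) (nat_lit 4114) (nat_lit 2089754442367) (nat_lit 0) (nat_lit 0),Row.mk (nat_lit 26544) (nat_lit 3927) (nat_lit 80709449454) (nat_lit 4675) (nat_lit 2076872731294) (nat_lit 0) (nat_lit 0),Row.mk (nat_lit 26712) (nat_lit 4488) (nat_lit 100804155349) (nat_lit 5236) (nat_lit 2060783784919) (nat_lit 0) (nat_lit 0),Row.mk (nat_lit 26880) (nat_lit 5049) (nat_lit 125901958252) (nat_lit 5797) (nat_lit 2040689079024) (nat_lit 0) (nat_lit 0),Row.mk (nat_lit 27048) (nat_lit 5610) (nat_lit 157248508622) (nat_lit 6358) (nat_lit 2015591276122) (nat_lit 0) (nat_lit 0),Row.mk (nat_lit 27216) (nat_lit 6171) (nat_lit 196399593837) (nat_lit 6919) (nat_lit 1984244725751) (nat_lit 0) (nat_lit 0),Row.mk (nat_lit 27384) (nat_lit 6732) (nat_lit 245298354797) (nat_lit 7480) (nat_lit 1945093640537) (nat_lit 0) (nat_lit 0),Row.mk (nat_lit 27552) (nat_lit 7293) (nat_lit 306371727612)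 (nat_lit 8041) (nat_lit 1896194879577) (nat_lit 0) (nat_lit 0),Row.mk (nat_lit 27720) (nat_lit 7854) (nat_lit 382650896935) (nat_lit 8602) (nat_lit 1835121506762) (nat_lit 0) (nat_lit 0),Row.mk (nat_lit 27888) (nat_lit 8415) (nat_lit 477921739277) (nat_lit 9163) (nat_lit 1758842337438) (nat_lit 0) (nat_lit 0),Row.mk (nat_lit 28056) (nat_lit 8976) (nat_lit 596912723066) (nat_lit 9724) (nat_lit 1663571495097) (nat_lit 0) (nat_lit 0),Row.mk (nat_lit 28224) (nat_lit 9537) (nat_lit 745529591303) (nat_lit 10285) (nat_lit 1544580511308) (nat_lit 0) (nat_lit 0),Row.mk (nat_lit 28392) (nat_lit 10098) (nat_lit 931148474527) (nat_lit 10846) (nat_lit 1395963643071) (nat_lit 0) (nat_lit 0),Row.mk (nat_lit 28560) (nat_lit 10659) (nat_lit 1162981981839) (nat_lit 11407) (nat_lit 1210344759847) (nat_lit 0) (nat_lit 0),Row.mk (nat_lit 28728) (nat_lit 11220) (nat_lit 1452536439767) (nat_lit 11968) (nat_lit 978511252534) (nat_lit 0) (nat_lit 0),Row.mk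 (nat_lit 28896) (nat_lit 11781) (nat_lit 1814182972563) (nat_lit 12716) (nat_lit 688956794607) (nat_lit 0) (nat_lit 0),Row.mk (nat_lit 29064) (nat_lit 12529) (nat_lit 2265870767735) (nat_lit 13464) (nat_lit 327310261811) (nat_lit 0) (nat_lit 0),Row.mk (nat_lit 29232) (nat_lit 12342) (nat_lit 155344538708) (nat_lit 13277) (nat_lit 2550295855407) (nat_lit 0) (nat_lit 0),Row.mk (nat_lit 29400) (nat_lit 13090) (nat_lit 859950731848) (nat_lit 14025) (nat_lit 1986148695666) (nat_lit 0) (nat_lit 0),Row.mk (nat_lit 29568) (nat_lit 13838) (nat_lit 1739986869298) (nat_lit 15147) (nat_lit 1281542502526) (nat_lit 0) (nat_lit 0),Row.mk (nat_lit 29736) (nat_lit 14960) (nat_lit 2839130775152) (nat_lit 16456) (nat_lit 401506365076) (nat_lit 0) (nat_lit 0),Row.mk (nat_lit 29904) (nat_lit 14773) (nat_lit 871332458759) (nat_lit 16269) (nat_lit 2642964998493) (nat_lit 0) (nat_lit 0),Row.mk (nat_lit 30072) (nat_lit 16082) (nat_lit 2585931815873) (nat_lit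 17765) (nat_lit 1270160775614) (nat_lit 0) (nat_lit 0),Row.mk (nat_lit 30240) (nat_lit 15895) (nat_lit 555093066742) (nat_lit 17578) (nat_lit 3727893402005) (nat_lit 0) (nat_lit 0),Row.mk (nat_lit 30408) (nat_lit 17391) (nat_lit 3229766455510) (nat_lit 19635) (nat_lit 1586400167631) (nat_lit 0) (nat_lit 0),Row.mk (nat_lit 30576) (nat_lit 17204) (nat_lit 1359226999908) (nat_lit 19448) (nat_lit 4122868773737) (nat_lit 0) (nat_lit 0),Row.mk (nat_lit 30744) (nat_lit 19261) (nat_lit 5531558983413) (nat_lit 25806) (nat_lit 782266234466) (nat_lit 0) (nat_lit 0),Row.mk (nat_lit 30912) (nat_lit 19074) (nat_lit 4234110339264) (nat_lit 25619) (nat_lit 3118524889984) (nat_lit 0) (nat_lit 0),Row.mk (nat_lit 31080) (nat_lit 18887) (nat_lit 2613628282120) (nat_lit 25432) (nat_lit 6036455591277) (nat_lit 0) (nat_lit 0),Row.mk (nat_lit 31248) (nat_lit 18700) (nat_lit 589685284940) (nat_lit 25245) (nat_lit 9680880645601) (nat_lit 0) (nat_lit 0),Row.mk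 (nat_lit 31416) (nat_lit 25058) (nat_lit 10742700978287) (nat_lit 31603) (nat_lit 1551807949433) (nat_lit 0) (nat_lit 0)],
[Row.mk (nat_lit 25368) (nat_lit 32912) (nat_lit 3393510938) (nat_lit 61897) (nat_lit 2671279877830) (nat_lit 0) (nat_lit 0),Row.mk (nat_lit 25536) (nat_lit 0) (nat_lit 21261802719) (nat_lit 748) (nat_lit 2657649999345) (nat_lit 0) (nat_lit 0),Row.mk (nat_lit 25704) (nat_lit 561) (nat_lit 26555478680) (nat_lit 1309) (nat_lit 2653411586048) (nat_lit 0) (nat_lit 0),Row.mk (nat_lit 25872) (nat_lit 1122) (nat_lit 33167152253) (nat_lit 1870) (nat_lit 2648117910087) (nat_lit 0) (nat_lit 0),Row.mk (nat_lit 26040) (nat_lit 1683) (nat_lit 41424973046) (nat_lit 2431) (nat_lit 2641506236514) (nat_lit 0) (nat_lit 0),Row.mk (nat_lit 26208) (nat_lit 2244) (nat_lit 51738792006) (nat_lit 2992) (nat_lit 2633248415721) (nat_lit 0) (nat_lit 0),Row.mk (nat_lit 26376) (nat_lit 2805) (nat_lit 64620503080) (nat_lit 3553) (nat_lit 2622934596761)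 (nat_lit 0) (nat_lit 0),Row.mk (nat_lit 26544) (nat_lit 3366) (nat_lit 80709449454) (nat_lit 4114) (nat_lit 2610052885687) (nat_lit 0) (nat_lit 0),Row.mk (nat_lit 26712) (nat_lit 3927) (nat_lit 100804155349) (nat_lit 4675) (nat_lit 2593963939313) (nat_lit 0) (nat_lit 0),Row.mk (nat_lit 26880) (nat_lit 4488) (nat_lit 125901958252) (nat_lit 5236) (nat_lit 2573869233418) (nat_lit 0) (nat_lit 0),Row.mk (nat_lit 27048) (nat_lit 5049) (nat_lit 157248508622) (nat_lit 5797) (nat_lit 2548771430515) (nat_lit 0) (nat_lit 0),Row.mk (nat_lit 27216) (nat_lit 5610) (nat_lit 196399593837) (nat_lit 6358) (nat_lit 2517424880145) (nat_lit 0) (nat_lit 0),Row.mk (nat_lit 27384) (nat_lit 6171) (nat_lit 245298354797) (nat_lit 6919) (nat_lit 2478273794930) (nat_lit 0) (nat_lit 0),Row.mk (nat_lit 27552) (nat_lit 6732) (nat_lit 306371727612) (nat_lit 7480) (nat_lit 2429375033970) (nat_lit 0) (nat_lit 0),Row.mk (nat_lit 27720) (nat_lit 7293) (nat_lit 382650896935)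 (nat_lit 8041) (nat_lit 2368301661155) (nat_lit 0) (nat_lit 0),Row.mk (nat_lit 27888) (nat_lit 7854) (nat_lit 477921739277) (nat_lit 8602) (nat_lit 2292022491832) (nat_lit 0) (nat_lit 0),Row.mk (nat_lit 28056) (nat_lit 8415) (nat_lit 596912723066) (nat_lit 9163) (nat_lit 2196751649491) (nat_lit 0) (nat_lit 0),Row.mk (nat_lit 28224) (nat_lit 8976) (nat_lit 745529591303) (nat_lit 9724) (nat_lit 2077760665701) (nat_lit 0) (nat_lit 0),Row.mk (nat_lit 28392) (nat_lit 9537) (nat_lit 931148474527) (nat_lit 10285) (nat_lit 1929143797464) (nat_lit 0) (nat_lit 0),Row.mk (nat_lit 28560) (nat_lit 10098) (nat_lit 1162981981839) (nat_lit 10846) (nat_lit 1743524914240) (nat_lit 0) (nat_lit 0),Row.mk (nat_lit 28728) (nat_lit 10659) (nat_lit 1452536439767) (nat_lit 11407) (nat_lit 1511691406928) (nat_lit 0) (nat_lit 0),Row.mk (nat_lit 28896) (nat_lit 11220) (nat_lit 1814182972563) (nat_lit 11968) (nat_lit 1222136949000) (nat_lit 0) (nat_lit 0),Row.mk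 (nat_lit 29064) (nat_lit 11781) (nat_lit 2265870767735) (nat_lit 12716) (nat_lit 860490416204) (nat_lit 0) (nat_lit 0),Row.mk (nat_lit 29232) (nat_lit 12529) (nat_lit 2830017927476) (nat_lit 13464) (nat_lit 408802621033) (nat_lit 0) (nat_lit 0),Row.mk (nat_lit 29400) (nat_lit 12342) (nat_lit 194021581344) (nat_lit 13277) (nat_lit 3185258000563) (nat_lit 0) (nat_lit 0),Row.mk (nat_lit 29568) (nat_lit 13090) (nat_lit 1074057718794) (nat_lit 14025) (nat_lit 2480651807423) (nat_lit 0) (nat_lit 0),Row.mk (nat_lit 29736) (nat_lit 13838) (nat_lit 2173201624649) (nat_lit 15147) (nat_lit 1600615669973) (nat_lit 0) (nat_lit 0),Row.mk (nat_lit 29904) (nat_lit 14960) (nat_lit 3546005847527) (nat_lit 16456) (nat_lit 501471764118) (nat_lit 0) (nat_lit 0),Row.mk (nat_lit 30072) (nat_lit 14773) (nat_lit 1088273221136) (nat_lit 16269) (nat_lit 3300999524745) (nat_lit 0) (nat_lit 0),Row.mk (nat_lit 30240) (nat_lit 16082) (nat_lit 3229766455510) (nat_lit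 17765) (nat_lit 1586400167631) (nat_lit 0) (nat_lit 0),Row.mk (nat_lit 30408) (nat_lit 15895) (nat_lit 693297849404) (nat_lit 17578) (nat_lit 4656048928131) (nat_lit 0) (nat_lit 0),Row.mk (nat_lit 30576) (nat_lit 17391) (nat_lit 4033900388676) (nat_lit 19635) (nat_lit 1981375539363) (nat_lit 0) (nat_lit 0),Row.mk (nat_lit 30744) (nat_lit 17204) (nat_lit 1697641733158) (nat_lit 19448) (nat_lit 5149363639115) (nat_lit 0) (nat_lit 0),Row.mk (nat_lit 30912) (nat_lit 19261) (nat_lit 6908783728032) (nat_lit 25806) (nat_lit 977031655609) (nat_lit 0) (nat_lit 0),Row.mk (nat_lit 31080) (nat_lit 19074) (nat_lit 5288301670888) (nat_lit 25619) (nat_lit 3894962356903) (nat_lit 0) (nat_lit 0),Row.mk (nat_lit 31248) (nat_lit 18887) (nat_lit 3264358673708) (nat_lit 25432) (nat_lit 7539387411227) (nat_lit 0) (nat_lit 0),Row.mk (nat_lit 31416) (nat_lit 18700) (nat_lit 736502695437) (nat_lit 25245) (nat_lit 12091186386677) (nat_lit 0) (nat_lit 0)],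
[Row.mk (nat_lit 25536) (nat_lit 32912) (nat_lit 4238413297) (nat_lit 61897) (nat_lit 3336364125974) (nat_lit 0) (nat_lit 0),Row.mk (nat_lit 25704) (nat_lit 0) (nat_lit 26555478680) (nat_lit 748) (nat_lit 3319340736552) (nat_lit 0) (nat_lit 0),Row.mk (nat_lit 25872) (nat_lit 561) (nat_lit 33167152253) (nat_lit 1309) (nat_lit 3314047060590) (nat_lit 0) (nat_lit 0),Row.mk (nat_lit 26040) (nat_lit 1122) (nat_lit 41424973046) (nat_lit 1870) (nat_lit 3307435387018) (nat_lit 0) (nat_lit 0),Row.mk (nat_lit 26208) (nat_lit 1683) (nat_lit 51738792006) (nat_lit 2431) (nat_lit 3299177566225) (nat_lit 0) (nat_lit 0),Row.mk (nat_lit 26376) (nat_lit 2244) (nat_lit 64620503080) (nat_lit 2992) (nat_lit 3288863747264) (nat_lit 0) (nat_lit 0),Row.mk (nat_lit 26544) (nat_lit 2805) (nat_lit 80709449454) (nat_lit 3553) (nat_lit 3275982036191) (nat_lit 0) (nat_lit 0),Row.mk (nat_lit 26712) (nat_lit 3366) (nat_lit 100804155349) (nat_lit 4114) (nat_lit 3259893089816)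 (nat_lit 0) (nat_lit 0),Row.mk (nat_lit 26880) (nat_lit 3927) (nat_lit 125901958252) (nat_lit 4675) (nat_lit 3239798383921) (nat_lit 0) (nat_lit 0),Row.mk (nat_lit 27048) (nat_lit 4488) (nat_lit 157248508622) (nat_lit 5236) (nat_lit 3214700581019) (nat_lit 0) (nat_lit 0),Row.mk (nat_lit 27216) (nat_lit 5049) (nat_lit 196399593837) (nat_lit 5797) (nat_lit 3183354030648) (nat_lit 0) (nat_lit 0),Row.mk (nat_lit 27384) (nat_lit 5610) (nat_lit 245298354797) (nat_lit 6358) (nat_lit 3144202945434) (nat_lit 0) (nat_lit 0),Row.mk (nat_lit 27552) (nat_lit 6171) (nat_lit 306371727612) (nat_lit 6919) (nat_lit 3095304184474) (nat_lit 0) (nat_lit 0),Row.mk (nat_lit 27720) (nat_lit 6732) (nat_lit 382650896935) (nat_lit 7480) (nat_lit 3034230811659) (nat_lit 0) (nat_lit 0),Row.mk (nat_lit 27888) (nat_lit 7293) (nat_lit 477921739277) (nat_lit 8041) (nat_lit 2957951642335) (nat_lit 0) (nat_lit 0),Row.mk (nat_lit 28056) (nat_lit 7854) (nat_lit 596912723066)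 (nat_lit 8602) (nat_lit 2862680799994) (nat_lit 0) (nat_lit 0),Row.mk (nat_lit 28224) (nat_lit 8415) (nat_lit 745529591303) (nat_lit 9163) (nat_lit 2743689816205) (nat_lit 0) (nat_lit 0),Row.mk (nat_lit 28392) (nat_lit 8976) (nat_lit 931148474527) (nat_lit 9724) (nat_lit 2595072947968) (nat_lit 0) (nat_lit 0),Row.mk (nat_lit 28560) (nat_lit 9537) (nat_lit 1162981981839) (nat_lit 10285) (nat_lit 2409454064744) (nat_lit 0) (nat_lit 0),Row.mk (nat_lit 28728) (nat_lit 10098) (nat_lit 1452536439767) (nat_lit 10846) (nat_lit 2177620557431) (nat_lit 0) (nat_lit 0),Row.mk (nat_lit 28896) (nat_lit 10659) (nat_lit 1814182972563) (nat_lit 11407) (nat_lit 1888066099504) (nat_lit 0) (nat_lit 0),Row.mk (nat_lit 29064) (nat_lit 11220) (nat_lit 2265870767735) (nat_lit 11968) (nat_lit 1526419566708) (nat_lit 0) (nat_lit 0),Row.mk (nat_lit 29232) (nat_lit 11781) (nat_lit 2830017927476) (nat_lit 12716) (nat_lit 1074731771536) (nat_lit 0) (nat_lit 0),Row.mk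 (nat_lit 29400) (nat_lit 12529) (nat_lit 3534624120616) (nat_lit 13464) (nat_lit 510584611795) (nat_lit 0) (nat_lit 0),Row.mk (nat_lit 29568) (nat_lit 12342) (nat_lit 242328274560) (nat_lit 13277) (nat_lit 3978310402160) (nat_lit 0) (nat_lit 0),Row.mk (nat_lit 29736) (nat_lit 13090) (nat_lit 1341472180415) (nat_lit 14025) (nat_lit 3098274264710) (nat_lit 0) (nat_lit 0),Row.mk (nat_lit 29904) (nat_lit 13838) (nat_lit 2714276403294) (nat_lit 15147) (nat_lit 1999130358856) (nat_lit 0) (nat_lit 0),Row.mk (nat_lit 30072) (nat_lit 14960) (nat_lit 4428875760408) (nat_lit 16456) (nat_lit 626326135977) (nat_lit 0) (nat_lit 0),Row.mk (nat_lit 30240) (nat_lit 14773) (nat_lit 1359226999908) (nat_lit 16269) (nat_lit 4122868773737) (nat_lit 0) (nat_lit 0),Row.mk (nat_lit 30408) (nat_lit 16082) (nat_lit 4033900388676) (nat_lit 17765) (nat_lit 1981375539363) (nat_lit 0) (nat_lit 0),Row.mk (nat_lit 30576) (nat_lit 15895) (nat_lit 865912288924) (nat_lit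 17578) (nat_lit 5815292789618) (nat_lit 0) (nat_lit 0),Row.mk (nat_lit 30744) (nat_lit 17391) (nat_lit 5038244272429) (nat_lit 19635) (nat_lit 2474690250347) (nat_lit 0) (nat_lit 0),Row.mk (nat_lit 30912) (nat_lit 17204) (nat_lit 2120313571136) (nat_lit 19448) (nat_lit 6431430963009) (nat_lit 0) (nat_lit 0),Row.mk (nat_lit 31080) (nat_lit 19261) (nat_lit 8628904210159) (nat_lit 25806) (nat_lit 1220288968135) (nat_lit 0) (nat_lit 0),Row.mk (nat_lit 31248) (nat_lit 19074) (nat_lit 6604961212979) (nat_lit 25619) (nat_lit 4864714022459) (nat_lit 0) (nat_lit 0),Row.mk (nat_lit 31416) (nat_lit 18887) (nat_lit 4077105234709) (nat_lit 25432) (nat_lit 9416512997909) (nat_lit 0) (nat_lit 0)],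
[Row.mk (nat_lit 25704) (nat_lit 32912) (nat_lit 5293675961) (nat_lit 61897) (nat_lit 4167038307543) (nat_lit 0) (nat_lit 0),Row.mk (nat_lit 25872) (nat_lit 0) (nat_lit 33167152253) (nat_lit 748) (nat_lit 4145776504824) (nat_lit 0) (nat_lit 0),Row.mk (nat_lit 26040) (nat_lit 561) (nat_lit 41424973046) (nat_lit 1309) (nat_lit 4139164831251) (nat_lit 0) (nat_lit 0),Row.mk (nat_lit 26208) (nat_lit 1122) (nat_lit 51738792006) (nat_lit 1870) (nat_lit 4130907010458) (nat_lit 0) (nat_lit 0),Row.mk (nat_lit 26376) (nat_lit 1683) (nat_lit 64620503080) (nat_lit 2431) (nat_lit 4120593191498) (nat_lit 0) (nat_lit 0),Row.mk (nat_lit 26544) (nat_lit 2244) (nat_lit 80709449454) (nat_lit 2992) (nat_lit 4107711480425) (nat_lit 0) (nat_lit 0),Row.mk (nat_lit 26712) (nat_lit 2805) (nat_lit 100804155349) (nat_lit 3553) (nat_lit 4091622534050) (nat_lit 0) (nat_lit 0),Row.mk (nat_lit 26880) (nat_lit 3366) (nat_lit 125901958252) (nat_lit 4114) (nat_lit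 4071527828155) (nat_lit 0) (nat_lit 0),Row.mk (nat_lit 27048) (nat_lit 3927) (nat_lit 157248508622) (nat_lit 4675) (nat_lit 4046430025253) (nat_lit 0) (nat_lit 0),Row.mk (nat_lit 27216) (nat_lit 4488) (nat_lit 196399593837) (nat_lit 5236) (nat_lit 4015083474882) (nat_lit 0) (nat_lit 0),Row.mk (nat_lit 27384) (nat_lit 5049) (nat_lit 245298354797) (nat_lit 5797) (nat_lit 3975932389667) (nat_lit 0) (nat_lit 0),Row.mk (nat_lit 27552) (nat_lit 5610) (nat_lit 306371727612) (nat_lit 6358) (nat_lit 3927033628707) (nat_lit 0) (nat_lit 0),Row.mk (nat_lit 27720) (nat_lit 6171) (nat_lit 382650896935) (nat_lit 6919) (nat_lit 3865960255893) (nat_lit 0) (nat_lit 0),Row.mk (nat_lit 27888) (nat_lit 6732) (nat_lit 477921739277) (nat_lit 7480) (nat_lit 3789681086569) (nat_lit 0) (nat_lit 0),Row.mk (nat_lit 28056) (nat_lit 7293) (nat_lit 596912723066) (nat_lit 8041) (nat_lit 3694410244228) (nat_lit 0) (nat_lit 0),Row.mk (nat_lit 28224) (nat_lit 7854)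 (nat_lit 745529591303) (nat_lit 8602) (nat_lit 3575419260439) (nat_lit 0) (nat_lit 0),Row.mk (nat_lit 28392) (nat_lit 8415) (nat_lit 931148474527) (nat_lit 9163) (nat_lit 3426802392201) (nat_lit 0) (nat_lit 0),Row.mk (nat_lit 28560) (nat_lit 8976) (nat_lit 1162981981839) (nat_lit 9724) (nat_lit 3241183508978) (nat_lit 0) (nat_lit 0),Row.mk (nat_lit 28728) (nat_lit 9537) (nat_lit 1452536439767) (nat_lit 10285) (nat_lit 3009350001665) (nat_lit 0) (nat_lit 0),Row.mk (nat_lit 28896) (nat_lit 10098) (nat_lit 1814182972563) (nat_lit 10846) (nat_lit 2719795543737) (nat_lit 0) (nat_lit 0),Row.mk (nat_lit 29064) (nat_lit 10659) (nat_lit 2265870767735) (nat_lit 11407) (nat_lit 2358149010941) (nat_lit 0) (nat_lit 0),Row.mk (nat_lit 29232) (nat_lit 11220) (nat_lit 2830017927476) (nat_lit 11968) (nat_lit 1906461215770) (nat_lit 0) (nat_lit 0),Row.mk (nat_lit 29400) (nat_lit 11781) (nat_lit 3534624120616) (nat_lit 12716) (nat_lit 1342314056029)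 (nat_lit 0) (nat_lit 0),Row.mk (nat_lit 29568) (nat_lit 12529) (nat_lit 4414660258066) (nat_lit 13464) (nat_lit 637707862888) (nat_lit 0) (nat_lit 0),Row.mk (nat_lit 29736) (nat_lit 12342) (nat_lit 302662169046) (nat_lit 13277) (nat_lit 4968813720313) (nat_lit 0) (nat_lit 0),Row.mk (nat_lit 29904) (nat_lit 13090) (nat_lit 1675466391925) (nat_lit 14025) (nat_lit 3869669814458) (nat_lit 0) (nat_lit 0),Row.mk (nat_lit 30072) (nat_lit 13838) (nat_lit 3390065749039) (nat_lit 15147) (nat_lit 2496865591579) (nat_lit 0) (nat_lit 0),Row.mk (nat_lit 30240) (nat_lit 14960) (nat_lit 5531558983413) (nat_lit 16456) (nat_lit 782266234466) (nat_lit 0) (nat_lit 0),Row.mk (nat_lit 30408) (nat_lit 14773) (nat_lit 1697641733158) (nat_lit 16269) (nat_lit 5149363639115) (nat_lit 0) (nat_lit 0),Row.mk (nat_lit 30576) (nat_lit 16082) (nat_lit 5038244272429) (nat_lit 17765) (nat_lit 2474690250347) (nat_lit 0) (nat_lit 0),Row.mk (nat_lit 30744) (nat_lit 15895)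 (nat_lit 1081503559767) (nat_lit 17578) (nat_lit 7263160407243) (nat_lit 0) (nat_lit 0),Row.mk (nat_lit 30912) (nat_lit 17391) (nat_lit 6292645554641) (nat_lit 19635) (nat_lit 3090828423737) (nat_lit 0) (nat_lit 0),Row.mk (nat_lit 31080) (nat_lit 17204) (nat_lit 2648220500317) (nat_lit 19448) (nat_lit 8032702122211) (nat_lit 0) (nat_lit 0),Row.mk (nat_lit 31248) (nat_lit 19261) (nat_lit 10777293196485) (nat_lit 25806) (nat_lit 1524111483187) (nat_lit 0) (nat_lit 0),Row.mk (nat_lit 31416) (nat_lit 19074) (nat_lit 8249437218214) (nat_lit 25619) (nat_lit 6075910458638) (nat_lit 0) (nat_lit 0),Row.mk (nat_lit 31584) (nat_lit 18887) (nat_lit 5092206082859) (nat_lit 25432) (nat_lit 11760997572264) (nat_lit 0) (nat_lit 0)],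
[Row.mk (nat_lit 25872) (nat_lit 32912) (nat_lit 6611673572) (nat_lit 61897) (nat_lit 5204530321301) (nat_lit 0) (nat_lit 0),Row.mk (nat_lit 26040) (nat_lit 0) (nat_lit 41424973046) (nat_lit 748) (nat_lit 5177974842620) (nat_lit 0) (nat_lit 0),Row.mk (nat_lit 26208) (nat_lit 561) (nat_lit 51738792006) (nat_lit 1309) (nat_lit 5169717021827) (nat_lit 0) (nat_lit 0),Row.mk (nat_lit 26376) (nat_lit 1122) (nat_lit 64620503080) (nat_lit 1870) (nat_lit 5159403202867) (nat_lit 0) (nat_lit 0),Row.mk (nat_lit 26544) (nat_lit 1683) (nat_lit 80709449454) (nat_lit 2431) (nat_lit 5146521491793) (nat_lit 0) (nat_lit 0),Row.mk (nat_lit 26712) (nat_lit 2244) (nat_lit 100804155349) (nat_lit 2992) (nat_lit 5130432545419) (nat_lit 0) (nat_lit 0),Row.mk (nat_lit 26880) (nat_lit 2805) (nat_lit 125901958252) (nat_lit 3553) (nat_lit 5110337839524) (nat_lit 0) (nat_lit 0),Row.mk (nat_lit 27048) (nat_lit 3366) (nat_lit 157248508622) (nat_lit 4114) (nat_lit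 5085240036621) (nat_lit 0) (nat_lit 0),Row.mk (nat_lit 27216) (nat_lit 3927) (nat_lit 196399593837) (nat_lit 4675) (nat_lit 5053893486251) (nat_lit 0) (nat_lit 0),Row.mk (nat_lit 27384) (nat_lit 4488) (nat_lit 245298354797) (nat_lit 5236) (nat_lit 5014742401036) (nat_lit 0) (nat_lit 0),Row.mk (nat_lit 27552) (nat_lit 5049) (nat_lit 306371727612) (nat_lit 5797) (nat_lit 4965843640076) (nat_lit 0) (nat_lit 0),Row.mk (nat_lit 27720) (nat_lit 5610) (nat_lit 382650896935) (nat_lit 6358) (nat_lit 4904770267261) (nat_lit 0) (nat_lit 0),Row.mk (nat_lit 27888) (nat_lit 6171) (nat_lit 477921739277) (nat_lit 6919) (nat_lit 4828491097938) (nat_lit 0) (nat_lit 0),Row.mk (nat_lit 28056) (nat_lit 6732) (nat_lit 596912723066) (nat_lit 7480) (nat_lit 4733220255597) (nat_lit 0) (nat_lit 0),Row.mk (nat_lit 28224) (nat_lit 7293) (nat_lit 745529591303) (nat_lit 8041) (nat_lit 4614229271808) (nat_lit 0) (nat_lit 0),Row.mk (nat_lit 28392) (nat_lit 7854)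 (nat_lit 931148474527) (nat_lit 8602) (nat_lit 4465612403570) (nat_lit 0) (nat_lit 0),Row.mk (nat_lit 28560) (nat_lit 8415) (nat_lit 1162981981839) (nat_lit 9163) (nat_lit 4279993520346) (nat_lit 0) (nat_lit 0),Row.mk (nat_lit 28728) (nat_lit 8976) (nat_lit 1452536439767) (nat_lit 9724) (nat_lit 4048160013034) (nat_lit 0) (nat_lit 0),Row.mk (nat_lit 28896) (nat_lit 9537) (nat_lit 1814182972563) (nat_lit 10285) (nat_lit 3758605555106) (nat_lit 0) (nat_lit 0),Row.mk (nat_lit 29064) (nat_lit 10098) (nat_lit 2265870767735) (nat_lit 10846) (nat_lit 3396959022310) (nat_lit 0) (nat_lit 0),Row.mk (nat_lit 29232) (nat_lit 10659) (nat_lit 2830017927476) (nat_lit 11407) (nat_lit 2945271227139) (nat_lit 0) (nat_lit 0),Row.mk (nat_lit 29400) (nat_lit 11220) (nat_lit 3534624120616) (nat_lit 11968) (nat_lit 2381124067398) (nat_lit 0) (nat_lit 0),Row.mk (nat_lit 29568) (nat_lit 11781) (nat_lit 4414660258066) (nat_lit 12716) (nat_lit 1676517874257)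 (nat_lit 0) (nat_lit 0),Row.mk (nat_lit 29736) (nat_lit 12529) (nat_lit 5513804163920) (nat_lit 13464) (nat_lit 796481736807) (nat_lit 0) (nat_lit 0),Row.mk (nat_lit 29904) (nat_lit 12342) (nat_lit 378017747775) (nat_lit 13277) (nat_lit 6205928469976) (nat_lit 0) (nat_lit 0),Row.mk (nat_lit 30072) (nat_lit 13090) (nat_lit 2092617104889) (nat_lit 14025) (nat_lit 4833124247098) (nat_lit 0) (nat_lit 0),Row.mk (nat_lit 30240) (nat_lit 13838) (nat_lit 4234110339264) (nat_lit 15147) (nat_lit 3118524889984) (nat_lit 0) (nat_lit 0),Row.mk (nat_lit 30408) (nat_lit 14960) (nat_lit 6908783728032) (nat_lit 16456) (nat_lit 977031655609) (nat_lit 0) (nat_lit 0),Row.mk (nat_lit 30576) (nat_lit 14773) (nat_lit 2120313571136) (nat_lit 16269) (nat_lit 6431430963009) (nat_lit 0) (nat_lit 0),Row.mk (nat_lit 30744) (nat_lit 16082) (nat_lit 6292645554641) (nat_lit 17765) (nat_lit 3090828423737) (nat_lit 0) (nat_lit 0),Row.mk (nat_lit 30912) (nat_lit 15895)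 (nat_lit 1350771856168) (nat_lit 17578) (nat_lit 9071512133579) (nat_lit 0) (nat_lit 0),Row.mk (nat_lit 31080) (nat_lit 17391) (nat_lit 7859362495191) (nat_lit 19635) (nat_lit 3860370138705) (nat_lit 0) (nat_lit 0),Row.mk (nat_lit 31248) (nat_lit 17204) (nat_lit 3307563519741) (nat_lit 19448) (nat_lit 10032651171300) (nat_lit 0) (nat_lit 0),Row.mk (nat_lit 31416) (nat_lit 19261) (nat_lit 13460579213088) (nat_lit 25806) (nat_lit 1903578475132) (nat_lit 0) (nat_lit 0),Row.mk (nat_lit 31584) (nat_lit 19074) (nat_lit 10303348077733) (nat_lit 25619) (nat_lit 7588665588758) (nat_lit 0) (nat_lit 0)],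
[Row.mk (nat_lit 26208) (nat_lit 0) (nat_lit 51738792006) (nat_lit 748) (nat_lit 6467165665977) (nat_lit 0) (nat_lit 0),Row.mk (nat_lit 26376) (nat_lit 561) (nat_lit 64620503080) (nat_lit 1309) (nat_lit 6456851847016) (nat_lit 0) (nat_lit 0),Row.mk (nat_lit 26544) (nat_lit 1122) (nat_lit 80709449454) (nat_lit 1870) (nat_lit 6443970135943) (nat_lit 0) (nat_lit 0),Row.mk (nat_lit 26712) (nat_lit 1683) (nat_lit 100804155349) (nat_lit 2431) (nat_lit 6427881189568) (nat_lit 0) (nat_lit 0),Row.mk (nat_lit 26880) (nat_lit 2244) (nat_lit 125901958252) (nat_lit 2992) (nat_lit 6407786483673) (nat_lit 0) (nat_lit 0),Row.mk (nat_lit 27048) (nat_lit 2805) (nat_lit 157248508622) (nat_lit 3553) (nat_lit 6382688680771) (nat_lit 0) (nat_lit 0),Row.mk (nat_lit 27216) (nat_lit 3366) (nat_lit 196399593837) (nat_lit 4114) (nat_lit 6351342130400) (nat_lit 0) (nat_lit 0),Row.mk (nat_lit 27384) (nat_lit 3927) (nat_lit 245298354797) (nat_lit 4675) (nat_lit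 6312191045186) (nat_lit 0) (nat_lit 0),Row.mk (nat_lit 27552) (nat_lit 4488) (nat_lit 306371727612) (nat_lit 5236) (nat_lit 6263292284226) (nat_lit 0) (nat_lit 0),Row.mk (nat_lit 27720) (nat_lit 5049) (nat_lit 382650896935) (nat_lit 5797) (nat_lit 6202218911411) (nat_lit 0) (nat_lit 0),Row.mk (nat_lit 27888) (nat_lit 5610) (nat_lit 477921739277) (nat_lit 6358) (nat_lit 6125939742087) (nat_lit 0) (nat_lit 0),Row.mk (nat_lit 28056) (nat_lit 6171) (nat_lit 596912723066) (nat_lit 6919) (nat_lit 6030668899746) (nat_lit 0) (nat_lit 0),Row.mk (nat_lit 28224) (nat_lit 6732) (nat_lit 745529591303) (nat_lit 7480) (nat_lit 5911677915957) (nat_lit 0) (nat_lit 0),Row.mk (nat_lit 28392) (nat_lit 7293) (nat_lit 931148474527) (nat_lit 8041) (nat_lit 5763061047720) (nat_lit 0) (nat_lit 0),Row.mk (nat_lit 28560) (nat_lit 7854) (nat_lit 1162981981839) (nat_lit 8602) (nat_lit 5577442164496) (nat_lit 0) (nat_lit 0),Row.mk (nat_lit 28728) (nat_lit 8415)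 (nat_lit 1452536439767) (nat_lit 9163) (nat_lit 5345608657183) (nat_lit 0) (nat_lit 0),Row.mk (nat_lit 28896) (nat_lit 8976) (nat_lit 1814182972563) (nat_lit 9724) (nat_lit 5056054199256) (nat_lit 0) (nat_lit 0),Row.mk (nat_lit 29064) (nat_lit 9537) (nat_lit 2265870767735) (nat_lit 10285) (nat_lit 4694407666460) (nat_lit 0) (nat_lit 0),Row.mk (nat_lit 29232) (nat_lit 10098) (nat_lit 2830017927476) (nat_lit 10846) (nat_lit 4242719871288) (nat_lit 0) (nat_lit 0),Row.mk (nat_lit 29400) (nat_lit 10659) (nat_lit 3534624120616) (nat_lit 11407) (nat_lit 3678572711547) (nat_lit 0) (nat_lit 0),Row.mk (nat_lit 29568) (nat_lit 11220) (nat_lit 4414660258066) (nat_lit 11968) (nat_lit 2973966518407) (nat_lit 0) (nat_lit 0),Row.mk (nat_lit 29736) (nat_lit 11781) (nat_lit 5513804163920) (nat_lit 12716) (nat_lit 2093930380957) (nat_lit 0) (nat_lit 0),Row.mk (nat_lit 29904) (nat_lit 12529) (nat_lit 6886608386799) (nat_lit 13464) (nat_lit 994786475102)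 (nat_lit 0) (nat_lit 0),Row.mk (nat_lit 30072) (nat_lit 12342) (nat_lit 472135047745) (nat_lit 13277) (nat_lit 7751054948391) (nat_lit 0) (nat_lit 0),Row.mk (nat_lit 30240) (nat_lit 13090) (nat_lit 2613628282120) (nat_lit 14025) (nat_lit 6036455591277) (nat_lit 0) (nat_lit 0),Row.mk (nat_lit 30408) (nat_lit 13838) (nat_lit 5288301670888) (nat_lit 15147) (nat_lit 3894962356903) (nat_lit 0) (nat_lit 0),Row.mk (nat_lit 30576) (nat_lit 14960) (nat_lit 8628904210159) (nat_lit 16456) (nat_lit 1220288968135) (nat_lit 0) (nat_lit 0),Row.mk (nat_lit 30744) (nat_lit 14773) (nat_lit 2648220500317) (nat_lit 16269) (nat_lit 8032702122211) (nat_lit 0) (nat_lit 0),Row.mk (nat_lit 30912) (nat_lit 16082) (nat_lit 7859362495191) (nat_lit 17765) (nat_lit 3860370138705) (nat_lit 0) (nat_lit 0),Row.mk (nat_lit 31080) (nat_lit 15895) (nat_lit 1687081462596) (nat_lit 17578) (nat_lit 11330099815449) (nat_lit 0) (nat_lit 0),Row.mk (nat_lit 31248) (nat_lit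 17391) (nat_lit 9816154158764) (nat_lit 19635) (nat_lit 4821509176426) (nat_lit 0) (nat_lit 0),Row.mk (nat_lit 31416) (nat_lit 17204) (nat_lit 4131067045138) (nat_lit 19448) (nat_lit 12530539287232) (nat_lit 0) (nat_lit 0),Row.mk (nat_lit 31584) (nat_lit 19261) (nat_lit 16811938716756) (nat_lit 25806) (nat_lit 2377523593884) (nat_lit 0) (nat_lit 0),Row.mk (nat_lit 31752) (nat_lit 19074) (nat_lit 12868633193127) (nat_lit 25619) (nat_lit 9478060252869) (nat_lit 0) (nat_lit 0)],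
[Row.mk (nat_lit 29232) (nat_lit 9537) (nat_lit 2830017927476) (nat_lit 10285) (nat_lit 5863201928432) (nat_lit 0) (nat_lit 0),Row.mk (nat_lit 29400) (nat_lit 10098) (nat_lit 3534624120616) (nat_lit 10846) (nat_lit 5299054768691) (nat_lit 0) (nat_lit 0),Row.mk (nat_lit 29568) (nat_lit 10659) (nat_lit 4414660258066) (nat_lit 11407) (nat_lit 4594448575551) (nat_lit 0) (nat_lit 0),Row.mk (nat_lit 29736) (nat_lit 11220) (nat_lit 5513804163920) (nat_lit 11968) (nat_lit 3714412438101) (nat_lit 0) (nat_lit 0),Row.mk (nat_lit 29904) (nat_lit 11781) (nat_lit 6886608386799) (nat_lit 12716) (nat_lit 2615268532246) (nat_lit 0) (nat_lit 0),Row.mk (nat_lit 30072) (nat_lit 12529) (nat_lit 8601207743913) (nat_lit 13464) (nat_lit 1242464309368) (nat_lit 0) (nat_lit 0),Row.mk (nat_lit 30240) (nat_lit 12342) (nat_lit 589685284940) (nat_lit 13277) (nat_lit 9680880645601) (nat_lit 0) (nat_lit 0),Row.mk (nat_lit 30408) (nat_lit 13090) (nat_lit 3264358673708)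 (nat_lit 14025) (nat_lit 7539387411227) (nat_lit 0) (nat_lit 0),Row.mk (nat_lit 30576) (nat_lit 13838) (nat_lit 6604961212979) (nat_lit 15147) (nat_lit 4864714022459) (nat_lit 0) (nat_lit 0),Row.mk (nat_lit 30744) (nat_lit 14960) (nat_lit 10777293196485) (nat_lit 16456) (nat_lit 1524111483187) (nat_lit 0) (nat_lit 0),Row.mk (nat_lit 30912) (nat_lit 14773) (nat_lit 3307563519741) (nat_lit 16269) (nat_lit 10032651171300) (nat_lit 0) (nat_lit 0),Row.mk (nat_lit 31080) (nat_lit 16082) (nat_lit 9816154158764) (nat_lit 17765) (nat_lit 4821509176426) (nat_lit 0) (nat_lit 0),Row.mk (nat_lit 31248) (nat_lit 15895) (nat_lit 2107124047959) (nat_lit 17578) (nat_lit 14151021344376) (nat_lit 0) (nat_lit 0),Row.mk (nat_lit 31416) (nat_lit 17391) (nat_lit 12260139741306) (nat_lit 19635) (nat_lit 6021948648208) (nat_lit 0) (nat_lit 0),Row.mk (nat_lit 31584) (nat_lit 17204) (nat_lit 5159603082321) (nat_lit 19448) (nat_lit 15650341285464) (nat_lit 0)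 (nat_lit 0),Row.mk (nat_lit 31752) (nat_lit 19261) (nat_lit 20997705889294) (nat_lit 25806) (nat_lit 2969469613846) (nat_lit 0) (nat_lit 0)],
[Row.mk (nat_lit 30240) (nat_lit 12529) (nat_lit 10742700978287) (nat_lit 13464) (nat_lit 1551807949433) (nat_lit 0) (nat_lit 0),Row.mk (nat_lit 30408) (nat_lit 12342) (nat_lit 736502695437) (nat_lit 13277) (nat_lit 12091186386677) (nat_lit 0) (nat_lit 0),Row.mk (nat_lit 30576) (nat_lit 13090) (nat_lit 4077105234709) (nat_lit 14025) (nat_lit 9416512997909) (nat_lit 0) (nat_lit 0),Row.mk (nat_lit 30744) (nat_lit 13838) (nat_lit 8249437218214) (nat_lit 15147) (nat_lit 6075910458638) (nat_lit 0) (nat_lit 0),Row.mk (nat_lit 30912) (nat_lit 14960) (nat_lit 13460579213088) (nat_lit 16456) (nat_lit 1903578475132) (nat_lit 0) (nat_lit 0),Row.mk (nat_lit 31080) (nat_lit 14773) (nat_lit 4131067045138) (nat_lit 16269) (nat_lit 12530539287232) (nat_lit 0) (nat_lit 0),Row.mk (nat_lit 31248) (nat_lit 16082)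 (nat_lit 12260139741306) (nat_lit 17765) (nat_lit 6021948648208) (nat_lit 0) (nat_lit 0),Row.mk (nat_lit 31416) (nat_lit 15895) (nat_lit 2631747104050) (nat_lit 17578) (nat_lit 17674284282643) (nat_lit 0) (nat_lit 0),Row.mk (nat_lit 31584) (nat_lit 17391) (nat_lit 15312618775668) (nat_lit 19635) (nat_lit 7521268589296) (nat_lit 0) (nat_lit 0),Row.mk (nat_lit 31752) (nat_lit 17204) (nat_lit 6444219780560) (nat_lit 19448) (nat_lit 19546898719760) (nat_lit 0) (nat_lit 0),Row.mk (nat_lit 31920) (nat_lit 19261) (nat_lit 26225628111162) (nat_lit 25806) (nat_lit 3708795912787) (nat_lit 0) (nat_lit 0)],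
[Row.mk (nat_lit 30744) (nat_lit 13090) (nat_lit 5092206082859) (nat_lit 14025) (nat_lit 11760997572264) (nat_lit 0) (nat_lit 0),Row.mk (nat_lit 30912) (nat_lit 13838) (nat_lit 10303348077733) (nat_lit 15147) (nat_lit 7588665588758) (nat_lit 0) (nat_lit 0),Row.mk (nat_lit 31080) (nat_lit 14960) (nat_lit 16811938716756) (nat_lit 16456) (nat_lit 2377523593884) (nat_lit 0) (nat_lit 0),Row.mk (nat_lit 31248) (nat_lit 14773) (nat_lit 5159603082321) (nat_lit 16269) (nat_lit 15650341285464) (nat_lit 0) (nat_lit 0),Row.mk (nat_lit 31416) (nat_lit 16082) (nat_lit 15312618775668) (nat_lit 17765) (nat_lit 7521268589296) (nat_lit 0) (nat_lit 0),Row.mk (nat_lit 31584) (nat_lit 15895) (nat_lit 3286988645205) (nat_lit 17578) (nat_lit 22074754698031) (nat_lit 0) (nat_lit 0),Row.mk (nat_lit 31752) (nat_lit 17391) (nat_lit 19125091452178) (nat_lit 19635) (nat_lit 9393883026413) (nat_lit 0) (nat_lit 0),Row.mk (nat_lit 31920) (nat_lit 17204) (nat_lit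 8048675046816) (nat_lit 19448) (nat_lit 24413604955403) (nat_lit 0) (nat_lit 0)],
[Row.mk (nat_lit 31080) (nat_lit 13838) (nat_lit 12868633193127) (nat_lit 15147) (nat_lit 9478060252869) (nat_lit 0) (nat_lit 0),Row.mk (nat_lit 31248) (nat_lit 14960) (nat_lit 20997705889294) (nat_lit 16456) (nat_lit 2969469613846) (nat_lit 0) (nat_lit 0),Row.mk (nat_lit 31416) (nat_lit 14773) (nat_lit 6444219780560) (nat_lit 16269) (nat_lit 19546898719760) (nat_lit 0) (nat_lit 0),Row.mk (nat_lit 31584) (nat_lit 16082) (nat_lit 19125091452178) (nat_lit 17765) (nat_lit 9393883026413) (nat_lit 0) (nat_lit 0),Row.mk (nat_lit 31752) (nat_lit 15895) (nat_lit 4105369523187) (nat_lit 17578) (nat_lit 27570836090759) (nat_lit 0) (nat_lit 0),Row.mk (nat_lit 31920) (nat_lit 17391) (nat_lit 23886777853790) (nat_lit 19635) (nat_lit 11732733283785) (nat_lit 0) (nat_lit 0),Row.mk (nat_lit 32088) (nat_lit 17204) (nat_lit 10052600968805) (nat_lit 19448) (nat_lit 30492003640249)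 (nat_lit 0) (nat_lit 0)],
[Row.mk (nat_lit 31416) (nat_lit 14960) (nat_lit 26225628111162) (nat_lit 16456) (nat_lit 3708795912787) (nat_lit 0) (nat_lit 0),Row.mk (nat_lit 31584) (nat_lit 14773) (nat_lit 8048675046816) (nat_lit 16269) (nat_lit 24413604955403) (nat_lit 0) (nat_lit 0),Row.mk (nat_lit 31752) (nat_lit 16082) (nat_lit 23886777853790) (nat_lit 17765) (nat_lit 11732733283785) (nat_lit 0) (nat_lit 0),Row.mk (nat_lit 31920) (nat_lit 15895) (nat_lit 5127507497326) (nat_lit 17578) (nat_lit 34435309163879) (nat_lit 0) (nat_lit 0),Row.mk (nat_lit 32088) (nat_lit 17391) (nat_lit 29834009299408) (nat_lit 19635) (nat_lit 14653900833276) (nat_lit 0) (nat_lit 0),Row.mk (nat_lit 32256) (nat_lit 17204) (nat_lit 12555456103050) (nat_lit 19448) (nat_lit 38083776963516) (nat_lit 0) (nat_lit 0)],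
[Row.mk (nat_lit 31752) (nat_lit 14773) (nat_lit 10052600968805) (nat_lit 16269) (nat_lit 30492003640249) (nat_lit 0) (nat_lit 0),Row.mk (nat_lit 31920) (nat_lit 16082) (nat_lit 29834009299408) (nat_lit 17765) (nat_lit 14653900833276) (nat_lit 0) (nat_lit 0),Row.mk (nat_lit 32088) (nat_lit 15895) (nat_lit 6404133169168) (nat_lit 17578) (nat_lit 43008870434995) (nat_lit 0) (nat_lit 0),Row.mk (nat_lit 32256) (nat_lit 17391) (nat_lit 37261957905132) (nat_lit 19635) (nat_lit 18302368632913) (nat_lit 0) (nat_lit 0),Row.mk (nat_lit 32424) (nat_lit 17204) (nat_lit 15681461787333) (nat_lit 19448) (nat_lit 47565718701815) (nat_lit 0) (nat_lit 0)],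
[Row.mk (nat_lit 31920) (nat_lit 14773) (nat_lit 12555456103050) (nat_lit 16269) (nat_lit 38083776963516) (nat_lit 0) (nat_lit 0),Row.mk (nat_lit 32088) (nat_lit 16082) (nat_lit 37261957905132) (nat_lit 17765) (nat_lit 18302368632913) (nat_lit 0) (nat_lit 0),Row.mk (nat_lit 32256) (nat_lit 15895) (nat_lit 7998607836230) (nat_lit 17578) (nat_lit 53717041635697) (nat_lit 0) (nat_lit 0),Row.mk (nat_lit 32424) (nat_lit 17391) (nat_lit 46539286523297) (nat_lit 19635) (nat_lit 22859216899733) (nat_lit 0) (nat_lit 0),Row.mk (nat_lit 32592) (nat_lit 17204) (nat_lit 19585767475850) (nat_lit 19448) (nat_lit 59408435192435) (nat_lit 0) (nat_lit 0)],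
[Row.mk (nat_lit 32088) (nat_lit 14773) (nat_lit 15681461787333) (nat_lit 16269) (nat_lit 47565718701815) (nat_lit 0) (nat_lit 0),Row.mk (nat_lit 32256) (nat_lit 16082) (nat_lit 46539286523297) (nat_lit 17765) (nat_lit 22859216899733) (nat_lit 0) (nat_lit 0),Row.mk (nat_lit 32424) (nat_lit 15895) (nat_lit 9990068230594) (nat_lit 17578) (nat_lit 67091289143538) (nat_lit 0) (nat_lit 0),Row.mk (nat_lit 32592) (nat_lit 17391) (nat_lit 58126446162916) (nat_lit 19635) (nat_lit 28550610456471) (nat_lit 0) (nat_lit 0),Row.mk (nat_lit 32760) (nat_lit 17204) (nat_lit 24462151094097) (nat_lit 19448) (nat_lit 74199702397835) (nat_lit 0) (nat_lit 0)],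
[Row.mk (nat_lit 32256) (nat_lit 14773) (nat_lit 19585767475850) (nat_lit 16269) (nat_lit 59408435192435) (nat_lit 0) (nat_lit 0),Row.mk (nat_lit 32424) (nat_lit 16082) (nat_lit 58126446162916) (nat_lit 17765) (nat_lit 28550610456471) (nat_lit 0) (nat_lit 0),Row.mk (nat_lit 32592) (nat_lit 15895) (nat_lit 12477354221553) (nat_lit 17578) (nat_lit 83795401643090) (nat_lit 0) (nat_lit 0),Row.mk (nat_lit 32760) (nat_lit 17391) (nat_lit 72598529026419) (nat_lit 19635) (nat_lit 35659023710768) (nat_lit 0) (nat_lit 0),Row.mk (nat_lit 32928) (nat_lit 17204) (nat_lit 30552636596360) (nat_lit 19448) (nat_lit 92673638315730) (nat_lit 0) (nat_lit 0)],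
[Row.mk (nat_lit 32424) (nat_lit 14773) (nat_lit 24462151094097) (nat_lit 16269) (nat_lit 74199702397835) (nat_lit 0) (nat_lit 0),Row.mk (nat_lit 32592) (nat_lit 16082) (nat_lit 72598529026419) (nat_lit 17765) (nat_lit 35659023710768) (nat_lit 0) (nat_lit 0),Row.mk (nat_lit 32760) (nat_lit 15895) (nat_lit 15583914421457) (nat_lit 17578) (nat_lit 104658435188274) (nat_lit 0) (nat_lit 0),Row.mk (nat_lit 32928) (nat_lit 17391) (nat_lit 90673811401226) (nat_lit 19635) (nat_lit 44537260383408) (nat_lit 0) (nat_lit 0),Row.mk (nat_lit 33096) (nat_lit 17204) (nat_lit 38159506063000) (nat_lit 19448) (nat_lit 115747138615550) (nat_lit 0) (nat_lit 0)],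
[Row.mk (nat_lit 32592) (nat_lit 14773) (nat_lit 30552636596360) (nat_lit 16269) (nat_lit 92673638315730) (nat_lit 0) (nat_lit 0),Row.mk (nat_lit 32760) (nat_lit 16082) (nat_lit 90673811401226) (nat_lit 17765) (nat_lit 44537260383408) (nat_lit 0) (nat_lit 0),Row.mk (nat_lit 32928) (nat_lit 15895) (nat_lit 19463933169084) (nat_lit 17578) (nat_lit 130715860790453) (nat_lit 0) (nat_lit 0),Row.mk (nat_lit 33096) (nat_lit 17391) (nat_lit 113249403042769) (nat_lit 19635) (nat_lit 55625963810684) (nat_lit 0) (nat_lit 0),Row.mk (nat_lit 33264) (nat_lit 17204) (nat_lit 47660302520197) (nat_lit 19448) (nat_lit 144565383869399) (nat_lit 0) (nat_lit 0)],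
[Row.mk (nat_lit 32760) (nat_lit 14773) (nat_lit 38159506063000) (nat_lit 16269) (nat_lit 115747138615550) (nat_lit 0) (nat_lit 0),Row.mk (nat_lit 32928) (nat_lit 16082) (nat_lit 113249403042769) (nat_lit 17765) (nat_lit 55625963810684) (nat_lit 0) (nat_lit 0),Row.mk (nat_lit 33096) (nat_lit 15895) (nat_lit 24309982984054) (nat_lit 17578) (nat_lit 163260956763315) (nat_lit 0) (nat_lit 0),Row.mk (nat_lit 33264) (nat_lit 17391) (nat_lit 141445772393882) (nat_lit 19635) (nat_lit 69475486889630) (nat_lit 0) (nat_lit 0)],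
[Row.mk (nat_lit 32928) (nat_lit 14773) (nat_lit 47660302520197) (nat_lit 16269) (nat_lit 144565383869399) (nat_lit 0) (nat_lit 0),Row.mk (nat_lit 33096) (nat_lit 16082) (nat_lit 141445772393882) (nat_lit 17765) (nat_lit 69475486889630) (nat_lit 0) (nat_lit 0),Row.mk (nat_lit 33264) (nat_lit 15895) (nat_lit 30362582297791) (nat_lit 17578) (nat_lit 203908996521864) (nat_lit 0) (nat_lit 0),Row.mk (nat_lit 33432) (nat_lit 17391) (nat_lit 176662357509701) (nat_lit 19635) (nat_lit 86773207112036) (nat_lit 0) (nat_lit 0)],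
[Row.mk (nat_lit 33264) (nat_lit 16082) (nat_lit 176662357509701) (nat_lit 17765) (nat_lit 86773207112036) (nat_lit 0) (nat_lit 0),Row.mk (nat_lit 33432) (nat_lit 15895) (nat_lit 37922132828920) (nat_lit 17578) (nat_lit 254677417594900) (nat_lit 0) (nat_lit 0),Row.mk (nat_lit 33600) (nat_lit 17391) (nat_lit 220647022761320) (nat_lit 19635) (nat_lit 108377642382990) (nat_lit 0) (nat_lit 0)],
[Row.mk (nat_lit 33432) (nat_lit 16082) (nat_lit 220647022761320) (nat_lit 17765) (nat_lit 108377642382990) (nat_lit 0) (nat_lit 0),Row.mk (nat_lit 33600) (nat_lit 15895) (nat_lit 47363829077177) (nat_lit 17578) (nat_lit 318085950787623) (nat_lit 0) (nat_lit 0),Row.mk (nat_lit 33768) (nat_lit 17391) (nat_lit 275582808583096) (nat_lit 19635) (nat_lit 135361060855222) (nat_lit 0) (nat_lit 0)],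
[Row.mk (nat_lit 33600) (nat_lit 16082) (nat_lit 275582808583096) (nat_lit 17765) (nat_lit 135361060855222) (nat_lit 0) (nat_lit 0),Row.mk (nat_lit 33768) (nat_lit 15895) (nat_lit 59156279921608) (nat_lit 17578) (nat_lit 397281679090231) (nat_lit 0) (nat_lit 0),Row.mk (nat_lit 33936) (nat_lit 17391) (nat_lit 344196279814300) (nat_lit 19635) (nat_lit 169062699584311) (nat_lit 0) (nat_lit 0)],
[Row.mk (nat_lit 33768) (nat_lit 16082) (nat_lit 344196279814300) (nat_lit 17765) (nat_lit 169062699584311) (nat_lit 0) (nat_lit 0),Row.mk (nat_lit 33936) (nat_lit 15895) (nat_lit 73884766547516) (nat_lit 17578) (nat_lit 496195233237867) (nat_lit 0) (nat_lit 0),Row.mk (nat_lit 34104) (nat_lit 17391) (nat_lit 429892850164060) (nat_lit 19635) (nat_lit 211155233345175) (nat_lit 0) (nat_lit 0)],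
[Row.mk (nat_lit 33936) (nat_lit 16082) (nat_lit 429892850164060) (nat_lit 17765) (nat_lit 211155233345175) (nat_lit 0) (nat_lit 0),Row.mk (nat_lit 34104) (nat_lit 15895) (nat_lit 92280291036133) (nat_lit 17578) (nat_lit 619735876196953) (nat_lit 0) (nat_lit 0),Row.mk (nat_lit 34272) (nat_lit 17391) (nat_lit 536925799203541) (nat_lit 19635) (nat_lit 263727792580410) (nat_lit 0) (nat_lit 0)],
[Row.mk (nat_lit 34104) (nat_lit 16082) (nat_lit 536925799203541) (nat_lit 17765) (nat_lit 263727792580410) (nat_lit 0) (nat_lit 0),Row.mk (nat_lit 34272) (nat_lit 15895) (nat_lit 115255857352367) (nat_lit 17578) (nat_lit 774035158982449) (nat_lit 0) (nat_lit 0),Row.mk (nat_lit 34440) (nat_lit 17391) (nat_lit 670607370511842) (nat_lit 19635) (nat_lit 329389650815041) (nat_lit 0) (nat_lit 0)],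
[Row.mk (nat_lit 34272) (nat_lit 16082) (nat_lit 670607370511842) (nat_lit 17765) (nat_lit 329389650815041) (nat_lit 0) (nat_lit 0),Row.mk (nat_lit 34440) (nat_lit 15895) (nat_lit 143951785423256) (nat_lit 17578) (nat_lit 966751240895694) (nat_lit 0) (nat_lit 0),Row.mk (nat_lit 34608) (nat_lit 17391) (nat_lit 837572428167727) (nat_lit 19635) (nat_lit 411399727736218) (nat_lit 0) (nat_lit 0)],
[Row.mk (nat_lit 34440) (nat_lit 16082) (nat_lit 837572428167727) (nat_lit 17765) (nat_lit 411399727736218) (nat_lit 0) (nat_lit 0),Row.mk (nat_lit 34608) (nat_lit 15895) (nat_lit 179792307328819) (nat_lit 17578) (nat_lit 1207448978160120) (nat_lit 0) (nat_lit 0),Row.mk (nat_lit 34776) (nat_lit 17391) (nat_lit 1046107757347402) (nat_lit 19635) (nat_lit 513828335415650) (nat_lit 0) (nat_lit 0)],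
[Row.mk (nat_lit 34608) (nat_lit 16082) (nat_lit 1046107757347402) (nat_lit 17765) (nat_lit 513828335415650) (nat_lit 0) (nat_lit 0),Row.mk (nat_lit 34776) (nat_lit 15895) (nat_lit 224556254579099) (nat_lit 17578) (nat_lit 1508074645458066) (nat_lit 0) (nat_lit 0),Row.mk (nat_lit 34944) (nat_lit 17391) (nat_lit 1306563352827160) (nat_lit 19635) (nat_lit 641759195439483) (nat_lit 0) (nat_lit 0)],
[Row.mk (nat_lit 34776) (nat_lit 16082) (nat_lit 1306563352827160) (nat_lit 17765) (nat_lit 641759195439483) (nat_lit 0) (nat_lit 0),Row.mk (nat_lit 34944) (nat_lit 15895) (nat_lit 280465344817955) (nat_lit 17578) (nat_lit 1883548851678167) (nat_lit 0) (nat_lit 0),Row.mk (nat_lit 35112) (nat_lit 17391) (nat_lit 1631866108401333) (nat_lit 19635) (nat_lit 801541753430105) (nat_lit 0) (nat_lit 0)],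
[Row.mk (nat_lit 34944) (nat_lit 16082) (nat_lit 1631866108401333) (nat_lit 17765) (nat_lit 801541753430105) (nat_lit 0) (nat_lit 0),Row.mk (nat_lit 35112) (nat_lit 15895) (nat_lit 350294449786285) (nat_lit 17578) (nat_lit 2352507077380469) (nat_lit 0) (nat_lit 0),Row.mk (nat_lit 35280) (nat_lit 17391) (nat_lit 2038161402573171) (nat_lit 19635) (nat_lit 1001106313797091) (nat_lit 0) (nat_lit 0)],
[Row.mk (nat_lit 35112) (nat_lit 16082) (nat_lit 2038161402573171) (nat_lit 17765) (nat_lit 1001106313797091) (nat_lit 0) (nat_lit 0),Row.mk (nat_lit 35280) (nat_lit 15895) (nat_lit 437509317348005) (nat_lit 17578) (nat_lit 2938224588225766) (nat_lit 0) (nat_lit 0),Row.mk (nat_lit 35448) (nat_lit 17391) (nat_lit 2545614423605272) (nat_lit 19635) (nat_lit 1250357635438880) (nat_lit 0) (nat_lit 0)],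
[Row.mk (nat_lit 35280) (nat_lit 16082) (nat_lit 2545614423605272) (nat_lit 17765) (nat_lit 1250357635438880) (nat_lit 0) (nat_lit 0),Row.mk (nat_lit 35448) (nat_lit 15895) (nat_lit 546438582978119) (nat_lit 17578) (nat_lit 3669771629536414) (nat_lit 0) (nat_lit 0)],
[Row.mk (nat_lit 35616) (nat_lit 15895) (nat_lit 682488607961747) (nat_lit 17578) (nat_lit 4583456236435102) (nat_lit 0) (nat_lit 0)],
[Row.mk (nat_lit 35784) (nat_lit 15895) (nat_lit 852411807122000) (nat_lit 17578) (nat_lit 5724626268902103) (nat_lit 0) (nat_lit 0)],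
[Row.mk (nat_lit 35952) (nat_lit 15895) (nat_lit 1064641783679002) (nat_lit 17578) (nat_lit 7149920110089837) (nat_lit 0) (nat_lit 0)],
[Row.mk (nat_lit 36120) (nat_lit 15895) (nat_lit 1329711904604088) (nat_lit 17578) (nat_lit 8930077734222354) (nat_lit 0) (nat_lit 0)],
[],
[],
[],
[],
[],
[],
[],
[],
[],
[],
[],
[],
[],
[],
[],
[],
[],
[],
[],
[],
[],
[],
[],
[],
[],
[],
[],
[],
[],
[],
[],
[],
[]]

/-- A table of rows. -/
noncomputable def tb2 : List (List Row) := [[],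
[],
[],
[],
[],
[],
[],
[],
[],
[],
[],
[],
[],
[],
[],
[],
[],
[],
[],
[],
[],
[],
[],
[],
[],
[],
[],
[],
[],
[],
[],
[],
[],
[],
[],
[Row.mk (nat_lit 20832) (nat_lit 43010) (nat_lit 7495049) (nat_lit 44132) (nat_lit 893558) (nat_lit 0) (nat_lit 0)],
[Row.mk (nat_lit 20832) (nat_lit 43010) (nat_lit 7495049) (nat_lit 44132) (nat_lit 893558) (nat_lit 0) (nat_lit 0)],
[Row.mk (nat_lit 20832) (nat_lit 43010) (nat_lit 7495049) (nat_lit 44132) (nat_lit 893558) (nat_lit 0) (nat_lit 0)],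
[Row.mk (nat_lit 20832) (nat_lit 43010) (nat_lit 7495049) (nat_lit 44132) (nat_lit 893558) (nat_lit 0) (nat_lit 0)],
[Row.mk (nat_lit 20664) (nat_lit 43197) (nat_lit 2553699) (nat_lit 44319) (nat_lit 4162689) (nat_lit 0) (nat_lit 0),Row.mk (nat_lit 20832) (nat_lit 43010) (nat_lit 7495049) (nat_lit 44132) (nat_lit 893558) (nat_lit 0) (nat_lit 0),Row.mk (nat_lit 21000) (nat_lit 41327) (nat_lit 3983619) (nat_lit 42823) (nat_lit 6493549) (nat_lit 0) (nat_lit 0)],
[Row.mk (nat_lit 20664) (nat_lit 43197) (nat_lit 2553699) (nat_lit 44319) (nat_lit 4162689) (nat_lit 0) (nat_lit 0),Row.mk (nat_lit 20832) (nat_lit 43010) (nat_lit 7495049) (nat_lit 44132) (nat_lit 893558) (nat_lit 0) (nat_lit 0),Row.mk (nat_lit 21000) (nat_lit 41327) (nat_lit 3983619) (nat_lit 42823) (nat_lit 6493549) (nat_lit 0) (nat_lit 0)],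
[Row.mk (nat_lit 20664) (nat_lit 43197) (nat_lit 2553699) (nat_lit 44319) (nat_lit 4162689) (nat_lit 0) (nat_lit 0),Row.mk (nat_lit 20832) (nat_lit 43010) (nat_lit 7495049) (nat_lit 44132) (nat_lit 893558) (nat_lit 0) (nat_lit 0),Row.mk (nat_lit 21000) (nat_lit 41327) (nat_lit 3983619) (nat_lit 42823) (nat_lit 6493549) (nat_lit 0) (nat_lit 0)],
[Row.mk (nat_lit 20664) (nat_lit 43197) (nat_lit 2553699) (nat_lit 44319) (nat_lit 4162689) (nat_lit 0) (nat_lit 0),Row.mk (nat_lit 20832) (nat_lit 43010) (nat_lit 7495049) (nat_lit 44132) (nat_lit 893558) (nat_lit 0) (nat_lit 0),Row.mk (nat_lit 21000) (nat_lit 41327) (nat_lit 3983619) (nat_lit 42823) (nat_lit 6493549) (nat_lit 0) (nat_lit 0)],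
[Row.mk (nat_lit 20664) (nat_lit 43197) (nat_lit 2553699) (nat_lit 44319) (nat_lit 4162689) (nat_lit 0) (nat_lit 0),Row.mk (nat_lit 20832) (nat_lit 43010) (nat_lit 7495049) (nat_lit 44132) (nat_lit 893558) (nat_lit 0) (nat_lit 0),Row.mk (nat_lit 21000) (nat_lit 41327) (nat_lit 3983619) (nat_lit 42823) (nat_lit 6493549) (nat_lit 0) (nat_lit 0)],
[Row.mk (nat_lit 20664) (nat_lit 43197) (nat_lit 2553699) (nat_lit 44319) (nat_lit 4162689) (nat_lit 0) (nat_lit 0),Row.mk (nat_lit 20832) (nat_lit 43010) (nat_lit 7495049) (nat_lit 44132) (nat_lit 893558) (nat_lit 0) (nat_lit 0),Row.mk (nat_lit 21000) (nat_lit 41327) (nat_lit 3983619) (nat_lit 42823) (nat_lit 6493549) (nat_lit 0) (nat_lit 0)],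
[Row.mk (nat_lit 20664) (nat_lit 43197) (nat_lit 2553699) (nat_lit 44319) (nat_lit 4162689) (nat_lit 0) (nat_lit 0),Row.mk (nat_lit 20832) (nat_lit 43010) (nat_lit 7495049) (nat_lit 44132) (nat_lit 893558) (nat_lit 0) (nat_lit 0),Row.mk (nat_lit 21000) (nat_lit 41327) (nat_lit 3983619) (nat_lit 42823) (nat_lit 6493549) (nat_lit 0) (nat_lit 0)],
[Row.mk (nat_lit 20664) (nat_lit 43197) (nat_lit 2553699) (nat_lit 44319) (nat_lit 4162689) (nat_lit 0) (nat_lit 0),Row.mk (nat_lit 20832) (nat_lit 43010) (nat_lit 7495049) (nat_lit 44132) (nat_lit 893558) (nat_lit 0) (nat_lit 0),Row.mk (nat_lit 21000) (nat_lit 41327) (nat_lit 3983619) (nat_lit 42823) (nat_lit 6493549) (nat_lit 0) (nat_lit 0)],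
[Row.mk (nat_lit 20664) (nat_lit 43197) (nat_lit 2553699) (nat_lit 44319) (nat_lit 4162689) (nat_lit 0) (nat_lit 0),Row.mk (nat_lit 20832) (nat_lit 43010) (nat_lit 7495049) (nat_lit 44132) (nat_lit 893558) (nat_lit 0) (nat_lit 0),Row.mk (nat_lit 21000) (nat_lit 41327) (nat_lit 3983619) (nat_lit 42823) (nat_lit 6493549) (nat_lit 0) (nat_lit 0)],
[Row.mk (nat_lit 20664) (nat_lit 43197) (nat_lit 2553699) (nat_lit 44319) (nat_lit 4162689) (nat_lit 0) (nat_lit 0),Row.mk (nat_lit 20832) (nat_lit 43010) (nat_lit 7495049) (nat_lit 44132) (nat_lit 893558) (nat_lit 0) (nat_lit 0),Row.mk (nat_lit 21000) (nat_lit 41327) (nat_lit 3983619) (nat_lit 42823) (nat_lit 6493549) (nat_lit 0) (nat_lit 0)],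
[Row.mk (nat_lit 20664) (nat_lit 43197) (nat_lit 2553699) (nat_lit 44319) (nat_lit 4162689) (nat_lit 0) (nat_lit 0),Row.mk (nat_lit 20832) (nat_lit 43010) (nat_lit 7495049) (nat_lit 44132) (nat_lit 893558) (nat_lit 0) (nat_lit 0),Row.mk (nat_lit 21000) (nat_lit 41327) (nat_lit 3983619) (nat_lit 42823) (nat_lit 6493549) (nat_lit 0) (nat_lit 0)],
[Row.mk (nat_lit 20664) (nat_lit 43197) (nat_lit 2553699) (nat_lit 44319) (nat_lit 4162689) (nat_lit 0) (nat_lit 0),Row.mk (nat_lit 20832) (nat_lit 43010) (nat_lit 7495049) (nat_lit 44132) (nat_lit 893558) (nat_lit 0) (nat_lit 0),Row.mk (nat_lit 21000) (nat_lit 41327) (nat_lit 3983619) (nat_lit 42823) (nat_lit 6493549) (nat_lit 0) (nat_lit 0)],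
[Row.mk (nat_lit 20496) (nat_lit 44506) (nat_lit 4254498) (nat_lit 45441) (nat_lit 1123018) (nat_lit 0) (nat_lit 0),Row.mk (nat_lit 20664) (nat_lit 43197) (nat_lit 2553699) (nat_lit 44319) (nat_lit 4162689) (nat_lit 0) (nat_lit 0),Row.mk (nat_lit 20832) (nat_lit 43010) (nat_lit 7495049) (nat_lit 44132) (nat_lit 893558) (nat_lit 0) (nat_lit 0),Row.mk (nat_lit 21000) (nat_lit 41327) (nat_lit 3983619) (nat_lit 42823) (nat_lit 6493549) (nat_lit 0) (nat_lit 0)],
[Row.mk (nat_lit 20496) (nat_lit 44506) (nat_lit 4254498) (nat_lit 45441) (nat_lit 1123018) (nat_lit 0) (nat_lit 0),Row.mk (nat_lit 20664) (nat_lit 43197) (nat_lit 2553699) (nat_lit 44319) (nat_lit 4162689) (nat_lit 0) (nat_lit 0),Row.mk (nat_lit 20832) (nat_lit 43010) (nat_lit 7495049) (nat_lit 44132) (nat_lit 893558) (nat_lit 0) (nat_lit 0),Row.mk (nat_lit 21000) (nat_lit 41327) (nat_lit 3983619) (nat_lit 42823) (nat_lit 6493549) (nat_lit 0) (nat_lit 0),Row.mk (nat_lit 21168)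 (nat_lit 41140) (nat_lit 10352961) (nat_lit 42636) (nat_lit 2732769) (nat_lit 0) (nat_lit 0)],
[Row.mk (nat_lit 20496) (nat_lit 44506) (nat_lit 4254498) (nat_lit 45441) (nat_lit 1123018) (nat_lit 0) (nat_lit 0),Row.mk (nat_lit 20664) (nat_lit 43197) (nat_lit 2553699) (nat_lit 44319) (nat_lit 4162689) (nat_lit 0) (nat_lit 0),Row.mk (nat_lit 20832) (nat_lit 43010) (nat_lit 7495049) (nat_lit 44132) (nat_lit 893558) (nat_lit 0) (nat_lit 0),Row.mk (nat_lit 21000) (nat_lit 41327) (nat_lit 3983619) (nat_lit 42823) (nat_lit 6493549) (nat_lit 0) (nat_lit 0),Row.mk (nat_lit 21168) (nat_lit 41140) (nat_lit 10352961) (nat_lit 42636) (nat_lit 2732769) (nat_lit 0) (nat_lit 0)],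
[Row.mk (nat_lit 20496) (nat_lit 44506) (nat_lit 4254498) (nat_lit 45441) (nat_lit 1123018) (nat_lit 0) (nat_lit 0),Row.mk (nat_lit 20664) (nat_lit 43197) (nat_lit 2553699) (nat_lit 44319) (nat_lit 4162689) (nat_lit 0) (nat_lit 0),Row.mk (nat_lit 20832) (nat_lit 43010) (nat_lit 7495049) (nat_lit 44132) (nat_lit 893558) (nat_lit 0) (nat_lit 0),Row.mk (nat_lit 21000) (nat_lit 41327) (nat_lit 3983619) (nat_lit 42823) (nat_lit 6493549) (nat_lit 0) (nat_lit 0),Row.mk (nat_lit 21168) (nat_lit 41140) (nat_lit 10352961) (nat_lit 42636) (nat_lit 2732769) (nat_lit 0) (nat_lit 0)],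
[Row.mk (nat_lit 20496) (nat_lit 44506) (nat_lit 4254498) (nat_lit 45441) (nat_lit 1123018) (nat_lit 0) (nat_lit 0),Row.mk (nat_lit 20664) (nat_lit 43197) (nat_lit 2553699) (nat_lit 44319) (nat_lit 4162689) (nat_lit 0) (nat_lit 0),Row.mk (nat_lit 20832) (nat_lit 43010) (nat_lit 7495049) (nat_lit 44132) (nat_lit 893558) (nat_lit 0) (nat_lit 0),Row.mk (nat_lit 21000) (nat_lit 41327) (nat_lit 3983619) (nat_lit 42823) (nat_lit 6493549) (nat_lit 0) (nat_lit 0),Row.mk (nat_lit 21168) (nat_lit 41140) (nat_lit 10352961) (nat_lit 42636) (nat_lit 2732769) (nat_lit 0) (nat_lit 0)],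
[Row.mk (nat_lit 20496) (nat_lit 44506) (nat_lit 4254498) (nat_lit 45441) (nat_lit 1123018) (nat_lit 0) (nat_lit 0),Row.mk (nat_lit 20664) (nat_lit 43197) (nat_lit 2553699) (nat_lit 44319) (nat_lit 4162689) (nat_lit 0) (nat_lit 0),Row.mk (nat_lit 20832) (nat_lit 43010) (nat_lit 7495049) (nat_lit 44132) (nat_lit 893558) (nat_lit 0) (nat_lit 0),Row.mk (nat_lit 21000) (nat_lit 41327) (nat_lit 3983619) (nat_lit 42823) (nat_lit 6493549) (nat_lit 0) (nat_lit 0),Row.mk (nat_lit 21168) (nat_lit 41140) (nat_lit 10352961) (nat_lit 42636) (nat_lit 2732769) (nat_lit 0) (nat_lit 0)],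
[Row.mk (nat_lit 20496) (nat_lit 44506) (nat_lit 4254498) (nat_lit 45441) (nat_lit 1123018) (nat_lit 0) (nat_lit 0),Row.mk (nat_lit 20664) (nat_lit 43197) (nat_lit 2553699) (nat_lit 44319) (nat_lit 4162689) (nat_lit 0) (nat_lit 0),Row.mk (nat_lit 20832) (nat_lit 43010) (nat_lit 7495049) (nat_lit 44132) (nat_lit 893558) (nat_lit 0) (nat_lit 0),Row.mk (nat_lit 21000) (nat_lit 41327) (nat_lit 3983619) (nat_lit 42823) (nat_lit 6493549) (nat_lit 0) (nat_lit 0),Row.mk (nat_lit 21168) (nat_lit 41140) (nat_lit 10352961) (nat_lit 42636) (nat_lit 2732769) (nat_lit 0) (nat_lit 0)],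
[Row.mk (nat_lit 20496) (nat_lit 44506) (nat_lit 4254498) (nat_lit 45441) (nat_lit 1123018) (nat_lit 0) (nat_lit 0),Row.mk (nat_lit 20664) (nat_lit 43197) (nat_lit 2553699) (nat_lit 44319) (nat_lit 4162689) (nat_lit 0) (nat_lit 0),Row.mk (nat_lit 20832) (nat_lit 43010) (nat_lit 7495049) (nat_lit 44132) (nat_lit 893558) (nat_lit 0) (nat_lit 0),Row.mk (nat_lit 21000) (nat_lit 41327) (nat_lit 3983619) (nat_lit 42823) (nat_lit 6493549) (nat_lit 0) (nat_lit 0),Row.mk (nat_lit 21168) (nat_lit 41140) (nat_lit 10352961) (nat_lit 42636) (nat_lit 2732769) (nat_lit 0) (nat_lit 0)],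
[Row.mk (nat_lit 20328) (nat_lit 44693) (nat_lit 646322) (nat_lit 45628) (nat_lit 3659218) (nat_lit 0) (nat_lit 0),Row.mk (nat_lit 20496) (nat_lit 44506) (nat_lit 4254498) (nat_lit 45441) (nat_lit 1123018) (nat_lit 0) (nat_lit 0),Row.mk (nat_lit 20664) (nat_lit 43197) (nat_lit 2553699) (nat_lit 44319) (nat_lit 4162689) (nat_lit 0) (nat_lit 0),Row.mk (nat_lit 20832) (nat_lit 43010) (nat_lit 7495049) (nat_lit 44132) (nat_lit 893558) (nat_lit 0) (nat_lit 0),Row.mk (nat_lit 21000) (nat_lit 41327) (nat_lit 3983619) (nat_lit 42823) (nat_lit 6493549) (nat_lit 0) (nat_lit 0),Row.mk (nat_lit 21168) (nat_lit 41140) (nat_lit 10352961) (nat_lit 42636) (nat_lit 2732769) (nat_lit 0) (nat_lit 0)],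
[Row.mk (nat_lit 20160) (nat_lit 45815) (nat_lit 1651718) (nat_lit 46563) (nat_lit 1795539) (nat_lit 0) (nat_lit 0),Row.mk (nat_lit 20328) (nat_lit 44693) (nat_lit 646322) (nat_lit 45628) (nat_lit 3659218) (nat_lit 0) (nat_lit 0),Row.mk (nat_lit 20496) (nat_lit 44506) (nat_lit 4254498) (nat_lit 45441) (nat_lit 1123018) (nat_lit 0) (nat_lit 0),Row.mk (nat_lit 20664) (nat_lit 43197) (nat_lit 2553699) (nat_lit 44319) (nat_lit 4162689) (nat_lit 0) (nat_lit 0),Row.mk (nat_lit 20832) (nat_lit 43010) (nat_lit 7495049) (nat_lit 44132) (nat_lit 893558) (nat_lit 0) (nat_lit 0),Row.mk (nat_lit 21000) (nat_lit 41327) (nat_lit 3983619) (nat_lit 42823) (nat_lit 6493549) (nat_lit 0) (nat_lit 0),Row.mk (nat_lit 21168) (nat_lit 41140) (nat_lit 10352961) (nat_lit 42636) (nat_lit 2732769) (nat_lit 0) (nat_lit 0)],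
[Row.mk (nat_lit 19992) (nat_lit 46750) (nat_lit 2049560) (nat_lit 47498) (nat_lit 710507) (nat_lit 0) (nat_lit 0),Row.mk (nat_lit 20160) (nat_lit 45815) (nat_lit 1651718) (nat_lit 46563) (nat_lit 1795539) (nat_lit 0) (nat_lit 0),Row.mk (nat_lit 20328) (nat_lit 44693) (nat_lit 646322) (nat_lit 45628) (nat_lit 3659218) (nat_lit 0) (nat_lit 0),Row.mk (nat_lit 20496) (nat_lit 44506) (nat_lit 4254498) (nat_lit 45441) (nat_lit 1123018) (nat_lit 0) (nat_lit 0),Row.mk (nat_lit 20664) (nat_lit 43197) (nat_lit 2553699) (nat_lit 44319) (nat_lit 4162689) (nat_lit 0) (nat_lit 0),Row.mk (nat_lit 20832) (nat_lit 43010) (nat_lit 7495049) (nat_lit 44132) (nat_lit 893558) (nat_lit 0) (nat_lit 0),Row.mk (nat_lit 21000) (nat_lit 41327) (nat_lit 3983619) (nat_lit 42823) (nat_lit 6493549) (nat_lit 0) (nat_lit 0),Row.mk (nat_lit 21168) (nat_lit 41140) (nat_lit 10352961) (nat_lit 42636) (nat_lit 2732769) (nat_lit 0) (nat_lit 0)],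
[Row.mk (nat_lit 19656) (nat_lit 47872) (nat_lit 270429) (nat_lit 48433) (nat_lit 1498911) (nat_lit 0) (nat_lit 0),Row.mk (nat_lit 19824) (nat_lit 47685) (nat_lit 2107101) (nat_lit 48246) (nat_lit 102763) (nat_lit 0) (nat_lit 0),Row.mk (nat_lit 19992) (nat_lit 46750) (nat_lit 2049560) (nat_lit 47498) (nat_lit 710507) (nat_lit 0) (nat_lit 0),Row.mk (nat_lit 20160) (nat_lit 45815) (nat_lit 1651718) (nat_lit 46563) (nat_lit 1795539) (nat_lit 0) (nat_lit 0),Row.mk (nat_lit 20328) (nat_lit 44693) (nat_lit 646322) (nat_lit 45628) (nat_lit 3659218) (nat_lit 0) (nat_lit 0),Row.mk (nat_lit 20496) (nat_lit 44506) (nat_lit 4254498) (nat_lit 45441) (nat_lit 1123018) (nat_lit 0) (nat_lit 0),Row.mk (nat_lit 20664) (nat_lit 43197) (nat_lit 2553699) (nat_lit 44319) (nat_lit 4162689) (nat_lit 0) (nat_lit 0),Row.mk (nat_lit 20832) (nat_lit 43010) (nat_lit 7495049) (nat_lit 44132) (nat_lit 893558) (nat_lit 0) (nat_lit 0),Row.mk (nat_lit 21000) (nat_lit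 41327) (nat_lit 3983619) (nat_lit 42823) (nat_lit 6493549) (nat_lit 0) (nat_lit 0),Row.mk (nat_lit 21168) (nat_lit 41140) (nat_lit 10352961) (nat_lit 42636) (nat_lit 2732769) (nat_lit 0) (nat_lit 0),Row.mk (nat_lit 21336) (nat_lit 38896) (nat_lit 2453430) (nat_lit 40953) (nat_lit 13890332) (nat_lit 0) (nat_lit 0)],
[Row.mk (nat_lit 18816) (nat_lit 50864) (nat_lit 419889) (nat_lit 51238) (nat_lit 162268) (nat_lit 0) (nat_lit 0),Row.mk (nat_lit 18984) (nat_lit 50303) (nat_lit 473972) (nat_lit 50677) (nat_lit 253129) (nat_lit 0) (nat_lit 0),Row.mk (nat_lit 19152) (nat_lit 49742) (nat_lit 513265) (nat_lit 50116) (nat_lit 394867) (nat_lit 0) (nat_lit 0),Row.mk (nat_lit 19320) (nat_lit 49181) (nat_lit 518265) (nat_lit 49555) (nat_lit 615970) (nat_lit 0) (nat_lit 0),Row.mk (nat_lit 19488) (nat_lit 48620) (nat_lit 455756) (nat_lit 48994) (nat_lit 960877) (nat_lit 0) (nat_lit 0),Row.mk (nat_lit 19656) (nat_lit 47872) (nat_lit 270429) (nat_lit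 48433) (nat_lit 1498911) (nat_lit 0) (nat_lit 0),Row.mk (nat_lit 19824) (nat_lit 47685) (nat_lit 2107101) (nat_lit 48246) (nat_lit 102763) (nat_lit 0) (nat_lit 0),Row.mk (nat_lit 19992) (nat_lit 46750) (nat_lit 2049560) (nat_lit 47498) (nat_lit 710507) (nat_lit 0) (nat_lit 0),Row.mk (nat_lit 20160) (nat_lit 45815) (nat_lit 1651718) (nat_lit 46563) (nat_lit 1795539) (nat_lit 0) (nat_lit 0),Row.mk (nat_lit 20328) (nat_lit 44693) (nat_lit 646322) (nat_lit 45628) (nat_lit 3659218) (nat_lit 0) (nat_lit 0),Row.mk (nat_lit 20496) (nat_lit 44506) (nat_lit 4254498) (nat_lit 45441) (nat_lit 1123018) (nat_lit 0) (nat_lit 0),Row.mk (nat_lit 20664) (nat_lit 43197) (nat_lit 2553699) (nat_lit 44319) (nat_lit 4162689) (nat_lit 0) (nat_lit 0),Row.mk (nat_lit 20832) (nat_lit 43010) (nat_lit 7495049) (nat_lit 44132) (nat_lit 893558) (nat_lit 0) (nat_lit 0),Row.mk (nat_lit 21000) (nat_lit 41327) (nat_lit 3983619) (nat_lit 42823) (nat_lit 6493549) (nat_lit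 0) (nat_lit 0),Row.mk (nat_lit 21168) (nat_lit 41140) (nat_lit 10352961) (nat_lit 42636) (nat_lit 2732769) (nat_lit 0) (nat_lit 0),Row.mk (nat_lit 21336) (nat_lit 38896) (nat_lit 2453430) (nat_lit 40953) (nat_lit 13890332) (nat_lit 0) (nat_lit 0)],
[Row.mk (nat_lit 15792) (nat_lit 60962) (nat_lit 10588) (nat_lit 61336) (nat_lit 54) (nat_lit 0) (nat_lit 0),Row.mk (nat_lit 15960) (nat_lit 60401) (nat_lit 13208) (nat_lit 60775) (nat_lit 84) (nat_lit 0) (nat_lit 0),Row.mk (nat_lit 16128) (nat_lit 59840) (nat_lit 16470) (nat_lit 60214) (nat_lit 131) (nat_lit 0) (nat_lit 0),Row.mk (nat_lit 16296) (nat_lit 59279) (nat_lit 20530) (nat_lit 59653) (nat_lit 205) (nat_lit 0) (nat_lit 0),Row.mk (nat_lit 16464) (nat_lit 58718) (nat_lit 25577) (nat_lit 59092) (nat_lit 321) (nat_lit 0) (nat_lit 0),Row.mk (nat_lit 16632) (nat_lit 58157) (nat_lit 31846) (nat_lit 58531) (nat_lit 500) (nat_lit 0) (nat_lit 0),Row.mk (nat_lit 16800) (nat_lit 57596) (nat_lit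 39619) (nat_lit 57970) (nat_lit 781) (nat_lit 0) (nat_lit 0),Row.mk (nat_lit 16968) (nat_lit 57035) (nat_lit 49240) (nat_lit 57409) (nat_lit 1219) (nat_lit 0) (nat_lit 0),Row.mk (nat_lit 17136) (nat_lit 56474) (nat_lit 61121) (nat_lit 56848) (nat_lit 1901) (nat_lit 0) (nat_lit 0),Row.mk (nat_lit 17304) (nat_lit 55913) (nat_lit 75747) (nat_lit 56287) (nat_lit 2966) (nat_lit 0) (nat_lit 0),Row.mk (nat_lit 17472) (nat_lit 55352) (nat_lit 93684) (nat_lit 55726) (nat_lit 4627) (nat_lit 0) (nat_lit 0),Row.mk (nat_lit 17640) (nat_lit 54791) (nat_lit 115570) (nat_lit 55165) (nat_lit 7219) (nat_lit 0) (nat_lit 0),Row.mk (nat_lit 17808) (nat_lit 54230) (nat_lit 142100) (nat_lit 54604) (nat_lit 11261) (nat_lit 0) (nat_lit 0),Row.mk (nat_lit 17976) (nat_lit 53669) (nat_lit 173978) (nat_lit 54043) (nat_lit 17566) (nat_lit 0) (nat_lit 0),Row.mk (nat_lit 18144) (nat_lit 53108) (nat_lit 211831) (nat_lit 53482) (nat_lit 27403) (nat_lit 0) (nat_lit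 0),Row.mk (nat_lit 18312) (nat_lit 52547) (nat_lit 256051) (nat_lit 52921) (nat_lit 42747) (nat_lit 0) (nat_lit 0),Row.mk (nat_lit 18480) (nat_lit 51986) (nat_lit 306509) (nat_lit 52360) (nat_lit 66683) (nat_lit 0) (nat_lit 0),Row.mk (nat_lit 18648) (nat_lit 51425) (nat_lit 362086) (nat_lit 51799) (nat_lit 104022) (nat_lit 0) (nat_lit 0),Row.mk (nat_lit 18816) (nat_lit 50864) (nat_lit 419889) (nat_lit 51238) (nat_lit 162268) (nat_lit 0) (nat_lit 0),Row.mk (nat_lit 18984) (nat_lit 50303) (nat_lit 473972) (nat_lit 50677) (nat_lit 253129) (nat_lit 0) (nat_lit 0),Row.mk (nat_lit 19152) (nat_lit 49742) (nat_lit 513265) (nat_lit 50116) (nat_lit 394867) (nat_lit 0) (nat_lit 0),Row.mk (nat_lit 19320) (nat_lit 49181) (nat_lit 518265) (nat_lit 49555) (nat_lit 615970) (nat_lit 0) (nat_lit 0),Row.mk (nat_lit 19488) (nat_lit 48620) (nat_lit 455756) (nat_lit 48994) (nat_lit 960877) (nat_lit 0) (nat_lit 0),Row.mk (nat_lit 19656) (nat_lit 47872)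 (nat_lit 270429) (nat_lit 48433) (nat_lit 1498911) (nat_lit 0) (nat_lit 0),Row.mk (nat_lit 19824) (nat_lit 47685) (nat_lit 2107101) (nat_lit 48246) (nat_lit 102763) (nat_lit 0) (nat_lit 0),Row.mk (nat_lit 19992) (nat_lit 46750) (nat_lit 2049560) (nat_lit 47498) (nat_lit 710507) (nat_lit 0) (nat_lit 0),Row.mk (nat_lit 20160) (nat_lit 45815) (nat_lit 1651718) (nat_lit 46563) (nat_lit 1795539) (nat_lit 0) (nat_lit 0),Row.mk (nat_lit 20328) (nat_lit 44693) (nat_lit 646322) (nat_lit 45628) (nat_lit 3659218) (nat_lit 0) (nat_lit 0),Row.mk (nat_lit 20496) (nat_lit 44506) (nat_lit 4254498) (nat_lit 45441) (nat_lit 1123018) (nat_lit 0) (nat_lit 0),Row.mk (nat_lit 20664) (nat_lit 43197) (nat_lit 2553699) (nat_lit 44319) (nat_lit 4162689) (nat_lit 0) (nat_lit 0),Row.mk (nat_lit 20832) (nat_lit 43010) (nat_lit 7495049) (nat_lit 44132) (nat_lit 893558) (nat_lit 0) (nat_lit 0),Row.mk (nat_lit 21000) (nat_lit 41327) (nat_lit 3983619) (nat_lit 42823)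 (nat_lit 6493549) (nat_lit 0) (nat_lit 0),Row.mk (nat_lit 21168) (nat_lit 41140) (nat_lit 10352961) (nat_lit 42636) (nat_lit 2732769) (nat_lit 0) (nat_lit 0),Row.mk (nat_lit 21336) (nat_lit 38896) (nat_lit 2453430) (nat_lit 40953) (nat_lit 13890332) (nat_lit 0) (nat_lit 0),Row.mk (nat_lit 21504) (nat_lit 38709) (nat_lit 9780664) (nat_lit 40766) (nat_lit 10632301) (nat_lit 0) (nat_lit 0)],
[Row.mk (nat_lit 15792) (nat_lit 60962) (nat_lit 10588) (nat_lit 61336) (nat_lit 54) (nat_lit 0) (nat_lit 0),Row.mk (nat_lit 15960) (nat_lit 60401) (nat_lit 13208) (nat_lit 60775) (nat_lit 84) (nat_lit 0) (nat_lit 0),Row.mk (nat_lit 16128) (nat_lit 59840) (nat_lit 16470) (nat_lit 60214) (nat_lit 131) (nat_lit 0) (nat_lit 0),Row.mk (nat_lit 16296) (nat_lit 59279) (nat_lit 20530) (nat_lit 59653) (nat_lit 205) (nat_lit 0) (nat_lit 0),Row.mk (nat_lit 16464) (nat_lit 58718) (nat_lit 25577) (nat_lit 59092) (nat_lit 321) (nat_lit 0) (nat_lit 0),Row.mk (nat_lit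 16632) (nat_lit 58157) (nat_lit 31846) (nat_lit 58531) (nat_lit 500) (nat_lit 0) (nat_lit 0),Row.mk (nat_lit 16800) (nat_lit 57596) (nat_lit 39619) (nat_lit 57970) (nat_lit 781) (nat_lit 0) (nat_lit 0),Row.mk (nat_lit 16968) (nat_lit 57035) (nat_lit 49240) (nat_lit 57409) (nat_lit 1219) (nat_lit 0) (nat_lit 0),Row.mk (nat_lit 17136) (nat_lit 56474) (nat_lit 61121) (nat_lit 56848) (nat_lit 1901) (nat_lit 0) (nat_lit 0),Row.mk (nat_lit 17304) (nat_lit 55913) (nat_lit 75747) (nat_lit 56287) (nat_lit 2966) (nat_lit 0) (nat_lit 0),Row.mk (nat_lit 17472) (nat_lit 55352) (nat_lit 93684) (nat_lit 55726) (nat_lit 4627) (nat_lit 0) (nat_lit 0),Row.mk (nat_lit 17640) (nat_lit 54791) (nat_lit 115570) (nat_lit 55165) (nat_lit 7219) (nat_lit 0) (nat_lit 0),Row.mk (nat_lit 17808) (nat_lit 54230) (nat_lit 142100) (nat_lit 54604) (nat_lit 11261) (nat_lit 0) (nat_lit 0),Row.mk (nat_lit 17976) (nat_lit 53669) (nat_lit 173978) (nat_lit 54043) (nat_lit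 17566) (nat_lit 0) (nat_lit 0),Row.mk (nat_lit 18144) (nat_lit 53108) (nat_lit 211831) (nat_lit 53482) (nat_lit 27403) (nat_lit 0) (nat_lit 0),Row.mk (nat_lit 18312) (nat_lit 52547) (nat_lit 256051) (nat_lit 52921) (nat_lit 42747) (nat_lit 0) (nat_lit 0),Row.mk (nat_lit 18480) (nat_lit 51986) (nat_lit 306509) (nat_lit 52360) (nat_lit 66683) (nat_lit 0) (nat_lit 0),Row.mk (nat_lit 18648) (nat_lit 51425) (nat_lit 362086) (nat_lit 51799) (nat_lit 104022) (nat_lit 0) (nat_lit 0),Row.mk (nat_lit 18816) (nat_lit 50864) (nat_lit 419889) (nat_lit 51238) (nat_lit 162268) (nat_lit 0) (nat_lit 0),Row.mk (nat_lit 18984) (nat_lit 50303) (nat_lit 473972) (nat_lit 50677) (nat_lit 253129) (nat_lit 0) (nat_lit 0),Row.mk (nat_lit 19152) (nat_lit 49742) (nat_lit 513265) (nat_lit 50116) (nat_lit 394867) (nat_lit 0) (nat_lit 0),Row.mk (nat_lit 19320) (nat_lit 49181) (nat_lit 518265) (nat_lit 49555) (nat_lit 615970) (nat_lit 0) (nat_lit 0),Row.mk (nat_lit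 19488) (nat_lit 48620) (nat_lit 455756) (nat_lit 48994) (nat_lit 960877) (nat_lit 0) (nat_lit 0),Row.mk (nat_lit 19656) (nat_lit 47872) (nat_lit 270429) (nat_lit 48433) (nat_lit 1498911) (nat_lit 0) (nat_lit 0),Row.mk (nat_lit 19824) (nat_lit 47685) (nat_lit 2107101) (nat_lit 48246) (nat_lit 102763) (nat_lit 0) (nat_lit 0),Row.mk (nat_lit 19992) (nat_lit 46750) (nat_lit 2049560) (nat_lit 47498) (nat_lit 710507) (nat_lit 0) (nat_lit 0),Row.mk (nat_lit 20160) (nat_lit 45815) (nat_lit 1651718) (nat_lit 46563) (nat_lit 1795539) (nat_lit 0) (nat_lit 0),Row.mk (nat_lit 20328) (nat_lit 44693) (nat_lit 646322) (nat_lit 45628) (nat_lit 3659218) (nat_lit 0) (nat_lit 0),Row.mk (nat_lit 20496) (nat_lit 44506) (nat_lit 4254498) (nat_lit 45441) (nat_lit 1123018) (nat_lit 0) (nat_lit 0),Row.mk (nat_lit 20664) (nat_lit 43197) (nat_lit 2553699) (nat_lit 44319) (nat_lit 4162689) (nat_lit 0) (nat_lit 0),Row.mk (nat_lit 20832) (nat_lit 43010) (nat_lit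 7495049) (nat_lit 44132) (nat_lit 893558) (nat_lit 0) (nat_lit 0),Row.mk (nat_lit 21000) (nat_lit 41327) (nat_lit 3983619) (nat_lit 42823) (nat_lit 6493549) (nat_lit 0) (nat_lit 0),Row.mk (nat_lit 21168) (nat_lit 41140) (nat_lit 10352961) (nat_lit 42636) (nat_lit 2732769) (nat_lit 0) (nat_lit 0),Row.mk (nat_lit 21336) (nat_lit 38896) (nat_lit 2453430) (nat_lit 40953) (nat_lit 13890332) (nat_lit 0) (nat_lit 0),Row.mk (nat_lit 21504) (nat_lit 38709) (nat_lit 9780664) (nat_lit 40766) (nat_lit 10632301) (nat_lit 0) (nat_lit 0)],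
[Row.mk (nat_lit 15792) (nat_lit 60962) (nat_lit 10588) (nat_lit 61336) (nat_lit 54) (nat_lit 0) (nat_lit 0),Row.mk (nat_lit 15960) (nat_lit 60401) (nat_lit 13208) (nat_lit 60775) (nat_lit 84) (nat_lit 0) (nat_lit 0),Row.mk (nat_lit 16128) (nat_lit 59840) (nat_lit 16470) (nat_lit 60214) (nat_lit 131) (nat_lit 0) (nat_lit 0),Row.mk (nat_lit 16296) (nat_lit 59279) (nat_lit 20530) (nat_lit 59653) (nat_lit 205) (nat_lit 0) (nat_lit 0),Row.mk (nat_lit 16464) (nat_lit 58718) (nat_lit 25577) (nat_lit 59092) (nat_lit 321) (nat_lit 0) (nat_lit 0),Row.mk (nat_lit 16632) (nat_lit 58157) (nat_lit 31846) (nat_lit 58531) (nat_lit 500) (nat_lit 0) (nat_lit 0),Row.mk (nat_lit 16800) (nat_lit 57596) (nat_lit 39619) (nat_lit 57970) (nat_lit 781) (nat_lit 0) (nat_lit 0),Row.mk (nat_lit 16968) (nat_lit 57035) (nat_lit 49240) (nat_lit 57409) (nat_lit 1219) (nat_lit 0) (nat_lit 0),Row.mk (nat_lit 17136) (nat_lit 56474) (nat_lit 61121) (nat_lit 56848) (nat_lit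 1901) (nat_lit 0) (nat_lit 0),Row.mk (nat_lit 17304) (nat_lit 55913) (nat_lit 75747) (nat_lit 56287) (nat_lit 2966) (nat_lit 0) (nat_lit 0),Row.mk (nat_lit 17472) (nat_lit 55352) (nat_lit 93684) (nat_lit 55726) (nat_lit 4627) (nat_lit 0) (nat_lit 0),Row.mk (nat_lit 17640) (nat_lit 54791) (nat_lit 115570) (nat_lit 55165) (nat_lit 7219) (nat_lit 0) (nat_lit 0),Row.mk (nat_lit 17808) (nat_lit 54230) (nat_lit 142100) (nat_lit 54604) (nat_lit 11261) (nat_lit 0) (nat_lit 0),Row.mk (nat_lit 17976) (nat_lit 53669) (nat_lit 173978) (nat_lit 54043) (nat_lit 17566) (nat_lit 0) (nat_lit 0),Row.mk (nat_lit 18144) (nat_lit 53108) (nat_lit 211831) (nat_lit 53482) (nat_lit 27403) (nat_lit 0) (nat_lit 0),Row.mk (nat_lit 18312) (nat_lit 52547) (nat_lit 256051) (nat_lit 52921) (nat_lit 42747) (nat_lit 0) (nat_lit 0),Row.mk (nat_lit 18480) (nat_lit 51986) (nat_lit 306509) (nat_lit 52360) (nat_lit 66683) (nat_lit 0) (nat_lit 0),Row.mk (nat_lit 18648)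 (nat_lit 51425) (nat_lit 362086) (nat_lit 51799) (nat_lit 104022) (nat_lit 0) (nat_lit 0),Row.mk (nat_lit 18816) (nat_lit 50864) (nat_lit 419889) (nat_lit 51238) (nat_lit 162268) (nat_lit 0) (nat_lit 0),Row.mk (nat_lit 18984) (nat_lit 50303) (nat_lit 473972) (nat_lit 50677) (nat_lit 253129) (nat_lit 0) (nat_lit 0),Row.mk (nat_lit 19152) (nat_lit 49742) (nat_lit 513265) (nat_lit 50116) (nat_lit 394867) (nat_lit 0) (nat_lit 0),Row.mk (nat_lit 19320) (nat_lit 49181) (nat_lit 518265) (nat_lit 49555) (nat_lit 615970) (nat_lit 0) (nat_lit 0),Row.mk (nat_lit 19488) (nat_lit 48620) (nat_lit 455756) (nat_lit 48994) (nat_lit 960877) (nat_lit 0) (nat_lit 0),Row.mk (nat_lit 19656) (nat_lit 47872) (nat_lit 270429) (nat_lit 48433) (nat_lit 1498911) (nat_lit 0) (nat_lit 0),Row.mk (nat_lit 19824) (nat_lit 47685) (nat_lit 2107101) (nat_lit 48246) (nat_lit 102763) (nat_lit 0) (nat_lit 0),Row.mk (nat_lit 19992) (nat_lit 46750) (nat_lit 2049560) (nat_lit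 47498) (nat_lit 710507) (nat_lit 0) (nat_lit 0),Row.mk (nat_lit 20160) (nat_lit 45815) (nat_lit 1651718) (nat_lit 46563) (nat_lit 1795539) (nat_lit 0) (nat_lit 0),Row.mk (nat_lit 20328) (nat_lit 44693) (nat_lit 646322) (nat_lit 45628) (nat_lit 3659218) (nat_lit 0) (nat_lit 0),Row.mk (nat_lit 20496) (nat_lit 44506) (nat_lit 4254498) (nat_lit 45441) (nat_lit 1123018) (nat_lit 0) (nat_lit 0),Row.mk (nat_lit 20664) (nat_lit 43197) (nat_lit 2553699) (nat_lit 44319) (nat_lit 4162689) (nat_lit 0) (nat_lit 0),Row.mk (nat_lit 20832) (nat_lit 43010) (nat_lit 7495049) (nat_lit 44132) (nat_lit 893558) (nat_lit 0) (nat_lit 0),Row.mk (nat_lit 21000) (nat_lit 41327) (nat_lit 3983619) (nat_lit 42823) (nat_lit 6493549) (nat_lit 0) (nat_lit 0),Row.mk (nat_lit 21168) (nat_lit 41140) (nat_lit 10352961) (nat_lit 42636) (nat_lit 2732769) (nat_lit 0) (nat_lit 0),Row.mk (nat_lit 21336) (nat_lit 38896) (nat_lit 2453430) (nat_lit 40953) (nat_lit 13890332)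 (nat_lit 0) (nat_lit 0),Row.mk (nat_lit 21504) (nat_lit 38709) (nat_lit 9780664) (nat_lit 40766) (nat_lit 10632301) (nat_lit 0) (nat_lit 0),Row.mk (nat_lit 21672) (nat_lit 38522) (nat_lit 18932203) (nat_lit 40579) (nat_lit 6563098) (nat_lit 0) (nat_lit 0)],
[Row.mk (nat_lit 15792) (nat_lit 60962) (nat_lit 10588) (nat_lit 61336) (nat_lit 54) (nat_lit 0) (nat_lit 0),Row.mk (nat_lit 15960) (nat_lit 60401) (nat_lit 13208) (nat_lit 60775) (nat_lit 84) (nat_lit 0) (nat_lit 0),Row.mk (nat_lit 16128) (nat_lit 59840) (nat_lit 16470) (nat_lit 60214) (nat_lit 131) (nat_lit 0) (nat_lit 0),Row.mk (nat_lit 16296) (nat_lit 59279) (nat_lit 20530) (nat_lit 59653) (nat_lit 205) (nat_lit 0) (nat_lit 0),Row.mk (nat_lit 16464) (nat_lit 58718) (nat_lit 25577) (nat_lit 59092) (nat_lit 321) (nat_lit 0) (nat_lit 0),Row.mk (nat_lit 16632) (nat_lit 58157) (nat_lit 31846) (nat_lit 58531) (nat_lit 500) (nat_lit 0) (nat_lit 0),Row.mk (nat_lit 16800) (nat_lit 57596)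 (nat_lit 39619) (nat_lit 57970) (nat_lit 781) (nat_lit 0) (nat_lit 0),Row.mk (nat_lit 16968) (nat_lit 57035) (nat_lit 49240) (nat_lit 57409) (nat_lit 1219) (nat_lit 0) (nat_lit 0),Row.mk (nat_lit 17136) (nat_lit 56474) (nat_lit 61121) (nat_lit 56848) (nat_lit 1901) (nat_lit 0) (nat_lit 0),Row.mk (nat_lit 17304) (nat_lit 55913) (nat_lit 75747) (nat_lit 56287) (nat_lit 2966) (nat_lit 0) (nat_lit 0),Row.mk (nat_lit 17472) (nat_lit 55352) (nat_lit 93684) (nat_lit 55726) (nat_lit 4627) (nat_lit 0) (nat_lit 0),Row.mk (nat_lit 17640) (nat_lit 54791) (nat_lit 115570) (nat_lit 55165) (nat_lit 7219) (nat_lit 0) (nat_lit 0),Row.mk (nat_lit 17808) (nat_lit 54230) (nat_lit 142100) (nat_lit 54604) (nat_lit 11261) (nat_lit 0) (nat_lit 0),Row.mk (nat_lit 17976) (nat_lit 53669) (nat_lit 173978) (nat_lit 54043) (nat_lit 17566) (nat_lit 0) (nat_lit 0),Row.mk (nat_lit 18144) (nat_lit 53108) (nat_lit 211831) (nat_lit 53482) (nat_lit 27403) (nat_lit 0)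 (nat_lit 0),Row.mk (nat_lit 18312) (nat_lit 52547) (nat_lit 256051) (nat_lit 52921) (nat_lit 42747) (nat_lit 0) (nat_lit 0),Row.mk (nat_lit 18480) (nat_lit 51986) (nat_lit 306509) (nat_lit 52360) (nat_lit 66683) (nat_lit 0) (nat_lit 0),Row.mk (nat_lit 18648) (nat_lit 51425) (nat_lit 362086) (nat_lit 51799) (nat_lit 104022) (nat_lit 0) (nat_lit 0),Row.mk (nat_lit 18816) (nat_lit 50864) (nat_lit 419889) (nat_lit 51238) (nat_lit 162268) (nat_lit 0) (nat_lit 0),Row.mk (nat_lit 18984) (nat_lit 50303) (nat_lit 473972) (nat_lit 50677) (nat_lit 253129) (nat_lit 0) (nat_lit 0),Row.mk (nat_lit 19152) (nat_lit 49742) (nat_lit 513265) (nat_lit 50116) (nat_lit 394867) (nat_lit 0) (nat_lit 0),Row.mk (nat_lit 19320) (nat_lit 49181) (nat_lit 518265) (nat_lit 49555) (nat_lit 615970) (nat_lit 0) (nat_lit 0),Row.mk (nat_lit 19488) (nat_lit 48620) (nat_lit 455756) (nat_lit 48994) (nat_lit 960877) (nat_lit 0) (nat_lit 0),Row.mk (nat_lit 19656) (nat_lit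 47872) (nat_lit 270429) (nat_lit 48433) (nat_lit 1498911) (nat_lit 0) (nat_lit 0),Row.mk (nat_lit 19824) (nat_lit 47685) (nat_lit 2107101) (nat_lit 48246) (nat_lit 102763) (nat_lit 0) (nat_lit 0),Row.mk (nat_lit 19992) (nat_lit 46750) (nat_lit 2049560) (nat_lit 47498) (nat_lit 710507) (nat_lit 0) (nat_lit 0),Row.mk (nat_lit 20160) (nat_lit 45815) (nat_lit 1651718) (nat_lit 46563) (nat_lit 1795539) (nat_lit 0) (nat_lit 0),Row.mk (nat_lit 20328) (nat_lit 44693) (nat_lit 646322) (nat_lit 45628) (nat_lit 3659218) (nat_lit 0) (nat_lit 0),Row.mk (nat_lit 20496) (nat_lit 44506) (nat_lit 4254498) (nat_lit 45441) (nat_lit 1123018) (nat_lit 0) (nat_lit 0),Row.mk (nat_lit 20664) (nat_lit 43197) (nat_lit 2553699) (nat_lit 44319) (nat_lit 4162689) (nat_lit 0) (nat_lit 0),Row.mk (nat_lit 20832) (nat_lit 43010) (nat_lit 7495049) (nat_lit 44132) (nat_lit 893558) (nat_lit 0) (nat_lit 0),Row.mk (nat_lit 21000) (nat_lit 41327) (nat_lit 3983619) (nat_lit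 42823) (nat_lit 6493549) (nat_lit 0) (nat_lit 0),Row.mk (nat_lit 21168) (nat_lit 41140) (nat_lit 10352961) (nat_lit 42636) (nat_lit 2732769) (nat_lit 0) (nat_lit 0),Row.mk (nat_lit 21336) (nat_lit 38896) (nat_lit 2453430) (nat_lit 40953) (nat_lit 13890332) (nat_lit 0) (nat_lit 0),Row.mk (nat_lit 21504) (nat_lit 38709) (nat_lit 9780664) (nat_lit 40766) (nat_lit 10632301) (nat_lit 0) (nat_lit 0),Row.mk (nat_lit 21672) (nat_lit 38522) (nat_lit 18932203) (nat_lit 40579) (nat_lit 6563098) (nat_lit 0) (nat_lit 0)],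
[Row.mk (nat_lit 15792) (nat_lit 60962) (nat_lit 10588) (nat_lit 61336) (nat_lit 54) (nat_lit 0) (nat_lit 0),Row.mk (nat_lit 15960) (nat_lit 60401) (nat_lit 13208) (nat_lit 60775) (nat_lit 84) (nat_lit 0) (nat_lit 0),Row.mk (nat_lit 16128) (nat_lit 59840) (nat_lit 16470) (nat_lit 60214) (nat_lit 131) (nat_lit 0) (nat_lit 0),Row.mk (nat_lit 16296) (nat_lit 59279) (nat_lit 20530) (nat_lit 59653) (nat_lit 205) (nat_lit 0) (nat_lit 0),Row.mk (nat_lit 16464) (nat_lit 58718) (nat_lit 25577) (nat_lit 59092) (nat_lit 321) (nat_lit 0) (nat_lit 0),Row.mk (nat_lit 16632) (nat_lit 58157) (nat_lit 31846) (nat_lit 58531) (nat_lit 500) (nat_lit 0) (nat_lit 0),Row.mk (nat_lit 16800) (nat_lit 57596) (nat_lit 39619) (nat_lit 57970) (nat_lit 781) (nat_lit 0) (nat_lit 0),Row.mk (nat_lit 16968) (nat_lit 57035) (nat_lit 49240) (nat_lit 57409) (nat_lit 1219) (nat_lit 0) (nat_lit 0),Row.mk (nat_lit 17136) (nat_lit 56474) (nat_lit 61121) (nat_lit 56848) (nat_lit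 1901) (nat_lit 0) (nat_lit 0),Row.mk (nat_lit 17304) (nat_lit 55913) (nat_lit 75747) (nat_lit 56287) (nat_lit 2966) (nat_lit 0) (nat_lit 0),Row.mk (nat_lit 17472) (nat_lit 55352) (nat_lit 93684) (nat_lit 55726) (nat_lit 4627) (nat_lit 0) (nat_lit 0),Row.mk (nat_lit 17640) (nat_lit 54791) (nat_lit 115570) (nat_lit 55165) (nat_lit 7219) (nat_lit 0) (nat_lit 0),Row.mk (nat_lit 17808) (nat_lit 54230) (nat_lit 142100) (nat_lit 54604) (nat_lit 11261) (nat_lit 0) (nat_lit 0),Row.mk (nat_lit 17976) (nat_lit 53669) (nat_lit 173978) (nat_lit 54043) (nat_lit 17566) (nat_lit 0) (nat_lit 0),Row.mk (nat_lit 18144) (nat_lit 53108) (nat_lit 211831) (nat_lit 53482) (nat_lit 27403) (nat_lit 0) (nat_lit 0),Row.mk (nat_lit 18312) (nat_lit 52547) (nat_lit 256051) (nat_lit 52921) (nat_lit 42747) (nat_lit 0) (nat_lit 0),Row.mk (nat_lit 18480) (nat_lit 51986) (nat_lit 306509) (nat_lit 52360) (nat_lit 66683) (nat_lit 0) (nat_lit 0),Row.mk (nat_lit 18648)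 (nat_lit 51425) (nat_lit 362086) (nat_lit 51799) (nat_lit 104022) (nat_lit 0) (nat_lit 0),Row.mk (nat_lit 18816) (nat_lit 50864) (nat_lit 419889) (nat_lit 51238) (nat_lit 162268) (nat_lit 0) (nat_lit 0),Row.mk (nat_lit 18984) (nat_lit 50303) (nat_lit 473972) (nat_lit 50677) (nat_lit 253129) (nat_lit 0) (nat_lit 0),Row.mk (nat_lit 19152) (nat_lit 49742) (nat_lit 513265) (nat_lit 50116) (nat_lit 394867) (nat_lit 0) (nat_lit 0),Row.mk (nat_lit 19320) (nat_lit 49181) (nat_lit 518265) (nat_lit 49555) (nat_lit 615970) (nat_lit 0) (nat_lit 0),Row.mk (nat_lit 19488) (nat_lit 48620) (nat_lit 455756) (nat_lit 48994) (nat_lit 960877) (nat_lit 0) (nat_lit 0),Row.mk (nat_lit 19656) (nat_lit 47872) (nat_lit 270429) (nat_lit 48433) (nat_lit 1498911) (nat_lit 0) (nat_lit 0),Row.mk (nat_lit 19824) (nat_lit 47685) (nat_lit 2107101) (nat_lit 48246) (nat_lit 102763) (nat_lit 0) (nat_lit 0),Row.mk (nat_lit 19992) (nat_lit 46750) (nat_lit 2049560) (nat_lit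 47498) (nat_lit 710507) (nat_lit 0) (nat_lit 0),Row.mk (nat_lit 20160) (nat_lit 45815) (nat_lit 1651718) (nat_lit 46563) (nat_lit 1795539) (nat_lit 0) (nat_lit 0),Row.mk (nat_lit 20328) (nat_lit 44693) (nat_lit 646322) (nat_lit 45628) (nat_lit 3659218) (nat_lit 0) (nat_lit 0),Row.mk (nat_lit 20496) (nat_lit 44506) (nat_lit 4254498) (nat_lit 45441) (nat_lit 1123018) (nat_lit 0) (nat_lit 0),Row.mk (nat_lit 20664) (nat_lit 43197) (nat_lit 2553699) (nat_lit 44319) (nat_lit 4162689) (nat_lit 0) (nat_lit 0),Row.mk (nat_lit 20832) (nat_lit 43010) (nat_lit 7495049) (nat_lit 44132) (nat_lit 893558) (nat_lit 0) (nat_lit 0),Row.mk (nat_lit 21000) (nat_lit 41327) (nat_lit 3983619) (nat_lit 42823) (nat_lit 6493549) (nat_lit 0) (nat_lit 0),Row.mk (nat_lit 21168) (nat_lit 41140) (nat_lit 10352961) (nat_lit 42636) (nat_lit 2732769) (nat_lit 0) (nat_lit 0),Row.mk (nat_lit 21336) (nat_lit 38896) (nat_lit 2453430) (nat_lit 40953) (nat_lit 13890332)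 (nat_lit 0) (nat_lit 0),Row.mk (nat_lit 21504) (nat_lit 38709) (nat_lit 9780664) (nat_lit 40766) (nat_lit 10632301) (nat_lit 0) (nat_lit 0),Row.mk (nat_lit 21672) (nat_lit 38522) (nat_lit 18932203) (nat_lit 40579) (nat_lit 6563098) (nat_lit 0) (nat_lit 0),Row.mk (nat_lit 21840) (nat_lit 38335) (nat_lit 30362254) (nat_lit 40392) (nat_lit 1480762) (nat_lit 0) (nat_lit 0)],
[Row.mk (nat_lit 15792) (nat_lit 60962) (nat_lit 10588) (nat_lit 61336) (nat_lit 54) (nat_lit 0) (nat_lit 0),Row.mk (nat_lit 15960) (nat_lit 60401) (nat_lit 13208) (nat_lit 60775) (nat_lit 84) (nat_lit 0) (nat_lit 0),Row.mk (nat_lit 16128) (nat_lit 59840) (nat_lit 16470) (nat_lit 60214) (nat_lit 131) (nat_lit 0) (nat_lit 0),Row.mk (nat_lit 16296) (nat_lit 59279) (nat_lit 20530) (nat_lit 59653) (nat_lit 205) (nat_lit 0) (nat_lit 0),Row.mk (nat_lit 16464) (nat_lit 58718) (nat_lit 25577) (nat_lit 59092) (nat_lit 321) (nat_lit 0) (nat_lit 0),Row.mk (nat_lit 16632) (nat_lit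 58157) (nat_lit 31846) (nat_lit 58531) (nat_lit 500) (nat_lit 0) (nat_lit 0),Row.mk (nat_lit 16800) (nat_lit 57596) (nat_lit 39619) (nat_lit 57970) (nat_lit 781) (nat_lit 0) (nat_lit 0),Row.mk (nat_lit 16968) (nat_lit 57035) (nat_lit 49240) (nat_lit 57409) (nat_lit 1219) (nat_lit 0) (nat_lit 0),Row.mk (nat_lit 17136) (nat_lit 56474) (nat_lit 61121) (nat_lit 56848) (nat_lit 1901) (nat_lit 0) (nat_lit 0),Row.mk (nat_lit 17304) (nat_lit 55913) (nat_lit 75747) (nat_lit 56287) (nat_lit 2966) (nat_lit 0) (nat_lit 0),Row.mk (nat_lit 17472) (nat_lit 55352) (nat_lit 93684) (nat_lit 55726) (nat_lit 4627) (nat_lit 0) (nat_lit 0),Row.mk (nat_lit 17640) (nat_lit 54791) (nat_lit 115570) (nat_lit 55165) (nat_lit 7219) (nat_lit 0) (nat_lit 0),Row.mk (nat_lit 17808) (nat_lit 54230) (nat_lit 142100) (nat_lit 54604) (nat_lit 11261) (nat_lit 0) (nat_lit 0),Row.mk (nat_lit 17976) (nat_lit 53669) (nat_lit 173978) (nat_lit 54043) (nat_lit 17566) (nat_lit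 0) (nat_lit 0),Row.mk (nat_lit 18144) (nat_lit 53108) (nat_lit 211831) (nat_lit 53482) (nat_lit 27403) (nat_lit 0) (nat_lit 0),Row.mk (nat_lit 18312) (nat_lit 52547) (nat_lit 256051) (nat_lit 52921) (nat_lit 42747) (nat_lit 0) (nat_lit 0),Row.mk (nat_lit 18480) (nat_lit 51986) (nat_lit 306509) (nat_lit 52360) (nat_lit 66683) (nat_lit 0) (nat_lit 0),Row.mk (nat_lit 18648) (nat_lit 51425) (nat_lit 362086) (nat_lit 51799) (nat_lit 104022) (nat_lit 0) (nat_lit 0),Row.mk (nat_lit 18816) (nat_lit 50864) (nat_lit 419889) (nat_lit 51238) (nat_lit 162268) (nat_lit 0) (nat_lit 0),Row.mk (nat_lit 18984) (nat_lit 50303) (nat_lit 473972) (nat_lit 50677) (nat_lit 253129) (nat_lit 0) (nat_lit 0),Row.mk (nat_lit 19152) (nat_lit 49742) (nat_lit 513265) (nat_lit 50116) (nat_lit 394867) (nat_lit 0) (nat_lit 0),Row.mk (nat_lit 19320) (nat_lit 49181) (nat_lit 518265) (nat_lit 49555) (nat_lit 615970) (nat_lit 0) (nat_lit 0),Row.mk (nat_lit 19488) (nat_lit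 48620) (nat_lit 455756) (nat_lit 48994) (nat_lit 960877) (nat_lit 0) (nat_lit 0),Row.mk (nat_lit 19656) (nat_lit 47872) (nat_lit 270429) (nat_lit 48433) (nat_lit 1498911) (nat_lit 0) (nat_lit 0),Row.mk (nat_lit 19824) (nat_lit 47685) (nat_lit 2107101) (nat_lit 48246) (nat_lit 102763) (nat_lit 0) (nat_lit 0),Row.mk (nat_lit 19992) (nat_lit 46750) (nat_lit 2049560) (nat_lit 47498) (nat_lit 710507) (nat_lit 0) (nat_lit 0),Row.mk (nat_lit 20160) (nat_lit 45815) (nat_lit 1651718) (nat_lit 46563) (nat_lit 1795539) (nat_lit 0) (nat_lit 0),Row.mk (nat_lit 20328) (nat_lit 44693) (nat_lit 646322) (nat_lit 45628) (nat_lit 3659218) (nat_lit 0) (nat_lit 0),Row.mk (nat_lit 20496) (nat_lit 44506) (nat_lit 4254498) (nat_lit 45441) (nat_lit 1123018) (nat_lit 0) (nat_lit 0),Row.mk (nat_lit 20664) (nat_lit 43197) (nat_lit 2553699) (nat_lit 44319) (nat_lit 4162689) (nat_lit 0) (nat_lit 0),Row.mk (nat_lit 20832) (nat_lit 43010) (nat_lit 7495049) (nat_lit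 44132) (nat_lit 893558) (nat_lit 0) (nat_lit 0),Row.mk (nat_lit 21000) (nat_lit 41327) (nat_lit 3983619) (nat_lit 42823) (nat_lit 6493549) (nat_lit 0) (nat_lit 0),Row.mk (nat_lit 21168) (nat_lit 41140) (nat_lit 10352961) (nat_lit 42636) (nat_lit 2732769) (nat_lit 0) (nat_lit 0),Row.mk (nat_lit 21336) (nat_lit 38896) (nat_lit 2453430) (nat_lit 40953) (nat_lit 13890332) (nat_lit 0) (nat_lit 0),Row.mk (nat_lit 21504) (nat_lit 38709) (nat_lit 9780664) (nat_lit 40766) (nat_lit 10632301) (nat_lit 0) (nat_lit 0),Row.mk (nat_lit 21672) (nat_lit 38522) (nat_lit 18932203) (nat_lit 40579) (nat_lit 6563098) (nat_lit 0) (nat_lit 0),Row.mk (nat_lit 21840) (nat_lit 38335) (nat_lit 30362254) (nat_lit 40392) (nat_lit 1480762) (nat_lit 0) (nat_lit 0),Row.mk (nat_lit 22008) (nat_lit 31603) (nat_lit 6078706) (nat_lit 38148) (nat_lit 33692452) (nat_lit 0) (nat_lit 0)],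
[Row.mk (nat_lit 15792) (nat_lit 60962) (nat_lit 10588) (nat_lit 61336) (nat_lit 54) (nat_lit 0) (nat_lit 0),Row.mk (nat_lit 15960) (nat_lit 60401) (nat_lit 13208) (nat_lit 60775) (nat_lit 84) (nat_lit 0) (nat_lit 0),Row.mk (nat_lit 16128) (nat_lit 59840) (nat_lit 16470) (nat_lit 60214) (nat_lit 131) (nat_lit 0) (nat_lit 0),Row.mk (nat_lit 16296) (nat_lit 59279) (nat_lit 20530) (nat_lit 59653) (nat_lit 205) (nat_lit 0) (nat_lit 0),Row.mk (nat_lit 16464) (nat_lit 58718) (nat_lit 25577) (nat_lit 59092) (nat_lit 321) (nat_lit 0) (nat_lit 0),Row.mk (nat_lit 16632) (nat_lit 58157) (nat_lit 31846) (nat_lit 58531) (nat_lit 500) (nat_lit 0) (nat_lit 0),Row.mk (nat_lit 16800) (nat_lit 57596) (nat_lit 39619) (nat_lit 57970) (nat_lit 781) (nat_lit 0) (nat_lit 0),Row.mk (nat_lit 16968) (nat_lit 57035) (nat_lit 49240) (nat_lit 57409) (nat_lit 1219) (nat_lit 0) (nat_lit 0),Row.mk (nat_lit 17136) (nat_lit 56474) (nat_lit 61121) (nat_lit 56848) (nat_lit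 1901) (nat_lit 0) (nat_lit 0),Row.mk (nat_lit 17304) (nat_lit 55913) (nat_lit 75747) (nat_lit 56287) (nat_lit 2966) (nat_lit 0) (nat_lit 0),Row.mk (nat_lit 17472) (nat_lit 55352) (nat_lit 93684) (nat_lit 55726) (nat_lit 4627) (nat_lit 0) (nat_lit 0),Row.mk (nat_lit 17640) (nat_lit 54791) (nat_lit 115570) (nat_lit 55165) (nat_lit 7219) (nat_lit 0) (nat_lit 0),Row.mk (nat_lit 17808) (nat_lit 54230) (nat_lit 142100) (nat_lit 54604) (nat_lit 11261) (nat_lit 0) (nat_lit 0),Row.mk (nat_lit 17976) (nat_lit 53669) (nat_lit 173978) (nat_lit 54043) (nat_lit 17566) (nat_lit 0) (nat_lit 0),Row.mk (nat_lit 18144) (nat_lit 53108) (nat_lit 211831) (nat_lit 53482) (nat_lit 27403) (nat_lit 0) (nat_lit 0),Row.mk (nat_lit 18312) (nat_lit 52547) (nat_lit 256051) (nat_lit 52921) (nat_lit 42747) (nat_lit 0) (nat_lit 0),Row.mk (nat_lit 18480) (nat_lit 51986) (nat_lit 306509) (nat_lit 52360) (nat_lit 66683) (nat_lit 0) (nat_lit 0),Row.mk (nat_lit 18648)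 (nat_lit 51425) (nat_lit 362086) (nat_lit 51799) (nat_lit 104022) (nat_lit 0) (nat_lit 0),Row.mk (nat_lit 18816) (nat_lit 50864) (nat_lit 419889) (nat_lit 51238) (nat_lit 162268) (nat_lit 0) (nat_lit 0),Row.mk (nat_lit 18984) (nat_lit 50303) (nat_lit 473972) (nat_lit 50677) (nat_lit 253129) (nat_lit 0) (nat_lit 0),Row.mk (nat_lit 19152) (nat_lit 49742) (nat_lit 513265) (nat_lit 50116) (nat_lit 394867) (nat_lit 0) (nat_lit 0),Row.mk (nat_lit 19320) (nat_lit 49181) (nat_lit 518265) (nat_lit 49555) (nat_lit 615970) (nat_lit 0) (nat_lit 0),Row.mk (nat_lit 19488) (nat_lit 48620) (nat_lit 455756) (nat_lit 48994) (nat_lit 960877) (nat_lit 0) (nat_lit 0),Row.mk (nat_lit 19656) (nat_lit 47872) (nat_lit 270429) (nat_lit 48433) (nat_lit 1498911) (nat_lit 0) (nat_lit 0),Row.mk (nat_lit 19824) (nat_lit 47685) (nat_lit 2107101) (nat_lit 48246) (nat_lit 102763) (nat_lit 0) (nat_lit 0),Row.mk (nat_lit 19992) (nat_lit 46750) (nat_lit 2049560) (nat_lit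 47498) (nat_lit 710507) (nat_lit 0) (nat_lit 0),Row.mk (nat_lit 20160) (nat_lit 45815) (nat_lit 1651718) (nat_lit 46563) (nat_lit 1795539) (nat_lit 0) (nat_lit 0),Row.mk (nat_lit 20328) (nat_lit 44693) (nat_lit 646322) (nat_lit 45628) (nat_lit 3659218) (nat_lit 0) (nat_lit 0),Row.mk (nat_lit 20496) (nat_lit 44506) (nat_lit 4254498) (nat_lit 45441) (nat_lit 1123018) (nat_lit 0) (nat_lit 0),Row.mk (nat_lit 20664) (nat_lit 43197) (nat_lit 2553699) (nat_lit 44319) (nat_lit 4162689) (nat_lit 0) (nat_lit 0),Row.mk (nat_lit 20832) (nat_lit 43010) (nat_lit 7495049) (nat_lit 44132) (nat_lit 893558) (nat_lit 0) (nat_lit 0),Row.mk (nat_lit 21000) (nat_lit 41327) (nat_lit 3983619) (nat_lit 42823) (nat_lit 6493549) (nat_lit 0) (nat_lit 0),Row.mk (nat_lit 21168) (nat_lit 41140) (nat_lit 10352961) (nat_lit 42636) (nat_lit 2732769) (nat_lit 0) (nat_lit 0),Row.mk (nat_lit 21336) (nat_lit 38896) (nat_lit 2453430) (nat_lit 40953) (nat_lit 13890332)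 (nat_lit 0) (nat_lit 0),Row.mk (nat_lit 21504) (nat_lit 38709) (nat_lit 9780664) (nat_lit 40766) (nat_lit 10632301) (nat_lit 0) (nat_lit 0),Row.mk (nat_lit 21672) (nat_lit 38522) (nat_lit 18932203) (nat_lit 40579) (nat_lit 6563098) (nat_lit 0) (nat_lit 0),Row.mk (nat_lit 21840) (nat_lit 38335) (nat_lit 30362254) (nat_lit 40392) (nat_lit 1480762) (nat_lit 0) (nat_lit 0),Row.mk (nat_lit 22008) (nat_lit 31603) (nat_lit 6078706) (nat_lit 38148) (nat_lit 33692452) (nat_lit 0) (nat_lit 0)],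
[Row.mk (nat_lit 15792) (nat_lit 60962) (nat_lit 10588) (nat_lit 61336) (nat_lit 54) (nat_lit 0) (nat_lit 0),Row.mk (nat_lit 15960) (nat_lit 60401) (nat_lit 13208) (nat_lit 60775) (nat_lit 84) (nat_lit 0) (nat_lit 0),Row.mk (nat_lit 16128) (nat_lit 59840) (nat_lit 16470) (nat_lit 60214) (nat_lit 131) (nat_lit 0) (nat_lit 0),Row.mk (nat_lit 16296) (nat_lit 59279) (nat_lit 20530) (nat_lit 59653) (nat_lit 205) (nat_lit 0) (nat_lit 0),Row.mk (nat_lit 16464) (nat_lit 58718) (nat_lit 25577) (nat_lit 59092) (nat_lit 321) (nat_lit 0) (nat_lit 0),Row.mk (nat_lit 16632) (nat_lit 58157) (nat_lit 31846) (nat_lit 58531) (nat_lit 500) (nat_lit 0) (nat_lit 0),Row.mk (nat_lit 16800) (nat_lit 57596) (nat_lit 39619) (nat_lit 57970) (nat_lit 781) (nat_lit 0) (nat_lit 0),Row.mk (nat_lit 16968) (nat_lit 57035) (nat_lit 49240) (nat_lit 57409) (nat_lit 1219) (nat_lit 0) (nat_lit 0),Row.mk (nat_lit 17136) (nat_lit 56474) (nat_lit 61121) (nat_lit 56848) (nat_lit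 1901) (nat_lit 0) (nat_lit 0),Row.mk (nat_lit 17304) (nat_lit 55913) (nat_lit 75747) (nat_lit 56287) (nat_lit 2966) (nat_lit 0) (nat_lit 0),Row.mk (nat_lit 17472) (nat_lit 55352) (nat_lit 93684) (nat_lit 55726) (nat_lit 4627) (nat_lit 0) (nat_lit 0),Row.mk (nat_lit 17640) (nat_lit 54791) (nat_lit 115570) (nat_lit 55165) (nat_lit 7219) (nat_lit 0) (nat_lit 0),Row.mk (nat_lit 17808) (nat_lit 54230) (nat_lit 142100) (nat_lit 54604) (nat_lit 11261) (nat_lit 0) (nat_lit 0),Row.mk (nat_lit 17976) (nat_lit 53669) (nat_lit 173978) (nat_lit 54043) (nat_lit 17566) (nat_lit 0) (nat_lit 0),Row.mk (nat_lit 18144) (nat_lit 53108) (nat_lit 211831) (nat_lit 53482) (nat_lit 27403) (nat_lit 0) (nat_lit 0),Row.mk (nat_lit 18312) (nat_lit 52547) (nat_lit 256051) (nat_lit 52921) (nat_lit 42747) (nat_lit 0) (nat_lit 0),Row.mk (nat_lit 18480) (nat_lit 51986) (nat_lit 306509) (nat_lit 52360) (nat_lit 66683) (nat_lit 0) (nat_lit 0),Row.mk (nat_lit 18648)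 (nat_lit 51425) (nat_lit 362086) (nat_lit 51799) (nat_lit 104022) (nat_lit 0) (nat_lit 0),Row.mk (nat_lit 18816) (nat_lit 50864) (nat_lit 419889) (nat_lit 51238) (nat_lit 162268) (nat_lit 0) (nat_lit 0),Row.mk (nat_lit 18984) (nat_lit 50303) (nat_lit 473972) (nat_lit 50677) (nat_lit 253129) (nat_lit 0) (nat_lit 0),Row.mk (nat_lit 19152) (nat_lit 49742) (nat_lit 513265) (nat_lit 50116) (nat_lit 394867) (nat_lit 0) (nat_lit 0),Row.mk (nat_lit 19320) (nat_lit 49181) (nat_lit 518265) (nat_lit 49555) (nat_lit 615970) (nat_lit 0) (nat_lit 0),Row.mk (nat_lit 19488) (nat_lit 48620) (nat_lit 455756) (nat_lit 48994) (nat_lit 960877) (nat_lit 0) (nat_lit 0),Row.mk (nat_lit 19656) (nat_lit 47872) (nat_lit 270429) (nat_lit 48433) (nat_lit 1498911) (nat_lit 0) (nat_lit 0),Row.mk (nat_lit 19824) (nat_lit 47685) (nat_lit 2107101) (nat_lit 48246) (nat_lit 102763) (nat_lit 0) (nat_lit 0),Row.mk (nat_lit 19992) (nat_lit 46750) (nat_lit 2049560) (nat_lit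 47498) (nat_lit 710507) (nat_lit 0) (nat_lit 0),Row.mk (nat_lit 20160) (nat_lit 45815) (nat_lit 1651718) (nat_lit 46563) (nat_lit 1795539) (nat_lit 0) (nat_lit 0),Row.mk (nat_lit 20328) (nat_lit 44693) (nat_lit 646322) (nat_lit 45628) (nat_lit 3659218) (nat_lit 0) (nat_lit 0),Row.mk (nat_lit 20496) (nat_lit 44506) (nat_lit 4254498) (nat_lit 45441) (nat_lit 1123018) (nat_lit 0) (nat_lit 0),Row.mk (nat_lit 20664) (nat_lit 43197) (nat_lit 2553699) (nat_lit 44319) (nat_lit 4162689) (nat_lit 0) (nat_lit 0),Row.mk (nat_lit 20832) (nat_lit 43010) (nat_lit 7495049) (nat_lit 44132) (nat_lit 893558) (nat_lit 0) (nat_lit 0),Row.mk (nat_lit 21000) (nat_lit 41327) (nat_lit 3983619) (nat_lit 42823) (nat_lit 6493549) (nat_lit 0) (nat_lit 0),Row.mk (nat_lit 21168) (nat_lit 41140) (nat_lit 10352961) (nat_lit 42636) (nat_lit 2732769) (nat_lit 0) (nat_lit 0),Row.mk (nat_lit 21336) (nat_lit 38896) (nat_lit 2453430) (nat_lit 40953) (nat_lit 13890332)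 (nat_lit 0) (nat_lit 0),Row.mk (nat_lit 21504) (nat_lit 38709) (nat_lit 9780664) (nat_lit 40766) (nat_lit 10632301) (nat_lit 0) (nat_lit 0),Row.mk (nat_lit 21672) (nat_lit 38522) (nat_lit 18932203) (nat_lit 40579) (nat_lit 6563098) (nat_lit 0) (nat_lit 0),Row.mk (nat_lit 21840) (nat_lit 38335) (nat_lit 30362254) (nat_lit 40392) (nat_lit 1480762) (nat_lit 0) (nat_lit 0),Row.mk (nat_lit 22008) (nat_lit 31603) (nat_lit 6078706) (nat_lit 38148) (nat_lit 33692452) (nat_lit 0) (nat_lit 0),Row.mk (nat_lit 22176) (nat_lit 31416) (nat_lit 15980765) (nat_lit 37961) (nat_lit 33692452) (nat_lit 0) (nat_lit 0)],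
[Row.mk (nat_lit 15624) (nat_lit 32912) (nat_lit 8521) (nat_lit 61710) (nat_lit 8380086) (nat_lit 0) (nat_lit 0),Row.mk (nat_lit 15792) (nat_lit 60962) (nat_lit 10588) (nat_lit 61336) (nat_lit 54) (nat_lit 0) (nat_lit 0),Row.mk (nat_lit 15960) (nat_lit 60401) (nat_lit 13208) (nat_lit 60775) (nat_lit 84) (nat_lit 0) (nat_lit 0),Row.mk (nat_lit 16128) (nat_lit 59840) (nat_lit 16470) (nat_lit 60214) (nat_lit 131) (nat_lit 0) (nat_lit 0),Row.mk (nat_lit 16296) (nat_lit 59279) (nat_lit 20530) (nat_lit 59653) (nat_lit 205) (nat_lit 0) (nat_lit 0),Row.mk (nat_lit 16464) (nat_lit 58718) (nat_lit 25577) (nat_lit 59092) (nat_lit 321) (nat_lit 0) (nat_lit 0),Row.mk (nat_lit 16632) (nat_lit 58157) (nat_lit 31846) (nat_lit 58531) (nat_lit 500) (nat_lit 0) (nat_lit 0),Row.mk (nat_lit 16800) (nat_lit 57596) (nat_lit 39619) (nat_lit 57970) (nat_lit 781) (nat_lit 0) (nat_lit 0),Row.mk (nat_lit 16968) (nat_lit 57035) (nat_lit 49240) (nat_lit 57409)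 (nat_lit 1219) (nat_lit 0) (nat_lit 0),Row.mk (nat_lit 17136) (nat_lit 56474) (nat_lit 61121) (nat_lit 56848) (nat_lit 1901) (nat_lit 0) (nat_lit 0),Row.mk (nat_lit 17304) (nat_lit 55913) (nat_lit 75747) (nat_lit 56287) (nat_lit 2966) (nat_lit 0) (nat_lit 0),Row.mk (nat_lit 17472) (nat_lit 55352) (nat_lit 93684) (nat_lit 55726) (nat_lit 4627) (nat_lit 0) (nat_lit 0),Row.mk (nat_lit 17640) (nat_lit 54791) (nat_lit 115570) (nat_lit 55165) (nat_lit 7219) (nat_lit 0) (nat_lit 0),Row.mk (nat_lit 17808) (nat_lit 54230) (nat_lit 142100) (nat_lit 54604) (nat_lit 11261) (nat_lit 0) (nat_lit 0),Row.mk (nat_lit 17976) (nat_lit 53669) (nat_lit 173978) (nat_lit 54043) (nat_lit 17566) (nat_lit 0) (nat_lit 0),Row.mk (nat_lit 18144) (nat_lit 53108) (nat_lit 211831) (nat_lit 53482) (nat_lit 27403) (nat_lit 0) (nat_lit 0),Row.mk (nat_lit 18312) (nat_lit 52547) (nat_lit 256051) (nat_lit 52921) (nat_lit 42747) (nat_lit 0) (nat_lit 0),Row.mk (nat_lit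 18480) (nat_lit 51986) (nat_lit 306509) (nat_lit 52360) (nat_lit 66683) (nat_lit 0) (nat_lit 0),Row.mk (nat_lit 18648) (nat_lit 51425) (nat_lit 362086) (nat_lit 51799) (nat_lit 104022) (nat_lit 0) (nat_lit 0),Row.mk (nat_lit 18816) (nat_lit 50864) (nat_lit 419889) (nat_lit 51238) (nat_lit 162268) (nat_lit 0) (nat_lit 0),Row.mk (nat_lit 18984) (nat_lit 50303) (nat_lit 473972) (nat_lit 50677) (nat_lit 253129) (nat_lit 0) (nat_lit 0),Row.mk (nat_lit 19152) (nat_lit 49742) (nat_lit 513265) (nat_lit 50116) (nat_lit 394867) (nat_lit 0) (nat_lit 0),Row.mk (nat_lit 19320) (nat_lit 49181) (nat_lit 518265) (nat_lit 49555) (nat_lit 615970) (nat_lit 0) (nat_lit 0),Row.mk (nat_lit 19488) (nat_lit 48620) (nat_lit 455756) (nat_lit 48994) (nat_lit 960877) (nat_lit 0) (nat_lit 0),Row.mk (nat_lit 19656) (nat_lit 47872) (nat_lit 270429) (nat_lit 48433) (nat_lit 1498911) (nat_lit 0) (nat_lit 0),Row.mk (nat_lit 19824) (nat_lit 47685) (nat_lit 2107101)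 (nat_lit 48246) (nat_lit 102763) (nat_lit 0) (nat_lit 0),Row.mk (nat_lit 19992) (nat_lit 46750) (nat_lit 2049560) (nat_lit 47498) (nat_lit 710507) (nat_lit 0) (nat_lit 0),Row.mk (nat_lit 20160) (nat_lit 45815) (nat_lit 1651718) (nat_lit 46563) (nat_lit 1795539) (nat_lit 0) (nat_lit 0),Row.mk (nat_lit 20328) (nat_lit 44693) (nat_lit 646322) (nat_lit 45628) (nat_lit 3659218) (nat_lit 0) (nat_lit 0),Row.mk (nat_lit 20496) (nat_lit 44506) (nat_lit 4254498) (nat_lit 45441) (nat_lit 1123018) (nat_lit 0) (nat_lit 0),Row.mk (nat_lit 20664) (nat_lit 43197) (nat_lit 2553699) (nat_lit 44319) (nat_lit 4162689) (nat_lit 0) (nat_lit 0),Row.mk (nat_lit 20832) (nat_lit 43010) (nat_lit 7495049) (nat_lit 44132) (nat_lit 893558) (nat_lit 0) (nat_lit 0),Row.mk (nat_lit 21000) (nat_lit 41327) (nat_lit 3983619) (nat_lit 42823) (nat_lit 6493549) (nat_lit 0) (nat_lit 0),Row.mk (nat_lit 21168) (nat_lit 41140) (nat_lit 10352961) (nat_lit 42636) (nat_lit 2732769)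 (nat_lit 0) (nat_lit 0),Row.mk (nat_lit 21336) (nat_lit 38896) (nat_lit 2453430) (nat_lit 40953) (nat_lit 13890332) (nat_lit 0) (nat_lit 0),Row.mk (nat_lit 21504) (nat_lit 38709) (nat_lit 9780664) (nat_lit 40766) (nat_lit 10632301) (nat_lit 0) (nat_lit 0),Row.mk (nat_lit 21672) (nat_lit 38522) (nat_lit 18932203) (nat_lit 40579) (nat_lit 6563098) (nat_lit 0) (nat_lit 0),Row.mk (nat_lit 21840) (nat_lit 38335) (nat_lit 30362254) (nat_lit 40392) (nat_lit 1480762) (nat_lit 0) (nat_lit 0),Row.mk (nat_lit 22008) (nat_lit 31603) (nat_lit 6078706) (nat_lit 38148) (nat_lit 33692452) (nat_lit 0) (nat_lit 0),Row.mk (nat_lit 22176) (nat_lit 31416) (nat_lit 15980765) (nat_lit 37961) (nat_lit 33692452) (nat_lit 0) (nat_lit 0),Row.mk (nat_lit 22344) (nat_lit 31229) (nat_lit 28348198) (nat_lit 37774) (nat_lit 33692452) (nat_lit 0) (nat_lit 0)],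
[Row.mk (nat_lit 15624) (nat_lit 32912) (nat_lit 8521) (nat_lit 61710) (nat_lit 8380086) (nat_lit 0) (nat_lit 0),Row.mk (nat_lit 15792) (nat_lit 60962) (nat_lit 10588) (nat_lit 61336) (nat_lit 54) (nat_lit 0) (nat_lit 0),Row.mk (nat_lit 15960) (nat_lit 60401) (nat_lit 13208) (nat_lit 60775) (nat_lit 84) (nat_lit 0) (nat_lit 0),Row.mk (nat_lit 16128) (nat_lit 59840) (nat_lit 16470) (nat_lit 60214) (nat_lit 131) (nat_lit 0) (nat_lit 0),Row.mk (nat_lit 16296) (nat_lit 59279) (nat_lit 20530) (nat_lit 59653) (nat_lit 205) (nat_lit 0) (nat_lit 0),Row.mk (nat_lit 16464) (nat_lit 58718) (nat_lit 25577) (nat_lit 59092) (nat_lit 321) (nat_lit 0) (nat_lit 0),Row.mk (nat_lit 16632) (nat_lit 58157) (nat_lit 31846) (nat_lit 58531) (nat_lit 500) (nat_lit 0) (nat_lit 0),Row.mk (nat_lit 16800) (nat_lit 57596) (nat_lit 39619) (nat_lit 57970) (nat_lit 781) (nat_lit 0) (nat_lit 0),Row.mk (nat_lit 16968) (nat_lit 57035) (nat_lit 49240) (nat_lit 57409)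 (nat_lit 1219) (nat_lit 0) (nat_lit 0),Row.mk (nat_lit 17136) (nat_lit 56474) (nat_lit 61121) (nat_lit 56848) (nat_lit 1901) (nat_lit 0) (nat_lit 0),Row.mk (nat_lit 17304) (nat_lit 55913) (nat_lit 75747) (nat_lit 56287) (nat_lit 2966) (nat_lit 0) (nat_lit 0),Row.mk (nat_lit 17472) (nat_lit 55352) (nat_lit 93684) (nat_lit 55726) (nat_lit 4627) (nat_lit 0) (nat_lit 0),Row.mk (nat_lit 17640) (nat_lit 54791) (nat_lit 115570) (nat_lit 55165) (nat_lit 7219) (nat_lit 0) (nat_lit 0),Row.mk (nat_lit 17808) (nat_lit 54230) (nat_lit 142100) (nat_lit 54604) (nat_lit 11261) (nat_lit 0) (nat_lit 0),Row.mk (nat_lit 17976) (nat_lit 53669) (nat_lit 173978) (nat_lit 54043) (nat_lit 17566) (nat_lit 0) (nat_lit 0),Row.mk (nat_lit 18144) (nat_lit 53108) (nat_lit 211831) (nat_lit 53482) (nat_lit 27403) (nat_lit 0) (nat_lit 0),Row.mk (nat_lit 18312) (nat_lit 52547) (nat_lit 256051) (nat_lit 52921) (nat_lit 42747) (nat_lit 0) (nat_lit 0),Row.mk (nat_lit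 18480) (nat_lit 51986) (nat_lit 306509) (nat_lit 52360) (nat_lit 66683) (nat_lit 0) (nat_lit 0),Row.mk (nat_lit 18648) (nat_lit 51425) (nat_lit 362086) (nat_lit 51799) (nat_lit 104022) (nat_lit 0) (nat_lit 0),Row.mk (nat_lit 18816) (nat_lit 50864) (nat_lit 419889) (nat_lit 51238) (nat_lit 162268) (nat_lit 0) (nat_lit 0),Row.mk (nat_lit 18984) (nat_lit 50303) (nat_lit 473972) (nat_lit 50677) (nat_lit 253129) (nat_lit 0) (nat_lit 0),Row.mk (nat_lit 19152) (nat_lit 49742) (nat_lit 513265) (nat_lit 50116) (nat_lit 394867) (nat_lit 0) (nat_lit 0),Row.mk (nat_lit 19320) (nat_lit 49181) (nat_lit 518265) (nat_lit 49555) (nat_lit 615970) (nat_lit 0) (nat_lit 0),Row.mk (nat_lit 19488) (nat_lit 48620) (nat_lit 455756) (nat_lit 48994) (nat_lit 960877) (nat_lit 0) (nat_lit 0),Row.mk (nat_lit 19656) (nat_lit 47872) (nat_lit 270429) (nat_lit 48433) (nat_lit 1498911) (nat_lit 0) (nat_lit 0),Row.mk (nat_lit 19824) (nat_lit 47685) (nat_lit 2107101)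 (nat_lit 48246) (nat_lit 102763) (nat_lit 0) (nat_lit 0),Row.mk (nat_lit 19992) (nat_lit 46750) (nat_lit 2049560) (nat_lit 47498) (nat_lit 710507) (nat_lit 0) (nat_lit 0),Row.mk (nat_lit 20160) (nat_lit 45815) (nat_lit 1651718) (nat_lit 46563) (nat_lit 1795539) (nat_lit 0) (nat_lit 0),Row.mk (nat_lit 20328) (nat_lit 44693) (nat_lit 646322) (nat_lit 45628) (nat_lit 3659218) (nat_lit 0) (nat_lit 0),Row.mk (nat_lit 20496) (nat_lit 44506) (nat_lit 4254498) (nat_lit 45441) (nat_lit 1123018) (nat_lit 0) (nat_lit 0),Row.mk (nat_lit 20664) (nat_lit 43197) (nat_lit 2553699) (nat_lit 44319) (nat_lit 4162689) (nat_lit 0) (nat_lit 0),Row.mk (nat_lit 20832) (nat_lit 43010) (nat_lit 7495049) (nat_lit 44132) (nat_lit 893558) (nat_lit 0) (nat_lit 0),Row.mk (nat_lit 21000) (nat_lit 41327) (nat_lit 3983619) (nat_lit 42823) (nat_lit 6493549) (nat_lit 0) (nat_lit 0),Row.mk (nat_lit 21168) (nat_lit 41140) (nat_lit 10352961) (nat_lit 42636) (nat_lit 2732769)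 (nat_lit 0) (nat_lit 0),Row.mk (nat_lit 21336) (nat_lit 38896) (nat_lit 2453430) (nat_lit 40953) (nat_lit 13890332) (nat_lit 0) (nat_lit 0),Row.mk (nat_lit 21504) (nat_lit 38709) (nat_lit 9780664) (nat_lit 40766) (nat_lit 10632301) (nat_lit 0) (nat_lit 0),Row.mk (nat_lit 21672) (nat_lit 38522) (nat_lit 18932203) (nat_lit 40579) (nat_lit 6563098) (nat_lit 0) (nat_lit 0),Row.mk (nat_lit 21840) (nat_lit 38335) (nat_lit 30362254) (nat_lit 40392) (nat_lit 1480762) (nat_lit 0) (nat_lit 0),Row.mk (nat_lit 22008) (nat_lit 31603) (nat_lit 6078706) (nat_lit 38148) (nat_lit 33692452) (nat_lit 0) (nat_lit 0),Row.mk (nat_lit 22176) (nat_lit 31416) (nat_lit 15980765) (nat_lit 37961) (nat_lit 33692452) (nat_lit 0) (nat_lit 0),Row.mk (nat_lit 22344) (nat_lit 31229) (nat_lit 28348198) (nat_lit 37774) (nat_lit 33692452) (nat_lit 0) (nat_lit 0),Row.mk (nat_lit 22512) (nat_lit 31042) (nat_lit 43794824) (nat_lit 37587) (nat_lit 33692452) (nat_lit 0) (nat_lit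 0)],
[Row.mk (nat_lit 15624) (nat_lit 32912) (nat_lit 8521) (nat_lit 61710) (nat_lit 8380086) (nat_lit 0) (nat_lit 0),Row.mk (nat_lit 15792) (nat_lit 60962) (nat_lit 10588) (nat_lit 61336) (nat_lit 54) (nat_lit 0) (nat_lit 0),Row.mk (nat_lit 15960) (nat_lit 60401) (nat_lit 13208) (nat_lit 60775) (nat_lit 84) (nat_lit 0) (nat_lit 0),Row.mk (nat_lit 16128) (nat_lit 59840) (nat_lit 16470) (nat_lit 60214) (nat_lit 131) (nat_lit 0) (nat_lit 0),Row.mk (nat_lit 16296) (nat_lit 59279) (nat_lit 20530) (nat_lit 59653) (nat_lit 205) (nat_lit 0) (nat_lit 0),Row.mk (nat_lit 16464) (nat_lit 58718) (nat_lit 25577) (nat_lit 59092) (nat_lit 321) (nat_lit 0) (nat_lit 0),Row.mk (nat_lit 16632) (nat_lit 58157) (nat_lit 31846) (nat_lit 58531) (nat_lit 500) (nat_lit 0) (nat_lit 0),Row.mk (nat_lit 16800) (nat_lit 57596) (nat_lit 39619) (nat_lit 57970) (nat_lit 781) (nat_lit 0) (nat_lit 0),Row.mk (nat_lit 16968) (nat_lit 57035) (nat_lit 49240) (nat_lit 57409)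 (nat_lit 1219) (nat_lit 0) (nat_lit 0),Row.mk (nat_lit 17136) (nat_lit 56474) (nat_lit 61121) (nat_lit 56848) (nat_lit 1901) (nat_lit 0) (nat_lit 0),Row.mk (nat_lit 17304) (nat_lit 55913) (nat_lit 75747) (nat_lit 56287) (nat_lit 2966) (nat_lit 0) (nat_lit 0),Row.mk (nat_lit 17472) (nat_lit 55352) (nat_lit 93684) (nat_lit 55726) (nat_lit 4627) (nat_lit 0) (nat_lit 0),Row.mk (nat_lit 17640) (nat_lit 54791) (nat_lit 115570) (nat_lit 55165) (nat_lit 7219) (nat_lit 0) (nat_lit 0),Row.mk (nat_lit 17808) (nat_lit 54230) (nat_lit 142100) (nat_lit 54604) (nat_lit 11261) (nat_lit 0) (nat_lit 0),Row.mk (nat_lit 17976) (nat_lit 53669) (nat_lit 173978) (nat_lit 54043) (nat_lit 17566) (nat_lit 0) (nat_lit 0),Row.mk (nat_lit 18144) (nat_lit 53108) (nat_lit 211831) (nat_lit 53482) (nat_lit 27403) (nat_lit 0) (nat_lit 0),Row.mk (nat_lit 18312) (nat_lit 52547) (nat_lit 256051) (nat_lit 52921) (nat_lit 42747) (nat_lit 0) (nat_lit 0),Row.mk (nat_lit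 18480) (nat_lit 51986) (nat_lit 306509) (nat_lit 52360) (nat_lit 66683) (nat_lit 0) (nat_lit 0),Row.mk (nat_lit 18648) (nat_lit 51425) (nat_lit 362086) (nat_lit 51799) (nat_lit 104022) (nat_lit 0) (nat_lit 0),Row.mk (nat_lit 18816) (nat_lit 50864) (nat_lit 419889) (nat_lit 51238) (nat_lit 162268) (nat_lit 0) (nat_lit 0),Row.mk (nat_lit 18984) (nat_lit 50303) (nat_lit 473972) (nat_lit 50677) (nat_lit 253129) (nat_lit 0) (nat_lit 0),Row.mk (nat_lit 19152) (nat_lit 49742) (nat_lit 513265) (nat_lit 50116) (nat_lit 394867) (nat_lit 0) (nat_lit 0),Row.mk (nat_lit 19320) (nat_lit 49181) (nat_lit 518265) (nat_lit 49555) (nat_lit 615970) (nat_lit 0) (nat_lit 0),Row.mk (nat_lit 19488) (nat_lit 48620) (nat_lit 455756) (nat_lit 48994) (nat_lit 960877) (nat_lit 0) (nat_lit 0),Row.mk (nat_lit 19656) (nat_lit 47872) (nat_lit 270429) (nat_lit 48433) (nat_lit 1498911) (nat_lit 0) (nat_lit 0),Row.mk (nat_lit 19824) (nat_lit 47685) (nat_lit 2107101)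 (nat_lit 48246) (nat_lit 102763) (nat_lit 0) (nat_lit 0),Row.mk (nat_lit 19992) (nat_lit 46750) (nat_lit 2049560) (nat_lit 47498) (nat_lit 710507) (nat_lit 0) (nat_lit 0),Row.mk (nat_lit 20160) (nat_lit 45815) (nat_lit 1651718) (nat_lit 46563) (nat_lit 1795539) (nat_lit 0) (nat_lit 0),Row.mk (nat_lit 20328) (nat_lit 44693) (nat_lit 646322) (nat_lit 45628) (nat_lit 3659218) (nat_lit 0) (nat_lit 0),Row.mk (nat_lit 20496) (nat_lit 44506) (nat_lit 4254498) (nat_lit 45441) (nat_lit 1123018) (nat_lit 0) (nat_lit 0),Row.mk (nat_lit 20664) (nat_lit 43197) (nat_lit 2553699) (nat_lit 44319) (nat_lit 4162689) (nat_lit 0) (nat_lit 0),Row.mk (nat_lit 20832) (nat_lit 43010) (nat_lit 7495049) (nat_lit 44132) (nat_lit 893558) (nat_lit 0) (nat_lit 0),Row.mk (nat_lit 21000) (nat_lit 41327) (nat_lit 3983619) (nat_lit 42823) (nat_lit 6493549) (nat_lit 0) (nat_lit 0),Row.mk (nat_lit 21168) (nat_lit 41140) (nat_lit 10352961) (nat_lit 42636) (nat_lit 2732769)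 (nat_lit 0) (nat_lit 0),Row.mk (nat_lit 21336) (nat_lit 38896) (nat_lit 2453430) (nat_lit 40953) (nat_lit 13890332) (nat_lit 0) (nat_lit 0),Row.mk (nat_lit 21504) (nat_lit 38709) (nat_lit 9780664) (nat_lit 40766) (nat_lit 10632301) (nat_lit 0) (nat_lit 0),Row.mk (nat_lit 21672) (nat_lit 38522) (nat_lit 18932203) (nat_lit 40579) (nat_lit 6563098) (nat_lit 0) (nat_lit 0),Row.mk (nat_lit 21840) (nat_lit 38335) (nat_lit 30362254) (nat_lit 40392) (nat_lit 1480762) (nat_lit 0) (nat_lit 0),Row.mk (nat_lit 22008) (nat_lit 31603) (nat_lit 6078706) (nat_lit 38148) (nat_lit 33692452) (nat_lit 0) (nat_lit 0),Row.mk (nat_lit 22176) (nat_lit 31416) (nat_lit 15980765) (nat_lit 37961) (nat_lit 33692452) (nat_lit 0) (nat_lit 0),Row.mk (nat_lit 22344) (nat_lit 31229) (nat_lit 28348198) (nat_lit 37774) (nat_lit 33692452) (nat_lit 0) (nat_lit 0),Row.mk (nat_lit 22512) (nat_lit 31042) (nat_lit 43794824) (nat_lit 37587) (nat_lit 33692452) (nat_lit 0) (nat_lit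 0),Row.mk (nat_lit 22680) (nat_lit 30855) (nat_lit 63087287) (nat_lit 37400) (nat_lit 33692452) (nat_lit 0) (nat_lit 0)],
[Row.mk (nat_lit 15624) (nat_lit 32912) (nat_lit 8521) (nat_lit 61710) (nat_lit 8380086) (nat_lit 0) (nat_lit 0),Row.mk (nat_lit 15792) (nat_lit 60962) (nat_lit 10588) (nat_lit 61336) (nat_lit 54) (nat_lit 0) (nat_lit 0),Row.mk (nat_lit 15960) (nat_lit 60401) (nat_lit 13208) (nat_lit 60775) (nat_lit 84) (nat_lit 0) (nat_lit 0),Row.mk (nat_lit 16128) (nat_lit 59840) (nat_lit 16470) (nat_lit 60214) (nat_lit 131) (nat_lit 0) (nat_lit 0),Row.mk (nat_lit 16296) (nat_lit 59279) (nat_lit 20530) (nat_lit 59653) (nat_lit 205) (nat_lit 0) (nat_lit 0),Row.mk (nat_lit 16464) (nat_lit 58718) (nat_lit 25577) (nat_lit 59092) (nat_lit 321) (nat_lit 0) (nat_lit 0),Row.mk (nat_lit 16632) (nat_lit 58157) (nat_lit 31846) (nat_lit 58531) (nat_lit 500) (nat_lit 0) (nat_lit 0),Row.mk (nat_lit 16800) (nat_lit 57596) (nat_lit 39619) (nat_lit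 57970) (nat_lit 781) (nat_lit 0) (nat_lit 0),Row.mk (nat_lit 16968) (nat_lit 57035) (nat_lit 49240) (nat_lit 57409) (nat_lit 1219) (nat_lit 0) (nat_lit 0),Row.mk (nat_lit 17136) (nat_lit 56474) (nat_lit 61121) (nat_lit 56848) (nat_lit 1901) (nat_lit 0) (nat_lit 0),Row.mk (nat_lit 17304) (nat_lit 55913) (nat_lit 75747) (nat_lit 56287) (nat_lit 2966) (nat_lit 0) (nat_lit 0),Row.mk (nat_lit 17472) (nat_lit 55352) (nat_lit 93684) (nat_lit 55726) (nat_lit 4627) (nat_lit 0) (nat_lit 0),Row.mk (nat_lit 17640) (nat_lit 54791) (nat_lit 115570) (nat_lit 55165) (nat_lit 7219) (nat_lit 0) (nat_lit 0),Row.mk (nat_lit 17808) (nat_lit 54230) (nat_lit 142100) (nat_lit 54604) (nat_lit 11261) (nat_lit 0) (nat_lit 0),Row.mk (nat_lit 17976) (nat_lit 53669) (nat_lit 173978) (nat_lit 54043) (nat_lit 17566) (nat_lit 0) (nat_lit 0),Row.mk (nat_lit 18144) (nat_lit 53108) (nat_lit 211831) (nat_lit 53482) (nat_lit 27403) (nat_lit 0) (nat_lit 0),Row.mk (nat_lit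 18312) (nat_lit 52547) (nat_lit 256051) (nat_lit 52921) (nat_lit 42747) (nat_lit 0) (nat_lit 0),Row.mk (nat_lit 18480) (nat_lit 51986) (nat_lit 306509) (nat_lit 52360) (nat_lit 66683) (nat_lit 0) (nat_lit 0),Row.mk (nat_lit 18648) (nat_lit 51425) (nat_lit 362086) (nat_lit 51799) (nat_lit 104022) (nat_lit 0) (nat_lit 0),Row.mk (nat_lit 18816) (nat_lit 50864) (nat_lit 419889) (nat_lit 51238) (nat_lit 162268) (nat_lit 0) (nat_lit 0),Row.mk (nat_lit 18984) (nat_lit 50303) (nat_lit 473972) (nat_lit 50677) (nat_lit 253129) (nat_lit 0) (nat_lit 0),Row.mk (nat_lit 19152) (nat_lit 49742) (nat_lit 513265) (nat_lit 50116) (nat_lit 394867) (nat_lit 0) (nat_lit 0),Row.mk (nat_lit 19320) (nat_lit 49181) (nat_lit 518265) (nat_lit 49555) (nat_lit 615970) (nat_lit 0) (nat_lit 0),Row.mk (nat_lit 19488) (nat_lit 48620) (nat_lit 455756) (nat_lit 48994) (nat_lit 960877) (nat_lit 0) (nat_lit 0),Row.mk (nat_lit 19656) (nat_lit 47872) (nat_lit 270429) (nat_lit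 48433) (nat_lit 1498911) (nat_lit 0) (nat_lit 0),Row.mk (nat_lit 19824) (nat_lit 47685) (nat_lit 2107101) (nat_lit 48246) (nat_lit 102763) (nat_lit 0) (nat_lit 0),Row.mk (nat_lit 19992) (nat_lit 46750) (nat_lit 2049560) (nat_lit 47498) (nat_lit 710507) (nat_lit 0) (nat_lit 0),Row.mk (nat_lit 20160) (nat_lit 45815) (nat_lit 1651718) (nat_lit 46563) (nat_lit 1795539) (nat_lit 0) (nat_lit 0),Row.mk (nat_lit 20328) (nat_lit 44693) (nat_lit 646322) (nat_lit 45628) (nat_lit 3659218) (nat_lit 0) (nat_lit 0),Row.mk (nat_lit 20496) (nat_lit 44506) (nat_lit 4254498) (nat_lit 45441) (nat_lit 1123018) (nat_lit 0) (nat_lit 0),Row.mk (nat_lit 20664) (nat_lit 43197) (nat_lit 2553699) (nat_lit 44319) (nat_lit 4162689) (nat_lit 0) (nat_lit 0),Row.mk (nat_lit 20832) (nat_lit 43010) (nat_lit 7495049) (nat_lit 44132) (nat_lit 893558) (nat_lit 0) (nat_lit 0),Row.mk (nat_lit 21000) (nat_lit 41327) (nat_lit 3983619) (nat_lit 42823) (nat_lit 6493549) (nat_lit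 0) (nat_lit 0),Row.mk (nat_lit 21168) (nat_lit 41140) (nat_lit 10352961) (nat_lit 42636) (nat_lit 2732769) (nat_lit 0) (nat_lit 0),Row.mk (nat_lit 21336) (nat_lit 38896) (nat_lit 2453430) (nat_lit 40953) (nat_lit 13890332) (nat_lit 0) (nat_lit 0),Row.mk (nat_lit 21504) (nat_lit 38709) (nat_lit 9780664) (nat_lit 40766) (nat_lit 10632301) (nat_lit 0) (nat_lit 0),Row.mk (nat_lit 21672) (nat_lit 38522) (nat_lit 18932203) (nat_lit 40579) (nat_lit 6563098) (nat_lit 0) (nat_lit 0),Row.mk (nat_lit 21840) (nat_lit 38335) (nat_lit 30362254) (nat_lit 40392) (nat_lit 1480762) (nat_lit 0) (nat_lit 0),Row.mk (nat_lit 22008) (nat_lit 31603) (nat_lit 6078706) (nat_lit 38148) (nat_lit 33692452) (nat_lit 0) (nat_lit 0),Row.mk (nat_lit 22176) (nat_lit 31416) (nat_lit 15980765) (nat_lit 37961) (nat_lit 33692452) (nat_lit 0) (nat_lit 0),Row.mk (nat_lit 22344) (nat_lit 31229) (nat_lit 28348198) (nat_lit 37774) (nat_lit 33692452) (nat_lit 0) (nat_lit 0),Row.mk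 (nat_lit 22512) (nat_lit 31042) (nat_lit 43794824) (nat_lit 37587) (nat_lit 33692452) (nat_lit 0) (nat_lit 0),Row.mk (nat_lit 22680) (nat_lit 30855) (nat_lit 63087287) (nat_lit 37400) (nat_lit 33692452) (nat_lit 0) (nat_lit 0),Row.mk (nat_lit 22848) (nat_lit 30668) (nat_lit 87183107) (nat_lit 37213) (nat_lit 33692452) (nat_lit 0) (nat_lit 0)],
[Row.mk (nat_lit 15624) (nat_lit 32912) (nat_lit 8521) (nat_lit 61710) (nat_lit 8380086) (nat_lit 0) (nat_lit 0),Row.mk (nat_lit 15792) (nat_lit 60962) (nat_lit 10588) (nat_lit 61336) (nat_lit 54) (nat_lit 0) (nat_lit 0),Row.mk (nat_lit 15960) (nat_lit 60401) (nat_lit 13208) (nat_lit 60775) (nat_lit 84) (nat_lit 0) (nat_lit 0),Row.mk (nat_lit 16128) (nat_lit 59840) (nat_lit 16470) (nat_lit 60214) (nat_lit 131) (nat_lit 0) (nat_lit 0),Row.mk (nat_lit 16296) (nat_lit 59279) (nat_lit 20530) (nat_lit 59653) (nat_lit 205) (nat_lit 0) (nat_lit 0),Row.mk (nat_lit 16464) (nat_lit 58718) (nat_lit 25577)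 (nat_lit 59092) (nat_lit 321) (nat_lit 0) (nat_lit 0),Row.mk (nat_lit 16632) (nat_lit 58157) (nat_lit 31846) (nat_lit 58531) (nat_lit 500) (nat_lit 0) (nat_lit 0),Row.mk (nat_lit 16800) (nat_lit 57596) (nat_lit 39619) (nat_lit 57970) (nat_lit 781) (nat_lit 0) (nat_lit 0),Row.mk (nat_lit 16968) (nat_lit 57035) (nat_lit 49240) (nat_lit 57409) (nat_lit 1219) (nat_lit 0) (nat_lit 0),Row.mk (nat_lit 17136) (nat_lit 56474) (nat_lit 61121) (nat_lit 56848) (nat_lit 1901) (nat_lit 0) (nat_lit 0),Row.mk (nat_lit 17304) (nat_lit 55913) (nat_lit 75747) (nat_lit 56287) (nat_lit 2966) (nat_lit 0) (nat_lit 0),Row.mk (nat_lit 17472) (nat_lit 55352) (nat_lit 93684) (nat_lit 55726) (nat_lit 4627) (nat_lit 0) (nat_lit 0),Row.mk (nat_lit 17640) (nat_lit 54791) (nat_lit 115570) (nat_lit 55165) (nat_lit 7219) (nat_lit 0) (nat_lit 0),Row.mk (nat_lit 17808) (nat_lit 54230) (nat_lit 142100) (nat_lit 54604) (nat_lit 11261) (nat_lit 0) (nat_lit 0),Row.mk (nat_lit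 17976) (nat_lit 53669) (nat_lit 173978) (nat_lit 54043) (nat_lit 17566) (nat_lit 0) (nat_lit 0),Row.mk (nat_lit 18144) (nat_lit 53108) (nat_lit 211831) (nat_lit 53482) (nat_lit 27403) (nat_lit 0) (nat_lit 0),Row.mk (nat_lit 18312) (nat_lit 52547) (nat_lit 256051) (nat_lit 52921) (nat_lit 42747) (nat_lit 0) (nat_lit 0),Row.mk (nat_lit 18480) (nat_lit 51986) (nat_lit 306509) (nat_lit 52360) (nat_lit 66683) (nat_lit 0) (nat_lit 0),Row.mk (nat_lit 18648) (nat_lit 51425) (nat_lit 362086) (nat_lit 51799) (nat_lit 104022) (nat_lit 0) (nat_lit 0),Row.mk (nat_lit 18816) (nat_lit 50864) (nat_lit 419889) (nat_lit 51238) (nat_lit 162268) (nat_lit 0) (nat_lit 0),Row.mk (nat_lit 18984) (nat_lit 50303) (nat_lit 473972) (nat_lit 50677) (nat_lit 253129) (nat_lit 0) (nat_lit 0),Row.mk (nat_lit 19152) (nat_lit 49742) (nat_lit 513265) (nat_lit 50116) (nat_lit 394867) (nat_lit 0) (nat_lit 0),Row.mk (nat_lit 19320) (nat_lit 49181) (nat_lit 518265) (nat_lit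 49555) (nat_lit 615970) (nat_lit 0) (nat_lit 0),Row.mk (nat_lit 19488) (nat_lit 48620) (nat_lit 455756) (nat_lit 48994) (nat_lit 960877) (nat_lit 0) (nat_lit 0),Row.mk (nat_lit 19656) (nat_lit 47872) (nat_lit 270429) (nat_lit 48433) (nat_lit 1498911) (nat_lit 0) (nat_lit 0),Row.mk (nat_lit 19824) (nat_lit 47685) (nat_lit 2107101) (nat_lit 48246) (nat_lit 102763) (nat_lit 0) (nat_lit 0),Row.mk (nat_lit 19992) (nat_lit 46750) (nat_lit 2049560) (nat_lit 47498) (nat_lit 710507) (nat_lit 0) (nat_lit 0),Row.mk (nat_lit 20160) (nat_lit 45815) (nat_lit 1651718) (nat_lit 46563) (nat_lit 1795539) (nat_lit 0) (nat_lit 0),Row.mk (nat_lit 20328) (nat_lit 44693) (nat_lit 646322) (nat_lit 45628) (nat_lit 3659218) (nat_lit 0) (nat_lit 0),Row.mk (nat_lit 20496) (nat_lit 44506) (nat_lit 4254498) (nat_lit 45441) (nat_lit 1123018) (nat_lit 0) (nat_lit 0),Row.mk (nat_lit 20664) (nat_lit 43197) (nat_lit 2553699) (nat_lit 44319) (nat_lit 4162689) (nat_lit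 0) (nat_lit 0),Row.mk (nat_lit 20832) (nat_lit 43010) (nat_lit 7495049) (nat_lit 44132) (nat_lit 893558) (nat_lit 0) (nat_lit 0),Row.mk (nat_lit 21000) (nat_lit 41327) (nat_lit 3983619) (nat_lit 42823) (nat_lit 6493549) (nat_lit 0) (nat_lit 0),Row.mk (nat_lit 21168) (nat_lit 41140) (nat_lit 10352961) (nat_lit 42636) (nat_lit 2732769) (nat_lit 0) (nat_lit 0),Row.mk (nat_lit 21336) (nat_lit 38896) (nat_lit 2453430) (nat_lit 40953) (nat_lit 13890332) (nat_lit 0) (nat_lit 0),Row.mk (nat_lit 21504) (nat_lit 38709) (nat_lit 9780664) (nat_lit 40766) (nat_lit 10632301) (nat_lit 0) (nat_lit 0),Row.mk (nat_lit 21672) (nat_lit 38522) (nat_lit 18932203) (nat_lit 40579) (nat_lit 6563098) (nat_lit 0) (nat_lit 0),Row.mk (nat_lit 21840) (nat_lit 38335) (nat_lit 30362254) (nat_lit 40392) (nat_lit 1480762) (nat_lit 0) (nat_lit 0),Row.mk (nat_lit 22008) (nat_lit 31603) (nat_lit 6078706) (nat_lit 38148) (nat_lit 33692452) (nat_lit 0) (nat_lit 0),Row.mk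 (nat_lit 22176) (nat_lit 31416) (nat_lit 15980765) (nat_lit 37961) (nat_lit 33692452) (nat_lit 0) (nat_lit 0),Row.mk (nat_lit 22344) (nat_lit 31229) (nat_lit 28348198) (nat_lit 37774) (nat_lit 33692452) (nat_lit 0) (nat_lit 0),Row.mk (nat_lit 22512) (nat_lit 31042) (nat_lit 43794824) (nat_lit 37587) (nat_lit 33692452) (nat_lit 0) (nat_lit 0),Row.mk (nat_lit 22680) (nat_lit 30855) (nat_lit 63087287) (nat_lit 37400) (nat_lit 33692452) (nat_lit 0) (nat_lit 0),Row.mk (nat_lit 22848) (nat_lit 30668) (nat_lit 87183107) (nat_lit 37213) (nat_lit 33692452) (nat_lit 0) (nat_lit 0)],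
[Row.mk (nat_lit 15624) (nat_lit 32912) (nat_lit 8521) (nat_lit 61710) (nat_lit 8380086) (nat_lit 0) (nat_lit 0),Row.mk (nat_lit 15792) (nat_lit 60962) (nat_lit 10588) (nat_lit 61336) (nat_lit 54) (nat_lit 0) (nat_lit 0),Row.mk (nat_lit 15960) (nat_lit 60401) (nat_lit 13208) (nat_lit 60775) (nat_lit 84) (nat_lit 0) (nat_lit 0),Row.mk (nat_lit 16128) (nat_lit 59840) (nat_lit 16470) (nat_lit 60214) (nat_lit 131) (nat_lit 0) (nat_lit 0),Row.mk (nat_lit 16296) (nat_lit 59279) (nat_lit 20530) (nat_lit 59653) (nat_lit 205) (nat_lit 0) (nat_lit 0),Row.mk (nat_lit 16464) (nat_lit 58718) (nat_lit 25577) (nat_lit 59092) (nat_lit 321) (nat_lit 0) (nat_lit 0),Row.mk (nat_lit 16632) (nat_lit 58157) (nat_lit 31846) (nat_lit 58531) (nat_lit 500) (nat_lit 0) (nat_lit 0),Row.mk (nat_lit 16800) (nat_lit 57596) (nat_lit 39619) (nat_lit 57970) (nat_lit 781) (nat_lit 0) (nat_lit 0),Row.mk (nat_lit 16968) (nat_lit 57035) (nat_lit 49240) (nat_lit 57409)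 (nat_lit 1219) (nat_lit 0) (nat_lit 0),Row.mk (nat_lit 17136) (nat_lit 56474) (nat_lit 61121) (nat_lit 56848) (nat_lit 1901) (nat_lit 0) (nat_lit 0),Row.mk (nat_lit 17304) (nat_lit 55913) (nat_lit 75747) (nat_lit 56287) (nat_lit 2966) (nat_lit 0) (nat_lit 0),Row.mk (nat_lit 17472) (nat_lit 55352) (nat_lit 93684) (nat_lit 55726) (nat_lit 4627) (nat_lit 0) (nat_lit 0),Row.mk (nat_lit 17640) (nat_lit 54791) (nat_lit 115570) (nat_lit 55165) (nat_lit 7219) (nat_lit 0) (nat_lit 0),Row.mk (nat_lit 17808) (nat_lit 54230) (nat_lit 142100) (nat_lit 54604) (nat_lit 11261) (nat_lit 0) (nat_lit 0),Row.mk (nat_lit 17976) (nat_lit 53669) (nat_lit 173978) (nat_lit 54043) (nat_lit 17566) (nat_lit 0) (nat_lit 0),Row.mk (nat_lit 18144) (nat_lit 53108) (nat_lit 211831) (nat_lit 53482) (nat_lit 27403) (nat_lit 0) (nat_lit 0),Row.mk (nat_lit 18312) (nat_lit 52547) (nat_lit 256051) (nat_lit 52921) (nat_lit 42747) (nat_lit 0) (nat_lit 0),Row.mk (nat_lit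 18480) (nat_lit 51986) (nat_lit 306509) (nat_lit 52360) (nat_lit 66683) (nat_lit 0) (nat_lit 0),Row.mk (nat_lit 18648) (nat_lit 51425) (nat_lit 362086) (nat_lit 51799) (nat_lit 104022) (nat_lit 0) (nat_lit 0),Row.mk (nat_lit 18816) (nat_lit 50864) (nat_lit 419889) (nat_lit 51238) (nat_lit 162268) (nat_lit 0) (nat_lit 0),Row.mk (nat_lit 18984) (nat_lit 50303) (nat_lit 473972) (nat_lit 50677) (nat_lit 253129) (nat_lit 0) (nat_lit 0),Row.mk (nat_lit 19152) (nat_lit 49742) (nat_lit 513265) (nat_lit 50116) (nat_lit 394867) (nat_lit 0) (nat_lit 0),Row.mk (nat_lit 19320) (nat_lit 49181) (nat_lit 518265) (nat_lit 49555) (nat_lit 615970) (nat_lit 0) (nat_lit 0),Row.mk (nat_lit 19488) (nat_lit 48620) (nat_lit 455756) (nat_lit 48994) (nat_lit 960877) (nat_lit 0) (nat_lit 0),Row.mk (nat_lit 19656) (nat_lit 47872) (nat_lit 270429) (nat_lit 48433) (nat_lit 1498911) (nat_lit 0) (nat_lit 0),Row.mk (nat_lit 19824) (nat_lit 47685) (nat_lit 2107101)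 (nat_lit 48246) (nat_lit 102763) (nat_lit 0) (nat_lit 0),Row.mk (nat_lit 19992) (nat_lit 46750) (nat_lit 2049560) (nat_lit 47498) (nat_lit 710507) (nat_lit 0) (nat_lit 0),Row.mk (nat_lit 20160) (nat_lit 45815) (nat_lit 1651718) (nat_lit 46563) (nat_lit 1795539) (nat_lit 0) (nat_lit 0),Row.mk (nat_lit 20328) (nat_lit 44693) (nat_lit 646322) (nat_lit 45628) (nat_lit 3659218) (nat_lit 0) (nat_lit 0),Row.mk (nat_lit 20496) (nat_lit 44506) (nat_lit 4254498) (nat_lit 45441) (nat_lit 1123018) (nat_lit 0) (nat_lit 0),Row.mk (nat_lit 20664) (nat_lit 43197) (nat_lit 2553699) (nat_lit 44319) (nat_lit 4162689) (nat_lit 0) (nat_lit 0),Row.mk (nat_lit 20832) (nat_lit 43010) (nat_lit 7495049) (nat_lit 44132) (nat_lit 893558) (nat_lit 0) (nat_lit 0),Row.mk (nat_lit 21000) (nat_lit 41327) (nat_lit 3983619) (nat_lit 42823) (nat_lit 6493549) (nat_lit 0) (nat_lit 0),Row.mk (nat_lit 21168) (nat_lit 41140) (nat_lit 10352961) (nat_lit 42636) (nat_lit 2732769)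 (nat_lit 0) (nat_lit 0),Row.mk (nat_lit 21336) (nat_lit 38896) (nat_lit 2453430) (nat_lit 40953) (nat_lit 13890332) (nat_lit 0) (nat_lit 0),Row.mk (nat_lit 21504) (nat_lit 38709) (nat_lit 9780664) (nat_lit 40766) (nat_lit 10632301) (nat_lit 0) (nat_lit 0),Row.mk (nat_lit 21672) (nat_lit 38522) (nat_lit 18932203) (nat_lit 40579) (nat_lit 6563098) (nat_lit 0) (nat_lit 0),Row.mk (nat_lit 21840) (nat_lit 38335) (nat_lit 30362254) (nat_lit 40392) (nat_lit 1480762) (nat_lit 0) (nat_lit 0),Row.mk (nat_lit 22008) (nat_lit 31603) (nat_lit 6078706) (nat_lit 38148) (nat_lit 33692452) (nat_lit 0) (nat_lit 0),Row.mk (nat_lit 22176) (nat_lit 31416) (nat_lit 15980765) (nat_lit 37961) (nat_lit 33692452) (nat_lit 0) (nat_lit 0),Row.mk (nat_lit 22344) (nat_lit 31229) (nat_lit 28348198) (nat_lit 37774) (nat_lit 33692452) (nat_lit 0) (nat_lit 0),Row.mk (nat_lit 22512) (nat_lit 31042) (nat_lit 43794824) (nat_lit 37587) (nat_lit 33692452) (nat_lit 0) (nat_lit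 0),Row.mk (nat_lit 22680) (nat_lit 30855) (nat_lit 63087287) (nat_lit 37400) (nat_lit 33692452) (nat_lit 0) (nat_lit 0),Row.mk (nat_lit 22848) (nat_lit 30668) (nat_lit 87183107) (nat_lit 37213) (nat_lit 33692452) (nat_lit 0) (nat_lit 0),Row.mk (nat_lit 23016) (nat_lit 30481) (nat_lit 117278206) (nat_lit 37026) (nat_lit 33692452) (nat_lit 0) (nat_lit 0)],
[Row.mk (nat_lit 15624) (nat_lit 32912) (nat_lit 8521) (nat_lit 61710) (nat_lit 8380086) (nat_lit 0) (nat_lit 0),Row.mk (nat_lit 15792) (nat_lit 60962) (nat_lit 10588) (nat_lit 61336) (nat_lit 54) (nat_lit 0) (nat_lit 0),Row.mk (nat_lit 15960) (nat_lit 60401) (nat_lit 13208) (nat_lit 60775) (nat_lit 84) (nat_lit 0) (nat_lit 0),Row.mk (nat_lit 16128) (nat_lit 59840) (nat_lit 16470) (nat_lit 60214) (nat_lit 131) (nat_lit 0) (nat_lit 0),Row.mk (nat_lit 16296) (nat_lit 59279) (nat_lit 20530) (nat_lit 59653) (nat_lit 205) (nat_lit 0) (nat_lit 0),Row.mk (nat_lit 16464) (nat_lit 58718) (nat_lit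 25577) (nat_lit 59092) (nat_lit 321) (nat_lit 0) (nat_lit 0),Row.mk (nat_lit 16632) (nat_lit 58157) (nat_lit 31846) (nat_lit 58531) (nat_lit 500) (nat_lit 0) (nat_lit 0),Row.mk (nat_lit 16800) (nat_lit 57596) (nat_lit 39619) (nat_lit 57970) (nat_lit 781) (nat_lit 0) (nat_lit 0),Row.mk (nat_lit 16968) (nat_lit 57035) (nat_lit 49240) (nat_lit 57409) (nat_lit 1219) (nat_lit 0) (nat_lit 0),Row.mk (nat_lit 17136) (nat_lit 56474) (nat_lit 61121) (nat_lit 56848) (nat_lit 1901) (nat_lit 0) (nat_lit 0),Row.mk (nat_lit 17304) (nat_lit 55913) (nat_lit 75747) (nat_lit 56287) (nat_lit 2966) (nat_lit 0) (nat_lit 0),Row.mk (nat_lit 17472) (nat_lit 55352) (nat_lit 93684) (nat_lit 55726) (nat_lit 4627) (nat_lit 0) (nat_lit 0),Row.mk (nat_lit 17640) (nat_lit 54791) (nat_lit 115570) (nat_lit 55165) (nat_lit 7219) (nat_lit 0) (nat_lit 0),Row.mk (nat_lit 17808) (nat_lit 54230) (nat_lit 142100) (nat_lit 54604) (nat_lit 11261) (nat_lit 0) (nat_lit 0),Row.mk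 (nat_lit 17976) (nat_lit 53669) (nat_lit 173978) (nat_lit 54043) (nat_lit 17566) (nat_lit 0) (nat_lit 0),Row.mk (nat_lit 18144) (nat_lit 53108) (nat_lit 211831) (nat_lit 53482) (nat_lit 27403) (nat_lit 0) (nat_lit 0),Row.mk (nat_lit 18312) (nat_lit 52547) (nat_lit 256051) (nat_lit 52921) (nat_lit 42747) (nat_lit 0) (nat_lit 0),Row.mk (nat_lit 18480) (nat_lit 51986) (nat_lit 306509) (nat_lit 52360) (nat_lit 66683) (nat_lit 0) (nat_lit 0),Row.mk (nat_lit 18648) (nat_lit 51425) (nat_lit 362086) (nat_lit 51799) (nat_lit 104022) (nat_lit 0) (nat_lit 0),Row.mk (nat_lit 18816) (nat_lit 50864) (nat_lit 419889) (nat_lit 51238) (nat_lit 162268) (nat_lit 0) (nat_lit 0),Row.mk (nat_lit 18984) (nat_lit 50303) (nat_lit 473972) (nat_lit 50677) (nat_lit 253129) (nat_lit 0) (nat_lit 0),Row.mk (nat_lit 19152) (nat_lit 49742) (nat_lit 513265) (nat_lit 50116) (nat_lit 394867) (nat_lit 0) (nat_lit 0),Row.mk (nat_lit 19320) (nat_lit 49181) (nat_lit 518265)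 (nat_lit 49555) (nat_lit 615970) (nat_lit 0) (nat_lit 0),Row.mk (nat_lit 19488) (nat_lit 48620) (nat_lit 455756) (nat_lit 48994) (nat_lit 960877) (nat_lit 0) (nat_lit 0),Row.mk (nat_lit 19656) (nat_lit 47872) (nat_lit 270429) (nat_lit 48433) (nat_lit 1498911) (nat_lit 0) (nat_lit 0),Row.mk (nat_lit 19824) (nat_lit 47685) (nat_lit 2107101) (nat_lit 48246) (nat_lit 102763) (nat_lit 0) (nat_lit 0),Row.mk (nat_lit 19992) (nat_lit 46750) (nat_lit 2049560) (nat_lit 47498) (nat_lit 710507) (nat_lit 0) (nat_lit 0),Row.mk (nat_lit 20160) (nat_lit 45815) (nat_lit 1651718) (nat_lit 46563) (nat_lit 1795539) (nat_lit 0) (nat_lit 0),Row.mk (nat_lit 20328) (nat_lit 44693) (nat_lit 646322) (nat_lit 45628) (nat_lit 3659218) (nat_lit 0) (nat_lit 0),Row.mk (nat_lit 20496) (nat_lit 44506) (nat_lit 4254498) (nat_lit 45441) (nat_lit 1123018) (nat_lit 0) (nat_lit 0),Row.mk (nat_lit 20664) (nat_lit 43197) (nat_lit 2553699) (nat_lit 44319) (nat_lit 4162689)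 (nat_lit 0) (nat_lit 0),Row.mk (nat_lit 20832) (nat_lit 43010) (nat_lit 7495049) (nat_lit 44132) (nat_lit 893558) (nat_lit 0) (nat_lit 0),Row.mk (nat_lit 21000) (nat_lit 41327) (nat_lit 3983619) (nat_lit 42823) (nat_lit 6493549) (nat_lit 0) (nat_lit 0),Row.mk (nat_lit 21168) (nat_lit 41140) (nat_lit 10352961) (nat_lit 42636) (nat_lit 2732769) (nat_lit 0) (nat_lit 0),Row.mk (nat_lit 21336) (nat_lit 38896) (nat_lit 2453430) (nat_lit 40953) (nat_lit 13890332) (nat_lit 0) (nat_lit 0),Row.mk (nat_lit 21504) (nat_lit 38709) (nat_lit 9780664) (nat_lit 40766) (nat_lit 10632301) (nat_lit 0) (nat_lit 0),Row.mk (nat_lit 21672) (nat_lit 38522) (nat_lit 18932203) (nat_lit 40579) (nat_lit 6563098) (nat_lit 0) (nat_lit 0),Row.mk (nat_lit 21840) (nat_lit 38335) (nat_lit 30362254) (nat_lit 40392) (nat_lit 1480762) (nat_lit 0) (nat_lit 0),Row.mk (nat_lit 22008) (nat_lit 31603) (nat_lit 6078706) (nat_lit 38148) (nat_lit 33692452) (nat_lit 0) (nat_lit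 0),Row.mk (nat_lit 22176) (nat_lit 31416) (nat_lit 15980765) (nat_lit 37961) (nat_lit 33692452) (nat_lit 0) (nat_lit 0),Row.mk (nat_lit 22344) (nat_lit 31229) (nat_lit 28348198) (nat_lit 37774) (nat_lit 33692452) (nat_lit 0) (nat_lit 0),Row.mk (nat_lit 22512) (nat_lit 31042) (nat_lit 43794824) (nat_lit 37587) (nat_lit 33692452) (nat_lit 0) (nat_lit 0),Row.mk (nat_lit 22680) (nat_lit 30855) (nat_lit 63087287) (nat_lit 37400) (nat_lit 33692452) (nat_lit 0) (nat_lit 0),Row.mk (nat_lit 22848) (nat_lit 30668) (nat_lit 87183107) (nat_lit 37213) (nat_lit 33692452) (nat_lit 0) (nat_lit 0),Row.mk (nat_lit 23016) (nat_lit 30481) (nat_lit 117278206) (nat_lit 37026) (nat_lit 33692452) (nat_lit 0) (nat_lit 0),Row.mk (nat_lit 23184) (nat_lit 30294) (nat_lit 154866258) (nat_lit 36839) (nat_lit 33692452) (nat_lit 0) (nat_lit 0)],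
[Row.mk (nat_lit 15624) (nat_lit 32912) (nat_lit 8521) (nat_lit 61710) (nat_lit 8380086) (nat_lit 0) (nat_lit 0),Row.mk (nat_lit 15792) (nat_lit 60962) (nat_lit 10588) (nat_lit 61336) (nat_lit 54) (nat_lit 0) (nat_lit 0),Row.mk (nat_lit 15960) (nat_lit 60401) (nat_lit 13208) (nat_lit 60775) (nat_lit 84) (nat_lit 0) (nat_lit 0),Row.mk (nat_lit 16128) (nat_lit 59840) (nat_lit 16470) (nat_lit 60214) (nat_lit 131) (nat_lit 0) (nat_lit 0),Row.mk (nat_lit 16296) (nat_lit 59279) (nat_lit 20530) (nat_lit 59653) (nat_lit 205) (nat_lit 0) (nat_lit 0),Row.mk (nat_lit 16464) (nat_lit 58718) (nat_lit 25577) (nat_lit 59092) (nat_lit 321) (nat_lit 0) (nat_lit 0),Row.mk (nat_lit 16632) (nat_lit 58157) (nat_lit 31846) (nat_lit 58531) (nat_lit 500) (nat_lit 0) (nat_lit 0),Row.mk (nat_lit 16800) (nat_lit 57596) (nat_lit 39619) (nat_lit 57970) (nat_lit 781) (nat_lit 0) (nat_lit 0),Row.mk (nat_lit 16968) (nat_lit 57035) (nat_lit 49240) (nat_lit 57409)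 (nat_lit 1219) (nat_lit 0) (nat_lit 0),Row.mk (nat_lit 17136) (nat_lit 56474) (nat_lit 61121) (nat_lit 56848) (nat_lit 1901) (nat_lit 0) (nat_lit 0),Row.mk (nat_lit 17304) (nat_lit 55913) (nat_lit 75747) (nat_lit 56287) (nat_lit 2966) (nat_lit 0) (nat_lit 0),Row.mk (nat_lit 17472) (nat_lit 55352) (nat_lit 93684) (nat_lit 55726) (nat_lit 4627) (nat_lit 0) (nat_lit 0),Row.mk (nat_lit 17640) (nat_lit 54791) (nat_lit 115570) (nat_lit 55165) (nat_lit 7219) (nat_lit 0) (nat_lit 0),Row.mk (nat_lit 17808) (nat_lit 54230) (nat_lit 142100) (nat_lit 54604) (nat_lit 11261) (nat_lit 0) (nat_lit 0),Row.mk (nat_lit 17976) (nat_lit 53669) (nat_lit 173978) (nat_lit 54043) (nat_lit 17566) (nat_lit 0) (nat_lit 0),Row.mk (nat_lit 18144) (nat_lit 53108) (nat_lit 211831) (nat_lit 53482) (nat_lit 27403) (nat_lit 0) (nat_lit 0),Row.mk (nat_lit 18312) (nat_lit 52547) (nat_lit 256051) (nat_lit 52921) (nat_lit 42747) (nat_lit 0) (nat_lit 0),Row.mk (nat_lit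 18480) (nat_lit 51986) (nat_lit 306509) (nat_lit 52360) (nat_lit 66683) (nat_lit 0) (nat_lit 0),Row.mk (nat_lit 18648) (nat_lit 51425) (nat_lit 362086) (nat_lit 51799) (nat_lit 104022) (nat_lit 0) (nat_lit 0),Row.mk (nat_lit 18816) (nat_lit 50864) (nat_lit 419889) (nat_lit 51238) (nat_lit 162268) (nat_lit 0) (nat_lit 0),Row.mk (nat_lit 18984) (nat_lit 50303) (nat_lit 473972) (nat_lit 50677) (nat_lit 253129) (nat_lit 0) (nat_lit 0),Row.mk (nat_lit 19152) (nat_lit 49742) (nat_lit 513265) (nat_lit 50116) (nat_lit 394867) (nat_lit 0) (nat_lit 0),Row.mk (nat_lit 19320) (nat_lit 49181) (nat_lit 518265) (nat_lit 49555) (nat_lit 615970) (nat_lit 0) (nat_lit 0),Row.mk (nat_lit 19488) (nat_lit 48620) (nat_lit 455756) (nat_lit 48994) (nat_lit 960877) (nat_lit 0) (nat_lit 0),Row.mk (nat_lit 19656) (nat_lit 47872) (nat_lit 270429) (nat_lit 48433) (nat_lit 1498911) (nat_lit 0) (nat_lit 0),Row.mk (nat_lit 19824) (nat_lit 47685) (nat_lit 2107101)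 (nat_lit 48246) (nat_lit 102763) (nat_lit 0) (nat_lit 0),Row.mk (nat_lit 19992) (nat_lit 46750) (nat_lit 2049560) (nat_lit 47498) (nat_lit 710507) (nat_lit 0) (nat_lit 0),Row.mk (nat_lit 20160) (nat_lit 45815) (nat_lit 1651718) (nat_lit 46563) (nat_lit 1795539) (nat_lit 0) (nat_lit 0),Row.mk (nat_lit 20328) (nat_lit 44693) (nat_lit 646322) (nat_lit 45628) (nat_lit 3659218) (nat_lit 0) (nat_lit 0),Row.mk (nat_lit 20496) (nat_lit 44506) (nat_lit 4254498) (nat_lit 45441) (nat_lit 1123018) (nat_lit 0) (nat_lit 0),Row.mk (nat_lit 20664) (nat_lit 43197) (nat_lit 2553699) (nat_lit 44319) (nat_lit 4162689) (nat_lit 0) (nat_lit 0),Row.mk (nat_lit 20832) (nat_lit 43010) (nat_lit 7495049) (nat_lit 44132) (nat_lit 893558) (nat_lit 0) (nat_lit 0),Row.mk (nat_lit 21000) (nat_lit 41327) (nat_lit 3983619) (nat_lit 42823) (nat_lit 6493549) (nat_lit 0) (nat_lit 0),Row.mk (nat_lit 21168) (nat_lit 41140) (nat_lit 10352961) (nat_lit 42636) (nat_lit 2732769)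 (nat_lit 0) (nat_lit 0),Row.mk (nat_lit 21336) (nat_lit 38896) (nat_lit 2453430) (nat_lit 40953) (nat_lit 13890332) (nat_lit 0) (nat_lit 0),Row.mk (nat_lit 21504) (nat_lit 38709) (nat_lit 9780664) (nat_lit 40766) (nat_lit 10632301) (nat_lit 0) (nat_lit 0),Row.mk (nat_lit 21672) (nat_lit 38522) (nat_lit 18932203) (nat_lit 40579) (nat_lit 6563098) (nat_lit 0) (nat_lit 0),Row.mk (nat_lit 21840) (nat_lit 38335) (nat_lit 30362254) (nat_lit 40392) (nat_lit 1480762) (nat_lit 0) (nat_lit 0),Row.mk (nat_lit 22008) (nat_lit 31603) (nat_lit 6078706) (nat_lit 38148) (nat_lit 33692452) (nat_lit 0) (nat_lit 0),Row.mk (nat_lit 22176) (nat_lit 31416) (nat_lit 15980765) (nat_lit 37961) (nat_lit 33692452) (nat_lit 0) (nat_lit 0),Row.mk (nat_lit 22344) (nat_lit 31229) (nat_lit 28348198) (nat_lit 37774) (nat_lit 33692452) (nat_lit 0) (nat_lit 0),Row.mk (nat_lit 22512) (nat_lit 31042) (nat_lit 43794824) (nat_lit 37587) (nat_lit 33692452) (nat_lit 0) (nat_lit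 0),Row.mk (nat_lit 22680) (nat_lit 30855) (nat_lit 63087287) (nat_lit 37400) (nat_lit 33692452) (nat_lit 0) (nat_lit 0),Row.mk (nat_lit 22848) (nat_lit 30668) (nat_lit 87183107) (nat_lit 37213) (nat_lit 33692452) (nat_lit 0) (nat_lit 0),Row.mk (nat_lit 23016) (nat_lit 30481) (nat_lit 117278206) (nat_lit 37026) (nat_lit 33692452) (nat_lit 0) (nat_lit 0),Row.mk (nat_lit 23184) (nat_lit 30294) (nat_lit 154866258) (nat_lit 36839) (nat_lit 33692452) (nat_lit 0) (nat_lit 0),Row.mk (nat_lit 23352) (nat_lit 30107) (nat_lit 201812828) (nat_lit 36652) (nat_lit 33692452) (nat_lit 0) (nat_lit 0)],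
[Row.mk (nat_lit 15624) (nat_lit 32912) (nat_lit 8521) (nat_lit 61710) (nat_lit 8380086) (nat_lit 0) (nat_lit 0),Row.mk (nat_lit 15792) (nat_lit 60962) (nat_lit 10588) (nat_lit 61336) (nat_lit 54) (nat_lit 0) (nat_lit 0),Row.mk (nat_lit 15960) (nat_lit 60401) (nat_lit 13208) (nat_lit 60775) (nat_lit 84) (nat_lit 0) (nat_lit 0),Row.mk (nat_lit 16128) (nat_lit 59840) (nat_lit 16470) (nat_lit 60214) (nat_lit 131) (nat_lit 0) (nat_lit 0),Row.mk (nat_lit 16296) (nat_lit 59279) (nat_lit 20530) (nat_lit 59653) (nat_lit 205) (nat_lit 0) (nat_lit 0),Row.mk (nat_lit 16464) (nat_lit 58718) (nat_lit 25577) (nat_lit 59092) (nat_lit 321) (nat_lit 0) (nat_lit 0),Row.mk (nat_lit 16632) (nat_lit 58157) (nat_lit 31846) (nat_lit 58531) (nat_lit 500) (nat_lit 0) (nat_lit 0),Row.mk (nat_lit 16800) (nat_lit 57596) (nat_lit 39619) (nat_lit 57970) (nat_lit 781) (nat_lit 0) (nat_lit 0),Row.mk (nat_lit 16968) (nat_lit 57035) (nat_lit 49240) (nat_lit 57409)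 (nat_lit 1219) (nat_lit 0) (nat_lit 0),Row.mk (nat_lit 17136) (nat_lit 56474) (nat_lit 61121) (nat_lit 56848) (nat_lit 1901) (nat_lit 0) (nat_lit 0),Row.mk (nat_lit 17304) (nat_lit 55913) (nat_lit 75747) (nat_lit 56287) (nat_lit 2966) (nat_lit 0) (nat_lit 0),Row.mk (nat_lit 17472) (nat_lit 55352) (nat_lit 93684) (nat_lit 55726) (nat_lit 4627) (nat_lit 0) (nat_lit 0),Row.mk (nat_lit 17640) (nat_lit 54791) (nat_lit 115570) (nat_lit 55165) (nat_lit 7219) (nat_lit 0) (nat_lit 0),Row.mk (nat_lit 17808) (nat_lit 54230) (nat_lit 142100) (nat_lit 54604) (nat_lit 11261) (nat_lit 0) (nat_lit 0),Row.mk (nat_lit 17976) (nat_lit 53669) (nat_lit 173978) (nat_lit 54043) (nat_lit 17566) (nat_lit 0) (nat_lit 0),Row.mk (nat_lit 18144) (nat_lit 53108) (nat_lit 211831) (nat_lit 53482) (nat_lit 27403) (nat_lit 0) (nat_lit 0),Row.mk (nat_lit 18312) (nat_lit 52547) (nat_lit 256051) (nat_lit 52921) (nat_lit 42747) (nat_lit 0) (nat_lit 0),Row.mk (nat_lit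 18480) (nat_lit 51986) (nat_lit 306509) (nat_lit 52360) (nat_lit 66683) (nat_lit 0) (nat_lit 0),Row.mk (nat_lit 18648) (nat_lit 51425) (nat_lit 362086) (nat_lit 51799) (nat_lit 104022) (nat_lit 0) (nat_lit 0),Row.mk (nat_lit 18816) (nat_lit 50864) (nat_lit 419889) (nat_lit 51238) (nat_lit 162268) (nat_lit 0) (nat_lit 0),Row.mk (nat_lit 18984) (nat_lit 50303) (nat_lit 473972) (nat_lit 50677) (nat_lit 253129) (nat_lit 0) (nat_lit 0),Row.mk (nat_lit 19152) (nat_lit 49742) (nat_lit 513265) (nat_lit 50116) (nat_lit 394867) (nat_lit 0) (nat_lit 0),Row.mk (nat_lit 19320) (nat_lit 49181) (nat_lit 518265) (nat_lit 49555) (nat_lit 615970) (nat_lit 0) (nat_lit 0),Row.mk (nat_lit 19488) (nat_lit 48620) (nat_lit 455756) (nat_lit 48994) (nat_lit 960877) (nat_lit 0) (nat_lit 0),Row.mk (nat_lit 19656) (nat_lit 47872) (nat_lit 270429) (nat_lit 48433) (nat_lit 1498911) (nat_lit 0) (nat_lit 0),Row.mk (nat_lit 19824) (nat_lit 47685) (nat_lit 2107101)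 (nat_lit 48246) (nat_lit 102763) (nat_lit 0) (nat_lit 0),Row.mk (nat_lit 19992) (nat_lit 46750) (nat_lit 2049560) (nat_lit 47498) (nat_lit 710507) (nat_lit 0) (nat_lit 0),Row.mk (nat_lit 20160) (nat_lit 45815) (nat_lit 1651718) (nat_lit 46563) (nat_lit 1795539) (nat_lit 0) (nat_lit 0),Row.mk (nat_lit 20328) (nat_lit 44693) (nat_lit 646322) (nat_lit 45628) (nat_lit 3659218) (nat_lit 0) (nat_lit 0),Row.mk (nat_lit 20496) (nat_lit 44506) (nat_lit 4254498) (nat_lit 45441) (nat_lit 1123018) (nat_lit 0) (nat_lit 0),Row.mk (nat_lit 20664) (nat_lit 43197) (nat_lit 2553699) (nat_lit 44319) (nat_lit 4162689) (nat_lit 0) (nat_lit 0),Row.mk (nat_lit 20832) (nat_lit 43010) (nat_lit 7495049) (nat_lit 44132) (nat_lit 893558) (nat_lit 0) (nat_lit 0),Row.mk (nat_lit 21000) (nat_lit 41327) (nat_lit 3983619) (nat_lit 42823) (nat_lit 6493549) (nat_lit 0) (nat_lit 0),Row.mk (nat_lit 21168) (nat_lit 41140) (nat_lit 10352961) (nat_lit 42636) (nat_lit 2732769)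 (nat_lit 0) (nat_lit 0),Row.mk (nat_lit 21336) (nat_lit 38896) (nat_lit 2453430) (nat_lit 40953) (nat_lit 13890332) (nat_lit 0) (nat_lit 0),Row.mk (nat_lit 21504) (nat_lit 38709) (nat_lit 9780664) (nat_lit 40766) (nat_lit 10632301) (nat_lit 0) (nat_lit 0),Row.mk (nat_lit 21672) (nat_lit 38522) (nat_lit 18932203) (nat_lit 40579) (nat_lit 6563098) (nat_lit 0) (nat_lit 0),Row.mk (nat_lit 21840) (nat_lit 38335) (nat_lit 30362254) (nat_lit 40392) (nat_lit 1480762) (nat_lit 0) (nat_lit 0),Row.mk (nat_lit 22008) (nat_lit 31603) (nat_lit 6078706) (nat_lit 38148) (nat_lit 33692452) (nat_lit 0) (nat_lit 0),Row.mk (nat_lit 22176) (nat_lit 31416) (nat_lit 15980765) (nat_lit 37961) (nat_lit 33692452) (nat_lit 0) (nat_lit 0),Row.mk (nat_lit 22344) (nat_lit 31229) (nat_lit 28348198) (nat_lit 37774) (nat_lit 33692452) (nat_lit 0) (nat_lit 0),Row.mk (nat_lit 22512) (nat_lit 31042) (nat_lit 43794824) (nat_lit 37587) (nat_lit 33692452) (nat_lit 0) (nat_lit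 0),Row.mk (nat_lit 22680) (nat_lit 30855) (nat_lit 63087287) (nat_lit 37400) (nat_lit 33692452) (nat_lit 0) (nat_lit 0),Row.mk (nat_lit 22848) (nat_lit 30668) (nat_lit 87183107) (nat_lit 37213) (nat_lit 33692452) (nat_lit 0) (nat_lit 0),Row.mk (nat_lit 23016) (nat_lit 30481) (nat_lit 117278206) (nat_lit 37026) (nat_lit 33692452) (nat_lit 0) (nat_lit 0),Row.mk (nat_lit 23184) (nat_lit 30294) (nat_lit 154866258) (nat_lit 36839) (nat_lit 33692452) (nat_lit 0) (nat_lit 0),Row.mk (nat_lit 23352) (nat_lit 30107) (nat_lit 201812828) (nat_lit 36652) (nat_lit 33692452) (nat_lit 0) (nat_lit 0),Row.mk (nat_lit 23520) (nat_lit 29920) (nat_lit 260447962) (nat_lit 36465) (nat_lit 33692452) (nat_lit 0) (nat_lit 0)],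
[Row.mk (nat_lit 15624) (nat_lit 32912) (nat_lit 8521) (nat_lit 61710) (nat_lit 8380086) (nat_lit 0) (nat_lit 0),Row.mk (nat_lit 15792) (nat_lit 60962) (nat_lit 10588) (nat_lit 61336) (nat_lit 54) (nat_lit 0) (nat_lit 0),Row.mk (nat_lit 15960) (nat_lit 60401) (nat_lit 13208) (nat_lit 60775) (nat_lit 84) (nat_lit 0) (nat_lit 0),Row.mk (nat_lit 16128) (nat_lit 59840) (nat_lit 16470) (nat_lit 60214) (nat_lit 131) (nat_lit 0) (nat_lit 0),Row.mk (nat_lit 16296) (nat_lit 59279) (nat_lit 20530) (nat_lit 59653) (nat_lit 205) (nat_lit 0) (nat_lit 0),Row.mk (nat_lit 16464) (nat_lit 58718) (nat_lit 25577) (nat_lit 59092) (nat_lit 321) (nat_lit 0) (nat_lit 0),Row.mk (nat_lit 16632) (nat_lit 58157) (nat_lit 31846) (nat_lit 58531) (nat_lit 500) (nat_lit 0) (nat_lit 0),Row.mk (nat_lit 16800) (nat_lit 57596) (nat_lit 39619) (nat_lit 57970) (nat_lit 781) (nat_lit 0) (nat_lit 0),Row.mk (nat_lit 16968) (nat_lit 57035) (nat_lit 49240) (nat_lit 57409)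 (nat_lit 1219) (nat_lit 0) (nat_lit 0),Row.mk (nat_lit 17136) (nat_lit 56474) (nat_lit 61121) (nat_lit 56848) (nat_lit 1901) (nat_lit 0) (nat_lit 0),Row.mk (nat_lit 17304) (nat_lit 55913) (nat_lit 75747) (nat_lit 56287) (nat_lit 2966) (nat_lit 0) (nat_lit 0),Row.mk (nat_lit 17472) (nat_lit 55352) (nat_lit 93684) (nat_lit 55726) (nat_lit 4627) (nat_lit 0) (nat_lit 0),Row.mk (nat_lit 17640) (nat_lit 54791) (nat_lit 115570) (nat_lit 55165) (nat_lit 7219) (nat_lit 0) (nat_lit 0),Row.mk (nat_lit 17808) (nat_lit 54230) (nat_lit 142100) (nat_lit 54604) (nat_lit 11261) (nat_lit 0) (nat_lit 0),Row.mk (nat_lit 17976) (nat_lit 53669) (nat_lit 173978) (nat_lit 54043) (nat_lit 17566) (nat_lit 0) (nat_lit 0),Row.mk (nat_lit 18144) (nat_lit 53108) (nat_lit 211831) (nat_lit 53482) (nat_lit 27403) (nat_lit 0) (nat_lit 0),Row.mk (nat_lit 18312) (nat_lit 52547) (nat_lit 256051) (nat_lit 52921) (nat_lit 42747) (nat_lit 0) (nat_lit 0),Row.mk (nat_lit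 18480) (nat_lit 51986) (nat_lit 306509) (nat_lit 52360) (nat_lit 66683) (nat_lit 0) (nat_lit 0),Row.mk (nat_lit 18648) (nat_lit 51425) (nat_lit 362086) (nat_lit 51799) (nat_lit 104022) (nat_lit 0) (nat_lit 0),Row.mk (nat_lit 18816) (nat_lit 50864) (nat_lit 419889) (nat_lit 51238) (nat_lit 162268) (nat_lit 0) (nat_lit 0),Row.mk (nat_lit 18984) (nat_lit 50303) (nat_lit 473972) (nat_lit 50677) (nat_lit 253129) (nat_lit 0) (nat_lit 0),Row.mk (nat_lit 19152) (nat_lit 49742) (nat_lit 513265) (nat_lit 50116) (nat_lit 394867) (nat_lit 0) (nat_lit 0),Row.mk (nat_lit 19320) (nat_lit 49181) (nat_lit 518265) (nat_lit 49555) (nat_lit 615970) (nat_lit 0) (nat_lit 0),Row.mk (nat_lit 19488) (nat_lit 48620) (nat_lit 455756) (nat_lit 48994) (nat_lit 960877) (nat_lit 0) (nat_lit 0),Row.mk (nat_lit 19656) (nat_lit 47872) (nat_lit 270429) (nat_lit 48433) (nat_lit 1498911) (nat_lit 0) (nat_lit 0),Row.mk (nat_lit 19824) (nat_lit 47685) (nat_lit 2107101)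 (nat_lit 48246) (nat_lit 102763) (nat_lit 0) (nat_lit 0),Row.mk (nat_lit 19992) (nat_lit 46750) (nat_lit 2049560) (nat_lit 47498) (nat_lit 710507) (nat_lit 0) (nat_lit 0),Row.mk (nat_lit 20160) (nat_lit 45815) (nat_lit 1651718) (nat_lit 46563) (nat_lit 1795539) (nat_lit 0) (nat_lit 0),Row.mk (nat_lit 20328) (nat_lit 44693) (nat_lit 646322) (nat_lit 45628) (nat_lit 3659218) (nat_lit 0) (nat_lit 0),Row.mk (nat_lit 20496) (nat_lit 44506) (nat_lit 4254498) (nat_lit 45441) (nat_lit 1123018) (nat_lit 0) (nat_lit 0),Row.mk (nat_lit 20664) (nat_lit 43197) (nat_lit 2553699) (nat_lit 44319) (nat_lit 4162689) (nat_lit 0) (nat_lit 0),Row.mk (nat_lit 20832) (nat_lit 43010) (nat_lit 7495049) (nat_lit 44132) (nat_lit 893558) (nat_lit 0) (nat_lit 0),Row.mk (nat_lit 21000) (nat_lit 41327) (nat_lit 3983619) (nat_lit 42823) (nat_lit 6493549) (nat_lit 0) (nat_lit 0),Row.mk (nat_lit 21168) (nat_lit 41140) (nat_lit 10352961) (nat_lit 42636) (nat_lit 2732769)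 (nat_lit 0) (nat_lit 0),Row.mk (nat_lit 21336) (nat_lit 38896) (nat_lit 2453430) (nat_lit 40953) (nat_lit 13890332) (nat_lit 0) (nat_lit 0),Row.mk (nat_lit 21504) (nat_lit 38709) (nat_lit 9780664) (nat_lit 40766) (nat_lit 10632301) (nat_lit 0) (nat_lit 0),Row.mk (nat_lit 21672) (nat_lit 38522) (nat_lit 18932203) (nat_lit 40579) (nat_lit 6563098) (nat_lit 0) (nat_lit 0),Row.mk (nat_lit 21840) (nat_lit 38335) (nat_lit 30362254) (nat_lit 40392) (nat_lit 1480762) (nat_lit 0) (nat_lit 0),Row.mk (nat_lit 22008) (nat_lit 31603) (nat_lit 6078706) (nat_lit 38148) (nat_lit 33692452) (nat_lit 0) (nat_lit 0),Row.mk (nat_lit 22176) (nat_lit 31416) (nat_lit 15980765) (nat_lit 37961) (nat_lit 33692452) (nat_lit 0) (nat_lit 0),Row.mk (nat_lit 22344) (nat_lit 31229) (nat_lit 28348198) (nat_lit 37774) (nat_lit 33692452) (nat_lit 0) (nat_lit 0),Row.mk (nat_lit 22512) (nat_lit 31042) (nat_lit 43794824) (nat_lit 37587) (nat_lit 33692452) (nat_lit 0) (nat_lit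 0),Row.mk (nat_lit 22680) (nat_lit 30855) (nat_lit 63087287) (nat_lit 37400) (nat_lit 33692452) (nat_lit 0) (nat_lit 0),Row.mk (nat_lit 22848) (nat_lit 30668) (nat_lit 87183107) (nat_lit 37213) (nat_lit 33692452) (nat_lit 0) (nat_lit 0),Row.mk (nat_lit 23016) (nat_lit 30481) (nat_lit 117278206) (nat_lit 37026) (nat_lit 33692452) (nat_lit 0) (nat_lit 0),Row.mk (nat_lit 23184) (nat_lit 30294) (nat_lit 154866258) (nat_lit 36839) (nat_lit 33692452) (nat_lit 0) (nat_lit 0),Row.mk (nat_lit 23352) (nat_lit 30107) (nat_lit 201812828) (nat_lit 36652) (nat_lit 33692452) (nat_lit 0) (nat_lit 0),Row.mk (nat_lit 23520) (nat_lit 29920) (nat_lit 260447962) (nat_lit 36465) (nat_lit 33692452) (nat_lit 0) (nat_lit 0),Row.mk (nat_lit 23688) (nat_lit 29733) (nat_lit 333681830) (nat_lit 36278) (nat_lit 33692452) (nat_lit 0) (nat_lit 0)],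
[Row.mk (nat_lit 15624) (nat_lit 32912) (nat_lit 8521) (nat_lit 61710) (nat_lit 8380086) (nat_lit 0) (nat_lit 0),Row.mk (nat_lit 15792) (nat_lit 60962) (nat_lit 10588) (nat_lit 61336) (nat_lit 54) (nat_lit 0) (nat_lit 0),Row.mk (nat_lit 15960) (nat_lit 60401) (nat_lit 13208) (nat_lit 60775) (nat_lit 84) (nat_lit 0) (nat_lit 0),Row.mk (nat_lit 16128) (nat_lit 59840) (nat_lit 16470) (nat_lit 60214) (nat_lit 131) (nat_lit 0) (nat_lit 0),Row.mk (nat_lit 16296) (nat_lit 59279) (nat_lit 20530) (nat_lit 59653) (nat_lit 205) (nat_lit 0) (nat_lit 0),Row.mk (nat_lit 16464) (nat_lit 58718) (nat_lit 25577) (nat_lit 59092) (nat_lit 321) (nat_lit 0) (nat_lit 0),Row.mk (nat_lit 16632) (nat_lit 58157) (nat_lit 31846) (nat_lit 58531) (nat_lit 500) (nat_lit 0) (nat_lit 0),Row.mk (nat_lit 16800) (nat_lit 57596) (nat_lit 39619) (nat_lit 57970) (nat_lit 781) (nat_lit 0) (nat_lit 0),Row.mk (nat_lit 16968) (nat_lit 57035) (nat_lit 49240) (nat_lit 57409)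 (nat_lit 1219) (nat_lit 0) (nat_lit 0),Row.mk (nat_lit 17136) (nat_lit 56474) (nat_lit 61121) (nat_lit 56848) (nat_lit 1901) (nat_lit 0) (nat_lit 0),Row.mk (nat_lit 17304) (nat_lit 55913) (nat_lit 75747) (nat_lit 56287) (nat_lit 2966) (nat_lit 0) (nat_lit 0),Row.mk (nat_lit 17472) (nat_lit 55352) (nat_lit 93684) (nat_lit 55726) (nat_lit 4627) (nat_lit 0) (nat_lit 0),Row.mk (nat_lit 17640) (nat_lit 54791) (nat_lit 115570) (nat_lit 55165) (nat_lit 7219) (nat_lit 0) (nat_lit 0),Row.mk (nat_lit 17808) (nat_lit 54230) (nat_lit 142100) (nat_lit 54604) (nat_lit 11261) (nat_lit 0) (nat_lit 0),Row.mk (nat_lit 17976) (nat_lit 53669) (nat_lit 173978) (nat_lit 54043) (nat_lit 17566) (nat_lit 0) (nat_lit 0),Row.mk (nat_lit 18144) (nat_lit 53108) (nat_lit 211831) (nat_lit 53482) (nat_lit 27403) (nat_lit 0) (nat_lit 0),Row.mk (nat_lit 18312) (nat_lit 52547) (nat_lit 256051) (nat_lit 52921) (nat_lit 42747) (nat_lit 0) (nat_lit 0),Row.mk (nat_lit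 18480) (nat_lit 51986) (nat_lit 306509) (nat_lit 52360) (nat_lit 66683) (nat_lit 0) (nat_lit 0),Row.mk (nat_lit 18648) (nat_lit 51425) (nat_lit 362086) (nat_lit 51799) (nat_lit 104022) (nat_lit 0) (nat_lit 0),Row.mk (nat_lit 18816) (nat_lit 50864) (nat_lit 419889) (nat_lit 51238) (nat_lit 162268) (nat_lit 0) (nat_lit 0),Row.mk (nat_lit 18984) (nat_lit 50303) (nat_lit 473972) (nat_lit 50677) (nat_lit 253129) (nat_lit 0) (nat_lit 0),Row.mk (nat_lit 19152) (nat_lit 49742) (nat_lit 513265) (nat_lit 50116) (nat_lit 394867) (nat_lit 0) (nat_lit 0),Row.mk (nat_lit 19320) (nat_lit 49181) (nat_lit 518265) (nat_lit 49555) (nat_lit 615970) (nat_lit 0) (nat_lit 0),Row.mk (nat_lit 19488) (nat_lit 48620) (nat_lit 455756) (nat_lit 48994) (nat_lit 960877) (nat_lit 0) (nat_lit 0),Row.mk (nat_lit 19656) (nat_lit 47872) (nat_lit 270429) (nat_lit 48433) (nat_lit 1498911) (nat_lit 0) (nat_lit 0),Row.mk (nat_lit 19824) (nat_lit 47685) (nat_lit 2107101)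 (nat_lit 48246) (nat_lit 102763) (nat_lit 0) (nat_lit 0),Row.mk (nat_lit 19992) (nat_lit 46750) (nat_lit 2049560) (nat_lit 47498) (nat_lit 710507) (nat_lit 0) (nat_lit 0),Row.mk (nat_lit 20160) (nat_lit 45815) (nat_lit 1651718) (nat_lit 46563) (nat_lit 1795539) (nat_lit 0) (nat_lit 0),Row.mk (nat_lit 20328) (nat_lit 44693) (nat_lit 646322) (nat_lit 45628) (nat_lit 3659218) (nat_lit 0) (nat_lit 0),Row.mk (nat_lit 20496) (nat_lit 44506) (nat_lit 4254498) (nat_lit 45441) (nat_lit 1123018) (nat_lit 0) (nat_lit 0),Row.mk (nat_lit 20664) (nat_lit 43197) (nat_lit 2553699) (nat_lit 44319) (nat_lit 4162689) (nat_lit 0) (nat_lit 0),Row.mk (nat_lit 20832) (nat_lit 43010) (nat_lit 7495049) (nat_lit 44132) (nat_lit 893558) (nat_lit 0) (nat_lit 0),Row.mk (nat_lit 21000) (nat_lit 41327) (nat_lit 3983619) (nat_lit 42823) (nat_lit 6493549) (nat_lit 0) (nat_lit 0),Row.mk (nat_lit 21168) (nat_lit 41140) (nat_lit 10352961) (nat_lit 42636) (nat_lit 2732769)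 (nat_lit 0) (nat_lit 0),Row.mk (nat_lit 21336) (nat_lit 38896) (nat_lit 2453430) (nat_lit 40953) (nat_lit 13890332) (nat_lit 0) (nat_lit 0),Row.mk (nat_lit 21504) (nat_lit 38709) (nat_lit 9780664) (nat_lit 40766) (nat_lit 10632301) (nat_lit 0) (nat_lit 0),Row.mk (nat_lit 21672) (nat_lit 38522) (nat_lit 18932203) (nat_lit 40579) (nat_lit 6563098) (nat_lit 0) (nat_lit 0),Row.mk (nat_lit 21840) (nat_lit 38335) (nat_lit 30362254) (nat_lit 40392) (nat_lit 1480762) (nat_lit 0) (nat_lit 0),Row.mk (nat_lit 22008) (nat_lit 31603) (nat_lit 6078706) (nat_lit 38148) (nat_lit 33692452) (nat_lit 0) (nat_lit 0),Row.mk (nat_lit 22176) (nat_lit 31416) (nat_lit 15980765) (nat_lit 37961) (nat_lit 33692452) (nat_lit 0) (nat_lit 0),Row.mk (nat_lit 22344) (nat_lit 31229) (nat_lit 28348198) (nat_lit 37774) (nat_lit 33692452) (nat_lit 0) (nat_lit 0),Row.mk (nat_lit 22512) (nat_lit 31042) (nat_lit 43794824) (nat_lit 37587) (nat_lit 33692452) (nat_lit 0) (nat_lit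 0),Row.mk (nat_lit 22680) (nat_lit 30855) (nat_lit 63087287) (nat_lit 37400) (nat_lit 33692452) (nat_lit 0) (nat_lit 0),Row.mk (nat_lit 22848) (nat_lit 30668) (nat_lit 87183107) (nat_lit 37213) (nat_lit 33692452) (nat_lit 0) (nat_lit 0),Row.mk (nat_lit 23016) (nat_lit 30481) (nat_lit 117278206) (nat_lit 37026) (nat_lit 33692452) (nat_lit 0) (nat_lit 0),Row.mk (nat_lit 23184) (nat_lit 30294) (nat_lit 154866258) (nat_lit 36839) (nat_lit 33692452) (nat_lit 0) (nat_lit 0),Row.mk (nat_lit 23352) (nat_lit 30107) (nat_lit 201812828) (nat_lit 36652) (nat_lit 33692452) (nat_lit 0) (nat_lit 0),Row.mk (nat_lit 23520) (nat_lit 29920) (nat_lit 260447962) (nat_lit 36465) (nat_lit 33692452) (nat_lit 0) (nat_lit 0),Row.mk (nat_lit 23688) (nat_lit 29733) (nat_lit 333681830) (nat_lit 36278) (nat_lit 33692452) (nat_lit 0) (nat_lit 0),Row.mk (nat_lit 23856) (nat_lit 29546) (nat_lit 425149164) (nat_lit 36091) (nat_lit 33692452) (nat_lit 0) (nat_lit 0)],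
[Row.mk (nat_lit 15624) (nat_lit 32912) (nat_lit 8521) (nat_lit 61710) (nat_lit 8380086) (nat_lit 0) (nat_lit 0),Row.mk (nat_lit 15792) (nat_lit 60962) (nat_lit 10588) (nat_lit 61336) (nat_lit 54) (nat_lit 0) (nat_lit 0),Row.mk (nat_lit 15960) (nat_lit 60401) (nat_lit 13208) (nat_lit 60775) (nat_lit 84) (nat_lit 0) (nat_lit 0),Row.mk (nat_lit 16128) (nat_lit 59840) (nat_lit 16470) (nat_lit 60214) (nat_lit 131) (nat_lit 0) (nat_lit 0),Row.mk (nat_lit 16296) (nat_lit 59279) (nat_lit 20530) (nat_lit 59653) (nat_lit 205) (nat_lit 0) (nat_lit 0),Row.mk (nat_lit 16464) (nat_lit 58718) (nat_lit 25577) (nat_lit 59092) (nat_lit 321) (nat_lit 0) (nat_lit 0),Row.mk (nat_lit 16632) (nat_lit 58157) (nat_lit 31846) (nat_lit 58531) (nat_lit 500) (nat_lit 0) (nat_lit 0),Row.mk (nat_lit 16800) (nat_lit 57596) (nat_lit 39619) (nat_lit 57970) (nat_lit 781) (nat_lit 0) (nat_lit 0),Row.mk (nat_lit 16968) (nat_lit 57035) (nat_lit 49240) (nat_lit 57409)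 (nat_lit 1219) (nat_lit 0) (nat_lit 0),Row.mk (nat_lit 17136) (nat_lit 56474) (nat_lit 61121) (nat_lit 56848) (nat_lit 1901) (nat_lit 0) (nat_lit 0),Row.mk (nat_lit 17304) (nat_lit 55913) (nat_lit 75747) (nat_lit 56287) (nat_lit 2966) (nat_lit 0) (nat_lit 0),Row.mk (nat_lit 17472) (nat_lit 55352) (nat_lit 93684) (nat_lit 55726) (nat_lit 4627) (nat_lit 0) (nat_lit 0),Row.mk (nat_lit 17640) (nat_lit 54791) (nat_lit 115570) (nat_lit 55165) (nat_lit 7219) (nat_lit 0) (nat_lit 0),Row.mk (nat_lit 17808) (nat_lit 54230) (nat_lit 142100) (nat_lit 54604) (nat_lit 11261) (nat_lit 0) (nat_lit 0),Row.mk (nat_lit 17976) (nat_lit 53669) (nat_lit 173978) (nat_lit 54043) (nat_lit 17566) (nat_lit 0) (nat_lit 0),Row.mk (nat_lit 18144) (nat_lit 53108) (nat_lit 211831) (nat_lit 53482) (nat_lit 27403) (nat_lit 0) (nat_lit 0),Row.mk (nat_lit 18312) (nat_lit 52547) (nat_lit 256051) (nat_lit 52921) (nat_lit 42747) (nat_lit 0) (nat_lit 0),Row.mk (nat_lit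 18480) (nat_lit 51986) (nat_lit 306509) (nat_lit 52360) (nat_lit 66683) (nat_lit 0) (nat_lit 0),Row.mk (nat_lit 18648) (nat_lit 51425) (nat_lit 362086) (nat_lit 51799) (nat_lit 104022) (nat_lit 0) (nat_lit 0),Row.mk (nat_lit 18816) (nat_lit 50864) (nat_lit 419889) (nat_lit 51238) (nat_lit 162268) (nat_lit 0) (nat_lit 0),Row.mk (nat_lit 18984) (nat_lit 50303) (nat_lit 473972) (nat_lit 50677) (nat_lit 253129) (nat_lit 0) (nat_lit 0),Row.mk (nat_lit 19152) (nat_lit 49742) (nat_lit 513265) (nat_lit 50116) (nat_lit 394867) (nat_lit 0) (nat_lit 0),Row.mk (nat_lit 19320) (nat_lit 49181) (nat_lit 518265) (nat_lit 49555) (nat_lit 615970) (nat_lit 0) (nat_lit 0),Row.mk (nat_lit 19488) (nat_lit 48620) (nat_lit 455756) (nat_lit 48994) (nat_lit 960877) (nat_lit 0) (nat_lit 0),Row.mk (nat_lit 19656) (nat_lit 47872) (nat_lit 270429) (nat_lit 48433) (nat_lit 1498911) (nat_lit 0) (nat_lit 0),Row.mk (nat_lit 19824) (nat_lit 47685) (nat_lit 2107101)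 (nat_lit 48246) (nat_lit 102763) (nat_lit 0) (nat_lit 0),Row.mk (nat_lit 19992) (nat_lit 46750) (nat_lit 2049560) (nat_lit 47498) (nat_lit 710507) (nat_lit 0) (nat_lit 0),Row.mk (nat_lit 20160) (nat_lit 45815) (nat_lit 1651718) (nat_lit 46563) (nat_lit 1795539) (nat_lit 0) (nat_lit 0),Row.mk (nat_lit 20328) (nat_lit 44693) (nat_lit 646322) (nat_lit 45628) (nat_lit 3659218) (nat_lit 0) (nat_lit 0),Row.mk (nat_lit 20496) (nat_lit 44506) (nat_lit 4254498) (nat_lit 45441) (nat_lit 1123018) (nat_lit 0) (nat_lit 0),Row.mk (nat_lit 20664) (nat_lit 43197) (nat_lit 2553699) (nat_lit 44319) (nat_lit 4162689) (nat_lit 0) (nat_lit 0),Row.mk (nat_lit 20832) (nat_lit 43010) (nat_lit 7495049) (nat_lit 44132) (nat_lit 893558) (nat_lit 0) (nat_lit 0),Row.mk (nat_lit 21000) (nat_lit 41327) (nat_lit 3983619) (nat_lit 42823) (nat_lit 6493549) (nat_lit 0) (nat_lit 0),Row.mk (nat_lit 21168) (nat_lit 41140) (nat_lit 10352961) (nat_lit 42636) (nat_lit 2732769)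 (nat_lit 0) (nat_lit 0),Row.mk (nat_lit 21336) (nat_lit 38896) (nat_lit 2453430) (nat_lit 40953) (nat_lit 13890332) (nat_lit 0) (nat_lit 0),Row.mk (nat_lit 21504) (nat_lit 38709) (nat_lit 9780664) (nat_lit 40766) (nat_lit 10632301) (nat_lit 0) (nat_lit 0),Row.mk (nat_lit 21672) (nat_lit 38522) (nat_lit 18932203) (nat_lit 40579) (nat_lit 6563098) (nat_lit 0) (nat_lit 0),Row.mk (nat_lit 21840) (nat_lit 38335) (nat_lit 30362254) (nat_lit 40392) (nat_lit 1480762) (nat_lit 0) (nat_lit 0),Row.mk (nat_lit 22008) (nat_lit 31603) (nat_lit 6078706) (nat_lit 38148) (nat_lit 33692452) (nat_lit 0) (nat_lit 0),Row.mk (nat_lit 22176) (nat_lit 31416) (nat_lit 15980765) (nat_lit 37961) (nat_lit 33692452) (nat_lit 0) (nat_lit 0),Row.mk (nat_lit 22344) (nat_lit 31229) (nat_lit 28348198) (nat_lit 37774) (nat_lit 33692452) (nat_lit 0) (nat_lit 0),Row.mk (nat_lit 22512) (nat_lit 31042) (nat_lit 43794824) (nat_lit 37587) (nat_lit 33692452) (nat_lit 0) (nat_lit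 0),Row.mk (nat_lit 22680) (nat_lit 30855) (nat_lit 63087287) (nat_lit 37400) (nat_lit 33692452) (nat_lit 0) (nat_lit 0),Row.mk (nat_lit 22848) (nat_lit 30668) (nat_lit 87183107) (nat_lit 37213) (nat_lit 33692452) (nat_lit 0) (nat_lit 0),Row.mk (nat_lit 23016) (nat_lit 30481) (nat_lit 117278206) (nat_lit 37026) (nat_lit 33692452) (nat_lit 0) (nat_lit 0),Row.mk (nat_lit 23184) (nat_lit 30294) (nat_lit 154866258) (nat_lit 36839) (nat_lit 33692452) (nat_lit 0) (nat_lit 0),Row.mk (nat_lit 23352) (nat_lit 30107) (nat_lit 201812828) (nat_lit 36652) (nat_lit 33692452) (nat_lit 0) (nat_lit 0),Row.mk (nat_lit 23520) (nat_lit 29920) (nat_lit 260447962) (nat_lit 36465) (nat_lit 33692452) (nat_lit 0) (nat_lit 0),Row.mk (nat_lit 23688) (nat_lit 29733) (nat_lit 333681830) (nat_lit 36278) (nat_lit 33692452) (nat_lit 0) (nat_lit 0),Row.mk (nat_lit 23856) (nat_lit 29546) (nat_lit 425149164) (nat_lit 36091) (nat_lit 33692452) (nat_lit 0) (nat_lit 0),Row.mk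 (nat_lit 24024) (nat_lit 29359) (nat_lit 539389658) (nat_lit 35904) (nat_lit 33692452) (nat_lit 0) (nat_lit 0)],
[Row.mk (nat_lit 15624) (nat_lit 32912) (nat_lit 8521) (nat_lit 61710) (nat_lit 8380086) (nat_lit 0) (nat_lit 0),Row.mk (nat_lit 15792) (nat_lit 60962) (nat_lit 10588) (nat_lit 61336) (nat_lit 54) (nat_lit 0) (nat_lit 0),Row.mk (nat_lit 15960) (nat_lit 60401) (nat_lit 13208) (nat_lit 60775) (nat_lit 84) (nat_lit 0) (nat_lit 0),Row.mk (nat_lit 16128) (nat_lit 59840) (nat_lit 16470) (nat_lit 60214) (nat_lit 131) (nat_lit 0) (nat_lit 0),Row.mk (nat_lit 16296) (nat_lit 59279) (nat_lit 20530) (nat_lit 59653) (nat_lit 205) (nat_lit 0) (nat_lit 0),Row.mk (nat_lit 16464) (nat_lit 58718) (nat_lit 25577) (nat_lit 59092) (nat_lit 321) (nat_lit 0) (nat_lit 0),Row.mk (nat_lit 16632) (nat_lit 58157) (nat_lit 31846) (nat_lit 58531) (nat_lit 500) (nat_lit 0) (nat_lit 0),Row.mk (nat_lit 16800) (nat_lit 57596) (nat_lit 39619) (nat_lit 57970)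 (nat_lit 781) (nat_lit 0) (nat_lit 0),Row.mk (nat_lit 16968) (nat_lit 57035) (nat_lit 49240) (nat_lit 57409) (nat_lit 1219) (nat_lit 0) (nat_lit 0),Row.mk (nat_lit 17136) (nat_lit 56474) (nat_lit 61121) (nat_lit 56848) (nat_lit 1901) (nat_lit 0) (nat_lit 0),Row.mk (nat_lit 17304) (nat_lit 55913) (nat_lit 75747) (nat_lit 56287) (nat_lit 2966) (nat_lit 0) (nat_lit 0),Row.mk (nat_lit 17472) (nat_lit 55352) (nat_lit 93684) (nat_lit 55726) (nat_lit 4627) (nat_lit 0) (nat_lit 0),Row.mk (nat_lit 17640) (nat_lit 54791) (nat_lit 115570) (nat_lit 55165) (nat_lit 7219) (nat_lit 0) (nat_lit 0),Row.mk (nat_lit 17808) (nat_lit 54230) (nat_lit 142100) (nat_lit 54604) (nat_lit 11261) (nat_lit 0) (nat_lit 0),Row.mk (nat_lit 17976) (nat_lit 53669) (nat_lit 173978) (nat_lit 54043) (nat_lit 17566) (nat_lit 0) (nat_lit 0),Row.mk (nat_lit 18144) (nat_lit 53108) (nat_lit 211831) (nat_lit 53482) (nat_lit 27403) (nat_lit 0) (nat_lit 0),Row.mk (nat_lit 18312)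 (nat_lit 52547) (nat_lit 256051) (nat_lit 52921) (nat_lit 42747) (nat_lit 0) (nat_lit 0),Row.mk (nat_lit 18480) (nat_lit 51986) (nat_lit 306509) (nat_lit 52360) (nat_lit 66683) (nat_lit 0) (nat_lit 0),Row.mk (nat_lit 18648) (nat_lit 51425) (nat_lit 362086) (nat_lit 51799) (nat_lit 104022) (nat_lit 0) (nat_lit 0),Row.mk (nat_lit 18816) (nat_lit 50864) (nat_lit 419889) (nat_lit 51238) (nat_lit 162268) (nat_lit 0) (nat_lit 0),Row.mk (nat_lit 18984) (nat_lit 50303) (nat_lit 473972) (nat_lit 50677) (nat_lit 253129) (nat_lit 0) (nat_lit 0),Row.mk (nat_lit 19152) (nat_lit 49742) (nat_lit 513265) (nat_lit 50116) (nat_lit 394867) (nat_lit 0) (nat_lit 0),Row.mk (nat_lit 19320) (nat_lit 49181) (nat_lit 518265) (nat_lit 49555) (nat_lit 615970) (nat_lit 0) (nat_lit 0),Row.mk (nat_lit 19488) (nat_lit 48620) (nat_lit 455756) (nat_lit 48994) (nat_lit 960877) (nat_lit 0) (nat_lit 0),Row.mk (nat_lit 19656) (nat_lit 47872) (nat_lit 270429) (nat_lit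 48433) (nat_lit 1498911) (nat_lit 0) (nat_lit 0),Row.mk (nat_lit 19824) (nat_lit 47685) (nat_lit 2107101) (nat_lit 48246) (nat_lit 102763) (nat_lit 0) (nat_lit 0),Row.mk (nat_lit 19992) (nat_lit 46750) (nat_lit 2049560) (nat_lit 47498) (nat_lit 710507) (nat_lit 0) (nat_lit 0),Row.mk (nat_lit 20160) (nat_lit 45815) (nat_lit 1651718) (nat_lit 46563) (nat_lit 1795539) (nat_lit 0) (nat_lit 0),Row.mk (nat_lit 20328) (nat_lit 44693) (nat_lit 646322) (nat_lit 45628) (nat_lit 3659218) (nat_lit 0) (nat_lit 0),Row.mk (nat_lit 20496) (nat_lit 44506) (nat_lit 4254498) (nat_lit 45441) (nat_lit 1123018) (nat_lit 0) (nat_lit 0),Row.mk (nat_lit 20664) (nat_lit 43197) (nat_lit 2553699) (nat_lit 44319) (nat_lit 4162689) (nat_lit 0) (nat_lit 0),Row.mk (nat_lit 20832) (nat_lit 43010) (nat_lit 7495049) (nat_lit 44132) (nat_lit 893558) (nat_lit 0) (nat_lit 0),Row.mk (nat_lit 21000) (nat_lit 41327) (nat_lit 3983619) (nat_lit 42823) (nat_lit 6493549) (nat_lit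 0) (nat_lit 0),Row.mk (nat_lit 21168) (nat_lit 41140) (nat_lit 10352961) (nat_lit 42636) (nat_lit 2732769) (nat_lit 0) (nat_lit 0),Row.mk (nat_lit 21336) (nat_lit 38896) (nat_lit 2453430) (nat_lit 40953) (nat_lit 13890332) (nat_lit 0) (nat_lit 0),Row.mk (nat_lit 21504) (nat_lit 38709) (nat_lit 9780664) (nat_lit 40766) (nat_lit 10632301) (nat_lit 0) (nat_lit 0),Row.mk (nat_lit 21672) (nat_lit 38522) (nat_lit 18932203) (nat_lit 40579) (nat_lit 6563098) (nat_lit 0) (nat_lit 0),Row.mk (nat_lit 21840) (nat_lit 38335) (nat_lit 30362254) (nat_lit 40392) (nat_lit 1480762) (nat_lit 0) (nat_lit 0),Row.mk (nat_lit 22008) (nat_lit 31603) (nat_lit 6078706) (nat_lit 38148) (nat_lit 33692452) (nat_lit 0) (nat_lit 0),Row.mk (nat_lit 22176) (nat_lit 31416) (nat_lit 15980765) (nat_lit 37961) (nat_lit 33692452) (nat_lit 0) (nat_lit 0),Row.mk (nat_lit 22344) (nat_lit 31229) (nat_lit 28348198) (nat_lit 37774) (nat_lit 33692452) (nat_lit 0) (nat_lit 0),Row.mk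 (nat_lit 22512) (nat_lit 31042) (nat_lit 43794824) (nat_lit 37587) (nat_lit 33692452) (nat_lit 0) (nat_lit 0),Row.mk (nat_lit 22680) (nat_lit 30855) (nat_lit 63087287) (nat_lit 37400) (nat_lit 33692452) (nat_lit 0) (nat_lit 0),Row.mk (nat_lit 22848) (nat_lit 30668) (nat_lit 87183107) (nat_lit 37213) (nat_lit 33692452) (nat_lit 0) (nat_lit 0),Row.mk (nat_lit 23016) (nat_lit 30481) (nat_lit 117278206) (nat_lit 37026) (nat_lit 33692452) (nat_lit 0) (nat_lit 0),Row.mk (nat_lit 23184) (nat_lit 30294) (nat_lit 154866258) (nat_lit 36839) (nat_lit 33692452) (nat_lit 0) (nat_lit 0),Row.mk (nat_lit 23352) (nat_lit 30107) (nat_lit 201812828) (nat_lit 36652) (nat_lit 33692452) (nat_lit 0) (nat_lit 0),Row.mk (nat_lit 23520) (nat_lit 29920) (nat_lit 260447962) (nat_lit 36465) (nat_lit 33692452) (nat_lit 0) (nat_lit 0),Row.mk (nat_lit 23688) (nat_lit 29733) (nat_lit 333681830) (nat_lit 36278) (nat_lit 33692452) (nat_lit 0) (nat_lit 0),Row.mk (nat_lit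 23856) (nat_lit 29546) (nat_lit 425149164) (nat_lit 36091) (nat_lit 33692452) (nat_lit 0) (nat_lit 0),Row.mk (nat_lit 24024) (nat_lit 29359) (nat_lit 539389658) (nat_lit 35904) (nat_lit 33692452) (nat_lit 0) (nat_lit 0),Row.mk (nat_lit 24192) (nat_lit 29172) (nat_lit 682073279) (nat_lit 35717) (nat_lit 33692452) (nat_lit 0) (nat_lit 0)],
[Row.mk (nat_lit 15624) (nat_lit 32912) (nat_lit 8521) (nat_lit 61710) (nat_lit 8380086) (nat_lit 0) (nat_lit 0),Row.mk (nat_lit 15792) (nat_lit 60962) (nat_lit 10588) (nat_lit 61336) (nat_lit 54) (nat_lit 0) (nat_lit 0),Row.mk (nat_lit 15960) (nat_lit 60401) (nat_lit 13208) (nat_lit 60775) (nat_lit 84) (nat_lit 0) (nat_lit 0),Row.mk (nat_lit 16128) (nat_lit 59840) (nat_lit 16470) (nat_lit 60214) (nat_lit 131) (nat_lit 0) (nat_lit 0),Row.mk (nat_lit 16296) (nat_lit 59279) (nat_lit 20530) (nat_lit 59653) (nat_lit 205) (nat_lit 0) (nat_lit 0),Row.mk (nat_lit 16464) (nat_lit 58718) (nat_lit 25577) (nat_lit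 59092) (nat_lit 321) (nat_lit 0) (nat_lit 0),Row.mk (nat_lit 16632) (nat_lit 58157) (nat_lit 31846) (nat_lit 58531) (nat_lit 500) (nat_lit 0) (nat_lit 0),Row.mk (nat_lit 16800) (nat_lit 57596) (nat_lit 39619) (nat_lit 57970) (nat_lit 781) (nat_lit 0) (nat_lit 0),Row.mk (nat_lit 16968) (nat_lit 57035) (nat_lit 49240) (nat_lit 57409) (nat_lit 1219) (nat_lit 0) (nat_lit 0),Row.mk (nat_lit 17136) (nat_lit 56474) (nat_lit 61121) (nat_lit 56848) (nat_lit 1901) (nat_lit 0) (nat_lit 0),Row.mk (nat_lit 17304) (nat_lit 55913) (nat_lit 75747) (nat_lit 56287) (nat_lit 2966) (nat_lit 0) (nat_lit 0),Row.mk (nat_lit 17472) (nat_lit 55352) (nat_lit 93684) (nat_lit 55726) (nat_lit 4627) (nat_lit 0) (nat_lit 0),Row.mk (nat_lit 17640) (nat_lit 54791) (nat_lit 115570) (nat_lit 55165) (nat_lit 7219) (nat_lit 0) (nat_lit 0),Row.mk (nat_lit 17808) (nat_lit 54230) (nat_lit 142100) (nat_lit 54604) (nat_lit 11261) (nat_lit 0) (nat_lit 0),Row.mk (nat_lit 17976)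 (nat_lit 53669) (nat_lit 173978) (nat_lit 54043) (nat_lit 17566) (nat_lit 0) (nat_lit 0),Row.mk (nat_lit 18144) (nat_lit 53108) (nat_lit 211831) (nat_lit 53482) (nat_lit 27403) (nat_lit 0) (nat_lit 0),Row.mk (nat_lit 18312) (nat_lit 52547) (nat_lit 256051) (nat_lit 52921) (nat_lit 42747) (nat_lit 0) (nat_lit 0),Row.mk (nat_lit 18480) (nat_lit 51986) (nat_lit 306509) (nat_lit 52360) (nat_lit 66683) (nat_lit 0) (nat_lit 0),Row.mk (nat_lit 18648) (nat_lit 51425) (nat_lit 362086) (nat_lit 51799) (nat_lit 104022) (nat_lit 0) (nat_lit 0),Row.mk (nat_lit 18816) (nat_lit 50864) (nat_lit 419889) (nat_lit 51238) (nat_lit 162268) (nat_lit 0) (nat_lit 0),Row.mk (nat_lit 18984) (nat_lit 50303) (nat_lit 473972) (nat_lit 50677) (nat_lit 253129) (nat_lit 0) (nat_lit 0),Row.mk (nat_lit 19152) (nat_lit 49742) (nat_lit 513265) (nat_lit 50116) (nat_lit 394867) (nat_lit 0) (nat_lit 0),Row.mk (nat_lit 19320) (nat_lit 49181) (nat_lit 518265) (nat_lit 49555)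 (nat_lit 615970) (nat_lit 0) (nat_lit 0),Row.mk (nat_lit 19488) (nat_lit 48620) (nat_lit 455756) (nat_lit 48994) (nat_lit 960877) (nat_lit 0) (nat_lit 0),Row.mk (nat_lit 19656) (nat_lit 47872) (nat_lit 270429) (nat_lit 48433) (nat_lit 1498911) (nat_lit 0) (nat_lit 0),Row.mk (nat_lit 19824) (nat_lit 47685) (nat_lit 2107101) (nat_lit 48246) (nat_lit 102763) (nat_lit 0) (nat_lit 0),Row.mk (nat_lit 19992) (nat_lit 46750) (nat_lit 2049560) (nat_lit 47498) (nat_lit 710507) (nat_lit 0) (nat_lit 0),Row.mk (nat_lit 20160) (nat_lit 45815) (nat_lit 1651718) (nat_lit 46563) (nat_lit 1795539) (nat_lit 0) (nat_lit 0),Row.mk (nat_lit 20328) (nat_lit 44693) (nat_lit 646322) (nat_lit 45628) (nat_lit 3659218) (nat_lit 0) (nat_lit 0),Row.mk (nat_lit 20496) (nat_lit 44506) (nat_lit 4254498) (nat_lit 45441) (nat_lit 1123018) (nat_lit 0) (nat_lit 0),Row.mk (nat_lit 20664) (nat_lit 43197) (nat_lit 2553699) (nat_lit 44319) (nat_lit 4162689) (nat_lit 0) (nat_lit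 0),Row.mk (nat_lit 20832) (nat_lit 43010) (nat_lit 7495049) (nat_lit 44132) (nat_lit 893558) (nat_lit 0) (nat_lit 0),Row.mk (nat_lit 21000) (nat_lit 41327) (nat_lit 3983619) (nat_lit 42823) (nat_lit 6493549) (nat_lit 0) (nat_lit 0),Row.mk (nat_lit 21168) (nat_lit 41140) (nat_lit 10352961) (nat_lit 42636) (nat_lit 2732769) (nat_lit 0) (nat_lit 0),Row.mk (nat_lit 21336) (nat_lit 38896) (nat_lit 2453430) (nat_lit 40953) (nat_lit 13890332) (nat_lit 0) (nat_lit 0),Row.mk (nat_lit 21504) (nat_lit 38709) (nat_lit 9780664) (nat_lit 40766) (nat_lit 10632301) (nat_lit 0) (nat_lit 0),Row.mk (nat_lit 21672) (nat_lit 38522) (nat_lit 18932203) (nat_lit 40579) (nat_lit 6563098) (nat_lit 0) (nat_lit 0),Row.mk (nat_lit 21840) (nat_lit 38335) (nat_lit 30362254) (nat_lit 40392) (nat_lit 1480762) (nat_lit 0) (nat_lit 0),Row.mk (nat_lit 22008) (nat_lit 31603) (nat_lit 6078706) (nat_lit 38148) (nat_lit 33692452) (nat_lit 0) (nat_lit 0),Row.mk (nat_lit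 22176) (nat_lit 31416) (nat_lit 15980765) (nat_lit 37961) (nat_lit 33692452) (nat_lit 0) (nat_lit 0),Row.mk (nat_lit 22344) (nat_lit 31229) (nat_lit 28348198) (nat_lit 37774) (nat_lit 33692452) (nat_lit 0) (nat_lit 0),Row.mk (nat_lit 22512) (nat_lit 31042) (nat_lit 43794824) (nat_lit 37587) (nat_lit 33692452) (nat_lit 0) (nat_lit 0),Row.mk (nat_lit 22680) (nat_lit 30855) (nat_lit 63087287) (nat_lit 37400) (nat_lit 33692452) (nat_lit 0) (nat_lit 0),Row.mk (nat_lit 22848) (nat_lit 30668) (nat_lit 87183107) (nat_lit 37213) (nat_lit 33692452) (nat_lit 0) (nat_lit 0),Row.mk (nat_lit 23016) (nat_lit 30481) (nat_lit 117278206) (nat_lit 37026) (nat_lit 33692452) (nat_lit 0) (nat_lit 0),Row.mk (nat_lit 23184) (nat_lit 30294) (nat_lit 154866258) (nat_lit 36839) (nat_lit 33692452) (nat_lit 0) (nat_lit 0),Row.mk (nat_lit 23352) (nat_lit 30107) (nat_lit 201812828) (nat_lit 36652) (nat_lit 33692452) (nat_lit 0) (nat_lit 0),Row.mk (nat_lit 23520)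 (nat_lit 29920) (nat_lit 260447962) (nat_lit 36465) (nat_lit 33692452) (nat_lit 0) (nat_lit 0),Row.mk (nat_lit 23688) (nat_lit 29733) (nat_lit 333681830) (nat_lit 36278) (nat_lit 33692452) (nat_lit 0) (nat_lit 0),Row.mk (nat_lit 23856) (nat_lit 29546) (nat_lit 425149164) (nat_lit 36091) (nat_lit 33692452) (nat_lit 0) (nat_lit 0),Row.mk (nat_lit 24024) (nat_lit 29359) (nat_lit 539389658) (nat_lit 35904) (nat_lit 33692452) (nat_lit 0) (nat_lit 0),Row.mk (nat_lit 24192) (nat_lit 29172) (nat_lit 682073279) (nat_lit 35717) (nat_lit 33692452) (nat_lit 0) (nat_lit 0),Row.mk (nat_lit 24360) (nat_lit 28985) (nat_lit 860281679) (nat_lit 35530) (nat_lit 33692452) (nat_lit 0) (nat_lit 0)],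
[Row.mk (nat_lit 15624) (nat_lit 32912) (nat_lit 8521) (nat_lit 61710) (nat_lit 8380086) (nat_lit 0) (nat_lit 0),Row.mk (nat_lit 15792) (nat_lit 60962) (nat_lit 10588) (nat_lit 61336) (nat_lit 54) (nat_lit 0) (nat_lit 0),Row.mk (nat_lit 15960) (nat_lit 60401) (nat_lit 13208) (nat_lit 60775) (nat_lit 84) (nat_lit 0) (nat_lit 0),Row.mk (nat_lit 16128) (nat_lit 59840) (nat_lit 16470) (nat_lit 60214) (nat_lit 131) (nat_lit 0) (nat_lit 0),Row.mk (nat_lit 16296) (nat_lit 59279) (nat_lit 20530) (nat_lit 59653) (nat_lit 205) (nat_lit 0) (nat_lit 0),Row.mk (nat_lit 16464) (nat_lit 58718) (nat_lit 25577) (nat_lit 59092) (nat_lit 321) (nat_lit 0) (nat_lit 0),Row.mk (nat_lit 16632) (nat_lit 58157) (nat_lit 31846) (nat_lit 58531) (nat_lit 500) (nat_lit 0) (nat_lit 0),Row.mk (nat_lit 16800) (nat_lit 57596) (nat_lit 39619) (nat_lit 57970) (nat_lit 781) (nat_lit 0) (nat_lit 0),Row.mk (nat_lit 16968) (nat_lit 57035) (nat_lit 49240) (nat_lit 57409)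 (nat_lit 1219) (nat_lit 0) (nat_lit 0),Row.mk (nat_lit 17136) (nat_lit 56474) (nat_lit 61121) (nat_lit 56848) (nat_lit 1901) (nat_lit 0) (nat_lit 0),Row.mk (nat_lit 17304) (nat_lit 55913) (nat_lit 75747) (nat_lit 56287) (nat_lit 2966) (nat_lit 0) (nat_lit 0),Row.mk (nat_lit 17472) (nat_lit 55352) (nat_lit 93684) (nat_lit 55726) (nat_lit 4627) (nat_lit 0) (nat_lit 0),Row.mk (nat_lit 17640) (nat_lit 54791) (nat_lit 115570) (nat_lit 55165) (nat_lit 7219) (nat_lit 0) (nat_lit 0),Row.mk (nat_lit 17808) (nat_lit 54230) (nat_lit 142100) (nat_lit 54604) (nat_lit 11261) (nat_lit 0) (nat_lit 0),Row.mk (nat_lit 17976) (nat_lit 53669) (nat_lit 173978) (nat_lit 54043) (nat_lit 17566) (nat_lit 0) (nat_lit 0),Row.mk (nat_lit 18144) (nat_lit 53108) (nat_lit 211831) (nat_lit 53482) (nat_lit 27403) (nat_lit 0) (nat_lit 0),Row.mk (nat_lit 18312) (nat_lit 52547) (nat_lit 256051) (nat_lit 52921) (nat_lit 42747) (nat_lit 0) (nat_lit 0),Row.mk (nat_lit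 18480) (nat_lit 51986) (nat_lit 306509) (nat_lit 52360) (nat_lit 66683) (nat_lit 0) (nat_lit 0),Row.mk (nat_lit 18648) (nat_lit 51425) (nat_lit 362086) (nat_lit 51799) (nat_lit 104022) (nat_lit 0) (nat_lit 0),Row.mk (nat_lit 18816) (nat_lit 50864) (nat_lit 419889) (nat_lit 51238) (nat_lit 162268) (nat_lit 0) (nat_lit 0),Row.mk (nat_lit 18984) (nat_lit 50303) (nat_lit 473972) (nat_lit 50677) (nat_lit 253129) (nat_lit 0) (nat_lit 0),Row.mk (nat_lit 19152) (nat_lit 49742) (nat_lit 513265) (nat_lit 50116) (nat_lit 394867) (nat_lit 0) (nat_lit 0),Row.mk (nat_lit 19320) (nat_lit 49181) (nat_lit 518265) (nat_lit 49555) (nat_lit 615970) (nat_lit 0) (nat_lit 0),Row.mk (nat_lit 19488) (nat_lit 48620) (nat_lit 455756) (nat_lit 48994) (nat_lit 960877) (nat_lit 0) (nat_lit 0),Row.mk (nat_lit 19656) (nat_lit 47872) (nat_lit 270429) (nat_lit 48433) (nat_lit 1498911) (nat_lit 0) (nat_lit 0),Row.mk (nat_lit 19824) (nat_lit 47685) (nat_lit 2107101)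 (nat_lit 48246) (nat_lit 102763) (nat_lit 0) (nat_lit 0),Row.mk (nat_lit 19992) (nat_lit 46750) (nat_lit 2049560) (nat_lit 47498) (nat_lit 710507) (nat_lit 0) (nat_lit 0),Row.mk (nat_lit 20160) (nat_lit 45815) (nat_lit 1651718) (nat_lit 46563) (nat_lit 1795539) (nat_lit 0) (nat_lit 0),Row.mk (nat_lit 20328) (nat_lit 44693) (nat_lit 646322) (nat_lit 45628) (nat_lit 3659218) (nat_lit 0) (nat_lit 0),Row.mk (nat_lit 20496) (nat_lit 44506) (nat_lit 4254498) (nat_lit 45441) (nat_lit 1123018) (nat_lit 0) (nat_lit 0),Row.mk (nat_lit 20664) (nat_lit 43197) (nat_lit 2553699) (nat_lit 44319) (nat_lit 4162689) (nat_lit 0) (nat_lit 0),Row.mk (nat_lit 20832) (nat_lit 43010) (nat_lit 7495049) (nat_lit 44132) (nat_lit 893558) (nat_lit 0) (nat_lit 0),Row.mk (nat_lit 21000) (nat_lit 41327) (nat_lit 3983619) (nat_lit 42823) (nat_lit 6493549) (nat_lit 0) (nat_lit 0),Row.mk (nat_lit 21168) (nat_lit 41140) (nat_lit 10352961) (nat_lit 42636) (nat_lit 2732769)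 (nat_lit 0) (nat_lit 0),Row.mk (nat_lit 21336) (nat_lit 38896) (nat_lit 2453430) (nat_lit 40953) (nat_lit 13890332) (nat_lit 0) (nat_lit 0),Row.mk (nat_lit 21504) (nat_lit 38709) (nat_lit 9780664) (nat_lit 40766) (nat_lit 10632301) (nat_lit 0) (nat_lit 0),Row.mk (nat_lit 21672) (nat_lit 38522) (nat_lit 18932203) (nat_lit 40579) (nat_lit 6563098) (nat_lit 0) (nat_lit 0),Row.mk (nat_lit 21840) (nat_lit 38335) (nat_lit 30362254) (nat_lit 40392) (nat_lit 1480762) (nat_lit 0) (nat_lit 0),Row.mk (nat_lit 22008) (nat_lit 31603) (nat_lit 6078706) (nat_lit 38148) (nat_lit 33692452) (nat_lit 0) (nat_lit 0),Row.mk (nat_lit 22176) (nat_lit 31416) (nat_lit 15980765) (nat_lit 37961) (nat_lit 33692452) (nat_lit 0) (nat_lit 0),Row.mk (nat_lit 22344) (nat_lit 31229) (nat_lit 28348198) (nat_lit 37774) (nat_lit 33692452) (nat_lit 0) (nat_lit 0),Row.mk (nat_lit 22512) (nat_lit 31042) (nat_lit 43794824) (nat_lit 37587) (nat_lit 33692452) (nat_lit 0) (nat_lit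 0),Row.mk (nat_lit 22680) (nat_lit 30855) (nat_lit 63087287) (nat_lit 37400) (nat_lit 33692452) (nat_lit 0) (nat_lit 0),Row.mk (nat_lit 22848) (nat_lit 30668) (nat_lit 87183107) (nat_lit 37213) (nat_lit 33692452) (nat_lit 0) (nat_lit 0),Row.mk (nat_lit 23016) (nat_lit 30481) (nat_lit 117278206) (nat_lit 37026) (nat_lit 33692452) (nat_lit 0) (nat_lit 0),Row.mk (nat_lit 23184) (nat_lit 30294) (nat_lit 154866258) (nat_lit 36839) (nat_lit 33692452) (nat_lit 0) (nat_lit 0),Row.mk (nat_lit 23352) (nat_lit 30107) (nat_lit 201812828) (nat_lit 36652) (nat_lit 33692452) (nat_lit 0) (nat_lit 0),Row.mk (nat_lit 23520) (nat_lit 29920) (nat_lit 260447962) (nat_lit 36465) (nat_lit 33692452) (nat_lit 0) (nat_lit 0),Row.mk (nat_lit 23688) (nat_lit 29733) (nat_lit 333681830) (nat_lit 36278) (nat_lit 33692452) (nat_lit 0) (nat_lit 0),Row.mk (nat_lit 23856) (nat_lit 29546) (nat_lit 425149164) (nat_lit 36091) (nat_lit 33692452) (nat_lit 0) (nat_lit 0),Row.mk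 (nat_lit 24024) (nat_lit 29359) (nat_lit 539389658) (nat_lit 35904) (nat_lit 33692452) (nat_lit 0) (nat_lit 0),Row.mk (nat_lit 24192) (nat_lit 29172) (nat_lit 682073279) (nat_lit 35717) (nat_lit 33692452) (nat_lit 0) (nat_lit 0),Row.mk (nat_lit 24360) (nat_lit 28985) (nat_lit 860281679) (nat_lit 35530) (nat_lit 33692452) (nat_lit 0) (nat_lit 0),Row.mk (nat_lit 24528) (nat_lit 28798) (nat_lit 1082859672) (nat_lit 35343) (nat_lit 33692452) (nat_lit 0) (nat_lit 0)],
[Row.mk (nat_lit 15456) (nat_lit 32912) (nat_lit 6822) (nat_lit 61710) (nat_lit 8381785) (nat_lit 0) (nat_lit 0),Row.mk (nat_lit 15624) (nat_lit 32912) (nat_lit 8521) (nat_lit 61710) (nat_lit 8380086) (nat_lit 0) (nat_lit 0),Row.mk (nat_lit 15792) (nat_lit 60962) (nat_lit 10588) (nat_lit 61336) (nat_lit 54) (nat_lit 0) (nat_lit 0),Row.mk (nat_lit 15960) (nat_lit 60401) (nat_lit 13208) (nat_lit 60775) (nat_lit 84) (nat_lit 0) (nat_lit 0),Row.mk (nat_lit 16128) (nat_lit 59840)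 (nat_lit 16470) (nat_lit 60214) (nat_lit 131) (nat_lit 0) (nat_lit 0),Row.mk (nat_lit 16296) (nat_lit 59279) (nat_lit 20530) (nat_lit 59653) (nat_lit 205) (nat_lit 0) (nat_lit 0),Row.mk (nat_lit 16464) (nat_lit 58718) (nat_lit 25577) (nat_lit 59092) (nat_lit 321) (nat_lit 0) (nat_lit 0),Row.mk (nat_lit 16632) (nat_lit 58157) (nat_lit 31846) (nat_lit 58531) (nat_lit 500) (nat_lit 0) (nat_lit 0),Row.mk (nat_lit 16800) (nat_lit 57596) (nat_lit 39619) (nat_lit 57970) (nat_lit 781) (nat_lit 0) (nat_lit 0),Row.mk (nat_lit 16968) (nat_lit 57035) (nat_lit 49240) (nat_lit 57409) (nat_lit 1219) (nat_lit 0) (nat_lit 0),Row.mk (nat_lit 17136) (nat_lit 56474) (nat_lit 61121) (nat_lit 56848) (nat_lit 1901) (nat_lit 0) (nat_lit 0),Row.mk (nat_lit 17304) (nat_lit 55913) (nat_lit 75747) (nat_lit 56287) (nat_lit 2966) (nat_lit 0) (nat_lit 0),Row.mk (nat_lit 17472) (nat_lit 55352) (nat_lit 93684) (nat_lit 55726) (nat_lit 4627) (nat_lit 0) (nat_lit 0),Row.mk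 (nat_lit 17640) (nat_lit 54791) (nat_lit 115570) (nat_lit 55165) (nat_lit 7219) (nat_lit 0) (nat_lit 0),Row.mk (nat_lit 17808) (nat_lit 54230) (nat_lit 142100) (nat_lit 54604) (nat_lit 11261) (nat_lit 0) (nat_lit 0),Row.mk (nat_lit 17976) (nat_lit 53669) (nat_lit 173978) (nat_lit 54043) (nat_lit 17566) (nat_lit 0) (nat_lit 0),Row.mk (nat_lit 18144) (nat_lit 53108) (nat_lit 211831) (nat_lit 53482) (nat_lit 27403) (nat_lit 0) (nat_lit 0),Row.mk (nat_lit 18312) (nat_lit 52547) (nat_lit 256051) (nat_lit 52921) (nat_lit 42747) (nat_lit 0) (nat_lit 0),Row.mk (nat_lit 18480) (nat_lit 51986) (nat_lit 306509) (nat_lit 52360) (nat_lit 66683) (nat_lit 0) (nat_lit 0),Row.mk (nat_lit 18648) (nat_lit 51425) (nat_lit 362086) (nat_lit 51799) (nat_lit 104022) (nat_lit 0) (nat_lit 0),Row.mk (nat_lit 18816) (nat_lit 50864) (nat_lit 419889) (nat_lit 51238) (nat_lit 162268) (nat_lit 0) (nat_lit 0),Row.mk (nat_lit 18984) (nat_lit 50303) (nat_lit 473972)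 (nat_lit 50677) (nat_lit 253129) (nat_lit 0) (nat_lit 0),Row.mk (nat_lit 19152) (nat_lit 49742) (nat_lit 513265) (nat_lit 50116) (nat_lit 394867) (nat_lit 0) (nat_lit 0),Row.mk (nat_lit 19320) (nat_lit 49181) (nat_lit 518265) (nat_lit 49555) (nat_lit 615970) (nat_lit 0) (nat_lit 0),Row.mk (nat_lit 19488) (nat_lit 48620) (nat_lit 455756) (nat_lit 48994) (nat_lit 960877) (nat_lit 0) (nat_lit 0),Row.mk (nat_lit 19656) (nat_lit 47872) (nat_lit 270429) (nat_lit 48433) (nat_lit 1498911) (nat_lit 0) (nat_lit 0),Row.mk (nat_lit 19824) (nat_lit 47685) (nat_lit 2107101) (nat_lit 48246) (nat_lit 102763) (nat_lit 0) (nat_lit 0),Row.mk (nat_lit 19992) (nat_lit 46750) (nat_lit 2049560) (nat_lit 47498) (nat_lit 710507) (nat_lit 0) (nat_lit 0),Row.mk (nat_lit 20160) (nat_lit 45815) (nat_lit 1651718) (nat_lit 46563) (nat_lit 1795539) (nat_lit 0) (nat_lit 0),Row.mk (nat_lit 20328) (nat_lit 44693) (nat_lit 646322) (nat_lit 45628) (nat_lit 3659218) (nat_lit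 0) (nat_lit 0),Row.mk (nat_lit 20496) (nat_lit 44506) (nat_lit 4254498) (nat_lit 45441) (nat_lit 1123018) (nat_lit 0) (nat_lit 0),Row.mk (nat_lit 20664) (nat_lit 43197) (nat_lit 2553699) (nat_lit 44319) (nat_lit 4162689) (nat_lit 0) (nat_lit 0),Row.mk (nat_lit 20832) (nat_lit 43010) (nat_lit 7495049) (nat_lit 44132) (nat_lit 893558) (nat_lit 0) (nat_lit 0),Row.mk (nat_lit 21000) (nat_lit 41327) (nat_lit 3983619) (nat_lit 42823) (nat_lit 6493549) (nat_lit 0) (nat_lit 0),Row.mk (nat_lit 21168) (nat_lit 41140) (nat_lit 10352961) (nat_lit 42636) (nat_lit 2732769) (nat_lit 0) (nat_lit 0),Row.mk (nat_lit 21336) (nat_lit 38896) (nat_lit 2453430) (nat_lit 40953) (nat_lit 13890332) (nat_lit 0) (nat_lit 0),Row.mk (nat_lit 21504) (nat_lit 38709) (nat_lit 9780664) (nat_lit 40766) (nat_lit 10632301) (nat_lit 0) (nat_lit 0),Row.mk (nat_lit 21672) (nat_lit 38522) (nat_lit 18932203) (nat_lit 40579) (nat_lit 6563098) (nat_lit 0) (nat_lit 0),Row.mk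 (nat_lit 21840) (nat_lit 38335) (nat_lit 30362254) (nat_lit 40392) (nat_lit 1480762) (nat_lit 0) (nat_lit 0),Row.mk (nat_lit 22008) (nat_lit 31603) (nat_lit 6078706) (nat_lit 38148) (nat_lit 33692452) (nat_lit 0) (nat_lit 0),Row.mk (nat_lit 22176) (nat_lit 31416) (nat_lit 15980765) (nat_lit 37961) (nat_lit 33692452) (nat_lit 0) (nat_lit 0),Row.mk (nat_lit 22344) (nat_lit 31229) (nat_lit 28348198) (nat_lit 37774) (nat_lit 33692452) (nat_lit 0) (nat_lit 0),Row.mk (nat_lit 22512) (nat_lit 31042) (nat_lit 43794824) (nat_lit 37587) (nat_lit 33692452) (nat_lit 0) (nat_lit 0),Row.mk (nat_lit 22680) (nat_lit 30855) (nat_lit 63087287) (nat_lit 37400) (nat_lit 33692452) (nat_lit 0) (nat_lit 0),Row.mk (nat_lit 22848) (nat_lit 30668) (nat_lit 87183107) (nat_lit 37213) (nat_lit 33692452) (nat_lit 0) (nat_lit 0),Row.mk (nat_lit 23016) (nat_lit 30481) (nat_lit 117278206) (nat_lit 37026) (nat_lit 33692452) (nat_lit 0) (nat_lit 0),Row.mk (nat_lit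 23184) (nat_lit 30294) (nat_lit 154866258) (nat_lit 36839) (nat_lit 33692452) (nat_lit 0) (nat_lit 0),Row.mk (nat_lit 23352) (nat_lit 30107) (nat_lit 201812828) (nat_lit 36652) (nat_lit 33692452) (nat_lit 0) (nat_lit 0),Row.mk (nat_lit 23520) (nat_lit 29920) (nat_lit 260447962) (nat_lit 36465) (nat_lit 33692452) (nat_lit 0) (nat_lit 0),Row.mk (nat_lit 23688) (nat_lit 29733) (nat_lit 333681830) (nat_lit 36278) (nat_lit 33692452) (nat_lit 0) (nat_lit 0),Row.mk (nat_lit 23856) (nat_lit 29546) (nat_lit 425149164) (nat_lit 36091) (nat_lit 33692452) (nat_lit 0) (nat_lit 0),Row.mk (nat_lit 24024) (nat_lit 29359) (nat_lit 539389658) (nat_lit 35904) (nat_lit 33692452) (nat_lit 0) (nat_lit 0),Row.mk (nat_lit 24192) (nat_lit 29172) (nat_lit 682073279) (nat_lit 35717) (nat_lit 33692452) (nat_lit 0) (nat_lit 0),Row.mk (nat_lit 24360) (nat_lit 28985) (nat_lit 860281679) (nat_lit 35530) (nat_lit 33692452) (nat_lit 0) (nat_lit 0),Row.mk (nat_lit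 24528) (nat_lit 28798) (nat_lit 1082859672) (nat_lit 35343) (nat_lit 33692452) (nat_lit 0) (nat_lit 0),Row.mk (nat_lit 24696) (nat_lit 28611) (nat_lit 1360854216) (nat_lit 35156) (nat_lit 33692452) (nat_lit 0) (nat_lit 0)],
[Row.mk (nat_lit 15456) (nat_lit 32912) (nat_lit 6822) (nat_lit 61710) (nat_lit 8381785) (nat_lit 0) (nat_lit 0),Row.mk (nat_lit 15624) (nat_lit 32912) (nat_lit 8521) (nat_lit 61710) (nat_lit 8380086) (nat_lit 0) (nat_lit 0),Row.mk (nat_lit 15792) (nat_lit 60962) (nat_lit 10588) (nat_lit 61336) (nat_lit 54) (nat_lit 0) (nat_lit 0),Row.mk (nat_lit 15960) (nat_lit 60401) (nat_lit 13208) (nat_lit 60775) (nat_lit 84) (nat_lit 0) (nat_lit 0),Row.mk (nat_lit 16128) (nat_lit 59840) (nat_lit 16470) (nat_lit 60214) (nat_lit 131) (nat_lit 0) (nat_lit 0),Row.mk (nat_lit 16296) (nat_lit 59279) (nat_lit 20530) (nat_lit 59653) (nat_lit 205) (nat_lit 0) (nat_lit 0),Row.mk (nat_lit 16464) (nat_lit 58718) (nat_lit 25577) (nat_lit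 59092) (nat_lit 321) (nat_lit 0) (nat_lit 0),Row.mk (nat_lit 16632) (nat_lit 58157) (nat_lit 31846) (nat_lit 58531) (nat_lit 500) (nat_lit 0) (nat_lit 0),Row.mk (nat_lit 16800) (nat_lit 57596) (nat_lit 39619) (nat_lit 57970) (nat_lit 781) (nat_lit 0) (nat_lit 0),Row.mk (nat_lit 16968) (nat_lit 57035) (nat_lit 49240) (nat_lit 57409) (nat_lit 1219) (nat_lit 0) (nat_lit 0),Row.mk (nat_lit 17136) (nat_lit 56474) (nat_lit 61121) (nat_lit 56848) (nat_lit 1901) (nat_lit 0) (nat_lit 0),Row.mk (nat_lit 17304) (nat_lit 55913) (nat_lit 75747) (nat_lit 56287) (nat_lit 2966) (nat_lit 0) (nat_lit 0),Row.mk (nat_lit 17472) (nat_lit 55352) (nat_lit 93684) (nat_lit 55726) (nat_lit 4627) (nat_lit 0) (nat_lit 0),Row.mk (nat_lit 17640) (nat_lit 54791) (nat_lit 115570) (nat_lit 55165) (nat_lit 7219) (nat_lit 0) (nat_lit 0),Row.mk (nat_lit 17808) (nat_lit 54230) (nat_lit 142100) (nat_lit 54604) (nat_lit 11261) (nat_lit 0) (nat_lit 0),Row.mk (nat_lit 17976)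 (nat_lit 53669) (nat_lit 173978) (nat_lit 54043) (nat_lit 17566) (nat_lit 0) (nat_lit 0),Row.mk (nat_lit 18144) (nat_lit 53108) (nat_lit 211831) (nat_lit 53482) (nat_lit 27403) (nat_lit 0) (nat_lit 0),Row.mk (nat_lit 18312) (nat_lit 52547) (nat_lit 256051) (nat_lit 52921) (nat_lit 42747) (nat_lit 0) (nat_lit 0),Row.mk (nat_lit 18480) (nat_lit 51986) (nat_lit 306509) (nat_lit 52360) (nat_lit 66683) (nat_lit 0) (nat_lit 0),Row.mk (nat_lit 18648) (nat_lit 51425) (nat_lit 362086) (nat_lit 51799) (nat_lit 104022) (nat_lit 0) (nat_lit 0),Row.mk (nat_lit 18816) (nat_lit 50864) (nat_lit 419889) (nat_lit 51238) (nat_lit 162268) (nat_lit 0) (nat_lit 0),Row.mk (nat_lit 18984) (nat_lit 50303) (nat_lit 473972) (nat_lit 50677) (nat_lit 253129) (nat_lit 0) (nat_lit 0),Row.mk (nat_lit 19152) (nat_lit 49742) (nat_lit 513265) (nat_lit 50116) (nat_lit 394867) (nat_lit 0) (nat_lit 0),Row.mk (nat_lit 19320) (nat_lit 49181) (nat_lit 518265) (nat_lit 49555)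 (nat_lit 615970) (nat_lit 0) (nat_lit 0),Row.mk (nat_lit 19488) (nat_lit 48620) (nat_lit 455756) (nat_lit 48994) (nat_lit 960877) (nat_lit 0) (nat_lit 0),Row.mk (nat_lit 19656) (nat_lit 47872) (nat_lit 270429) (nat_lit 48433) (nat_lit 1498911) (nat_lit 0) (nat_lit 0),Row.mk (nat_lit 19824) (nat_lit 47685) (nat_lit 2107101) (nat_lit 48246) (nat_lit 102763) (nat_lit 0) (nat_lit 0),Row.mk (nat_lit 19992) (nat_lit 46750) (nat_lit 2049560) (nat_lit 47498) (nat_lit 710507) (nat_lit 0) (nat_lit 0),Row.mk (nat_lit 20160) (nat_lit 45815) (nat_lit 1651718) (nat_lit 46563) (nat_lit 1795539) (nat_lit 0) (nat_lit 0),Row.mk (nat_lit 20328) (nat_lit 44693) (nat_lit 646322) (nat_lit 45628) (nat_lit 3659218) (nat_lit 0) (nat_lit 0),Row.mk (nat_lit 20496) (nat_lit 44506) (nat_lit 4254498) (nat_lit 45441) (nat_lit 1123018) (nat_lit 0) (nat_lit 0),Row.mk (nat_lit 20664) (nat_lit 43197) (nat_lit 2553699) (nat_lit 44319) (nat_lit 4162689) (nat_lit 0) (nat_lit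 0),Row.mk (nat_lit 20832) (nat_lit 43010) (nat_lit 7495049) (nat_lit 44132) (nat_lit 893558) (nat_lit 0) (nat_lit 0),Row.mk (nat_lit 21000) (nat_lit 41327) (nat_lit 3983619) (nat_lit 42823) (nat_lit 6493549) (nat_lit 0) (nat_lit 0),Row.mk (nat_lit 21168) (nat_lit 41140) (nat_lit 10352961) (nat_lit 42636) (nat_lit 2732769) (nat_lit 0) (nat_lit 0),Row.mk (nat_lit 21336) (nat_lit 38896) (nat_lit 2453430) (nat_lit 40953) (nat_lit 13890332) (nat_lit 0) (nat_lit 0),Row.mk (nat_lit 21504) (nat_lit 38709) (nat_lit 9780664) (nat_lit 40766) (nat_lit 10632301) (nat_lit 0) (nat_lit 0),Row.mk (nat_lit 21672) (nat_lit 38522) (nat_lit 18932203) (nat_lit 40579) (nat_lit 6563098) (nat_lit 0) (nat_lit 0),Row.mk (nat_lit 21840) (nat_lit 38335) (nat_lit 30362254) (nat_lit 40392) (nat_lit 1480762) (nat_lit 0) (nat_lit 0),Row.mk (nat_lit 22008) (nat_lit 31603) (nat_lit 6078706) (nat_lit 38148) (nat_lit 33692452) (nat_lit 0) (nat_lit 0),Row.mk (nat_lit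 22176) (nat_lit 31416) (nat_lit 15980765) (nat_lit 37961) (nat_lit 33692452) (nat_lit 0) (nat_lit 0),Row.mk (nat_lit 22344) (nat_lit 31229) (nat_lit 28348198) (nat_lit 37774) (nat_lit 33692452) (nat_lit 0) (nat_lit 0),Row.mk (nat_lit 22512) (nat_lit 31042) (nat_lit 43794824) (nat_lit 37587) (nat_lit 33692452) (nat_lit 0) (nat_lit 0),Row.mk (nat_lit 22680) (nat_lit 30855) (nat_lit 63087287) (nat_lit 37400) (nat_lit 33692452) (nat_lit 0) (nat_lit 0),Row.mk (nat_lit 22848) (nat_lit 30668) (nat_lit 87183107) (nat_lit 37213) (nat_lit 33692452) (nat_lit 0) (nat_lit 0),Row.mk (nat_lit 23016) (nat_lit 30481) (nat_lit 117278206) (nat_lit 37026) (nat_lit 33692452) (nat_lit 0) (nat_lit 0),Row.mk (nat_lit 23184) (nat_lit 30294) (nat_lit 154866258) (nat_lit 36839) (nat_lit 33692452) (nat_lit 0) (nat_lit 0),Row.mk (nat_lit 23352) (nat_lit 30107) (nat_lit 201812828) (nat_lit 36652) (nat_lit 33692452) (nat_lit 0) (nat_lit 0),Row.mk (nat_lit 23520)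 (nat_lit 29920) (nat_lit 260447962) (nat_lit 36465) (nat_lit 33692452) (nat_lit 0) (nat_lit 0),Row.mk (nat_lit 23688) (nat_lit 29733) (nat_lit 333681830) (nat_lit 36278) (nat_lit 33692452) (nat_lit 0) (nat_lit 0),Row.mk (nat_lit 23856) (nat_lit 29546) (nat_lit 425149164) (nat_lit 36091) (nat_lit 33692452) (nat_lit 0) (nat_lit 0),Row.mk (nat_lit 24024) (nat_lit 29359) (nat_lit 539389658) (nat_lit 35904) (nat_lit 33692452) (nat_lit 0) (nat_lit 0),Row.mk (nat_lit 24192) (nat_lit 29172) (nat_lit 682073279) (nat_lit 35717) (nat_lit 33692452) (nat_lit 0) (nat_lit 0),Row.mk (nat_lit 24360) (nat_lit 28985) (nat_lit 860281679) (nat_lit 35530) (nat_lit 33692452) (nat_lit 0) (nat_lit 0),Row.mk (nat_lit 24528) (nat_lit 28798) (nat_lit 1082859672) (nat_lit 35343) (nat_lit 33692452) (nat_lit 0) (nat_lit 0),Row.mk (nat_lit 24696) (nat_lit 28611) (nat_lit 1360854216) (nat_lit 35156) (nat_lit 33692452) (nat_lit 0) (nat_lit 0),Row.mk (nat_lit 24864)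 (nat_lit 28424) (nat_lit 1708062695) (nat_lit 34969) (nat_lit 33692452) (nat_lit 0) (nat_lit 0)],
[Row.mk (nat_lit 15288) (nat_lit 32912) (nat_lit 5462) (nat_lit 61710) (nat_lit 8383145) (nat_lit 0) (nat_lit 0),Row.mk (nat_lit 15456) (nat_lit 32912) (nat_lit 6822) (nat_lit 61710) (nat_lit 8381785) (nat_lit 0) (nat_lit 0),Row.mk (nat_lit 15624) (nat_lit 32912) (nat_lit 8521) (nat_lit 61710) (nat_lit 8380086) (nat_lit 0) (nat_lit 0),Row.mk (nat_lit 15792) (nat_lit 60962) (nat_lit 10588) (nat_lit 61336) (nat_lit 54) (nat_lit 0) (nat_lit 0),Row.mk (nat_lit 15960) (nat_lit 60401) (nat_lit 13208) (nat_lit 60775) (nat_lit 84) (nat_lit 0) (nat_lit 0),Row.mk (nat_lit 16128) (nat_lit 59840) (nat_lit 16470) (nat_lit 60214) (nat_lit 131) (nat_lit 0) (nat_lit 0),Row.mk (nat_lit 16296) (nat_lit 59279) (nat_lit 20530) (nat_lit 59653) (nat_lit 205) (nat_lit 0) (nat_lit 0),Row.mk (nat_lit 16464) (nat_lit 58718) (nat_lit 25577) (nat_lit 59092) (nat_lit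 321) (nat_lit 0) (nat_lit 0),Row.mk (nat_lit 16632) (nat_lit 58157) (nat_lit 31846) (nat_lit 58531) (nat_lit 500) (nat_lit 0) (nat_lit 0),Row.mk (nat_lit 16800) (nat_lit 57596) (nat_lit 39619) (nat_lit 57970) (nat_lit 781) (nat_lit 0) (nat_lit 0),Row.mk (nat_lit 16968) (nat_lit 57035) (nat_lit 49240) (nat_lit 57409) (nat_lit 1219) (nat_lit 0) (nat_lit 0),Row.mk (nat_lit 17136) (nat_lit 56474) (nat_lit 61121) (nat_lit 56848) (nat_lit 1901) (nat_lit 0) (nat_lit 0),Row.mk (nat_lit 17304) (nat_lit 55913) (nat_lit 75747) (nat_lit 56287) (nat_lit 2966) (nat_lit 0) (nat_lit 0),Row.mk (nat_lit 17472) (nat_lit 55352) (nat_lit 93684) (nat_lit 55726) (nat_lit 4627) (nat_lit 0) (nat_lit 0),Row.mk (nat_lit 17640) (nat_lit 54791) (nat_lit 115570) (nat_lit 55165) (nat_lit 7219) (nat_lit 0) (nat_lit 0),Row.mk (nat_lit 17808) (nat_lit 54230) (nat_lit 142100) (nat_lit 54604) (nat_lit 11261) (nat_lit 0) (nat_lit 0),Row.mk (nat_lit 17976) (nat_lit 53669)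 (nat_lit 173978) (nat_lit 54043) (nat_lit 17566) (nat_lit 0) (nat_lit 0),Row.mk (nat_lit 18144) (nat_lit 53108) (nat_lit 211831) (nat_lit 53482) (nat_lit 27403) (nat_lit 0) (nat_lit 0),Row.mk (nat_lit 18312) (nat_lit 52547) (nat_lit 256051) (nat_lit 52921) (nat_lit 42747) (nat_lit 0) (nat_lit 0),Row.mk (nat_lit 18480) (nat_lit 51986) (nat_lit 306509) (nat_lit 52360) (nat_lit 66683) (nat_lit 0) (nat_lit 0),Row.mk (nat_lit 18648) (nat_lit 51425) (nat_lit 362086) (nat_lit 51799) (nat_lit 104022) (nat_lit 0) (nat_lit 0),Row.mk (nat_lit 18816) (nat_lit 50864) (nat_lit 419889) (nat_lit 51238) (nat_lit 162268) (nat_lit 0) (nat_lit 0),Row.mk (nat_lit 18984) (nat_lit 50303) (nat_lit 473972) (nat_lit 50677) (nat_lit 253129) (nat_lit 0) (nat_lit 0),Row.mk (nat_lit 19152) (nat_lit 49742) (nat_lit 513265) (nat_lit 50116) (nat_lit 394867) (nat_lit 0) (nat_lit 0),Row.mk (nat_lit 19320) (nat_lit 49181) (nat_lit 518265) (nat_lit 49555) (nat_lit 615970)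 (nat_lit 0) (nat_lit 0),Row.mk (nat_lit 19488) (nat_lit 48620) (nat_lit 455756) (nat_lit 48994) (nat_lit 960877) (nat_lit 0) (nat_lit 0),Row.mk (nat_lit 19656) (nat_lit 47872) (nat_lit 270429) (nat_lit 48433) (nat_lit 1498911) (nat_lit 0) (nat_lit 0),Row.mk (nat_lit 19824) (nat_lit 47685) (nat_lit 2107101) (nat_lit 48246) (nat_lit 102763) (nat_lit 0) (nat_lit 0),Row.mk (nat_lit 19992) (nat_lit 46750) (nat_lit 2049560) (nat_lit 47498) (nat_lit 710507) (nat_lit 0) (nat_lit 0),Row.mk (nat_lit 20160) (nat_lit 45815) (nat_lit 1651718) (nat_lit 46563) (nat_lit 1795539) (nat_lit 0) (nat_lit 0),Row.mk (nat_lit 20328) (nat_lit 44693) (nat_lit 646322) (nat_lit 45628) (nat_lit 3659218) (nat_lit 0) (nat_lit 0),Row.mk (nat_lit 20496) (nat_lit 44506) (nat_lit 4254498) (nat_lit 45441) (nat_lit 1123018) (nat_lit 0) (nat_lit 0),Row.mk (nat_lit 20664) (nat_lit 43197) (nat_lit 2553699) (nat_lit 44319) (nat_lit 4162689) (nat_lit 0) (nat_lit 0),Row.mk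 (nat_lit 20832) (nat_lit 43010) (nat_lit 7495049) (nat_lit 44132) (nat_lit 893558) (nat_lit 0) (nat_lit 0),Row.mk (nat_lit 21000) (nat_lit 41327) (nat_lit 3983619) (nat_lit 42823) (nat_lit 6493549) (nat_lit 0) (nat_lit 0),Row.mk (nat_lit 21168) (nat_lit 41140) (nat_lit 10352961) (nat_lit 42636) (nat_lit 2732769) (nat_lit 0) (nat_lit 0),Row.mk (nat_lit 21336) (nat_lit 38896) (nat_lit 2453430) (nat_lit 40953) (nat_lit 13890332) (nat_lit 0) (nat_lit 0),Row.mk (nat_lit 21504) (nat_lit 38709) (nat_lit 9780664) (nat_lit 40766) (nat_lit 10632301) (nat_lit 0) (nat_lit 0),Row.mk (nat_lit 21672) (nat_lit 38522) (nat_lit 18932203) (nat_lit 40579) (nat_lit 6563098) (nat_lit 0) (nat_lit 0),Row.mk (nat_lit 21840) (nat_lit 38335) (nat_lit 30362254) (nat_lit 40392) (nat_lit 1480762) (nat_lit 0) (nat_lit 0),Row.mk (nat_lit 22008) (nat_lit 31603) (nat_lit 6078706) (nat_lit 38148) (nat_lit 33692452) (nat_lit 0) (nat_lit 0),Row.mk (nat_lit 22176) (nat_lit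 31416) (nat_lit 15980765) (nat_lit 37961) (nat_lit 33692452) (nat_lit 0) (nat_lit 0),Row.mk (nat_lit 22344) (nat_lit 31229) (nat_lit 28348198) (nat_lit 37774) (nat_lit 33692452) (nat_lit 0) (nat_lit 0),Row.mk (nat_lit 22512) (nat_lit 31042) (nat_lit 43794824) (nat_lit 37587) (nat_lit 33692452) (nat_lit 0) (nat_lit 0),Row.mk (nat_lit 22680) (nat_lit 30855) (nat_lit 63087287) (nat_lit 37400) (nat_lit 33692452) (nat_lit 0) (nat_lit 0),Row.mk (nat_lit 22848) (nat_lit 30668) (nat_lit 87183107) (nat_lit 37213) (nat_lit 33692452) (nat_lit 0) (nat_lit 0),Row.mk (nat_lit 23016) (nat_lit 30481) (nat_lit 117278206) (nat_lit 37026) (nat_lit 33692452) (nat_lit 0) (nat_lit 0),Row.mk (nat_lit 23184) (nat_lit 30294) (nat_lit 154866258) (nat_lit 36839) (nat_lit 33692452) (nat_lit 0) (nat_lit 0),Row.mk (nat_lit 23352) (nat_lit 30107) (nat_lit 201812828) (nat_lit 36652) (nat_lit 33692452) (nat_lit 0) (nat_lit 0),Row.mk (nat_lit 23520) (nat_lit 29920)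 (nat_lit 260447962) (nat_lit 36465) (nat_lit 33692452) (nat_lit 0) (nat_lit 0),Row.mk (nat_lit 23688) (nat_lit 29733) (nat_lit 333681830) (nat_lit 36278) (nat_lit 33692452) (nat_lit 0) (nat_lit 0),Row.mk (nat_lit 23856) (nat_lit 29546) (nat_lit 425149164) (nat_lit 36091) (nat_lit 33692452) (nat_lit 0) (nat_lit 0),Row.mk (nat_lit 24024) (nat_lit 29359) (nat_lit 539389658) (nat_lit 35904) (nat_lit 33692452) (nat_lit 0) (nat_lit 0),Row.mk (nat_lit 24192) (nat_lit 29172) (nat_lit 682073279) (nat_lit 35717) (nat_lit 33692452) (nat_lit 0) (nat_lit 0),Row.mk (nat_lit 24360) (nat_lit 28985) (nat_lit 860281679) (nat_lit 35530) (nat_lit 33692452) (nat_lit 0) (nat_lit 0),Row.mk (nat_lit 24528) (nat_lit 28798) (nat_lit 1082859672) (nat_lit 35343) (nat_lit 33692452) (nat_lit 0) (nat_lit 0),Row.mk (nat_lit 24696) (nat_lit 28611) (nat_lit 1360854216) (nat_lit 35156) (nat_lit 33692452) (nat_lit 0) (nat_lit 0),Row.mk (nat_lit 24864) (nat_lit 28424)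 (nat_lit 1708062695) (nat_lit 34969) (nat_lit 33692452) (nat_lit 0) (nat_lit 0),Row.mk (nat_lit 25032) (nat_lit 28237) (nat_lit 2141717710) (nat_lit 34782) (nat_lit 33692452) (nat_lit 0) (nat_lit 0)],
[Row.mk (nat_lit 15120) (nat_lit 32912) (nat_lit 4373) (nat_lit 61710) (nat_lit 8384234) (nat_lit 0) (nat_lit 0),Row.mk (nat_lit 15288) (nat_lit 32912) (nat_lit 5462) (nat_lit 61710) (nat_lit 8383145) (nat_lit 0) (nat_lit 0),Row.mk (nat_lit 15456) (nat_lit 32912) (nat_lit 6822) (nat_lit 61710) (nat_lit 8381785) (nat_lit 0) (nat_lit 0),Row.mk (nat_lit 15624) (nat_lit 32912) (nat_lit 8521) (nat_lit 61710) (nat_lit 8380086) (nat_lit 0) (nat_lit 0),Row.mk (nat_lit 15792) (nat_lit 60962) (nat_lit 10588) (nat_lit 61336) (nat_lit 54) (nat_lit 0) (nat_lit 0),Row.mk (nat_lit 15960) (nat_lit 60401) (nat_lit 13208) (nat_lit 60775) (nat_lit 84) (nat_lit 0) (nat_lit 0),Row.mk (nat_lit 16128) (nat_lit 59840) (nat_lit 16470) (nat_lit 60214) (nat_lit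 131) (nat_lit 0) (nat_lit 0),Row.mk (nat_lit 16296) (nat_lit 59279) (nat_lit 20530) (nat_lit 59653) (nat_lit 205) (nat_lit 0) (nat_lit 0),Row.mk (nat_lit 16464) (nat_lit 58718) (nat_lit 25577) (nat_lit 59092) (nat_lit 321) (nat_lit 0) (nat_lit 0),Row.mk (nat_lit 16632) (nat_lit 58157) (nat_lit 31846) (nat_lit 58531) (nat_lit 500) (nat_lit 0) (nat_lit 0),Row.mk (nat_lit 16800) (nat_lit 57596) (nat_lit 39619) (nat_lit 57970) (nat_lit 781) (nat_lit 0) (nat_lit 0),Row.mk (nat_lit 16968) (nat_lit 57035) (nat_lit 49240) (nat_lit 57409) (nat_lit 1219) (nat_lit 0) (nat_lit 0),Row.mk (nat_lit 17136) (nat_lit 56474) (nat_lit 61121) (nat_lit 56848) (nat_lit 1901) (nat_lit 0) (nat_lit 0),Row.mk (nat_lit 17304) (nat_lit 55913) (nat_lit 75747) (nat_lit 56287) (nat_lit 2966) (nat_lit 0) (nat_lit 0),Row.mk (nat_lit 17472) (nat_lit 55352) (nat_lit 93684) (nat_lit 55726) (nat_lit 4627) (nat_lit 0) (nat_lit 0),Row.mk (nat_lit 17640) (nat_lit 54791)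 (nat_lit 115570) (nat_lit 55165) (nat_lit 7219) (nat_lit 0) (nat_lit 0),Row.mk (nat_lit 17808) (nat_lit 54230) (nat_lit 142100) (nat_lit 54604) (nat_lit 11261) (nat_lit 0) (nat_lit 0),Row.mk (nat_lit 17976) (nat_lit 53669) (nat_lit 173978) (nat_lit 54043) (nat_lit 17566) (nat_lit 0) (nat_lit 0),Row.mk (nat_lit 18144) (nat_lit 53108) (nat_lit 211831) (nat_lit 53482) (nat_lit 27403) (nat_lit 0) (nat_lit 0),Row.mk (nat_lit 18312) (nat_lit 52547) (nat_lit 256051) (nat_lit 52921) (nat_lit 42747) (nat_lit 0) (nat_lit 0),Row.mk (nat_lit 18480) (nat_lit 51986) (nat_lit 306509) (nat_lit 52360) (nat_lit 66683) (nat_lit 0) (nat_lit 0),Row.mk (nat_lit 18648) (nat_lit 51425) (nat_lit 362086) (nat_lit 51799) (nat_lit 104022) (nat_lit 0) (nat_lit 0),Row.mk (nat_lit 18816) (nat_lit 50864) (nat_lit 419889) (nat_lit 51238) (nat_lit 162268) (nat_lit 0) (nat_lit 0),Row.mk (nat_lit 18984) (nat_lit 50303) (nat_lit 473972) (nat_lit 50677) (nat_lit 253129)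 (nat_lit 0) (nat_lit 0),Row.mk (nat_lit 19152) (nat_lit 49742) (nat_lit 513265) (nat_lit 50116) (nat_lit 394867) (nat_lit 0) (nat_lit 0),Row.mk (nat_lit 19320) (nat_lit 49181) (nat_lit 518265) (nat_lit 49555) (nat_lit 615970) (nat_lit 0) (nat_lit 0),Row.mk (nat_lit 19488) (nat_lit 48620) (nat_lit 455756) (nat_lit 48994) (nat_lit 960877) (nat_lit 0) (nat_lit 0),Row.mk (nat_lit 19656) (nat_lit 47872) (nat_lit 270429) (nat_lit 48433) (nat_lit 1498911) (nat_lit 0) (nat_lit 0),Row.mk (nat_lit 19824) (nat_lit 47685) (nat_lit 2107101) (nat_lit 48246) (nat_lit 102763) (nat_lit 0) (nat_lit 0),Row.mk (nat_lit 19992) (nat_lit 46750) (nat_lit 2049560) (nat_lit 47498) (nat_lit 710507) (nat_lit 0) (nat_lit 0),Row.mk (nat_lit 20160) (nat_lit 45815) (nat_lit 1651718) (nat_lit 46563) (nat_lit 1795539) (nat_lit 0) (nat_lit 0),Row.mk (nat_lit 20328) (nat_lit 44693) (nat_lit 646322) (nat_lit 45628) (nat_lit 3659218) (nat_lit 0) (nat_lit 0),Row.mk (nat_lit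 20496) (nat_lit 44506) (nat_lit 4254498) (nat_lit 45441) (nat_lit 1123018) (nat_lit 0) (nat_lit 0),Row.mk (nat_lit 20664) (nat_lit 43197) (nat_lit 2553699) (nat_lit 44319) (nat_lit 4162689) (nat_lit 0) (nat_lit 0),Row.mk (nat_lit 20832) (nat_lit 43010) (nat_lit 7495049) (nat_lit 44132) (nat_lit 893558) (nat_lit 0) (nat_lit 0),Row.mk (nat_lit 21000) (nat_lit 41327) (nat_lit 3983619) (nat_lit 42823) (nat_lit 6493549) (nat_lit 0) (nat_lit 0),Row.mk (nat_lit 21168) (nat_lit 41140) (nat_lit 10352961) (nat_lit 42636) (nat_lit 2732769) (nat_lit 0) (nat_lit 0),Row.mk (nat_lit 21336) (nat_lit 38896) (nat_lit 2453430) (nat_lit 40953) (nat_lit 13890332) (nat_lit 0) (nat_lit 0),Row.mk (nat_lit 21504) (nat_lit 38709) (nat_lit 9780664) (nat_lit 40766) (nat_lit 10632301) (nat_lit 0) (nat_lit 0),Row.mk (nat_lit 21672) (nat_lit 38522) (nat_lit 18932203) (nat_lit 40579) (nat_lit 6563098) (nat_lit 0) (nat_lit 0),Row.mk (nat_lit 21840) (nat_lit 38335)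 (nat_lit 30362254) (nat_lit 40392) (nat_lit 1480762) (nat_lit 0) (nat_lit 0),Row.mk (nat_lit 22008) (nat_lit 31603) (nat_lit 6078706) (nat_lit 38148) (nat_lit 33692452) (nat_lit 0) (nat_lit 0),Row.mk (nat_lit 22176) (nat_lit 31416) (nat_lit 15980765) (nat_lit 37961) (nat_lit 33692452) (nat_lit 0) (nat_lit 0),Row.mk (nat_lit 22344) (nat_lit 31229) (nat_lit 28348198) (nat_lit 37774) (nat_lit 33692452) (nat_lit 0) (nat_lit 0),Row.mk (nat_lit 22512) (nat_lit 31042) (nat_lit 43794824) (nat_lit 37587) (nat_lit 33692452) (nat_lit 0) (nat_lit 0),Row.mk (nat_lit 22680) (nat_lit 30855) (nat_lit 63087287) (nat_lit 37400) (nat_lit 33692452) (nat_lit 0) (nat_lit 0),Row.mk (nat_lit 22848) (nat_lit 30668) (nat_lit 87183107) (nat_lit 37213) (nat_lit 33692452) (nat_lit 0) (nat_lit 0),Row.mk (nat_lit 23016) (nat_lit 30481) (nat_lit 117278206) (nat_lit 37026) (nat_lit 33692452) (nat_lit 0) (nat_lit 0),Row.mk (nat_lit 23184) (nat_lit 30294) (nat_lit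 154866258) (nat_lit 36839) (nat_lit 33692452) (nat_lit 0) (nat_lit 0),Row.mk (nat_lit 23352) (nat_lit 30107) (nat_lit 201812828) (nat_lit 36652) (nat_lit 33692452) (nat_lit 0) (nat_lit 0),Row.mk (nat_lit 23520) (nat_lit 29920) (nat_lit 260447962) (nat_lit 36465) (nat_lit 33692452) (nat_lit 0) (nat_lit 0),Row.mk (nat_lit 23688) (nat_lit 29733) (nat_lit 333681830) (nat_lit 36278) (nat_lit 33692452) (nat_lit 0) (nat_lit 0),Row.mk (nat_lit 23856) (nat_lit 29546) (nat_lit 425149164) (nat_lit 36091) (nat_lit 33692452) (nat_lit 0) (nat_lit 0),Row.mk (nat_lit 24024) (nat_lit 29359) (nat_lit 539389658) (nat_lit 35904) (nat_lit 33692452) (nat_lit 0) (nat_lit 0),Row.mk (nat_lit 24192) (nat_lit 29172) (nat_lit 682073279) (nat_lit 35717) (nat_lit 33692452) (nat_lit 0) (nat_lit 0),Row.mk (nat_lit 24360) (nat_lit 28985) (nat_lit 860281679) (nat_lit 35530) (nat_lit 33692452) (nat_lit 0) (nat_lit 0),Row.mk (nat_lit 24528) (nat_lit 28798) (nat_lit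 1082859672) (nat_lit 35343) (nat_lit 33692452) (nat_lit 0) (nat_lit 0),Row.mk (nat_lit 24696) (nat_lit 28611) (nat_lit 1360854216) (nat_lit 35156) (nat_lit 33692452) (nat_lit 0) (nat_lit 0),Row.mk (nat_lit 24864) (nat_lit 28424) (nat_lit 1708062695) (nat_lit 34969) (nat_lit 33692452) (nat_lit 0) (nat_lit 0),Row.mk (nat_lit 25032) (nat_lit 28237) (nat_lit 2141717710) (nat_lit 34782) (nat_lit 33692452) (nat_lit 0) (nat_lit 0),Row.mk (nat_lit 25200) (nat_lit 28050) (nat_lit 2683342361) (nat_lit 34595) (nat_lit 33692452) (nat_lit 0) (nat_lit 0)],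
[Row.mk (nat_lit 14952) (nat_lit 32912) (nat_lit 3501) (nat_lit 61710) (nat_lit 8385106) (nat_lit 0) (nat_lit 0),Row.mk (nat_lit 15120) (nat_lit 32912) (nat_lit 4373) (nat_lit 61710) (nat_lit 8384234) (nat_lit 0) (nat_lit 0),Row.mk (nat_lit 15288) (nat_lit 32912) (nat_lit 5462) (nat_lit 61710) (nat_lit 8383145) (nat_lit 0) (nat_lit 0),Row.mk (nat_lit 15456) (nat_lit 32912) (nat_lit 6822) (nat_lit 61710) (nat_lit 8381785) (nat_lit 0) (nat_lit 0),Row.mk (nat_lit 15624) (nat_lit 32912) (nat_lit 8521) (nat_lit 61710) (nat_lit 8380086) (nat_lit 0) (nat_lit 0),Row.mk (nat_lit 15792) (nat_lit 60962) (nat_lit 10588) (nat_lit 61336) (nat_lit 54) (nat_lit 0) (nat_lit 0),Row.mk (nat_lit 15960) (nat_lit 60401) (nat_lit 13208) (nat_lit 60775) (nat_lit 84) (nat_lit 0) (nat_lit 0),Row.mk (nat_lit 16128) (nat_lit 59840) (nat_lit 16470) (nat_lit 60214) (nat_lit 131) (nat_lit 0) (nat_lit 0),Row.mk (nat_lit 16296) (nat_lit 59279) (nat_lit 20530) (nat_lit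 59653) (nat_lit 205) (nat_lit 0) (nat_lit 0),Row.mk (nat_lit 16464) (nat_lit 58718) (nat_lit 25577) (nat_lit 59092) (nat_lit 321) (nat_lit 0) (nat_lit 0),Row.mk (nat_lit 16632) (nat_lit 58157) (nat_lit 31846) (nat_lit 58531) (nat_lit 500) (nat_lit 0) (nat_lit 0),Row.mk (nat_lit 16800) (nat_lit 57596) (nat_lit 39619) (nat_lit 57970) (nat_lit 781) (nat_lit 0) (nat_lit 0),Row.mk (nat_lit 16968) (nat_lit 57035) (nat_lit 49240) (nat_lit 57409) (nat_lit 1219) (nat_lit 0) (nat_lit 0),Row.mk (nat_lit 17136) (nat_lit 56474) (nat_lit 61121) (nat_lit 56848) (nat_lit 1901) (nat_lit 0) (nat_lit 0),Row.mk (nat_lit 17304) (nat_lit 55913) (nat_lit 75747) (nat_lit 56287) (nat_lit 2966) (nat_lit 0) (nat_lit 0),Row.mk (nat_lit 17472) (nat_lit 55352) (nat_lit 93684) (nat_lit 55726) (nat_lit 4627) (nat_lit 0) (nat_lit 0),Row.mk (nat_lit 17640) (nat_lit 54791) (nat_lit 115570) (nat_lit 55165) (nat_lit 7219) (nat_lit 0) (nat_lit 0),Row.mk (nat_lit 17808)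 (nat_lit 54230) (nat_lit 142100) (nat_lit 54604) (nat_lit 11261) (nat_lit 0) (nat_lit 0),Row.mk (nat_lit 17976) (nat_lit 53669) (nat_lit 173978) (nat_lit 54043) (nat_lit 17566) (nat_lit 0) (nat_lit 0),Row.mk (nat_lit 18144) (nat_lit 53108) (nat_lit 211831) (nat_lit 53482) (nat_lit 27403) (nat_lit 0) (nat_lit 0),Row.mk (nat_lit 18312) (nat_lit 52547) (nat_lit 256051) (nat_lit 52921) (nat_lit 42747) (nat_lit 0) (nat_lit 0),Row.mk (nat_lit 18480) (nat_lit 51986) (nat_lit 306509) (nat_lit 52360) (nat_lit 66683) (nat_lit 0) (nat_lit 0),Row.mk (nat_lit 18648) (nat_lit 51425) (nat_lit 362086) (nat_lit 51799) (nat_lit 104022) (nat_lit 0) (nat_lit 0),Row.mk (nat_lit 18816) (nat_lit 50864) (nat_lit 419889) (nat_lit 51238) (nat_lit 162268) (nat_lit 0) (nat_lit 0),Row.mk (nat_lit 18984) (nat_lit 50303) (nat_lit 473972) (nat_lit 50677) (nat_lit 253129) (nat_lit 0) (nat_lit 0),Row.mk (nat_lit 19152) (nat_lit 49742) (nat_lit 513265) (nat_lit 50116)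 (nat_lit 394867) (nat_lit 0) (nat_lit 0),Row.mk (nat_lit 19320) (nat_lit 49181) (nat_lit 518265) (nat_lit 49555) (nat_lit 615970) (nat_lit 0) (nat_lit 0),Row.mk (nat_lit 19488) (nat_lit 48620) (nat_lit 455756) (nat_lit 48994) (nat_lit 960877) (nat_lit 0) (nat_lit 0),Row.mk (nat_lit 19656) (nat_lit 47872) (nat_lit 270429) (nat_lit 48433) (nat_lit 1498911) (nat_lit 0) (nat_lit 0),Row.mk (nat_lit 19824) (nat_lit 47685) (nat_lit 2107101) (nat_lit 48246) (nat_lit 102763) (nat_lit 0) (nat_lit 0),Row.mk (nat_lit 19992) (nat_lit 46750) (nat_lit 2049560) (nat_lit 47498) (nat_lit 710507) (nat_lit 0) (nat_lit 0),Row.mk (nat_lit 20160) (nat_lit 45815) (nat_lit 1651718) (nat_lit 46563) (nat_lit 1795539) (nat_lit 0) (nat_lit 0),Row.mk (nat_lit 20328) (nat_lit 44693) (nat_lit 646322) (nat_lit 45628) (nat_lit 3659218) (nat_lit 0) (nat_lit 0),Row.mk (nat_lit 20496) (nat_lit 44506) (nat_lit 4254498) (nat_lit 45441) (nat_lit 1123018) (nat_lit 0) (nat_lit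 0),Row.mk (nat_lit 20664) (nat_lit 43197) (nat_lit 2553699) (nat_lit 44319) (nat_lit 4162689) (nat_lit 0) (nat_lit 0),Row.mk (nat_lit 20832) (nat_lit 43010) (nat_lit 7495049) (nat_lit 44132) (nat_lit 893558) (nat_lit 0) (nat_lit 0),Row.mk (nat_lit 21000) (nat_lit 41327) (nat_lit 3983619) (nat_lit 42823) (nat_lit 6493549) (nat_lit 0) (nat_lit 0),Row.mk (nat_lit 21168) (nat_lit 41140) (nat_lit 10352961) (nat_lit 42636) (nat_lit 2732769) (nat_lit 0) (nat_lit 0),Row.mk (nat_lit 21336) (nat_lit 38896) (nat_lit 2453430) (nat_lit 40953) (nat_lit 13890332) (nat_lit 0) (nat_lit 0),Row.mk (nat_lit 21504) (nat_lit 38709) (nat_lit 9780664) (nat_lit 40766) (nat_lit 10632301) (nat_lit 0) (nat_lit 0),Row.mk (nat_lit 21672) (nat_lit 38522) (nat_lit 18932203) (nat_lit 40579) (nat_lit 6563098) (nat_lit 0) (nat_lit 0),Row.mk (nat_lit 21840) (nat_lit 38335) (nat_lit 30362254) (nat_lit 40392) (nat_lit 1480762) (nat_lit 0) (nat_lit 0),Row.mk (nat_lit 22008)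 (nat_lit 31603) (nat_lit 6078706) (nat_lit 38148) (nat_lit 33692452) (nat_lit 0) (nat_lit 0),Row.mk (nat_lit 22176) (nat_lit 31416) (nat_lit 15980765) (nat_lit 37961) (nat_lit 33692452) (nat_lit 0) (nat_lit 0),Row.mk (nat_lit 22344) (nat_lit 31229) (nat_lit 28348198) (nat_lit 37774) (nat_lit 33692452) (nat_lit 0) (nat_lit 0),Row.mk (nat_lit 22512) (nat_lit 31042) (nat_lit 43794824) (nat_lit 37587) (nat_lit 33692452) (nat_lit 0) (nat_lit 0),Row.mk (nat_lit 22680) (nat_lit 30855) (nat_lit 63087287) (nat_lit 37400) (nat_lit 33692452) (nat_lit 0) (nat_lit 0),Row.mk (nat_lit 22848) (nat_lit 30668) (nat_lit 87183107) (nat_lit 37213) (nat_lit 33692452) (nat_lit 0) (nat_lit 0),Row.mk (nat_lit 23016) (nat_lit 30481) (nat_lit 117278206) (nat_lit 37026) (nat_lit 33692452) (nat_lit 0) (nat_lit 0),Row.mk (nat_lit 23184) (nat_lit 30294) (nat_lit 154866258) (nat_lit 36839) (nat_lit 33692452) (nat_lit 0) (nat_lit 0),Row.mk (nat_lit 23352) (nat_lit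 30107) (nat_lit 201812828) (nat_lit 36652) (nat_lit 33692452) (nat_lit 0) (nat_lit 0),Row.mk (nat_lit 23520) (nat_lit 29920) (nat_lit 260447962) (nat_lit 36465) (nat_lit 33692452) (nat_lit 0) (nat_lit 0),Row.mk (nat_lit 23688) (nat_lit 29733) (nat_lit 333681830) (nat_lit 36278) (nat_lit 33692452) (nat_lit 0) (nat_lit 0),Row.mk (nat_lit 23856) (nat_lit 29546) (nat_lit 425149164) (nat_lit 36091) (nat_lit 33692452) (nat_lit 0) (nat_lit 0),Row.mk (nat_lit 24024) (nat_lit 29359) (nat_lit 539389658) (nat_lit 35904) (nat_lit 33692452) (nat_lit 0) (nat_lit 0),Row.mk (nat_lit 24192) (nat_lit 29172) (nat_lit 682073279) (nat_lit 35717) (nat_lit 33692452) (nat_lit 0) (nat_lit 0),Row.mk (nat_lit 24360) (nat_lit 28985) (nat_lit 860281679) (nat_lit 35530) (nat_lit 33692452) (nat_lit 0) (nat_lit 0),Row.mk (nat_lit 24528) (nat_lit 28798) (nat_lit 1082859672) (nat_lit 35343) (nat_lit 33692452) (nat_lit 0) (nat_lit 0),Row.mk (nat_lit 24696) (nat_lit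 28611) (nat_lit 1360854216) (nat_lit 35156) (nat_lit 33692452) (nat_lit 0) (nat_lit 0),Row.mk (nat_lit 24864) (nat_lit 28424) (nat_lit 1708062695) (nat_lit 34969) (nat_lit 33692452) (nat_lit 0) (nat_lit 0),Row.mk (nat_lit 25032) (nat_lit 28237) (nat_lit 2141717710) (nat_lit 34782) (nat_lit 33692452) (nat_lit 0) (nat_lit 0),Row.mk (nat_lit 25200) (nat_lit 28050) (nat_lit 2683342361) (nat_lit 34595) (nat_lit 33692452) (nat_lit 0) (nat_lit 0),Row.mk (nat_lit 25368) (nat_lit 27863) (nat_lit 3359818485) (nat_lit 34408) (nat_lit 33692452) (nat_lit 0) (nat_lit 0)],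
[Row.mk (nat_lit 14616) (nat_lit 32912) (nat_lit 2244) (nat_lit 61710) (nat_lit 8386363) (nat_lit 0) (nat_lit 0),Row.mk (nat_lit 14784) (nat_lit 32912) (nat_lit 2803) (nat_lit 61710) (nat_lit 8385804) (nat_lit 0) (nat_lit 0),Row.mk (nat_lit 14952) (nat_lit 32912) (nat_lit 3501) (nat_lit 61710) (nat_lit 8385106) (nat_lit 0) (nat_lit 0),Row.mk (nat_lit 15120) (nat_lit 32912) (nat_lit 4373) (nat_lit 61710) (nat_lit 8384234) (nat_lit 0) (nat_lit 0),Row.mk (nat_lit 15288) (nat_lit 32912) (nat_lit 5462) (nat_lit 61710) (nat_lit 8383145) (nat_lit 0) (nat_lit 0),Row.mk (nat_lit 15456) (nat_lit 32912) (nat_lit 6822) (nat_lit 61710) (nat_lit 8381785) (nat_lit 0) (nat_lit 0),Row.mk (nat_lit 15624) (nat_lit 32912) (nat_lit 8521) (nat_lit 61710) (nat_lit 8380086) (nat_lit 0) (nat_lit 0),Row.mk (nat_lit 15792) (nat_lit 60962) (nat_lit 10588) (nat_lit 61336) (nat_lit 54) (nat_lit 0) (nat_lit 0),Row.mk (nat_lit 15960) (nat_lit 60401) (nat_lit 13208)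 (nat_lit 60775) (nat_lit 84) (nat_lit 0) (nat_lit 0),Row.mk (nat_lit 16128) (nat_lit 59840) (nat_lit 16470) (nat_lit 60214) (nat_lit 131) (nat_lit 0) (nat_lit 0),Row.mk (nat_lit 16296) (nat_lit 59279) (nat_lit 20530) (nat_lit 59653) (nat_lit 205) (nat_lit 0) (nat_lit 0),Row.mk (nat_lit 16464) (nat_lit 58718) (nat_lit 25577) (nat_lit 59092) (nat_lit 321) (nat_lit 0) (nat_lit 0),Row.mk (nat_lit 16632) (nat_lit 58157) (nat_lit 31846) (nat_lit 58531) (nat_lit 500) (nat_lit 0) (nat_lit 0),Row.mk (nat_lit 16800) (nat_lit 57596) (nat_lit 39619) (nat_lit 57970) (nat_lit 781) (nat_lit 0) (nat_lit 0),Row.mk (nat_lit 16968) (nat_lit 57035) (nat_lit 49240) (nat_lit 57409) (nat_lit 1219) (nat_lit 0) (nat_lit 0),Row.mk (nat_lit 17136) (nat_lit 56474) (nat_lit 61121) (nat_lit 56848) (nat_lit 1901) (nat_lit 0) (nat_lit 0),Row.mk (nat_lit 17304) (nat_lit 55913) (nat_lit 75747) (nat_lit 56287) (nat_lit 2966) (nat_lit 0) (nat_lit 0),Row.mk (nat_lit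 17472) (nat_lit 55352) (nat_lit 93684) (nat_lit 55726) (nat_lit 4627) (nat_lit 0) (nat_lit 0),Row.mk (nat_lit 17640) (nat_lit 54791) (nat_lit 115570) (nat_lit 55165) (nat_lit 7219) (nat_lit 0) (nat_lit 0),Row.mk (nat_lit 17808) (nat_lit 54230) (nat_lit 142100) (nat_lit 54604) (nat_lit 11261) (nat_lit 0) (nat_lit 0),Row.mk (nat_lit 17976) (nat_lit 53669) (nat_lit 173978) (nat_lit 54043) (nat_lit 17566) (nat_lit 0) (nat_lit 0),Row.mk (nat_lit 18144) (nat_lit 53108) (nat_lit 211831) (nat_lit 53482) (nat_lit 27403) (nat_lit 0) (nat_lit 0),Row.mk (nat_lit 18312) (nat_lit 52547) (nat_lit 256051) (nat_lit 52921) (nat_lit 42747) (nat_lit 0) (nat_lit 0),Row.mk (nat_lit 18480) (nat_lit 51986) (nat_lit 306509) (nat_lit 52360) (nat_lit 66683) (nat_lit 0) (nat_lit 0),Row.mk (nat_lit 18648) (nat_lit 51425) (nat_lit 362086) (nat_lit 51799) (nat_lit 104022) (nat_lit 0) (nat_lit 0),Row.mk (nat_lit 18816) (nat_lit 50864) (nat_lit 419889) (nat_lit 51238)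 (nat_lit 162268) (nat_lit 0) (nat_lit 0),Row.mk (nat_lit 18984) (nat_lit 50303) (nat_lit 473972) (nat_lit 50677) (nat_lit 253129) (nat_lit 0) (nat_lit 0),Row.mk (nat_lit 19152) (nat_lit 49742) (nat_lit 513265) (nat_lit 50116) (nat_lit 394867) (nat_lit 0) (nat_lit 0),Row.mk (nat_lit 19320) (nat_lit 49181) (nat_lit 518265) (nat_lit 49555) (nat_lit 615970) (nat_lit 0) (nat_lit 0),Row.mk (nat_lit 19488) (nat_lit 48620) (nat_lit 455756) (nat_lit 48994) (nat_lit 960877) (nat_lit 0) (nat_lit 0),Row.mk (nat_lit 19656) (nat_lit 47872) (nat_lit 270429) (nat_lit 48433) (nat_lit 1498911) (nat_lit 0) (nat_lit 0),Row.mk (nat_lit 19824) (nat_lit 47685) (nat_lit 2107101) (nat_lit 48246) (nat_lit 102763) (nat_lit 0) (nat_lit 0),Row.mk (nat_lit 19992) (nat_lit 46750) (nat_lit 2049560) (nat_lit 47498) (nat_lit 710507) (nat_lit 0) (nat_lit 0),Row.mk (nat_lit 20160) (nat_lit 45815) (nat_lit 1651718) (nat_lit 46563) (nat_lit 1795539) (nat_lit 0) (nat_lit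 0),Row.mk (nat_lit 20328) (nat_lit 44693) (nat_lit 646322) (nat_lit 45628) (nat_lit 3659218) (nat_lit 0) (nat_lit 0),Row.mk (nat_lit 20496) (nat_lit 44506) (nat_lit 4254498) (nat_lit 45441) (nat_lit 1123018) (nat_lit 0) (nat_lit 0),Row.mk (nat_lit 20664) (nat_lit 43197) (nat_lit 2553699) (nat_lit 44319) (nat_lit 4162689) (nat_lit 0) (nat_lit 0),Row.mk (nat_lit 20832) (nat_lit 43010) (nat_lit 7495049) (nat_lit 44132) (nat_lit 893558) (nat_lit 0) (nat_lit 0),Row.mk (nat_lit 21000) (nat_lit 41327) (nat_lit 3983619) (nat_lit 42823) (nat_lit 6493549) (nat_lit 0) (nat_lit 0),Row.mk (nat_lit 21168) (nat_lit 41140) (nat_lit 10352961) (nat_lit 42636) (nat_lit 2732769) (nat_lit 0) (nat_lit 0),Row.mk (nat_lit 21336) (nat_lit 38896) (nat_lit 2453430) (nat_lit 40953) (nat_lit 13890332) (nat_lit 0) (nat_lit 0),Row.mk (nat_lit 21504) (nat_lit 38709) (nat_lit 9780664) (nat_lit 40766) (nat_lit 10632301) (nat_lit 0) (nat_lit 0),Row.mk (nat_lit 21672)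 (nat_lit 38522) (nat_lit 18932203) (nat_lit 40579) (nat_lit 6563098) (nat_lit 0) (nat_lit 0),Row.mk (nat_lit 21840) (nat_lit 38335) (nat_lit 30362254) (nat_lit 40392) (nat_lit 1480762) (nat_lit 0) (nat_lit 0),Row.mk (nat_lit 22008) (nat_lit 31603) (nat_lit 6078706) (nat_lit 38148) (nat_lit 33692452) (nat_lit 0) (nat_lit 0),Row.mk (nat_lit 22176) (nat_lit 31416) (nat_lit 15980765) (nat_lit 37961) (nat_lit 33692452) (nat_lit 0) (nat_lit 0),Row.mk (nat_lit 22344) (nat_lit 31229) (nat_lit 28348198) (nat_lit 37774) (nat_lit 33692452) (nat_lit 0) (nat_lit 0),Row.mk (nat_lit 22512) (nat_lit 31042) (nat_lit 43794824) (nat_lit 37587) (nat_lit 33692452) (nat_lit 0) (nat_lit 0),Row.mk (nat_lit 22680) (nat_lit 30855) (nat_lit 63087287) (nat_lit 37400) (nat_lit 33692452) (nat_lit 0) (nat_lit 0),Row.mk (nat_lit 22848) (nat_lit 30668) (nat_lit 87183107) (nat_lit 37213) (nat_lit 33692452) (nat_lit 0) (nat_lit 0),Row.mk (nat_lit 23016) (nat_lit 30481)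 (nat_lit 117278206) (nat_lit 37026) (nat_lit 33692452) (nat_lit 0) (nat_lit 0),Row.mk (nat_lit 23184) (nat_lit 30294) (nat_lit 154866258) (nat_lit 36839) (nat_lit 33692452) (nat_lit 0) (nat_lit 0),Row.mk (nat_lit 23352) (nat_lit 30107) (nat_lit 201812828) (nat_lit 36652) (nat_lit 33692452) (nat_lit 0) (nat_lit 0),Row.mk (nat_lit 23520) (nat_lit 29920) (nat_lit 260447962) (nat_lit 36465) (nat_lit 33692452) (nat_lit 0) (nat_lit 0),Row.mk (nat_lit 23688) (nat_lit 29733) (nat_lit 333681830) (nat_lit 36278) (nat_lit 33692452) (nat_lit 0) (nat_lit 0),Row.mk (nat_lit 23856) (nat_lit 29546) (nat_lit 425149164) (nat_lit 36091) (nat_lit 33692452) (nat_lit 0) (nat_lit 0),Row.mk (nat_lit 24024) (nat_lit 29359) (nat_lit 539389658) (nat_lit 35904) (nat_lit 33692452) (nat_lit 0) (nat_lit 0),Row.mk (nat_lit 24192) (nat_lit 29172) (nat_lit 682073279) (nat_lit 35717) (nat_lit 33692452) (nat_lit 0) (nat_lit 0),Row.mk (nat_lit 24360) (nat_lit 28985)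 (nat_lit 860281679) (nat_lit 35530) (nat_lit 33692452) (nat_lit 0) (nat_lit 0),Row.mk (nat_lit 24528) (nat_lit 28798) (nat_lit 1082859672) (nat_lit 35343) (nat_lit 33692452) (nat_lit 0) (nat_lit 0),Row.mk (nat_lit 24696) (nat_lit 28611) (nat_lit 1360854216) (nat_lit 35156) (nat_lit 33692452) (nat_lit 0) (nat_lit 0),Row.mk (nat_lit 24864) (nat_lit 28424) (nat_lit 1708062695) (nat_lit 34969) (nat_lit 33692452) (nat_lit 0) (nat_lit 0),Row.mk (nat_lit 25032) (nat_lit 28237) (nat_lit 2141717710) (nat_lit 34782) (nat_lit 33692452) (nat_lit 0) (nat_lit 0),Row.mk (nat_lit 25200) (nat_lit 28050) (nat_lit 2683342361) (nat_lit 34595) (nat_lit 33692452) (nat_lit 0) (nat_lit 0),Row.mk (nat_lit 25368) (nat_lit 27863) (nat_lit 3359818485) (nat_lit 34408) (nat_lit 33692452) (nat_lit 0) (nat_lit 0),Row.mk (nat_lit 25536) (nat_lit 27676) (nat_lit 4204720844) (nat_lit 34221) (nat_lit 33692452) (nat_lit 0) (nat_lit 0)],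
[Row.mk (nat_lit 12096) (nat_lit 32912) (nat_lit 79) (nat_lit 61710) (nat_lit 8388528) (nat_lit 0) (nat_lit 0),Row.mk (nat_lit 12264) (nat_lit 32912) (nat_lit 99) (nat_lit 61710) (nat_lit 8388508) (nat_lit 0) (nat_lit 0),Row.mk (nat_lit 12432) (nat_lit 32912) (nat_lit 124) (nat_lit 61710) (nat_lit 8388483) (nat_lit 0) (nat_lit 0),Row.mk (nat_lit 12600) (nat_lit 32912) (nat_lit 155) (nat_lit 61710) (nat_lit 8388452) (nat_lit 0) (nat_lit 0),Row.mk (nat_lit 12768) (nat_lit 32912) (nat_lit 194) (nat_lit 61710) (nat_lit 8388413) (nat_lit 0) (nat_lit 0),Row.mk (nat_lit 12936) (nat_lit 32912) (nat_lit 243) (nat_lit 61710) (nat_lit 8388364) (nat_lit 0) (nat_lit 0),Row.mk (nat_lit 13104) (nat_lit 32912) (nat_lit 303) (nat_lit 61710) (nat_lit 8388304) (nat_lit 0) (nat_lit 0),Row.mk (nat_lit 13272) (nat_lit 32912) (nat_lit 379) (nat_lit 61710) (nat_lit 8388228) (nat_lit 0) (nat_lit 0),Row.mk (nat_lit 13440) (nat_lit 32912) (nat_lit 473) (nat_lit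 61710) (nat_lit 8388134) (nat_lit 0) (nat_lit 0),Row.mk (nat_lit 13608) (nat_lit 32912) (nat_lit 591) (nat_lit 61710) (nat_lit 8388016) (nat_lit 0) (nat_lit 0),Row.mk (nat_lit 13776) (nat_lit 32912) (nat_lit 738) (nat_lit 61710) (nat_lit 8387869) (nat_lit 0) (nat_lit 0),Row.mk (nat_lit 13944) (nat_lit 32912) (nat_lit 922) (nat_lit 61710) (nat_lit 8387685) (nat_lit 0) (nat_lit 0),Row.mk (nat_lit 14112) (nat_lit 32912) (nat_lit 1152) (nat_lit 61710) (nat_lit 8387455) (nat_lit 0) (nat_lit 0),Row.mk (nat_lit 14280) (nat_lit 32912) (nat_lit 1439) (nat_lit 61710) (nat_lit 8387168) (nat_lit 0) (nat_lit 0),Row.mk (nat_lit 14448) (nat_lit 32912) (nat_lit 1797) (nat_lit 61710) (nat_lit 8386810) (nat_lit 0) (nat_lit 0),Row.mk (nat_lit 14616) (nat_lit 32912) (nat_lit 2244) (nat_lit 61710) (nat_lit 8386363) (nat_lit 0) (nat_lit 0),Row.mk (nat_lit 14784) (nat_lit 32912) (nat_lit 2803) (nat_lit 61710) (nat_lit 8385804) (nat_lit 0) (nat_lit 0),Row.mk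 (nat_lit 14952) (nat_lit 32912) (nat_lit 3501) (nat_lit 61710) (nat_lit 8385106) (nat_lit 0) (nat_lit 0),Row.mk (nat_lit 15120) (nat_lit 32912) (nat_lit 4373) (nat_lit 61710) (nat_lit 8384234) (nat_lit 0) (nat_lit 0),Row.mk (nat_lit 15288) (nat_lit 32912) (nat_lit 5462) (nat_lit 61710) (nat_lit 8383145) (nat_lit 0) (nat_lit 0),Row.mk (nat_lit 15456) (nat_lit 32912) (nat_lit 6822) (nat_lit 61710) (nat_lit 8381785) (nat_lit 0) (nat_lit 0),Row.mk (nat_lit 15624) (nat_lit 32912) (nat_lit 8521) (nat_lit 61710) (nat_lit 8380086) (nat_lit 0) (nat_lit 0),Row.mk (nat_lit 15792) (nat_lit 60962) (nat_lit 10588) (nat_lit 61336) (nat_lit 54) (nat_lit 0) (nat_lit 0),Row.mk (nat_lit 15960) (nat_lit 60401) (nat_lit 13208) (nat_lit 60775) (nat_lit 84) (nat_lit 0) (nat_lit 0),Row.mk (nat_lit 16128) (nat_lit 59840) (nat_lit 16470) (nat_lit 60214) (nat_lit 131) (nat_lit 0) (nat_lit 0),Row.mk (nat_lit 16296) (nat_lit 59279) (nat_lit 20530) (nat_lit 59653)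 (nat_lit 205) (nat_lit 0) (nat_lit 0),Row.mk (nat_lit 16464) (nat_lit 58718) (nat_lit 25577) (nat_lit 59092) (nat_lit 321) (nat_lit 0) (nat_lit 0),Row.mk (nat_lit 16632) (nat_lit 58157) (nat_lit 31846) (nat_lit 58531) (nat_lit 500) (nat_lit 0) (nat_lit 0),Row.mk (nat_lit 16800) (nat_lit 57596) (nat_lit 39619) (nat_lit 57970) (nat_lit 781) (nat_lit 0) (nat_lit 0),Row.mk (nat_lit 16968) (nat_lit 57035) (nat_lit 49240) (nat_lit 57409) (nat_lit 1219) (nat_lit 0) (nat_lit 0),Row.mk (nat_lit 17136) (nat_lit 56474) (nat_lit 61121) (nat_lit 56848) (nat_lit 1901) (nat_lit 0) (nat_lit 0),Row.mk (nat_lit 17304) (nat_lit 55913) (nat_lit 75747) (nat_lit 56287) (nat_lit 2966) (nat_lit 0) (nat_lit 0),Row.mk (nat_lit 17472) (nat_lit 55352) (nat_lit 93684) (nat_lit 55726) (nat_lit 4627) (nat_lit 0) (nat_lit 0),Row.mk (nat_lit 17640) (nat_lit 54791) (nat_lit 115570) (nat_lit 55165) (nat_lit 7219) (nat_lit 0) (nat_lit 0),Row.mk (nat_lit 17808) (nat_lit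 54230) (nat_lit 142100) (nat_lit 54604) (nat_lit 11261) (nat_lit 0) (nat_lit 0),Row.mk (nat_lit 17976) (nat_lit 53669) (nat_lit 173978) (nat_lit 54043) (nat_lit 17566) (nat_lit 0) (nat_lit 0),Row.mk (nat_lit 18144) (nat_lit 53108) (nat_lit 211831) (nat_lit 53482) (nat_lit 27403) (nat_lit 0) (nat_lit 0),Row.mk (nat_lit 18312) (nat_lit 52547) (nat_lit 256051) (nat_lit 52921) (nat_lit 42747) (nat_lit 0) (nat_lit 0),Row.mk (nat_lit 18480) (nat_lit 51986) (nat_lit 306509) (nat_lit 52360) (nat_lit 66683) (nat_lit 0) (nat_lit 0),Row.mk (nat_lit 18648) (nat_lit 51425) (nat_lit 362086) (nat_lit 51799) (nat_lit 104022) (nat_lit 0) (nat_lit 0),Row.mk (nat_lit 18816) (nat_lit 50864) (nat_lit 419889) (nat_lit 51238) (nat_lit 162268) (nat_lit 0) (nat_lit 0),Row.mk (nat_lit 18984) (nat_lit 50303) (nat_lit 473972) (nat_lit 50677) (nat_lit 253129) (nat_lit 0) (nat_lit 0),Row.mk (nat_lit 19152) (nat_lit 49742) (nat_lit 513265) (nat_lit 50116) (nat_lit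 394867) (nat_lit 0) (nat_lit 0),Row.mk (nat_lit 19320) (nat_lit 49181) (nat_lit 518265) (nat_lit 49555) (nat_lit 615970) (nat_lit 0) (nat_lit 0),Row.mk (nat_lit 19488) (nat_lit 48620) (nat_lit 455756) (nat_lit 48994) (nat_lit 960877) (nat_lit 0) (nat_lit 0),Row.mk (nat_lit 19656) (nat_lit 47872) (nat_lit 270429) (nat_lit 48433) (nat_lit 1498911) (nat_lit 0) (nat_lit 0),Row.mk (nat_lit 19824) (nat_lit 47685) (nat_lit 2107101) (nat_lit 48246) (nat_lit 102763) (nat_lit 0) (nat_lit 0),Row.mk (nat_lit 19992) (nat_lit 46750) (nat_lit 2049560) (nat_lit 47498) (nat_lit 710507) (nat_lit 0) (nat_lit 0),Row.mk (nat_lit 20160) (nat_lit 45815) (nat_lit 1651718) (nat_lit 46563) (nat_lit 1795539) (nat_lit 0) (nat_lit 0),Row.mk (nat_lit 20328) (nat_lit 44693) (nat_lit 646322) (nat_lit 45628) (nat_lit 3659218) (nat_lit 0) (nat_lit 0),Row.mk (nat_lit 20496) (nat_lit 44506) (nat_lit 4254498) (nat_lit 45441) (nat_lit 1123018) (nat_lit 0) (nat_lit 0),Row.mk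 (nat_lit 20664) (nat_lit 43197) (nat_lit 2553699) (nat_lit 44319) (nat_lit 4162689) (nat_lit 0) (nat_lit 0),Row.mk (nat_lit 20832) (nat_lit 43010) (nat_lit 7495049) (nat_lit 44132) (nat_lit 893558) (nat_lit 0) (nat_lit 0),Row.mk (nat_lit 21000) (nat_lit 41327) (nat_lit 3983619) (nat_lit 42823) (nat_lit 6493549) (nat_lit 0) (nat_lit 0),Row.mk (nat_lit 21168) (nat_lit 41140) (nat_lit 10352961) (nat_lit 42636) (nat_lit 2732769) (nat_lit 0) (nat_lit 0),Row.mk (nat_lit 21336) (nat_lit 38896) (nat_lit 2453430) (nat_lit 40953) (nat_lit 13890332) (nat_lit 0) (nat_lit 0),Row.mk (nat_lit 21504) (nat_lit 38709) (nat_lit 9780664) (nat_lit 40766) (nat_lit 10632301) (nat_lit 0) (nat_lit 0),Row.mk (nat_lit 21672) (nat_lit 38522) (nat_lit 18932203) (nat_lit 40579) (nat_lit 6563098) (nat_lit 0) (nat_lit 0),Row.mk (nat_lit 21840) (nat_lit 38335) (nat_lit 30362254) (nat_lit 40392) (nat_lit 1480762) (nat_lit 0) (nat_lit 0),Row.mk (nat_lit 22008) (nat_lit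 31603) (nat_lit 6078706) (nat_lit 38148) (nat_lit 33692452) (nat_lit 0) (nat_lit 0),Row.mk (nat_lit 22176) (nat_lit 31416) (nat_lit 15980765) (nat_lit 37961) (nat_lit 33692452) (nat_lit 0) (nat_lit 0),Row.mk (nat_lit 22344) (nat_lit 31229) (nat_lit 28348198) (nat_lit 37774) (nat_lit 33692452) (nat_lit 0) (nat_lit 0),Row.mk (nat_lit 22512) (nat_lit 31042) (nat_lit 43794824) (nat_lit 37587) (nat_lit 33692452) (nat_lit 0) (nat_lit 0),Row.mk (nat_lit 22680) (nat_lit 30855) (nat_lit 63087287) (nat_lit 37400) (nat_lit 33692452) (nat_lit 0) (nat_lit 0),Row.mk (nat_lit 22848) (nat_lit 30668) (nat_lit 87183107) (nat_lit 37213) (nat_lit 33692452) (nat_lit 0) (nat_lit 0),Row.mk (nat_lit 23016) (nat_lit 30481) (nat_lit 117278206) (nat_lit 37026) (nat_lit 33692452) (nat_lit 0) (nat_lit 0),Row.mk (nat_lit 23184) (nat_lit 30294) (nat_lit 154866258) (nat_lit 36839) (nat_lit 33692452) (nat_lit 0) (nat_lit 0),Row.mk (nat_lit 23352) (nat_lit 30107)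 (nat_lit 201812828) (nat_lit 36652) (nat_lit 33692452) (nat_lit 0) (nat_lit 0),Row.mk (nat_lit 23520) (nat_lit 29920) (nat_lit 260447962) (nat_lit 36465) (nat_lit 33692452) (nat_lit 0) (nat_lit 0),Row.mk (nat_lit 23688) (nat_lit 29733) (nat_lit 333681830) (nat_lit 36278) (nat_lit 33692452) (nat_lit 0) (nat_lit 0),Row.mk (nat_lit 23856) (nat_lit 29546) (nat_lit 425149164) (nat_lit 36091) (nat_lit 33692452) (nat_lit 0) (nat_lit 0),Row.mk (nat_lit 24024) (nat_lit 29359) (nat_lit 539389658) (nat_lit 35904) (nat_lit 33692452) (nat_lit 0) (nat_lit 0),Row.mk (nat_lit 24192) (nat_lit 29172) (nat_lit 682073279) (nat_lit 35717) (nat_lit 33692452) (nat_lit 0) (nat_lit 0),Row.mk (nat_lit 24360) (nat_lit 28985) (nat_lit 860281679) (nat_lit 35530) (nat_lit 33692452) (nat_lit 0) (nat_lit 0),Row.mk (nat_lit 24528) (nat_lit 28798) (nat_lit 1082859672) (nat_lit 35343) (nat_lit 33692452) (nat_lit 0) (nat_lit 0),Row.mk (nat_lit 24696) (nat_lit 28611)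 (nat_lit 1360854216) (nat_lit 35156) (nat_lit 33692452) (nat_lit 0) (nat_lit 0),Row.mk (nat_lit 24864) (nat_lit 28424) (nat_lit 1708062695) (nat_lit 34969) (nat_lit 33692452) (nat_lit 0) (nat_lit 0),Row.mk (nat_lit 25032) (nat_lit 28237) (nat_lit 2141717710) (nat_lit 34782) (nat_lit 33692452) (nat_lit 0) (nat_lit 0),Row.mk (nat_lit 25200) (nat_lit 28050) (nat_lit 2683342361) (nat_lit 34595) (nat_lit 33692452) (nat_lit 0) (nat_lit 0),Row.mk (nat_lit 25368) (nat_lit 27863) (nat_lit 3359818485) (nat_lit 34408) (nat_lit 33692452) (nat_lit 0) (nat_lit 0),Row.mk (nat_lit 25536) (nat_lit 27676) (nat_lit 4204720844) (nat_lit 34221) (nat_lit 33692452) (nat_lit 0) (nat_lit 0),Row.mk (nat_lit 25704) (nat_lit 27489) (nat_lit 5259983508) (nat_lit 34034) (nat_lit 33692452) (nat_lit 0) (nat_lit 0)],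
[Row.mk (nat_lit 10752) (nat_lit 32912) (nat_lit 13) (nat_lit 61710) (nat_lit 8388594) (nat_lit 0) (nat_lit 0),Row.mk (nat_lit 10920) (nat_lit 32912) (nat_lit 16) (nat_lit 61710) (nat_lit 8388591) (nat_lit 0) (nat_lit 0),Row.mk (nat_lit 11088) (nat_lit 32912) (nat_lit 21) (nat_lit 61710) (nat_lit 8388586) (nat_lit 0) (nat_lit 0),Row.mk (nat_lit 11256) (nat_lit 32912) (nat_lit 26) (nat_lit 61710) (nat_lit 8388581) (nat_lit 0) (nat_lit 0),Row.mk (nat_lit 11424) (nat_lit 32912) (nat_lit 32) (nat_lit 61710) (nat_lit 8388575) (nat_lit 0) (nat_lit 0),Row.mk (nat_lit 11592) (nat_lit 32912) (nat_lit 41) (nat_lit 61710) (nat_lit 8388566) (nat_lit 0) (nat_lit 0),Row.mk (nat_lit 11760) (nat_lit 32912) (nat_lit 51) (nat_lit 61710) (nat_lit 8388556) (nat_lit 0) (nat_lit 0),Row.mk (nat_lit 11928) (nat_lit 32912) (nat_lit 64) (nat_lit 61710) (nat_lit 8388543) (nat_lit 0) (nat_lit 0),Row.mk (nat_lit 12096) (nat_lit 32912) (nat_lit 79) (nat_lit 61710)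 (nat_lit 8388528) (nat_lit 0) (nat_lit 0),Row.mk (nat_lit 12264) (nat_lit 32912) (nat_lit 99) (nat_lit 61710) (nat_lit 8388508) (nat_lit 0) (nat_lit 0),Row.mk (nat_lit 12432) (nat_lit 32912) (nat_lit 124) (nat_lit 61710) (nat_lit 8388483) (nat_lit 0) (nat_lit 0),Row.mk (nat_lit 12600) (nat_lit 32912) (nat_lit 155) (nat_lit 61710) (nat_lit 8388452) (nat_lit 0) (nat_lit 0),Row.mk (nat_lit 12768) (nat_lit 32912) (nat_lit 194) (nat_lit 61710) (nat_lit 8388413) (nat_lit 0) (nat_lit 0),Row.mk (nat_lit 12936) (nat_lit 32912) (nat_lit 243) (nat_lit 61710) (nat_lit 8388364) (nat_lit 0) (nat_lit 0),Row.mk (nat_lit 13104) (nat_lit 32912) (nat_lit 303) (nat_lit 61710) (nat_lit 8388304) (nat_lit 0) (nat_lit 0),Row.mk (nat_lit 13272) (nat_lit 32912) (nat_lit 379) (nat_lit 61710) (nat_lit 8388228) (nat_lit 0) (nat_lit 0),Row.mk (nat_lit 13440) (nat_lit 32912) (nat_lit 473) (nat_lit 61710) (nat_lit 8388134) (nat_lit 0) (nat_lit 0),Row.mk (nat_lit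 13608) (nat_lit 32912) (nat_lit 591) (nat_lit 61710) (nat_lit 8388016) (nat_lit 0) (nat_lit 0),Row.mk (nat_lit 13776) (nat_lit 32912) (nat_lit 738) (nat_lit 61710) (nat_lit 8387869) (nat_lit 0) (nat_lit 0),Row.mk (nat_lit 13944) (nat_lit 32912) (nat_lit 922) (nat_lit 61710) (nat_lit 8387685) (nat_lit 0) (nat_lit 0),Row.mk (nat_lit 14112) (nat_lit 32912) (nat_lit 1152) (nat_lit 61710) (nat_lit 8387455) (nat_lit 0) (nat_lit 0),Row.mk (nat_lit 14280) (nat_lit 32912) (nat_lit 1439) (nat_lit 61710) (nat_lit 8387168) (nat_lit 0) (nat_lit 0),Row.mk (nat_lit 14448) (nat_lit 32912) (nat_lit 1797) (nat_lit 61710) (nat_lit 8386810) (nat_lit 0) (nat_lit 0),Row.mk (nat_lit 14616) (nat_lit 32912) (nat_lit 2244) (nat_lit 61710) (nat_lit 8386363) (nat_lit 0) (nat_lit 0),Row.mk (nat_lit 14784) (nat_lit 32912) (nat_lit 2803) (nat_lit 61710) (nat_lit 8385804) (nat_lit 0) (nat_lit 0),Row.mk (nat_lit 14952) (nat_lit 32912) (nat_lit 3501) (nat_lit 61710)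 (nat_lit 8385106) (nat_lit 0) (nat_lit 0),Row.mk (nat_lit 15120) (nat_lit 32912) (nat_lit 4373) (nat_lit 61710) (nat_lit 8384234) (nat_lit 0) (nat_lit 0),Row.mk (nat_lit 15288) (nat_lit 32912) (nat_lit 5462) (nat_lit 61710) (nat_lit 8383145) (nat_lit 0) (nat_lit 0),Row.mk (nat_lit 15456) (nat_lit 32912) (nat_lit 6822) (nat_lit 61710) (nat_lit 8381785) (nat_lit 0) (nat_lit 0),Row.mk (nat_lit 15624) (nat_lit 32912) (nat_lit 8521) (nat_lit 61710) (nat_lit 8380086) (nat_lit 0) (nat_lit 0),Row.mk (nat_lit 15792) (nat_lit 60962) (nat_lit 10588) (nat_lit 61336) (nat_lit 54) (nat_lit 0) (nat_lit 0),Row.mk (nat_lit 15960) (nat_lit 60401) (nat_lit 13208) (nat_lit 60775) (nat_lit 84) (nat_lit 0) (nat_lit 0),Row.mk (nat_lit 16128) (nat_lit 59840) (nat_lit 16470) (nat_lit 60214) (nat_lit 131) (nat_lit 0) (nat_lit 0),Row.mk (nat_lit 16296) (nat_lit 59279) (nat_lit 20530) (nat_lit 59653) (nat_lit 205) (nat_lit 0) (nat_lit 0),Row.mk (nat_lit 16464)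 (nat_lit 58718) (nat_lit 25577) (nat_lit 59092) (nat_lit 321) (nat_lit 0) (nat_lit 0),Row.mk (nat_lit 16632) (nat_lit 58157) (nat_lit 31846) (nat_lit 58531) (nat_lit 500) (nat_lit 0) (nat_lit 0),Row.mk (nat_lit 16800) (nat_lit 57596) (nat_lit 39619) (nat_lit 57970) (nat_lit 781) (nat_lit 0) (nat_lit 0),Row.mk (nat_lit 16968) (nat_lit 57035) (nat_lit 49240) (nat_lit 57409) (nat_lit 1219) (nat_lit 0) (nat_lit 0),Row.mk (nat_lit 17136) (nat_lit 56474) (nat_lit 61121) (nat_lit 56848) (nat_lit 1901) (nat_lit 0) (nat_lit 0),Row.mk (nat_lit 17304) (nat_lit 55913) (nat_lit 75747) (nat_lit 56287) (nat_lit 2966) (nat_lit 0) (nat_lit 0),Row.mk (nat_lit 17472) (nat_lit 55352) (nat_lit 93684) (nat_lit 55726) (nat_lit 4627) (nat_lit 0) (nat_lit 0),Row.mk (nat_lit 17640) (nat_lit 54791) (nat_lit 115570) (nat_lit 55165) (nat_lit 7219) (nat_lit 0) (nat_lit 0),Row.mk (nat_lit 17808) (nat_lit 54230) (nat_lit 142100) (nat_lit 54604) (nat_lit 11261) (nat_lit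 0) (nat_lit 0),Row.mk (nat_lit 17976) (nat_lit 53669) (nat_lit 173978) (nat_lit 54043) (nat_lit 17566) (nat_lit 0) (nat_lit 0),Row.mk (nat_lit 18144) (nat_lit 53108) (nat_lit 211831) (nat_lit 53482) (nat_lit 27403) (nat_lit 0) (nat_lit 0),Row.mk (nat_lit 18312) (nat_lit 52547) (nat_lit 256051) (nat_lit 52921) (nat_lit 42747) (nat_lit 0) (nat_lit 0),Row.mk (nat_lit 18480) (nat_lit 51986) (nat_lit 306509) (nat_lit 52360) (nat_lit 66683) (nat_lit 0) (nat_lit 0),Row.mk (nat_lit 18648) (nat_lit 51425) (nat_lit 362086) (nat_lit 51799) (nat_lit 104022) (nat_lit 0) (nat_lit 0),Row.mk (nat_lit 18816) (nat_lit 50864) (nat_lit 419889) (nat_lit 51238) (nat_lit 162268) (nat_lit 0) (nat_lit 0),Row.mk (nat_lit 18984) (nat_lit 50303) (nat_lit 473972) (nat_lit 50677) (nat_lit 253129) (nat_lit 0) (nat_lit 0),Row.mk (nat_lit 19152) (nat_lit 49742) (nat_lit 513265) (nat_lit 50116) (nat_lit 394867) (nat_lit 0) (nat_lit 0),Row.mk (nat_lit 19320) (nat_lit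 49181) (nat_lit 518265) (nat_lit 49555) (nat_lit 615970) (nat_lit 0) (nat_lit 0),Row.mk (nat_lit 19488) (nat_lit 48620) (nat_lit 455756) (nat_lit 48994) (nat_lit 960877) (nat_lit 0) (nat_lit 0),Row.mk (nat_lit 19656) (nat_lit 47872) (nat_lit 270429) (nat_lit 48433) (nat_lit 1498911) (nat_lit 0) (nat_lit 0),Row.mk (nat_lit 19824) (nat_lit 47685) (nat_lit 2107101) (nat_lit 48246) (nat_lit 102763) (nat_lit 0) (nat_lit 0),Row.mk (nat_lit 19992) (nat_lit 46750) (nat_lit 2049560) (nat_lit 47498) (nat_lit 710507) (nat_lit 0) (nat_lit 0),Row.mk (nat_lit 20160) (nat_lit 45815) (nat_lit 1651718) (nat_lit 46563) (nat_lit 1795539) (nat_lit 0) (nat_lit 0),Row.mk (nat_lit 20328) (nat_lit 44693) (nat_lit 646322) (nat_lit 45628) (nat_lit 3659218) (nat_lit 0) (nat_lit 0),Row.mk (nat_lit 20496) (nat_lit 44506) (nat_lit 4254498) (nat_lit 45441) (nat_lit 1123018) (nat_lit 0) (nat_lit 0),Row.mk (nat_lit 20664) (nat_lit 43197) (nat_lit 2553699) (nat_lit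 44319) (nat_lit 4162689) (nat_lit 0) (nat_lit 0),Row.mk (nat_lit 20832) (nat_lit 43010) (nat_lit 7495049) (nat_lit 44132) (nat_lit 893558) (nat_lit 0) (nat_lit 0),Row.mk (nat_lit 21000) (nat_lit 41327) (nat_lit 3983619) (nat_lit 42823) (nat_lit 6493549) (nat_lit 0) (nat_lit 0),Row.mk (nat_lit 21168) (nat_lit 41140) (nat_lit 10352961) (nat_lit 42636) (nat_lit 2732769) (nat_lit 0) (nat_lit 0),Row.mk (nat_lit 21336) (nat_lit 38896) (nat_lit 2453430) (nat_lit 40953) (nat_lit 13890332) (nat_lit 0) (nat_lit 0),Row.mk (nat_lit 21504) (nat_lit 38709) (nat_lit 9780664) (nat_lit 40766) (nat_lit 10632301) (nat_lit 0) (nat_lit 0),Row.mk (nat_lit 21672) (nat_lit 38522) (nat_lit 18932203) (nat_lit 40579) (nat_lit 6563098) (nat_lit 0) (nat_lit 0),Row.mk (nat_lit 21840) (nat_lit 38335) (nat_lit 30362254) (nat_lit 40392) (nat_lit 1480762) (nat_lit 0) (nat_lit 0),Row.mk (nat_lit 22008) (nat_lit 31603) (nat_lit 6078706) (nat_lit 38148) (nat_lit 33692452)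 (nat_lit 0) (nat_lit 0),Row.mk (nat_lit 22176) (nat_lit 31416) (nat_lit 15980765) (nat_lit 37961) (nat_lit 33692452) (nat_lit 0) (nat_lit 0),Row.mk (nat_lit 22344) (nat_lit 31229) (nat_lit 28348198) (nat_lit 37774) (nat_lit 33692452) (nat_lit 0) (nat_lit 0),Row.mk (nat_lit 22512) (nat_lit 31042) (nat_lit 43794824) (nat_lit 37587) (nat_lit 33692452) (nat_lit 0) (nat_lit 0),Row.mk (nat_lit 22680) (nat_lit 30855) (nat_lit 63087287) (nat_lit 37400) (nat_lit 33692452) (nat_lit 0) (nat_lit 0),Row.mk (nat_lit 22848) (nat_lit 30668) (nat_lit 87183107) (nat_lit 37213) (nat_lit 33692452) (nat_lit 0) (nat_lit 0),Row.mk (nat_lit 23016) (nat_lit 30481) (nat_lit 117278206) (nat_lit 37026) (nat_lit 33692452) (nat_lit 0) (nat_lit 0),Row.mk (nat_lit 23184) (nat_lit 30294) (nat_lit 154866258) (nat_lit 36839) (nat_lit 33692452) (nat_lit 0) (nat_lit 0),Row.mk (nat_lit 23352) (nat_lit 30107) (nat_lit 201812828) (nat_lit 36652) (nat_lit 33692452) (nat_lit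 0) (nat_lit 0),Row.mk (nat_lit 23520) (nat_lit 29920) (nat_lit 260447962) (nat_lit 36465) (nat_lit 33692452) (nat_lit 0) (nat_lit 0),Row.mk (nat_lit 23688) (nat_lit 29733) (nat_lit 333681830) (nat_lit 36278) (nat_lit 33692452) (nat_lit 0) (nat_lit 0),Row.mk (nat_lit 23856) (nat_lit 29546) (nat_lit 425149164) (nat_lit 36091) (nat_lit 33692452) (nat_lit 0) (nat_lit 0),Row.mk (nat_lit 24024) (nat_lit 29359) (nat_lit 539389658) (nat_lit 35904) (nat_lit 33692452) (nat_lit 0) (nat_lit 0),Row.mk (nat_lit 24192) (nat_lit 29172) (nat_lit 682073279) (nat_lit 35717) (nat_lit 33692452) (nat_lit 0) (nat_lit 0),Row.mk (nat_lit 24360) (nat_lit 28985) (nat_lit 860281679) (nat_lit 35530) (nat_lit 33692452) (nat_lit 0) (nat_lit 0),Row.mk (nat_lit 24528) (nat_lit 28798) (nat_lit 1082859672) (nat_lit 35343) (nat_lit 33692452) (nat_lit 0) (nat_lit 0),Row.mk (nat_lit 24696) (nat_lit 28611) (nat_lit 1360854216) (nat_lit 35156) (nat_lit 33692452) (nat_lit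 0) (nat_lit 0),Row.mk (nat_lit 24864) (nat_lit 28424) (nat_lit 1708062695) (nat_lit 34969) (nat_lit 33692452) (nat_lit 0) (nat_lit 0),Row.mk (nat_lit 25032) (nat_lit 28237) (nat_lit 2141717710) (nat_lit 34782) (nat_lit 33692452) (nat_lit 0) (nat_lit 0),Row.mk (nat_lit 25200) (nat_lit 28050) (nat_lit 2683342361) (nat_lit 34595) (nat_lit 33692452) (nat_lit 0) (nat_lit 0),Row.mk (nat_lit 25368) (nat_lit 27863) (nat_lit 3359818485) (nat_lit 34408) (nat_lit 33692452) (nat_lit 0) (nat_lit 0),Row.mk (nat_lit 25536) (nat_lit 27676) (nat_lit 4204720844) (nat_lit 34221) (nat_lit 33692452) (nat_lit 0) (nat_lit 0),Row.mk (nat_lit 25704) (nat_lit 27489) (nat_lit 5259983508) (nat_lit 34034) (nat_lit 33692452) (nat_lit 0) (nat_lit 0),Row.mk (nat_lit 25872) (nat_lit 27302) (nat_lit 6577981119) (nat_lit 33847) (nat_lit 33692452) (nat_lit 0) (nat_lit 0)],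
[Row.mk (nat_lit 10752) (nat_lit 32912) (nat_lit 13) (nat_lit 61710) (nat_lit 8388594) (nat_lit 0) (nat_lit 0),Row.mk (nat_lit 10920) (nat_lit 32912) (nat_lit 16) (nat_lit 61710) (nat_lit 8388591) (nat_lit 0) (nat_lit 0),Row.mk (nat_lit 11088) (nat_lit 32912) (nat_lit 21) (nat_lit 61710) (nat_lit 8388586) (nat_lit 0) (nat_lit 0),Row.mk (nat_lit 11256) (nat_lit 32912) (nat_lit 26) (nat_lit 61710) (nat_lit 8388581) (nat_lit 0) (nat_lit 0),Row.mk (nat_lit 11424) (nat_lit 32912) (nat_lit 32) (nat_lit 61710) (nat_lit 8388575) (nat_lit 0) (nat_lit 0),Row.mk (nat_lit 11592) (nat_lit 32912) (nat_lit 41) (nat_lit 61710) (nat_lit 8388566) (nat_lit 0) (nat_lit 0),Row.mk (nat_lit 11760) (nat_lit 32912) (nat_lit 51) (nat_lit 61710) (nat_lit 8388556) (nat_lit 0) (nat_lit 0),Row.mk (nat_lit 11928) (nat_lit 32912) (nat_lit 64) (nat_lit 61710) (nat_lit 8388543) (nat_lit 0) (nat_lit 0),Row.mk (nat_lit 12096) (nat_lit 32912) (nat_lit 79) (nat_lit 61710)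 (nat_lit 8388528) (nat_lit 0) (nat_lit 0),Row.mk (nat_lit 12264) (nat_lit 32912) (nat_lit 99) (nat_lit 61710) (nat_lit 8388508) (nat_lit 0) (nat_lit 0),Row.mk (nat_lit 12432) (nat_lit 32912) (nat_lit 124) (nat_lit 61710) (nat_lit 8388483) (nat_lit 0) (nat_lit 0),Row.mk (nat_lit 12600) (nat_lit 32912) (nat_lit 155) (nat_lit 61710) (nat_lit 8388452) (nat_lit 0) (nat_lit 0),Row.mk (nat_lit 12768) (nat_lit 32912) (nat_lit 194) (nat_lit 61710) (nat_lit 8388413) (nat_lit 0) (nat_lit 0),Row.mk (nat_lit 12936) (nat_lit 32912) (nat_lit 243) (nat_lit 61710) (nat_lit 8388364) (nat_lit 0) (nat_lit 0),Row.mk (nat_lit 13104) (nat_lit 32912) (nat_lit 303) (nat_lit 61710) (nat_lit 8388304) (nat_lit 0) (nat_lit 0),Row.mk (nat_lit 13272) (nat_lit 32912) (nat_lit 379) (nat_lit 61710) (nat_lit 8388228) (nat_lit 0) (nat_lit 0),Row.mk (nat_lit 13440) (nat_lit 32912) (nat_lit 473) (nat_lit 61710) (nat_lit 8388134) (nat_lit 0) (nat_lit 0),Row.mk (nat_lit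 13608) (nat_lit 32912) (nat_lit 591) (nat_lit 61710) (nat_lit 8388016) (nat_lit 0) (nat_lit 0),Row.mk (nat_lit 13776) (nat_lit 32912) (nat_lit 738) (nat_lit 61710) (nat_lit 8387869) (nat_lit 0) (nat_lit 0),Row.mk (nat_lit 13944) (nat_lit 32912) (nat_lit 922) (nat_lit 61710) (nat_lit 8387685) (nat_lit 0) (nat_lit 0),Row.mk (nat_lit 14112) (nat_lit 32912) (nat_lit 1152) (nat_lit 61710) (nat_lit 8387455) (nat_lit 0) (nat_lit 0),Row.mk (nat_lit 14280) (nat_lit 32912) (nat_lit 1439) (nat_lit 61710) (nat_lit 8387168) (nat_lit 0) (nat_lit 0),Row.mk (nat_lit 14448) (nat_lit 32912) (nat_lit 1797) (nat_lit 61710) (nat_lit 8386810) (nat_lit 0) (nat_lit 0),Row.mk (nat_lit 14616) (nat_lit 32912) (nat_lit 2244) (nat_lit 61710) (nat_lit 8386363) (nat_lit 0) (nat_lit 0),Row.mk (nat_lit 14784) (nat_lit 32912) (nat_lit 2803) (nat_lit 61710) (nat_lit 8385804) (nat_lit 0) (nat_lit 0),Row.mk (nat_lit 14952) (nat_lit 32912) (nat_lit 3501) (nat_lit 61710)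 (nat_lit 8385106) (nat_lit 0) (nat_lit 0),Row.mk (nat_lit 15120) (nat_lit 32912) (nat_lit 4373) (nat_lit 61710) (nat_lit 8384234) (nat_lit 0) (nat_lit 0),Row.mk (nat_lit 15288) (nat_lit 32912) (nat_lit 5462) (nat_lit 61710) (nat_lit 8383145) (nat_lit 0) (nat_lit 0),Row.mk (nat_lit 15456) (nat_lit 32912) (nat_lit 6822) (nat_lit 61710) (nat_lit 8381785) (nat_lit 0) (nat_lit 0),Row.mk (nat_lit 15624) (nat_lit 32912) (nat_lit 8521) (nat_lit 61710) (nat_lit 8380086) (nat_lit 0) (nat_lit 0),Row.mk (nat_lit 15792) (nat_lit 60962) (nat_lit 10588) (nat_lit 61336) (nat_lit 54) (nat_lit 0) (nat_lit 0),Row.mk (nat_lit 15960) (nat_lit 60401) (nat_lit 13208) (nat_lit 60775) (nat_lit 84) (nat_lit 0) (nat_lit 0),Row.mk (nat_lit 16128) (nat_lit 59840) (nat_lit 16470) (nat_lit 60214) (nat_lit 131) (nat_lit 0) (nat_lit 0),Row.mk (nat_lit 16296) (nat_lit 59279) (nat_lit 20530) (nat_lit 59653) (nat_lit 205) (nat_lit 0) (nat_lit 0),Row.mk (nat_lit 16464)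 (nat_lit 58718) (nat_lit 25577) (nat_lit 59092) (nat_lit 321) (nat_lit 0) (nat_lit 0),Row.mk (nat_lit 16632) (nat_lit 58157) (nat_lit 31846) (nat_lit 58531) (nat_lit 500) (nat_lit 0) (nat_lit 0),Row.mk (nat_lit 16800) (nat_lit 57596) (nat_lit 39619) (nat_lit 57970) (nat_lit 781) (nat_lit 0) (nat_lit 0),Row.mk (nat_lit 16968) (nat_lit 57035) (nat_lit 49240) (nat_lit 57409) (nat_lit 1219) (nat_lit 0) (nat_lit 0),Row.mk (nat_lit 17136) (nat_lit 56474) (nat_lit 61121) (nat_lit 56848) (nat_lit 1901) (nat_lit 0) (nat_lit 0),Row.mk (nat_lit 17304) (nat_lit 55913) (nat_lit 75747) (nat_lit 56287) (nat_lit 2966) (nat_lit 0) (nat_lit 0),Row.mk (nat_lit 17472) (nat_lit 55352) (nat_lit 93684) (nat_lit 55726) (nat_lit 4627) (nat_lit 0) (nat_lit 0),Row.mk (nat_lit 17640) (nat_lit 54791) (nat_lit 115570) (nat_lit 55165) (nat_lit 7219) (nat_lit 0) (nat_lit 0),Row.mk (nat_lit 17808) (nat_lit 54230) (nat_lit 142100) (nat_lit 54604) (nat_lit 11261) (nat_lit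 0) (nat_lit 0),Row.mk (nat_lit 17976) (nat_lit 53669) (nat_lit 173978) (nat_lit 54043) (nat_lit 17566) (nat_lit 0) (nat_lit 0),Row.mk (nat_lit 18144) (nat_lit 53108) (nat_lit 211831) (nat_lit 53482) (nat_lit 27403) (nat_lit 0) (nat_lit 0),Row.mk (nat_lit 18312) (nat_lit 52547) (nat_lit 256051) (nat_lit 52921) (nat_lit 42747) (nat_lit 0) (nat_lit 0),Row.mk (nat_lit 18480) (nat_lit 51986) (nat_lit 306509) (nat_lit 52360) (nat_lit 66683) (nat_lit 0) (nat_lit 0),Row.mk (nat_lit 18648) (nat_lit 51425) (nat_lit 362086) (nat_lit 51799) (nat_lit 104022) (nat_lit 0) (nat_lit 0),Row.mk (nat_lit 18816) (nat_lit 50864) (nat_lit 419889) (nat_lit 51238) (nat_lit 162268) (nat_lit 0) (nat_lit 0),Row.mk (nat_lit 18984) (nat_lit 50303) (nat_lit 473972) (nat_lit 50677) (nat_lit 253129) (nat_lit 0) (nat_lit 0),Row.mk (nat_lit 19152) (nat_lit 49742) (nat_lit 513265) (nat_lit 50116) (nat_lit 394867) (nat_lit 0) (nat_lit 0),Row.mk (nat_lit 19320) (nat_lit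 49181) (nat_lit 518265) (nat_lit 49555) (nat_lit 615970) (nat_lit 0) (nat_lit 0),Row.mk (nat_lit 19488) (nat_lit 48620) (nat_lit 455756) (nat_lit 48994) (nat_lit 960877) (nat_lit 0) (nat_lit 0),Row.mk (nat_lit 19656) (nat_lit 47872) (nat_lit 270429) (nat_lit 48433) (nat_lit 1498911) (nat_lit 0) (nat_lit 0),Row.mk (nat_lit 19824) (nat_lit 47685) (nat_lit 2107101) (nat_lit 48246) (nat_lit 102763) (nat_lit 0) (nat_lit 0),Row.mk (nat_lit 19992) (nat_lit 46750) (nat_lit 2049560) (nat_lit 47498) (nat_lit 710507) (nat_lit 0) (nat_lit 0),Row.mk (nat_lit 20160) (nat_lit 45815) (nat_lit 1651718) (nat_lit 46563) (nat_lit 1795539) (nat_lit 0) (nat_lit 0),Row.mk (nat_lit 20328) (nat_lit 44693) (nat_lit 646322) (nat_lit 45628) (nat_lit 3659218) (nat_lit 0) (nat_lit 0),Row.mk (nat_lit 20496) (nat_lit 44506) (nat_lit 4254498) (nat_lit 45441) (nat_lit 1123018) (nat_lit 0) (nat_lit 0),Row.mk (nat_lit 20664) (nat_lit 43197) (nat_lit 2553699) (nat_lit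 44319) (nat_lit 4162689) (nat_lit 0) (nat_lit 0),Row.mk (nat_lit 20832) (nat_lit 43010) (nat_lit 7495049) (nat_lit 44132) (nat_lit 893558) (nat_lit 0) (nat_lit 0),Row.mk (nat_lit 21000) (nat_lit 41327) (nat_lit 3983619) (nat_lit 42823) (nat_lit 6493549) (nat_lit 0) (nat_lit 0),Row.mk (nat_lit 21168) (nat_lit 41140) (nat_lit 10352961) (nat_lit 42636) (nat_lit 2732769) (nat_lit 0) (nat_lit 0),Row.mk (nat_lit 21336) (nat_lit 38896) (nat_lit 2453430) (nat_lit 40953) (nat_lit 13890332) (nat_lit 0) (nat_lit 0),Row.mk (nat_lit 21504) (nat_lit 38709) (nat_lit 9780664) (nat_lit 40766) (nat_lit 10632301) (nat_lit 0) (nat_lit 0),Row.mk (nat_lit 21672) (nat_lit 38522) (nat_lit 18932203) (nat_lit 40579) (nat_lit 6563098) (nat_lit 0) (nat_lit 0),Row.mk (nat_lit 21840) (nat_lit 38335) (nat_lit 30362254) (nat_lit 40392) (nat_lit 1480762) (nat_lit 0) (nat_lit 0),Row.mk (nat_lit 22008) (nat_lit 31603) (nat_lit 6078706) (nat_lit 38148) (nat_lit 33692452)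 (nat_lit 0) (nat_lit 0),Row.mk (nat_lit 22176) (nat_lit 31416) (nat_lit 15980765) (nat_lit 37961) (nat_lit 33692452) (nat_lit 0) (nat_lit 0),Row.mk (nat_lit 22344) (nat_lit 31229) (nat_lit 28348198) (nat_lit 37774) (nat_lit 33692452) (nat_lit 0) (nat_lit 0),Row.mk (nat_lit 22512) (nat_lit 31042) (nat_lit 43794824) (nat_lit 37587) (nat_lit 33692452) (nat_lit 0) (nat_lit 0),Row.mk (nat_lit 22680) (nat_lit 30855) (nat_lit 63087287) (nat_lit 37400) (nat_lit 33692452) (nat_lit 0) (nat_lit 0),Row.mk (nat_lit 22848) (nat_lit 30668) (nat_lit 87183107) (nat_lit 37213) (nat_lit 33692452) (nat_lit 0) (nat_lit 0),Row.mk (nat_lit 23016) (nat_lit 30481) (nat_lit 117278206) (nat_lit 37026) (nat_lit 33692452) (nat_lit 0) (nat_lit 0),Row.mk (nat_lit 23184) (nat_lit 30294) (nat_lit 154866258) (nat_lit 36839) (nat_lit 33692452) (nat_lit 0) (nat_lit 0),Row.mk (nat_lit 23352) (nat_lit 30107) (nat_lit 201812828) (nat_lit 36652) (nat_lit 33692452) (nat_lit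 0) (nat_lit 0),Row.mk (nat_lit 23520) (nat_lit 29920) (nat_lit 260447962) (nat_lit 36465) (nat_lit 33692452) (nat_lit 0) (nat_lit 0),Row.mk (nat_lit 23688) (nat_lit 29733) (nat_lit 333681830) (nat_lit 36278) (nat_lit 33692452) (nat_lit 0) (nat_lit 0),Row.mk (nat_lit 23856) (nat_lit 29546) (nat_lit 425149164) (nat_lit 36091) (nat_lit 33692452) (nat_lit 0) (nat_lit 0),Row.mk (nat_lit 24024) (nat_lit 29359) (nat_lit 539389658) (nat_lit 35904) (nat_lit 33692452) (nat_lit 0) (nat_lit 0),Row.mk (nat_lit 24192) (nat_lit 29172) (nat_lit 682073279) (nat_lit 35717) (nat_lit 33692452) (nat_lit 0) (nat_lit 0),Row.mk (nat_lit 24360) (nat_lit 28985) (nat_lit 860281679) (nat_lit 35530) (nat_lit 33692452) (nat_lit 0) (nat_lit 0),Row.mk (nat_lit 24528) (nat_lit 28798) (nat_lit 1082859672) (nat_lit 35343) (nat_lit 33692452) (nat_lit 0) (nat_lit 0),Row.mk (nat_lit 24696) (nat_lit 28611) (nat_lit 1360854216) (nat_lit 35156) (nat_lit 33692452) (nat_lit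 0) (nat_lit 0),Row.mk (nat_lit 24864) (nat_lit 28424) (nat_lit 1708062695) (nat_lit 34969) (nat_lit 33692452) (nat_lit 0) (nat_lit 0),Row.mk (nat_lit 25032) (nat_lit 28237) (nat_lit 2141717710) (nat_lit 34782) (nat_lit 33692452) (nat_lit 0) (nat_lit 0),Row.mk (nat_lit 25200) (nat_lit 28050) (nat_lit 2683342361) (nat_lit 34595) (nat_lit 33692452) (nat_lit 0) (nat_lit 0),Row.mk (nat_lit 25368) (nat_lit 27863) (nat_lit 3359818485) (nat_lit 34408) (nat_lit 33692452) (nat_lit 0) (nat_lit 0),Row.mk (nat_lit 25536) (nat_lit 27676) (nat_lit 4204720844) (nat_lit 34221) (nat_lit 33692452) (nat_lit 0) (nat_lit 0),Row.mk (nat_lit 25704) (nat_lit 27489) (nat_lit 5259983508) (nat_lit 34034) (nat_lit 33692452) (nat_lit 0) (nat_lit 0),Row.mk (nat_lit 25872) (nat_lit 27302) (nat_lit 6577981119) (nat_lit 33847) (nat_lit 33692452) (nat_lit 0) (nat_lit 0)],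
[Row.mk (nat_lit 10752) (nat_lit 32912) (nat_lit 13) (nat_lit 61710) (nat_lit 8388594) (nat_lit 0) (nat_lit 0),Row.mk (nat_lit 10920) (nat_lit 32912) (nat_lit 16) (nat_lit 61710) (nat_lit 8388591) (nat_lit 0) (nat_lit 0),Row.mk (nat_lit 11088) (nat_lit 32912) (nat_lit 21) (nat_lit 61710) (nat_lit 8388586) (nat_lit 0) (nat_lit 0),Row.mk (nat_lit 11256) (nat_lit 32912) (nat_lit 26) (nat_lit 61710) (nat_lit 8388581) (nat_lit 0) (nat_lit 0),Row.mk (nat_lit 11424) (nat_lit 32912) (nat_lit 32) (nat_lit 61710) (nat_lit 8388575) (nat_lit 0) (nat_lit 0),Row.mk (nat_lit 11592) (nat_lit 32912) (nat_lit 41) (nat_lit 61710) (nat_lit 8388566) (nat_lit 0) (nat_lit 0),Row.mk (nat_lit 11760) (nat_lit 32912) (nat_lit 51) (nat_lit 61710) (nat_lit 8388556) (nat_lit 0) (nat_lit 0),Row.mk (nat_lit 11928) (nat_lit 32912) (nat_lit 64) (nat_lit 61710) (nat_lit 8388543) (nat_lit 0) (nat_lit 0),Row.mk (nat_lit 12096) (nat_lit 32912) (nat_lit 79) (nat_lit 61710)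 (nat_lit 8388528) (nat_lit 0) (nat_lit 0),Row.mk (nat_lit 12264) (nat_lit 32912) (nat_lit 99) (nat_lit 61710) (nat_lit 8388508) (nat_lit 0) (nat_lit 0),Row.mk (nat_lit 12432) (nat_lit 32912) (nat_lit 124) (nat_lit 61710) (nat_lit 8388483) (nat_lit 0) (nat_lit 0),Row.mk (nat_lit 12600) (nat_lit 32912) (nat_lit 155) (nat_lit 61710) (nat_lit 8388452) (nat_lit 0) (nat_lit 0),Row.mk (nat_lit 12768) (nat_lit 32912) (nat_lit 194) (nat_lit 61710) (nat_lit 8388413) (nat_lit 0) (nat_lit 0),Row.mk (nat_lit 12936) (nat_lit 32912) (nat_lit 243) (nat_lit 61710) (nat_lit 8388364) (nat_lit 0) (nat_lit 0),Row.mk (nat_lit 13104) (nat_lit 32912) (nat_lit 303) (nat_lit 61710) (nat_lit 8388304) (nat_lit 0) (nat_lit 0),Row.mk (nat_lit 13272) (nat_lit 32912) (nat_lit 379) (nat_lit 61710) (nat_lit 8388228) (nat_lit 0) (nat_lit 0),Row.mk (nat_lit 13440) (nat_lit 32912) (nat_lit 473) (nat_lit 61710) (nat_lit 8388134) (nat_lit 0) (nat_lit 0),Row.mk (nat_lit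 13608) (nat_lit 32912) (nat_lit 591) (nat_lit 61710) (nat_lit 8388016) (nat_lit 0) (nat_lit 0),Row.mk (nat_lit 13776) (nat_lit 32912) (nat_lit 738) (nat_lit 61710) (nat_lit 8387869) (nat_lit 0) (nat_lit 0),Row.mk (nat_lit 13944) (nat_lit 32912) (nat_lit 922) (nat_lit 61710) (nat_lit 8387685) (nat_lit 0) (nat_lit 0),Row.mk (nat_lit 14112) (nat_lit 32912) (nat_lit 1152) (nat_lit 61710) (nat_lit 8387455) (nat_lit 0) (nat_lit 0),Row.mk (nat_lit 14280) (nat_lit 32912) (nat_lit 1439) (nat_lit 61710) (nat_lit 8387168) (nat_lit 0) (nat_lit 0),Row.mk (nat_lit 14448) (nat_lit 32912) (nat_lit 1797) (nat_lit 61710) (nat_lit 8386810) (nat_lit 0) (nat_lit 0),Row.mk (nat_lit 14616) (nat_lit 32912) (nat_lit 2244) (nat_lit 61710) (nat_lit 8386363) (nat_lit 0) (nat_lit 0),Row.mk (nat_lit 14784) (nat_lit 32912) (nat_lit 2803) (nat_lit 61710) (nat_lit 8385804) (nat_lit 0) (nat_lit 0),Row.mk (nat_lit 14952) (nat_lit 32912) (nat_lit 3501) (nat_lit 61710)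 (nat_lit 8385106) (nat_lit 0) (nat_lit 0),Row.mk (nat_lit 15120) (nat_lit 32912) (nat_lit 4373) (nat_lit 61710) (nat_lit 8384234) (nat_lit 0) (nat_lit 0),Row.mk (nat_lit 15288) (nat_lit 32912) (nat_lit 5462) (nat_lit 61710) (nat_lit 8383145) (nat_lit 0) (nat_lit 0),Row.mk (nat_lit 15456) (nat_lit 32912) (nat_lit 6822) (nat_lit 61710) (nat_lit 8381785) (nat_lit 0) (nat_lit 0),Row.mk (nat_lit 15624) (nat_lit 32912) (nat_lit 8521) (nat_lit 61710) (nat_lit 8380086) (nat_lit 0) (nat_lit 0),Row.mk (nat_lit 15792) (nat_lit 60962) (nat_lit 10588) (nat_lit 61336) (nat_lit 54) (nat_lit 0) (nat_lit 0),Row.mk (nat_lit 15960) (nat_lit 60401) (nat_lit 13208) (nat_lit 60775) (nat_lit 84) (nat_lit 0) (nat_lit 0),Row.mk (nat_lit 16128) (nat_lit 59840) (nat_lit 16470) (nat_lit 60214) (nat_lit 131) (nat_lit 0) (nat_lit 0),Row.mk (nat_lit 16296) (nat_lit 59279) (nat_lit 20530) (nat_lit 59653) (nat_lit 205) (nat_lit 0) (nat_lit 0),Row.mk (nat_lit 16464)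 (nat_lit 58718) (nat_lit 25577) (nat_lit 59092) (nat_lit 321) (nat_lit 0) (nat_lit 0),Row.mk (nat_lit 16632) (nat_lit 58157) (nat_lit 31846) (nat_lit 58531) (nat_lit 500) (nat_lit 0) (nat_lit 0),Row.mk (nat_lit 16800) (nat_lit 57596) (nat_lit 39619) (nat_lit 57970) (nat_lit 781) (nat_lit 0) (nat_lit 0),Row.mk (nat_lit 16968) (nat_lit 57035) (nat_lit 49240) (nat_lit 57409) (nat_lit 1219) (nat_lit 0) (nat_lit 0),Row.mk (nat_lit 17136) (nat_lit 56474) (nat_lit 61121) (nat_lit 56848) (nat_lit 1901) (nat_lit 0) (nat_lit 0),Row.mk (nat_lit 17304) (nat_lit 55913) (nat_lit 75747) (nat_lit 56287) (nat_lit 2966) (nat_lit 0) (nat_lit 0),Row.mk (nat_lit 17472) (nat_lit 55352) (nat_lit 93684) (nat_lit 55726) (nat_lit 4627) (nat_lit 0) (nat_lit 0),Row.mk (nat_lit 17640) (nat_lit 54791) (nat_lit 115570) (nat_lit 55165) (nat_lit 7219) (nat_lit 0) (nat_lit 0),Row.mk (nat_lit 17808) (nat_lit 54230) (nat_lit 142100) (nat_lit 54604) (nat_lit 11261) (nat_lit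 0) (nat_lit 0),Row.mk (nat_lit 17976) (nat_lit 53669) (nat_lit 173978) (nat_lit 54043) (nat_lit 17566) (nat_lit 0) (nat_lit 0),Row.mk (nat_lit 18144) (nat_lit 53108) (nat_lit 211831) (nat_lit 53482) (nat_lit 27403) (nat_lit 0) (nat_lit 0),Row.mk (nat_lit 18312) (nat_lit 52547) (nat_lit 256051) (nat_lit 52921) (nat_lit 42747) (nat_lit 0) (nat_lit 0),Row.mk (nat_lit 18480) (nat_lit 51986) (nat_lit 306509) (nat_lit 52360) (nat_lit 66683) (nat_lit 0) (nat_lit 0),Row.mk (nat_lit 18648) (nat_lit 51425) (nat_lit 362086) (nat_lit 51799) (nat_lit 104022) (nat_lit 0) (nat_lit 0),Row.mk (nat_lit 18816) (nat_lit 50864) (nat_lit 419889) (nat_lit 51238) (nat_lit 162268) (nat_lit 0) (nat_lit 0),Row.mk (nat_lit 18984) (nat_lit 50303) (nat_lit 473972) (nat_lit 50677) (nat_lit 253129) (nat_lit 0) (nat_lit 0),Row.mk (nat_lit 19152) (nat_lit 49742) (nat_lit 513265) (nat_lit 50116) (nat_lit 394867) (nat_lit 0) (nat_lit 0),Row.mk (nat_lit 19320) (nat_lit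 49181) (nat_lit 518265) (nat_lit 49555) (nat_lit 615970) (nat_lit 0) (nat_lit 0),Row.mk (nat_lit 19488) (nat_lit 48620) (nat_lit 455756) (nat_lit 48994) (nat_lit 960877) (nat_lit 0) (nat_lit 0),Row.mk (nat_lit 19656) (nat_lit 47872) (nat_lit 270429) (nat_lit 48433) (nat_lit 1498911) (nat_lit 0) (nat_lit 0),Row.mk (nat_lit 19824) (nat_lit 47685) (nat_lit 2107101) (nat_lit 48246) (nat_lit 102763) (nat_lit 0) (nat_lit 0),Row.mk (nat_lit 19992) (nat_lit 46750) (nat_lit 2049560) (nat_lit 47498) (nat_lit 710507) (nat_lit 0) (nat_lit 0),Row.mk (nat_lit 20160) (nat_lit 45815) (nat_lit 1651718) (nat_lit 46563) (nat_lit 1795539) (nat_lit 0) (nat_lit 0),Row.mk (nat_lit 20328) (nat_lit 44693) (nat_lit 646322) (nat_lit 45628) (nat_lit 3659218) (nat_lit 0) (nat_lit 0),Row.mk (nat_lit 20496) (nat_lit 44506) (nat_lit 4254498) (nat_lit 45441) (nat_lit 1123018) (nat_lit 0) (nat_lit 0),Row.mk (nat_lit 20664) (nat_lit 43197) (nat_lit 2553699) (nat_lit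 44319) (nat_lit 4162689) (nat_lit 0) (nat_lit 0),Row.mk (nat_lit 20832) (nat_lit 43010) (nat_lit 7495049) (nat_lit 44132) (nat_lit 893558) (nat_lit 0) (nat_lit 0),Row.mk (nat_lit 21000) (nat_lit 41327) (nat_lit 3983619) (nat_lit 42823) (nat_lit 6493549) (nat_lit 0) (nat_lit 0),Row.mk (nat_lit 21168) (nat_lit 41140) (nat_lit 10352961) (nat_lit 42636) (nat_lit 2732769) (nat_lit 0) (nat_lit 0),Row.mk (nat_lit 21336) (nat_lit 38896) (nat_lit 2453430) (nat_lit 40953) (nat_lit 13890332) (nat_lit 0) (nat_lit 0),Row.mk (nat_lit 21504) (nat_lit 38709) (nat_lit 9780664) (nat_lit 40766) (nat_lit 10632301) (nat_lit 0) (nat_lit 0),Row.mk (nat_lit 21672) (nat_lit 38522) (nat_lit 18932203) (nat_lit 40579) (nat_lit 6563098) (nat_lit 0) (nat_lit 0),Row.mk (nat_lit 21840) (nat_lit 38335) (nat_lit 30362254) (nat_lit 40392) (nat_lit 1480762) (nat_lit 0) (nat_lit 0),Row.mk (nat_lit 22008) (nat_lit 31603) (nat_lit 6078706) (nat_lit 38148) (nat_lit 33692452)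 (nat_lit 0) (nat_lit 0),Row.mk (nat_lit 22176) (nat_lit 31416) (nat_lit 15980765) (nat_lit 37961) (nat_lit 33692452) (nat_lit 0) (nat_lit 0),Row.mk (nat_lit 22344) (nat_lit 31229) (nat_lit 28348198) (nat_lit 37774) (nat_lit 33692452) (nat_lit 0) (nat_lit 0),Row.mk (nat_lit 22512) (nat_lit 31042) (nat_lit 43794824) (nat_lit 37587) (nat_lit 33692452) (nat_lit 0) (nat_lit 0),Row.mk (nat_lit 22680) (nat_lit 30855) (nat_lit 63087287) (nat_lit 37400) (nat_lit 33692452) (nat_lit 0) (nat_lit 0),Row.mk (nat_lit 22848) (nat_lit 30668) (nat_lit 87183107) (nat_lit 37213) (nat_lit 33692452) (nat_lit 0) (nat_lit 0),Row.mk (nat_lit 23016) (nat_lit 30481) (nat_lit 117278206) (nat_lit 37026) (nat_lit 33692452) (nat_lit 0) (nat_lit 0),Row.mk (nat_lit 23184) (nat_lit 30294) (nat_lit 154866258) (nat_lit 36839) (nat_lit 33692452) (nat_lit 0) (nat_lit 0),Row.mk (nat_lit 23352) (nat_lit 30107) (nat_lit 201812828) (nat_lit 36652) (nat_lit 33692452) (nat_lit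 0) (nat_lit 0),Row.mk (nat_lit 23520) (nat_lit 29920) (nat_lit 260447962) (nat_lit 36465) (nat_lit 33692452) (nat_lit 0) (nat_lit 0),Row.mk (nat_lit 23688) (nat_lit 29733) (nat_lit 333681830) (nat_lit 36278) (nat_lit 33692452) (nat_lit 0) (nat_lit 0),Row.mk (nat_lit 23856) (nat_lit 29546) (nat_lit 425149164) (nat_lit 36091) (nat_lit 33692452) (nat_lit 0) (nat_lit 0),Row.mk (nat_lit 24024) (nat_lit 29359) (nat_lit 539389658) (nat_lit 35904) (nat_lit 33692452) (nat_lit 0) (nat_lit 0),Row.mk (nat_lit 24192) (nat_lit 29172) (nat_lit 682073279) (nat_lit 35717) (nat_lit 33692452) (nat_lit 0) (nat_lit 0),Row.mk (nat_lit 24360) (nat_lit 28985) (nat_lit 860281679) (nat_lit 35530) (nat_lit 33692452) (nat_lit 0) (nat_lit 0),Row.mk (nat_lit 24528) (nat_lit 28798) (nat_lit 1082859672) (nat_lit 35343) (nat_lit 33692452) (nat_lit 0) (nat_lit 0),Row.mk (nat_lit 24696) (nat_lit 28611) (nat_lit 1360854216) (nat_lit 35156) (nat_lit 33692452) (nat_lit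 0) (nat_lit 0),Row.mk (nat_lit 24864) (nat_lit 28424) (nat_lit 1708062695) (nat_lit 34969) (nat_lit 33692452) (nat_lit 0) (nat_lit 0),Row.mk (nat_lit 25032) (nat_lit 28237) (nat_lit 2141717710) (nat_lit 34782) (nat_lit 33692452) (nat_lit 0) (nat_lit 0),Row.mk (nat_lit 25200) (nat_lit 28050) (nat_lit 2683342361) (nat_lit 34595) (nat_lit 33692452) (nat_lit 0) (nat_lit 0),Row.mk (nat_lit 25368) (nat_lit 27863) (nat_lit 3359818485) (nat_lit 34408) (nat_lit 33692452) (nat_lit 0) (nat_lit 0),Row.mk (nat_lit 25536) (nat_lit 27676) (nat_lit 4204720844) (nat_lit 34221) (nat_lit 33692452) (nat_lit 0) (nat_lit 0),Row.mk (nat_lit 25704) (nat_lit 27489) (nat_lit 5259983508) (nat_lit 34034) (nat_lit 33692452) (nat_lit 0) (nat_lit 0),Row.mk (nat_lit 25872) (nat_lit 27302) (nat_lit 6577981119) (nat_lit 33847) (nat_lit 33692452) (nat_lit 0) (nat_lit 0),Row.mk (nat_lit 26040) (nat_lit 32912) (nat_lit 8388608) (nat_lit 62084) (nat_lit 8249432185) (nat_lit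 0) (nat_lit 0)],
[Row.mk (nat_lit 10752) (nat_lit 32912) (nat_lit 13) (nat_lit 61710) (nat_lit 8388594) (nat_lit 0) (nat_lit 0),Row.mk (nat_lit 10920) (nat_lit 32912) (nat_lit 16) (nat_lit 61710) (nat_lit 8388591) (nat_lit 0) (nat_lit 0),Row.mk (nat_lit 11088) (nat_lit 32912) (nat_lit 21) (nat_lit 61710) (nat_lit 8388586) (nat_lit 0) (nat_lit 0),Row.mk (nat_lit 11256) (nat_lit 32912) (nat_lit 26) (nat_lit 61710) (nat_lit 8388581) (nat_lit 0) (nat_lit 0),Row.mk (nat_lit 11424) (nat_lit 32912) (nat_lit 32) (nat_lit 61710) (nat_lit 8388575) (nat_lit 0) (nat_lit 0),Row.mk (nat_lit 11592) (nat_lit 32912) (nat_lit 41) (nat_lit 61710) (nat_lit 8388566) (nat_lit 0) (nat_lit 0),Row.mk (nat_lit 11760) (nat_lit 32912) (nat_lit 51) (nat_lit 61710) (nat_lit 8388556) (nat_lit 0) (nat_lit 0),Row.mk (nat_lit 11928) (nat_lit 32912) (nat_lit 64) (nat_lit 61710) (nat_lit 8388543) (nat_lit 0) (nat_lit 0),Row.mk (nat_lit 12096) (nat_lit 32912) (nat_lit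 79) (nat_lit 61710) (nat_lit 8388528) (nat_lit 0) (nat_lit 0),Row.mk (nat_lit 12264) (nat_lit 32912) (nat_lit 99) (nat_lit 61710) (nat_lit 8388508) (nat_lit 0) (nat_lit 0),Row.mk (nat_lit 12432) (nat_lit 32912) (nat_lit 124) (nat_lit 61710) (nat_lit 8388483) (nat_lit 0) (nat_lit 0),Row.mk (nat_lit 12600) (nat_lit 32912) (nat_lit 155) (nat_lit 61710) (nat_lit 8388452) (nat_lit 0) (nat_lit 0),Row.mk (nat_lit 12768) (nat_lit 32912) (nat_lit 194) (nat_lit 61710) (nat_lit 8388413) (nat_lit 0) (nat_lit 0),Row.mk (nat_lit 12936) (nat_lit 32912) (nat_lit 243) (nat_lit 61710) (nat_lit 8388364) (nat_lit 0) (nat_lit 0),Row.mk (nat_lit 13104) (nat_lit 32912) (nat_lit 303) (nat_lit 61710) (nat_lit 8388304) (nat_lit 0) (nat_lit 0),Row.mk (nat_lit 13272) (nat_lit 32912) (nat_lit 379) (nat_lit 61710) (nat_lit 8388228) (nat_lit 0) (nat_lit 0),Row.mk (nat_lit 13440) (nat_lit 32912) (nat_lit 473) (nat_lit 61710) (nat_lit 8388134) (nat_lit 0) (nat_lit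 0),Row.mk (nat_lit 13608) (nat_lit 32912) (nat_lit 591) (nat_lit 61710) (nat_lit 8388016) (nat_lit 0) (nat_lit 0),Row.mk (nat_lit 13776) (nat_lit 32912) (nat_lit 738) (nat_lit 61710) (nat_lit 8387869) (nat_lit 0) (nat_lit 0),Row.mk (nat_lit 13944) (nat_lit 32912) (nat_lit 922) (nat_lit 61710) (nat_lit 8387685) (nat_lit 0) (nat_lit 0),Row.mk (nat_lit 14112) (nat_lit 32912) (nat_lit 1152) (nat_lit 61710) (nat_lit 8387455) (nat_lit 0) (nat_lit 0),Row.mk (nat_lit 14280) (nat_lit 32912) (nat_lit 1439) (nat_lit 61710) (nat_lit 8387168) (nat_lit 0) (nat_lit 0),Row.mk (nat_lit 14448) (nat_lit 32912) (nat_lit 1797) (nat_lit 61710) (nat_lit 8386810) (nat_lit 0) (nat_lit 0),Row.mk (nat_lit 14616) (nat_lit 32912) (nat_lit 2244) (nat_lit 61710) (nat_lit 8386363) (nat_lit 0) (nat_lit 0),Row.mk (nat_lit 14784) (nat_lit 32912) (nat_lit 2803) (nat_lit 61710) (nat_lit 8385804) (nat_lit 0) (nat_lit 0),Row.mk (nat_lit 14952) (nat_lit 32912) (nat_lit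 3501) (nat_lit 61710) (nat_lit 8385106) (nat_lit 0) (nat_lit 0),Row.mk (nat_lit 15120) (nat_lit 32912) (nat_lit 4373) (nat_lit 61710) (nat_lit 8384234) (nat_lit 0) (nat_lit 0),Row.mk (nat_lit 15288) (nat_lit 32912) (nat_lit 5462) (nat_lit 61710) (nat_lit 8383145) (nat_lit 0) (nat_lit 0),Row.mk (nat_lit 15456) (nat_lit 32912) (nat_lit 6822) (nat_lit 61710) (nat_lit 8381785) (nat_lit 0) (nat_lit 0),Row.mk (nat_lit 15624) (nat_lit 32912) (nat_lit 8521) (nat_lit 61710) (nat_lit 8380086) (nat_lit 0) (nat_lit 0),Row.mk (nat_lit 15792) (nat_lit 60962) (nat_lit 10588) (nat_lit 61336) (nat_lit 54) (nat_lit 0) (nat_lit 0),Row.mk (nat_lit 15960) (nat_lit 60401) (nat_lit 13208) (nat_lit 60775) (nat_lit 84) (nat_lit 0) (nat_lit 0),Row.mk (nat_lit 16128) (nat_lit 59840) (nat_lit 16470) (nat_lit 60214) (nat_lit 131) (nat_lit 0) (nat_lit 0),Row.mk (nat_lit 16296) (nat_lit 59279) (nat_lit 20530) (nat_lit 59653) (nat_lit 205) (nat_lit 0) (nat_lit 0),Row.mk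 (nat_lit 16464) (nat_lit 58718) (nat_lit 25577) (nat_lit 59092) (nat_lit 321) (nat_lit 0) (nat_lit 0),Row.mk (nat_lit 16632) (nat_lit 58157) (nat_lit 31846) (nat_lit 58531) (nat_lit 500) (nat_lit 0) (nat_lit 0),Row.mk (nat_lit 16800) (nat_lit 57596) (nat_lit 39619) (nat_lit 57970) (nat_lit 781) (nat_lit 0) (nat_lit 0),Row.mk (nat_lit 16968) (nat_lit 57035) (nat_lit 49240) (nat_lit 57409) (nat_lit 1219) (nat_lit 0) (nat_lit 0),Row.mk (nat_lit 17136) (nat_lit 56474) (nat_lit 61121) (nat_lit 56848) (nat_lit 1901) (nat_lit 0) (nat_lit 0),Row.mk (nat_lit 17304) (nat_lit 55913) (nat_lit 75747) (nat_lit 56287) (nat_lit 2966) (nat_lit 0) (nat_lit 0),Row.mk (nat_lit 17472) (nat_lit 55352) (nat_lit 93684) (nat_lit 55726) (nat_lit 4627) (nat_lit 0) (nat_lit 0),Row.mk (nat_lit 17640) (nat_lit 54791) (nat_lit 115570) (nat_lit 55165) (nat_lit 7219) (nat_lit 0) (nat_lit 0),Row.mk (nat_lit 17808) (nat_lit 54230) (nat_lit 142100) (nat_lit 54604) (nat_lit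 11261) (nat_lit 0) (nat_lit 0),Row.mk (nat_lit 17976) (nat_lit 53669) (nat_lit 173978) (nat_lit 54043) (nat_lit 17566) (nat_lit 0) (nat_lit 0),Row.mk (nat_lit 18144) (nat_lit 53108) (nat_lit 211831) (nat_lit 53482) (nat_lit 27403) (nat_lit 0) (nat_lit 0),Row.mk (nat_lit 18312) (nat_lit 52547) (nat_lit 256051) (nat_lit 52921) (nat_lit 42747) (nat_lit 0) (nat_lit 0),Row.mk (nat_lit 18480) (nat_lit 51986) (nat_lit 306509) (nat_lit 52360) (nat_lit 66683) (nat_lit 0) (nat_lit 0),Row.mk (nat_lit 18648) (nat_lit 51425) (nat_lit 362086) (nat_lit 51799) (nat_lit 104022) (nat_lit 0) (nat_lit 0),Row.mk (nat_lit 18816) (nat_lit 50864) (nat_lit 419889) (nat_lit 51238) (nat_lit 162268) (nat_lit 0) (nat_lit 0),Row.mk (nat_lit 18984) (nat_lit 50303) (nat_lit 473972) (nat_lit 50677) (nat_lit 253129) (nat_lit 0) (nat_lit 0),Row.mk (nat_lit 19152) (nat_lit 49742) (nat_lit 513265) (nat_lit 50116) (nat_lit 394867) (nat_lit 0) (nat_lit 0),Row.mk (nat_lit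 19320) (nat_lit 49181) (nat_lit 518265) (nat_lit 49555) (nat_lit 615970) (nat_lit 0) (nat_lit 0),Row.mk (nat_lit 19488) (nat_lit 48620) (nat_lit 455756) (nat_lit 48994) (nat_lit 960877) (nat_lit 0) (nat_lit 0),Row.mk (nat_lit 19656) (nat_lit 47872) (nat_lit 270429) (nat_lit 48433) (nat_lit 1498911) (nat_lit 0) (nat_lit 0),Row.mk (nat_lit 19824) (nat_lit 47685) (nat_lit 2107101) (nat_lit 48246) (nat_lit 102763) (nat_lit 0) (nat_lit 0),Row.mk (nat_lit 19992) (nat_lit 46750) (nat_lit 2049560) (nat_lit 47498) (nat_lit 710507) (nat_lit 0) (nat_lit 0),Row.mk (nat_lit 20160) (nat_lit 45815) (nat_lit 1651718) (nat_lit 46563) (nat_lit 1795539) (nat_lit 0) (nat_lit 0),Row.mk (nat_lit 20328) (nat_lit 44693) (nat_lit 646322) (nat_lit 45628) (nat_lit 3659218) (nat_lit 0) (nat_lit 0),Row.mk (nat_lit 20496) (nat_lit 44506) (nat_lit 4254498) (nat_lit 45441) (nat_lit 1123018) (nat_lit 0) (nat_lit 0),Row.mk (nat_lit 20664) (nat_lit 43197) (nat_lit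 2553699) (nat_lit 44319) (nat_lit 4162689) (nat_lit 0) (nat_lit 0),Row.mk (nat_lit 20832) (nat_lit 43010) (nat_lit 7495049) (nat_lit 44132) (nat_lit 893558) (nat_lit 0) (nat_lit 0),Row.mk (nat_lit 21000) (nat_lit 41327) (nat_lit 3983619) (nat_lit 42823) (nat_lit 6493549) (nat_lit 0) (nat_lit 0),Row.mk (nat_lit 21168) (nat_lit 41140) (nat_lit 10352961) (nat_lit 42636) (nat_lit 2732769) (nat_lit 0) (nat_lit 0),Row.mk (nat_lit 21336) (nat_lit 38896) (nat_lit 2453430) (nat_lit 40953) (nat_lit 13890332) (nat_lit 0) (nat_lit 0),Row.mk (nat_lit 21504) (nat_lit 38709) (nat_lit 9780664) (nat_lit 40766) (nat_lit 10632301) (nat_lit 0) (nat_lit 0),Row.mk (nat_lit 21672) (nat_lit 38522) (nat_lit 18932203) (nat_lit 40579) (nat_lit 6563098) (nat_lit 0) (nat_lit 0),Row.mk (nat_lit 21840) (nat_lit 38335) (nat_lit 30362254) (nat_lit 40392) (nat_lit 1480762) (nat_lit 0) (nat_lit 0),Row.mk (nat_lit 22008) (nat_lit 31603) (nat_lit 6078706) (nat_lit 38148)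 (nat_lit 33692452) (nat_lit 0) (nat_lit 0),Row.mk (nat_lit 22176) (nat_lit 31416) (nat_lit 15980765) (nat_lit 37961) (nat_lit 33692452) (nat_lit 0) (nat_lit 0),Row.mk (nat_lit 22344) (nat_lit 31229) (nat_lit 28348198) (nat_lit 37774) (nat_lit 33692452) (nat_lit 0) (nat_lit 0),Row.mk (nat_lit 22512) (nat_lit 31042) (nat_lit 43794824) (nat_lit 37587) (nat_lit 33692452) (nat_lit 0) (nat_lit 0),Row.mk (nat_lit 22680) (nat_lit 30855) (nat_lit 63087287) (nat_lit 37400) (nat_lit 33692452) (nat_lit 0) (nat_lit 0),Row.mk (nat_lit 22848) (nat_lit 30668) (nat_lit 87183107) (nat_lit 37213) (nat_lit 33692452) (nat_lit 0) (nat_lit 0),Row.mk (nat_lit 23016) (nat_lit 30481) (nat_lit 117278206) (nat_lit 37026) (nat_lit 33692452) (nat_lit 0) (nat_lit 0),Row.mk (nat_lit 23184) (nat_lit 30294) (nat_lit 154866258) (nat_lit 36839) (nat_lit 33692452) (nat_lit 0) (nat_lit 0),Row.mk (nat_lit 23352) (nat_lit 30107) (nat_lit 201812828) (nat_lit 36652) (nat_lit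 33692452) (nat_lit 0) (nat_lit 0),Row.mk (nat_lit 23520) (nat_lit 29920) (nat_lit 260447962) (nat_lit 36465) (nat_lit 33692452) (nat_lit 0) (nat_lit 0),Row.mk (nat_lit 23688) (nat_lit 29733) (nat_lit 333681830) (nat_lit 36278) (nat_lit 33692452) (nat_lit 0) (nat_lit 0),Row.mk (nat_lit 23856) (nat_lit 29546) (nat_lit 425149164) (nat_lit 36091) (nat_lit 33692452) (nat_lit 0) (nat_lit 0),Row.mk (nat_lit 24024) (nat_lit 29359) (nat_lit 539389658) (nat_lit 35904) (nat_lit 33692452) (nat_lit 0) (nat_lit 0),Row.mk (nat_lit 24192) (nat_lit 29172) (nat_lit 682073279) (nat_lit 35717) (nat_lit 33692452) (nat_lit 0) (nat_lit 0),Row.mk (nat_lit 24360) (nat_lit 28985) (nat_lit 860281679) (nat_lit 35530) (nat_lit 33692452) (nat_lit 0) (nat_lit 0),Row.mk (nat_lit 24528) (nat_lit 28798) (nat_lit 1082859672) (nat_lit 35343) (nat_lit 33692452) (nat_lit 0) (nat_lit 0),Row.mk (nat_lit 24696) (nat_lit 28611) (nat_lit 1360854216) (nat_lit 35156) (nat_lit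 33692452) (nat_lit 0) (nat_lit 0),Row.mk (nat_lit 24864) (nat_lit 28424) (nat_lit 1708062695) (nat_lit 34969) (nat_lit 33692452) (nat_lit 0) (nat_lit 0),Row.mk (nat_lit 25032) (nat_lit 28237) (nat_lit 2141717710) (nat_lit 34782) (nat_lit 33692452) (nat_lit 0) (nat_lit 0),Row.mk (nat_lit 25200) (nat_lit 28050) (nat_lit 2683342361) (nat_lit 34595) (nat_lit 33692452) (nat_lit 0) (nat_lit 0),Row.mk (nat_lit 25368) (nat_lit 27863) (nat_lit 3359818485) (nat_lit 34408) (nat_lit 33692452) (nat_lit 0) (nat_lit 0),Row.mk (nat_lit 25536) (nat_lit 27676) (nat_lit 4204720844) (nat_lit 34221) (nat_lit 33692452) (nat_lit 0) (nat_lit 0),Row.mk (nat_lit 25704) (nat_lit 27489) (nat_lit 5259983508) (nat_lit 34034) (nat_lit 33692452) (nat_lit 0) (nat_lit 0),Row.mk (nat_lit 25872) (nat_lit 27302) (nat_lit 6577981119) (nat_lit 33847) (nat_lit 33692452) (nat_lit 0) (nat_lit 0),Row.mk (nat_lit 26040) (nat_lit 32912) (nat_lit 8388608) (nat_lit 62084) (nat_lit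 8249432185) (nat_lit 0) (nat_lit 0)],
[Row.mk (nat_lit 10752) (nat_lit 32912) (nat_lit 13) (nat_lit 61710) (nat_lit 8388594) (nat_lit 0) (nat_lit 0),Row.mk (nat_lit 10920) (nat_lit 32912) (nat_lit 16) (nat_lit 61710) (nat_lit 8388591) (nat_lit 0) (nat_lit 0),Row.mk (nat_lit 11088) (nat_lit 32912) (nat_lit 21) (nat_lit 61710) (nat_lit 8388586) (nat_lit 0) (nat_lit 0),Row.mk (nat_lit 11256) (nat_lit 32912) (nat_lit 26) (nat_lit 61710) (nat_lit 8388581) (nat_lit 0) (nat_lit 0),Row.mk (nat_lit 11424) (nat_lit 32912) (nat_lit 32) (nat_lit 61710) (nat_lit 8388575) (nat_lit 0) (nat_lit 0),Row.mk (nat_lit 11592) (nat_lit 32912) (nat_lit 41) (nat_lit 61710) (nat_lit 8388566) (nat_lit 0) (nat_lit 0),Row.mk (nat_lit 11760) (nat_lit 32912) (nat_lit 51) (nat_lit 61710) (nat_lit 8388556) (nat_lit 0) (nat_lit 0),Row.mk (nat_lit 11928) (nat_lit 32912) (nat_lit 64) (nat_lit 61710) (nat_lit 8388543) (nat_lit 0) (nat_lit 0),Row.mk (nat_lit 12096) (nat_lit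 32912) (nat_lit 79) (nat_lit 61710) (nat_lit 8388528) (nat_lit 0) (nat_lit 0),Row.mk (nat_lit 12264) (nat_lit 32912) (nat_lit 99) (nat_lit 61710) (nat_lit 8388508) (nat_lit 0) (nat_lit 0),Row.mk (nat_lit 12432) (nat_lit 32912) (nat_lit 124) (nat_lit 61710) (nat_lit 8388483) (nat_lit 0) (nat_lit 0),Row.mk (nat_lit 12600) (nat_lit 32912) (nat_lit 155) (nat_lit 61710) (nat_lit 8388452) (nat_lit 0) (nat_lit 0),Row.mk (nat_lit 12768) (nat_lit 32912) (nat_lit 194) (nat_lit 61710) (nat_lit 8388413) (nat_lit 0) (nat_lit 0),Row.mk (nat_lit 12936) (nat_lit 32912) (nat_lit 243) (nat_lit 61710) (nat_lit 8388364) (nat_lit 0) (nat_lit 0),Row.mk (nat_lit 13104) (nat_lit 32912) (nat_lit 303) (nat_lit 61710) (nat_lit 8388304) (nat_lit 0) (nat_lit 0),Row.mk (nat_lit 13272) (nat_lit 32912) (nat_lit 379) (nat_lit 61710) (nat_lit 8388228) (nat_lit 0) (nat_lit 0),Row.mk (nat_lit 13440) (nat_lit 32912) (nat_lit 473) (nat_lit 61710) (nat_lit 8388134) (nat_lit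 0) (nat_lit 0),Row.mk (nat_lit 13608) (nat_lit 32912) (nat_lit 591) (nat_lit 61710) (nat_lit 8388016) (nat_lit 0) (nat_lit 0),Row.mk (nat_lit 13776) (nat_lit 32912) (nat_lit 738) (nat_lit 61710) (nat_lit 8387869) (nat_lit 0) (nat_lit 0),Row.mk (nat_lit 13944) (nat_lit 32912) (nat_lit 922) (nat_lit 61710) (nat_lit 8387685) (nat_lit 0) (nat_lit 0),Row.mk (nat_lit 14112) (nat_lit 32912) (nat_lit 1152) (nat_lit 61710) (nat_lit 8387455) (nat_lit 0) (nat_lit 0),Row.mk (nat_lit 14280) (nat_lit 32912) (nat_lit 1439) (nat_lit 61710) (nat_lit 8387168) (nat_lit 0) (nat_lit 0),Row.mk (nat_lit 14448) (nat_lit 32912) (nat_lit 1797) (nat_lit 61710) (nat_lit 8386810) (nat_lit 0) (nat_lit 0),Row.mk (nat_lit 14616) (nat_lit 32912) (nat_lit 2244) (nat_lit 61710) (nat_lit 8386363) (nat_lit 0) (nat_lit 0),Row.mk (nat_lit 14784) (nat_lit 32912) (nat_lit 2803) (nat_lit 61710) (nat_lit 8385804) (nat_lit 0) (nat_lit 0),Row.mk (nat_lit 14952) (nat_lit 32912)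 (nat_lit 3501) (nat_lit 61710) (nat_lit 8385106) (nat_lit 0) (nat_lit 0),Row.mk (nat_lit 15120) (nat_lit 32912) (nat_lit 4373) (nat_lit 61710) (nat_lit 8384234) (nat_lit 0) (nat_lit 0),Row.mk (nat_lit 15288) (nat_lit 32912) (nat_lit 5462) (nat_lit 61710) (nat_lit 8383145) (nat_lit 0) (nat_lit 0),Row.mk (nat_lit 15456) (nat_lit 32912) (nat_lit 6822) (nat_lit 61710) (nat_lit 8381785) (nat_lit 0) (nat_lit 0),Row.mk (nat_lit 15624) (nat_lit 32912) (nat_lit 8521) (nat_lit 61710) (nat_lit 8380086) (nat_lit 0) (nat_lit 0),Row.mk (nat_lit 15792) (nat_lit 60962) (nat_lit 10588) (nat_lit 61336) (nat_lit 54) (nat_lit 0) (nat_lit 0),Row.mk (nat_lit 15960) (nat_lit 60401) (nat_lit 13208) (nat_lit 60775) (nat_lit 84) (nat_lit 0) (nat_lit 0),Row.mk (nat_lit 16128) (nat_lit 59840) (nat_lit 16470) (nat_lit 60214) (nat_lit 131) (nat_lit 0) (nat_lit 0),Row.mk (nat_lit 16296) (nat_lit 59279) (nat_lit 20530) (nat_lit 59653) (nat_lit 205) (nat_lit 0) (nat_lit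 0),Row.mk (nat_lit 16464) (nat_lit 58718) (nat_lit 25577) (nat_lit 59092) (nat_lit 321) (nat_lit 0) (nat_lit 0),Row.mk (nat_lit 16632) (nat_lit 58157) (nat_lit 31846) (nat_lit 58531) (nat_lit 500) (nat_lit 0) (nat_lit 0),Row.mk (nat_lit 16800) (nat_lit 57596) (nat_lit 39619) (nat_lit 57970) (nat_lit 781) (nat_lit 0) (nat_lit 0),Row.mk (nat_lit 16968) (nat_lit 57035) (nat_lit 49240) (nat_lit 57409) (nat_lit 1219) (nat_lit 0) (nat_lit 0),Row.mk (nat_lit 17136) (nat_lit 56474) (nat_lit 61121) (nat_lit 56848) (nat_lit 1901) (nat_lit 0) (nat_lit 0),Row.mk (nat_lit 17304) (nat_lit 55913) (nat_lit 75747) (nat_lit 56287) (nat_lit 2966) (nat_lit 0) (nat_lit 0),Row.mk (nat_lit 17472) (nat_lit 55352) (nat_lit 93684) (nat_lit 55726) (nat_lit 4627) (nat_lit 0) (nat_lit 0),Row.mk (nat_lit 17640) (nat_lit 54791) (nat_lit 115570) (nat_lit 55165) (nat_lit 7219) (nat_lit 0) (nat_lit 0),Row.mk (nat_lit 17808) (nat_lit 54230) (nat_lit 142100) (nat_lit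 54604) (nat_lit 11261) (nat_lit 0) (nat_lit 0),Row.mk (nat_lit 17976) (nat_lit 53669) (nat_lit 173978) (nat_lit 54043) (nat_lit 17566) (nat_lit 0) (nat_lit 0),Row.mk (nat_lit 18144) (nat_lit 53108) (nat_lit 211831) (nat_lit 53482) (nat_lit 27403) (nat_lit 0) (nat_lit 0),Row.mk (nat_lit 18312) (nat_lit 52547) (nat_lit 256051) (nat_lit 52921) (nat_lit 42747) (nat_lit 0) (nat_lit 0),Row.mk (nat_lit 18480) (nat_lit 51986) (nat_lit 306509) (nat_lit 52360) (nat_lit 66683) (nat_lit 0) (nat_lit 0),Row.mk (nat_lit 18648) (nat_lit 51425) (nat_lit 362086) (nat_lit 51799) (nat_lit 104022) (nat_lit 0) (nat_lit 0),Row.mk (nat_lit 18816) (nat_lit 50864) (nat_lit 419889) (nat_lit 51238) (nat_lit 162268) (nat_lit 0) (nat_lit 0),Row.mk (nat_lit 18984) (nat_lit 50303) (nat_lit 473972) (nat_lit 50677) (nat_lit 253129) (nat_lit 0) (nat_lit 0),Row.mk (nat_lit 19152) (nat_lit 49742) (nat_lit 513265) (nat_lit 50116) (nat_lit 394867) (nat_lit 0) (nat_lit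 0),Row.mk (nat_lit 19320) (nat_lit 49181) (nat_lit 518265) (nat_lit 49555) (nat_lit 615970) (nat_lit 0) (nat_lit 0),Row.mk (nat_lit 19488) (nat_lit 48620) (nat_lit 455756) (nat_lit 48994) (nat_lit 960877) (nat_lit 0) (nat_lit 0),Row.mk (nat_lit 19656) (nat_lit 47872) (nat_lit 270429) (nat_lit 48433) (nat_lit 1498911) (nat_lit 0) (nat_lit 0),Row.mk (nat_lit 19824) (nat_lit 47685) (nat_lit 2107101) (nat_lit 48246) (nat_lit 102763) (nat_lit 0) (nat_lit 0),Row.mk (nat_lit 19992) (nat_lit 46750) (nat_lit 2049560) (nat_lit 47498) (nat_lit 710507) (nat_lit 0) (nat_lit 0),Row.mk (nat_lit 20160) (nat_lit 45815) (nat_lit 1651718) (nat_lit 46563) (nat_lit 1795539) (nat_lit 0) (nat_lit 0),Row.mk (nat_lit 20328) (nat_lit 44693) (nat_lit 646322) (nat_lit 45628) (nat_lit 3659218) (nat_lit 0) (nat_lit 0),Row.mk (nat_lit 20496) (nat_lit 44506) (nat_lit 4254498) (nat_lit 45441) (nat_lit 1123018) (nat_lit 0) (nat_lit 0),Row.mk (nat_lit 20664) (nat_lit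 43197) (nat_lit 2553699) (nat_lit 44319) (nat_lit 4162689) (nat_lit 0) (nat_lit 0),Row.mk (nat_lit 20832) (nat_lit 43010) (nat_lit 7495049) (nat_lit 44132) (nat_lit 893558) (nat_lit 0) (nat_lit 0),Row.mk (nat_lit 21000) (nat_lit 41327) (nat_lit 3983619) (nat_lit 42823) (nat_lit 6493549) (nat_lit 0) (nat_lit 0),Row.mk (nat_lit 21168) (nat_lit 41140) (nat_lit 10352961) (nat_lit 42636) (nat_lit 2732769) (nat_lit 0) (nat_lit 0),Row.mk (nat_lit 21336) (nat_lit 38896) (nat_lit 2453430) (nat_lit 40953) (nat_lit 13890332) (nat_lit 0) (nat_lit 0),Row.mk (nat_lit 21504) (nat_lit 38709) (nat_lit 9780664) (nat_lit 40766) (nat_lit 10632301) (nat_lit 0) (nat_lit 0),Row.mk (nat_lit 21672) (nat_lit 38522) (nat_lit 18932203) (nat_lit 40579) (nat_lit 6563098) (nat_lit 0) (nat_lit 0),Row.mk (nat_lit 21840) (nat_lit 38335) (nat_lit 30362254) (nat_lit 40392) (nat_lit 1480762) (nat_lit 0) (nat_lit 0),Row.mk (nat_lit 22008) (nat_lit 31603) (nat_lit 6078706)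 (nat_lit 38148) (nat_lit 33692452) (nat_lit 0) (nat_lit 0),Row.mk (nat_lit 22176) (nat_lit 31416) (nat_lit 15980765) (nat_lit 37961) (nat_lit 33692452) (nat_lit 0) (nat_lit 0),Row.mk (nat_lit 22344) (nat_lit 31229) (nat_lit 28348198) (nat_lit 37774) (nat_lit 33692452) (nat_lit 0) (nat_lit 0),Row.mk (nat_lit 22512) (nat_lit 31042) (nat_lit 43794824) (nat_lit 37587) (nat_lit 33692452) (nat_lit 0) (nat_lit 0),Row.mk (nat_lit 22680) (nat_lit 30855) (nat_lit 63087287) (nat_lit 37400) (nat_lit 33692452) (nat_lit 0) (nat_lit 0),Row.mk (nat_lit 22848) (nat_lit 30668) (nat_lit 87183107) (nat_lit 37213) (nat_lit 33692452) (nat_lit 0) (nat_lit 0),Row.mk (nat_lit 23016) (nat_lit 30481) (nat_lit 117278206) (nat_lit 37026) (nat_lit 33692452) (nat_lit 0) (nat_lit 0),Row.mk (nat_lit 23184) (nat_lit 30294) (nat_lit 154866258) (nat_lit 36839) (nat_lit 33692452) (nat_lit 0) (nat_lit 0),Row.mk (nat_lit 23352) (nat_lit 30107) (nat_lit 201812828) (nat_lit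 36652) (nat_lit 33692452) (nat_lit 0) (nat_lit 0),Row.mk (nat_lit 23520) (nat_lit 29920) (nat_lit 260447962) (nat_lit 36465) (nat_lit 33692452) (nat_lit 0) (nat_lit 0),Row.mk (nat_lit 23688) (nat_lit 29733) (nat_lit 333681830) (nat_lit 36278) (nat_lit 33692452) (nat_lit 0) (nat_lit 0),Row.mk (nat_lit 23856) (nat_lit 29546) (nat_lit 425149164) (nat_lit 36091) (nat_lit 33692452) (nat_lit 0) (nat_lit 0),Row.mk (nat_lit 24024) (nat_lit 29359) (nat_lit 539389658) (nat_lit 35904) (nat_lit 33692452) (nat_lit 0) (nat_lit 0),Row.mk (nat_lit 24192) (nat_lit 29172) (nat_lit 682073279) (nat_lit 35717) (nat_lit 33692452) (nat_lit 0) (nat_lit 0),Row.mk (nat_lit 24360) (nat_lit 28985) (nat_lit 860281679) (nat_lit 35530) (nat_lit 33692452) (nat_lit 0) (nat_lit 0),Row.mk (nat_lit 24528) (nat_lit 28798) (nat_lit 1082859672) (nat_lit 35343) (nat_lit 33692452) (nat_lit 0) (nat_lit 0),Row.mk (nat_lit 24696) (nat_lit 28611) (nat_lit 1360854216) (nat_lit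 35156) (nat_lit 33692452) (nat_lit 0) (nat_lit 0),Row.mk (nat_lit 24864) (nat_lit 28424) (nat_lit 1708062695) (nat_lit 34969) (nat_lit 33692452) (nat_lit 0) (nat_lit 0),Row.mk (nat_lit 25032) (nat_lit 28237) (nat_lit 2141717710) (nat_lit 34782) (nat_lit 33692452) (nat_lit 0) (nat_lit 0),Row.mk (nat_lit 25200) (nat_lit 28050) (nat_lit 2683342361) (nat_lit 34595) (nat_lit 33692452) (nat_lit 0) (nat_lit 0),Row.mk (nat_lit 25368) (nat_lit 27863) (nat_lit 3359818485) (nat_lit 34408) (nat_lit 33692452) (nat_lit 0) (nat_lit 0),Row.mk (nat_lit 25536) (nat_lit 27676) (nat_lit 4204720844) (nat_lit 34221) (nat_lit 33692452) (nat_lit 0) (nat_lit 0),Row.mk (nat_lit 25704) (nat_lit 27489) (nat_lit 5259983508) (nat_lit 34034) (nat_lit 33692452) (nat_lit 0) (nat_lit 0),Row.mk (nat_lit 25872) (nat_lit 27302) (nat_lit 6577981119) (nat_lit 33847) (nat_lit 33692452) (nat_lit 0) (nat_lit 0),Row.mk (nat_lit 26040) (nat_lit 32912) (nat_lit 8388608) (nat_lit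 62084) (nat_lit 8249432185) (nat_lit 0) (nat_lit 0)],
[Row.mk (nat_lit 10752) (nat_lit 32912) (nat_lit 13) (nat_lit 61710) (nat_lit 8388594) (nat_lit 0) (nat_lit 0),Row.mk (nat_lit 10920) (nat_lit 32912) (nat_lit 16) (nat_lit 61710) (nat_lit 8388591) (nat_lit 0) (nat_lit 0),Row.mk (nat_lit 11088) (nat_lit 32912) (nat_lit 21) (nat_lit 61710) (nat_lit 8388586) (nat_lit 0) (nat_lit 0),Row.mk (nat_lit 11256) (nat_lit 32912) (nat_lit 26) (nat_lit 61710) (nat_lit 8388581) (nat_lit 0) (nat_lit 0),Row.mk (nat_lit 11424) (nat_lit 32912) (nat_lit 32) (nat_lit 61710) (nat_lit 8388575) (nat_lit 0) (nat_lit 0),Row.mk (nat_lit 11592) (nat_lit 32912) (nat_lit 41) (nat_lit 61710) (nat_lit 8388566) (nat_lit 0) (nat_lit 0),Row.mk (nat_lit 11760) (nat_lit 32912) (nat_lit 51) (nat_lit 61710) (nat_lit 8388556) (nat_lit 0) (nat_lit 0),Row.mk (nat_lit 11928) (nat_lit 32912) (nat_lit 64) (nat_lit 61710) (nat_lit 8388543) (nat_lit 0) (nat_lit 0),Row.mk (nat_lit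 12096) (nat_lit 32912) (nat_lit 79) (nat_lit 61710) (nat_lit 8388528) (nat_lit 0) (nat_lit 0),Row.mk (nat_lit 12264) (nat_lit 32912) (nat_lit 99) (nat_lit 61710) (nat_lit 8388508) (nat_lit 0) (nat_lit 0),Row.mk (nat_lit 12432) (nat_lit 32912) (nat_lit 124) (nat_lit 61710) (nat_lit 8388483) (nat_lit 0) (nat_lit 0),Row.mk (nat_lit 12600) (nat_lit 32912) (nat_lit 155) (nat_lit 61710) (nat_lit 8388452) (nat_lit 0) (nat_lit 0),Row.mk (nat_lit 12768) (nat_lit 32912) (nat_lit 194) (nat_lit 61710) (nat_lit 8388413) (nat_lit 0) (nat_lit 0),Row.mk (nat_lit 12936) (nat_lit 32912) (nat_lit 243) (nat_lit 61710) (nat_lit 8388364) (nat_lit 0) (nat_lit 0),Row.mk (nat_lit 13104) (nat_lit 32912) (nat_lit 303) (nat_lit 61710) (nat_lit 8388304) (nat_lit 0) (nat_lit 0),Row.mk (nat_lit 13272) (nat_lit 32912) (nat_lit 379) (nat_lit 61710) (nat_lit 8388228) (nat_lit 0) (nat_lit 0),Row.mk (nat_lit 13440) (nat_lit 32912) (nat_lit 473) (nat_lit 61710) (nat_lit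 8388134) (nat_lit 0) (nat_lit 0),Row.mk (nat_lit 13608) (nat_lit 32912) (nat_lit 591) (nat_lit 61710) (nat_lit 8388016) (nat_lit 0) (nat_lit 0),Row.mk (nat_lit 13776) (nat_lit 32912) (nat_lit 738) (nat_lit 61710) (nat_lit 8387869) (nat_lit 0) (nat_lit 0),Row.mk (nat_lit 13944) (nat_lit 32912) (nat_lit 922) (nat_lit 61710) (nat_lit 8387685) (nat_lit 0) (nat_lit 0),Row.mk (nat_lit 14112) (nat_lit 32912) (nat_lit 1152) (nat_lit 61710) (nat_lit 8387455) (nat_lit 0) (nat_lit 0),Row.mk (nat_lit 14280) (nat_lit 32912) (nat_lit 1439) (nat_lit 61710) (nat_lit 8387168) (nat_lit 0) (nat_lit 0),Row.mk (nat_lit 14448) (nat_lit 32912) (nat_lit 1797) (nat_lit 61710) (nat_lit 8386810) (nat_lit 0) (nat_lit 0),Row.mk (nat_lit 14616) (nat_lit 32912) (nat_lit 2244) (nat_lit 61710) (nat_lit 8386363) (nat_lit 0) (nat_lit 0),Row.mk (nat_lit 14784) (nat_lit 32912) (nat_lit 2803) (nat_lit 61710) (nat_lit 8385804) (nat_lit 0) (nat_lit 0),Row.mk (nat_lit 14952)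 (nat_lit 32912) (nat_lit 3501) (nat_lit 61710) (nat_lit 8385106) (nat_lit 0) (nat_lit 0),Row.mk (nat_lit 15120) (nat_lit 32912) (nat_lit 4373) (nat_lit 61710) (nat_lit 8384234) (nat_lit 0) (nat_lit 0),Row.mk (nat_lit 15288) (nat_lit 32912) (nat_lit 5462) (nat_lit 61710) (nat_lit 8383145) (nat_lit 0) (nat_lit 0),Row.mk (nat_lit 15456) (nat_lit 32912) (nat_lit 6822) (nat_lit 61710) (nat_lit 8381785) (nat_lit 0) (nat_lit 0),Row.mk (nat_lit 15624) (nat_lit 32912) (nat_lit 8521) (nat_lit 61710) (nat_lit 8380086) (nat_lit 0) (nat_lit 0),Row.mk (nat_lit 15792) (nat_lit 60962) (nat_lit 10588) (nat_lit 61336) (nat_lit 54) (nat_lit 0) (nat_lit 0),Row.mk (nat_lit 15960) (nat_lit 60401) (nat_lit 13208) (nat_lit 60775) (nat_lit 84) (nat_lit 0) (nat_lit 0),Row.mk (nat_lit 16128) (nat_lit 59840) (nat_lit 16470) (nat_lit 60214) (nat_lit 131) (nat_lit 0) (nat_lit 0),Row.mk (nat_lit 16296) (nat_lit 59279) (nat_lit 20530) (nat_lit 59653) (nat_lit 205)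 (nat_lit 0) (nat_lit 0),Row.mk (nat_lit 16464) (nat_lit 58718) (nat_lit 25577) (nat_lit 59092) (nat_lit 321) (nat_lit 0) (nat_lit 0),Row.mk (nat_lit 16632) (nat_lit 58157) (nat_lit 31846) (nat_lit 58531) (nat_lit 500) (nat_lit 0) (nat_lit 0),Row.mk (nat_lit 16800) (nat_lit 57596) (nat_lit 39619) (nat_lit 57970) (nat_lit 781) (nat_lit 0) (nat_lit 0),Row.mk (nat_lit 16968) (nat_lit 57035) (nat_lit 49240) (nat_lit 57409) (nat_lit 1219) (nat_lit 0) (nat_lit 0),Row.mk (nat_lit 17136) (nat_lit 56474) (nat_lit 61121) (nat_lit 56848) (nat_lit 1901) (nat_lit 0) (nat_lit 0),Row.mk (nat_lit 17304) (nat_lit 55913) (nat_lit 75747) (nat_lit 56287) (nat_lit 2966) (nat_lit 0) (nat_lit 0),Row.mk (nat_lit 17472) (nat_lit 55352) (nat_lit 93684) (nat_lit 55726) (nat_lit 4627) (nat_lit 0) (nat_lit 0),Row.mk (nat_lit 17640) (nat_lit 54791) (nat_lit 115570) (nat_lit 55165) (nat_lit 7219) (nat_lit 0) (nat_lit 0),Row.mk (nat_lit 17808) (nat_lit 54230) (nat_lit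 142100) (nat_lit 54604) (nat_lit 11261) (nat_lit 0) (nat_lit 0),Row.mk (nat_lit 17976) (nat_lit 53669) (nat_lit 173978) (nat_lit 54043) (nat_lit 17566) (nat_lit 0) (nat_lit 0),Row.mk (nat_lit 18144) (nat_lit 53108) (nat_lit 211831) (nat_lit 53482) (nat_lit 27403) (nat_lit 0) (nat_lit 0),Row.mk (nat_lit 18312) (nat_lit 52547) (nat_lit 256051) (nat_lit 52921) (nat_lit 42747) (nat_lit 0) (nat_lit 0),Row.mk (nat_lit 18480) (nat_lit 51986) (nat_lit 306509) (nat_lit 52360) (nat_lit 66683) (nat_lit 0) (nat_lit 0),Row.mk (nat_lit 18648) (nat_lit 51425) (nat_lit 362086) (nat_lit 51799) (nat_lit 104022) (nat_lit 0) (nat_lit 0),Row.mk (nat_lit 18816) (nat_lit 50864) (nat_lit 419889) (nat_lit 51238) (nat_lit 162268) (nat_lit 0) (nat_lit 0),Row.mk (nat_lit 18984) (nat_lit 50303) (nat_lit 473972) (nat_lit 50677) (nat_lit 253129) (nat_lit 0) (nat_lit 0),Row.mk (nat_lit 19152) (nat_lit 49742) (nat_lit 513265) (nat_lit 50116) (nat_lit 394867) (nat_lit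 0) (nat_lit 0),Row.mk (nat_lit 19320) (nat_lit 49181) (nat_lit 518265) (nat_lit 49555) (nat_lit 615970) (nat_lit 0) (nat_lit 0),Row.mk (nat_lit 19488) (nat_lit 48620) (nat_lit 455756) (nat_lit 48994) (nat_lit 960877) (nat_lit 0) (nat_lit 0),Row.mk (nat_lit 19656) (nat_lit 47872) (nat_lit 270429) (nat_lit 48433) (nat_lit 1498911) (nat_lit 0) (nat_lit 0),Row.mk (nat_lit 19824) (nat_lit 47685) (nat_lit 2107101) (nat_lit 48246) (nat_lit 102763) (nat_lit 0) (nat_lit 0),Row.mk (nat_lit 19992) (nat_lit 46750) (nat_lit 2049560) (nat_lit 47498) (nat_lit 710507) (nat_lit 0) (nat_lit 0),Row.mk (nat_lit 20160) (nat_lit 45815) (nat_lit 1651718) (nat_lit 46563) (nat_lit 1795539) (nat_lit 0) (nat_lit 0),Row.mk (nat_lit 20328) (nat_lit 44693) (nat_lit 646322) (nat_lit 45628) (nat_lit 3659218) (nat_lit 0) (nat_lit 0),Row.mk (nat_lit 20496) (nat_lit 44506) (nat_lit 4254498) (nat_lit 45441) (nat_lit 1123018) (nat_lit 0) (nat_lit 0),Row.mk (nat_lit 20664)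 (nat_lit 43197) (nat_lit 2553699) (nat_lit 44319) (nat_lit 4162689) (nat_lit 0) (nat_lit 0),Row.mk (nat_lit 20832) (nat_lit 43010) (nat_lit 7495049) (nat_lit 44132) (nat_lit 893558) (nat_lit 0) (nat_lit 0),Row.mk (nat_lit 21000) (nat_lit 41327) (nat_lit 3983619) (nat_lit 42823) (nat_lit 6493549) (nat_lit 0) (nat_lit 0),Row.mk (nat_lit 21168) (nat_lit 41140) (nat_lit 10352961) (nat_lit 42636) (nat_lit 2732769) (nat_lit 0) (nat_lit 0),Row.mk (nat_lit 21336) (nat_lit 38896) (nat_lit 2453430) (nat_lit 40953) (nat_lit 13890332) (nat_lit 0) (nat_lit 0),Row.mk (nat_lit 21504) (nat_lit 38709) (nat_lit 9780664) (nat_lit 40766) (nat_lit 10632301) (nat_lit 0) (nat_lit 0),Row.mk (nat_lit 21672) (nat_lit 38522) (nat_lit 18932203) (nat_lit 40579) (nat_lit 6563098) (nat_lit 0) (nat_lit 0),Row.mk (nat_lit 21840) (nat_lit 38335) (nat_lit 30362254) (nat_lit 40392) (nat_lit 1480762) (nat_lit 0) (nat_lit 0),Row.mk (nat_lit 22008) (nat_lit 31603) (nat_lit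 6078706) (nat_lit 38148) (nat_lit 33692452) (nat_lit 0) (nat_lit 0),Row.mk (nat_lit 22176) (nat_lit 31416) (nat_lit 15980765) (nat_lit 37961) (nat_lit 33692452) (nat_lit 0) (nat_lit 0),Row.mk (nat_lit 22344) (nat_lit 31229) (nat_lit 28348198) (nat_lit 37774) (nat_lit 33692452) (nat_lit 0) (nat_lit 0),Row.mk (nat_lit 22512) (nat_lit 31042) (nat_lit 43794824) (nat_lit 37587) (nat_lit 33692452) (nat_lit 0) (nat_lit 0),Row.mk (nat_lit 22680) (nat_lit 30855) (nat_lit 63087287) (nat_lit 37400) (nat_lit 33692452) (nat_lit 0) (nat_lit 0),Row.mk (nat_lit 22848) (nat_lit 30668) (nat_lit 87183107) (nat_lit 37213) (nat_lit 33692452) (nat_lit 0) (nat_lit 0),Row.mk (nat_lit 23016) (nat_lit 30481) (nat_lit 117278206) (nat_lit 37026) (nat_lit 33692452) (nat_lit 0) (nat_lit 0),Row.mk (nat_lit 23184) (nat_lit 30294) (nat_lit 154866258) (nat_lit 36839) (nat_lit 33692452) (nat_lit 0) (nat_lit 0),Row.mk (nat_lit 23352) (nat_lit 30107) (nat_lit 201812828)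 (nat_lit 36652) (nat_lit 33692452) (nat_lit 0) (nat_lit 0),Row.mk (nat_lit 23520) (nat_lit 29920) (nat_lit 260447962) (nat_lit 36465) (nat_lit 33692452) (nat_lit 0) (nat_lit 0),Row.mk (nat_lit 23688) (nat_lit 29733) (nat_lit 333681830) (nat_lit 36278) (nat_lit 33692452) (nat_lit 0) (nat_lit 0),Row.mk (nat_lit 23856) (nat_lit 29546) (nat_lit 425149164) (nat_lit 36091) (nat_lit 33692452) (nat_lit 0) (nat_lit 0),Row.mk (nat_lit 24024) (nat_lit 29359) (nat_lit 539389658) (nat_lit 35904) (nat_lit 33692452) (nat_lit 0) (nat_lit 0),Row.mk (nat_lit 24192) (nat_lit 29172) (nat_lit 682073279) (nat_lit 35717) (nat_lit 33692452) (nat_lit 0) (nat_lit 0),Row.mk (nat_lit 24360) (nat_lit 28985) (nat_lit 860281679) (nat_lit 35530) (nat_lit 33692452) (nat_lit 0) (nat_lit 0),Row.mk (nat_lit 24528) (nat_lit 28798) (nat_lit 1082859672) (nat_lit 35343) (nat_lit 33692452) (nat_lit 0) (nat_lit 0),Row.mk (nat_lit 24696) (nat_lit 28611) (nat_lit 1360854216)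 (nat_lit 35156) (nat_lit 33692452) (nat_lit 0) (nat_lit 0),Row.mk (nat_lit 24864) (nat_lit 28424) (nat_lit 1708062695) (nat_lit 34969) (nat_lit 33692452) (nat_lit 0) (nat_lit 0),Row.mk (nat_lit 25032) (nat_lit 28237) (nat_lit 2141717710) (nat_lit 34782) (nat_lit 33692452) (nat_lit 0) (nat_lit 0),Row.mk (nat_lit 25200) (nat_lit 28050) (nat_lit 2683342361) (nat_lit 34595) (nat_lit 33692452) (nat_lit 0) (nat_lit 0),Row.mk (nat_lit 25368) (nat_lit 27863) (nat_lit 3359818485) (nat_lit 34408) (nat_lit 33692452) (nat_lit 0) (nat_lit 0),Row.mk (nat_lit 25536) (nat_lit 27676) (nat_lit 4204720844) (nat_lit 34221) (nat_lit 33692452) (nat_lit 0) (nat_lit 0),Row.mk (nat_lit 25704) (nat_lit 27489) (nat_lit 5259983508) (nat_lit 34034) (nat_lit 33692452) (nat_lit 0) (nat_lit 0),Row.mk (nat_lit 25872) (nat_lit 27302) (nat_lit 6577981119) (nat_lit 33847) (nat_lit 33692452) (nat_lit 0) (nat_lit 0),Row.mk (nat_lit 26040) (nat_lit 32912) (nat_lit 8388608)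 (nat_lit 62084) (nat_lit 8249432185) (nat_lit 0) (nat_lit 0)],
[Row.mk (nat_lit 10752) (nat_lit 32912) (nat_lit 13) (nat_lit 61710) (nat_lit 8388594) (nat_lit 0) (nat_lit 0),Row.mk (nat_lit 10920) (nat_lit 32912) (nat_lit 16) (nat_lit 61710) (nat_lit 8388591) (nat_lit 0) (nat_lit 0),Row.mk (nat_lit 11088) (nat_lit 32912) (nat_lit 21) (nat_lit 61710) (nat_lit 8388586) (nat_lit 0) (nat_lit 0),Row.mk (nat_lit 11256) (nat_lit 32912) (nat_lit 26) (nat_lit 61710) (nat_lit 8388581) (nat_lit 0) (nat_lit 0),Row.mk (nat_lit 11424) (nat_lit 32912) (nat_lit 32) (nat_lit 61710) (nat_lit 8388575) (nat_lit 0) (nat_lit 0),Row.mk (nat_lit 11592) (nat_lit 32912) (nat_lit 41) (nat_lit 61710) (nat_lit 8388566) (nat_lit 0) (nat_lit 0),Row.mk (nat_lit 11760) (nat_lit 32912) (nat_lit 51) (nat_lit 61710) (nat_lit 8388556) (nat_lit 0) (nat_lit 0),Row.mk (nat_lit 11928) (nat_lit 32912) (nat_lit 64) (nat_lit 61710) (nat_lit 8388543) (nat_lit 0) (nat_lit 0),Row.mk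 (nat_lit 12096) (nat_lit 32912) (nat_lit 79) (nat_lit 61710) (nat_lit 8388528) (nat_lit 0) (nat_lit 0),Row.mk (nat_lit 12264) (nat_lit 32912) (nat_lit 99) (nat_lit 61710) (nat_lit 8388508) (nat_lit 0) (nat_lit 0),Row.mk (nat_lit 12432) (nat_lit 32912) (nat_lit 124) (nat_lit 61710) (nat_lit 8388483) (nat_lit 0) (nat_lit 0),Row.mk (nat_lit 12600) (nat_lit 32912) (nat_lit 155) (nat_lit 61710) (nat_lit 8388452) (nat_lit 0) (nat_lit 0),Row.mk (nat_lit 12768) (nat_lit 32912) (nat_lit 194) (nat_lit 61710) (nat_lit 8388413) (nat_lit 0) (nat_lit 0),Row.mk (nat_lit 12936) (nat_lit 32912) (nat_lit 243) (nat_lit 61710) (nat_lit 8388364) (nat_lit 0) (nat_lit 0),Row.mk (nat_lit 13104) (nat_lit 32912) (nat_lit 303) (nat_lit 61710) (nat_lit 8388304) (nat_lit 0) (nat_lit 0),Row.mk (nat_lit 13272) (nat_lit 32912) (nat_lit 379) (nat_lit 61710) (nat_lit 8388228) (nat_lit 0) (nat_lit 0),Row.mk (nat_lit 13440) (nat_lit 32912) (nat_lit 473) (nat_lit 61710)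 (nat_lit 8388134) (nat_lit 0) (nat_lit 0),Row.mk (nat_lit 13608) (nat_lit 32912) (nat_lit 591) (nat_lit 61710) (nat_lit 8388016) (nat_lit 0) (nat_lit 0),Row.mk (nat_lit 13776) (nat_lit 32912) (nat_lit 738) (nat_lit 61710) (nat_lit 8387869) (nat_lit 0) (nat_lit 0),Row.mk (nat_lit 13944) (nat_lit 32912) (nat_lit 922) (nat_lit 61710) (nat_lit 8387685) (nat_lit 0) (nat_lit 0),Row.mk (nat_lit 14112) (nat_lit 32912) (nat_lit 1152) (nat_lit 61710) (nat_lit 8387455) (nat_lit 0) (nat_lit 0),Row.mk (nat_lit 14280) (nat_lit 32912) (nat_lit 1439) (nat_lit 61710) (nat_lit 8387168) (nat_lit 0) (nat_lit 0),Row.mk (nat_lit 14448) (nat_lit 32912) (nat_lit 1797) (nat_lit 61710) (nat_lit 8386810) (nat_lit 0) (nat_lit 0),Row.mk (nat_lit 14616) (nat_lit 32912) (nat_lit 2244) (nat_lit 61710) (nat_lit 8386363) (nat_lit 0) (nat_lit 0),Row.mk (nat_lit 14784) (nat_lit 32912) (nat_lit 2803) (nat_lit 61710) (nat_lit 8385804) (nat_lit 0) (nat_lit 0),Row.mk (nat_lit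 14952) (nat_lit 32912) (nat_lit 3501) (nat_lit 61710) (nat_lit 8385106) (nat_lit 0) (nat_lit 0),Row.mk (nat_lit 15120) (nat_lit 32912) (nat_lit 4373) (nat_lit 61710) (nat_lit 8384234) (nat_lit 0) (nat_lit 0),Row.mk (nat_lit 15288) (nat_lit 32912) (nat_lit 5462) (nat_lit 61710) (nat_lit 8383145) (nat_lit 0) (nat_lit 0),Row.mk (nat_lit 15456) (nat_lit 32912) (nat_lit 6822) (nat_lit 61710) (nat_lit 8381785) (nat_lit 0) (nat_lit 0),Row.mk (nat_lit 15624) (nat_lit 32912) (nat_lit 8521) (nat_lit 61710) (nat_lit 8380086) (nat_lit 0) (nat_lit 0),Row.mk (nat_lit 15792) (nat_lit 60962) (nat_lit 10588) (nat_lit 61336) (nat_lit 54) (nat_lit 0) (nat_lit 0),Row.mk (nat_lit 15960) (nat_lit 60401) (nat_lit 13208) (nat_lit 60775) (nat_lit 84) (nat_lit 0) (nat_lit 0),Row.mk (nat_lit 16128) (nat_lit 59840) (nat_lit 16470) (nat_lit 60214) (nat_lit 131) (nat_lit 0) (nat_lit 0),Row.mk (nat_lit 16296) (nat_lit 59279) (nat_lit 20530) (nat_lit 59653) (nat_lit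 205) (nat_lit 0) (nat_lit 0),Row.mk (nat_lit 16464) (nat_lit 58718) (nat_lit 25577) (nat_lit 59092) (nat_lit 321) (nat_lit 0) (nat_lit 0),Row.mk (nat_lit 16632) (nat_lit 58157) (nat_lit 31846) (nat_lit 58531) (nat_lit 500) (nat_lit 0) (nat_lit 0),Row.mk (nat_lit 16800) (nat_lit 57596) (nat_lit 39619) (nat_lit 57970) (nat_lit 781) (nat_lit 0) (nat_lit 0),Row.mk (nat_lit 16968) (nat_lit 57035) (nat_lit 49240) (nat_lit 57409) (nat_lit 1219) (nat_lit 0) (nat_lit 0),Row.mk (nat_lit 17136) (nat_lit 56474) (nat_lit 61121) (nat_lit 56848) (nat_lit 1901) (nat_lit 0) (nat_lit 0),Row.mk (nat_lit 17304) (nat_lit 55913) (nat_lit 75747) (nat_lit 56287) (nat_lit 2966) (nat_lit 0) (nat_lit 0),Row.mk (nat_lit 17472) (nat_lit 55352) (nat_lit 93684) (nat_lit 55726) (nat_lit 4627) (nat_lit 0) (nat_lit 0),Row.mk (nat_lit 17640) (nat_lit 54791) (nat_lit 115570) (nat_lit 55165) (nat_lit 7219) (nat_lit 0) (nat_lit 0),Row.mk (nat_lit 17808) (nat_lit 54230)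 (nat_lit 142100) (nat_lit 54604) (nat_lit 11261) (nat_lit 0) (nat_lit 0),Row.mk (nat_lit 17976) (nat_lit 53669) (nat_lit 173978) (nat_lit 54043) (nat_lit 17566) (nat_lit 0) (nat_lit 0),Row.mk (nat_lit 18144) (nat_lit 53108) (nat_lit 211831) (nat_lit 53482) (nat_lit 27403) (nat_lit 0) (nat_lit 0),Row.mk (nat_lit 18312) (nat_lit 52547) (nat_lit 256051) (nat_lit 52921) (nat_lit 42747) (nat_lit 0) (nat_lit 0),Row.mk (nat_lit 18480) (nat_lit 51986) (nat_lit 306509) (nat_lit 52360) (nat_lit 66683) (nat_lit 0) (nat_lit 0),Row.mk (nat_lit 18648) (nat_lit 51425) (nat_lit 362086) (nat_lit 51799) (nat_lit 104022) (nat_lit 0) (nat_lit 0),Row.mk (nat_lit 18816) (nat_lit 50864) (nat_lit 419889) (nat_lit 51238) (nat_lit 162268) (nat_lit 0) (nat_lit 0),Row.mk (nat_lit 18984) (nat_lit 50303) (nat_lit 473972) (nat_lit 50677) (nat_lit 253129) (nat_lit 0) (nat_lit 0),Row.mk (nat_lit 19152) (nat_lit 49742) (nat_lit 513265) (nat_lit 50116) (nat_lit 394867)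 (nat_lit 0) (nat_lit 0),Row.mk (nat_lit 19320) (nat_lit 49181) (nat_lit 518265) (nat_lit 49555) (nat_lit 615970) (nat_lit 0) (nat_lit 0),Row.mk (nat_lit 19488) (nat_lit 48620) (nat_lit 455756) (nat_lit 48994) (nat_lit 960877) (nat_lit 0) (nat_lit 0),Row.mk (nat_lit 19656) (nat_lit 47872) (nat_lit 270429) (nat_lit 48433) (nat_lit 1498911) (nat_lit 0) (nat_lit 0),Row.mk (nat_lit 19824) (nat_lit 47685) (nat_lit 2107101) (nat_lit 48246) (nat_lit 102763) (nat_lit 0) (nat_lit 0),Row.mk (nat_lit 19992) (nat_lit 46750) (nat_lit 2049560) (nat_lit 47498) (nat_lit 710507) (nat_lit 0) (nat_lit 0),Row.mk (nat_lit 20160) (nat_lit 45815) (nat_lit 1651718) (nat_lit 46563) (nat_lit 1795539) (nat_lit 0) (nat_lit 0),Row.mk (nat_lit 20328) (nat_lit 44693) (nat_lit 646322) (nat_lit 45628) (nat_lit 3659218) (nat_lit 0) (nat_lit 0),Row.mk (nat_lit 20496) (nat_lit 44506) (nat_lit 4254498) (nat_lit 45441) (nat_lit 1123018) (nat_lit 0) (nat_lit 0),Row.mk (nat_lit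 20664) (nat_lit 43197) (nat_lit 2553699) (nat_lit 44319) (nat_lit 4162689) (nat_lit 0) (nat_lit 0),Row.mk (nat_lit 20832) (nat_lit 43010) (nat_lit 7495049) (nat_lit 44132) (nat_lit 893558) (nat_lit 0) (nat_lit 0),Row.mk (nat_lit 21000) (nat_lit 41327) (nat_lit 3983619) (nat_lit 42823) (nat_lit 6493549) (nat_lit 0) (nat_lit 0),Row.mk (nat_lit 21168) (nat_lit 41140) (nat_lit 10352961) (nat_lit 42636) (nat_lit 2732769) (nat_lit 0) (nat_lit 0),Row.mk (nat_lit 21336) (nat_lit 38896) (nat_lit 2453430) (nat_lit 40953) (nat_lit 13890332) (nat_lit 0) (nat_lit 0),Row.mk (nat_lit 21504) (nat_lit 38709) (nat_lit 9780664) (nat_lit 40766) (nat_lit 10632301) (nat_lit 0) (nat_lit 0),Row.mk (nat_lit 21672) (nat_lit 38522) (nat_lit 18932203) (nat_lit 40579) (nat_lit 6563098) (nat_lit 0) (nat_lit 0),Row.mk (nat_lit 21840) (nat_lit 38335) (nat_lit 30362254) (nat_lit 40392) (nat_lit 1480762) (nat_lit 0) (nat_lit 0),Row.mk (nat_lit 22008) (nat_lit 31603)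 (nat_lit 6078706) (nat_lit 38148) (nat_lit 33692452) (nat_lit 0) (nat_lit 0),Row.mk (nat_lit 22176) (nat_lit 31416) (nat_lit 15980765) (nat_lit 37961) (nat_lit 33692452) (nat_lit 0) (nat_lit 0),Row.mk (nat_lit 22344) (nat_lit 31229) (nat_lit 28348198) (nat_lit 37774) (nat_lit 33692452) (nat_lit 0) (nat_lit 0),Row.mk (nat_lit 22512) (nat_lit 31042) (nat_lit 43794824) (nat_lit 37587) (nat_lit 33692452) (nat_lit 0) (nat_lit 0),Row.mk (nat_lit 22680) (nat_lit 30855) (nat_lit 63087287) (nat_lit 37400) (nat_lit 33692452) (nat_lit 0) (nat_lit 0),Row.mk (nat_lit 22848) (nat_lit 30668) (nat_lit 87183107) (nat_lit 37213) (nat_lit 33692452) (nat_lit 0) (nat_lit 0),Row.mk (nat_lit 23016) (nat_lit 30481) (nat_lit 117278206) (nat_lit 37026) (nat_lit 33692452) (nat_lit 0) (nat_lit 0),Row.mk (nat_lit 23184) (nat_lit 30294) (nat_lit 154866258) (nat_lit 36839) (nat_lit 33692452) (nat_lit 0) (nat_lit 0),Row.mk (nat_lit 23352) (nat_lit 30107) (nat_lit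 201812828) (nat_lit 36652) (nat_lit 33692452) (nat_lit 0) (nat_lit 0),Row.mk (nat_lit 23520) (nat_lit 29920) (nat_lit 260447962) (nat_lit 36465) (nat_lit 33692452) (nat_lit 0) (nat_lit 0),Row.mk (nat_lit 23688) (nat_lit 29733) (nat_lit 333681830) (nat_lit 36278) (nat_lit 33692452) (nat_lit 0) (nat_lit 0),Row.mk (nat_lit 23856) (nat_lit 29546) (nat_lit 425149164) (nat_lit 36091) (nat_lit 33692452) (nat_lit 0) (nat_lit 0),Row.mk (nat_lit 24024) (nat_lit 29359) (nat_lit 539389658) (nat_lit 35904) (nat_lit 33692452) (nat_lit 0) (nat_lit 0),Row.mk (nat_lit 24192) (nat_lit 29172) (nat_lit 682073279) (nat_lit 35717) (nat_lit 33692452) (nat_lit 0) (nat_lit 0),Row.mk (nat_lit 24360) (nat_lit 28985) (nat_lit 860281679) (nat_lit 35530) (nat_lit 33692452) (nat_lit 0) (nat_lit 0),Row.mk (nat_lit 24528) (nat_lit 28798) (nat_lit 1082859672) (nat_lit 35343) (nat_lit 33692452) (nat_lit 0) (nat_lit 0),Row.mk (nat_lit 24696) (nat_lit 28611) (nat_lit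 1360854216) (nat_lit 35156) (nat_lit 33692452) (nat_lit 0) (nat_lit 0),Row.mk (nat_lit 24864) (nat_lit 28424) (nat_lit 1708062695) (nat_lit 34969) (nat_lit 33692452) (nat_lit 0) (nat_lit 0),Row.mk (nat_lit 25032) (nat_lit 28237) (nat_lit 2141717710) (nat_lit 34782) (nat_lit 33692452) (nat_lit 0) (nat_lit 0),Row.mk (nat_lit 25200) (nat_lit 28050) (nat_lit 2683342361) (nat_lit 34595) (nat_lit 33692452) (nat_lit 0) (nat_lit 0),Row.mk (nat_lit 25368) (nat_lit 27863) (nat_lit 3359818485) (nat_lit 34408) (nat_lit 33692452) (nat_lit 0) (nat_lit 0),Row.mk (nat_lit 25536) (nat_lit 27676) (nat_lit 4204720844) (nat_lit 34221) (nat_lit 33692452) (nat_lit 0) (nat_lit 0),Row.mk (nat_lit 25704) (nat_lit 27489) (nat_lit 5259983508) (nat_lit 34034) (nat_lit 33692452) (nat_lit 0) (nat_lit 0),Row.mk (nat_lit 25872) (nat_lit 27302) (nat_lit 6577981119) (nat_lit 33847) (nat_lit 33692452) (nat_lit 0) (nat_lit 0),Row.mk (nat_lit 26040) (nat_lit 32912) (nat_lit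 8388608) (nat_lit 62084) (nat_lit 8249432185) (nat_lit 0) (nat_lit 0)],
[Row.mk (nat_lit 10752) (nat_lit 32912) (nat_lit 13) (nat_lit 61710) (nat_lit 8388594) (nat_lit 0) (nat_lit 0),Row.mk (nat_lit 10920) (nat_lit 32912) (nat_lit 16) (nat_lit 61710) (nat_lit 8388591) (nat_lit 0) (nat_lit 0),Row.mk (nat_lit 11088) (nat_lit 32912) (nat_lit 21) (nat_lit 61710) (nat_lit 8388586) (nat_lit 0) (nat_lit 0),Row.mk (nat_lit 11256) (nat_lit 32912) (nat_lit 26) (nat_lit 61710) (nat_lit 8388581) (nat_lit 0) (nat_lit 0),Row.mk (nat_lit 11424) (nat_lit 32912) (nat_lit 32) (nat_lit 61710) (nat_lit 8388575) (nat_lit 0) (nat_lit 0),Row.mk (nat_lit 11592) (nat_lit 32912) (nat_lit 41) (nat_lit 61710) (nat_lit 8388566) (nat_lit 0) (nat_lit 0),Row.mk (nat_lit 11760) (nat_lit 32912) (nat_lit 51) (nat_lit 61710) (nat_lit 8388556) (nat_lit 0) (nat_lit 0),Row.mk (nat_lit 11928) (nat_lit 32912) (nat_lit 64) (nat_lit 61710) (nat_lit 8388543) (nat_lit 0) (nat_lit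 0),Row.mk (nat_lit 12096) (nat_lit 32912) (nat_lit 79) (nat_lit 61710) (nat_lit 8388528) (nat_lit 0) (nat_lit 0),Row.mk (nat_lit 12264) (nat_lit 32912) (nat_lit 99) (nat_lit 61710) (nat_lit 8388508) (nat_lit 0) (nat_lit 0),Row.mk (nat_lit 12432) (nat_lit 32912) (nat_lit 124) (nat_lit 61710) (nat_lit 8388483) (nat_lit 0) (nat_lit 0),Row.mk (nat_lit 12600) (nat_lit 32912) (nat_lit 155) (nat_lit 61710) (nat_lit 8388452) (nat_lit 0) (nat_lit 0),Row.mk (nat_lit 12768) (nat_lit 32912) (nat_lit 194) (nat_lit 61710) (nat_lit 8388413) (nat_lit 0) (nat_lit 0),Row.mk (nat_lit 12936) (nat_lit 32912) (nat_lit 243) (nat_lit 61710) (nat_lit 8388364) (nat_lit 0) (nat_lit 0),Row.mk (nat_lit 13104) (nat_lit 32912) (nat_lit 303) (nat_lit 61710) (nat_lit 8388304) (nat_lit 0) (nat_lit 0),Row.mk (nat_lit 13272) (nat_lit 32912) (nat_lit 379) (nat_lit 61710) (nat_lit 8388228) (nat_lit 0) (nat_lit 0),Row.mk (nat_lit 13440) (nat_lit 32912) (nat_lit 473) (nat_lit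 61710) (nat_lit 8388134) (nat_lit 0) (nat_lit 0),Row.mk (nat_lit 13608) (nat_lit 32912) (nat_lit 591) (nat_lit 61710) (nat_lit 8388016) (nat_lit 0) (nat_lit 0),Row.mk (nat_lit 13776) (nat_lit 32912) (nat_lit 738) (nat_lit 61710) (nat_lit 8387869) (nat_lit 0) (nat_lit 0),Row.mk (nat_lit 13944) (nat_lit 32912) (nat_lit 922) (nat_lit 61710) (nat_lit 8387685) (nat_lit 0) (nat_lit 0),Row.mk (nat_lit 14112) (nat_lit 32912) (nat_lit 1152) (nat_lit 61710) (nat_lit 8387455) (nat_lit 0) (nat_lit 0),Row.mk (nat_lit 14280) (nat_lit 32912) (nat_lit 1439) (nat_lit 61710) (nat_lit 8387168) (nat_lit 0) (nat_lit 0),Row.mk (nat_lit 14448) (nat_lit 32912) (nat_lit 1797) (nat_lit 61710) (nat_lit 8386810) (nat_lit 0) (nat_lit 0),Row.mk (nat_lit 14616) (nat_lit 32912) (nat_lit 2244) (nat_lit 61710) (nat_lit 8386363) (nat_lit 0) (nat_lit 0),Row.mk (nat_lit 14784) (nat_lit 32912) (nat_lit 2803) (nat_lit 61710) (nat_lit 8385804) (nat_lit 0) (nat_lit 0),Row.mk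 (nat_lit 14952) (nat_lit 32912) (nat_lit 3501) (nat_lit 61710) (nat_lit 8385106) (nat_lit 0) (nat_lit 0),Row.mk (nat_lit 15120) (nat_lit 32912) (nat_lit 4373) (nat_lit 61710) (nat_lit 8384234) (nat_lit 0) (nat_lit 0),Row.mk (nat_lit 15288) (nat_lit 32912) (nat_lit 5462) (nat_lit 61710) (nat_lit 8383145) (nat_lit 0) (nat_lit 0),Row.mk (nat_lit 15456) (nat_lit 32912) (nat_lit 6822) (nat_lit 61710) (nat_lit 8381785) (nat_lit 0) (nat_lit 0),Row.mk (nat_lit 15624) (nat_lit 32912) (nat_lit 8521) (nat_lit 61710) (nat_lit 8380086) (nat_lit 0) (nat_lit 0),Row.mk (nat_lit 15792) (nat_lit 60962) (nat_lit 10588) (nat_lit 61336) (nat_lit 54) (nat_lit 0) (nat_lit 0),Row.mk (nat_lit 15960) (nat_lit 60401) (nat_lit 13208) (nat_lit 60775) (nat_lit 84) (nat_lit 0) (nat_lit 0),Row.mk (nat_lit 16128) (nat_lit 59840) (nat_lit 16470) (nat_lit 60214) (nat_lit 131) (nat_lit 0) (nat_lit 0),Row.mk (nat_lit 16296) (nat_lit 59279) (nat_lit 20530) (nat_lit 59653)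 (nat_lit 205) (nat_lit 0) (nat_lit 0),Row.mk (nat_lit 16464) (nat_lit 58718) (nat_lit 25577) (nat_lit 59092) (nat_lit 321) (nat_lit 0) (nat_lit 0),Row.mk (nat_lit 16632) (nat_lit 58157) (nat_lit 31846) (nat_lit 58531) (nat_lit 500) (nat_lit 0) (nat_lit 0),Row.mk (nat_lit 16800) (nat_lit 57596) (nat_lit 39619) (nat_lit 57970) (nat_lit 781) (nat_lit 0) (nat_lit 0),Row.mk (nat_lit 16968) (nat_lit 57035) (nat_lit 49240) (nat_lit 57409) (nat_lit 1219) (nat_lit 0) (nat_lit 0),Row.mk (nat_lit 17136) (nat_lit 56474) (nat_lit 61121) (nat_lit 56848) (nat_lit 1901) (nat_lit 0) (nat_lit 0),Row.mk (nat_lit 17304) (nat_lit 55913) (nat_lit 75747) (nat_lit 56287) (nat_lit 2966) (nat_lit 0) (nat_lit 0),Row.mk (nat_lit 17472) (nat_lit 55352) (nat_lit 93684) (nat_lit 55726) (nat_lit 4627) (nat_lit 0) (nat_lit 0),Row.mk (nat_lit 17640) (nat_lit 54791) (nat_lit 115570) (nat_lit 55165) (nat_lit 7219) (nat_lit 0) (nat_lit 0),Row.mk (nat_lit 17808) (nat_lit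 54230) (nat_lit 142100) (nat_lit 54604) (nat_lit 11261) (nat_lit 0) (nat_lit 0),Row.mk (nat_lit 17976) (nat_lit 53669) (nat_lit 173978) (nat_lit 54043) (nat_lit 17566) (nat_lit 0) (nat_lit 0),Row.mk (nat_lit 18144) (nat_lit 53108) (nat_lit 211831) (nat_lit 53482) (nat_lit 27403) (nat_lit 0) (nat_lit 0),Row.mk (nat_lit 18312) (nat_lit 52547) (nat_lit 256051) (nat_lit 52921) (nat_lit 42747) (nat_lit 0) (nat_lit 0),Row.mk (nat_lit 18480) (nat_lit 51986) (nat_lit 306509) (nat_lit 52360) (nat_lit 66683) (nat_lit 0) (nat_lit 0),Row.mk (nat_lit 18648) (nat_lit 51425) (nat_lit 362086) (nat_lit 51799) (nat_lit 104022) (nat_lit 0) (nat_lit 0),Row.mk (nat_lit 18816) (nat_lit 50864) (nat_lit 419889) (nat_lit 51238) (nat_lit 162268) (nat_lit 0) (nat_lit 0),Row.mk (nat_lit 18984) (nat_lit 50303) (nat_lit 473972) (nat_lit 50677) (nat_lit 253129) (nat_lit 0) (nat_lit 0),Row.mk (nat_lit 19152) (nat_lit 49742) (nat_lit 513265) (nat_lit 50116) (nat_lit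 394867) (nat_lit 0) (nat_lit 0),Row.mk (nat_lit 19320) (nat_lit 49181) (nat_lit 518265) (nat_lit 49555) (nat_lit 615970) (nat_lit 0) (nat_lit 0),Row.mk (nat_lit 19488) (nat_lit 48620) (nat_lit 455756) (nat_lit 48994) (nat_lit 960877) (nat_lit 0) (nat_lit 0),Row.mk (nat_lit 19656) (nat_lit 47872) (nat_lit 270429) (nat_lit 48433) (nat_lit 1498911) (nat_lit 0) (nat_lit 0),Row.mk (nat_lit 19824) (nat_lit 47685) (nat_lit 2107101) (nat_lit 48246) (nat_lit 102763) (nat_lit 0) (nat_lit 0),Row.mk (nat_lit 19992) (nat_lit 46750) (nat_lit 2049560) (nat_lit 47498) (nat_lit 710507) (nat_lit 0) (nat_lit 0),Row.mk (nat_lit 20160) (nat_lit 45815) (nat_lit 1651718) (nat_lit 46563) (nat_lit 1795539) (nat_lit 0) (nat_lit 0),Row.mk (nat_lit 20328) (nat_lit 44693) (nat_lit 646322) (nat_lit 45628) (nat_lit 3659218) (nat_lit 0) (nat_lit 0),Row.mk (nat_lit 20496) (nat_lit 44506) (nat_lit 4254498) (nat_lit 45441) (nat_lit 1123018) (nat_lit 0) (nat_lit 0),Row.mk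 (nat_lit 20664) (nat_lit 43197) (nat_lit 2553699) (nat_lit 44319) (nat_lit 4162689) (nat_lit 0) (nat_lit 0),Row.mk (nat_lit 20832) (nat_lit 43010) (nat_lit 7495049) (nat_lit 44132) (nat_lit 893558) (nat_lit 0) (nat_lit 0),Row.mk (nat_lit 21000) (nat_lit 41327) (nat_lit 3983619) (nat_lit 42823) (nat_lit 6493549) (nat_lit 0) (nat_lit 0),Row.mk (nat_lit 21168) (nat_lit 41140) (nat_lit 10352961) (nat_lit 42636) (nat_lit 2732769) (nat_lit 0) (nat_lit 0),Row.mk (nat_lit 21336) (nat_lit 38896) (nat_lit 2453430) (nat_lit 40953) (nat_lit 13890332) (nat_lit 0) (nat_lit 0),Row.mk (nat_lit 21504) (nat_lit 38709) (nat_lit 9780664) (nat_lit 40766) (nat_lit 10632301) (nat_lit 0) (nat_lit 0),Row.mk (nat_lit 21672) (nat_lit 38522) (nat_lit 18932203) (nat_lit 40579) (nat_lit 6563098) (nat_lit 0) (nat_lit 0),Row.mk (nat_lit 21840) (nat_lit 38335) (nat_lit 30362254) (nat_lit 40392) (nat_lit 1480762) (nat_lit 0) (nat_lit 0),Row.mk (nat_lit 22008) (nat_lit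 31603) (nat_lit 6078706) (nat_lit 38148) (nat_lit 33692452) (nat_lit 0) (nat_lit 0),Row.mk (nat_lit 22176) (nat_lit 31416) (nat_lit 15980765) (nat_lit 37961) (nat_lit 33692452) (nat_lit 0) (nat_lit 0),Row.mk (nat_lit 22344) (nat_lit 31229) (nat_lit 28348198) (nat_lit 37774) (nat_lit 33692452) (nat_lit 0) (nat_lit 0),Row.mk (nat_lit 22512) (nat_lit 31042) (nat_lit 43794824) (nat_lit 37587) (nat_lit 33692452) (nat_lit 0) (nat_lit 0),Row.mk (nat_lit 22680) (nat_lit 30855) (nat_lit 63087287) (nat_lit 37400) (nat_lit 33692452) (nat_lit 0) (nat_lit 0),Row.mk (nat_lit 22848) (nat_lit 30668) (nat_lit 87183107) (nat_lit 37213) (nat_lit 33692452) (nat_lit 0) (nat_lit 0),Row.mk (nat_lit 23016) (nat_lit 30481) (nat_lit 117278206) (nat_lit 37026) (nat_lit 33692452) (nat_lit 0) (nat_lit 0),Row.mk (nat_lit 23184) (nat_lit 30294) (nat_lit 154866258) (nat_lit 36839) (nat_lit 33692452) (nat_lit 0) (nat_lit 0),Row.mk (nat_lit 23352) (nat_lit 30107)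 (nat_lit 201812828) (nat_lit 36652) (nat_lit 33692452) (nat_lit 0) (nat_lit 0),Row.mk (nat_lit 23520) (nat_lit 29920) (nat_lit 260447962) (nat_lit 36465) (nat_lit 33692452) (nat_lit 0) (nat_lit 0),Row.mk (nat_lit 23688) (nat_lit 29733) (nat_lit 333681830) (nat_lit 36278) (nat_lit 33692452) (nat_lit 0) (nat_lit 0),Row.mk (nat_lit 23856) (nat_lit 29546) (nat_lit 425149164) (nat_lit 36091) (nat_lit 33692452) (nat_lit 0) (nat_lit 0),Row.mk (nat_lit 24024) (nat_lit 29359) (nat_lit 539389658) (nat_lit 35904) (nat_lit 33692452) (nat_lit 0) (nat_lit 0),Row.mk (nat_lit 24192) (nat_lit 29172) (nat_lit 682073279) (nat_lit 35717) (nat_lit 33692452) (nat_lit 0) (nat_lit 0),Row.mk (nat_lit 24360) (nat_lit 28985) (nat_lit 860281679) (nat_lit 35530) (nat_lit 33692452) (nat_lit 0) (nat_lit 0),Row.mk (nat_lit 24528) (nat_lit 28798) (nat_lit 1082859672) (nat_lit 35343) (nat_lit 33692452) (nat_lit 0) (nat_lit 0),Row.mk (nat_lit 24696) (nat_lit 28611)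 (nat_lit 1360854216) (nat_lit 35156) (nat_lit 33692452) (nat_lit 0) (nat_lit 0),Row.mk (nat_lit 24864) (nat_lit 28424) (nat_lit 1708062695) (nat_lit 34969) (nat_lit 33692452) (nat_lit 0) (nat_lit 0),Row.mk (nat_lit 25032) (nat_lit 28237) (nat_lit 2141717710) (nat_lit 34782) (nat_lit 33692452) (nat_lit 0) (nat_lit 0),Row.mk (nat_lit 25200) (nat_lit 28050) (nat_lit 2683342361) (nat_lit 34595) (nat_lit 33692452) (nat_lit 0) (nat_lit 0),Row.mk (nat_lit 25368) (nat_lit 27863) (nat_lit 3359818485) (nat_lit 34408) (nat_lit 33692452) (nat_lit 0) (nat_lit 0),Row.mk (nat_lit 25536) (nat_lit 27676) (nat_lit 4204720844) (nat_lit 34221) (nat_lit 33692452) (nat_lit 0) (nat_lit 0),Row.mk (nat_lit 25704) (nat_lit 27489) (nat_lit 5259983508) (nat_lit 34034) (nat_lit 33692452) (nat_lit 0) (nat_lit 0),Row.mk (nat_lit 25872) (nat_lit 27302) (nat_lit 6577981119) (nat_lit 33847) (nat_lit 33692452) (nat_lit 0) (nat_lit 0),Row.mk (nat_lit 26040) (nat_lit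 32912) (nat_lit 8388608) (nat_lit 62084) (nat_lit 8249432185) (nat_lit 0) (nat_lit 0)],
[Row.mk (nat_lit 10752) (nat_lit 32912) (nat_lit 13) (nat_lit 61710) (nat_lit 8388594) (nat_lit 0) (nat_lit 0),Row.mk (nat_lit 10920) (nat_lit 32912) (nat_lit 16) (nat_lit 61710) (nat_lit 8388591) (nat_lit 0) (nat_lit 0),Row.mk (nat_lit 11088) (nat_lit 32912) (nat_lit 21) (nat_lit 61710) (nat_lit 8388586) (nat_lit 0) (nat_lit 0),Row.mk (nat_lit 11256) (nat_lit 32912) (nat_lit 26) (nat_lit 61710) (nat_lit 8388581) (nat_lit 0) (nat_lit 0),Row.mk (nat_lit 11424) (nat_lit 32912) (nat_lit 32) (nat_lit 61710) (nat_lit 8388575) (nat_lit 0) (nat_lit 0),Row.mk (nat_lit 11592) (nat_lit 32912) (nat_lit 41) (nat_lit 61710) (nat_lit 8388566) (nat_lit 0) (nat_lit 0),Row.mk (nat_lit 11760) (nat_lit 32912) (nat_lit 51) (nat_lit 61710) (nat_lit 8388556) (nat_lit 0) (nat_lit 0),Row.mk (nat_lit 11928) (nat_lit 32912) (nat_lit 64) (nat_lit 61710) (nat_lit 8388543)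 (nat_lit 0) (nat_lit 0),Row.mk (nat_lit 12096) (nat_lit 32912) (nat_lit 79) (nat_lit 61710) (nat_lit 8388528) (nat_lit 0) (nat_lit 0),Row.mk (nat_lit 12264) (nat_lit 32912) (nat_lit 99) (nat_lit 61710) (nat_lit 8388508) (nat_lit 0) (nat_lit 0),Row.mk (nat_lit 12432) (nat_lit 32912) (nat_lit 124) (nat_lit 61710) (nat_lit 8388483) (nat_lit 0) (nat_lit 0),Row.mk (nat_lit 12600) (nat_lit 32912) (nat_lit 155) (nat_lit 61710) (nat_lit 8388452) (nat_lit 0) (nat_lit 0),Row.mk (nat_lit 12768) (nat_lit 32912) (nat_lit 194) (nat_lit 61710) (nat_lit 8388413) (nat_lit 0) (nat_lit 0),Row.mk (nat_lit 12936) (nat_lit 32912) (nat_lit 243) (nat_lit 61710) (nat_lit 8388364) (nat_lit 0) (nat_lit 0),Row.mk (nat_lit 13104) (nat_lit 32912) (nat_lit 303) (nat_lit 61710) (nat_lit 8388304) (nat_lit 0) (nat_lit 0),Row.mk (nat_lit 13272) (nat_lit 32912) (nat_lit 379) (nat_lit 61710) (nat_lit 8388228) (nat_lit 0) (nat_lit 0),Row.mk (nat_lit 13440) (nat_lit 32912)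 (nat_lit 473) (nat_lit 61710) (nat_lit 8388134) (nat_lit 0) (nat_lit 0),Row.mk (nat_lit 13608) (nat_lit 32912) (nat_lit 591) (nat_lit 61710) (nat_lit 8388016) (nat_lit 0) (nat_lit 0),Row.mk (nat_lit 13776) (nat_lit 32912) (nat_lit 738) (nat_lit 61710) (nat_lit 8387869) (nat_lit 0) (nat_lit 0),Row.mk (nat_lit 13944) (nat_lit 32912) (nat_lit 922) (nat_lit 61710) (nat_lit 8387685) (nat_lit 0) (nat_lit 0),Row.mk (nat_lit 14112) (nat_lit 32912) (nat_lit 1152) (nat_lit 61710) (nat_lit 8387455) (nat_lit 0) (nat_lit 0),Row.mk (nat_lit 14280) (nat_lit 32912) (nat_lit 1439) (nat_lit 61710) (nat_lit 8387168) (nat_lit 0) (nat_lit 0),Row.mk (nat_lit 14448) (nat_lit 32912) (nat_lit 1797) (nat_lit 61710) (nat_lit 8386810) (nat_lit 0) (nat_lit 0),Row.mk (nat_lit 14616) (nat_lit 32912) (nat_lit 2244) (nat_lit 61710) (nat_lit 8386363) (nat_lit 0) (nat_lit 0),Row.mk (nat_lit 14784) (nat_lit 32912) (nat_lit 2803) (nat_lit 61710) (nat_lit 8385804) (nat_lit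 0) (nat_lit 0),Row.mk (nat_lit 14952) (nat_lit 32912) (nat_lit 3501) (nat_lit 61710) (nat_lit 8385106) (nat_lit 0) (nat_lit 0),Row.mk (nat_lit 15120) (nat_lit 32912) (nat_lit 4373) (nat_lit 61710) (nat_lit 8384234) (nat_lit 0) (nat_lit 0),Row.mk (nat_lit 15288) (nat_lit 32912) (nat_lit 5462) (nat_lit 61710) (nat_lit 8383145) (nat_lit 0) (nat_lit 0),Row.mk (nat_lit 15456) (nat_lit 32912) (nat_lit 6822) (nat_lit 61710) (nat_lit 8381785) (nat_lit 0) (nat_lit 0),Row.mk (nat_lit 15624) (nat_lit 32912) (nat_lit 8521) (nat_lit 61710) (nat_lit 8380086) (nat_lit 0) (nat_lit 0),Row.mk (nat_lit 15792) (nat_lit 60962) (nat_lit 10588) (nat_lit 61336) (nat_lit 54) (nat_lit 0) (nat_lit 0),Row.mk (nat_lit 15960) (nat_lit 60401) (nat_lit 13208) (nat_lit 60775) (nat_lit 84) (nat_lit 0) (nat_lit 0),Row.mk (nat_lit 16128) (nat_lit 59840) (nat_lit 16470) (nat_lit 60214) (nat_lit 131) (nat_lit 0) (nat_lit 0),Row.mk (nat_lit 16296) (nat_lit 59279) (nat_lit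 20530) (nat_lit 59653) (nat_lit 205) (nat_lit 0) (nat_lit 0),Row.mk (nat_lit 16464) (nat_lit 58718) (nat_lit 25577) (nat_lit 59092) (nat_lit 321) (nat_lit 0) (nat_lit 0),Row.mk (nat_lit 16632) (nat_lit 58157) (nat_lit 31846) (nat_lit 58531) (nat_lit 500) (nat_lit 0) (nat_lit 0),Row.mk (nat_lit 16800) (nat_lit 57596) (nat_lit 39619) (nat_lit 57970) (nat_lit 781) (nat_lit 0) (nat_lit 0),Row.mk (nat_lit 16968) (nat_lit 57035) (nat_lit 49240) (nat_lit 57409) (nat_lit 1219) (nat_lit 0) (nat_lit 0),Row.mk (nat_lit 17136) (nat_lit 56474) (nat_lit 61121) (nat_lit 56848) (nat_lit 1901) (nat_lit 0) (nat_lit 0),Row.mk (nat_lit 17304) (nat_lit 55913) (nat_lit 75747) (nat_lit 56287) (nat_lit 2966) (nat_lit 0) (nat_lit 0),Row.mk (nat_lit 17472) (nat_lit 55352) (nat_lit 93684) (nat_lit 55726) (nat_lit 4627) (nat_lit 0) (nat_lit 0),Row.mk (nat_lit 17640) (nat_lit 54791) (nat_lit 115570) (nat_lit 55165) (nat_lit 7219) (nat_lit 0) (nat_lit 0),Row.mk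 (nat_lit 17808) (nat_lit 54230) (nat_lit 142100) (nat_lit 54604) (nat_lit 11261) (nat_lit 0) (nat_lit 0),Row.mk (nat_lit 17976) (nat_lit 53669) (nat_lit 173978) (nat_lit 54043) (nat_lit 17566) (nat_lit 0) (nat_lit 0),Row.mk (nat_lit 18144) (nat_lit 53108) (nat_lit 211831) (nat_lit 53482) (nat_lit 27403) (nat_lit 0) (nat_lit 0),Row.mk (nat_lit 18312) (nat_lit 52547) (nat_lit 256051) (nat_lit 52921) (nat_lit 42747) (nat_lit 0) (nat_lit 0),Row.mk (nat_lit 18480) (nat_lit 51986) (nat_lit 306509) (nat_lit 52360) (nat_lit 66683) (nat_lit 0) (nat_lit 0),Row.mk (nat_lit 18648) (nat_lit 51425) (nat_lit 362086) (nat_lit 51799) (nat_lit 104022) (nat_lit 0) (nat_lit 0),Row.mk (nat_lit 18816) (nat_lit 50864) (nat_lit 419889) (nat_lit 51238) (nat_lit 162268) (nat_lit 0) (nat_lit 0),Row.mk (nat_lit 18984) (nat_lit 50303) (nat_lit 473972) (nat_lit 50677) (nat_lit 253129) (nat_lit 0) (nat_lit 0),Row.mk (nat_lit 19152) (nat_lit 49742) (nat_lit 513265)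 (nat_lit 50116) (nat_lit 394867) (nat_lit 0) (nat_lit 0),Row.mk (nat_lit 19320) (nat_lit 49181) (nat_lit 518265) (nat_lit 49555) (nat_lit 615970) (nat_lit 0) (nat_lit 0),Row.mk (nat_lit 19488) (nat_lit 48620) (nat_lit 455756) (nat_lit 48994) (nat_lit 960877) (nat_lit 0) (nat_lit 0),Row.mk (nat_lit 19656) (nat_lit 47872) (nat_lit 270429) (nat_lit 48433) (nat_lit 1498911) (nat_lit 0) (nat_lit 0),Row.mk (nat_lit 19824) (nat_lit 47685) (nat_lit 2107101) (nat_lit 48246) (nat_lit 102763) (nat_lit 0) (nat_lit 0),Row.mk (nat_lit 19992) (nat_lit 46750) (nat_lit 2049560) (nat_lit 47498) (nat_lit 710507) (nat_lit 0) (nat_lit 0),Row.mk (nat_lit 20160) (nat_lit 45815) (nat_lit 1651718) (nat_lit 46563) (nat_lit 1795539) (nat_lit 0) (nat_lit 0),Row.mk (nat_lit 20328) (nat_lit 44693) (nat_lit 646322) (nat_lit 45628) (nat_lit 3659218) (nat_lit 0) (nat_lit 0),Row.mk (nat_lit 20496) (nat_lit 44506) (nat_lit 4254498) (nat_lit 45441) (nat_lit 1123018)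 (nat_lit 0) (nat_lit 0),Row.mk (nat_lit 20664) (nat_lit 43197) (nat_lit 2553699) (nat_lit 44319) (nat_lit 4162689) (nat_lit 0) (nat_lit 0),Row.mk (nat_lit 20832) (nat_lit 43010) (nat_lit 7495049) (nat_lit 44132) (nat_lit 893558) (nat_lit 0) (nat_lit 0),Row.mk (nat_lit 21000) (nat_lit 41327) (nat_lit 3983619) (nat_lit 42823) (nat_lit 6493549) (nat_lit 0) (nat_lit 0),Row.mk (nat_lit 21168) (nat_lit 41140) (nat_lit 10352961) (nat_lit 42636) (nat_lit 2732769) (nat_lit 0) (nat_lit 0),Row.mk (nat_lit 21336) (nat_lit 38896) (nat_lit 2453430) (nat_lit 40953) (nat_lit 13890332) (nat_lit 0) (nat_lit 0),Row.mk (nat_lit 21504) (nat_lit 38709) (nat_lit 9780664) (nat_lit 40766) (nat_lit 10632301) (nat_lit 0) (nat_lit 0),Row.mk (nat_lit 21672) (nat_lit 38522) (nat_lit 18932203) (nat_lit 40579) (nat_lit 6563098) (nat_lit 0) (nat_lit 0),Row.mk (nat_lit 21840) (nat_lit 38335) (nat_lit 30362254) (nat_lit 40392) (nat_lit 1480762) (nat_lit 0) (nat_lit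 0),Row.mk (nat_lit 22008) (nat_lit 31603) (nat_lit 6078706) (nat_lit 38148) (nat_lit 33692452) (nat_lit 0) (nat_lit 0),Row.mk (nat_lit 22176) (nat_lit 31416) (nat_lit 15980765) (nat_lit 37961) (nat_lit 33692452) (nat_lit 0) (nat_lit 0),Row.mk (nat_lit 22344) (nat_lit 31229) (nat_lit 28348198) (nat_lit 37774) (nat_lit 33692452) (nat_lit 0) (nat_lit 0),Row.mk (nat_lit 22512) (nat_lit 31042) (nat_lit 43794824) (nat_lit 37587) (nat_lit 33692452) (nat_lit 0) (nat_lit 0),Row.mk (nat_lit 22680) (nat_lit 30855) (nat_lit 63087287) (nat_lit 37400) (nat_lit 33692452) (nat_lit 0) (nat_lit 0),Row.mk (nat_lit 22848) (nat_lit 30668) (nat_lit 87183107) (nat_lit 37213) (nat_lit 33692452) (nat_lit 0) (nat_lit 0),Row.mk (nat_lit 23016) (nat_lit 30481) (nat_lit 117278206) (nat_lit 37026) (nat_lit 33692452) (nat_lit 0) (nat_lit 0),Row.mk (nat_lit 23184) (nat_lit 30294) (nat_lit 154866258) (nat_lit 36839) (nat_lit 33692452) (nat_lit 0) (nat_lit 0),Row.mk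 (nat_lit 23352) (nat_lit 30107) (nat_lit 201812828) (nat_lit 36652) (nat_lit 33692452) (nat_lit 0) (nat_lit 0),Row.mk (nat_lit 23520) (nat_lit 29920) (nat_lit 260447962) (nat_lit 36465) (nat_lit 33692452) (nat_lit 0) (nat_lit 0),Row.mk (nat_lit 23688) (nat_lit 29733) (nat_lit 333681830) (nat_lit 36278) (nat_lit 33692452) (nat_lit 0) (nat_lit 0),Row.mk (nat_lit 23856) (nat_lit 29546) (nat_lit 425149164) (nat_lit 36091) (nat_lit 33692452) (nat_lit 0) (nat_lit 0),Row.mk (nat_lit 24024) (nat_lit 29359) (nat_lit 539389658) (nat_lit 35904) (nat_lit 33692452) (nat_lit 0) (nat_lit 0),Row.mk (nat_lit 24192) (nat_lit 29172) (nat_lit 682073279) (nat_lit 35717) (nat_lit 33692452) (nat_lit 0) (nat_lit 0),Row.mk (nat_lit 24360) (nat_lit 28985) (nat_lit 860281679) (nat_lit 35530) (nat_lit 33692452) (nat_lit 0) (nat_lit 0),Row.mk (nat_lit 24528) (nat_lit 28798) (nat_lit 1082859672) (nat_lit 35343) (nat_lit 33692452) (nat_lit 0) (nat_lit 0),Row.mk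 (nat_lit 24696) (nat_lit 28611) (nat_lit 1360854216) (nat_lit 35156) (nat_lit 33692452) (nat_lit 0) (nat_lit 0),Row.mk (nat_lit 24864) (nat_lit 28424) (nat_lit 1708062695) (nat_lit 34969) (nat_lit 33692452) (nat_lit 0) (nat_lit 0),Row.mk (nat_lit 25032) (nat_lit 28237) (nat_lit 2141717710) (nat_lit 34782) (nat_lit 33692452) (nat_lit 0) (nat_lit 0),Row.mk (nat_lit 25200) (nat_lit 28050) (nat_lit 2683342361) (nat_lit 34595) (nat_lit 33692452) (nat_lit 0) (nat_lit 0),Row.mk (nat_lit 25368) (nat_lit 27863) (nat_lit 3359818485) (nat_lit 34408) (nat_lit 33692452) (nat_lit 0) (nat_lit 0),Row.mk (nat_lit 25536) (nat_lit 27676) (nat_lit 4204720844) (nat_lit 34221) (nat_lit 33692452) (nat_lit 0) (nat_lit 0),Row.mk (nat_lit 25704) (nat_lit 27489) (nat_lit 5259983508) (nat_lit 34034) (nat_lit 33692452) (nat_lit 0) (nat_lit 0),Row.mk (nat_lit 25872) (nat_lit 27302) (nat_lit 6577981119) (nat_lit 33847) (nat_lit 33692452) (nat_lit 0) (nat_lit 0),Row.mk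 (nat_lit 26040) (nat_lit 32912) (nat_lit 8388608) (nat_lit 62084) (nat_lit 8249432185) (nat_lit 0) (nat_lit 0)],
[Row.mk (nat_lit 10752) (nat_lit 32912) (nat_lit 13) (nat_lit 61710) (nat_lit 8388594) (nat_lit 0) (nat_lit 0),Row.mk (nat_lit 10920) (nat_lit 32912) (nat_lit 16) (nat_lit 61710) (nat_lit 8388591) (nat_lit 0) (nat_lit 0),Row.mk (nat_lit 11088) (nat_lit 32912) (nat_lit 21) (nat_lit 61710) (nat_lit 8388586) (nat_lit 0) (nat_lit 0),Row.mk (nat_lit 11256) (nat_lit 32912) (nat_lit 26) (nat_lit 61710) (nat_lit 8388581) (nat_lit 0) (nat_lit 0),Row.mk (nat_lit 11424) (nat_lit 32912) (nat_lit 32) (nat_lit 61710) (nat_lit 8388575) (nat_lit 0) (nat_lit 0),Row.mk (nat_lit 11592) (nat_lit 32912) (nat_lit 41) (nat_lit 61710) (nat_lit 8388566) (nat_lit 0) (nat_lit 0),Row.mk (nat_lit 11760) (nat_lit 32912) (nat_lit 51) (nat_lit 61710) (nat_lit 8388556) (nat_lit 0) (nat_lit 0),Row.mk (nat_lit 11928) (nat_lit 32912) (nat_lit 64) (nat_lit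 61710) (nat_lit 8388543) (nat_lit 0) (nat_lit 0),Row.mk (nat_lit 12096) (nat_lit 32912) (nat_lit 79) (nat_lit 61710) (nat_lit 8388528) (nat_lit 0) (nat_lit 0),Row.mk (nat_lit 12264) (nat_lit 32912) (nat_lit 99) (nat_lit 61710) (nat_lit 8388508) (nat_lit 0) (nat_lit 0),Row.mk (nat_lit 12432) (nat_lit 32912) (nat_lit 124) (nat_lit 61710) (nat_lit 8388483) (nat_lit 0) (nat_lit 0),Row.mk (nat_lit 12600) (nat_lit 32912) (nat_lit 155) (nat_lit 61710) (nat_lit 8388452) (nat_lit 0) (nat_lit 0),Row.mk (nat_lit 12768) (nat_lit 32912) (nat_lit 194) (nat_lit 61710) (nat_lit 8388413) (nat_lit 0) (nat_lit 0),Row.mk (nat_lit 12936) (nat_lit 32912) (nat_lit 243) (nat_lit 61710) (nat_lit 8388364) (nat_lit 0) (nat_lit 0),Row.mk (nat_lit 13104) (nat_lit 32912) (nat_lit 303) (nat_lit 61710) (nat_lit 8388304) (nat_lit 0) (nat_lit 0),Row.mk (nat_lit 13272) (nat_lit 32912) (nat_lit 379) (nat_lit 61710) (nat_lit 8388228) (nat_lit 0) (nat_lit 0),Row.mk (nat_lit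 13440) (nat_lit 32912) (nat_lit 473) (nat_lit 61710) (nat_lit 8388134) (nat_lit 0) (nat_lit 0),Row.mk (nat_lit 13608) (nat_lit 32912) (nat_lit 591) (nat_lit 61710) (nat_lit 8388016) (nat_lit 0) (nat_lit 0),Row.mk (nat_lit 13776) (nat_lit 32912) (nat_lit 738) (nat_lit 61710) (nat_lit 8387869) (nat_lit 0) (nat_lit 0),Row.mk (nat_lit 13944) (nat_lit 32912) (nat_lit 922) (nat_lit 61710) (nat_lit 8387685) (nat_lit 0) (nat_lit 0),Row.mk (nat_lit 14112) (nat_lit 32912) (nat_lit 1152) (nat_lit 61710) (nat_lit 8387455) (nat_lit 0) (nat_lit 0),Row.mk (nat_lit 14280) (nat_lit 32912) (nat_lit 1439) (nat_lit 61710) (nat_lit 8387168) (nat_lit 0) (nat_lit 0),Row.mk (nat_lit 14448) (nat_lit 32912) (nat_lit 1797) (nat_lit 61710) (nat_lit 8386810) (nat_lit 0) (nat_lit 0),Row.mk (nat_lit 14616) (nat_lit 32912) (nat_lit 2244) (nat_lit 61710) (nat_lit 8386363) (nat_lit 0) (nat_lit 0),Row.mk (nat_lit 14784) (nat_lit 32912) (nat_lit 2803) (nat_lit 61710)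 (nat_lit 8385804) (nat_lit 0) (nat_lit 0),Row.mk (nat_lit 14952) (nat_lit 32912) (nat_lit 3501) (nat_lit 61710) (nat_lit 8385106) (nat_lit 0) (nat_lit 0),Row.mk (nat_lit 15120) (nat_lit 32912) (nat_lit 4373) (nat_lit 61710) (nat_lit 8384234) (nat_lit 0) (nat_lit 0),Row.mk (nat_lit 15288) (nat_lit 32912) (nat_lit 5462) (nat_lit 61710) (nat_lit 8383145) (nat_lit 0) (nat_lit 0),Row.mk (nat_lit 15456) (nat_lit 32912) (nat_lit 6822) (nat_lit 61710) (nat_lit 8381785) (nat_lit 0) (nat_lit 0),Row.mk (nat_lit 15624) (nat_lit 32912) (nat_lit 8521) (nat_lit 61710) (nat_lit 8380086) (nat_lit 0) (nat_lit 0),Row.mk (nat_lit 15792) (nat_lit 60962) (nat_lit 10588) (nat_lit 61336) (nat_lit 54) (nat_lit 0) (nat_lit 0),Row.mk (nat_lit 15960) (nat_lit 60401) (nat_lit 13208) (nat_lit 60775) (nat_lit 84) (nat_lit 0) (nat_lit 0),Row.mk (nat_lit 16128) (nat_lit 59840) (nat_lit 16470) (nat_lit 60214) (nat_lit 131) (nat_lit 0) (nat_lit 0),Row.mk (nat_lit 16296)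 (nat_lit 59279) (nat_lit 20530) (nat_lit 59653) (nat_lit 205) (nat_lit 0) (nat_lit 0),Row.mk (nat_lit 16464) (nat_lit 58718) (nat_lit 25577) (nat_lit 59092) (nat_lit 321) (nat_lit 0) (nat_lit 0),Row.mk (nat_lit 16632) (nat_lit 58157) (nat_lit 31846) (nat_lit 58531) (nat_lit 500) (nat_lit 0) (nat_lit 0),Row.mk (nat_lit 16800) (nat_lit 57596) (nat_lit 39619) (nat_lit 57970) (nat_lit 781) (nat_lit 0) (nat_lit 0),Row.mk (nat_lit 16968) (nat_lit 57035) (nat_lit 49240) (nat_lit 57409) (nat_lit 1219) (nat_lit 0) (nat_lit 0),Row.mk (nat_lit 17136) (nat_lit 56474) (nat_lit 61121) (nat_lit 56848) (nat_lit 1901) (nat_lit 0) (nat_lit 0),Row.mk (nat_lit 17304) (nat_lit 55913) (nat_lit 75747) (nat_lit 56287) (nat_lit 2966) (nat_lit 0) (nat_lit 0),Row.mk (nat_lit 17472) (nat_lit 55352) (nat_lit 93684) (nat_lit 55726) (nat_lit 4627) (nat_lit 0) (nat_lit 0),Row.mk (nat_lit 17640) (nat_lit 54791) (nat_lit 115570) (nat_lit 55165) (nat_lit 7219) (nat_lit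 0) (nat_lit 0),Row.mk (nat_lit 17808) (nat_lit 54230) (nat_lit 142100) (nat_lit 54604) (nat_lit 11261) (nat_lit 0) (nat_lit 0),Row.mk (nat_lit 17976) (nat_lit 53669) (nat_lit 173978) (nat_lit 54043) (nat_lit 17566) (nat_lit 0) (nat_lit 0),Row.mk (nat_lit 18144) (nat_lit 53108) (nat_lit 211831) (nat_lit 53482) (nat_lit 27403) (nat_lit 0) (nat_lit 0),Row.mk (nat_lit 18312) (nat_lit 52547) (nat_lit 256051) (nat_lit 52921) (nat_lit 42747) (nat_lit 0) (nat_lit 0),Row.mk (nat_lit 18480) (nat_lit 51986) (nat_lit 306509) (nat_lit 52360) (nat_lit 66683) (nat_lit 0) (nat_lit 0),Row.mk (nat_lit 18648) (nat_lit 51425) (nat_lit 362086) (nat_lit 51799) (nat_lit 104022) (nat_lit 0) (nat_lit 0),Row.mk (nat_lit 18816) (nat_lit 50864) (nat_lit 419889) (nat_lit 51238) (nat_lit 162268) (nat_lit 0) (nat_lit 0),Row.mk (nat_lit 18984) (nat_lit 50303) (nat_lit 473972) (nat_lit 50677) (nat_lit 253129) (nat_lit 0) (nat_lit 0),Row.mk (nat_lit 19152) (nat_lit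 49742) (nat_lit 513265) (nat_lit 50116) (nat_lit 394867) (nat_lit 0) (nat_lit 0),Row.mk (nat_lit 19320) (nat_lit 49181) (nat_lit 518265) (nat_lit 49555) (nat_lit 615970) (nat_lit 0) (nat_lit 0),Row.mk (nat_lit 19488) (nat_lit 48620) (nat_lit 455756) (nat_lit 48994) (nat_lit 960877) (nat_lit 0) (nat_lit 0),Row.mk (nat_lit 19656) (nat_lit 47872) (nat_lit 270429) (nat_lit 48433) (nat_lit 1498911) (nat_lit 0) (nat_lit 0),Row.mk (nat_lit 19824) (nat_lit 47685) (nat_lit 2107101) (nat_lit 48246) (nat_lit 102763) (nat_lit 0) (nat_lit 0),Row.mk (nat_lit 19992) (nat_lit 46750) (nat_lit 2049560) (nat_lit 47498) (nat_lit 710507) (nat_lit 0) (nat_lit 0),Row.mk (nat_lit 20160) (nat_lit 45815) (nat_lit 1651718) (nat_lit 46563) (nat_lit 1795539) (nat_lit 0) (nat_lit 0),Row.mk (nat_lit 20328) (nat_lit 44693) (nat_lit 646322) (nat_lit 45628) (nat_lit 3659218) (nat_lit 0) (nat_lit 0),Row.mk (nat_lit 20496) (nat_lit 44506) (nat_lit 4254498) (nat_lit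 45441) (nat_lit 1123018) (nat_lit 0) (nat_lit 0),Row.mk (nat_lit 20664) (nat_lit 43197) (nat_lit 2553699) (nat_lit 44319) (nat_lit 4162689) (nat_lit 0) (nat_lit 0),Row.mk (nat_lit 20832) (nat_lit 43010) (nat_lit 7495049) (nat_lit 44132) (nat_lit 893558) (nat_lit 0) (nat_lit 0),Row.mk (nat_lit 21000) (nat_lit 41327) (nat_lit 3983619) (nat_lit 42823) (nat_lit 6493549) (nat_lit 0) (nat_lit 0),Row.mk (nat_lit 21168) (nat_lit 41140) (nat_lit 10352961) (nat_lit 42636) (nat_lit 2732769) (nat_lit 0) (nat_lit 0),Row.mk (nat_lit 21336) (nat_lit 38896) (nat_lit 2453430) (nat_lit 40953) (nat_lit 13890332) (nat_lit 0) (nat_lit 0),Row.mk (nat_lit 21504) (nat_lit 38709) (nat_lit 9780664) (nat_lit 40766) (nat_lit 10632301) (nat_lit 0) (nat_lit 0),Row.mk (nat_lit 21672) (nat_lit 38522) (nat_lit 18932203) (nat_lit 40579) (nat_lit 6563098) (nat_lit 0) (nat_lit 0),Row.mk (nat_lit 21840) (nat_lit 38335) (nat_lit 30362254) (nat_lit 40392) (nat_lit 1480762)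 (nat_lit 0) (nat_lit 0),Row.mk (nat_lit 22008) (nat_lit 31603) (nat_lit 6078706) (nat_lit 38148) (nat_lit 33692452) (nat_lit 0) (nat_lit 0),Row.mk (nat_lit 22176) (nat_lit 31416) (nat_lit 15980765) (nat_lit 37961) (nat_lit 33692452) (nat_lit 0) (nat_lit 0),Row.mk (nat_lit 22344) (nat_lit 31229) (nat_lit 28348198) (nat_lit 37774) (nat_lit 33692452) (nat_lit 0) (nat_lit 0),Row.mk (nat_lit 22512) (nat_lit 31042) (nat_lit 43794824) (nat_lit 37587) (nat_lit 33692452) (nat_lit 0) (nat_lit 0),Row.mk (nat_lit 22680) (nat_lit 30855) (nat_lit 63087287) (nat_lit 37400) (nat_lit 33692452) (nat_lit 0) (nat_lit 0),Row.mk (nat_lit 22848) (nat_lit 30668) (nat_lit 87183107) (nat_lit 37213) (nat_lit 33692452) (nat_lit 0) (nat_lit 0),Row.mk (nat_lit 23016) (nat_lit 30481) (nat_lit 117278206) (nat_lit 37026) (nat_lit 33692452) (nat_lit 0) (nat_lit 0),Row.mk (nat_lit 23184) (nat_lit 30294) (nat_lit 154866258) (nat_lit 36839) (nat_lit 33692452) (nat_lit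 0) (nat_lit 0),Row.mk (nat_lit 23352) (nat_lit 30107) (nat_lit 201812828) (nat_lit 36652) (nat_lit 33692452) (nat_lit 0) (nat_lit 0),Row.mk (nat_lit 23520) (nat_lit 29920) (nat_lit 260447962) (nat_lit 36465) (nat_lit 33692452) (nat_lit 0) (nat_lit 0),Row.mk (nat_lit 23688) (nat_lit 29733) (nat_lit 333681830) (nat_lit 36278) (nat_lit 33692452) (nat_lit 0) (nat_lit 0),Row.mk (nat_lit 23856) (nat_lit 29546) (nat_lit 425149164) (nat_lit 36091) (nat_lit 33692452) (nat_lit 0) (nat_lit 0),Row.mk (nat_lit 24024) (nat_lit 29359) (nat_lit 539389658) (nat_lit 35904) (nat_lit 33692452) (nat_lit 0) (nat_lit 0),Row.mk (nat_lit 24192) (nat_lit 29172) (nat_lit 682073279) (nat_lit 35717) (nat_lit 33692452) (nat_lit 0) (nat_lit 0),Row.mk (nat_lit 24360) (nat_lit 28985) (nat_lit 860281679) (nat_lit 35530) (nat_lit 33692452) (nat_lit 0) (nat_lit 0),Row.mk (nat_lit 24528) (nat_lit 28798) (nat_lit 1082859672) (nat_lit 35343) (nat_lit 33692452) (nat_lit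 0) (nat_lit 0),Row.mk (nat_lit 24696) (nat_lit 28611) (nat_lit 1360854216) (nat_lit 35156) (nat_lit 33692452) (nat_lit 0) (nat_lit 0),Row.mk (nat_lit 24864) (nat_lit 28424) (nat_lit 1708062695) (nat_lit 34969) (nat_lit 33692452) (nat_lit 0) (nat_lit 0),Row.mk (nat_lit 25032) (nat_lit 28237) (nat_lit 2141717710) (nat_lit 34782) (nat_lit 33692452) (nat_lit 0) (nat_lit 0),Row.mk (nat_lit 25200) (nat_lit 28050) (nat_lit 2683342361) (nat_lit 34595) (nat_lit 33692452) (nat_lit 0) (nat_lit 0),Row.mk (nat_lit 25368) (nat_lit 27863) (nat_lit 3359818485) (nat_lit 34408) (nat_lit 33692452) (nat_lit 0) (nat_lit 0),Row.mk (nat_lit 25536) (nat_lit 27676) (nat_lit 4204720844) (nat_lit 34221) (nat_lit 33692452) (nat_lit 0) (nat_lit 0),Row.mk (nat_lit 25704) (nat_lit 27489) (nat_lit 5259983508) (nat_lit 34034) (nat_lit 33692452) (nat_lit 0) (nat_lit 0),Row.mk (nat_lit 25872) (nat_lit 27302) (nat_lit 6577981119) (nat_lit 33847) (nat_lit 33692452) (nat_lit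 0) (nat_lit 0),Row.mk (nat_lit 26040) (nat_lit 32912) (nat_lit 8388608) (nat_lit 62084) (nat_lit 8249432185) (nat_lit 0) (nat_lit 0)],
[Row.mk (nat_lit 10752) (nat_lit 32912) (nat_lit 13) (nat_lit 61710) (nat_lit 8388594) (nat_lit 0) (nat_lit 0),Row.mk (nat_lit 10920) (nat_lit 32912) (nat_lit 16) (nat_lit 61710) (nat_lit 8388591) (nat_lit 0) (nat_lit 0),Row.mk (nat_lit 11088) (nat_lit 32912) (nat_lit 21) (nat_lit 61710) (nat_lit 8388586) (nat_lit 0) (nat_lit 0),Row.mk (nat_lit 11256) (nat_lit 32912) (nat_lit 26) (nat_lit 61710) (nat_lit 8388581) (nat_lit 0) (nat_lit 0),Row.mk (nat_lit 11424) (nat_lit 32912) (nat_lit 32) (nat_lit 61710) (nat_lit 8388575) (nat_lit 0) (nat_lit 0),Row.mk (nat_lit 11592) (nat_lit 32912) (nat_lit 41) (nat_lit 61710) (nat_lit 8388566) (nat_lit 0) (nat_lit 0),Row.mk (nat_lit 11760) (nat_lit 32912) (nat_lit 51) (nat_lit 61710) (nat_lit 8388556) (nat_lit 0) (nat_lit 0),Row.mk (nat_lit 11928) (nat_lit 32912)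 (nat_lit 64) (nat_lit 61710) (nat_lit 8388543) (nat_lit 0) (nat_lit 0),Row.mk (nat_lit 12096) (nat_lit 32912) (nat_lit 79) (nat_lit 61710) (nat_lit 8388528) (nat_lit 0) (nat_lit 0),Row.mk (nat_lit 12264) (nat_lit 32912) (nat_lit 99) (nat_lit 61710) (nat_lit 8388508) (nat_lit 0) (nat_lit 0),Row.mk (nat_lit 12432) (nat_lit 32912) (nat_lit 124) (nat_lit 61710) (nat_lit 8388483) (nat_lit 0) (nat_lit 0),Row.mk (nat_lit 12600) (nat_lit 32912) (nat_lit 155) (nat_lit 61710) (nat_lit 8388452) (nat_lit 0) (nat_lit 0),Row.mk (nat_lit 12768) (nat_lit 32912) (nat_lit 194) (nat_lit 61710) (nat_lit 8388413) (nat_lit 0) (nat_lit 0),Row.mk (nat_lit 12936) (nat_lit 32912) (nat_lit 243) (nat_lit 61710) (nat_lit 8388364) (nat_lit 0) (nat_lit 0),Row.mk (nat_lit 13104) (nat_lit 32912) (nat_lit 303) (nat_lit 61710) (nat_lit 8388304) (nat_lit 0) (nat_lit 0),Row.mk (nat_lit 13272) (nat_lit 32912) (nat_lit 379) (nat_lit 61710) (nat_lit 8388228) (nat_lit 0)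 (nat_lit 0),Row.mk (nat_lit 13440) (nat_lit 32912) (nat_lit 473) (nat_lit 61710) (nat_lit 8388134) (nat_lit 0) (nat_lit 0),Row.mk (nat_lit 13608) (nat_lit 32912) (nat_lit 591) (nat_lit 61710) (nat_lit 8388016) (nat_lit 0) (nat_lit 0),Row.mk (nat_lit 13776) (nat_lit 32912) (nat_lit 738) (nat_lit 61710) (nat_lit 8387869) (nat_lit 0) (nat_lit 0),Row.mk (nat_lit 13944) (nat_lit 32912) (nat_lit 922) (nat_lit 61710) (nat_lit 8387685) (nat_lit 0) (nat_lit 0),Row.mk (nat_lit 14112) (nat_lit 32912) (nat_lit 1152) (nat_lit 61710) (nat_lit 8387455) (nat_lit 0) (nat_lit 0),Row.mk (nat_lit 14280) (nat_lit 32912) (nat_lit 1439) (nat_lit 61710) (nat_lit 8387168) (nat_lit 0) (nat_lit 0),Row.mk (nat_lit 14448) (nat_lit 32912) (nat_lit 1797) (nat_lit 61710) (nat_lit 8386810) (nat_lit 0) (nat_lit 0),Row.mk (nat_lit 14616) (nat_lit 32912) (nat_lit 2244) (nat_lit 61710) (nat_lit 8386363) (nat_lit 0) (nat_lit 0),Row.mk (nat_lit 14784) (nat_lit 32912) (nat_lit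 2803) (nat_lit 61710) (nat_lit 8385804) (nat_lit 0) (nat_lit 0),Row.mk (nat_lit 14952) (nat_lit 32912) (nat_lit 3501) (nat_lit 61710) (nat_lit 8385106) (nat_lit 0) (nat_lit 0),Row.mk (nat_lit 15120) (nat_lit 32912) (nat_lit 4373) (nat_lit 61710) (nat_lit 8384234) (nat_lit 0) (nat_lit 0),Row.mk (nat_lit 15288) (nat_lit 32912) (nat_lit 5462) (nat_lit 61710) (nat_lit 8383145) (nat_lit 0) (nat_lit 0),Row.mk (nat_lit 15456) (nat_lit 32912) (nat_lit 6822) (nat_lit 61710) (nat_lit 8381785) (nat_lit 0) (nat_lit 0),Row.mk (nat_lit 15624) (nat_lit 32912) (nat_lit 8521) (nat_lit 61710) (nat_lit 8380086) (nat_lit 0) (nat_lit 0),Row.mk (nat_lit 15792) (nat_lit 60962) (nat_lit 10588) (nat_lit 61336) (nat_lit 54) (nat_lit 0) (nat_lit 0),Row.mk (nat_lit 15960) (nat_lit 60401) (nat_lit 13208) (nat_lit 60775) (nat_lit 84) (nat_lit 0) (nat_lit 0),Row.mk (nat_lit 16128) (nat_lit 59840) (nat_lit 16470) (nat_lit 60214) (nat_lit 131) (nat_lit 0) (nat_lit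 0),Row.mk (nat_lit 16296) (nat_lit 59279) (nat_lit 20530) (nat_lit 59653) (nat_lit 205) (nat_lit 0) (nat_lit 0),Row.mk (nat_lit 16464) (nat_lit 58718) (nat_lit 25577) (nat_lit 59092) (nat_lit 321) (nat_lit 0) (nat_lit 0),Row.mk (nat_lit 16632) (nat_lit 58157) (nat_lit 31846) (nat_lit 58531) (nat_lit 500) (nat_lit 0) (nat_lit 0),Row.mk (nat_lit 16800) (nat_lit 57596) (nat_lit 39619) (nat_lit 57970) (nat_lit 781) (nat_lit 0) (nat_lit 0),Row.mk (nat_lit 16968) (nat_lit 57035) (nat_lit 49240) (nat_lit 57409) (nat_lit 1219) (nat_lit 0) (nat_lit 0),Row.mk (nat_lit 17136) (nat_lit 56474) (nat_lit 61121) (nat_lit 56848) (nat_lit 1901) (nat_lit 0) (nat_lit 0),Row.mk (nat_lit 17304) (nat_lit 55913) (nat_lit 75747) (nat_lit 56287) (nat_lit 2966) (nat_lit 0) (nat_lit 0),Row.mk (nat_lit 17472) (nat_lit 55352) (nat_lit 93684) (nat_lit 55726) (nat_lit 4627) (nat_lit 0) (nat_lit 0),Row.mk (nat_lit 17640) (nat_lit 54791) (nat_lit 115570) (nat_lit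 55165) (nat_lit 7219) (nat_lit 0) (nat_lit 0),Row.mk (nat_lit 17808) (nat_lit 54230) (nat_lit 142100) (nat_lit 54604) (nat_lit 11261) (nat_lit 0) (nat_lit 0),Row.mk (nat_lit 17976) (nat_lit 53669) (nat_lit 173978) (nat_lit 54043) (nat_lit 17566) (nat_lit 0) (nat_lit 0),Row.mk (nat_lit 18144) (nat_lit 53108) (nat_lit 211831) (nat_lit 53482) (nat_lit 27403) (nat_lit 0) (nat_lit 0),Row.mk (nat_lit 18312) (nat_lit 52547) (nat_lit 256051) (nat_lit 52921) (nat_lit 42747) (nat_lit 0) (nat_lit 0),Row.mk (nat_lit 18480) (nat_lit 51986) (nat_lit 306509) (nat_lit 52360) (nat_lit 66683) (nat_lit 0) (nat_lit 0),Row.mk (nat_lit 18648) (nat_lit 51425) (nat_lit 362086) (nat_lit 51799) (nat_lit 104022) (nat_lit 0) (nat_lit 0),Row.mk (nat_lit 18816) (nat_lit 50864) (nat_lit 419889) (nat_lit 51238) (nat_lit 162268) (nat_lit 0) (nat_lit 0),Row.mk (nat_lit 18984) (nat_lit 50303) (nat_lit 473972) (nat_lit 50677) (nat_lit 253129) (nat_lit 0) (nat_lit 0),Row.mk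 (nat_lit 19152) (nat_lit 49742) (nat_lit 513265) (nat_lit 50116) (nat_lit 394867) (nat_lit 0) (nat_lit 0),Row.mk (nat_lit 19320) (nat_lit 49181) (nat_lit 518265) (nat_lit 49555) (nat_lit 615970) (nat_lit 0) (nat_lit 0),Row.mk (nat_lit 19488) (nat_lit 48620) (nat_lit 455756) (nat_lit 48994) (nat_lit 960877) (nat_lit 0) (nat_lit 0),Row.mk (nat_lit 19656) (nat_lit 47872) (nat_lit 270429) (nat_lit 48433) (nat_lit 1498911) (nat_lit 0) (nat_lit 0),Row.mk (nat_lit 19824) (nat_lit 47685) (nat_lit 2107101) (nat_lit 48246) (nat_lit 102763) (nat_lit 0) (nat_lit 0),Row.mk (nat_lit 19992) (nat_lit 46750) (nat_lit 2049560) (nat_lit 47498) (nat_lit 710507) (nat_lit 0) (nat_lit 0),Row.mk (nat_lit 20160) (nat_lit 45815) (nat_lit 1651718) (nat_lit 46563) (nat_lit 1795539) (nat_lit 0) (nat_lit 0),Row.mk (nat_lit 20328) (nat_lit 44693) (nat_lit 646322) (nat_lit 45628) (nat_lit 3659218) (nat_lit 0) (nat_lit 0),Row.mk (nat_lit 20496) (nat_lit 44506) (nat_lit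 4254498) (nat_lit 45441) (nat_lit 1123018) (nat_lit 0) (nat_lit 0),Row.mk (nat_lit 20664) (nat_lit 43197) (nat_lit 2553699) (nat_lit 44319) (nat_lit 4162689) (nat_lit 0) (nat_lit 0),Row.mk (nat_lit 20832) (nat_lit 43010) (nat_lit 7495049) (nat_lit 44132) (nat_lit 893558) (nat_lit 0) (nat_lit 0),Row.mk (nat_lit 21000) (nat_lit 41327) (nat_lit 3983619) (nat_lit 42823) (nat_lit 6493549) (nat_lit 0) (nat_lit 0),Row.mk (nat_lit 21168) (nat_lit 41140) (nat_lit 10352961) (nat_lit 42636) (nat_lit 2732769) (nat_lit 0) (nat_lit 0),Row.mk (nat_lit 21336) (nat_lit 38896) (nat_lit 2453430) (nat_lit 40953) (nat_lit 13890332) (nat_lit 0) (nat_lit 0),Row.mk (nat_lit 21504) (nat_lit 38709) (nat_lit 9780664) (nat_lit 40766) (nat_lit 10632301) (nat_lit 0) (nat_lit 0),Row.mk (nat_lit 21672) (nat_lit 38522) (nat_lit 18932203) (nat_lit 40579) (nat_lit 6563098) (nat_lit 0) (nat_lit 0),Row.mk (nat_lit 21840) (nat_lit 38335) (nat_lit 30362254) (nat_lit 40392)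 (nat_lit 1480762) (nat_lit 0) (nat_lit 0),Row.mk (nat_lit 22008) (nat_lit 31603) (nat_lit 6078706) (nat_lit 38148) (nat_lit 33692452) (nat_lit 0) (nat_lit 0),Row.mk (nat_lit 22176) (nat_lit 31416) (nat_lit 15980765) (nat_lit 37961) (nat_lit 33692452) (nat_lit 0) (nat_lit 0),Row.mk (nat_lit 22344) (nat_lit 31229) (nat_lit 28348198) (nat_lit 37774) (nat_lit 33692452) (nat_lit 0) (nat_lit 0),Row.mk (nat_lit 22512) (nat_lit 31042) (nat_lit 43794824) (nat_lit 37587) (nat_lit 33692452) (nat_lit 0) (nat_lit 0),Row.mk (nat_lit 22680) (nat_lit 30855) (nat_lit 63087287) (nat_lit 37400) (nat_lit 33692452) (nat_lit 0) (nat_lit 0),Row.mk (nat_lit 22848) (nat_lit 30668) (nat_lit 87183107) (nat_lit 37213) (nat_lit 33692452) (nat_lit 0) (nat_lit 0),Row.mk (nat_lit 23016) (nat_lit 30481) (nat_lit 117278206) (nat_lit 37026) (nat_lit 33692452) (nat_lit 0) (nat_lit 0),Row.mk (nat_lit 23184) (nat_lit 30294) (nat_lit 154866258) (nat_lit 36839) (nat_lit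 33692452) (nat_lit 0) (nat_lit 0),Row.mk (nat_lit 23352) (nat_lit 30107) (nat_lit 201812828) (nat_lit 36652) (nat_lit 33692452) (nat_lit 0) (nat_lit 0),Row.mk (nat_lit 23520) (nat_lit 29920) (nat_lit 260447962) (nat_lit 36465) (nat_lit 33692452) (nat_lit 0) (nat_lit 0),Row.mk (nat_lit 23688) (nat_lit 29733) (nat_lit 333681830) (nat_lit 36278) (nat_lit 33692452) (nat_lit 0) (nat_lit 0),Row.mk (nat_lit 23856) (nat_lit 29546) (nat_lit 425149164) (nat_lit 36091) (nat_lit 33692452) (nat_lit 0) (nat_lit 0),Row.mk (nat_lit 24024) (nat_lit 29359) (nat_lit 539389658) (nat_lit 35904) (nat_lit 33692452) (nat_lit 0) (nat_lit 0),Row.mk (nat_lit 24192) (nat_lit 29172) (nat_lit 682073279) (nat_lit 35717) (nat_lit 33692452) (nat_lit 0) (nat_lit 0),Row.mk (nat_lit 24360) (nat_lit 28985) (nat_lit 860281679) (nat_lit 35530) (nat_lit 33692452) (nat_lit 0) (nat_lit 0),Row.mk (nat_lit 24528) (nat_lit 28798) (nat_lit 1082859672) (nat_lit 35343) (nat_lit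 33692452) (nat_lit 0) (nat_lit 0),Row.mk (nat_lit 24696) (nat_lit 28611) (nat_lit 1360854216) (nat_lit 35156) (nat_lit 33692452) (nat_lit 0) (nat_lit 0),Row.mk (nat_lit 24864) (nat_lit 28424) (nat_lit 1708062695) (nat_lit 34969) (nat_lit 33692452) (nat_lit 0) (nat_lit 0),Row.mk (nat_lit 25032) (nat_lit 28237) (nat_lit 2141717710) (nat_lit 34782) (nat_lit 33692452) (nat_lit 0) (nat_lit 0),Row.mk (nat_lit 25200) (nat_lit 28050) (nat_lit 2683342361) (nat_lit 34595) (nat_lit 33692452) (nat_lit 0) (nat_lit 0),Row.mk (nat_lit 25368) (nat_lit 27863) (nat_lit 3359818485) (nat_lit 34408) (nat_lit 33692452) (nat_lit 0) (nat_lit 0),Row.mk (nat_lit 25536) (nat_lit 27676) (nat_lit 4204720844) (nat_lit 34221) (nat_lit 33692452) (nat_lit 0) (nat_lit 0),Row.mk (nat_lit 25704) (nat_lit 27489) (nat_lit 5259983508) (nat_lit 34034) (nat_lit 33692452) (nat_lit 0) (nat_lit 0),Row.mk (nat_lit 25872) (nat_lit 27302) (nat_lit 6577981119) (nat_lit 33847) (nat_lit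 33692452) (nat_lit 0) (nat_lit 0),Row.mk (nat_lit 26040) (nat_lit 32912) (nat_lit 8388608) (nat_lit 62084) (nat_lit 8249432185) (nat_lit 0) (nat_lit 0)],
[Row.mk (nat_lit 10752) (nat_lit 32912) (nat_lit 13) (nat_lit 61710) (nat_lit 8388594) (nat_lit 0) (nat_lit 0),Row.mk (nat_lit 10920) (nat_lit 32912) (nat_lit 16) (nat_lit 61710) (nat_lit 8388591) (nat_lit 0) (nat_lit 0),Row.mk (nat_lit 11088) (nat_lit 32912) (nat_lit 21) (nat_lit 61710) (nat_lit 8388586) (nat_lit 0) (nat_lit 0),Row.mk (nat_lit 11256) (nat_lit 32912) (nat_lit 26) (nat_lit 61710) (nat_lit 8388581) (nat_lit 0) (nat_lit 0),Row.mk (nat_lit 11424) (nat_lit 32912) (nat_lit 32) (nat_lit 61710) (nat_lit 8388575) (nat_lit 0) (nat_lit 0),Row.mk (nat_lit 11592) (nat_lit 32912) (nat_lit 41) (nat_lit 61710) (nat_lit 8388566) (nat_lit 0) (nat_lit 0),Row.mk (nat_lit 11760) (nat_lit 32912) (nat_lit 51) (nat_lit 61710) (nat_lit 8388556) (nat_lit 0) (nat_lit 0),Row.mk (nat_lit 11928)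 (nat_lit 32912) (nat_lit 64) (nat_lit 61710) (nat_lit 8388543) (nat_lit 0) (nat_lit 0),Row.mk (nat_lit 12096) (nat_lit 32912) (nat_lit 79) (nat_lit 61710) (nat_lit 8388528) (nat_lit 0) (nat_lit 0),Row.mk (nat_lit 12264) (nat_lit 32912) (nat_lit 99) (nat_lit 61710) (nat_lit 8388508) (nat_lit 0) (nat_lit 0),Row.mk (nat_lit 12432) (nat_lit 32912) (nat_lit 124) (nat_lit 61710) (nat_lit 8388483) (nat_lit 0) (nat_lit 0),Row.mk (nat_lit 12600) (nat_lit 32912) (nat_lit 155) (nat_lit 61710) (nat_lit 8388452) (nat_lit 0) (nat_lit 0),Row.mk (nat_lit 12768) (nat_lit 32912) (nat_lit 194) (nat_lit 61710) (nat_lit 8388413) (nat_lit 0) (nat_lit 0),Row.mk (nat_lit 12936) (nat_lit 32912) (nat_lit 243) (nat_lit 61710) (nat_lit 8388364) (nat_lit 0) (nat_lit 0),Row.mk (nat_lit 13104) (nat_lit 32912) (nat_lit 303) (nat_lit 61710) (nat_lit 8388304) (nat_lit 0) (nat_lit 0),Row.mk (nat_lit 13272) (nat_lit 32912) (nat_lit 379) (nat_lit 61710) (nat_lit 8388228)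 (nat_lit 0) (nat_lit 0),Row.mk (nat_lit 13440) (nat_lit 32912) (nat_lit 473) (nat_lit 61710) (nat_lit 8388134) (nat_lit 0) (nat_lit 0),Row.mk (nat_lit 13608) (nat_lit 32912) (nat_lit 591) (nat_lit 61710) (nat_lit 8388016) (nat_lit 0) (nat_lit 0),Row.mk (nat_lit 13776) (nat_lit 32912) (nat_lit 738) (nat_lit 61710) (nat_lit 8387869) (nat_lit 0) (nat_lit 0),Row.mk (nat_lit 13944) (nat_lit 32912) (nat_lit 922) (nat_lit 61710) (nat_lit 8387685) (nat_lit 0) (nat_lit 0),Row.mk (nat_lit 14112) (nat_lit 32912) (nat_lit 1152) (nat_lit 61710) (nat_lit 8387455) (nat_lit 0) (nat_lit 0),Row.mk (nat_lit 14280) (nat_lit 32912) (nat_lit 1439) (nat_lit 61710) (nat_lit 8387168) (nat_lit 0) (nat_lit 0),Row.mk (nat_lit 14448) (nat_lit 32912) (nat_lit 1797) (nat_lit 61710) (nat_lit 8386810) (nat_lit 0) (nat_lit 0),Row.mk (nat_lit 14616) (nat_lit 32912) (nat_lit 2244) (nat_lit 61710) (nat_lit 8386363) (nat_lit 0) (nat_lit 0),Row.mk (nat_lit 14784) (nat_lit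 32912) (nat_lit 2803) (nat_lit 61710) (nat_lit 8385804) (nat_lit 0) (nat_lit 0),Row.mk (nat_lit 14952) (nat_lit 32912) (nat_lit 3501) (nat_lit 61710) (nat_lit 8385106) (nat_lit 0) (nat_lit 0),Row.mk (nat_lit 15120) (nat_lit 32912) (nat_lit 4373) (nat_lit 61710) (nat_lit 8384234) (nat_lit 0) (nat_lit 0),Row.mk (nat_lit 15288) (nat_lit 32912) (nat_lit 5462) (nat_lit 61710) (nat_lit 8383145) (nat_lit 0) (nat_lit 0),Row.mk (nat_lit 15456) (nat_lit 32912) (nat_lit 6822) (nat_lit 61710) (nat_lit 8381785) (nat_lit 0) (nat_lit 0),Row.mk (nat_lit 15624) (nat_lit 32912) (nat_lit 8521) (nat_lit 61710) (nat_lit 8380086) (nat_lit 0) (nat_lit 0),Row.mk (nat_lit 15792) (nat_lit 60962) (nat_lit 10588) (nat_lit 61336) (nat_lit 54) (nat_lit 0) (nat_lit 0),Row.mk (nat_lit 15960) (nat_lit 60401) (nat_lit 13208) (nat_lit 60775) (nat_lit 84) (nat_lit 0) (nat_lit 0),Row.mk (nat_lit 16128) (nat_lit 59840) (nat_lit 16470) (nat_lit 60214) (nat_lit 131) (nat_lit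 0) (nat_lit 0),Row.mk (nat_lit 16296) (nat_lit 59279) (nat_lit 20530) (nat_lit 59653) (nat_lit 205) (nat_lit 0) (nat_lit 0),Row.mk (nat_lit 16464) (nat_lit 58718) (nat_lit 25577) (nat_lit 59092) (nat_lit 321) (nat_lit 0) (nat_lit 0),Row.mk (nat_lit 16632) (nat_lit 58157) (nat_lit 31846) (nat_lit 58531) (nat_lit 500) (nat_lit 0) (nat_lit 0),Row.mk (nat_lit 16800) (nat_lit 57596) (nat_lit 39619) (nat_lit 57970) (nat_lit 781) (nat_lit 0) (nat_lit 0),Row.mk (nat_lit 16968) (nat_lit 57035) (nat_lit 49240) (nat_lit 57409) (nat_lit 1219) (nat_lit 0) (nat_lit 0),Row.mk (nat_lit 17136) (nat_lit 56474) (nat_lit 61121) (nat_lit 56848) (nat_lit 1901) (nat_lit 0) (nat_lit 0),Row.mk (nat_lit 17304) (nat_lit 55913) (nat_lit 75747) (nat_lit 56287) (nat_lit 2966) (nat_lit 0) (nat_lit 0),Row.mk (nat_lit 17472) (nat_lit 55352) (nat_lit 93684) (nat_lit 55726) (nat_lit 4627) (nat_lit 0) (nat_lit 0),Row.mk (nat_lit 17640) (nat_lit 54791) (nat_lit 115570)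 (nat_lit 55165) (nat_lit 7219) (nat_lit 0) (nat_lit 0),Row.mk (nat_lit 17808) (nat_lit 54230) (nat_lit 142100) (nat_lit 54604) (nat_lit 11261) (nat_lit 0) (nat_lit 0),Row.mk (nat_lit 17976) (nat_lit 53669) (nat_lit 173978) (nat_lit 54043) (nat_lit 17566) (nat_lit 0) (nat_lit 0),Row.mk (nat_lit 18144) (nat_lit 53108) (nat_lit 211831) (nat_lit 53482) (nat_lit 27403) (nat_lit 0) (nat_lit 0),Row.mk (nat_lit 18312) (nat_lit 52547) (nat_lit 256051) (nat_lit 52921) (nat_lit 42747) (nat_lit 0) (nat_lit 0),Row.mk (nat_lit 18480) (nat_lit 51986) (nat_lit 306509) (nat_lit 52360) (nat_lit 66683) (nat_lit 0) (nat_lit 0),Row.mk (nat_lit 18648) (nat_lit 51425) (nat_lit 362086) (nat_lit 51799) (nat_lit 104022) (nat_lit 0) (nat_lit 0),Row.mk (nat_lit 18816) (nat_lit 50864) (nat_lit 419889) (nat_lit 51238) (nat_lit 162268) (nat_lit 0) (nat_lit 0),Row.mk (nat_lit 18984) (nat_lit 50303) (nat_lit 473972) (nat_lit 50677) (nat_lit 253129) (nat_lit 0) (nat_lit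 0),Row.mk (nat_lit 19152) (nat_lit 49742) (nat_lit 513265) (nat_lit 50116) (nat_lit 394867) (nat_lit 0) (nat_lit 0),Row.mk (nat_lit 19320) (nat_lit 49181) (nat_lit 518265) (nat_lit 49555) (nat_lit 615970) (nat_lit 0) (nat_lit 0),Row.mk (nat_lit 19488) (nat_lit 48620) (nat_lit 455756) (nat_lit 48994) (nat_lit 960877) (nat_lit 0) (nat_lit 0),Row.mk (nat_lit 19656) (nat_lit 47872) (nat_lit 270429) (nat_lit 48433) (nat_lit 1498911) (nat_lit 0) (nat_lit 0),Row.mk (nat_lit 19824) (nat_lit 47685) (nat_lit 2107101) (nat_lit 48246) (nat_lit 102763) (nat_lit 0) (nat_lit 0),Row.mk (nat_lit 19992) (nat_lit 46750) (nat_lit 2049560) (nat_lit 47498) (nat_lit 710507) (nat_lit 0) (nat_lit 0),Row.mk (nat_lit 20160) (nat_lit 45815) (nat_lit 1651718) (nat_lit 46563) (nat_lit 1795539) (nat_lit 0) (nat_lit 0),Row.mk (nat_lit 20328) (nat_lit 44693) (nat_lit 646322) (nat_lit 45628) (nat_lit 3659218) (nat_lit 0) (nat_lit 0),Row.mk (nat_lit 20496) (nat_lit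 44506) (nat_lit 4254498) (nat_lit 45441) (nat_lit 1123018) (nat_lit 0) (nat_lit 0),Row.mk (nat_lit 20664) (nat_lit 43197) (nat_lit 2553699) (nat_lit 44319) (nat_lit 4162689) (nat_lit 0) (nat_lit 0),Row.mk (nat_lit 20832) (nat_lit 43010) (nat_lit 7495049) (nat_lit 44132) (nat_lit 893558) (nat_lit 0) (nat_lit 0),Row.mk (nat_lit 21000) (nat_lit 41327) (nat_lit 3983619) (nat_lit 42823) (nat_lit 6493549) (nat_lit 0) (nat_lit 0),Row.mk (nat_lit 21168) (nat_lit 41140) (nat_lit 10352961) (nat_lit 42636) (nat_lit 2732769) (nat_lit 0) (nat_lit 0),Row.mk (nat_lit 21336) (nat_lit 38896) (nat_lit 2453430) (nat_lit 40953) (nat_lit 13890332) (nat_lit 0) (nat_lit 0),Row.mk (nat_lit 21504) (nat_lit 38709) (nat_lit 9780664) (nat_lit 40766) (nat_lit 10632301) (nat_lit 0) (nat_lit 0),Row.mk (nat_lit 21672) (nat_lit 38522) (nat_lit 18932203) (nat_lit 40579) (nat_lit 6563098) (nat_lit 0) (nat_lit 0),Row.mk (nat_lit 21840) (nat_lit 38335) (nat_lit 30362254)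 (nat_lit 40392) (nat_lit 1480762) (nat_lit 0) (nat_lit 0),Row.mk (nat_lit 22008) (nat_lit 31603) (nat_lit 6078706) (nat_lit 38148) (nat_lit 33692452) (nat_lit 0) (nat_lit 0),Row.mk (nat_lit 22176) (nat_lit 31416) (nat_lit 15980765) (nat_lit 37961) (nat_lit 33692452) (nat_lit 0) (nat_lit 0),Row.mk (nat_lit 22344) (nat_lit 31229) (nat_lit 28348198) (nat_lit 37774) (nat_lit 33692452) (nat_lit 0) (nat_lit 0),Row.mk (nat_lit 22512) (nat_lit 31042) (nat_lit 43794824) (nat_lit 37587) (nat_lit 33692452) (nat_lit 0) (nat_lit 0),Row.mk (nat_lit 22680) (nat_lit 30855) (nat_lit 63087287) (nat_lit 37400) (nat_lit 33692452) (nat_lit 0) (nat_lit 0),Row.mk (nat_lit 22848) (nat_lit 30668) (nat_lit 87183107) (nat_lit 37213) (nat_lit 33692452) (nat_lit 0) (nat_lit 0),Row.mk (nat_lit 23016) (nat_lit 30481) (nat_lit 117278206) (nat_lit 37026) (nat_lit 33692452) (nat_lit 0) (nat_lit 0),Row.mk (nat_lit 23184) (nat_lit 30294) (nat_lit 154866258) (nat_lit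 36839) (nat_lit 33692452) (nat_lit 0) (nat_lit 0),Row.mk (nat_lit 23352) (nat_lit 30107) (nat_lit 201812828) (nat_lit 36652) (nat_lit 33692452) (nat_lit 0) (nat_lit 0),Row.mk (nat_lit 23520) (nat_lit 29920) (nat_lit 260447962) (nat_lit 36465) (nat_lit 33692452) (nat_lit 0) (nat_lit 0),Row.mk (nat_lit 23688) (nat_lit 29733) (nat_lit 333681830) (nat_lit 36278) (nat_lit 33692452) (nat_lit 0) (nat_lit 0),Row.mk (nat_lit 23856) (nat_lit 29546) (nat_lit 425149164) (nat_lit 36091) (nat_lit 33692452) (nat_lit 0) (nat_lit 0),Row.mk (nat_lit 24024) (nat_lit 29359) (nat_lit 539389658) (nat_lit 35904) (nat_lit 33692452) (nat_lit 0) (nat_lit 0),Row.mk (nat_lit 24192) (nat_lit 29172) (nat_lit 682073279) (nat_lit 35717) (nat_lit 33692452) (nat_lit 0) (nat_lit 0),Row.mk (nat_lit 24360) (nat_lit 28985) (nat_lit 860281679) (nat_lit 35530) (nat_lit 33692452) (nat_lit 0) (nat_lit 0),Row.mk (nat_lit 24528) (nat_lit 28798) (nat_lit 1082859672) (nat_lit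 35343) (nat_lit 33692452) (nat_lit 0) (nat_lit 0),Row.mk (nat_lit 24696) (nat_lit 28611) (nat_lit 1360854216) (nat_lit 35156) (nat_lit 33692452) (nat_lit 0) (nat_lit 0),Row.mk (nat_lit 24864) (nat_lit 28424) (nat_lit 1708062695) (nat_lit 34969) (nat_lit 33692452) (nat_lit 0) (nat_lit 0),Row.mk (nat_lit 25032) (nat_lit 28237) (nat_lit 2141717710) (nat_lit 34782) (nat_lit 33692452) (nat_lit 0) (nat_lit 0),Row.mk (nat_lit 25200) (nat_lit 28050) (nat_lit 2683342361) (nat_lit 34595) (nat_lit 33692452) (nat_lit 0) (nat_lit 0),Row.mk (nat_lit 25368) (nat_lit 27863) (nat_lit 3359818485) (nat_lit 34408) (nat_lit 33692452) (nat_lit 0) (nat_lit 0),Row.mk (nat_lit 25536) (nat_lit 27676) (nat_lit 4204720844) (nat_lit 34221) (nat_lit 33692452) (nat_lit 0) (nat_lit 0),Row.mk (nat_lit 25704) (nat_lit 27489) (nat_lit 5259983508) (nat_lit 34034) (nat_lit 33692452) (nat_lit 0) (nat_lit 0),Row.mk (nat_lit 25872) (nat_lit 27302) (nat_lit 6577981119) (nat_lit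 33847) (nat_lit 33692452) (nat_lit 0) (nat_lit 0),Row.mk (nat_lit 26040) (nat_lit 32912) (nat_lit 8388608) (nat_lit 62084) (nat_lit 8249432185) (nat_lit 0) (nat_lit 0)],
[Row.mk (nat_lit 10752) (nat_lit 32912) (nat_lit 13) (nat_lit 61710) (nat_lit 8388594) (nat_lit 0) (nat_lit 0),Row.mk (nat_lit 10920) (nat_lit 32912) (nat_lit 16) (nat_lit 61710) (nat_lit 8388591) (nat_lit 0) (nat_lit 0),Row.mk (nat_lit 11088) (nat_lit 32912) (nat_lit 21) (nat_lit 61710) (nat_lit 8388586) (nat_lit 0) (nat_lit 0),Row.mk (nat_lit 11256) (nat_lit 32912) (nat_lit 26) (nat_lit 61710) (nat_lit 8388581) (nat_lit 0) (nat_lit 0),Row.mk (nat_lit 11424) (nat_lit 32912) (nat_lit 32) (nat_lit 61710) (nat_lit 8388575) (nat_lit 0) (nat_lit 0),Row.mk (nat_lit 11592) (nat_lit 32912) (nat_lit 41) (nat_lit 61710) (nat_lit 8388566) (nat_lit 0) (nat_lit 0),Row.mk (nat_lit 11760) (nat_lit 32912) (nat_lit 51) (nat_lit 61710) (nat_lit 8388556) (nat_lit 0) (nat_lit 0),Row.mk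 (nat_lit 11928) (nat_lit 32912) (nat_lit 64) (nat_lit 61710) (nat_lit 8388543) (nat_lit 0) (nat_lit 0),Row.mk (nat_lit 12096) (nat_lit 32912) (nat_lit 79) (nat_lit 61710) (nat_lit 8388528) (nat_lit 0) (nat_lit 0),Row.mk (nat_lit 12264) (nat_lit 32912) (nat_lit 99) (nat_lit 61710) (nat_lit 8388508) (nat_lit 0) (nat_lit 0),Row.mk (nat_lit 12432) (nat_lit 32912) (nat_lit 124) (nat_lit 61710) (nat_lit 8388483) (nat_lit 0) (nat_lit 0),Row.mk (nat_lit 12600) (nat_lit 32912) (nat_lit 155) (nat_lit 61710) (nat_lit 8388452) (nat_lit 0) (nat_lit 0),Row.mk (nat_lit 12768) (nat_lit 32912) (nat_lit 194) (nat_lit 61710) (nat_lit 8388413) (nat_lit 0) (nat_lit 0),Row.mk (nat_lit 12936) (nat_lit 32912) (nat_lit 243) (nat_lit 61710) (nat_lit 8388364) (nat_lit 0) (nat_lit 0),Row.mk (nat_lit 13104) (nat_lit 32912) (nat_lit 303) (nat_lit 61710) (nat_lit 8388304) (nat_lit 0) (nat_lit 0),Row.mk (nat_lit 13272) (nat_lit 32912) (nat_lit 379) (nat_lit 61710)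 (nat_lit 8388228) (nat_lit 0) (nat_lit 0),Row.mk (nat_lit 13440) (nat_lit 32912) (nat_lit 473) (nat_lit 61710) (nat_lit 8388134) (nat_lit 0) (nat_lit 0),Row.mk (nat_lit 13608) (nat_lit 32912) (nat_lit 591) (nat_lit 61710) (nat_lit 8388016) (nat_lit 0) (nat_lit 0),Row.mk (nat_lit 13776) (nat_lit 32912) (nat_lit 738) (nat_lit 61710) (nat_lit 8387869) (nat_lit 0) (nat_lit 0),Row.mk (nat_lit 13944) (nat_lit 32912) (nat_lit 922) (nat_lit 61710) (nat_lit 8387685) (nat_lit 0) (nat_lit 0),Row.mk (nat_lit 14112) (nat_lit 32912) (nat_lit 1152) (nat_lit 61710) (nat_lit 8387455) (nat_lit 0) (nat_lit 0),Row.mk (nat_lit 14280) (nat_lit 32912) (nat_lit 1439) (nat_lit 61710) (nat_lit 8387168) (nat_lit 0) (nat_lit 0),Row.mk (nat_lit 14448) (nat_lit 32912) (nat_lit 1797) (nat_lit 61710) (nat_lit 8386810) (nat_lit 0) (nat_lit 0),Row.mk (nat_lit 14616) (nat_lit 32912) (nat_lit 2244) (nat_lit 61710) (nat_lit 8386363) (nat_lit 0) (nat_lit 0),Row.mk (nat_lit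 14784) (nat_lit 32912) (nat_lit 2803) (nat_lit 61710) (nat_lit 8385804) (nat_lit 0) (nat_lit 0),Row.mk (nat_lit 14952) (nat_lit 32912) (nat_lit 3501) (nat_lit 61710) (nat_lit 8385106) (nat_lit 0) (nat_lit 0),Row.mk (nat_lit 15120) (nat_lit 32912) (nat_lit 4373) (nat_lit 61710) (nat_lit 8384234) (nat_lit 0) (nat_lit 0),Row.mk (nat_lit 15288) (nat_lit 32912) (nat_lit 5462) (nat_lit 61710) (nat_lit 8383145) (nat_lit 0) (nat_lit 0),Row.mk (nat_lit 15456) (nat_lit 32912) (nat_lit 6822) (nat_lit 61710) (nat_lit 8381785) (nat_lit 0) (nat_lit 0),Row.mk (nat_lit 15624) (nat_lit 32912) (nat_lit 8521) (nat_lit 61710) (nat_lit 8380086) (nat_lit 0) (nat_lit 0),Row.mk (nat_lit 15792) (nat_lit 60962) (nat_lit 10588) (nat_lit 61336) (nat_lit 54) (nat_lit 0) (nat_lit 0),Row.mk (nat_lit 15960) (nat_lit 60401) (nat_lit 13208) (nat_lit 60775) (nat_lit 84) (nat_lit 0) (nat_lit 0),Row.mk (nat_lit 16128) (nat_lit 59840) (nat_lit 16470) (nat_lit 60214) (nat_lit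 131) (nat_lit 0) (nat_lit 0),Row.mk (nat_lit 16296) (nat_lit 59279) (nat_lit 20530) (nat_lit 59653) (nat_lit 205) (nat_lit 0) (nat_lit 0),Row.mk (nat_lit 16464) (nat_lit 58718) (nat_lit 25577) (nat_lit 59092) (nat_lit 321) (nat_lit 0) (nat_lit 0),Row.mk (nat_lit 16632) (nat_lit 58157) (nat_lit 31846) (nat_lit 58531) (nat_lit 500) (nat_lit 0) (nat_lit 0),Row.mk (nat_lit 16800) (nat_lit 57596) (nat_lit 39619) (nat_lit 57970) (nat_lit 781) (nat_lit 0) (nat_lit 0),Row.mk (nat_lit 16968) (nat_lit 57035) (nat_lit 49240) (nat_lit 57409) (nat_lit 1219) (nat_lit 0) (nat_lit 0),Row.mk (nat_lit 17136) (nat_lit 56474) (nat_lit 61121) (nat_lit 56848) (nat_lit 1901) (nat_lit 0) (nat_lit 0),Row.mk (nat_lit 17304) (nat_lit 55913) (nat_lit 75747) (nat_lit 56287) (nat_lit 2966) (nat_lit 0) (nat_lit 0),Row.mk (nat_lit 17472) (nat_lit 55352) (nat_lit 93684) (nat_lit 55726) (nat_lit 4627) (nat_lit 0) (nat_lit 0),Row.mk (nat_lit 17640) (nat_lit 54791)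 (nat_lit 115570) (nat_lit 55165) (nat_lit 7219) (nat_lit 0) (nat_lit 0),Row.mk (nat_lit 17808) (nat_lit 54230) (nat_lit 142100) (nat_lit 54604) (nat_lit 11261) (nat_lit 0) (nat_lit 0),Row.mk (nat_lit 17976) (nat_lit 53669) (nat_lit 173978) (nat_lit 54043) (nat_lit 17566) (nat_lit 0) (nat_lit 0),Row.mk (nat_lit 18144) (nat_lit 53108) (nat_lit 211831) (nat_lit 53482) (nat_lit 27403) (nat_lit 0) (nat_lit 0),Row.mk (nat_lit 18312) (nat_lit 52547) (nat_lit 256051) (nat_lit 52921) (nat_lit 42747) (nat_lit 0) (nat_lit 0),Row.mk (nat_lit 18480) (nat_lit 51986) (nat_lit 306509) (nat_lit 52360) (nat_lit 66683) (nat_lit 0) (nat_lit 0),Row.mk (nat_lit 18648) (nat_lit 51425) (nat_lit 362086) (nat_lit 51799) (nat_lit 104022) (nat_lit 0) (nat_lit 0),Row.mk (nat_lit 18816) (nat_lit 50864) (nat_lit 419889) (nat_lit 51238) (nat_lit 162268) (nat_lit 0) (nat_lit 0),Row.mk (nat_lit 18984) (nat_lit 50303) (nat_lit 473972) (nat_lit 50677) (nat_lit 253129)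 (nat_lit 0) (nat_lit 0),Row.mk (nat_lit 19152) (nat_lit 49742) (nat_lit 513265) (nat_lit 50116) (nat_lit 394867) (nat_lit 0) (nat_lit 0),Row.mk (nat_lit 19320) (nat_lit 49181) (nat_lit 518265) (nat_lit 49555) (nat_lit 615970) (nat_lit 0) (nat_lit 0),Row.mk (nat_lit 19488) (nat_lit 48620) (nat_lit 455756) (nat_lit 48994) (nat_lit 960877) (nat_lit 0) (nat_lit 0),Row.mk (nat_lit 19656) (nat_lit 47872) (nat_lit 270429) (nat_lit 48433) (nat_lit 1498911) (nat_lit 0) (nat_lit 0),Row.mk (nat_lit 19824) (nat_lit 47685) (nat_lit 2107101) (nat_lit 48246) (nat_lit 102763) (nat_lit 0) (nat_lit 0),Row.mk (nat_lit 19992) (nat_lit 46750) (nat_lit 2049560) (nat_lit 47498) (nat_lit 710507) (nat_lit 0) (nat_lit 0),Row.mk (nat_lit 20160) (nat_lit 45815) (nat_lit 1651718) (nat_lit 46563) (nat_lit 1795539) (nat_lit 0) (nat_lit 0),Row.mk (nat_lit 20328) (nat_lit 44693) (nat_lit 646322) (nat_lit 45628) (nat_lit 3659218) (nat_lit 0) (nat_lit 0),Row.mk (nat_lit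 20496) (nat_lit 44506) (nat_lit 4254498) (nat_lit 45441) (nat_lit 1123018) (nat_lit 0) (nat_lit 0),Row.mk (nat_lit 20664) (nat_lit 43197) (nat_lit 2553699) (nat_lit 44319) (nat_lit 4162689) (nat_lit 0) (nat_lit 0),Row.mk (nat_lit 20832) (nat_lit 43010) (nat_lit 7495049) (nat_lit 44132) (nat_lit 893558) (nat_lit 0) (nat_lit 0),Row.mk (nat_lit 21000) (nat_lit 41327) (nat_lit 3983619) (nat_lit 42823) (nat_lit 6493549) (nat_lit 0) (nat_lit 0),Row.mk (nat_lit 21168) (nat_lit 41140) (nat_lit 10352961) (nat_lit 42636) (nat_lit 2732769) (nat_lit 0) (nat_lit 0),Row.mk (nat_lit 21336) (nat_lit 38896) (nat_lit 2453430) (nat_lit 40953) (nat_lit 13890332) (nat_lit 0) (nat_lit 0),Row.mk (nat_lit 21504) (nat_lit 38709) (nat_lit 9780664) (nat_lit 40766) (nat_lit 10632301) (nat_lit 0) (nat_lit 0),Row.mk (nat_lit 21672) (nat_lit 38522) (nat_lit 18932203) (nat_lit 40579) (nat_lit 6563098) (nat_lit 0) (nat_lit 0),Row.mk (nat_lit 21840) (nat_lit 38335)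 (nat_lit 30362254) (nat_lit 40392) (nat_lit 1480762) (nat_lit 0) (nat_lit 0),Row.mk (nat_lit 22008) (nat_lit 31603) (nat_lit 6078706) (nat_lit 38148) (nat_lit 33692452) (nat_lit 0) (nat_lit 0),Row.mk (nat_lit 22176) (nat_lit 31416) (nat_lit 15980765) (nat_lit 37961) (nat_lit 33692452) (nat_lit 0) (nat_lit 0),Row.mk (nat_lit 22344) (nat_lit 31229) (nat_lit 28348198) (nat_lit 37774) (nat_lit 33692452) (nat_lit 0) (nat_lit 0),Row.mk (nat_lit 22512) (nat_lit 31042) (nat_lit 43794824) (nat_lit 37587) (nat_lit 33692452) (nat_lit 0) (nat_lit 0),Row.mk (nat_lit 22680) (nat_lit 30855) (nat_lit 63087287) (nat_lit 37400) (nat_lit 33692452) (nat_lit 0) (nat_lit 0),Row.mk (nat_lit 22848) (nat_lit 30668) (nat_lit 87183107) (nat_lit 37213) (nat_lit 33692452) (nat_lit 0) (nat_lit 0),Row.mk (nat_lit 23016) (nat_lit 30481) (nat_lit 117278206) (nat_lit 37026) (nat_lit 33692452) (nat_lit 0) (nat_lit 0),Row.mk (nat_lit 23184) (nat_lit 30294) (nat_lit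 154866258) (nat_lit 36839) (nat_lit 33692452) (nat_lit 0) (nat_lit 0),Row.mk (nat_lit 23352) (nat_lit 30107) (nat_lit 201812828) (nat_lit 36652) (nat_lit 33692452) (nat_lit 0) (nat_lit 0),Row.mk (nat_lit 23520) (nat_lit 29920) (nat_lit 260447962) (nat_lit 36465) (nat_lit 33692452) (nat_lit 0) (nat_lit 0),Row.mk (nat_lit 23688) (nat_lit 29733) (nat_lit 333681830) (nat_lit 36278) (nat_lit 33692452) (nat_lit 0) (nat_lit 0),Row.mk (nat_lit 23856) (nat_lit 29546) (nat_lit 425149164) (nat_lit 36091) (nat_lit 33692452) (nat_lit 0) (nat_lit 0),Row.mk (nat_lit 24024) (nat_lit 29359) (nat_lit 539389658) (nat_lit 35904) (nat_lit 33692452) (nat_lit 0) (nat_lit 0),Row.mk (nat_lit 24192) (nat_lit 29172) (nat_lit 682073279) (nat_lit 35717) (nat_lit 33692452) (nat_lit 0) (nat_lit 0),Row.mk (nat_lit 24360) (nat_lit 28985) (nat_lit 860281679) (nat_lit 35530) (nat_lit 33692452) (nat_lit 0) (nat_lit 0),Row.mk (nat_lit 24528) (nat_lit 28798) (nat_lit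 1082859672) (nat_lit 35343) (nat_lit 33692452) (nat_lit 0) (nat_lit 0),Row.mk (nat_lit 24696) (nat_lit 28611) (nat_lit 1360854216) (nat_lit 35156) (nat_lit 33692452) (nat_lit 0) (nat_lit 0),Row.mk (nat_lit 24864) (nat_lit 28424) (nat_lit 1708062695) (nat_lit 34969) (nat_lit 33692452) (nat_lit 0) (nat_lit 0),Row.mk (nat_lit 25032) (nat_lit 28237) (nat_lit 2141717710) (nat_lit 34782) (nat_lit 33692452) (nat_lit 0) (nat_lit 0),Row.mk (nat_lit 25200) (nat_lit 28050) (nat_lit 2683342361) (nat_lit 34595) (nat_lit 33692452) (nat_lit 0) (nat_lit 0),Row.mk (nat_lit 25368) (nat_lit 27863) (nat_lit 3359818485) (nat_lit 34408) (nat_lit 33692452) (nat_lit 0) (nat_lit 0),Row.mk (nat_lit 25536) (nat_lit 27676) (nat_lit 4204720844) (nat_lit 34221) (nat_lit 33692452) (nat_lit 0) (nat_lit 0),Row.mk (nat_lit 25704) (nat_lit 27489) (nat_lit 5259983508) (nat_lit 34034) (nat_lit 33692452) (nat_lit 0) (nat_lit 0),Row.mk (nat_lit 25872) (nat_lit 27302) (nat_lit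 6577981119) (nat_lit 33847) (nat_lit 33692452) (nat_lit 0) (nat_lit 0),Row.mk (nat_lit 26040) (nat_lit 32912) (nat_lit 8388608) (nat_lit 62084) (nat_lit 8249432185) (nat_lit 0) (nat_lit 0)],
[Row.mk (nat_lit 10752) (nat_lit 32912) (nat_lit 13) (nat_lit 61710) (nat_lit 8388594) (nat_lit 0) (nat_lit 0),Row.mk (nat_lit 10920) (nat_lit 32912) (nat_lit 16) (nat_lit 61710) (nat_lit 8388591) (nat_lit 0) (nat_lit 0),Row.mk (nat_lit 11088) (nat_lit 32912) (nat_lit 21) (nat_lit 61710) (nat_lit 8388586) (nat_lit 0) (nat_lit 0),Row.mk (nat_lit 11256) (nat_lit 32912) (nat_lit 26) (nat_lit 61710) (nat_lit 8388581) (nat_lit 0) (nat_lit 0),Row.mk (nat_lit 11424) (nat_lit 32912) (nat_lit 32) (nat_lit 61710) (nat_lit 8388575) (nat_lit 0) (nat_lit 0),Row.mk (nat_lit 11592) (nat_lit 32912) (nat_lit 41) (nat_lit 61710) (nat_lit 8388566) (nat_lit 0) (nat_lit 0),Row.mk (nat_lit 11760) (nat_lit 32912) (nat_lit 51) (nat_lit 61710) (nat_lit 8388556) (nat_lit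 0) (nat_lit 0),Row.mk (nat_lit 11928) (nat_lit 32912) (nat_lit 64) (nat_lit 61710) (nat_lit 8388543) (nat_lit 0) (nat_lit 0),Row.mk (nat_lit 12096) (nat_lit 32912) (nat_lit 79) (nat_lit 61710) (nat_lit 8388528) (nat_lit 0) (nat_lit 0),Row.mk (nat_lit 12264) (nat_lit 32912) (nat_lit 99) (nat_lit 61710) (nat_lit 8388508) (nat_lit 0) (nat_lit 0),Row.mk (nat_lit 12432) (nat_lit 32912) (nat_lit 124) (nat_lit 61710) (nat_lit 8388483) (nat_lit 0) (nat_lit 0),Row.mk (nat_lit 12600) (nat_lit 32912) (nat_lit 155) (nat_lit 61710) (nat_lit 8388452) (nat_lit 0) (nat_lit 0),Row.mk (nat_lit 12768) (nat_lit 32912) (nat_lit 194) (nat_lit 61710) (nat_lit 8388413) (nat_lit 0) (nat_lit 0),Row.mk (nat_lit 12936) (nat_lit 32912) (nat_lit 243) (nat_lit 61710) (nat_lit 8388364) (nat_lit 0) (nat_lit 0),Row.mk (nat_lit 13104) (nat_lit 32912) (nat_lit 303) (nat_lit 61710) (nat_lit 8388304) (nat_lit 0) (nat_lit 0),Row.mk (nat_lit 13272) (nat_lit 32912) (nat_lit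 379) (nat_lit 61710) (nat_lit 8388228) (nat_lit 0) (nat_lit 0),Row.mk (nat_lit 13440) (nat_lit 32912) (nat_lit 473) (nat_lit 61710) (nat_lit 8388134) (nat_lit 0) (nat_lit 0),Row.mk (nat_lit 13608) (nat_lit 32912) (nat_lit 591) (nat_lit 61710) (nat_lit 8388016) (nat_lit 0) (nat_lit 0),Row.mk (nat_lit 13776) (nat_lit 32912) (nat_lit 738) (nat_lit 61710) (nat_lit 8387869) (nat_lit 0) (nat_lit 0),Row.mk (nat_lit 13944) (nat_lit 32912) (nat_lit 922) (nat_lit 61710) (nat_lit 8387685) (nat_lit 0) (nat_lit 0),Row.mk (nat_lit 14112) (nat_lit 32912) (nat_lit 1152) (nat_lit 61710) (nat_lit 8387455) (nat_lit 0) (nat_lit 0),Row.mk (nat_lit 14280) (nat_lit 32912) (nat_lit 1439) (nat_lit 61710) (nat_lit 8387168) (nat_lit 0) (nat_lit 0),Row.mk (nat_lit 14448) (nat_lit 32912) (nat_lit 1797) (nat_lit 61710) (nat_lit 8386810) (nat_lit 0) (nat_lit 0),Row.mk (nat_lit 14616) (nat_lit 32912) (nat_lit 2244) (nat_lit 61710) (nat_lit 8386363) (nat_lit 0) (nat_lit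 0),Row.mk (nat_lit 14784) (nat_lit 32912) (nat_lit 2803) (nat_lit 61710) (nat_lit 8385804) (nat_lit 0) (nat_lit 0),Row.mk (nat_lit 14952) (nat_lit 32912) (nat_lit 3501) (nat_lit 61710) (nat_lit 8385106) (nat_lit 0) (nat_lit 0),Row.mk (nat_lit 15120) (nat_lit 32912) (nat_lit 4373) (nat_lit 61710) (nat_lit 8384234) (nat_lit 0) (nat_lit 0),Row.mk (nat_lit 15288) (nat_lit 32912) (nat_lit 5462) (nat_lit 61710) (nat_lit 8383145) (nat_lit 0) (nat_lit 0),Row.mk (nat_lit 15456) (nat_lit 32912) (nat_lit 6822) (nat_lit 61710) (nat_lit 8381785) (nat_lit 0) (nat_lit 0),Row.mk (nat_lit 15624) (nat_lit 32912) (nat_lit 8521) (nat_lit 61710) (nat_lit 8380086) (nat_lit 0) (nat_lit 0),Row.mk (nat_lit 15792) (nat_lit 60962) (nat_lit 10588) (nat_lit 61336) (nat_lit 54) (nat_lit 0) (nat_lit 0),Row.mk (nat_lit 15960) (nat_lit 60401) (nat_lit 13208) (nat_lit 60775) (nat_lit 84) (nat_lit 0) (nat_lit 0),Row.mk (nat_lit 16128) (nat_lit 59840) (nat_lit 16470)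 (nat_lit 60214) (nat_lit 131) (nat_lit 0) (nat_lit 0),Row.mk (nat_lit 16296) (nat_lit 59279) (nat_lit 20530) (nat_lit 59653) (nat_lit 205) (nat_lit 0) (nat_lit 0),Row.mk (nat_lit 16464) (nat_lit 58718) (nat_lit 25577) (nat_lit 59092) (nat_lit 321) (nat_lit 0) (nat_lit 0),Row.mk (nat_lit 16632) (nat_lit 58157) (nat_lit 31846) (nat_lit 58531) (nat_lit 500) (nat_lit 0) (nat_lit 0),Row.mk (nat_lit 16800) (nat_lit 57596) (nat_lit 39619) (nat_lit 57970) (nat_lit 781) (nat_lit 0) (nat_lit 0),Row.mk (nat_lit 16968) (nat_lit 57035) (nat_lit 49240) (nat_lit 57409) (nat_lit 1219) (nat_lit 0) (nat_lit 0),Row.mk (nat_lit 17136) (nat_lit 56474) (nat_lit 61121) (nat_lit 56848) (nat_lit 1901) (nat_lit 0) (nat_lit 0),Row.mk (nat_lit 17304) (nat_lit 55913) (nat_lit 75747) (nat_lit 56287) (nat_lit 2966) (nat_lit 0) (nat_lit 0),Row.mk (nat_lit 17472) (nat_lit 55352) (nat_lit 93684) (nat_lit 55726) (nat_lit 4627) (nat_lit 0) (nat_lit 0),Row.mk (nat_lit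 17640) (nat_lit 54791) (nat_lit 115570) (nat_lit 55165) (nat_lit 7219) (nat_lit 0) (nat_lit 0),Row.mk (nat_lit 17808) (nat_lit 54230) (nat_lit 142100) (nat_lit 54604) (nat_lit 11261) (nat_lit 0) (nat_lit 0),Row.mk (nat_lit 17976) (nat_lit 53669) (nat_lit 173978) (nat_lit 54043) (nat_lit 17566) (nat_lit 0) (nat_lit 0),Row.mk (nat_lit 18144) (nat_lit 53108) (nat_lit 211831) (nat_lit 53482) (nat_lit 27403) (nat_lit 0) (nat_lit 0),Row.mk (nat_lit 18312) (nat_lit 52547) (nat_lit 256051) (nat_lit 52921) (nat_lit 42747) (nat_lit 0) (nat_lit 0),Row.mk (nat_lit 18480) (nat_lit 51986) (nat_lit 306509) (nat_lit 52360) (nat_lit 66683) (nat_lit 0) (nat_lit 0),Row.mk (nat_lit 18648) (nat_lit 51425) (nat_lit 362086) (nat_lit 51799) (nat_lit 104022) (nat_lit 0) (nat_lit 0),Row.mk (nat_lit 18816) (nat_lit 50864) (nat_lit 419889) (nat_lit 51238) (nat_lit 162268) (nat_lit 0) (nat_lit 0),Row.mk (nat_lit 18984) (nat_lit 50303) (nat_lit 473972) (nat_lit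 50677) (nat_lit 253129) (nat_lit 0) (nat_lit 0),Row.mk (nat_lit 19152) (nat_lit 49742) (nat_lit 513265) (nat_lit 50116) (nat_lit 394867) (nat_lit 0) (nat_lit 0),Row.mk (nat_lit 19320) (nat_lit 49181) (nat_lit 518265) (nat_lit 49555) (nat_lit 615970) (nat_lit 0) (nat_lit 0),Row.mk (nat_lit 19488) (nat_lit 48620) (nat_lit 455756) (nat_lit 48994) (nat_lit 960877) (nat_lit 0) (nat_lit 0),Row.mk (nat_lit 19656) (nat_lit 47872) (nat_lit 270429) (nat_lit 48433) (nat_lit 1498911) (nat_lit 0) (nat_lit 0),Row.mk (nat_lit 19824) (nat_lit 47685) (nat_lit 2107101) (nat_lit 48246) (nat_lit 102763) (nat_lit 0) (nat_lit 0),Row.mk (nat_lit 19992) (nat_lit 46750) (nat_lit 2049560) (nat_lit 47498) (nat_lit 710507) (nat_lit 0) (nat_lit 0),Row.mk (nat_lit 20160) (nat_lit 45815) (nat_lit 1651718) (nat_lit 46563) (nat_lit 1795539) (nat_lit 0) (nat_lit 0),Row.mk (nat_lit 20328) (nat_lit 44693) (nat_lit 646322) (nat_lit 45628) (nat_lit 3659218) (nat_lit 0)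 (nat_lit 0),Row.mk (nat_lit 20496) (nat_lit 44506) (nat_lit 4254498) (nat_lit 45441) (nat_lit 1123018) (nat_lit 0) (nat_lit 0),Row.mk (nat_lit 20664) (nat_lit 43197) (nat_lit 2553699) (nat_lit 44319) (nat_lit 4162689) (nat_lit 0) (nat_lit 0),Row.mk (nat_lit 20832) (nat_lit 43010) (nat_lit 7495049) (nat_lit 44132) (nat_lit 893558) (nat_lit 0) (nat_lit 0),Row.mk (nat_lit 21000) (nat_lit 41327) (nat_lit 3983619) (nat_lit 42823) (nat_lit 6493549) (nat_lit 0) (nat_lit 0),Row.mk (nat_lit 21168) (nat_lit 41140) (nat_lit 10352961) (nat_lit 42636) (nat_lit 2732769) (nat_lit 0) (nat_lit 0),Row.mk (nat_lit 21336) (nat_lit 38896) (nat_lit 2453430) (nat_lit 40953) (nat_lit 13890332) (nat_lit 0) (nat_lit 0),Row.mk (nat_lit 21504) (nat_lit 38709) (nat_lit 9780664) (nat_lit 40766) (nat_lit 10632301) (nat_lit 0) (nat_lit 0),Row.mk (nat_lit 21672) (nat_lit 38522) (nat_lit 18932203) (nat_lit 40579) (nat_lit 6563098) (nat_lit 0) (nat_lit 0),Row.mk (nat_lit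 21840) (nat_lit 38335) (nat_lit 30362254) (nat_lit 40392) (nat_lit 1480762) (nat_lit 0) (nat_lit 0),Row.mk (nat_lit 22008) (nat_lit 31603) (nat_lit 6078706) (nat_lit 38148) (nat_lit 33692452) (nat_lit 0) (nat_lit 0),Row.mk (nat_lit 22176) (nat_lit 31416) (nat_lit 15980765) (nat_lit 37961) (nat_lit 33692452) (nat_lit 0) (nat_lit 0),Row.mk (nat_lit 22344) (nat_lit 31229) (nat_lit 28348198) (nat_lit 37774) (nat_lit 33692452) (nat_lit 0) (nat_lit 0),Row.mk (nat_lit 22512) (nat_lit 31042) (nat_lit 43794824) (nat_lit 37587) (nat_lit 33692452) (nat_lit 0) (nat_lit 0),Row.mk (nat_lit 22680) (nat_lit 30855) (nat_lit 63087287) (nat_lit 37400) (nat_lit 33692452) (nat_lit 0) (nat_lit 0),Row.mk (nat_lit 22848) (nat_lit 30668) (nat_lit 87183107) (nat_lit 37213) (nat_lit 33692452) (nat_lit 0) (nat_lit 0),Row.mk (nat_lit 23016) (nat_lit 30481) (nat_lit 117278206) (nat_lit 37026) (nat_lit 33692452) (nat_lit 0) (nat_lit 0),Row.mk (nat_lit 23184) (nat_lit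 30294) (nat_lit 154866258) (nat_lit 36839) (nat_lit 33692452) (nat_lit 0) (nat_lit 0),Row.mk (nat_lit 23352) (nat_lit 30107) (nat_lit 201812828) (nat_lit 36652) (nat_lit 33692452) (nat_lit 0) (nat_lit 0),Row.mk (nat_lit 23520) (nat_lit 29920) (nat_lit 260447962) (nat_lit 36465) (nat_lit 33692452) (nat_lit 0) (nat_lit 0),Row.mk (nat_lit 23688) (nat_lit 29733) (nat_lit 333681830) (nat_lit 36278) (nat_lit 33692452) (nat_lit 0) (nat_lit 0),Row.mk (nat_lit 23856) (nat_lit 29546) (nat_lit 425149164) (nat_lit 36091) (nat_lit 33692452) (nat_lit 0) (nat_lit 0),Row.mk (nat_lit 24024) (nat_lit 29359) (nat_lit 539389658) (nat_lit 35904) (nat_lit 33692452) (nat_lit 0) (nat_lit 0),Row.mk (nat_lit 24192) (nat_lit 29172) (nat_lit 682073279) (nat_lit 35717) (nat_lit 33692452) (nat_lit 0) (nat_lit 0),Row.mk (nat_lit 24360) (nat_lit 28985) (nat_lit 860281679) (nat_lit 35530) (nat_lit 33692452) (nat_lit 0) (nat_lit 0),Row.mk (nat_lit 24528) (nat_lit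 28798) (nat_lit 1082859672) (nat_lit 35343) (nat_lit 33692452) (nat_lit 0) (nat_lit 0),Row.mk (nat_lit 24696) (nat_lit 28611) (nat_lit 1360854216) (nat_lit 35156) (nat_lit 33692452) (nat_lit 0) (nat_lit 0),Row.mk (nat_lit 24864) (nat_lit 28424) (nat_lit 1708062695) (nat_lit 34969) (nat_lit 33692452) (nat_lit 0) (nat_lit 0),Row.mk (nat_lit 25032) (nat_lit 28237) (nat_lit 2141717710) (nat_lit 34782) (nat_lit 33692452) (nat_lit 0) (nat_lit 0),Row.mk (nat_lit 25200) (nat_lit 28050) (nat_lit 2683342361) (nat_lit 34595) (nat_lit 33692452) (nat_lit 0) (nat_lit 0),Row.mk (nat_lit 25368) (nat_lit 27863) (nat_lit 3359818485) (nat_lit 34408) (nat_lit 33692452) (nat_lit 0) (nat_lit 0),Row.mk (nat_lit 25536) (nat_lit 27676) (nat_lit 4204720844) (nat_lit 34221) (nat_lit 33692452) (nat_lit 0) (nat_lit 0),Row.mk (nat_lit 25704) (nat_lit 27489) (nat_lit 5259983508) (nat_lit 34034) (nat_lit 33692452) (nat_lit 0) (nat_lit 0),Row.mk (nat_lit 25872) (nat_lit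 27302) (nat_lit 6577981119) (nat_lit 33847) (nat_lit 33692452) (nat_lit 0) (nat_lit 0),Row.mk (nat_lit 26040) (nat_lit 32912) (nat_lit 8388608) (nat_lit 62084) (nat_lit 8249432185) (nat_lit 0) (nat_lit 0)],
[Row.mk (nat_lit 10752) (nat_lit 32912) (nat_lit 13) (nat_lit 61710) (nat_lit 8388594) (nat_lit 0) (nat_lit 0),Row.mk (nat_lit 10920) (nat_lit 32912) (nat_lit 16) (nat_lit 61710) (nat_lit 8388591) (nat_lit 0) (nat_lit 0),Row.mk (nat_lit 11088) (nat_lit 32912) (nat_lit 21) (nat_lit 61710) (nat_lit 8388586) (nat_lit 0) (nat_lit 0),Row.mk (nat_lit 11256) (nat_lit 32912) (nat_lit 26) (nat_lit 61710) (nat_lit 8388581) (nat_lit 0) (nat_lit 0),Row.mk (nat_lit 11424) (nat_lit 32912) (nat_lit 32) (nat_lit 61710) (nat_lit 8388575) (nat_lit 0) (nat_lit 0),Row.mk (nat_lit 11592) (nat_lit 32912) (nat_lit 41) (nat_lit 61710) (nat_lit 8388566) (nat_lit 0) (nat_lit 0),Row.mk (nat_lit 11760) (nat_lit 32912) (nat_lit 51) (nat_lit 61710) (nat_lit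 8388556) (nat_lit 0) (nat_lit 0),Row.mk (nat_lit 11928) (nat_lit 32912) (nat_lit 64) (nat_lit 61710) (nat_lit 8388543) (nat_lit 0) (nat_lit 0),Row.mk (nat_lit 12096) (nat_lit 32912) (nat_lit 79) (nat_lit 61710) (nat_lit 8388528) (nat_lit 0) (nat_lit 0),Row.mk (nat_lit 12264) (nat_lit 32912) (nat_lit 99) (nat_lit 61710) (nat_lit 8388508) (nat_lit 0) (nat_lit 0),Row.mk (nat_lit 12432) (nat_lit 32912) (nat_lit 124) (nat_lit 61710) (nat_lit 8388483) (nat_lit 0) (nat_lit 0),Row.mk (nat_lit 12600) (nat_lit 32912) (nat_lit 155) (nat_lit 61710) (nat_lit 8388452) (nat_lit 0) (nat_lit 0),Row.mk (nat_lit 12768) (nat_lit 32912) (nat_lit 194) (nat_lit 61710) (nat_lit 8388413) (nat_lit 0) (nat_lit 0),Row.mk (nat_lit 12936) (nat_lit 32912) (nat_lit 243) (nat_lit 61710) (nat_lit 8388364) (nat_lit 0) (nat_lit 0),Row.mk (nat_lit 13104) (nat_lit 32912) (nat_lit 303) (nat_lit 61710) (nat_lit 8388304) (nat_lit 0) (nat_lit 0),Row.mk (nat_lit 13272) (nat_lit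 32912) (nat_lit 379) (nat_lit 61710) (nat_lit 8388228) (nat_lit 0) (nat_lit 0),Row.mk (nat_lit 13440) (nat_lit 32912) (nat_lit 473) (nat_lit 61710) (nat_lit 8388134) (nat_lit 0) (nat_lit 0),Row.mk (nat_lit 13608) (nat_lit 32912) (nat_lit 591) (nat_lit 61710) (nat_lit 8388016) (nat_lit 0) (nat_lit 0),Row.mk (nat_lit 13776) (nat_lit 32912) (nat_lit 738) (nat_lit 61710) (nat_lit 8387869) (nat_lit 0) (nat_lit 0),Row.mk (nat_lit 13944) (nat_lit 32912) (nat_lit 922) (nat_lit 61710) (nat_lit 8387685) (nat_lit 0) (nat_lit 0),Row.mk (nat_lit 14112) (nat_lit 32912) (nat_lit 1152) (nat_lit 61710) (nat_lit 8387455) (nat_lit 0) (nat_lit 0),Row.mk (nat_lit 14280) (nat_lit 32912) (nat_lit 1439) (nat_lit 61710) (nat_lit 8387168) (nat_lit 0) (nat_lit 0),Row.mk (nat_lit 14448) (nat_lit 32912) (nat_lit 1797) (nat_lit 61710) (nat_lit 8386810) (nat_lit 0) (nat_lit 0),Row.mk (nat_lit 14616) (nat_lit 32912) (nat_lit 2244) (nat_lit 61710) (nat_lit 8386363)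 (nat_lit 0) (nat_lit 0),Row.mk (nat_lit 14784) (nat_lit 32912) (nat_lit 2803) (nat_lit 61710) (nat_lit 8385804) (nat_lit 0) (nat_lit 0),Row.mk (nat_lit 14952) (nat_lit 32912) (nat_lit 3501) (nat_lit 61710) (nat_lit 8385106) (nat_lit 0) (nat_lit 0),Row.mk (nat_lit 15120) (nat_lit 32912) (nat_lit 4373) (nat_lit 61710) (nat_lit 8384234) (nat_lit 0) (nat_lit 0),Row.mk (nat_lit 15288) (nat_lit 32912) (nat_lit 5462) (nat_lit 61710) (nat_lit 8383145) (nat_lit 0) (nat_lit 0),Row.mk (nat_lit 15456) (nat_lit 32912) (nat_lit 6822) (nat_lit 61710) (nat_lit 8381785) (nat_lit 0) (nat_lit 0),Row.mk (nat_lit 15624) (nat_lit 32912) (nat_lit 8521) (nat_lit 61710) (nat_lit 8380086) (nat_lit 0) (nat_lit 0),Row.mk (nat_lit 15792) (nat_lit 60962) (nat_lit 10588) (nat_lit 61336) (nat_lit 54) (nat_lit 0) (nat_lit 0),Row.mk (nat_lit 15960) (nat_lit 60401) (nat_lit 13208) (nat_lit 60775) (nat_lit 84) (nat_lit 0) (nat_lit 0),Row.mk (nat_lit 16128) (nat_lit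 59840) (nat_lit 16470) (nat_lit 60214) (nat_lit 131) (nat_lit 0) (nat_lit 0),Row.mk (nat_lit 16296) (nat_lit 59279) (nat_lit 20530) (nat_lit 59653) (nat_lit 205) (nat_lit 0) (nat_lit 0),Row.mk (nat_lit 16464) (nat_lit 58718) (nat_lit 25577) (nat_lit 59092) (nat_lit 321) (nat_lit 0) (nat_lit 0),Row.mk (nat_lit 16632) (nat_lit 58157) (nat_lit 31846) (nat_lit 58531) (nat_lit 500) (nat_lit 0) (nat_lit 0),Row.mk (nat_lit 16800) (nat_lit 57596) (nat_lit 39619) (nat_lit 57970) (nat_lit 781) (nat_lit 0) (nat_lit 0),Row.mk (nat_lit 16968) (nat_lit 57035) (nat_lit 49240) (nat_lit 57409) (nat_lit 1219) (nat_lit 0) (nat_lit 0),Row.mk (nat_lit 17136) (nat_lit 56474) (nat_lit 61121) (nat_lit 56848) (nat_lit 1901) (nat_lit 0) (nat_lit 0),Row.mk (nat_lit 17304) (nat_lit 55913) (nat_lit 75747) (nat_lit 56287) (nat_lit 2966) (nat_lit 0) (nat_lit 0),Row.mk (nat_lit 17472) (nat_lit 55352) (nat_lit 93684) (nat_lit 55726) (nat_lit 4627) (nat_lit 0) (nat_lit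 0),Row.mk (nat_lit 17640) (nat_lit 54791) (nat_lit 115570) (nat_lit 55165) (nat_lit 7219) (nat_lit 0) (nat_lit 0),Row.mk (nat_lit 17808) (nat_lit 54230) (nat_lit 142100) (nat_lit 54604) (nat_lit 11261) (nat_lit 0) (nat_lit 0),Row.mk (nat_lit 17976) (nat_lit 53669) (nat_lit 173978) (nat_lit 54043) (nat_lit 17566) (nat_lit 0) (nat_lit 0),Row.mk (nat_lit 18144) (nat_lit 53108) (nat_lit 211831) (nat_lit 53482) (nat_lit 27403) (nat_lit 0) (nat_lit 0),Row.mk (nat_lit 18312) (nat_lit 52547) (nat_lit 256051) (nat_lit 52921) (nat_lit 42747) (nat_lit 0) (nat_lit 0),Row.mk (nat_lit 18480) (nat_lit 51986) (nat_lit 306509) (nat_lit 52360) (nat_lit 66683) (nat_lit 0) (nat_lit 0),Row.mk (nat_lit 18648) (nat_lit 51425) (nat_lit 362086) (nat_lit 51799) (nat_lit 104022) (nat_lit 0) (nat_lit 0),Row.mk (nat_lit 18816) (nat_lit 50864) (nat_lit 419889) (nat_lit 51238) (nat_lit 162268) (nat_lit 0) (nat_lit 0),Row.mk (nat_lit 18984) (nat_lit 50303) (nat_lit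 473972) (nat_lit 50677) (nat_lit 253129) (nat_lit 0) (nat_lit 0),Row.mk (nat_lit 19152) (nat_lit 49742) (nat_lit 513265) (nat_lit 50116) (nat_lit 394867) (nat_lit 0) (nat_lit 0),Row.mk (nat_lit 19320) (nat_lit 49181) (nat_lit 518265) (nat_lit 49555) (nat_lit 615970) (nat_lit 0) (nat_lit 0),Row.mk (nat_lit 19488) (nat_lit 48620) (nat_lit 455756) (nat_lit 48994) (nat_lit 960877) (nat_lit 0) (nat_lit 0),Row.mk (nat_lit 19656) (nat_lit 47872) (nat_lit 270429) (nat_lit 48433) (nat_lit 1498911) (nat_lit 0) (nat_lit 0),Row.mk (nat_lit 19824) (nat_lit 47685) (nat_lit 2107101) (nat_lit 48246) (nat_lit 102763) (nat_lit 0) (nat_lit 0),Row.mk (nat_lit 19992) (nat_lit 46750) (nat_lit 2049560) (nat_lit 47498) (nat_lit 710507) (nat_lit 0) (nat_lit 0),Row.mk (nat_lit 20160) (nat_lit 45815) (nat_lit 1651718) (nat_lit 46563) (nat_lit 1795539) (nat_lit 0) (nat_lit 0),Row.mk (nat_lit 20328) (nat_lit 44693) (nat_lit 646322) (nat_lit 45628) (nat_lit 3659218)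 (nat_lit 0) (nat_lit 0),Row.mk (nat_lit 20496) (nat_lit 44506) (nat_lit 4254498) (nat_lit 45441) (nat_lit 1123018) (nat_lit 0) (nat_lit 0),Row.mk (nat_lit 20664) (nat_lit 43197) (nat_lit 2553699) (nat_lit 44319) (nat_lit 4162689) (nat_lit 0) (nat_lit 0),Row.mk (nat_lit 20832) (nat_lit 43010) (nat_lit 7495049) (nat_lit 44132) (nat_lit 893558) (nat_lit 0) (nat_lit 0),Row.mk (nat_lit 21000) (nat_lit 41327) (nat_lit 3983619) (nat_lit 42823) (nat_lit 6493549) (nat_lit 0) (nat_lit 0),Row.mk (nat_lit 21168) (nat_lit 41140) (nat_lit 10352961) (nat_lit 42636) (nat_lit 2732769) (nat_lit 0) (nat_lit 0),Row.mk (nat_lit 21336) (nat_lit 38896) (nat_lit 2453430) (nat_lit 40953) (nat_lit 13890332) (nat_lit 0) (nat_lit 0),Row.mk (nat_lit 21504) (nat_lit 38709) (nat_lit 9780664) (nat_lit 40766) (nat_lit 10632301) (nat_lit 0) (nat_lit 0),Row.mk (nat_lit 21672) (nat_lit 38522) (nat_lit 18932203) (nat_lit 40579) (nat_lit 6563098) (nat_lit 0) (nat_lit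 0),Row.mk (nat_lit 21840) (nat_lit 38335) (nat_lit 30362254) (nat_lit 40392) (nat_lit 1480762) (nat_lit 0) (nat_lit 0),Row.mk (nat_lit 22008) (nat_lit 31603) (nat_lit 6078706) (nat_lit 38148) (nat_lit 33692452) (nat_lit 0) (nat_lit 0),Row.mk (nat_lit 22176) (nat_lit 31416) (nat_lit 15980765) (nat_lit 37961) (nat_lit 33692452) (nat_lit 0) (nat_lit 0),Row.mk (nat_lit 22344) (nat_lit 31229) (nat_lit 28348198) (nat_lit 37774) (nat_lit 33692452) (nat_lit 0) (nat_lit 0),Row.mk (nat_lit 22512) (nat_lit 31042) (nat_lit 43794824) (nat_lit 37587) (nat_lit 33692452) (nat_lit 0) (nat_lit 0),Row.mk (nat_lit 22680) (nat_lit 30855) (nat_lit 63087287) (nat_lit 37400) (nat_lit 33692452) (nat_lit 0) (nat_lit 0),Row.mk (nat_lit 22848) (nat_lit 30668) (nat_lit 87183107) (nat_lit 37213) (nat_lit 33692452) (nat_lit 0) (nat_lit 0),Row.mk (nat_lit 23016) (nat_lit 30481) (nat_lit 117278206) (nat_lit 37026) (nat_lit 33692452) (nat_lit 0) (nat_lit 0),Row.mk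 (nat_lit 23184) (nat_lit 30294) (nat_lit 154866258) (nat_lit 36839) (nat_lit 33692452) (nat_lit 0) (nat_lit 0),Row.mk (nat_lit 23352) (nat_lit 30107) (nat_lit 201812828) (nat_lit 36652) (nat_lit 33692452) (nat_lit 0) (nat_lit 0),Row.mk (nat_lit 23520) (nat_lit 29920) (nat_lit 260447962) (nat_lit 36465) (nat_lit 33692452) (nat_lit 0) (nat_lit 0),Row.mk (nat_lit 23688) (nat_lit 29733) (nat_lit 333681830) (nat_lit 36278) (nat_lit 33692452) (nat_lit 0) (nat_lit 0),Row.mk (nat_lit 23856) (nat_lit 29546) (nat_lit 425149164) (nat_lit 36091) (nat_lit 33692452) (nat_lit 0) (nat_lit 0),Row.mk (nat_lit 24024) (nat_lit 29359) (nat_lit 539389658) (nat_lit 35904) (nat_lit 33692452) (nat_lit 0) (nat_lit 0),Row.mk (nat_lit 24192) (nat_lit 29172) (nat_lit 682073279) (nat_lit 35717) (nat_lit 33692452) (nat_lit 0) (nat_lit 0),Row.mk (nat_lit 24360) (nat_lit 28985) (nat_lit 860281679) (nat_lit 35530) (nat_lit 33692452) (nat_lit 0) (nat_lit 0),Row.mk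 (nat_lit 24528) (nat_lit 28798) (nat_lit 1082859672) (nat_lit 35343) (nat_lit 33692452) (nat_lit 0) (nat_lit 0),Row.mk (nat_lit 24696) (nat_lit 28611) (nat_lit 1360854216) (nat_lit 35156) (nat_lit 33692452) (nat_lit 0) (nat_lit 0),Row.mk (nat_lit 24864) (nat_lit 28424) (nat_lit 1708062695) (nat_lit 34969) (nat_lit 33692452) (nat_lit 0) (nat_lit 0),Row.mk (nat_lit 25032) (nat_lit 28237) (nat_lit 2141717710) (nat_lit 34782) (nat_lit 33692452) (nat_lit 0) (nat_lit 0),Row.mk (nat_lit 25200) (nat_lit 28050) (nat_lit 2683342361) (nat_lit 34595) (nat_lit 33692452) (nat_lit 0) (nat_lit 0),Row.mk (nat_lit 25368) (nat_lit 27863) (nat_lit 3359818485) (nat_lit 34408) (nat_lit 33692452) (nat_lit 0) (nat_lit 0),Row.mk (nat_lit 25536) (nat_lit 27676) (nat_lit 4204720844) (nat_lit 34221) (nat_lit 33692452) (nat_lit 0) (nat_lit 0),Row.mk (nat_lit 25704) (nat_lit 27489) (nat_lit 5259983508) (nat_lit 34034) (nat_lit 33692452) (nat_lit 0) (nat_lit 0),Row.mk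 (nat_lit 25872) (nat_lit 27302) (nat_lit 6577981119) (nat_lit 33847) (nat_lit 33692452) (nat_lit 0) (nat_lit 0),Row.mk (nat_lit 26040) (nat_lit 32912) (nat_lit 8388608) (nat_lit 62084) (nat_lit 8249432185) (nat_lit 0) (nat_lit 0)],
[Row.mk (nat_lit 10752) (nat_lit 32912) (nat_lit 13) (nat_lit 61710) (nat_lit 8388594) (nat_lit 0) (nat_lit 0),Row.mk (nat_lit 10920) (nat_lit 32912) (nat_lit 16) (nat_lit 61710) (nat_lit 8388591) (nat_lit 0) (nat_lit 0),Row.mk (nat_lit 11088) (nat_lit 32912) (nat_lit 21) (nat_lit 61710) (nat_lit 8388586) (nat_lit 0) (nat_lit 0),Row.mk (nat_lit 11256) (nat_lit 32912) (nat_lit 26) (nat_lit 61710) (nat_lit 8388581) (nat_lit 0) (nat_lit 0),Row.mk (nat_lit 11424) (nat_lit 32912) (nat_lit 32) (nat_lit 61710) (nat_lit 8388575) (nat_lit 0) (nat_lit 0),Row.mk (nat_lit 11592) (nat_lit 32912) (nat_lit 41) (nat_lit 61710) (nat_lit 8388566) (nat_lit 0) (nat_lit 0),Row.mk (nat_lit 11760) (nat_lit 32912) (nat_lit 51)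 (nat_lit 61710) (nat_lit 8388556) (nat_lit 0) (nat_lit 0),Row.mk (nat_lit 11928) (nat_lit 32912) (nat_lit 64) (nat_lit 61710) (nat_lit 8388543) (nat_lit 0) (nat_lit 0),Row.mk (nat_lit 12096) (nat_lit 32912) (nat_lit 79) (nat_lit 61710) (nat_lit 8388528) (nat_lit 0) (nat_lit 0),Row.mk (nat_lit 12264) (nat_lit 32912) (nat_lit 99) (nat_lit 61710) (nat_lit 8388508) (nat_lit 0) (nat_lit 0),Row.mk (nat_lit 12432) (nat_lit 32912) (nat_lit 124) (nat_lit 61710) (nat_lit 8388483) (nat_lit 0) (nat_lit 0),Row.mk (nat_lit 12600) (nat_lit 32912) (nat_lit 155) (nat_lit 61710) (nat_lit 8388452) (nat_lit 0) (nat_lit 0),Row.mk (nat_lit 12768) (nat_lit 32912) (nat_lit 194) (nat_lit 61710) (nat_lit 8388413) (nat_lit 0) (nat_lit 0),Row.mk (nat_lit 12936) (nat_lit 32912) (nat_lit 243) (nat_lit 61710) (nat_lit 8388364) (nat_lit 0) (nat_lit 0),Row.mk (nat_lit 13104) (nat_lit 32912) (nat_lit 303) (nat_lit 61710) (nat_lit 8388304) (nat_lit 0) (nat_lit 0),Row.mk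 (nat_lit 13272) (nat_lit 32912) (nat_lit 379) (nat_lit 61710) (nat_lit 8388228) (nat_lit 0) (nat_lit 0),Row.mk (nat_lit 13440) (nat_lit 32912) (nat_lit 473) (nat_lit 61710) (nat_lit 8388134) (nat_lit 0) (nat_lit 0),Row.mk (nat_lit 13608) (nat_lit 32912) (nat_lit 591) (nat_lit 61710) (nat_lit 8388016) (nat_lit 0) (nat_lit 0),Row.mk (nat_lit 13776) (nat_lit 32912) (nat_lit 738) (nat_lit 61710) (nat_lit 8387869) (nat_lit 0) (nat_lit 0),Row.mk (nat_lit 13944) (nat_lit 32912) (nat_lit 922) (nat_lit 61710) (nat_lit 8387685) (nat_lit 0) (nat_lit 0),Row.mk (nat_lit 14112) (nat_lit 32912) (nat_lit 1152) (nat_lit 61710) (nat_lit 8387455) (nat_lit 0) (nat_lit 0),Row.mk (nat_lit 14280) (nat_lit 32912) (nat_lit 1439) (nat_lit 61710) (nat_lit 8387168) (nat_lit 0) (nat_lit 0),Row.mk (nat_lit 14448) (nat_lit 32912) (nat_lit 1797) (nat_lit 61710) (nat_lit 8386810) (nat_lit 0) (nat_lit 0),Row.mk (nat_lit 14616) (nat_lit 32912) (nat_lit 2244) (nat_lit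 61710) (nat_lit 8386363) (nat_lit 0) (nat_lit 0),Row.mk (nat_lit 14784) (nat_lit 32912) (nat_lit 2803) (nat_lit 61710) (nat_lit 8385804) (nat_lit 0) (nat_lit 0),Row.mk (nat_lit 14952) (nat_lit 32912) (nat_lit 3501) (nat_lit 61710) (nat_lit 8385106) (nat_lit 0) (nat_lit 0),Row.mk (nat_lit 15120) (nat_lit 32912) (nat_lit 4373) (nat_lit 61710) (nat_lit 8384234) (nat_lit 0) (nat_lit 0),Row.mk (nat_lit 15288) (nat_lit 32912) (nat_lit 5462) (nat_lit 61710) (nat_lit 8383145) (nat_lit 0) (nat_lit 0),Row.mk (nat_lit 15456) (nat_lit 32912) (nat_lit 6822) (nat_lit 61710) (nat_lit 8381785) (nat_lit 0) (nat_lit 0),Row.mk (nat_lit 15624) (nat_lit 32912) (nat_lit 8521) (nat_lit 61710) (nat_lit 8380086) (nat_lit 0) (nat_lit 0),Row.mk (nat_lit 15792) (nat_lit 60962) (nat_lit 10588) (nat_lit 61336) (nat_lit 54) (nat_lit 0) (nat_lit 0),Row.mk (nat_lit 15960) (nat_lit 60401) (nat_lit 13208) (nat_lit 60775) (nat_lit 84) (nat_lit 0) (nat_lit 0),Row.mk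 (nat_lit 16128) (nat_lit 59840) (nat_lit 16470) (nat_lit 60214) (nat_lit 131) (nat_lit 0) (nat_lit 0),Row.mk (nat_lit 16296) (nat_lit 59279) (nat_lit 20530) (nat_lit 59653) (nat_lit 205) (nat_lit 0) (nat_lit 0),Row.mk (nat_lit 16464) (nat_lit 58718) (nat_lit 25577) (nat_lit 59092) (nat_lit 321) (nat_lit 0) (nat_lit 0),Row.mk (nat_lit 16632) (nat_lit 58157) (nat_lit 31846) (nat_lit 58531) (nat_lit 500) (nat_lit 0) (nat_lit 0),Row.mk (nat_lit 16800) (nat_lit 57596) (nat_lit 39619) (nat_lit 57970) (nat_lit 781) (nat_lit 0) (nat_lit 0),Row.mk (nat_lit 16968) (nat_lit 57035) (nat_lit 49240) (nat_lit 57409) (nat_lit 1219) (nat_lit 0) (nat_lit 0),Row.mk (nat_lit 17136) (nat_lit 56474) (nat_lit 61121) (nat_lit 56848) (nat_lit 1901) (nat_lit 0) (nat_lit 0),Row.mk (nat_lit 17304) (nat_lit 55913) (nat_lit 75747) (nat_lit 56287) (nat_lit 2966) (nat_lit 0) (nat_lit 0),Row.mk (nat_lit 17472) (nat_lit 55352) (nat_lit 93684) (nat_lit 55726) (nat_lit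 4627) (nat_lit 0) (nat_lit 0),Row.mk (nat_lit 17640) (nat_lit 54791) (nat_lit 115570) (nat_lit 55165) (nat_lit 7219) (nat_lit 0) (nat_lit 0),Row.mk (nat_lit 17808) (nat_lit 54230) (nat_lit 142100) (nat_lit 54604) (nat_lit 11261) (nat_lit 0) (nat_lit 0),Row.mk (nat_lit 17976) (nat_lit 53669) (nat_lit 173978) (nat_lit 54043) (nat_lit 17566) (nat_lit 0) (nat_lit 0),Row.mk (nat_lit 18144) (nat_lit 53108) (nat_lit 211831) (nat_lit 53482) (nat_lit 27403) (nat_lit 0) (nat_lit 0),Row.mk (nat_lit 18312) (nat_lit 52547) (nat_lit 256051) (nat_lit 52921) (nat_lit 42747) (nat_lit 0) (nat_lit 0),Row.mk (nat_lit 18480) (nat_lit 51986) (nat_lit 306509) (nat_lit 52360) (nat_lit 66683) (nat_lit 0) (nat_lit 0),Row.mk (nat_lit 18648) (nat_lit 51425) (nat_lit 362086) (nat_lit 51799) (nat_lit 104022) (nat_lit 0) (nat_lit 0),Row.mk (nat_lit 18816) (nat_lit 50864) (nat_lit 419889) (nat_lit 51238) (nat_lit 162268) (nat_lit 0) (nat_lit 0),Row.mk (nat_lit 18984)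 (nat_lit 50303) (nat_lit 473972) (nat_lit 50677) (nat_lit 253129) (nat_lit 0) (nat_lit 0),Row.mk (nat_lit 19152) (nat_lit 49742) (nat_lit 513265) (nat_lit 50116) (nat_lit 394867) (nat_lit 0) (nat_lit 0),Row.mk (nat_lit 19320) (nat_lit 49181) (nat_lit 518265) (nat_lit 49555) (nat_lit 615970) (nat_lit 0) (nat_lit 0),Row.mk (nat_lit 19488) (nat_lit 48620) (nat_lit 455756) (nat_lit 48994) (nat_lit 960877) (nat_lit 0) (nat_lit 0),Row.mk (nat_lit 19656) (nat_lit 47872) (nat_lit 270429) (nat_lit 48433) (nat_lit 1498911) (nat_lit 0) (nat_lit 0),Row.mk (nat_lit 19824) (nat_lit 47685) (nat_lit 2107101) (nat_lit 48246) (nat_lit 102763) (nat_lit 0) (nat_lit 0),Row.mk (nat_lit 19992) (nat_lit 46750) (nat_lit 2049560) (nat_lit 47498) (nat_lit 710507) (nat_lit 0) (nat_lit 0),Row.mk (nat_lit 20160) (nat_lit 45815) (nat_lit 1651718) (nat_lit 46563) (nat_lit 1795539) (nat_lit 0) (nat_lit 0),Row.mk (nat_lit 20328) (nat_lit 44693) (nat_lit 646322) (nat_lit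 45628) (nat_lit 3659218) (nat_lit 0) (nat_lit 0),Row.mk (nat_lit 20496) (nat_lit 44506) (nat_lit 4254498) (nat_lit 45441) (nat_lit 1123018) (nat_lit 0) (nat_lit 0),Row.mk (nat_lit 20664) (nat_lit 43197) (nat_lit 2553699) (nat_lit 44319) (nat_lit 4162689) (nat_lit 0) (nat_lit 0),Row.mk (nat_lit 20832) (nat_lit 43010) (nat_lit 7495049) (nat_lit 44132) (nat_lit 893558) (nat_lit 0) (nat_lit 0),Row.mk (nat_lit 21000) (nat_lit 41327) (nat_lit 3983619) (nat_lit 42823) (nat_lit 6493549) (nat_lit 0) (nat_lit 0),Row.mk (nat_lit 21168) (nat_lit 41140) (nat_lit 10352961) (nat_lit 42636) (nat_lit 2732769) (nat_lit 0) (nat_lit 0),Row.mk (nat_lit 21336) (nat_lit 38896) (nat_lit 2453430) (nat_lit 40953) (nat_lit 13890332) (nat_lit 0) (nat_lit 0),Row.mk (nat_lit 21504) (nat_lit 38709) (nat_lit 9780664) (nat_lit 40766) (nat_lit 10632301) (nat_lit 0) (nat_lit 0),Row.mk (nat_lit 21672) (nat_lit 38522) (nat_lit 18932203) (nat_lit 40579) (nat_lit 6563098)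 (nat_lit 0) (nat_lit 0),Row.mk (nat_lit 21840) (nat_lit 38335) (nat_lit 30362254) (nat_lit 40392) (nat_lit 1480762) (nat_lit 0) (nat_lit 0),Row.mk (nat_lit 22008) (nat_lit 31603) (nat_lit 6078706) (nat_lit 38148) (nat_lit 33692452) (nat_lit 0) (nat_lit 0),Row.mk (nat_lit 22176) (nat_lit 31416) (nat_lit 15980765) (nat_lit 37961) (nat_lit 33692452) (nat_lit 0) (nat_lit 0),Row.mk (nat_lit 22344) (nat_lit 31229) (nat_lit 28348198) (nat_lit 37774) (nat_lit 33692452) (nat_lit 0) (nat_lit 0),Row.mk (nat_lit 22512) (nat_lit 31042) (nat_lit 43794824) (nat_lit 37587) (nat_lit 33692452) (nat_lit 0) (nat_lit 0),Row.mk (nat_lit 22680) (nat_lit 30855) (nat_lit 63087287) (nat_lit 37400) (nat_lit 33692452) (nat_lit 0) (nat_lit 0),Row.mk (nat_lit 22848) (nat_lit 30668) (nat_lit 87183107) (nat_lit 37213) (nat_lit 33692452) (nat_lit 0) (nat_lit 0),Row.mk (nat_lit 23016) (nat_lit 30481) (nat_lit 117278206) (nat_lit 37026) (nat_lit 33692452) (nat_lit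 0) (nat_lit 0),Row.mk (nat_lit 23184) (nat_lit 30294) (nat_lit 154866258) (nat_lit 36839) (nat_lit 33692452) (nat_lit 0) (nat_lit 0),Row.mk (nat_lit 23352) (nat_lit 30107) (nat_lit 201812828) (nat_lit 36652) (nat_lit 33692452) (nat_lit 0) (nat_lit 0),Row.mk (nat_lit 23520) (nat_lit 29920) (nat_lit 260447962) (nat_lit 36465) (nat_lit 33692452) (nat_lit 0) (nat_lit 0),Row.mk (nat_lit 23688) (nat_lit 29733) (nat_lit 333681830) (nat_lit 36278) (nat_lit 33692452) (nat_lit 0) (nat_lit 0),Row.mk (nat_lit 23856) (nat_lit 29546) (nat_lit 425149164) (nat_lit 36091) (nat_lit 33692452) (nat_lit 0) (nat_lit 0),Row.mk (nat_lit 24024) (nat_lit 29359) (nat_lit 539389658) (nat_lit 35904) (nat_lit 33692452) (nat_lit 0) (nat_lit 0),Row.mk (nat_lit 24192) (nat_lit 29172) (nat_lit 682073279) (nat_lit 35717) (nat_lit 33692452) (nat_lit 0) (nat_lit 0),Row.mk (nat_lit 24360) (nat_lit 28985) (nat_lit 860281679) (nat_lit 35530) (nat_lit 33692452) (nat_lit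 0) (nat_lit 0),Row.mk (nat_lit 24528) (nat_lit 28798) (nat_lit 1082859672) (nat_lit 35343) (nat_lit 33692452) (nat_lit 0) (nat_lit 0),Row.mk (nat_lit 24696) (nat_lit 28611) (nat_lit 1360854216) (nat_lit 35156) (nat_lit 33692452) (nat_lit 0) (nat_lit 0),Row.mk (nat_lit 24864) (nat_lit 28424) (nat_lit 1708062695) (nat_lit 34969) (nat_lit 33692452) (nat_lit 0) (nat_lit 0),Row.mk (nat_lit 25032) (nat_lit 28237) (nat_lit 2141717710) (nat_lit 34782) (nat_lit 33692452) (nat_lit 0) (nat_lit 0),Row.mk (nat_lit 25200) (nat_lit 28050) (nat_lit 2683342361) (nat_lit 34595) (nat_lit 33692452) (nat_lit 0) (nat_lit 0),Row.mk (nat_lit 25368) (nat_lit 27863) (nat_lit 3359818485) (nat_lit 34408) (nat_lit 33692452) (nat_lit 0) (nat_lit 0),Row.mk (nat_lit 25536) (nat_lit 27676) (nat_lit 4204720844) (nat_lit 34221) (nat_lit 33692452) (nat_lit 0) (nat_lit 0),Row.mk (nat_lit 25704) (nat_lit 27489) (nat_lit 5259983508) (nat_lit 34034) (nat_lit 33692452) (nat_lit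 0) (nat_lit 0),Row.mk (nat_lit 25872) (nat_lit 27302) (nat_lit 6577981119) (nat_lit 33847) (nat_lit 33692452) (nat_lit 0) (nat_lit 0),Row.mk (nat_lit 26040) (nat_lit 32912) (nat_lit 8388608) (nat_lit 62084) (nat_lit 8249432185) (nat_lit 0) (nat_lit 0),Row.mk (nat_lit 26208) (nat_lit 32912) (nat_lit 8388608) (nat_lit 62084) (nat_lit 10305430352) (nat_lit 0) (nat_lit 0)],
[Row.mk (nat_lit 10752) (nat_lit 32912) (nat_lit 13) (nat_lit 61710) (nat_lit 8388594) (nat_lit 0) (nat_lit 0),Row.mk (nat_lit 10920) (nat_lit 32912) (nat_lit 16) (nat_lit 61710) (nat_lit 8388591) (nat_lit 0) (nat_lit 0),Row.mk (nat_lit 11088) (nat_lit 32912) (nat_lit 21) (nat_lit 61710) (nat_lit 8388586) (nat_lit 0) (nat_lit 0),Row.mk (nat_lit 11256) (nat_lit 32912) (nat_lit 26) (nat_lit 61710) (nat_lit 8388581) (nat_lit 0) (nat_lit 0),Row.mk (nat_lit 11424) (nat_lit 32912) (nat_lit 32) (nat_lit 61710) (nat_lit 8388575) (nat_lit 0) (nat_lit 0),Row.mk (nat_lit 11592)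 (nat_lit 32912) (nat_lit 41) (nat_lit 61710) (nat_lit 8388566) (nat_lit 0) (nat_lit 0),Row.mk (nat_lit 11760) (nat_lit 32912) (nat_lit 51) (nat_lit 61710) (nat_lit 8388556) (nat_lit 0) (nat_lit 0),Row.mk (nat_lit 11928) (nat_lit 32912) (nat_lit 64) (nat_lit 61710) (nat_lit 8388543) (nat_lit 0) (nat_lit 0),Row.mk (nat_lit 12096) (nat_lit 32912) (nat_lit 79) (nat_lit 61710) (nat_lit 8388528) (nat_lit 0) (nat_lit 0),Row.mk (nat_lit 12264) (nat_lit 32912) (nat_lit 99) (nat_lit 61710) (nat_lit 8388508) (nat_lit 0) (nat_lit 0),Row.mk (nat_lit 12432) (nat_lit 32912) (nat_lit 124) (nat_lit 61710) (nat_lit 8388483) (nat_lit 0) (nat_lit 0),Row.mk (nat_lit 12600) (nat_lit 32912) (nat_lit 155) (nat_lit 61710) (nat_lit 8388452) (nat_lit 0) (nat_lit 0),Row.mk (nat_lit 12768) (nat_lit 32912) (nat_lit 194) (nat_lit 61710) (nat_lit 8388413) (nat_lit 0) (nat_lit 0),Row.mk (nat_lit 12936) (nat_lit 32912) (nat_lit 243) (nat_lit 61710) (nat_lit 8388364)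 (nat_lit 0) (nat_lit 0),Row.mk (nat_lit 13104) (nat_lit 32912) (nat_lit 303) (nat_lit 61710) (nat_lit 8388304) (nat_lit 0) (nat_lit 0),Row.mk (nat_lit 13272) (nat_lit 32912) (nat_lit 379) (nat_lit 61710) (nat_lit 8388228) (nat_lit 0) (nat_lit 0),Row.mk (nat_lit 13440) (nat_lit 32912) (nat_lit 473) (nat_lit 61710) (nat_lit 8388134) (nat_lit 0) (nat_lit 0),Row.mk (nat_lit 13608) (nat_lit 32912) (nat_lit 591) (nat_lit 61710) (nat_lit 8388016) (nat_lit 0) (nat_lit 0),Row.mk (nat_lit 13776) (nat_lit 32912) (nat_lit 738) (nat_lit 61710) (nat_lit 8387869) (nat_lit 0) (nat_lit 0),Row.mk (nat_lit 13944) (nat_lit 32912) (nat_lit 922) (nat_lit 61710) (nat_lit 8387685) (nat_lit 0) (nat_lit 0),Row.mk (nat_lit 14112) (nat_lit 32912) (nat_lit 1152) (nat_lit 61710) (nat_lit 8387455) (nat_lit 0) (nat_lit 0),Row.mk (nat_lit 14280) (nat_lit 32912) (nat_lit 1439) (nat_lit 61710) (nat_lit 8387168) (nat_lit 0) (nat_lit 0),Row.mk (nat_lit 14448) (nat_lit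 32912) (nat_lit 1797) (nat_lit 61710) (nat_lit 8386810) (nat_lit 0) (nat_lit 0),Row.mk (nat_lit 14616) (nat_lit 32912) (nat_lit 2244) (nat_lit 61710) (nat_lit 8386363) (nat_lit 0) (nat_lit 0),Row.mk (nat_lit 14784) (nat_lit 32912) (nat_lit 2803) (nat_lit 61710) (nat_lit 8385804) (nat_lit 0) (nat_lit 0),Row.mk (nat_lit 14952) (nat_lit 32912) (nat_lit 3501) (nat_lit 61710) (nat_lit 8385106) (nat_lit 0) (nat_lit 0),Row.mk (nat_lit 15120) (nat_lit 32912) (nat_lit 4373) (nat_lit 61710) (nat_lit 8384234) (nat_lit 0) (nat_lit 0),Row.mk (nat_lit 15288) (nat_lit 32912) (nat_lit 5462) (nat_lit 61710) (nat_lit 8383145) (nat_lit 0) (nat_lit 0),Row.mk (nat_lit 15456) (nat_lit 32912) (nat_lit 6822) (nat_lit 61710) (nat_lit 8381785) (nat_lit 0) (nat_lit 0),Row.mk (nat_lit 15624) (nat_lit 32912) (nat_lit 8521) (nat_lit 61710) (nat_lit 8380086) (nat_lit 0) (nat_lit 0),Row.mk (nat_lit 15792) (nat_lit 60962) (nat_lit 10588) (nat_lit 61336) (nat_lit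 54) (nat_lit 0) (nat_lit 0),Row.mk (nat_lit 15960) (nat_lit 60401) (nat_lit 13208) (nat_lit 60775) (nat_lit 84) (nat_lit 0) (nat_lit 0),Row.mk (nat_lit 16128) (nat_lit 59840) (nat_lit 16470) (nat_lit 60214) (nat_lit 131) (nat_lit 0) (nat_lit 0),Row.mk (nat_lit 16296) (nat_lit 59279) (nat_lit 20530) (nat_lit 59653) (nat_lit 205) (nat_lit 0) (nat_lit 0),Row.mk (nat_lit 16464) (nat_lit 58718) (nat_lit 25577) (nat_lit 59092) (nat_lit 321) (nat_lit 0) (nat_lit 0),Row.mk (nat_lit 16632) (nat_lit 58157) (nat_lit 31846) (nat_lit 58531) (nat_lit 500) (nat_lit 0) (nat_lit 0),Row.mk (nat_lit 16800) (nat_lit 57596) (nat_lit 39619) (nat_lit 57970) (nat_lit 781) (nat_lit 0) (nat_lit 0),Row.mk (nat_lit 16968) (nat_lit 57035) (nat_lit 49240) (nat_lit 57409) (nat_lit 1219) (nat_lit 0) (nat_lit 0),Row.mk (nat_lit 17136) (nat_lit 56474) (nat_lit 61121) (nat_lit 56848) (nat_lit 1901) (nat_lit 0) (nat_lit 0),Row.mk (nat_lit 17304) (nat_lit 55913) (nat_lit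 75747) (nat_lit 56287) (nat_lit 2966) (nat_lit 0) (nat_lit 0),Row.mk (nat_lit 17472) (nat_lit 55352) (nat_lit 93684) (nat_lit 55726) (nat_lit 4627) (nat_lit 0) (nat_lit 0),Row.mk (nat_lit 17640) (nat_lit 54791) (nat_lit 115570) (nat_lit 55165) (nat_lit 7219) (nat_lit 0) (nat_lit 0),Row.mk (nat_lit 17808) (nat_lit 54230) (nat_lit 142100) (nat_lit 54604) (nat_lit 11261) (nat_lit 0) (nat_lit 0),Row.mk (nat_lit 17976) (nat_lit 53669) (nat_lit 173978) (nat_lit 54043) (nat_lit 17566) (nat_lit 0) (nat_lit 0),Row.mk (nat_lit 18144) (nat_lit 53108) (nat_lit 211831) (nat_lit 53482) (nat_lit 27403) (nat_lit 0) (nat_lit 0),Row.mk (nat_lit 18312) (nat_lit 52547) (nat_lit 256051) (nat_lit 52921) (nat_lit 42747) (nat_lit 0) (nat_lit 0),Row.mk (nat_lit 18480) (nat_lit 51986) (nat_lit 306509) (nat_lit 52360) (nat_lit 66683) (nat_lit 0) (nat_lit 0),Row.mk (nat_lit 18648) (nat_lit 51425) (nat_lit 362086) (nat_lit 51799) (nat_lit 104022) (nat_lit 0)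 (nat_lit 0),Row.mk (nat_lit 18816) (nat_lit 50864) (nat_lit 419889) (nat_lit 51238) (nat_lit 162268) (nat_lit 0) (nat_lit 0),Row.mk (nat_lit 18984) (nat_lit 50303) (nat_lit 473972) (nat_lit 50677) (nat_lit 253129) (nat_lit 0) (nat_lit 0),Row.mk (nat_lit 19152) (nat_lit 49742) (nat_lit 513265) (nat_lit 50116) (nat_lit 394867) (nat_lit 0) (nat_lit 0),Row.mk (nat_lit 19320) (nat_lit 49181) (nat_lit 518265) (nat_lit 49555) (nat_lit 615970) (nat_lit 0) (nat_lit 0),Row.mk (nat_lit 19488) (nat_lit 48620) (nat_lit 455756) (nat_lit 48994) (nat_lit 960877) (nat_lit 0) (nat_lit 0),Row.mk (nat_lit 19656) (nat_lit 47872) (nat_lit 270429) (nat_lit 48433) (nat_lit 1498911) (nat_lit 0) (nat_lit 0),Row.mk (nat_lit 19824) (nat_lit 47685) (nat_lit 2107101) (nat_lit 48246) (nat_lit 102763) (nat_lit 0) (nat_lit 0),Row.mk (nat_lit 19992) (nat_lit 46750) (nat_lit 2049560) (nat_lit 47498) (nat_lit 710507) (nat_lit 0) (nat_lit 0),Row.mk (nat_lit 20160) (nat_lit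 45815) (nat_lit 1651718) (nat_lit 46563) (nat_lit 1795539) (nat_lit 0) (nat_lit 0),Row.mk (nat_lit 20328) (nat_lit 44693) (nat_lit 646322) (nat_lit 45628) (nat_lit 3659218) (nat_lit 0) (nat_lit 0),Row.mk (nat_lit 20496) (nat_lit 44506) (nat_lit 4254498) (nat_lit 45441) (nat_lit 1123018) (nat_lit 0) (nat_lit 0),Row.mk (nat_lit 20664) (nat_lit 43197) (nat_lit 2553699) (nat_lit 44319) (nat_lit 4162689) (nat_lit 0) (nat_lit 0),Row.mk (nat_lit 20832) (nat_lit 43010) (nat_lit 7495049) (nat_lit 44132) (nat_lit 893558) (nat_lit 0) (nat_lit 0),Row.mk (nat_lit 21000) (nat_lit 41327) (nat_lit 3983619) (nat_lit 42823) (nat_lit 6493549) (nat_lit 0) (nat_lit 0),Row.mk (nat_lit 21168) (nat_lit 41140) (nat_lit 10352961) (nat_lit 42636) (nat_lit 2732769) (nat_lit 0) (nat_lit 0),Row.mk (nat_lit 21336) (nat_lit 38896) (nat_lit 2453430) (nat_lit 40953) (nat_lit 13890332) (nat_lit 0) (nat_lit 0),Row.mk (nat_lit 21504) (nat_lit 38709) (nat_lit 9780664)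 (nat_lit 40766) (nat_lit 10632301) (nat_lit 0) (nat_lit 0),Row.mk (nat_lit 21672) (nat_lit 38522) (nat_lit 18932203) (nat_lit 40579) (nat_lit 6563098) (nat_lit 0) (nat_lit 0),Row.mk (nat_lit 21840) (nat_lit 38335) (nat_lit 30362254) (nat_lit 40392) (nat_lit 1480762) (nat_lit 0) (nat_lit 0),Row.mk (nat_lit 22008) (nat_lit 31603) (nat_lit 6078706) (nat_lit 38148) (nat_lit 33692452) (nat_lit 0) (nat_lit 0),Row.mk (nat_lit 22176) (nat_lit 31416) (nat_lit 15980765) (nat_lit 37961) (nat_lit 33692452) (nat_lit 0) (nat_lit 0),Row.mk (nat_lit 22344) (nat_lit 31229) (nat_lit 28348198) (nat_lit 37774) (nat_lit 33692452) (nat_lit 0) (nat_lit 0),Row.mk (nat_lit 22512) (nat_lit 31042) (nat_lit 43794824) (nat_lit 37587) (nat_lit 33692452) (nat_lit 0) (nat_lit 0),Row.mk (nat_lit 22680) (nat_lit 30855) (nat_lit 63087287) (nat_lit 37400) (nat_lit 33692452) (nat_lit 0) (nat_lit 0),Row.mk (nat_lit 22848) (nat_lit 30668) (nat_lit 87183107) (nat_lit 37213)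 (nat_lit 33692452) (nat_lit 0) (nat_lit 0),Row.mk (nat_lit 23016) (nat_lit 30481) (nat_lit 117278206) (nat_lit 37026) (nat_lit 33692452) (nat_lit 0) (nat_lit 0),Row.mk (nat_lit 23184) (nat_lit 30294) (nat_lit 154866258) (nat_lit 36839) (nat_lit 33692452) (nat_lit 0) (nat_lit 0),Row.mk (nat_lit 23352) (nat_lit 30107) (nat_lit 201812828) (nat_lit 36652) (nat_lit 33692452) (nat_lit 0) (nat_lit 0),Row.mk (nat_lit 23520) (nat_lit 29920) (nat_lit 260447962) (nat_lit 36465) (nat_lit 33692452) (nat_lit 0) (nat_lit 0),Row.mk (nat_lit 23688) (nat_lit 29733) (nat_lit 333681830) (nat_lit 36278) (nat_lit 33692452) (nat_lit 0) (nat_lit 0),Row.mk (nat_lit 23856) (nat_lit 29546) (nat_lit 425149164) (nat_lit 36091) (nat_lit 33692452) (nat_lit 0) (nat_lit 0),Row.mk (nat_lit 24024) (nat_lit 29359) (nat_lit 539389658) (nat_lit 35904) (nat_lit 33692452) (nat_lit 0) (nat_lit 0),Row.mk (nat_lit 24192) (nat_lit 29172) (nat_lit 682073279) (nat_lit 35717)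 (nat_lit 33692452) (nat_lit 0) (nat_lit 0),Row.mk (nat_lit 24360) (nat_lit 28985) (nat_lit 860281679) (nat_lit 35530) (nat_lit 33692452) (nat_lit 0) (nat_lit 0),Row.mk (nat_lit 24528) (nat_lit 28798) (nat_lit 1082859672) (nat_lit 35343) (nat_lit 33692452) (nat_lit 0) (nat_lit 0),Row.mk (nat_lit 24696) (nat_lit 28611) (nat_lit 1360854216) (nat_lit 35156) (nat_lit 33692452) (nat_lit 0) (nat_lit 0),Row.mk (nat_lit 24864) (nat_lit 28424) (nat_lit 1708062695) (nat_lit 34969) (nat_lit 33692452) (nat_lit 0) (nat_lit 0),Row.mk (nat_lit 25032) (nat_lit 28237) (nat_lit 2141717710) (nat_lit 34782) (nat_lit 33692452) (nat_lit 0) (nat_lit 0),Row.mk (nat_lit 25200) (nat_lit 28050) (nat_lit 2683342361) (nat_lit 34595) (nat_lit 33692452) (nat_lit 0) (nat_lit 0),Row.mk (nat_lit 25368) (nat_lit 27863) (nat_lit 3359818485) (nat_lit 34408) (nat_lit 33692452) (nat_lit 0) (nat_lit 0),Row.mk (nat_lit 25536) (nat_lit 27676) (nat_lit 4204720844) (nat_lit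 34221) (nat_lit 33692452) (nat_lit 0) (nat_lit 0),Row.mk (nat_lit 25704) (nat_lit 27489) (nat_lit 5259983508) (nat_lit 34034) (nat_lit 33692452) (nat_lit 0) (nat_lit 0),Row.mk (nat_lit 25872) (nat_lit 27302) (nat_lit 6577981119) (nat_lit 33847) (nat_lit 33692452) (nat_lit 0) (nat_lit 0),Row.mk (nat_lit 26040) (nat_lit 32912) (nat_lit 8388608) (nat_lit 62084) (nat_lit 8249432185) (nat_lit 0) (nat_lit 0),Row.mk (nat_lit 26208) (nat_lit 32912) (nat_lit 8388608) (nat_lit 62084) (nat_lit 10305430352) (nat_lit 0) (nat_lit 0)],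
[Row.mk (nat_lit 10752) (nat_lit 32912) (nat_lit 13) (nat_lit 61710) (nat_lit 8388594) (nat_lit 0) (nat_lit 0),Row.mk (nat_lit 10920) (nat_lit 32912) (nat_lit 16) (nat_lit 61710) (nat_lit 8388591) (nat_lit 0) (nat_lit 0),Row.mk (nat_lit 11088) (nat_lit 32912) (nat_lit 21) (nat_lit 61710) (nat_lit 8388586) (nat_lit 0) (nat_lit 0),Row.mk (nat_lit 11256) (nat_lit 32912) (nat_lit 26) (nat_lit 61710) (nat_lit 8388581) (nat_lit 0) (nat_lit 0),Row.mk (nat_lit 11424) (nat_lit 32912) (nat_lit 32) (nat_lit 61710) (nat_lit 8388575) (nat_lit 0) (nat_lit 0),Row.mk (nat_lit 11592) (nat_lit 32912) (nat_lit 41) (nat_lit 61710) (nat_lit 8388566) (nat_lit 0) (nat_lit 0),Row.mk (nat_lit 11760) (nat_lit 32912) (nat_lit 51) (nat_lit 61710) (nat_lit 8388556) (nat_lit 0) (nat_lit 0),Row.mk (nat_lit 11928) (nat_lit 32912) (nat_lit 64) (nat_lit 61710) (nat_lit 8388543) (nat_lit 0) (nat_lit 0),Row.mk (nat_lit 12096) (nat_lit 32912) (nat_lit 79) (nat_lit 61710)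 (nat_lit 8388528) (nat_lit 0) (nat_lit 0),Row.mk (nat_lit 12264) (nat_lit 32912) (nat_lit 99) (nat_lit 61710) (nat_lit 8388508) (nat_lit 0) (nat_lit 0),Row.mk (nat_lit 12432) (nat_lit 32912) (nat_lit 124) (nat_lit 61710) (nat_lit 8388483) (nat_lit 0) (nat_lit 0),Row.mk (nat_lit 12600) (nat_lit 32912) (nat_lit 155) (nat_lit 61710) (nat_lit 8388452) (nat_lit 0) (nat_lit 0),Row.mk (nat_lit 12768) (nat_lit 32912) (nat_lit 194) (nat_lit 61710) (nat_lit 8388413) (nat_lit 0) (nat_lit 0),Row.mk (nat_lit 12936) (nat_lit 32912) (nat_lit 243) (nat_lit 61710) (nat_lit 8388364) (nat_lit 0) (nat_lit 0),Row.mk (nat_lit 13104) (nat_lit 32912) (nat_lit 303) (nat_lit 61710) (nat_lit 8388304) (nat_lit 0) (nat_lit 0),Row.mk (nat_lit 13272) (nat_lit 32912) (nat_lit 379) (nat_lit 61710) (nat_lit 8388228) (nat_lit 0) (nat_lit 0),Row.mk (nat_lit 13440) (nat_lit 32912) (nat_lit 473) (nat_lit 61710) (nat_lit 8388134) (nat_lit 0) (nat_lit 0),Row.mk (nat_lit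 13608) (nat_lit 32912) (nat_lit 591) (nat_lit 61710) (nat_lit 8388016) (nat_lit 0) (nat_lit 0),Row.mk (nat_lit 13776) (nat_lit 32912) (nat_lit 738) (nat_lit 61710) (nat_lit 8387869) (nat_lit 0) (nat_lit 0),Row.mk (nat_lit 13944) (nat_lit 32912) (nat_lit 922) (nat_lit 61710) (nat_lit 8387685) (nat_lit 0) (nat_lit 0),Row.mk (nat_lit 14112) (nat_lit 32912) (nat_lit 1152) (nat_lit 61710) (nat_lit 8387455) (nat_lit 0) (nat_lit 0),Row.mk (nat_lit 14280) (nat_lit 32912) (nat_lit 1439) (nat_lit 61710) (nat_lit 8387168) (nat_lit 0) (nat_lit 0),Row.mk (nat_lit 14448) (nat_lit 32912) (nat_lit 1797) (nat_lit 61710) (nat_lit 8386810) (nat_lit 0) (nat_lit 0),Row.mk (nat_lit 14616) (nat_lit 32912) (nat_lit 2244) (nat_lit 61710) (nat_lit 8386363) (nat_lit 0) (nat_lit 0),Row.mk (nat_lit 14784) (nat_lit 32912) (nat_lit 2803) (nat_lit 61710) (nat_lit 8385804) (nat_lit 0) (nat_lit 0),Row.mk (nat_lit 14952) (nat_lit 32912) (nat_lit 3501) (nat_lit 61710)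 (nat_lit 8385106) (nat_lit 0) (nat_lit 0),Row.mk (nat_lit 15120) (nat_lit 32912) (nat_lit 4373) (nat_lit 61710) (nat_lit 8384234) (nat_lit 0) (nat_lit 0),Row.mk (nat_lit 15288) (nat_lit 32912) (nat_lit 5462) (nat_lit 61710) (nat_lit 8383145) (nat_lit 0) (nat_lit 0),Row.mk (nat_lit 15456) (nat_lit 32912) (nat_lit 6822) (nat_lit 61710) (nat_lit 8381785) (nat_lit 0) (nat_lit 0),Row.mk (nat_lit 15624) (nat_lit 32912) (nat_lit 8521) (nat_lit 61710) (nat_lit 8380086) (nat_lit 0) (nat_lit 0),Row.mk (nat_lit 15792) (nat_lit 60962) (nat_lit 10588) (nat_lit 61336) (nat_lit 54) (nat_lit 0) (nat_lit 0),Row.mk (nat_lit 15960) (nat_lit 60401) (nat_lit 13208) (nat_lit 60775) (nat_lit 84) (nat_lit 0) (nat_lit 0),Row.mk (nat_lit 16128) (nat_lit 59840) (nat_lit 16470) (nat_lit 60214) (nat_lit 131) (nat_lit 0) (nat_lit 0),Row.mk (nat_lit 16296) (nat_lit 59279) (nat_lit 20530) (nat_lit 59653) (nat_lit 205) (nat_lit 0) (nat_lit 0),Row.mk (nat_lit 16464)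 (nat_lit 58718) (nat_lit 25577) (nat_lit 59092) (nat_lit 321) (nat_lit 0) (nat_lit 0),Row.mk (nat_lit 16632) (nat_lit 58157) (nat_lit 31846) (nat_lit 58531) (nat_lit 500) (nat_lit 0) (nat_lit 0),Row.mk (nat_lit 16800) (nat_lit 57596) (nat_lit 39619) (nat_lit 57970) (nat_lit 781) (nat_lit 0) (nat_lit 0),Row.mk (nat_lit 16968) (nat_lit 57035) (nat_lit 49240) (nat_lit 57409) (nat_lit 1219) (nat_lit 0) (nat_lit 0),Row.mk (nat_lit 17136) (nat_lit 56474) (nat_lit 61121) (nat_lit 56848) (nat_lit 1901) (nat_lit 0) (nat_lit 0),Row.mk (nat_lit 17304) (nat_lit 55913) (nat_lit 75747) (nat_lit 56287) (nat_lit 2966) (nat_lit 0) (nat_lit 0),Row.mk (nat_lit 17472) (nat_lit 55352) (nat_lit 93684) (nat_lit 55726) (nat_lit 4627) (nat_lit 0) (nat_lit 0),Row.mk (nat_lit 17640) (nat_lit 54791) (nat_lit 115570) (nat_lit 55165) (nat_lit 7219) (nat_lit 0) (nat_lit 0),Row.mk (nat_lit 17808) (nat_lit 54230) (nat_lit 142100) (nat_lit 54604) (nat_lit 11261) (nat_lit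 0) (nat_lit 0),Row.mk (nat_lit 17976) (nat_lit 53669) (nat_lit 173978) (nat_lit 54043) (nat_lit 17566) (nat_lit 0) (nat_lit 0),Row.mk (nat_lit 18144) (nat_lit 53108) (nat_lit 211831) (nat_lit 53482) (nat_lit 27403) (nat_lit 0) (nat_lit 0),Row.mk (nat_lit 18312) (nat_lit 52547) (nat_lit 256051) (nat_lit 52921) (nat_lit 42747) (nat_lit 0) (nat_lit 0),Row.mk (nat_lit 18480) (nat_lit 51986) (nat_lit 306509) (nat_lit 52360) (nat_lit 66683) (nat_lit 0) (nat_lit 0),Row.mk (nat_lit 18648) (nat_lit 51425) (nat_lit 362086) (nat_lit 51799) (nat_lit 104022) (nat_lit 0) (nat_lit 0),Row.mk (nat_lit 18816) (nat_lit 50864) (nat_lit 419889) (nat_lit 51238) (nat_lit 162268) (nat_lit 0) (nat_lit 0),Row.mk (nat_lit 18984) (nat_lit 50303) (nat_lit 473972) (nat_lit 50677) (nat_lit 253129) (nat_lit 0) (nat_lit 0),Row.mk (nat_lit 19152) (nat_lit 49742) (nat_lit 513265) (nat_lit 50116) (nat_lit 394867) (nat_lit 0) (nat_lit 0),Row.mk (nat_lit 19320) (nat_lit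 49181) (nat_lit 518265) (nat_lit 49555) (nat_lit 615970) (nat_lit 0) (nat_lit 0),Row.mk (nat_lit 19488) (nat_lit 48620) (nat_lit 455756) (nat_lit 48994) (nat_lit 960877) (nat_lit 0) (nat_lit 0),Row.mk (nat_lit 19656) (nat_lit 47872) (nat_lit 270429) (nat_lit 48433) (nat_lit 1498911) (nat_lit 0) (nat_lit 0),Row.mk (nat_lit 19824) (nat_lit 47685) (nat_lit 2107101) (nat_lit 48246) (nat_lit 102763) (nat_lit 0) (nat_lit 0),Row.mk (nat_lit 19992) (nat_lit 46750) (nat_lit 2049560) (nat_lit 47498) (nat_lit 710507) (nat_lit 0) (nat_lit 0),Row.mk (nat_lit 20160) (nat_lit 45815) (nat_lit 1651718) (nat_lit 46563) (nat_lit 1795539) (nat_lit 0) (nat_lit 0),Row.mk (nat_lit 20328) (nat_lit 44693) (nat_lit 646322) (nat_lit 45628) (nat_lit 3659218) (nat_lit 0) (nat_lit 0),Row.mk (nat_lit 20496) (nat_lit 44506) (nat_lit 4254498) (nat_lit 45441) (nat_lit 1123018) (nat_lit 0) (nat_lit 0),Row.mk (nat_lit 20664) (nat_lit 43197) (nat_lit 2553699) (nat_lit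 44319) (nat_lit 4162689) (nat_lit 0) (nat_lit 0),Row.mk (nat_lit 20832) (nat_lit 43010) (nat_lit 7495049) (nat_lit 44132) (nat_lit 893558) (nat_lit 0) (nat_lit 0),Row.mk (nat_lit 21000) (nat_lit 41327) (nat_lit 3983619) (nat_lit 42823) (nat_lit 6493549) (nat_lit 0) (nat_lit 0),Row.mk (nat_lit 21168) (nat_lit 41140) (nat_lit 10352961) (nat_lit 42636) (nat_lit 2732769) (nat_lit 0) (nat_lit 0),Row.mk (nat_lit 21336) (nat_lit 38896) (nat_lit 2453430) (nat_lit 40953) (nat_lit 13890332) (nat_lit 0) (nat_lit 0),Row.mk (nat_lit 21504) (nat_lit 38709) (nat_lit 9780664) (nat_lit 40766) (nat_lit 10632301) (nat_lit 0) (nat_lit 0),Row.mk (nat_lit 21672) (nat_lit 38522) (nat_lit 18932203) (nat_lit 40579) (nat_lit 6563098) (nat_lit 0) (nat_lit 0),Row.mk (nat_lit 21840) (nat_lit 38335) (nat_lit 30362254) (nat_lit 40392) (nat_lit 1480762) (nat_lit 0) (nat_lit 0),Row.mk (nat_lit 22008) (nat_lit 31603) (nat_lit 6078706) (nat_lit 38148) (nat_lit 33692452)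 (nat_lit 0) (nat_lit 0),Row.mk (nat_lit 22176) (nat_lit 31416) (nat_lit 15980765) (nat_lit 37961) (nat_lit 33692452) (nat_lit 0) (nat_lit 0),Row.mk (nat_lit 22344) (nat_lit 31229) (nat_lit 28348198) (nat_lit 37774) (nat_lit 33692452) (nat_lit 0) (nat_lit 0),Row.mk (nat_lit 22512) (nat_lit 31042) (nat_lit 43794824) (nat_lit 37587) (nat_lit 33692452) (nat_lit 0) (nat_lit 0),Row.mk (nat_lit 22680) (nat_lit 30855) (nat_lit 63087287) (nat_lit 37400) (nat_lit 33692452) (nat_lit 0) (nat_lit 0),Row.mk (nat_lit 22848) (nat_lit 30668) (nat_lit 87183107) (nat_lit 37213) (nat_lit 33692452) (nat_lit 0) (nat_lit 0),Row.mk (nat_lit 23016) (nat_lit 30481) (nat_lit 117278206) (nat_lit 37026) (nat_lit 33692452) (nat_lit 0) (nat_lit 0),Row.mk (nat_lit 23184) (nat_lit 30294) (nat_lit 154866258) (nat_lit 36839) (nat_lit 33692452) (nat_lit 0) (nat_lit 0),Row.mk (nat_lit 23352) (nat_lit 30107) (nat_lit 201812828) (nat_lit 36652) (nat_lit 33692452) (nat_lit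 0) (nat_lit 0),Row.mk (nat_lit 23520) (nat_lit 29920) (nat_lit 260447962) (nat_lit 36465) (nat_lit 33692452) (nat_lit 0) (nat_lit 0),Row.mk (nat_lit 23688) (nat_lit 29733) (nat_lit 333681830) (nat_lit 36278) (nat_lit 33692452) (nat_lit 0) (nat_lit 0),Row.mk (nat_lit 23856) (nat_lit 29546) (nat_lit 425149164) (nat_lit 36091) (nat_lit 33692452) (nat_lit 0) (nat_lit 0),Row.mk (nat_lit 24024) (nat_lit 29359) (nat_lit 539389658) (nat_lit 35904) (nat_lit 33692452) (nat_lit 0) (nat_lit 0),Row.mk (nat_lit 24192) (nat_lit 29172) (nat_lit 682073279) (nat_lit 35717) (nat_lit 33692452) (nat_lit 0) (nat_lit 0),Row.mk (nat_lit 24360) (nat_lit 28985) (nat_lit 860281679) (nat_lit 35530) (nat_lit 33692452) (nat_lit 0) (nat_lit 0),Row.mk (nat_lit 24528) (nat_lit 28798) (nat_lit 1082859672) (nat_lit 35343) (nat_lit 33692452) (nat_lit 0) (nat_lit 0),Row.mk (nat_lit 24696) (nat_lit 28611) (nat_lit 1360854216) (nat_lit 35156) (nat_lit 33692452) (nat_lit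 0) (nat_lit 0),Row.mk (nat_lit 24864) (nat_lit 28424) (nat_lit 1708062695) (nat_lit 34969) (nat_lit 33692452) (nat_lit 0) (nat_lit 0),Row.mk (nat_lit 25032) (nat_lit 28237) (nat_lit 2141717710) (nat_lit 34782) (nat_lit 33692452) (nat_lit 0) (nat_lit 0),Row.mk (nat_lit 25200) (nat_lit 28050) (nat_lit 2683342361) (nat_lit 34595) (nat_lit 33692452) (nat_lit 0) (nat_lit 0),Row.mk (nat_lit 25368) (nat_lit 27863) (nat_lit 3359818485) (nat_lit 34408) (nat_lit 33692452) (nat_lit 0) (nat_lit 0),Row.mk (nat_lit 25536) (nat_lit 27676) (nat_lit 4204720844) (nat_lit 34221) (nat_lit 33692452) (nat_lit 0) (nat_lit 0),Row.mk (nat_lit 25704) (nat_lit 27489) (nat_lit 5259983508) (nat_lit 34034) (nat_lit 33692452) (nat_lit 0) (nat_lit 0),Row.mk (nat_lit 25872) (nat_lit 27302) (nat_lit 6577981119) (nat_lit 33847) (nat_lit 33692452) (nat_lit 0) (nat_lit 0),Row.mk (nat_lit 26040) (nat_lit 32912) (nat_lit 8388608) (nat_lit 62084) (nat_lit 8249432185) (nat_lit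 0) (nat_lit 0),Row.mk (nat_lit 26208) (nat_lit 32912) (nat_lit 8388608) (nat_lit 62084) (nat_lit 10305430352) (nat_lit 0) (nat_lit 0)],
[Row.mk (nat_lit 10752) (nat_lit 32912) (nat_lit 13) (nat_lit 61710) (nat_lit 8388594) (nat_lit 0) (nat_lit 0),Row.mk (nat_lit 10920) (nat_lit 32912) (nat_lit 16) (nat_lit 61710) (nat_lit 8388591) (nat_lit 0) (nat_lit 0),Row.mk (nat_lit 11088) (nat_lit 32912) (nat_lit 21) (nat_lit 61710) (nat_lit 8388586) (nat_lit 0) (nat_lit 0),Row.mk (nat_lit 11256) (nat_lit 32912) (nat_lit 26) (nat_lit 61710) (nat_lit 8388581) (nat_lit 0) (nat_lit 0),Row.mk (nat_lit 11424) (nat_lit 32912) (nat_lit 32) (nat_lit 61710) (nat_lit 8388575) (nat_lit 0) (nat_lit 0),Row.mk (nat_lit 11592) (nat_lit 32912) (nat_lit 41) (nat_lit 61710) (nat_lit 8388566) (nat_lit 0) (nat_lit 0),Row.mk (nat_lit 11760) (nat_lit 32912) (nat_lit 51) (nat_lit 61710) (nat_lit 8388556) (nat_lit 0) (nat_lit 0),Row.mk (nat_lit 11928) (nat_lit 32912)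 (nat_lit 64) (nat_lit 61710) (nat_lit 8388543) (nat_lit 0) (nat_lit 0),Row.mk (nat_lit 12096) (nat_lit 32912) (nat_lit 79) (nat_lit 61710) (nat_lit 8388528) (nat_lit 0) (nat_lit 0),Row.mk (nat_lit 12264) (nat_lit 32912) (nat_lit 99) (nat_lit 61710) (nat_lit 8388508) (nat_lit 0) (nat_lit 0),Row.mk (nat_lit 12432) (nat_lit 32912) (nat_lit 124) (nat_lit 61710) (nat_lit 8388483) (nat_lit 0) (nat_lit 0),Row.mk (nat_lit 12600) (nat_lit 32912) (nat_lit 155) (nat_lit 61710) (nat_lit 8388452) (nat_lit 0) (nat_lit 0),Row.mk (nat_lit 12768) (nat_lit 32912) (nat_lit 194) (nat_lit 61710) (nat_lit 8388413) (nat_lit 0) (nat_lit 0),Row.mk (nat_lit 12936) (nat_lit 32912) (nat_lit 243) (nat_lit 61710) (nat_lit 8388364) (nat_lit 0) (nat_lit 0),Row.mk (nat_lit 13104) (nat_lit 32912) (nat_lit 303) (nat_lit 61710) (nat_lit 8388304) (nat_lit 0) (nat_lit 0),Row.mk (nat_lit 13272) (nat_lit 32912) (nat_lit 379) (nat_lit 61710) (nat_lit 8388228) (nat_lit 0)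 (nat_lit 0),Row.mk (nat_lit 13440) (nat_lit 32912) (nat_lit 473) (nat_lit 61710) (nat_lit 8388134) (nat_lit 0) (nat_lit 0),Row.mk (nat_lit 13608) (nat_lit 32912) (nat_lit 591) (nat_lit 61710) (nat_lit 8388016) (nat_lit 0) (nat_lit 0),Row.mk (nat_lit 13776) (nat_lit 32912) (nat_lit 738) (nat_lit 61710) (nat_lit 8387869) (nat_lit 0) (nat_lit 0),Row.mk (nat_lit 13944) (nat_lit 32912) (nat_lit 922) (nat_lit 61710) (nat_lit 8387685) (nat_lit 0) (nat_lit 0),Row.mk (nat_lit 14112) (nat_lit 32912) (nat_lit 1152) (nat_lit 61710) (nat_lit 8387455) (nat_lit 0) (nat_lit 0),Row.mk (nat_lit 14280) (nat_lit 32912) (nat_lit 1439) (nat_lit 61710) (nat_lit 8387168) (nat_lit 0) (nat_lit 0),Row.mk (nat_lit 14448) (nat_lit 32912) (nat_lit 1797) (nat_lit 61710) (nat_lit 8386810) (nat_lit 0) (nat_lit 0),Row.mk (nat_lit 14616) (nat_lit 32912) (nat_lit 2244) (nat_lit 61710) (nat_lit 8386363) (nat_lit 0) (nat_lit 0),Row.mk (nat_lit 14784) (nat_lit 32912) (nat_lit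 2803) (nat_lit 61710) (nat_lit 8385804) (nat_lit 0) (nat_lit 0),Row.mk (nat_lit 14952) (nat_lit 32912) (nat_lit 3501) (nat_lit 61710) (nat_lit 8385106) (nat_lit 0) (nat_lit 0),Row.mk (nat_lit 15120) (nat_lit 32912) (nat_lit 4373) (nat_lit 61710) (nat_lit 8384234) (nat_lit 0) (nat_lit 0),Row.mk (nat_lit 15288) (nat_lit 32912) (nat_lit 5462) (nat_lit 61710) (nat_lit 8383145) (nat_lit 0) (nat_lit 0),Row.mk (nat_lit 15456) (nat_lit 32912) (nat_lit 6822) (nat_lit 61710) (nat_lit 8381785) (nat_lit 0) (nat_lit 0),Row.mk (nat_lit 15624) (nat_lit 32912) (nat_lit 8521) (nat_lit 61710) (nat_lit 8380086) (nat_lit 0) (nat_lit 0),Row.mk (nat_lit 15792) (nat_lit 60962) (nat_lit 10588) (nat_lit 61336) (nat_lit 54) (nat_lit 0) (nat_lit 0),Row.mk (nat_lit 15960) (nat_lit 60401) (nat_lit 13208) (nat_lit 60775) (nat_lit 84) (nat_lit 0) (nat_lit 0),Row.mk (nat_lit 16128) (nat_lit 59840) (nat_lit 16470) (nat_lit 60214) (nat_lit 131) (nat_lit 0) (nat_lit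 0),Row.mk (nat_lit 16296) (nat_lit 59279) (nat_lit 20530) (nat_lit 59653) (nat_lit 205) (nat_lit 0) (nat_lit 0),Row.mk (nat_lit 16464) (nat_lit 58718) (nat_lit 25577) (nat_lit 59092) (nat_lit 321) (nat_lit 0) (nat_lit 0),Row.mk (nat_lit 16632) (nat_lit 58157) (nat_lit 31846) (nat_lit 58531) (nat_lit 500) (nat_lit 0) (nat_lit 0),Row.mk (nat_lit 16800) (nat_lit 57596) (nat_lit 39619) (nat_lit 57970) (nat_lit 781) (nat_lit 0) (nat_lit 0),Row.mk (nat_lit 16968) (nat_lit 57035) (nat_lit 49240) (nat_lit 57409) (nat_lit 1219) (nat_lit 0) (nat_lit 0),Row.mk (nat_lit 17136) (nat_lit 56474) (nat_lit 61121) (nat_lit 56848) (nat_lit 1901) (nat_lit 0) (nat_lit 0),Row.mk (nat_lit 17304) (nat_lit 55913) (nat_lit 75747) (nat_lit 56287) (nat_lit 2966) (nat_lit 0) (nat_lit 0),Row.mk (nat_lit 17472) (nat_lit 55352) (nat_lit 93684) (nat_lit 55726) (nat_lit 4627) (nat_lit 0) (nat_lit 0),Row.mk (nat_lit 17640) (nat_lit 54791) (nat_lit 115570) (nat_lit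 55165) (nat_lit 7219) (nat_lit 0) (nat_lit 0),Row.mk (nat_lit 17808) (nat_lit 54230) (nat_lit 142100) (nat_lit 54604) (nat_lit 11261) (nat_lit 0) (nat_lit 0),Row.mk (nat_lit 17976) (nat_lit 53669) (nat_lit 173978) (nat_lit 54043) (nat_lit 17566) (nat_lit 0) (nat_lit 0),Row.mk (nat_lit 18144) (nat_lit 53108) (nat_lit 211831) (nat_lit 53482) (nat_lit 27403) (nat_lit 0) (nat_lit 0),Row.mk (nat_lit 18312) (nat_lit 52547) (nat_lit 256051) (nat_lit 52921) (nat_lit 42747) (nat_lit 0) (nat_lit 0),Row.mk (nat_lit 18480) (nat_lit 51986) (nat_lit 306509) (nat_lit 52360) (nat_lit 66683) (nat_lit 0) (nat_lit 0),Row.mk (nat_lit 18648) (nat_lit 51425) (nat_lit 362086) (nat_lit 51799) (nat_lit 104022) (nat_lit 0) (nat_lit 0),Row.mk (nat_lit 18816) (nat_lit 50864) (nat_lit 419889) (nat_lit 51238) (nat_lit 162268) (nat_lit 0) (nat_lit 0),Row.mk (nat_lit 18984) (nat_lit 50303) (nat_lit 473972) (nat_lit 50677) (nat_lit 253129) (nat_lit 0) (nat_lit 0),Row.mk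 (nat_lit 19152) (nat_lit 49742) (nat_lit 513265) (nat_lit 50116) (nat_lit 394867) (nat_lit 0) (nat_lit 0),Row.mk (nat_lit 19320) (nat_lit 49181) (nat_lit 518265) (nat_lit 49555) (nat_lit 615970) (nat_lit 0) (nat_lit 0),Row.mk (nat_lit 19488) (nat_lit 48620) (nat_lit 455756) (nat_lit 48994) (nat_lit 960877) (nat_lit 0) (nat_lit 0),Row.mk (nat_lit 19656) (nat_lit 47872) (nat_lit 270429) (nat_lit 48433) (nat_lit 1498911) (nat_lit 0) (nat_lit 0),Row.mk (nat_lit 19824) (nat_lit 47685) (nat_lit 2107101) (nat_lit 48246) (nat_lit 102763) (nat_lit 0) (nat_lit 0),Row.mk (nat_lit 19992) (nat_lit 46750) (nat_lit 2049560) (nat_lit 47498) (nat_lit 710507) (nat_lit 0) (nat_lit 0),Row.mk (nat_lit 20160) (nat_lit 45815) (nat_lit 1651718) (nat_lit 46563) (nat_lit 1795539) (nat_lit 0) (nat_lit 0),Row.mk (nat_lit 20328) (nat_lit 44693) (nat_lit 646322) (nat_lit 45628) (nat_lit 3659218) (nat_lit 0) (nat_lit 0),Row.mk (nat_lit 20496) (nat_lit 44506) (nat_lit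 4254498) (nat_lit 45441) (nat_lit 1123018) (nat_lit 0) (nat_lit 0),Row.mk (nat_lit 20664) (nat_lit 43197) (nat_lit 2553699) (nat_lit 44319) (nat_lit 4162689) (nat_lit 0) (nat_lit 0),Row.mk (nat_lit 20832) (nat_lit 43010) (nat_lit 7495049) (nat_lit 44132) (nat_lit 893558) (nat_lit 0) (nat_lit 0),Row.mk (nat_lit 21000) (nat_lit 41327) (nat_lit 3983619) (nat_lit 42823) (nat_lit 6493549) (nat_lit 0) (nat_lit 0),Row.mk (nat_lit 21168) (nat_lit 41140) (nat_lit 10352961) (nat_lit 42636) (nat_lit 2732769) (nat_lit 0) (nat_lit 0),Row.mk (nat_lit 21336) (nat_lit 38896) (nat_lit 2453430) (nat_lit 40953) (nat_lit 13890332) (nat_lit 0) (nat_lit 0),Row.mk (nat_lit 21504) (nat_lit 38709) (nat_lit 9780664) (nat_lit 40766) (nat_lit 10632301) (nat_lit 0) (nat_lit 0),Row.mk (nat_lit 21672) (nat_lit 38522) (nat_lit 18932203) (nat_lit 40579) (nat_lit 6563098) (nat_lit 0) (nat_lit 0),Row.mk (nat_lit 21840) (nat_lit 38335) (nat_lit 30362254) (nat_lit 40392)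 (nat_lit 1480762) (nat_lit 0) (nat_lit 0),Row.mk (nat_lit 22008) (nat_lit 31603) (nat_lit 6078706) (nat_lit 38148) (nat_lit 33692452) (nat_lit 0) (nat_lit 0),Row.mk (nat_lit 22176) (nat_lit 31416) (nat_lit 15980765) (nat_lit 37961) (nat_lit 33692452) (nat_lit 0) (nat_lit 0),Row.mk (nat_lit 22344) (nat_lit 31229) (nat_lit 28348198) (nat_lit 37774) (nat_lit 33692452) (nat_lit 0) (nat_lit 0),Row.mk (nat_lit 22512) (nat_lit 31042) (nat_lit 43794824) (nat_lit 37587) (nat_lit 33692452) (nat_lit 0) (nat_lit 0),Row.mk (nat_lit 22680) (nat_lit 30855) (nat_lit 63087287) (nat_lit 37400) (nat_lit 33692452) (nat_lit 0) (nat_lit 0),Row.mk (nat_lit 22848) (nat_lit 30668) (nat_lit 87183107) (nat_lit 37213) (nat_lit 33692452) (nat_lit 0) (nat_lit 0),Row.mk (nat_lit 23016) (nat_lit 30481) (nat_lit 117278206) (nat_lit 37026) (nat_lit 33692452) (nat_lit 0) (nat_lit 0),Row.mk (nat_lit 23184) (nat_lit 30294) (nat_lit 154866258) (nat_lit 36839) (nat_lit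 33692452) (nat_lit 0) (nat_lit 0),Row.mk (nat_lit 23352) (nat_lit 30107) (nat_lit 201812828) (nat_lit 36652) (nat_lit 33692452) (nat_lit 0) (nat_lit 0),Row.mk (nat_lit 23520) (nat_lit 29920) (nat_lit 260447962) (nat_lit 36465) (nat_lit 33692452) (nat_lit 0) (nat_lit 0),Row.mk (nat_lit 23688) (nat_lit 29733) (nat_lit 333681830) (nat_lit 36278) (nat_lit 33692452) (nat_lit 0) (nat_lit 0),Row.mk (nat_lit 23856) (nat_lit 29546) (nat_lit 425149164) (nat_lit 36091) (nat_lit 33692452) (nat_lit 0) (nat_lit 0),Row.mk (nat_lit 24024) (nat_lit 29359) (nat_lit 539389658) (nat_lit 35904) (nat_lit 33692452) (nat_lit 0) (nat_lit 0),Row.mk (nat_lit 24192) (nat_lit 29172) (nat_lit 682073279) (nat_lit 35717) (nat_lit 33692452) (nat_lit 0) (nat_lit 0),Row.mk (nat_lit 24360) (nat_lit 28985) (nat_lit 860281679) (nat_lit 35530) (nat_lit 33692452) (nat_lit 0) (nat_lit 0),Row.mk (nat_lit 24528) (nat_lit 28798) (nat_lit 1082859672) (nat_lit 35343) (nat_lit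 33692452) (nat_lit 0) (nat_lit 0),Row.mk (nat_lit 24696) (nat_lit 28611) (nat_lit 1360854216) (nat_lit 35156) (nat_lit 33692452) (nat_lit 0) (nat_lit 0),Row.mk (nat_lit 24864) (nat_lit 28424) (nat_lit 1708062695) (nat_lit 34969) (nat_lit 33692452) (nat_lit 0) (nat_lit 0),Row.mk (nat_lit 25032) (nat_lit 28237) (nat_lit 2141717710) (nat_lit 34782) (nat_lit 33692452) (nat_lit 0) (nat_lit 0),Row.mk (nat_lit 25200) (nat_lit 28050) (nat_lit 2683342361) (nat_lit 34595) (nat_lit 33692452) (nat_lit 0) (nat_lit 0),Row.mk (nat_lit 25368) (nat_lit 27863) (nat_lit 3359818485) (nat_lit 34408) (nat_lit 33692452) (nat_lit 0) (nat_lit 0),Row.mk (nat_lit 25536) (nat_lit 27676) (nat_lit 4204720844) (nat_lit 34221) (nat_lit 33692452) (nat_lit 0) (nat_lit 0),Row.mk (nat_lit 25704) (nat_lit 27489) (nat_lit 5259983508) (nat_lit 34034) (nat_lit 33692452) (nat_lit 0) (nat_lit 0),Row.mk (nat_lit 25872) (nat_lit 27302) (nat_lit 6577981119) (nat_lit 33847) (nat_lit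 33692452) (nat_lit 0) (nat_lit 0),Row.mk (nat_lit 26040) (nat_lit 32912) (nat_lit 8388608) (nat_lit 62084) (nat_lit 8249432185) (nat_lit 0) (nat_lit 0),Row.mk (nat_lit 26208) (nat_lit 32912) (nat_lit 8388608) (nat_lit 62084) (nat_lit 10305430352) (nat_lit 0) (nat_lit 0)],
[Row.mk (nat_lit 10584) (nat_lit 32912) (nat_lit 10) (nat_lit 61710) (nat_lit 8388597) (nat_lit 0) (nat_lit 0),Row.mk (nat_lit 10752) (nat_lit 32912) (nat_lit 13) (nat_lit 61710) (nat_lit 8388594) (nat_lit 0) (nat_lit 0),Row.mk (nat_lit 10920) (nat_lit 32912) (nat_lit 16) (nat_lit 61710) (nat_lit 8388591) (nat_lit 0) (nat_lit 0),Row.mk (nat_lit 11088) (nat_lit 32912) (nat_lit 21) (nat_lit 61710) (nat_lit 8388586) (nat_lit 0) (nat_lit 0),Row.mk (nat_lit 11256) (nat_lit 32912) (nat_lit 26) (nat_lit 61710) (nat_lit 8388581) (nat_lit 0) (nat_lit 0),Row.mk (nat_lit 11424) (nat_lit 32912) (nat_lit 32) (nat_lit 61710) (nat_lit 8388575) (nat_lit 0) (nat_lit 0),Row.mk (nat_lit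 11592) (nat_lit 32912) (nat_lit 41) (nat_lit 61710) (nat_lit 8388566) (nat_lit 0) (nat_lit 0),Row.mk (nat_lit 11760) (nat_lit 32912) (nat_lit 51) (nat_lit 61710) (nat_lit 8388556) (nat_lit 0) (nat_lit 0),Row.mk (nat_lit 11928) (nat_lit 32912) (nat_lit 64) (nat_lit 61710) (nat_lit 8388543) (nat_lit 0) (nat_lit 0),Row.mk (nat_lit 12096) (nat_lit 32912) (nat_lit 79) (nat_lit 61710) (nat_lit 8388528) (nat_lit 0) (nat_lit 0),Row.mk (nat_lit 12264) (nat_lit 32912) (nat_lit 99) (nat_lit 61710) (nat_lit 8388508) (nat_lit 0) (nat_lit 0),Row.mk (nat_lit 12432) (nat_lit 32912) (nat_lit 124) (nat_lit 61710) (nat_lit 8388483) (nat_lit 0) (nat_lit 0),Row.mk (nat_lit 12600) (nat_lit 32912) (nat_lit 155) (nat_lit 61710) (nat_lit 8388452) (nat_lit 0) (nat_lit 0),Row.mk (nat_lit 12768) (nat_lit 32912) (nat_lit 194) (nat_lit 61710) (nat_lit 8388413) (nat_lit 0) (nat_lit 0),Row.mk (nat_lit 12936) (nat_lit 32912) (nat_lit 243) (nat_lit 61710) (nat_lit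 8388364) (nat_lit 0) (nat_lit 0),Row.mk (nat_lit 13104) (nat_lit 32912) (nat_lit 303) (nat_lit 61710) (nat_lit 8388304) (nat_lit 0) (nat_lit 0),Row.mk (nat_lit 13272) (nat_lit 32912) (nat_lit 379) (nat_lit 61710) (nat_lit 8388228) (nat_lit 0) (nat_lit 0),Row.mk (nat_lit 13440) (nat_lit 32912) (nat_lit 473) (nat_lit 61710) (nat_lit 8388134) (nat_lit 0) (nat_lit 0),Row.mk (nat_lit 13608) (nat_lit 32912) (nat_lit 591) (nat_lit 61710) (nat_lit 8388016) (nat_lit 0) (nat_lit 0),Row.mk (nat_lit 13776) (nat_lit 32912) (nat_lit 738) (nat_lit 61710) (nat_lit 8387869) (nat_lit 0) (nat_lit 0),Row.mk (nat_lit 13944) (nat_lit 32912) (nat_lit 922) (nat_lit 61710) (nat_lit 8387685) (nat_lit 0) (nat_lit 0),Row.mk (nat_lit 14112) (nat_lit 32912) (nat_lit 1152) (nat_lit 61710) (nat_lit 8387455) (nat_lit 0) (nat_lit 0),Row.mk (nat_lit 14280) (nat_lit 32912) (nat_lit 1439) (nat_lit 61710) (nat_lit 8387168) (nat_lit 0) (nat_lit 0),Row.mk (nat_lit 14448)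 (nat_lit 32912) (nat_lit 1797) (nat_lit 61710) (nat_lit 8386810) (nat_lit 0) (nat_lit 0),Row.mk (nat_lit 14616) (nat_lit 32912) (nat_lit 2244) (nat_lit 61710) (nat_lit 8386363) (nat_lit 0) (nat_lit 0),Row.mk (nat_lit 14784) (nat_lit 32912) (nat_lit 2803) (nat_lit 61710) (nat_lit 8385804) (nat_lit 0) (nat_lit 0),Row.mk (nat_lit 14952) (nat_lit 32912) (nat_lit 3501) (nat_lit 61710) (nat_lit 8385106) (nat_lit 0) (nat_lit 0),Row.mk (nat_lit 15120) (nat_lit 32912) (nat_lit 4373) (nat_lit 61710) (nat_lit 8384234) (nat_lit 0) (nat_lit 0),Row.mk (nat_lit 15288) (nat_lit 32912) (nat_lit 5462) (nat_lit 61710) (nat_lit 8383145) (nat_lit 0) (nat_lit 0),Row.mk (nat_lit 15456) (nat_lit 32912) (nat_lit 6822) (nat_lit 61710) (nat_lit 8381785) (nat_lit 0) (nat_lit 0),Row.mk (nat_lit 15624) (nat_lit 32912) (nat_lit 8521) (nat_lit 61710) (nat_lit 8380086) (nat_lit 0) (nat_lit 0),Row.mk (nat_lit 15792) (nat_lit 60962) (nat_lit 10588) (nat_lit 61336)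 (nat_lit 54) (nat_lit 0) (nat_lit 0),Row.mk (nat_lit 15960) (nat_lit 60401) (nat_lit 13208) (nat_lit 60775) (nat_lit 84) (nat_lit 0) (nat_lit 0),Row.mk (nat_lit 16128) (nat_lit 59840) (nat_lit 16470) (nat_lit 60214) (nat_lit 131) (nat_lit 0) (nat_lit 0),Row.mk (nat_lit 16296) (nat_lit 59279) (nat_lit 20530) (nat_lit 59653) (nat_lit 205) (nat_lit 0) (nat_lit 0),Row.mk (nat_lit 16464) (nat_lit 58718) (nat_lit 25577) (nat_lit 59092) (nat_lit 321) (nat_lit 0) (nat_lit 0),Row.mk (nat_lit 16632) (nat_lit 58157) (nat_lit 31846) (nat_lit 58531) (nat_lit 500) (nat_lit 0) (nat_lit 0),Row.mk (nat_lit 16800) (nat_lit 57596) (nat_lit 39619) (nat_lit 57970) (nat_lit 781) (nat_lit 0) (nat_lit 0),Row.mk (nat_lit 16968) (nat_lit 57035) (nat_lit 49240) (nat_lit 57409) (nat_lit 1219) (nat_lit 0) (nat_lit 0),Row.mk (nat_lit 17136) (nat_lit 56474) (nat_lit 61121) (nat_lit 56848) (nat_lit 1901) (nat_lit 0) (nat_lit 0),Row.mk (nat_lit 17304) (nat_lit 55913)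 (nat_lit 75747) (nat_lit 56287) (nat_lit 2966) (nat_lit 0) (nat_lit 0),Row.mk (nat_lit 17472) (nat_lit 55352) (nat_lit 93684) (nat_lit 55726) (nat_lit 4627) (nat_lit 0) (nat_lit 0),Row.mk (nat_lit 17640) (nat_lit 54791) (nat_lit 115570) (nat_lit 55165) (nat_lit 7219) (nat_lit 0) (nat_lit 0),Row.mk (nat_lit 17808) (nat_lit 54230) (nat_lit 142100) (nat_lit 54604) (nat_lit 11261) (nat_lit 0) (nat_lit 0),Row.mk (nat_lit 17976) (nat_lit 53669) (nat_lit 173978) (nat_lit 54043) (nat_lit 17566) (nat_lit 0) (nat_lit 0),Row.mk (nat_lit 18144) (nat_lit 53108) (nat_lit 211831) (nat_lit 53482) (nat_lit 27403) (nat_lit 0) (nat_lit 0),Row.mk (nat_lit 18312) (nat_lit 52547) (nat_lit 256051) (nat_lit 52921) (nat_lit 42747) (nat_lit 0) (nat_lit 0),Row.mk (nat_lit 18480) (nat_lit 51986) (nat_lit 306509) (nat_lit 52360) (nat_lit 66683) (nat_lit 0) (nat_lit 0),Row.mk (nat_lit 18648) (nat_lit 51425) (nat_lit 362086) (nat_lit 51799) (nat_lit 104022) (nat_lit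 0) (nat_lit 0),Row.mk (nat_lit 18816) (nat_lit 50864) (nat_lit 419889) (nat_lit 51238) (nat_lit 162268) (nat_lit 0) (nat_lit 0),Row.mk (nat_lit 18984) (nat_lit 50303) (nat_lit 473972) (nat_lit 50677) (nat_lit 253129) (nat_lit 0) (nat_lit 0),Row.mk (nat_lit 19152) (nat_lit 49742) (nat_lit 513265) (nat_lit 50116) (nat_lit 394867) (nat_lit 0) (nat_lit 0),Row.mk (nat_lit 19320) (nat_lit 49181) (nat_lit 518265) (nat_lit 49555) (nat_lit 615970) (nat_lit 0) (nat_lit 0),Row.mk (nat_lit 19488) (nat_lit 48620) (nat_lit 455756) (nat_lit 48994) (nat_lit 960877) (nat_lit 0) (nat_lit 0),Row.mk (nat_lit 19656) (nat_lit 47872) (nat_lit 270429) (nat_lit 48433) (nat_lit 1498911) (nat_lit 0) (nat_lit 0),Row.mk (nat_lit 19824) (nat_lit 47685) (nat_lit 2107101) (nat_lit 48246) (nat_lit 102763) (nat_lit 0) (nat_lit 0),Row.mk (nat_lit 19992) (nat_lit 46750) (nat_lit 2049560) (nat_lit 47498) (nat_lit 710507) (nat_lit 0) (nat_lit 0),Row.mk (nat_lit 20160)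 (nat_lit 45815) (nat_lit 1651718) (nat_lit 46563) (nat_lit 1795539) (nat_lit 0) (nat_lit 0),Row.mk (nat_lit 20328) (nat_lit 44693) (nat_lit 646322) (nat_lit 45628) (nat_lit 3659218) (nat_lit 0) (nat_lit 0),Row.mk (nat_lit 20496) (nat_lit 44506) (nat_lit 4254498) (nat_lit 45441) (nat_lit 1123018) (nat_lit 0) (nat_lit 0),Row.mk (nat_lit 20664) (nat_lit 43197) (nat_lit 2553699) (nat_lit 44319) (nat_lit 4162689) (nat_lit 0) (nat_lit 0),Row.mk (nat_lit 20832) (nat_lit 43010) (nat_lit 7495049) (nat_lit 44132) (nat_lit 893558) (nat_lit 0) (nat_lit 0),Row.mk (nat_lit 21000) (nat_lit 41327) (nat_lit 3983619) (nat_lit 42823) (nat_lit 6493549) (nat_lit 0) (nat_lit 0),Row.mk (nat_lit 21168) (nat_lit 41140) (nat_lit 10352961) (nat_lit 42636) (nat_lit 2732769) (nat_lit 0) (nat_lit 0),Row.mk (nat_lit 21336) (nat_lit 38896) (nat_lit 2453430) (nat_lit 40953) (nat_lit 13890332) (nat_lit 0) (nat_lit 0),Row.mk (nat_lit 21504) (nat_lit 38709) (nat_lit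 9780664) (nat_lit 40766) (nat_lit 10632301) (nat_lit 0) (nat_lit 0),Row.mk (nat_lit 21672) (nat_lit 38522) (nat_lit 18932203) (nat_lit 40579) (nat_lit 6563098) (nat_lit 0) (nat_lit 0),Row.mk (nat_lit 21840) (nat_lit 38335) (nat_lit 30362254) (nat_lit 40392) (nat_lit 1480762) (nat_lit 0) (nat_lit 0),Row.mk (nat_lit 22008) (nat_lit 31603) (nat_lit 6078706) (nat_lit 38148) (nat_lit 33692452) (nat_lit 0) (nat_lit 0),Row.mk (nat_lit 22176) (nat_lit 31416) (nat_lit 15980765) (nat_lit 37961) (nat_lit 33692452) (nat_lit 0) (nat_lit 0),Row.mk (nat_lit 22344) (nat_lit 31229) (nat_lit 28348198) (nat_lit 37774) (nat_lit 33692452) (nat_lit 0) (nat_lit 0),Row.mk (nat_lit 22512) (nat_lit 31042) (nat_lit 43794824) (nat_lit 37587) (nat_lit 33692452) (nat_lit 0) (nat_lit 0),Row.mk (nat_lit 22680) (nat_lit 30855) (nat_lit 63087287) (nat_lit 37400) (nat_lit 33692452) (nat_lit 0) (nat_lit 0),Row.mk (nat_lit 22848) (nat_lit 30668) (nat_lit 87183107) (nat_lit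 37213) (nat_lit 33692452) (nat_lit 0) (nat_lit 0),Row.mk (nat_lit 23016) (nat_lit 30481) (nat_lit 117278206) (nat_lit 37026) (nat_lit 33692452) (nat_lit 0) (nat_lit 0),Row.mk (nat_lit 23184) (nat_lit 30294) (nat_lit 154866258) (nat_lit 36839) (nat_lit 33692452) (nat_lit 0) (nat_lit 0),Row.mk (nat_lit 23352) (nat_lit 30107) (nat_lit 201812828) (nat_lit 36652) (nat_lit 33692452) (nat_lit 0) (nat_lit 0),Row.mk (nat_lit 23520) (nat_lit 29920) (nat_lit 260447962) (nat_lit 36465) (nat_lit 33692452) (nat_lit 0) (nat_lit 0),Row.mk (nat_lit 23688) (nat_lit 29733) (nat_lit 333681830) (nat_lit 36278) (nat_lit 33692452) (nat_lit 0) (nat_lit 0),Row.mk (nat_lit 23856) (nat_lit 29546) (nat_lit 425149164) (nat_lit 36091) (nat_lit 33692452) (nat_lit 0) (nat_lit 0),Row.mk (nat_lit 24024) (nat_lit 29359) (nat_lit 539389658) (nat_lit 35904) (nat_lit 33692452) (nat_lit 0) (nat_lit 0),Row.mk (nat_lit 24192) (nat_lit 29172) (nat_lit 682073279) (nat_lit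 35717) (nat_lit 33692452) (nat_lit 0) (nat_lit 0),Row.mk (nat_lit 24360) (nat_lit 28985) (nat_lit 860281679) (nat_lit 35530) (nat_lit 33692452) (nat_lit 0) (nat_lit 0),Row.mk (nat_lit 24528) (nat_lit 28798) (nat_lit 1082859672) (nat_lit 35343) (nat_lit 33692452) (nat_lit 0) (nat_lit 0),Row.mk (nat_lit 24696) (nat_lit 28611) (nat_lit 1360854216) (nat_lit 35156) (nat_lit 33692452) (nat_lit 0) (nat_lit 0),Row.mk (nat_lit 24864) (nat_lit 28424) (nat_lit 1708062695) (nat_lit 34969) (nat_lit 33692452) (nat_lit 0) (nat_lit 0),Row.mk (nat_lit 25032) (nat_lit 28237) (nat_lit 2141717710) (nat_lit 34782) (nat_lit 33692452) (nat_lit 0) (nat_lit 0),Row.mk (nat_lit 25200) (nat_lit 28050) (nat_lit 2683342361) (nat_lit 34595) (nat_lit 33692452) (nat_lit 0) (nat_lit 0),Row.mk (nat_lit 25368) (nat_lit 27863) (nat_lit 3359818485) (nat_lit 34408) (nat_lit 33692452) (nat_lit 0) (nat_lit 0),Row.mk (nat_lit 25536) (nat_lit 27676) (nat_lit 4204720844) (nat_lit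 34221) (nat_lit 33692452) (nat_lit 0) (nat_lit 0),Row.mk (nat_lit 25704) (nat_lit 27489) (nat_lit 5259983508) (nat_lit 34034) (nat_lit 33692452) (nat_lit 0) (nat_lit 0),Row.mk (nat_lit 25872) (nat_lit 27302) (nat_lit 6577981119) (nat_lit 33847) (nat_lit 33692452) (nat_lit 0) (nat_lit 0),Row.mk (nat_lit 26040) (nat_lit 32912) (nat_lit 8388608) (nat_lit 62084) (nat_lit 8249432185) (nat_lit 0) (nat_lit 0),Row.mk (nat_lit 26208) (nat_lit 32912) (nat_lit 8388608) (nat_lit 62084) (nat_lit 10305430352) (nat_lit 0) (nat_lit 0)],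
[Row.mk (nat_lit 10584) (nat_lit 32912) (nat_lit 10) (nat_lit 61710) (nat_lit 8388597) (nat_lit 0) (nat_lit 0),Row.mk (nat_lit 10752) (nat_lit 32912) (nat_lit 13) (nat_lit 61710) (nat_lit 8388594) (nat_lit 0) (nat_lit 0),Row.mk (nat_lit 10920) (nat_lit 32912) (nat_lit 16) (nat_lit 61710) (nat_lit 8388591) (nat_lit 0) (nat_lit 0),Row.mk (nat_lit 11088) (nat_lit 32912) (nat_lit 21) (nat_lit 61710) (nat_lit 8388586) (nat_lit 0) (nat_lit 0),Row.mk (nat_lit 11256) (nat_lit 32912) (nat_lit 26) (nat_lit 61710) (nat_lit 8388581) (nat_lit 0) (nat_lit 0),Row.mk (nat_lit 11424) (nat_lit 32912) (nat_lit 32) (nat_lit 61710) (nat_lit 8388575) (nat_lit 0) (nat_lit 0),Row.mk (nat_lit 11592) (nat_lit 32912) (nat_lit 41) (nat_lit 61710) (nat_lit 8388566) (nat_lit 0) (nat_lit 0),Row.mk (nat_lit 11760) (nat_lit 32912) (nat_lit 51) (nat_lit 61710) (nat_lit 8388556) (nat_lit 0) (nat_lit 0),Row.mk (nat_lit 11928) (nat_lit 32912) (nat_lit 64) (nat_lit 61710)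 (nat_lit 8388543) (nat_lit 0) (nat_lit 0),Row.mk (nat_lit 12096) (nat_lit 32912) (nat_lit 79) (nat_lit 61710) (nat_lit 8388528) (nat_lit 0) (nat_lit 0),Row.mk (nat_lit 12264) (nat_lit 32912) (nat_lit 99) (nat_lit 61710) (nat_lit 8388508) (nat_lit 0) (nat_lit 0),Row.mk (nat_lit 12432) (nat_lit 32912) (nat_lit 124) (nat_lit 61710) (nat_lit 8388483) (nat_lit 0) (nat_lit 0),Row.mk (nat_lit 12600) (nat_lit 32912) (nat_lit 155) (nat_lit 61710) (nat_lit 8388452) (nat_lit 0) (nat_lit 0),Row.mk (nat_lit 12768) (nat_lit 32912) (nat_lit 194) (nat_lit 61710) (nat_lit 8388413) (nat_lit 0) (nat_lit 0),Row.mk (nat_lit 12936) (nat_lit 32912) (nat_lit 243) (nat_lit 61710) (nat_lit 8388364) (nat_lit 0) (nat_lit 0),Row.mk (nat_lit 13104) (nat_lit 32912) (nat_lit 303) (nat_lit 61710) (nat_lit 8388304) (nat_lit 0) (nat_lit 0),Row.mk (nat_lit 13272) (nat_lit 32912) (nat_lit 379) (nat_lit 61710) (nat_lit 8388228) (nat_lit 0) (nat_lit 0),Row.mk (nat_lit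 13440) (nat_lit 32912) (nat_lit 473) (nat_lit 61710) (nat_lit 8388134) (nat_lit 0) (nat_lit 0),Row.mk (nat_lit 13608) (nat_lit 32912) (nat_lit 591) (nat_lit 61710) (nat_lit 8388016) (nat_lit 0) (nat_lit 0),Row.mk (nat_lit 13776) (nat_lit 32912) (nat_lit 738) (nat_lit 61710) (nat_lit 8387869) (nat_lit 0) (nat_lit 0),Row.mk (nat_lit 13944) (nat_lit 32912) (nat_lit 922) (nat_lit 61710) (nat_lit 8387685) (nat_lit 0) (nat_lit 0),Row.mk (nat_lit 14112) (nat_lit 32912) (nat_lit 1152) (nat_lit 61710) (nat_lit 8387455) (nat_lit 0) (nat_lit 0),Row.mk (nat_lit 14280) (nat_lit 32912) (nat_lit 1439) (nat_lit 61710) (nat_lit 8387168) (nat_lit 0) (nat_lit 0),Row.mk (nat_lit 14448) (nat_lit 32912) (nat_lit 1797) (nat_lit 61710) (nat_lit 8386810) (nat_lit 0) (nat_lit 0),Row.mk (nat_lit 14616) (nat_lit 32912) (nat_lit 2244) (nat_lit 61710) (nat_lit 8386363) (nat_lit 0) (nat_lit 0),Row.mk (nat_lit 14784) (nat_lit 32912) (nat_lit 2803) (nat_lit 61710)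 (nat_lit 8385804) (nat_lit 0) (nat_lit 0),Row.mk (nat_lit 14952) (nat_lit 32912) (nat_lit 3501) (nat_lit 61710) (nat_lit 8385106) (nat_lit 0) (nat_lit 0),Row.mk (nat_lit 15120) (nat_lit 32912) (nat_lit 4373) (nat_lit 61710) (nat_lit 8384234) (nat_lit 0) (nat_lit 0),Row.mk (nat_lit 15288) (nat_lit 32912) (nat_lit 5462) (nat_lit 61710) (nat_lit 8383145) (nat_lit 0) (nat_lit 0),Row.mk (nat_lit 15456) (nat_lit 32912) (nat_lit 6822) (nat_lit 61710) (nat_lit 8381785) (nat_lit 0) (nat_lit 0),Row.mk (nat_lit 15624) (nat_lit 32912) (nat_lit 8521) (nat_lit 61710) (nat_lit 8380086) (nat_lit 0) (nat_lit 0),Row.mk (nat_lit 15792) (nat_lit 60962) (nat_lit 10588) (nat_lit 61336) (nat_lit 54) (nat_lit 0) (nat_lit 0),Row.mk (nat_lit 15960) (nat_lit 60401) (nat_lit 13208) (nat_lit 60775) (nat_lit 84) (nat_lit 0) (nat_lit 0),Row.mk (nat_lit 16128) (nat_lit 59840) (nat_lit 16470) (nat_lit 60214) (nat_lit 131) (nat_lit 0) (nat_lit 0),Row.mk (nat_lit 16296)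 (nat_lit 59279) (nat_lit 20530) (nat_lit 59653) (nat_lit 205) (nat_lit 0) (nat_lit 0),Row.mk (nat_lit 16464) (nat_lit 58718) (nat_lit 25577) (nat_lit 59092) (nat_lit 321) (nat_lit 0) (nat_lit 0),Row.mk (nat_lit 16632) (nat_lit 58157) (nat_lit 31846) (nat_lit 58531) (nat_lit 500) (nat_lit 0) (nat_lit 0),Row.mk (nat_lit 16800) (nat_lit 57596) (nat_lit 39619) (nat_lit 57970) (nat_lit 781) (nat_lit 0) (nat_lit 0),Row.mk (nat_lit 16968) (nat_lit 57035) (nat_lit 49240) (nat_lit 57409) (nat_lit 1219) (nat_lit 0) (nat_lit 0),Row.mk (nat_lit 17136) (nat_lit 56474) (nat_lit 61121) (nat_lit 56848) (nat_lit 1901) (nat_lit 0) (nat_lit 0),Row.mk (nat_lit 17304) (nat_lit 55913) (nat_lit 75747) (nat_lit 56287) (nat_lit 2966) (nat_lit 0) (nat_lit 0),Row.mk (nat_lit 17472) (nat_lit 55352) (nat_lit 93684) (nat_lit 55726) (nat_lit 4627) (nat_lit 0) (nat_lit 0),Row.mk (nat_lit 17640) (nat_lit 54791) (nat_lit 115570) (nat_lit 55165) (nat_lit 7219) (nat_lit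 0) (nat_lit 0),Row.mk (nat_lit 17808) (nat_lit 54230) (nat_lit 142100) (nat_lit 54604) (nat_lit 11261) (nat_lit 0) (nat_lit 0),Row.mk (nat_lit 17976) (nat_lit 53669) (nat_lit 173978) (nat_lit 54043) (nat_lit 17566) (nat_lit 0) (nat_lit 0),Row.mk (nat_lit 18144) (nat_lit 53108) (nat_lit 211831) (nat_lit 53482) (nat_lit 27403) (nat_lit 0) (nat_lit 0),Row.mk (nat_lit 18312) (nat_lit 52547) (nat_lit 256051) (nat_lit 52921) (nat_lit 42747) (nat_lit 0) (nat_lit 0),Row.mk (nat_lit 18480) (nat_lit 51986) (nat_lit 306509) (nat_lit 52360) (nat_lit 66683) (nat_lit 0) (nat_lit 0),Row.mk (nat_lit 18648) (nat_lit 51425) (nat_lit 362086) (nat_lit 51799) (nat_lit 104022) (nat_lit 0) (nat_lit 0),Row.mk (nat_lit 18816) (nat_lit 50864) (nat_lit 419889) (nat_lit 51238) (nat_lit 162268) (nat_lit 0) (nat_lit 0),Row.mk (nat_lit 18984) (nat_lit 50303) (nat_lit 473972) (nat_lit 50677) (nat_lit 253129) (nat_lit 0) (nat_lit 0),Row.mk (nat_lit 19152) (nat_lit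 49742) (nat_lit 513265) (nat_lit 50116) (nat_lit 394867) (nat_lit 0) (nat_lit 0),Row.mk (nat_lit 19320) (nat_lit 49181) (nat_lit 518265) (nat_lit 49555) (nat_lit 615970) (nat_lit 0) (nat_lit 0),Row.mk (nat_lit 19488) (nat_lit 48620) (nat_lit 455756) (nat_lit 48994) (nat_lit 960877) (nat_lit 0) (nat_lit 0),Row.mk (nat_lit 19656) (nat_lit 47872) (nat_lit 270429) (nat_lit 48433) (nat_lit 1498911) (nat_lit 0) (nat_lit 0),Row.mk (nat_lit 19824) (nat_lit 47685) (nat_lit 2107101) (nat_lit 48246) (nat_lit 102763) (nat_lit 0) (nat_lit 0),Row.mk (nat_lit 19992) (nat_lit 46750) (nat_lit 2049560) (nat_lit 47498) (nat_lit 710507) (nat_lit 0) (nat_lit 0),Row.mk (nat_lit 20160) (nat_lit 45815) (nat_lit 1651718) (nat_lit 46563) (nat_lit 1795539) (nat_lit 0) (nat_lit 0),Row.mk (nat_lit 20328) (nat_lit 44693) (nat_lit 646322) (nat_lit 45628) (nat_lit 3659218) (nat_lit 0) (nat_lit 0),Row.mk (nat_lit 20496) (nat_lit 44506) (nat_lit 4254498) (nat_lit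 45441) (nat_lit 1123018) (nat_lit 0) (nat_lit 0),Row.mk (nat_lit 20664) (nat_lit 43197) (nat_lit 2553699) (nat_lit 44319) (nat_lit 4162689) (nat_lit 0) (nat_lit 0),Row.mk (nat_lit 20832) (nat_lit 43010) (nat_lit 7495049) (nat_lit 44132) (nat_lit 893558) (nat_lit 0) (nat_lit 0),Row.mk (nat_lit 21000) (nat_lit 41327) (nat_lit 3983619) (nat_lit 42823) (nat_lit 6493549) (nat_lit 0) (nat_lit 0),Row.mk (nat_lit 21168) (nat_lit 41140) (nat_lit 10352961) (nat_lit 42636) (nat_lit 2732769) (nat_lit 0) (nat_lit 0),Row.mk (nat_lit 21336) (nat_lit 38896) (nat_lit 2453430) (nat_lit 40953) (nat_lit 13890332) (nat_lit 0) (nat_lit 0),Row.mk (nat_lit 21504) (nat_lit 38709) (nat_lit 9780664) (nat_lit 40766) (nat_lit 10632301) (nat_lit 0) (nat_lit 0),Row.mk (nat_lit 21672) (nat_lit 38522) (nat_lit 18932203) (nat_lit 40579) (nat_lit 6563098) (nat_lit 0) (nat_lit 0),Row.mk (nat_lit 21840) (nat_lit 38335) (nat_lit 30362254) (nat_lit 40392) (nat_lit 1480762)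 (nat_lit 0) (nat_lit 0),Row.mk (nat_lit 22008) (nat_lit 31603) (nat_lit 6078706) (nat_lit 38148) (nat_lit 33692452) (nat_lit 0) (nat_lit 0),Row.mk (nat_lit 22176) (nat_lit 31416) (nat_lit 15980765) (nat_lit 37961) (nat_lit 33692452) (nat_lit 0) (nat_lit 0),Row.mk (nat_lit 22344) (nat_lit 31229) (nat_lit 28348198) (nat_lit 37774) (nat_lit 33692452) (nat_lit 0) (nat_lit 0),Row.mk (nat_lit 22512) (nat_lit 31042) (nat_lit 43794824) (nat_lit 37587) (nat_lit 33692452) (nat_lit 0) (nat_lit 0),Row.mk (nat_lit 22680) (nat_lit 30855) (nat_lit 63087287) (nat_lit 37400) (nat_lit 33692452) (nat_lit 0) (nat_lit 0),Row.mk (nat_lit 22848) (nat_lit 30668) (nat_lit 87183107) (nat_lit 37213) (nat_lit 33692452) (nat_lit 0) (nat_lit 0),Row.mk (nat_lit 23016) (nat_lit 30481) (nat_lit 117278206) (nat_lit 37026) (nat_lit 33692452) (nat_lit 0) (nat_lit 0),Row.mk (nat_lit 23184) (nat_lit 30294) (nat_lit 154866258) (nat_lit 36839) (nat_lit 33692452) (nat_lit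 0) (nat_lit 0),Row.mk (nat_lit 23352) (nat_lit 30107) (nat_lit 201812828) (nat_lit 36652) (nat_lit 33692452) (nat_lit 0) (nat_lit 0),Row.mk (nat_lit 23520) (nat_lit 29920) (nat_lit 260447962) (nat_lit 36465) (nat_lit 33692452) (nat_lit 0) (nat_lit 0),Row.mk (nat_lit 23688) (nat_lit 29733) (nat_lit 333681830) (nat_lit 36278) (nat_lit 33692452) (nat_lit 0) (nat_lit 0),Row.mk (nat_lit 23856) (nat_lit 29546) (nat_lit 425149164) (nat_lit 36091) (nat_lit 33692452) (nat_lit 0) (nat_lit 0),Row.mk (nat_lit 24024) (nat_lit 29359) (nat_lit 539389658) (nat_lit 35904) (nat_lit 33692452) (nat_lit 0) (nat_lit 0),Row.mk (nat_lit 24192) (nat_lit 29172) (nat_lit 682073279) (nat_lit 35717) (nat_lit 33692452) (nat_lit 0) (nat_lit 0),Row.mk (nat_lit 24360) (nat_lit 28985) (nat_lit 860281679) (nat_lit 35530) (nat_lit 33692452) (nat_lit 0) (nat_lit 0),Row.mk (nat_lit 24528) (nat_lit 28798) (nat_lit 1082859672) (nat_lit 35343) (nat_lit 33692452) (nat_lit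 0) (nat_lit 0),Row.mk (nat_lit 24696) (nat_lit 28611) (nat_lit 1360854216) (nat_lit 35156) (nat_lit 33692452) (nat_lit 0) (nat_lit 0),Row.mk (nat_lit 24864) (nat_lit 28424) (nat_lit 1708062695) (nat_lit 34969) (nat_lit 33692452) (nat_lit 0) (nat_lit 0),Row.mk (nat_lit 25032) (nat_lit 28237) (nat_lit 2141717710) (nat_lit 34782) (nat_lit 33692452) (nat_lit 0) (nat_lit 0),Row.mk (nat_lit 25200) (nat_lit 28050) (nat_lit 2683342361) (nat_lit 34595) (nat_lit 33692452) (nat_lit 0) (nat_lit 0),Row.mk (nat_lit 25368) (nat_lit 27863) (nat_lit 3359818485) (nat_lit 34408) (nat_lit 33692452) (nat_lit 0) (nat_lit 0),Row.mk (nat_lit 25536) (nat_lit 27676) (nat_lit 4204720844) (nat_lit 34221) (nat_lit 33692452) (nat_lit 0) (nat_lit 0),Row.mk (nat_lit 25704) (nat_lit 27489) (nat_lit 5259983508) (nat_lit 34034) (nat_lit 33692452) (nat_lit 0) (nat_lit 0),Row.mk (nat_lit 25872) (nat_lit 27302) (nat_lit 6577981119) (nat_lit 33847) (nat_lit 33692452) (nat_lit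 0) (nat_lit 0),Row.mk (nat_lit 26040) (nat_lit 32912) (nat_lit 8388608) (nat_lit 62084) (nat_lit 8249432185) (nat_lit 0) (nat_lit 0),Row.mk (nat_lit 26208) (nat_lit 32912) (nat_lit 8388608) (nat_lit 62084) (nat_lit 10305430352) (nat_lit 0) (nat_lit 0)],
[Row.mk (nat_lit 10584) (nat_lit 32912) (nat_lit 10) (nat_lit 61710) (nat_lit 8388597) (nat_lit 0) (nat_lit 0),Row.mk (nat_lit 10752) (nat_lit 32912) (nat_lit 13) (nat_lit 61710) (nat_lit 8388594) (nat_lit 0) (nat_lit 0),Row.mk (nat_lit 10920) (nat_lit 32912) (nat_lit 16) (nat_lit 61710) (nat_lit 8388591) (nat_lit 0) (nat_lit 0),Row.mk (nat_lit 11088) (nat_lit 32912) (nat_lit 21) (nat_lit 61710) (nat_lit 8388586) (nat_lit 0) (nat_lit 0),Row.mk (nat_lit 11256) (nat_lit 32912) (nat_lit 26) (nat_lit 61710) (nat_lit 8388581) (nat_lit 0) (nat_lit 0),Row.mk (nat_lit 11424) (nat_lit 32912) (nat_lit 32) (nat_lit 61710) (nat_lit 8388575) (nat_lit 0) (nat_lit 0),Row.mk (nat_lit 11592) (nat_lit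 32912) (nat_lit 41) (nat_lit 61710) (nat_lit 8388566) (nat_lit 0) (nat_lit 0),Row.mk (nat_lit 11760) (nat_lit 32912) (nat_lit 51) (nat_lit 61710) (nat_lit 8388556) (nat_lit 0) (nat_lit 0),Row.mk (nat_lit 11928) (nat_lit 32912) (nat_lit 64) (nat_lit 61710) (nat_lit 8388543) (nat_lit 0) (nat_lit 0),Row.mk (nat_lit 12096) (nat_lit 32912) (nat_lit 79) (nat_lit 61710) (nat_lit 8388528) (nat_lit 0) (nat_lit 0),Row.mk (nat_lit 12264) (nat_lit 32912) (nat_lit 99) (nat_lit 61710) (nat_lit 8388508) (nat_lit 0) (nat_lit 0),Row.mk (nat_lit 12432) (nat_lit 32912) (nat_lit 124) (nat_lit 61710) (nat_lit 8388483) (nat_lit 0) (nat_lit 0),Row.mk (nat_lit 12600) (nat_lit 32912) (nat_lit 155) (nat_lit 61710) (nat_lit 8388452) (nat_lit 0) (nat_lit 0),Row.mk (nat_lit 12768) (nat_lit 32912) (nat_lit 194) (nat_lit 61710) (nat_lit 8388413) (nat_lit 0) (nat_lit 0),Row.mk (nat_lit 12936) (nat_lit 32912) (nat_lit 243) (nat_lit 61710) (nat_lit 8388364) (nat_lit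 0) (nat_lit 0),Row.mk (nat_lit 13104) (nat_lit 32912) (nat_lit 303) (nat_lit 61710) (nat_lit 8388304) (nat_lit 0) (nat_lit 0),Row.mk (nat_lit 13272) (nat_lit 32912) (nat_lit 379) (nat_lit 61710) (nat_lit 8388228) (nat_lit 0) (nat_lit 0),Row.mk (nat_lit 13440) (nat_lit 32912) (nat_lit 473) (nat_lit 61710) (nat_lit 8388134) (nat_lit 0) (nat_lit 0),Row.mk (nat_lit 13608) (nat_lit 32912) (nat_lit 591) (nat_lit 61710) (nat_lit 8388016) (nat_lit 0) (nat_lit 0),Row.mk (nat_lit 13776) (nat_lit 32912) (nat_lit 738) (nat_lit 61710) (nat_lit 8387869) (nat_lit 0) (nat_lit 0),Row.mk (nat_lit 13944) (nat_lit 32912) (nat_lit 922) (nat_lit 61710) (nat_lit 8387685) (nat_lit 0) (nat_lit 0),Row.mk (nat_lit 14112) (nat_lit 32912) (nat_lit 1152) (nat_lit 61710) (nat_lit 8387455) (nat_lit 0) (nat_lit 0),Row.mk (nat_lit 14280) (nat_lit 32912) (nat_lit 1439) (nat_lit 61710) (nat_lit 8387168) (nat_lit 0) (nat_lit 0),Row.mk (nat_lit 14448) (nat_lit 32912)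 (nat_lit 1797) (nat_lit 61710) (nat_lit 8386810) (nat_lit 0) (nat_lit 0),Row.mk (nat_lit 14616) (nat_lit 32912) (nat_lit 2244) (nat_lit 61710) (nat_lit 8386363) (nat_lit 0) (nat_lit 0),Row.mk (nat_lit 14784) (nat_lit 32912) (nat_lit 2803) (nat_lit 61710) (nat_lit 8385804) (nat_lit 0) (nat_lit 0),Row.mk (nat_lit 14952) (nat_lit 32912) (nat_lit 3501) (nat_lit 61710) (nat_lit 8385106) (nat_lit 0) (nat_lit 0),Row.mk (nat_lit 15120) (nat_lit 32912) (nat_lit 4373) (nat_lit 61710) (nat_lit 8384234) (nat_lit 0) (nat_lit 0),Row.mk (nat_lit 15288) (nat_lit 32912) (nat_lit 5462) (nat_lit 61710) (nat_lit 8383145) (nat_lit 0) (nat_lit 0),Row.mk (nat_lit 15456) (nat_lit 32912) (nat_lit 6822) (nat_lit 61710) (nat_lit 8381785) (nat_lit 0) (nat_lit 0),Row.mk (nat_lit 15624) (nat_lit 32912) (nat_lit 8521) (nat_lit 61710) (nat_lit 8380086) (nat_lit 0) (nat_lit 0),Row.mk (nat_lit 15792) (nat_lit 60962) (nat_lit 10588) (nat_lit 61336) (nat_lit 54) (nat_lit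 0) (nat_lit 0),Row.mk (nat_lit 15960) (nat_lit 60401) (nat_lit 13208) (nat_lit 60775) (nat_lit 84) (nat_lit 0) (nat_lit 0),Row.mk (nat_lit 16128) (nat_lit 59840) (nat_lit 16470) (nat_lit 60214) (nat_lit 131) (nat_lit 0) (nat_lit 0),Row.mk (nat_lit 16296) (nat_lit 59279) (nat_lit 20530) (nat_lit 59653) (nat_lit 205) (nat_lit 0) (nat_lit 0),Row.mk (nat_lit 16464) (nat_lit 58718) (nat_lit 25577) (nat_lit 59092) (nat_lit 321) (nat_lit 0) (nat_lit 0),Row.mk (nat_lit 16632) (nat_lit 58157) (nat_lit 31846) (nat_lit 58531) (nat_lit 500) (nat_lit 0) (nat_lit 0),Row.mk (nat_lit 16800) (nat_lit 57596) (nat_lit 39619) (nat_lit 57970) (nat_lit 781) (nat_lit 0) (nat_lit 0),Row.mk (nat_lit 16968) (nat_lit 57035) (nat_lit 49240) (nat_lit 57409) (nat_lit 1219) (nat_lit 0) (nat_lit 0),Row.mk (nat_lit 17136) (nat_lit 56474) (nat_lit 61121) (nat_lit 56848) (nat_lit 1901) (nat_lit 0) (nat_lit 0),Row.mk (nat_lit 17304) (nat_lit 55913) (nat_lit 75747) (nat_lit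 56287) (nat_lit 2966) (nat_lit 0) (nat_lit 0),Row.mk (nat_lit 17472) (nat_lit 55352) (nat_lit 93684) (nat_lit 55726) (nat_lit 4627) (nat_lit 0) (nat_lit 0),Row.mk (nat_lit 17640) (nat_lit 54791) (nat_lit 115570) (nat_lit 55165) (nat_lit 7219) (nat_lit 0) (nat_lit 0),Row.mk (nat_lit 17808) (nat_lit 54230) (nat_lit 142100) (nat_lit 54604) (nat_lit 11261) (nat_lit 0) (nat_lit 0),Row.mk (nat_lit 17976) (nat_lit 53669) (nat_lit 173978) (nat_lit 54043) (nat_lit 17566) (nat_lit 0) (nat_lit 0),Row.mk (nat_lit 18144) (nat_lit 53108) (nat_lit 211831) (nat_lit 53482) (nat_lit 27403) (nat_lit 0) (nat_lit 0),Row.mk (nat_lit 18312) (nat_lit 52547) (nat_lit 256051) (nat_lit 52921) (nat_lit 42747) (nat_lit 0) (nat_lit 0),Row.mk (nat_lit 18480) (nat_lit 51986) (nat_lit 306509) (nat_lit 52360) (nat_lit 66683) (nat_lit 0) (nat_lit 0),Row.mk (nat_lit 18648) (nat_lit 51425) (nat_lit 362086) (nat_lit 51799) (nat_lit 104022) (nat_lit 0) (nat_lit 0),Row.mk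 (nat_lit 18816) (nat_lit 50864) (nat_lit 419889) (nat_lit 51238) (nat_lit 162268) (nat_lit 0) (nat_lit 0),Row.mk (nat_lit 18984) (nat_lit 50303) (nat_lit 473972) (nat_lit 50677) (nat_lit 253129) (nat_lit 0) (nat_lit 0),Row.mk (nat_lit 19152) (nat_lit 49742) (nat_lit 513265) (nat_lit 50116) (nat_lit 394867) (nat_lit 0) (nat_lit 0),Row.mk (nat_lit 19320) (nat_lit 49181) (nat_lit 518265) (nat_lit 49555) (nat_lit 615970) (nat_lit 0) (nat_lit 0),Row.mk (nat_lit 19488) (nat_lit 48620) (nat_lit 455756) (nat_lit 48994) (nat_lit 960877) (nat_lit 0) (nat_lit 0),Row.mk (nat_lit 19656) (nat_lit 47872) (nat_lit 270429) (nat_lit 48433) (nat_lit 1498911) (nat_lit 0) (nat_lit 0),Row.mk (nat_lit 19824) (nat_lit 47685) (nat_lit 2107101) (nat_lit 48246) (nat_lit 102763) (nat_lit 0) (nat_lit 0),Row.mk (nat_lit 19992) (nat_lit 46750) (nat_lit 2049560) (nat_lit 47498) (nat_lit 710507) (nat_lit 0) (nat_lit 0),Row.mk (nat_lit 20160) (nat_lit 45815) (nat_lit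 1651718) (nat_lit 46563) (nat_lit 1795539) (nat_lit 0) (nat_lit 0),Row.mk (nat_lit 20328) (nat_lit 44693) (nat_lit 646322) (nat_lit 45628) (nat_lit 3659218) (nat_lit 0) (nat_lit 0),Row.mk (nat_lit 20496) (nat_lit 44506) (nat_lit 4254498) (nat_lit 45441) (nat_lit 1123018) (nat_lit 0) (nat_lit 0),Row.mk (nat_lit 20664) (nat_lit 43197) (nat_lit 2553699) (nat_lit 44319) (nat_lit 4162689) (nat_lit 0) (nat_lit 0),Row.mk (nat_lit 20832) (nat_lit 43010) (nat_lit 7495049) (nat_lit 44132) (nat_lit 893558) (nat_lit 0) (nat_lit 0),Row.mk (nat_lit 21000) (nat_lit 41327) (nat_lit 3983619) (nat_lit 42823) (nat_lit 6493549) (nat_lit 0) (nat_lit 0),Row.mk (nat_lit 21168) (nat_lit 41140) (nat_lit 10352961) (nat_lit 42636) (nat_lit 2732769) (nat_lit 0) (nat_lit 0),Row.mk (nat_lit 21336) (nat_lit 38896) (nat_lit 2453430) (nat_lit 40953) (nat_lit 13890332) (nat_lit 0) (nat_lit 0),Row.mk (nat_lit 21504) (nat_lit 38709) (nat_lit 9780664) (nat_lit 40766)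 (nat_lit 10632301) (nat_lit 0) (nat_lit 0),Row.mk (nat_lit 21672) (nat_lit 38522) (nat_lit 18932203) (nat_lit 40579) (nat_lit 6563098) (nat_lit 0) (nat_lit 0),Row.mk (nat_lit 21840) (nat_lit 38335) (nat_lit 30362254) (nat_lit 40392) (nat_lit 1480762) (nat_lit 0) (nat_lit 0),Row.mk (nat_lit 22008) (nat_lit 31603) (nat_lit 6078706) (nat_lit 38148) (nat_lit 33692452) (nat_lit 0) (nat_lit 0),Row.mk (nat_lit 22176) (nat_lit 31416) (nat_lit 15980765) (nat_lit 37961) (nat_lit 33692452) (nat_lit 0) (nat_lit 0),Row.mk (nat_lit 22344) (nat_lit 31229) (nat_lit 28348198) (nat_lit 37774) (nat_lit 33692452) (nat_lit 0) (nat_lit 0),Row.mk (nat_lit 22512) (nat_lit 31042) (nat_lit 43794824) (nat_lit 37587) (nat_lit 33692452) (nat_lit 0) (nat_lit 0),Row.mk (nat_lit 22680) (nat_lit 30855) (nat_lit 63087287) (nat_lit 37400) (nat_lit 33692452) (nat_lit 0) (nat_lit 0),Row.mk (nat_lit 22848) (nat_lit 30668) (nat_lit 87183107) (nat_lit 37213) (nat_lit 33692452)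 (nat_lit 0) (nat_lit 0),Row.mk (nat_lit 23016) (nat_lit 30481) (nat_lit 117278206) (nat_lit 37026) (nat_lit 33692452) (nat_lit 0) (nat_lit 0),Row.mk (nat_lit 23184) (nat_lit 30294) (nat_lit 154866258) (nat_lit 36839) (nat_lit 33692452) (nat_lit 0) (nat_lit 0),Row.mk (nat_lit 23352) (nat_lit 30107) (nat_lit 201812828) (nat_lit 36652) (nat_lit 33692452) (nat_lit 0) (nat_lit 0),Row.mk (nat_lit 23520) (nat_lit 29920) (nat_lit 260447962) (nat_lit 36465) (nat_lit 33692452) (nat_lit 0) (nat_lit 0),Row.mk (nat_lit 23688) (nat_lit 29733) (nat_lit 333681830) (nat_lit 36278) (nat_lit 33692452) (nat_lit 0) (nat_lit 0),Row.mk (nat_lit 23856) (nat_lit 29546) (nat_lit 425149164) (nat_lit 36091) (nat_lit 33692452) (nat_lit 0) (nat_lit 0),Row.mk (nat_lit 24024) (nat_lit 29359) (nat_lit 539389658) (nat_lit 35904) (nat_lit 33692452) (nat_lit 0) (nat_lit 0),Row.mk (nat_lit 24192) (nat_lit 29172) (nat_lit 682073279) (nat_lit 35717) (nat_lit 33692452)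 (nat_lit 0) (nat_lit 0),Row.mk (nat_lit 24360) (nat_lit 28985) (nat_lit 860281679) (nat_lit 35530) (nat_lit 33692452) (nat_lit 0) (nat_lit 0),Row.mk (nat_lit 24528) (nat_lit 28798) (nat_lit 1082859672) (nat_lit 35343) (nat_lit 33692452) (nat_lit 0) (nat_lit 0),Row.mk (nat_lit 24696) (nat_lit 28611) (nat_lit 1360854216) (nat_lit 35156) (nat_lit 33692452) (nat_lit 0) (nat_lit 0),Row.mk (nat_lit 24864) (nat_lit 28424) (nat_lit 1708062695) (nat_lit 34969) (nat_lit 33692452) (nat_lit 0) (nat_lit 0),Row.mk (nat_lit 25032) (nat_lit 28237) (nat_lit 2141717710) (nat_lit 34782) (nat_lit 33692452) (nat_lit 0) (nat_lit 0),Row.mk (nat_lit 25200) (nat_lit 28050) (nat_lit 2683342361) (nat_lit 34595) (nat_lit 33692452) (nat_lit 0) (nat_lit 0),Row.mk (nat_lit 25368) (nat_lit 27863) (nat_lit 3359818485) (nat_lit 34408) (nat_lit 33692452) (nat_lit 0) (nat_lit 0),Row.mk (nat_lit 25536) (nat_lit 27676) (nat_lit 4204720844) (nat_lit 34221) (nat_lit 33692452)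 (nat_lit 0) (nat_lit 0),Row.mk (nat_lit 25704) (nat_lit 27489) (nat_lit 5259983508) (nat_lit 34034) (nat_lit 33692452) (nat_lit 0) (nat_lit 0),Row.mk (nat_lit 25872) (nat_lit 27302) (nat_lit 6577981119) (nat_lit 33847) (nat_lit 33692452) (nat_lit 0) (nat_lit 0),Row.mk (nat_lit 26040) (nat_lit 32912) (nat_lit 8388608) (nat_lit 62084) (nat_lit 8249432185) (nat_lit 0) (nat_lit 0),Row.mk (nat_lit 26208) (nat_lit 32912) (nat_lit 8388608) (nat_lit 62084) (nat_lit 10305430352) (nat_lit 0) (nat_lit 0)],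
[Row.mk (nat_lit 10584) (nat_lit 32912) (nat_lit 10) (nat_lit 61710) (nat_lit 8388597) (nat_lit 0) (nat_lit 0),Row.mk (nat_lit 10752) (nat_lit 32912) (nat_lit 13) (nat_lit 61710) (nat_lit 8388594) (nat_lit 0) (nat_lit 0),Row.mk (nat_lit 10920) (nat_lit 32912) (nat_lit 16) (nat_lit 61710) (nat_lit 8388591) (nat_lit 0) (nat_lit 0),Row.mk (nat_lit 11088) (nat_lit 32912) (nat_lit 21) (nat_lit 61710) (nat_lit 8388586) (nat_lit 0) (nat_lit 0),Row.mk (nat_lit 11256) (nat_lit 32912) (nat_lit 26) (nat_lit 61710) (nat_lit 8388581) (nat_lit 0) (nat_lit 0),Row.mk (nat_lit 11424) (nat_lit 32912) (nat_lit 32) (nat_lit 61710) (nat_lit 8388575) (nat_lit 0) (nat_lit 0),Row.mk (nat_lit 11592) (nat_lit 32912) (nat_lit 41) (nat_lit 61710) (nat_lit 8388566) (nat_lit 0) (nat_lit 0),Row.mk (nat_lit 11760) (nat_lit 32912) (nat_lit 51) (nat_lit 61710) (nat_lit 8388556) (nat_lit 0) (nat_lit 0),Row.mk (nat_lit 11928) (nat_lit 32912) (nat_lit 64) (nat_lit 61710)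 (nat_lit 8388543) (nat_lit 0) (nat_lit 0),Row.mk (nat_lit 12096) (nat_lit 32912) (nat_lit 79) (nat_lit 61710) (nat_lit 8388528) (nat_lit 0) (nat_lit 0),Row.mk (nat_lit 12264) (nat_lit 32912) (nat_lit 99) (nat_lit 61710) (nat_lit 8388508) (nat_lit 0) (nat_lit 0),Row.mk (nat_lit 12432) (nat_lit 32912) (nat_lit 124) (nat_lit 61710) (nat_lit 8388483) (nat_lit 0) (nat_lit 0),Row.mk (nat_lit 12600) (nat_lit 32912) (nat_lit 155) (nat_lit 61710) (nat_lit 8388452) (nat_lit 0) (nat_lit 0),Row.mk (nat_lit 12768) (nat_lit 32912) (nat_lit 194) (nat_lit 61710) (nat_lit 8388413) (nat_lit 0) (nat_lit 0),Row.mk (nat_lit 12936) (nat_lit 32912) (nat_lit 243) (nat_lit 61710) (nat_lit 8388364) (nat_lit 0) (nat_lit 0),Row.mk (nat_lit 13104) (nat_lit 32912) (nat_lit 303) (nat_lit 61710) (nat_lit 8388304) (nat_lit 0) (nat_lit 0),Row.mk (nat_lit 13272) (nat_lit 32912) (nat_lit 379) (nat_lit 61710) (nat_lit 8388228) (nat_lit 0) (nat_lit 0),Row.mk (nat_lit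 13440) (nat_lit 32912) (nat_lit 473) (nat_lit 61710) (nat_lit 8388134) (nat_lit 0) (nat_lit 0),Row.mk (nat_lit 13608) (nat_lit 32912) (nat_lit 591) (nat_lit 61710) (nat_lit 8388016) (nat_lit 0) (nat_lit 0),Row.mk (nat_lit 13776) (nat_lit 32912) (nat_lit 738) (nat_lit 61710) (nat_lit 8387869) (nat_lit 0) (nat_lit 0),Row.mk (nat_lit 13944) (nat_lit 32912) (nat_lit 922) (nat_lit 61710) (nat_lit 8387685) (nat_lit 0) (nat_lit 0),Row.mk (nat_lit 14112) (nat_lit 32912) (nat_lit 1152) (nat_lit 61710) (nat_lit 8387455) (nat_lit 0) (nat_lit 0),Row.mk (nat_lit 14280) (nat_lit 32912) (nat_lit 1439) (nat_lit 61710) (nat_lit 8387168) (nat_lit 0) (nat_lit 0),Row.mk (nat_lit 14448) (nat_lit 32912) (nat_lit 1797) (nat_lit 61710) (nat_lit 8386810) (nat_lit 0) (nat_lit 0),Row.mk (nat_lit 14616) (nat_lit 32912) (nat_lit 2244) (nat_lit 61710) (nat_lit 8386363) (nat_lit 0) (nat_lit 0),Row.mk (nat_lit 14784) (nat_lit 32912) (nat_lit 2803) (nat_lit 61710)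 (nat_lit 8385804) (nat_lit 0) (nat_lit 0),Row.mk (nat_lit 14952) (nat_lit 32912) (nat_lit 3501) (nat_lit 61710) (nat_lit 8385106) (nat_lit 0) (nat_lit 0),Row.mk (nat_lit 15120) (nat_lit 32912) (nat_lit 4373) (nat_lit 61710) (nat_lit 8384234) (nat_lit 0) (nat_lit 0),Row.mk (nat_lit 15288) (nat_lit 32912) (nat_lit 5462) (nat_lit 61710) (nat_lit 8383145) (nat_lit 0) (nat_lit 0),Row.mk (nat_lit 15456) (nat_lit 32912) (nat_lit 6822) (nat_lit 61710) (nat_lit 8381785) (nat_lit 0) (nat_lit 0),Row.mk (nat_lit 15624) (nat_lit 32912) (nat_lit 8521) (nat_lit 61710) (nat_lit 8380086) (nat_lit 0) (nat_lit 0),Row.mk (nat_lit 15792) (nat_lit 60962) (nat_lit 10588) (nat_lit 61336) (nat_lit 54) (nat_lit 0) (nat_lit 0),Row.mk (nat_lit 15960) (nat_lit 60401) (nat_lit 13208) (nat_lit 60775) (nat_lit 84) (nat_lit 0) (nat_lit 0),Row.mk (nat_lit 16128) (nat_lit 59840) (nat_lit 16470) (nat_lit 60214) (nat_lit 131) (nat_lit 0) (nat_lit 0),Row.mk (nat_lit 16296)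 (nat_lit 59279) (nat_lit 20530) (nat_lit 59653) (nat_lit 205) (nat_lit 0) (nat_lit 0),Row.mk (nat_lit 16464) (nat_lit 58718) (nat_lit 25577) (nat_lit 59092) (nat_lit 321) (nat_lit 0) (nat_lit 0),Row.mk (nat_lit 16632) (nat_lit 58157) (nat_lit 31846) (nat_lit 58531) (nat_lit 500) (nat_lit 0) (nat_lit 0),Row.mk (nat_lit 16800) (nat_lit 57596) (nat_lit 39619) (nat_lit 57970) (nat_lit 781) (nat_lit 0) (nat_lit 0),Row.mk (nat_lit 16968) (nat_lit 57035) (nat_lit 49240) (nat_lit 57409) (nat_lit 1219) (nat_lit 0) (nat_lit 0),Row.mk (nat_lit 17136) (nat_lit 56474) (nat_lit 61121) (nat_lit 56848) (nat_lit 1901) (nat_lit 0) (nat_lit 0),Row.mk (nat_lit 17304) (nat_lit 55913) (nat_lit 75747) (nat_lit 56287) (nat_lit 2966) (nat_lit 0) (nat_lit 0),Row.mk (nat_lit 17472) (nat_lit 55352) (nat_lit 93684) (nat_lit 55726) (nat_lit 4627) (nat_lit 0) (nat_lit 0),Row.mk (nat_lit 17640) (nat_lit 54791) (nat_lit 115570) (nat_lit 55165) (nat_lit 7219) (nat_lit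 0) (nat_lit 0),Row.mk (nat_lit 17808) (nat_lit 54230) (nat_lit 142100) (nat_lit 54604) (nat_lit 11261) (nat_lit 0) (nat_lit 0),Row.mk (nat_lit 17976) (nat_lit 53669) (nat_lit 173978) (nat_lit 54043) (nat_lit 17566) (nat_lit 0) (nat_lit 0),Row.mk (nat_lit 18144) (nat_lit 53108) (nat_lit 211831) (nat_lit 53482) (nat_lit 27403) (nat_lit 0) (nat_lit 0),Row.mk (nat_lit 18312) (nat_lit 52547) (nat_lit 256051) (nat_lit 52921) (nat_lit 42747) (nat_lit 0) (nat_lit 0),Row.mk (nat_lit 18480) (nat_lit 51986) (nat_lit 306509) (nat_lit 52360) (nat_lit 66683) (nat_lit 0) (nat_lit 0),Row.mk (nat_lit 18648) (nat_lit 51425) (nat_lit 362086) (nat_lit 51799) (nat_lit 104022) (nat_lit 0) (nat_lit 0),Row.mk (nat_lit 18816) (nat_lit 50864) (nat_lit 419889) (nat_lit 51238) (nat_lit 162268) (nat_lit 0) (nat_lit 0),Row.mk (nat_lit 18984) (nat_lit 50303) (nat_lit 473972) (nat_lit 50677) (nat_lit 253129) (nat_lit 0) (nat_lit 0),Row.mk (nat_lit 19152) (nat_lit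 49742) (nat_lit 513265) (nat_lit 50116) (nat_lit 394867) (nat_lit 0) (nat_lit 0),Row.mk (nat_lit 19320) (nat_lit 49181) (nat_lit 518265) (nat_lit 49555) (nat_lit 615970) (nat_lit 0) (nat_lit 0),Row.mk (nat_lit 19488) (nat_lit 48620) (nat_lit 455756) (nat_lit 48994) (nat_lit 960877) (nat_lit 0) (nat_lit 0),Row.mk (nat_lit 19656) (nat_lit 47872) (nat_lit 270429) (nat_lit 48433) (nat_lit 1498911) (nat_lit 0) (nat_lit 0),Row.mk (nat_lit 19824) (nat_lit 47685) (nat_lit 2107101) (nat_lit 48246) (nat_lit 102763) (nat_lit 0) (nat_lit 0),Row.mk (nat_lit 19992) (nat_lit 46750) (nat_lit 2049560) (nat_lit 47498) (nat_lit 710507) (nat_lit 0) (nat_lit 0),Row.mk (nat_lit 20160) (nat_lit 45815) (nat_lit 1651718) (nat_lit 46563) (nat_lit 1795539) (nat_lit 0) (nat_lit 0),Row.mk (nat_lit 20328) (nat_lit 44693) (nat_lit 646322) (nat_lit 45628) (nat_lit 3659218) (nat_lit 0) (nat_lit 0),Row.mk (nat_lit 20496) (nat_lit 44506) (nat_lit 4254498) (nat_lit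 45441) (nat_lit 1123018) (nat_lit 0) (nat_lit 0),Row.mk (nat_lit 20664) (nat_lit 43197) (nat_lit 2553699) (nat_lit 44319) (nat_lit 4162689) (nat_lit 0) (nat_lit 0),Row.mk (nat_lit 20832) (nat_lit 43010) (nat_lit 7495049) (nat_lit 44132) (nat_lit 893558) (nat_lit 0) (nat_lit 0),Row.mk (nat_lit 21000) (nat_lit 41327) (nat_lit 3983619) (nat_lit 42823) (nat_lit 6493549) (nat_lit 0) (nat_lit 0),Row.mk (nat_lit 21168) (nat_lit 41140) (nat_lit 10352961) (nat_lit 42636) (nat_lit 2732769) (nat_lit 0) (nat_lit 0),Row.mk (nat_lit 21336) (nat_lit 38896) (nat_lit 2453430) (nat_lit 40953) (nat_lit 13890332) (nat_lit 0) (nat_lit 0),Row.mk (nat_lit 21504) (nat_lit 38709) (nat_lit 9780664) (nat_lit 40766) (nat_lit 10632301) (nat_lit 0) (nat_lit 0),Row.mk (nat_lit 21672) (nat_lit 38522) (nat_lit 18932203) (nat_lit 40579) (nat_lit 6563098) (nat_lit 0) (nat_lit 0),Row.mk (nat_lit 21840) (nat_lit 38335) (nat_lit 30362254) (nat_lit 40392) (nat_lit 1480762)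 (nat_lit 0) (nat_lit 0),Row.mk (nat_lit 22008) (nat_lit 31603) (nat_lit 6078706) (nat_lit 38148) (nat_lit 33692452) (nat_lit 0) (nat_lit 0),Row.mk (nat_lit 22176) (nat_lit 31416) (nat_lit 15980765) (nat_lit 37961) (nat_lit 33692452) (nat_lit 0) (nat_lit 0),Row.mk (nat_lit 22344) (nat_lit 31229) (nat_lit 28348198) (nat_lit 37774) (nat_lit 33692452) (nat_lit 0) (nat_lit 0),Row.mk (nat_lit 22512) (nat_lit 31042) (nat_lit 43794824) (nat_lit 37587) (nat_lit 33692452) (nat_lit 0) (nat_lit 0),Row.mk (nat_lit 22680) (nat_lit 30855) (nat_lit 63087287) (nat_lit 37400) (nat_lit 33692452) (nat_lit 0) (nat_lit 0),Row.mk (nat_lit 22848) (nat_lit 30668) (nat_lit 87183107) (nat_lit 37213) (nat_lit 33692452) (nat_lit 0) (nat_lit 0),Row.mk (nat_lit 23016) (nat_lit 30481) (nat_lit 117278206) (nat_lit 37026) (nat_lit 33692452) (nat_lit 0) (nat_lit 0),Row.mk (nat_lit 23184) (nat_lit 30294) (nat_lit 154866258) (nat_lit 36839) (nat_lit 33692452) (nat_lit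 0) (nat_lit 0),Row.mk (nat_lit 23352) (nat_lit 30107) (nat_lit 201812828) (nat_lit 36652) (nat_lit 33692452) (nat_lit 0) (nat_lit 0),Row.mk (nat_lit 23520) (nat_lit 29920) (nat_lit 260447962) (nat_lit 36465) (nat_lit 33692452) (nat_lit 0) (nat_lit 0),Row.mk (nat_lit 23688) (nat_lit 29733) (nat_lit 333681830) (nat_lit 36278) (nat_lit 33692452) (nat_lit 0) (nat_lit 0),Row.mk (nat_lit 23856) (nat_lit 29546) (nat_lit 425149164) (nat_lit 36091) (nat_lit 33692452) (nat_lit 0) (nat_lit 0),Row.mk (nat_lit 24024) (nat_lit 29359) (nat_lit 539389658) (nat_lit 35904) (nat_lit 33692452) (nat_lit 0) (nat_lit 0),Row.mk (nat_lit 24192) (nat_lit 29172) (nat_lit 682073279) (nat_lit 35717) (nat_lit 33692452) (nat_lit 0) (nat_lit 0),Row.mk (nat_lit 24360) (nat_lit 28985) (nat_lit 860281679) (nat_lit 35530) (nat_lit 33692452) (nat_lit 0) (nat_lit 0),Row.mk (nat_lit 24528) (nat_lit 28798) (nat_lit 1082859672) (nat_lit 35343) (nat_lit 33692452) (nat_lit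 0) (nat_lit 0),Row.mk (nat_lit 24696) (nat_lit 28611) (nat_lit 1360854216) (nat_lit 35156) (nat_lit 33692452) (nat_lit 0) (nat_lit 0),Row.mk (nat_lit 24864) (nat_lit 28424) (nat_lit 1708062695) (nat_lit 34969) (nat_lit 33692452) (nat_lit 0) (nat_lit 0),Row.mk (nat_lit 25032) (nat_lit 28237) (nat_lit 2141717710) (nat_lit 34782) (nat_lit 33692452) (nat_lit 0) (nat_lit 0),Row.mk (nat_lit 25200) (nat_lit 28050) (nat_lit 2683342361) (nat_lit 34595) (nat_lit 33692452) (nat_lit 0) (nat_lit 0),Row.mk (nat_lit 25368) (nat_lit 27863) (nat_lit 3359818485) (nat_lit 34408) (nat_lit 33692452) (nat_lit 0) (nat_lit 0),Row.mk (nat_lit 25536) (nat_lit 27676) (nat_lit 4204720844) (nat_lit 34221) (nat_lit 33692452) (nat_lit 0) (nat_lit 0),Row.mk (nat_lit 25704) (nat_lit 27489) (nat_lit 5259983508) (nat_lit 34034) (nat_lit 33692452) (nat_lit 0) (nat_lit 0),Row.mk (nat_lit 25872) (nat_lit 27302) (nat_lit 6577981119) (nat_lit 33847) (nat_lit 33692452) (nat_lit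 0) (nat_lit 0),Row.mk (nat_lit 26040) (nat_lit 32912) (nat_lit 8388608) (nat_lit 62084) (nat_lit 8249432185) (nat_lit 0) (nat_lit 0),Row.mk (nat_lit 26208) (nat_lit 32912) (nat_lit 8388608) (nat_lit 62084) (nat_lit 10305430352) (nat_lit 0) (nat_lit 0)],
[Row.mk (nat_lit 10416) (nat_lit 32912) (nat_lit 8) (nat_lit 61710) (nat_lit 8388599) (nat_lit 0) (nat_lit 0),Row.mk (nat_lit 10584) (nat_lit 32912) (nat_lit 10) (nat_lit 61710) (nat_lit 8388597) (nat_lit 0) (nat_lit 0),Row.mk (nat_lit 10752) (nat_lit 32912) (nat_lit 13) (nat_lit 61710) (nat_lit 8388594) (nat_lit 0) (nat_lit 0),Row.mk (nat_lit 10920) (nat_lit 32912) (nat_lit 16) (nat_lit 61710) (nat_lit 8388591) (nat_lit 0) (nat_lit 0),Row.mk (nat_lit 11088) (nat_lit 32912) (nat_lit 21) (nat_lit 61710) (nat_lit 8388586) (nat_lit 0) (nat_lit 0),Row.mk (nat_lit 11256) (nat_lit 32912) (nat_lit 26) (nat_lit 61710) (nat_lit 8388581) (nat_lit 0) (nat_lit 0),Row.mk (nat_lit 11424) (nat_lit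 32912) (nat_lit 32) (nat_lit 61710) (nat_lit 8388575) (nat_lit 0) (nat_lit 0),Row.mk (nat_lit 11592) (nat_lit 32912) (nat_lit 41) (nat_lit 61710) (nat_lit 8388566) (nat_lit 0) (nat_lit 0),Row.mk (nat_lit 11760) (nat_lit 32912) (nat_lit 51) (nat_lit 61710) (nat_lit 8388556) (nat_lit 0) (nat_lit 0),Row.mk (nat_lit 11928) (nat_lit 32912) (nat_lit 64) (nat_lit 61710) (nat_lit 8388543) (nat_lit 0) (nat_lit 0),Row.mk (nat_lit 12096) (nat_lit 32912) (nat_lit 79) (nat_lit 61710) (nat_lit 8388528) (nat_lit 0) (nat_lit 0),Row.mk (nat_lit 12264) (nat_lit 32912) (nat_lit 99) (nat_lit 61710) (nat_lit 8388508) (nat_lit 0) (nat_lit 0),Row.mk (nat_lit 12432) (nat_lit 32912) (nat_lit 124) (nat_lit 61710) (nat_lit 8388483) (nat_lit 0) (nat_lit 0),Row.mk (nat_lit 12600) (nat_lit 32912) (nat_lit 155) (nat_lit 61710) (nat_lit 8388452) (nat_lit 0) (nat_lit 0),Row.mk (nat_lit 12768) (nat_lit 32912) (nat_lit 194) (nat_lit 61710) (nat_lit 8388413) (nat_lit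 0) (nat_lit 0),Row.mk (nat_lit 12936) (nat_lit 32912) (nat_lit 243) (nat_lit 61710) (nat_lit 8388364) (nat_lit 0) (nat_lit 0),Row.mk (nat_lit 13104) (nat_lit 32912) (nat_lit 303) (nat_lit 61710) (nat_lit 8388304) (nat_lit 0) (nat_lit 0),Row.mk (nat_lit 13272) (nat_lit 32912) (nat_lit 379) (nat_lit 61710) (nat_lit 8388228) (nat_lit 0) (nat_lit 0),Row.mk (nat_lit 13440) (nat_lit 32912) (nat_lit 473) (nat_lit 61710) (nat_lit 8388134) (nat_lit 0) (nat_lit 0),Row.mk (nat_lit 13608) (nat_lit 32912) (nat_lit 591) (nat_lit 61710) (nat_lit 8388016) (nat_lit 0) (nat_lit 0),Row.mk (nat_lit 13776) (nat_lit 32912) (nat_lit 738) (nat_lit 61710) (nat_lit 8387869) (nat_lit 0) (nat_lit 0),Row.mk (nat_lit 13944) (nat_lit 32912) (nat_lit 922) (nat_lit 61710) (nat_lit 8387685) (nat_lit 0) (nat_lit 0),Row.mk (nat_lit 14112) (nat_lit 32912) (nat_lit 1152) (nat_lit 61710) (nat_lit 8387455) (nat_lit 0) (nat_lit 0),Row.mk (nat_lit 14280) (nat_lit 32912) (nat_lit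 1439) (nat_lit 61710) (nat_lit 8387168) (nat_lit 0) (nat_lit 0),Row.mk (nat_lit 14448) (nat_lit 32912) (nat_lit 1797) (nat_lit 61710) (nat_lit 8386810) (nat_lit 0) (nat_lit 0),Row.mk (nat_lit 14616) (nat_lit 32912) (nat_lit 2244) (nat_lit 61710) (nat_lit 8386363) (nat_lit 0) (nat_lit 0),Row.mk (nat_lit 14784) (nat_lit 32912) (nat_lit 2803) (nat_lit 61710) (nat_lit 8385804) (nat_lit 0) (nat_lit 0),Row.mk (nat_lit 14952) (nat_lit 32912) (nat_lit 3501) (nat_lit 61710) (nat_lit 8385106) (nat_lit 0) (nat_lit 0),Row.mk (nat_lit 15120) (nat_lit 32912) (nat_lit 4373) (nat_lit 61710) (nat_lit 8384234) (nat_lit 0) (nat_lit 0),Row.mk (nat_lit 15288) (nat_lit 32912) (nat_lit 5462) (nat_lit 61710) (nat_lit 8383145) (nat_lit 0) (nat_lit 0),Row.mk (nat_lit 15456) (nat_lit 32912) (nat_lit 6822) (nat_lit 61710) (nat_lit 8381785) (nat_lit 0) (nat_lit 0),Row.mk (nat_lit 15624) (nat_lit 32912) (nat_lit 8521) (nat_lit 61710) (nat_lit 8380086) (nat_lit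 0) (nat_lit 0),Row.mk (nat_lit 15792) (nat_lit 60962) (nat_lit 10588) (nat_lit 61336) (nat_lit 54) (nat_lit 0) (nat_lit 0),Row.mk (nat_lit 15960) (nat_lit 60401) (nat_lit 13208) (nat_lit 60775) (nat_lit 84) (nat_lit 0) (nat_lit 0),Row.mk (nat_lit 16128) (nat_lit 59840) (nat_lit 16470) (nat_lit 60214) (nat_lit 131) (nat_lit 0) (nat_lit 0),Row.mk (nat_lit 16296) (nat_lit 59279) (nat_lit 20530) (nat_lit 59653) (nat_lit 205) (nat_lit 0) (nat_lit 0),Row.mk (nat_lit 16464) (nat_lit 58718) (nat_lit 25577) (nat_lit 59092) (nat_lit 321) (nat_lit 0) (nat_lit 0),Row.mk (nat_lit 16632) (nat_lit 58157) (nat_lit 31846) (nat_lit 58531) (nat_lit 500) (nat_lit 0) (nat_lit 0),Row.mk (nat_lit 16800) (nat_lit 57596) (nat_lit 39619) (nat_lit 57970) (nat_lit 781) (nat_lit 0) (nat_lit 0),Row.mk (nat_lit 16968) (nat_lit 57035) (nat_lit 49240) (nat_lit 57409) (nat_lit 1219) (nat_lit 0) (nat_lit 0),Row.mk (nat_lit 17136) (nat_lit 56474) (nat_lit 61121) (nat_lit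 56848) (nat_lit 1901) (nat_lit 0) (nat_lit 0),Row.mk (nat_lit 17304) (nat_lit 55913) (nat_lit 75747) (nat_lit 56287) (nat_lit 2966) (nat_lit 0) (nat_lit 0),Row.mk (nat_lit 17472) (nat_lit 55352) (nat_lit 93684) (nat_lit 55726) (nat_lit 4627) (nat_lit 0) (nat_lit 0),Row.mk (nat_lit 17640) (nat_lit 54791) (nat_lit 115570) (nat_lit 55165) (nat_lit 7219) (nat_lit 0) (nat_lit 0),Row.mk (nat_lit 17808) (nat_lit 54230) (nat_lit 142100) (nat_lit 54604) (nat_lit 11261) (nat_lit 0) (nat_lit 0),Row.mk (nat_lit 17976) (nat_lit 53669) (nat_lit 173978) (nat_lit 54043) (nat_lit 17566) (nat_lit 0) (nat_lit 0),Row.mk (nat_lit 18144) (nat_lit 53108) (nat_lit 211831) (nat_lit 53482) (nat_lit 27403) (nat_lit 0) (nat_lit 0),Row.mk (nat_lit 18312) (nat_lit 52547) (nat_lit 256051) (nat_lit 52921) (nat_lit 42747) (nat_lit 0) (nat_lit 0),Row.mk (nat_lit 18480) (nat_lit 51986) (nat_lit 306509) (nat_lit 52360) (nat_lit 66683) (nat_lit 0) (nat_lit 0),Row.mk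 (nat_lit 18648) (nat_lit 51425) (nat_lit 362086) (nat_lit 51799) (nat_lit 104022) (nat_lit 0) (nat_lit 0),Row.mk (nat_lit 18816) (nat_lit 50864) (nat_lit 419889) (nat_lit 51238) (nat_lit 162268) (nat_lit 0) (nat_lit 0),Row.mk (nat_lit 18984) (nat_lit 50303) (nat_lit 473972) (nat_lit 50677) (nat_lit 253129) (nat_lit 0) (nat_lit 0),Row.mk (nat_lit 19152) (nat_lit 49742) (nat_lit 513265) (nat_lit 50116) (nat_lit 394867) (nat_lit 0) (nat_lit 0),Row.mk (nat_lit 19320) (nat_lit 49181) (nat_lit 518265) (nat_lit 49555) (nat_lit 615970) (nat_lit 0) (nat_lit 0),Row.mk (nat_lit 19488) (nat_lit 48620) (nat_lit 455756) (nat_lit 48994) (nat_lit 960877) (nat_lit 0) (nat_lit 0),Row.mk (nat_lit 19656) (nat_lit 47872) (nat_lit 270429) (nat_lit 48433) (nat_lit 1498911) (nat_lit 0) (nat_lit 0),Row.mk (nat_lit 19824) (nat_lit 47685) (nat_lit 2107101) (nat_lit 48246) (nat_lit 102763) (nat_lit 0) (nat_lit 0),Row.mk (nat_lit 19992) (nat_lit 46750) (nat_lit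 2049560) (nat_lit 47498) (nat_lit 710507) (nat_lit 0) (nat_lit 0),Row.mk (nat_lit 20160) (nat_lit 45815) (nat_lit 1651718) (nat_lit 46563) (nat_lit 1795539) (nat_lit 0) (nat_lit 0),Row.mk (nat_lit 20328) (nat_lit 44693) (nat_lit 646322) (nat_lit 45628) (nat_lit 3659218) (nat_lit 0) (nat_lit 0),Row.mk (nat_lit 20496) (nat_lit 44506) (nat_lit 4254498) (nat_lit 45441) (nat_lit 1123018) (nat_lit 0) (nat_lit 0),Row.mk (nat_lit 20664) (nat_lit 43197) (nat_lit 2553699) (nat_lit 44319) (nat_lit 4162689) (nat_lit 0) (nat_lit 0),Row.mk (nat_lit 20832) (nat_lit 43010) (nat_lit 7495049) (nat_lit 44132) (nat_lit 893558) (nat_lit 0) (nat_lit 0),Row.mk (nat_lit 21000) (nat_lit 41327) (nat_lit 3983619) (nat_lit 42823) (nat_lit 6493549) (nat_lit 0) (nat_lit 0),Row.mk (nat_lit 21168) (nat_lit 41140) (nat_lit 10352961) (nat_lit 42636) (nat_lit 2732769) (nat_lit 0) (nat_lit 0),Row.mk (nat_lit 21336) (nat_lit 38896) (nat_lit 2453430) (nat_lit 40953) (nat_lit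 13890332) (nat_lit 0) (nat_lit 0),Row.mk (nat_lit 21504) (nat_lit 38709) (nat_lit 9780664) (nat_lit 40766) (nat_lit 10632301) (nat_lit 0) (nat_lit 0),Row.mk (nat_lit 21672) (nat_lit 38522) (nat_lit 18932203) (nat_lit 40579) (nat_lit 6563098) (nat_lit 0) (nat_lit 0),Row.mk (nat_lit 21840) (nat_lit 38335) (nat_lit 30362254) (nat_lit 40392) (nat_lit 1480762) (nat_lit 0) (nat_lit 0),Row.mk (nat_lit 22008) (nat_lit 31603) (nat_lit 6078706) (nat_lit 38148) (nat_lit 33692452) (nat_lit 0) (nat_lit 0),Row.mk (nat_lit 22176) (nat_lit 31416) (nat_lit 15980765) (nat_lit 37961) (nat_lit 33692452) (nat_lit 0) (nat_lit 0),Row.mk (nat_lit 22344) (nat_lit 31229) (nat_lit 28348198) (nat_lit 37774) (nat_lit 33692452) (nat_lit 0) (nat_lit 0),Row.mk (nat_lit 22512) (nat_lit 31042) (nat_lit 43794824) (nat_lit 37587) (nat_lit 33692452) (nat_lit 0) (nat_lit 0),Row.mk (nat_lit 22680) (nat_lit 30855) (nat_lit 63087287) (nat_lit 37400) (nat_lit 33692452) (nat_lit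 0) (nat_lit 0),Row.mk (nat_lit 22848) (nat_lit 30668) (nat_lit 87183107) (nat_lit 37213) (nat_lit 33692452) (nat_lit 0) (nat_lit 0),Row.mk (nat_lit 23016) (nat_lit 30481) (nat_lit 117278206) (nat_lit 37026) (nat_lit 33692452) (nat_lit 0) (nat_lit 0),Row.mk (nat_lit 23184) (nat_lit 30294) (nat_lit 154866258) (nat_lit 36839) (nat_lit 33692452) (nat_lit 0) (nat_lit 0),Row.mk (nat_lit 23352) (nat_lit 30107) (nat_lit 201812828) (nat_lit 36652) (nat_lit 33692452) (nat_lit 0) (nat_lit 0),Row.mk (nat_lit 23520) (nat_lit 29920) (nat_lit 260447962) (nat_lit 36465) (nat_lit 33692452) (nat_lit 0) (nat_lit 0),Row.mk (nat_lit 23688) (nat_lit 29733) (nat_lit 333681830) (nat_lit 36278) (nat_lit 33692452) (nat_lit 0) (nat_lit 0),Row.mk (nat_lit 23856) (nat_lit 29546) (nat_lit 425149164) (nat_lit 36091) (nat_lit 33692452) (nat_lit 0) (nat_lit 0),Row.mk (nat_lit 24024) (nat_lit 29359) (nat_lit 539389658) (nat_lit 35904) (nat_lit 33692452) (nat_lit 0)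 (nat_lit 0),Row.mk (nat_lit 24192) (nat_lit 29172) (nat_lit 682073279) (nat_lit 35717) (nat_lit 33692452) (nat_lit 0) (nat_lit 0),Row.mk (nat_lit 24360) (nat_lit 28985) (nat_lit 860281679) (nat_lit 35530) (nat_lit 33692452) (nat_lit 0) (nat_lit 0),Row.mk (nat_lit 24528) (nat_lit 28798) (nat_lit 1082859672) (nat_lit 35343) (nat_lit 33692452) (nat_lit 0) (nat_lit 0),Row.mk (nat_lit 24696) (nat_lit 28611) (nat_lit 1360854216) (nat_lit 35156) (nat_lit 33692452) (nat_lit 0) (nat_lit 0),Row.mk (nat_lit 24864) (nat_lit 28424) (nat_lit 1708062695) (nat_lit 34969) (nat_lit 33692452) (nat_lit 0) (nat_lit 0),Row.mk (nat_lit 25032) (nat_lit 28237) (nat_lit 2141717710) (nat_lit 34782) (nat_lit 33692452) (nat_lit 0) (nat_lit 0),Row.mk (nat_lit 25200) (nat_lit 28050) (nat_lit 2683342361) (nat_lit 34595) (nat_lit 33692452) (nat_lit 0) (nat_lit 0),Row.mk (nat_lit 25368) (nat_lit 27863) (nat_lit 3359818485) (nat_lit 34408) (nat_lit 33692452) (nat_lit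 0) (nat_lit 0),Row.mk (nat_lit 25536) (nat_lit 27676) (nat_lit 4204720844) (nat_lit 34221) (nat_lit 33692452) (nat_lit 0) (nat_lit 0),Row.mk (nat_lit 25704) (nat_lit 27489) (nat_lit 5259983508) (nat_lit 34034) (nat_lit 33692452) (nat_lit 0) (nat_lit 0),Row.mk (nat_lit 25872) (nat_lit 27302) (nat_lit 6577981119) (nat_lit 33847) (nat_lit 33692452) (nat_lit 0) (nat_lit 0),Row.mk (nat_lit 26040) (nat_lit 32912) (nat_lit 8388608) (nat_lit 62084) (nat_lit 8249432185) (nat_lit 0) (nat_lit 0),Row.mk (nat_lit 26208) (nat_lit 32912) (nat_lit 8388608) (nat_lit 62084) (nat_lit 10305430352) (nat_lit 0) (nat_lit 0)],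
[Row.mk (nat_lit 10416) (nat_lit 32912) (nat_lit 8) (nat_lit 61710) (nat_lit 8388599) (nat_lit 0) (nat_lit 0),Row.mk (nat_lit 10584) (nat_lit 32912) (nat_lit 10) (nat_lit 61710) (nat_lit 8388597) (nat_lit 0) (nat_lit 0),Row.mk (nat_lit 10752) (nat_lit 32912) (nat_lit 13) (nat_lit 61710) (nat_lit 8388594) (nat_lit 0) (nat_lit 0),Row.mk (nat_lit 10920) (nat_lit 32912) (nat_lit 16) (nat_lit 61710) (nat_lit 8388591) (nat_lit 0) (nat_lit 0),Row.mk (nat_lit 11088) (nat_lit 32912) (nat_lit 21) (nat_lit 61710) (nat_lit 8388586) (nat_lit 0) (nat_lit 0),Row.mk (nat_lit 11256) (nat_lit 32912) (nat_lit 26) (nat_lit 61710) (nat_lit 8388581) (nat_lit 0) (nat_lit 0),Row.mk (nat_lit 11424) (nat_lit 32912) (nat_lit 32) (nat_lit 61710) (nat_lit 8388575) (nat_lit 0) (nat_lit 0),Row.mk (nat_lit 11592) (nat_lit 32912) (nat_lit 41) (nat_lit 61710) (nat_lit 8388566) (nat_lit 0) (nat_lit 0),Row.mk (nat_lit 11760) (nat_lit 32912) (nat_lit 51) (nat_lit 61710)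 (nat_lit 8388556) (nat_lit 0) (nat_lit 0),Row.mk (nat_lit 11928) (nat_lit 32912) (nat_lit 64) (nat_lit 61710) (nat_lit 8388543) (nat_lit 0) (nat_lit 0),Row.mk (nat_lit 12096) (nat_lit 32912) (nat_lit 79) (nat_lit 61710) (nat_lit 8388528) (nat_lit 0) (nat_lit 0),Row.mk (nat_lit 12264) (nat_lit 32912) (nat_lit 99) (nat_lit 61710) (nat_lit 8388508) (nat_lit 0) (nat_lit 0),Row.mk (nat_lit 12432) (nat_lit 32912) (nat_lit 124) (nat_lit 61710) (nat_lit 8388483) (nat_lit 0) (nat_lit 0),Row.mk (nat_lit 12600) (nat_lit 32912) (nat_lit 155) (nat_lit 61710) (nat_lit 8388452) (nat_lit 0) (nat_lit 0),Row.mk (nat_lit 12768) (nat_lit 32912) (nat_lit 194) (nat_lit 61710) (nat_lit 8388413) (nat_lit 0) (nat_lit 0),Row.mk (nat_lit 12936) (nat_lit 32912) (nat_lit 243) (nat_lit 61710) (nat_lit 8388364) (nat_lit 0) (nat_lit 0),Row.mk (nat_lit 13104) (nat_lit 32912) (nat_lit 303) (nat_lit 61710) (nat_lit 8388304) (nat_lit 0) (nat_lit 0),Row.mk (nat_lit 13272)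 (nat_lit 32912) (nat_lit 379) (nat_lit 61710) (nat_lit 8388228) (nat_lit 0) (nat_lit 0),Row.mk (nat_lit 13440) (nat_lit 32912) (nat_lit 473) (nat_lit 61710) (nat_lit 8388134) (nat_lit 0) (nat_lit 0),Row.mk (nat_lit 13608) (nat_lit 32912) (nat_lit 591) (nat_lit 61710) (nat_lit 8388016) (nat_lit 0) (nat_lit 0),Row.mk (nat_lit 13776) (nat_lit 32912) (nat_lit 738) (nat_lit 61710) (nat_lit 8387869) (nat_lit 0) (nat_lit 0),Row.mk (nat_lit 13944) (nat_lit 32912) (nat_lit 922) (nat_lit 61710) (nat_lit 8387685) (nat_lit 0) (nat_lit 0),Row.mk (nat_lit 14112) (nat_lit 32912) (nat_lit 1152) (nat_lit 61710) (nat_lit 8387455) (nat_lit 0) (nat_lit 0),Row.mk (nat_lit 14280) (nat_lit 32912) (nat_lit 1439) (nat_lit 61710) (nat_lit 8387168) (nat_lit 0) (nat_lit 0),Row.mk (nat_lit 14448) (nat_lit 32912) (nat_lit 1797) (nat_lit 61710) (nat_lit 8386810) (nat_lit 0) (nat_lit 0),Row.mk (nat_lit 14616) (nat_lit 32912) (nat_lit 2244) (nat_lit 61710) (nat_lit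 8386363) (nat_lit 0) (nat_lit 0),Row.mk (nat_lit 14784) (nat_lit 32912) (nat_lit 2803) (nat_lit 61710) (nat_lit 8385804) (nat_lit 0) (nat_lit 0),Row.mk (nat_lit 14952) (nat_lit 32912) (nat_lit 3501) (nat_lit 61710) (nat_lit 8385106) (nat_lit 0) (nat_lit 0),Row.mk (nat_lit 15120) (nat_lit 32912) (nat_lit 4373) (nat_lit 61710) (nat_lit 8384234) (nat_lit 0) (nat_lit 0),Row.mk (nat_lit 15288) (nat_lit 32912) (nat_lit 5462) (nat_lit 61710) (nat_lit 8383145) (nat_lit 0) (nat_lit 0),Row.mk (nat_lit 15456) (nat_lit 32912) (nat_lit 6822) (nat_lit 61710) (nat_lit 8381785) (nat_lit 0) (nat_lit 0),Row.mk (nat_lit 15624) (nat_lit 32912) (nat_lit 8521) (nat_lit 61710) (nat_lit 8380086) (nat_lit 0) (nat_lit 0),Row.mk (nat_lit 15792) (nat_lit 60962) (nat_lit 10588) (nat_lit 61336) (nat_lit 54) (nat_lit 0) (nat_lit 0),Row.mk (nat_lit 15960) (nat_lit 60401) (nat_lit 13208) (nat_lit 60775) (nat_lit 84) (nat_lit 0) (nat_lit 0),Row.mk (nat_lit 16128)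 (nat_lit 59840) (nat_lit 16470) (nat_lit 60214) (nat_lit 131) (nat_lit 0) (nat_lit 0),Row.mk (nat_lit 16296) (nat_lit 59279) (nat_lit 20530) (nat_lit 59653) (nat_lit 205) (nat_lit 0) (nat_lit 0),Row.mk (nat_lit 16464) (nat_lit 58718) (nat_lit 25577) (nat_lit 59092) (nat_lit 321) (nat_lit 0) (nat_lit 0),Row.mk (nat_lit 16632) (nat_lit 58157) (nat_lit 31846) (nat_lit 58531) (nat_lit 500) (nat_lit 0) (nat_lit 0),Row.mk (nat_lit 16800) (nat_lit 57596) (nat_lit 39619) (nat_lit 57970) (nat_lit 781) (nat_lit 0) (nat_lit 0),Row.mk (nat_lit 16968) (nat_lit 57035) (nat_lit 49240) (nat_lit 57409) (nat_lit 1219) (nat_lit 0) (nat_lit 0),Row.mk (nat_lit 17136) (nat_lit 56474) (nat_lit 61121) (nat_lit 56848) (nat_lit 1901) (nat_lit 0) (nat_lit 0),Row.mk (nat_lit 17304) (nat_lit 55913) (nat_lit 75747) (nat_lit 56287) (nat_lit 2966) (nat_lit 0) (nat_lit 0),Row.mk (nat_lit 17472) (nat_lit 55352) (nat_lit 93684) (nat_lit 55726) (nat_lit 4627) (nat_lit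 0) (nat_lit 0),Row.mk (nat_lit 17640) (nat_lit 54791) (nat_lit 115570) (nat_lit 55165) (nat_lit 7219) (nat_lit 0) (nat_lit 0),Row.mk (nat_lit 17808) (nat_lit 54230) (nat_lit 142100) (nat_lit 54604) (nat_lit 11261) (nat_lit 0) (nat_lit 0),Row.mk (nat_lit 17976) (nat_lit 53669) (nat_lit 173978) (nat_lit 54043) (nat_lit 17566) (nat_lit 0) (nat_lit 0),Row.mk (nat_lit 18144) (nat_lit 53108) (nat_lit 211831) (nat_lit 53482) (nat_lit 27403) (nat_lit 0) (nat_lit 0),Row.mk (nat_lit 18312) (nat_lit 52547) (nat_lit 256051) (nat_lit 52921) (nat_lit 42747) (nat_lit 0) (nat_lit 0),Row.mk (nat_lit 18480) (nat_lit 51986) (nat_lit 306509) (nat_lit 52360) (nat_lit 66683) (nat_lit 0) (nat_lit 0),Row.mk (nat_lit 18648) (nat_lit 51425) (nat_lit 362086) (nat_lit 51799) (nat_lit 104022) (nat_lit 0) (nat_lit 0),Row.mk (nat_lit 18816) (nat_lit 50864) (nat_lit 419889) (nat_lit 51238) (nat_lit 162268) (nat_lit 0) (nat_lit 0),Row.mk (nat_lit 18984) (nat_lit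 50303) (nat_lit 473972) (nat_lit 50677) (nat_lit 253129) (nat_lit 0) (nat_lit 0),Row.mk (nat_lit 19152) (nat_lit 49742) (nat_lit 513265) (nat_lit 50116) (nat_lit 394867) (nat_lit 0) (nat_lit 0),Row.mk (nat_lit 19320) (nat_lit 49181) (nat_lit 518265) (nat_lit 49555) (nat_lit 615970) (nat_lit 0) (nat_lit 0),Row.mk (nat_lit 19488) (nat_lit 48620) (nat_lit 455756) (nat_lit 48994) (nat_lit 960877) (nat_lit 0) (nat_lit 0),Row.mk (nat_lit 19656) (nat_lit 47872) (nat_lit 270429) (nat_lit 48433) (nat_lit 1498911) (nat_lit 0) (nat_lit 0),Row.mk (nat_lit 19824) (nat_lit 47685) (nat_lit 2107101) (nat_lit 48246) (nat_lit 102763) (nat_lit 0) (nat_lit 0),Row.mk (nat_lit 19992) (nat_lit 46750) (nat_lit 2049560) (nat_lit 47498) (nat_lit 710507) (nat_lit 0) (nat_lit 0),Row.mk (nat_lit 20160) (nat_lit 45815) (nat_lit 1651718) (nat_lit 46563) (nat_lit 1795539) (nat_lit 0) (nat_lit 0),Row.mk (nat_lit 20328) (nat_lit 44693) (nat_lit 646322) (nat_lit 45628)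 (nat_lit 3659218) (nat_lit 0) (nat_lit 0),Row.mk (nat_lit 20496) (nat_lit 44506) (nat_lit 4254498) (nat_lit 45441) (nat_lit 1123018) (nat_lit 0) (nat_lit 0),Row.mk (nat_lit 20664) (nat_lit 43197) (nat_lit 2553699) (nat_lit 44319) (nat_lit 4162689) (nat_lit 0) (nat_lit 0),Row.mk (nat_lit 20832) (nat_lit 43010) (nat_lit 7495049) (nat_lit 44132) (nat_lit 893558) (nat_lit 0) (nat_lit 0),Row.mk (nat_lit 21000) (nat_lit 41327) (nat_lit 3983619) (nat_lit 42823) (nat_lit 6493549) (nat_lit 0) (nat_lit 0),Row.mk (nat_lit 21168) (nat_lit 41140) (nat_lit 10352961) (nat_lit 42636) (nat_lit 2732769) (nat_lit 0) (nat_lit 0),Row.mk (nat_lit 21336) (nat_lit 38896) (nat_lit 2453430) (nat_lit 40953) (nat_lit 13890332) (nat_lit 0) (nat_lit 0),Row.mk (nat_lit 21504) (nat_lit 38709) (nat_lit 9780664) (nat_lit 40766) (nat_lit 10632301) (nat_lit 0) (nat_lit 0),Row.mk (nat_lit 21672) (nat_lit 38522) (nat_lit 18932203) (nat_lit 40579) (nat_lit 6563098) (nat_lit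 0) (nat_lit 0),Row.mk (nat_lit 21840) (nat_lit 38335) (nat_lit 30362254) (nat_lit 40392) (nat_lit 1480762) (nat_lit 0) (nat_lit 0),Row.mk (nat_lit 22008) (nat_lit 31603) (nat_lit 6078706) (nat_lit 38148) (nat_lit 33692452) (nat_lit 0) (nat_lit 0),Row.mk (nat_lit 22176) (nat_lit 31416) (nat_lit 15980765) (nat_lit 37961) (nat_lit 33692452) (nat_lit 0) (nat_lit 0),Row.mk (nat_lit 22344) (nat_lit 31229) (nat_lit 28348198) (nat_lit 37774) (nat_lit 33692452) (nat_lit 0) (nat_lit 0),Row.mk (nat_lit 22512) (nat_lit 31042) (nat_lit 43794824) (nat_lit 37587) (nat_lit 33692452) (nat_lit 0) (nat_lit 0),Row.mk (nat_lit 22680) (nat_lit 30855) (nat_lit 63087287) (nat_lit 37400) (nat_lit 33692452) (nat_lit 0) (nat_lit 0),Row.mk (nat_lit 22848) (nat_lit 30668) (nat_lit 87183107) (nat_lit 37213) (nat_lit 33692452) (nat_lit 0) (nat_lit 0),Row.mk (nat_lit 23016) (nat_lit 30481) (nat_lit 117278206) (nat_lit 37026) (nat_lit 33692452) (nat_lit 0) (nat_lit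 0),Row.mk (nat_lit 23184) (nat_lit 30294) (nat_lit 154866258) (nat_lit 36839) (nat_lit 33692452) (nat_lit 0) (nat_lit 0),Row.mk (nat_lit 23352) (nat_lit 30107) (nat_lit 201812828) (nat_lit 36652) (nat_lit 33692452) (nat_lit 0) (nat_lit 0),Row.mk (nat_lit 23520) (nat_lit 29920) (nat_lit 260447962) (nat_lit 36465) (nat_lit 33692452) (nat_lit 0) (nat_lit 0),Row.mk (nat_lit 23688) (nat_lit 29733) (nat_lit 333681830) (nat_lit 36278) (nat_lit 33692452) (nat_lit 0) (nat_lit 0),Row.mk (nat_lit 23856) (nat_lit 29546) (nat_lit 425149164) (nat_lit 36091) (nat_lit 33692452) (nat_lit 0) (nat_lit 0),Row.mk (nat_lit 24024) (nat_lit 29359) (nat_lit 539389658) (nat_lit 35904) (nat_lit 33692452) (nat_lit 0) (nat_lit 0),Row.mk (nat_lit 24192) (nat_lit 29172) (nat_lit 682073279) (nat_lit 35717) (nat_lit 33692452) (nat_lit 0) (nat_lit 0),Row.mk (nat_lit 24360) (nat_lit 28985) (nat_lit 860281679) (nat_lit 35530) (nat_lit 33692452) (nat_lit 0) (nat_lit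 0),Row.mk (nat_lit 24528) (nat_lit 28798) (nat_lit 1082859672) (nat_lit 35343) (nat_lit 33692452) (nat_lit 0) (nat_lit 0),Row.mk (nat_lit 24696) (nat_lit 28611) (nat_lit 1360854216) (nat_lit 35156) (nat_lit 33692452) (nat_lit 0) (nat_lit 0),Row.mk (nat_lit 24864) (nat_lit 28424) (nat_lit 1708062695) (nat_lit 34969) (nat_lit 33692452) (nat_lit 0) (nat_lit 0),Row.mk (nat_lit 25032) (nat_lit 28237) (nat_lit 2141717710) (nat_lit 34782) (nat_lit 33692452) (nat_lit 0) (nat_lit 0),Row.mk (nat_lit 25200) (nat_lit 28050) (nat_lit 2683342361) (nat_lit 34595) (nat_lit 33692452) (nat_lit 0) (nat_lit 0),Row.mk (nat_lit 25368) (nat_lit 27863) (nat_lit 3359818485) (nat_lit 34408) (nat_lit 33692452) (nat_lit 0) (nat_lit 0),Row.mk (nat_lit 25536) (nat_lit 27676) (nat_lit 4204720844) (nat_lit 34221) (nat_lit 33692452) (nat_lit 0) (nat_lit 0),Row.mk (nat_lit 25704) (nat_lit 27489) (nat_lit 5259983508) (nat_lit 34034) (nat_lit 33692452) (nat_lit 0) (nat_lit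 0),Row.mk (nat_lit 25872) (nat_lit 27302) (nat_lit 6577981119) (nat_lit 33847) (nat_lit 33692452) (nat_lit 0) (nat_lit 0),Row.mk (nat_lit 26040) (nat_lit 32912) (nat_lit 8388608) (nat_lit 62084) (nat_lit 8249432185) (nat_lit 0) (nat_lit 0),Row.mk (nat_lit 26208) (nat_lit 32912) (nat_lit 8388608) (nat_lit 62084) (nat_lit 10305430352) (nat_lit 0) (nat_lit 0)],
[Row.mk (nat_lit 10248) (nat_lit 32912) (nat_lit 6) (nat_lit 61710) (nat_lit 8388601) (nat_lit 0) (nat_lit 0),Row.mk (nat_lit 10416) (nat_lit 32912) (nat_lit 8) (nat_lit 61710) (nat_lit 8388599) (nat_lit 0) (nat_lit 0),Row.mk (nat_lit 10584) (nat_lit 32912) (nat_lit 10) (nat_lit 61710) (nat_lit 8388597) (nat_lit 0) (nat_lit 0),Row.mk (nat_lit 10752) (nat_lit 32912) (nat_lit 13) (nat_lit 61710) (nat_lit 8388594) (nat_lit 0) (nat_lit 0),Row.mk (nat_lit 10920) (nat_lit 32912) (nat_lit 16) (nat_lit 61710) (nat_lit 8388591) (nat_lit 0) (nat_lit 0),Row.mk (nat_lit 11088) (nat_lit 32912)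 (nat_lit 21) (nat_lit 61710) (nat_lit 8388586) (nat_lit 0) (nat_lit 0),Row.mk (nat_lit 11256) (nat_lit 32912) (nat_lit 26) (nat_lit 61710) (nat_lit 8388581) (nat_lit 0) (nat_lit 0),Row.mk (nat_lit 11424) (nat_lit 32912) (nat_lit 32) (nat_lit 61710) (nat_lit 8388575) (nat_lit 0) (nat_lit 0),Row.mk (nat_lit 11592) (nat_lit 32912) (nat_lit 41) (nat_lit 61710) (nat_lit 8388566) (nat_lit 0) (nat_lit 0),Row.mk (nat_lit 11760) (nat_lit 32912) (nat_lit 51) (nat_lit 61710) (nat_lit 8388556) (nat_lit 0) (nat_lit 0),Row.mk (nat_lit 11928) (nat_lit 32912) (nat_lit 64) (nat_lit 61710) (nat_lit 8388543) (nat_lit 0) (nat_lit 0),Row.mk (nat_lit 12096) (nat_lit 32912) (nat_lit 79) (nat_lit 61710) (nat_lit 8388528) (nat_lit 0) (nat_lit 0),Row.mk (nat_lit 12264) (nat_lit 32912) (nat_lit 99) (nat_lit 61710) (nat_lit 8388508) (nat_lit 0) (nat_lit 0),Row.mk (nat_lit 12432) (nat_lit 32912) (nat_lit 124) (nat_lit 61710) (nat_lit 8388483) (nat_lit 0) (nat_lit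 0),Row.mk (nat_lit 12600) (nat_lit 32912) (nat_lit 155) (nat_lit 61710) (nat_lit 8388452) (nat_lit 0) (nat_lit 0),Row.mk (nat_lit 12768) (nat_lit 32912) (nat_lit 194) (nat_lit 61710) (nat_lit 8388413) (nat_lit 0) (nat_lit 0),Row.mk (nat_lit 12936) (nat_lit 32912) (nat_lit 243) (nat_lit 61710) (nat_lit 8388364) (nat_lit 0) (nat_lit 0),Row.mk (nat_lit 13104) (nat_lit 32912) (nat_lit 303) (nat_lit 61710) (nat_lit 8388304) (nat_lit 0) (nat_lit 0),Row.mk (nat_lit 13272) (nat_lit 32912) (nat_lit 379) (nat_lit 61710) (nat_lit 8388228) (nat_lit 0) (nat_lit 0),Row.mk (nat_lit 13440) (nat_lit 32912) (nat_lit 473) (nat_lit 61710) (nat_lit 8388134) (nat_lit 0) (nat_lit 0),Row.mk (nat_lit 13608) (nat_lit 32912) (nat_lit 591) (nat_lit 61710) (nat_lit 8388016) (nat_lit 0) (nat_lit 0),Row.mk (nat_lit 13776) (nat_lit 32912) (nat_lit 738) (nat_lit 61710) (nat_lit 8387869) (nat_lit 0) (nat_lit 0),Row.mk (nat_lit 13944) (nat_lit 32912) (nat_lit 922)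 (nat_lit 61710) (nat_lit 8387685) (nat_lit 0) (nat_lit 0),Row.mk (nat_lit 14112) (nat_lit 32912) (nat_lit 1152) (nat_lit 61710) (nat_lit 8387455) (nat_lit 0) (nat_lit 0),Row.mk (nat_lit 14280) (nat_lit 32912) (nat_lit 1439) (nat_lit 61710) (nat_lit 8387168) (nat_lit 0) (nat_lit 0),Row.mk (nat_lit 14448) (nat_lit 32912) (nat_lit 1797) (nat_lit 61710) (nat_lit 8386810) (nat_lit 0) (nat_lit 0),Row.mk (nat_lit 14616) (nat_lit 32912) (nat_lit 2244) (nat_lit 61710) (nat_lit 8386363) (nat_lit 0) (nat_lit 0),Row.mk (nat_lit 14784) (nat_lit 32912) (nat_lit 2803) (nat_lit 61710) (nat_lit 8385804) (nat_lit 0) (nat_lit 0),Row.mk (nat_lit 14952) (nat_lit 32912) (nat_lit 3501) (nat_lit 61710) (nat_lit 8385106) (nat_lit 0) (nat_lit 0),Row.mk (nat_lit 15120) (nat_lit 32912) (nat_lit 4373) (nat_lit 61710) (nat_lit 8384234) (nat_lit 0) (nat_lit 0),Row.mk (nat_lit 15288) (nat_lit 32912) (nat_lit 5462) (nat_lit 61710) (nat_lit 8383145) (nat_lit 0) (nat_lit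 0),Row.mk (nat_lit 15456) (nat_lit 32912) (nat_lit 6822) (nat_lit 61710) (nat_lit 8381785) (nat_lit 0) (nat_lit 0),Row.mk (nat_lit 15624) (nat_lit 32912) (nat_lit 8521) (nat_lit 61710) (nat_lit 8380086) (nat_lit 0) (nat_lit 0),Row.mk (nat_lit 15792) (nat_lit 60962) (nat_lit 10588) (nat_lit 61336) (nat_lit 54) (nat_lit 0) (nat_lit 0),Row.mk (nat_lit 15960) (nat_lit 60401) (nat_lit 13208) (nat_lit 60775) (nat_lit 84) (nat_lit 0) (nat_lit 0),Row.mk (nat_lit 16128) (nat_lit 59840) (nat_lit 16470) (nat_lit 60214) (nat_lit 131) (nat_lit 0) (nat_lit 0),Row.mk (nat_lit 16296) (nat_lit 59279) (nat_lit 20530) (nat_lit 59653) (nat_lit 205) (nat_lit 0) (nat_lit 0),Row.mk (nat_lit 16464) (nat_lit 58718) (nat_lit 25577) (nat_lit 59092) (nat_lit 321) (nat_lit 0) (nat_lit 0),Row.mk (nat_lit 16632) (nat_lit 58157) (nat_lit 31846) (nat_lit 58531) (nat_lit 500) (nat_lit 0) (nat_lit 0),Row.mk (nat_lit 16800) (nat_lit 57596) (nat_lit 39619) (nat_lit 57970)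 (nat_lit 781) (nat_lit 0) (nat_lit 0),Row.mk (nat_lit 16968) (nat_lit 57035) (nat_lit 49240) (nat_lit 57409) (nat_lit 1219) (nat_lit 0) (nat_lit 0),Row.mk (nat_lit 17136) (nat_lit 56474) (nat_lit 61121) (nat_lit 56848) (nat_lit 1901) (nat_lit 0) (nat_lit 0),Row.mk (nat_lit 17304) (nat_lit 55913) (nat_lit 75747) (nat_lit 56287) (nat_lit 2966) (nat_lit 0) (nat_lit 0),Row.mk (nat_lit 17472) (nat_lit 55352) (nat_lit 93684) (nat_lit 55726) (nat_lit 4627) (nat_lit 0) (nat_lit 0),Row.mk (nat_lit 17640) (nat_lit 54791) (nat_lit 115570) (nat_lit 55165) (nat_lit 7219) (nat_lit 0) (nat_lit 0),Row.mk (nat_lit 17808) (nat_lit 54230) (nat_lit 142100) (nat_lit 54604) (nat_lit 11261) (nat_lit 0) (nat_lit 0),Row.mk (nat_lit 17976) (nat_lit 53669) (nat_lit 173978) (nat_lit 54043) (nat_lit 17566) (nat_lit 0) (nat_lit 0),Row.mk (nat_lit 18144) (nat_lit 53108) (nat_lit 211831) (nat_lit 53482) (nat_lit 27403) (nat_lit 0) (nat_lit 0),Row.mk (nat_lit 18312)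 (nat_lit 52547) (nat_lit 256051) (nat_lit 52921) (nat_lit 42747) (nat_lit 0) (nat_lit 0),Row.mk (nat_lit 18480) (nat_lit 51986) (nat_lit 306509) (nat_lit 52360) (nat_lit 66683) (nat_lit 0) (nat_lit 0),Row.mk (nat_lit 18648) (nat_lit 51425) (nat_lit 362086) (nat_lit 51799) (nat_lit 104022) (nat_lit 0) (nat_lit 0),Row.mk (nat_lit 18816) (nat_lit 50864) (nat_lit 419889) (nat_lit 51238) (nat_lit 162268) (nat_lit 0) (nat_lit 0),Row.mk (nat_lit 18984) (nat_lit 50303) (nat_lit 473972) (nat_lit 50677) (nat_lit 253129) (nat_lit 0) (nat_lit 0),Row.mk (nat_lit 19152) (nat_lit 49742) (nat_lit 513265) (nat_lit 50116) (nat_lit 394867) (nat_lit 0) (nat_lit 0),Row.mk (nat_lit 19320) (nat_lit 49181) (nat_lit 518265) (nat_lit 49555) (nat_lit 615970) (nat_lit 0) (nat_lit 0),Row.mk (nat_lit 19488) (nat_lit 48620) (nat_lit 455756) (nat_lit 48994) (nat_lit 960877) (nat_lit 0) (nat_lit 0),Row.mk (nat_lit 19656) (nat_lit 47872) (nat_lit 270429) (nat_lit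 48433) (nat_lit 1498911) (nat_lit 0) (nat_lit 0),Row.mk (nat_lit 19824) (nat_lit 47685) (nat_lit 2107101) (nat_lit 48246) (nat_lit 102763) (nat_lit 0) (nat_lit 0),Row.mk (nat_lit 19992) (nat_lit 46750) (nat_lit 2049560) (nat_lit 47498) (nat_lit 710507) (nat_lit 0) (nat_lit 0),Row.mk (nat_lit 20160) (nat_lit 45815) (nat_lit 1651718) (nat_lit 46563) (nat_lit 1795539) (nat_lit 0) (nat_lit 0),Row.mk (nat_lit 20328) (nat_lit 44693) (nat_lit 646322) (nat_lit 45628) (nat_lit 3659218) (nat_lit 0) (nat_lit 0),Row.mk (nat_lit 20496) (nat_lit 44506) (nat_lit 4254498) (nat_lit 45441) (nat_lit 1123018) (nat_lit 0) (nat_lit 0),Row.mk (nat_lit 20664) (nat_lit 43197) (nat_lit 2553699) (nat_lit 44319) (nat_lit 4162689) (nat_lit 0) (nat_lit 0),Row.mk (nat_lit 20832) (nat_lit 43010) (nat_lit 7495049) (nat_lit 44132) (nat_lit 893558) (nat_lit 0) (nat_lit 0),Row.mk (nat_lit 21000) (nat_lit 41327) (nat_lit 3983619) (nat_lit 42823) (nat_lit 6493549) (nat_lit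 0) (nat_lit 0),Row.mk (nat_lit 21168) (nat_lit 41140) (nat_lit 10352961) (nat_lit 42636) (nat_lit 2732769) (nat_lit 0) (nat_lit 0),Row.mk (nat_lit 21336) (nat_lit 38896) (nat_lit 2453430) (nat_lit 40953) (nat_lit 13890332) (nat_lit 0) (nat_lit 0),Row.mk (nat_lit 21504) (nat_lit 38709) (nat_lit 9780664) (nat_lit 40766) (nat_lit 10632301) (nat_lit 0) (nat_lit 0),Row.mk (nat_lit 21672) (nat_lit 38522) (nat_lit 18932203) (nat_lit 40579) (nat_lit 6563098) (nat_lit 0) (nat_lit 0),Row.mk (nat_lit 21840) (nat_lit 38335) (nat_lit 30362254) (nat_lit 40392) (nat_lit 1480762) (nat_lit 0) (nat_lit 0),Row.mk (nat_lit 22008) (nat_lit 31603) (nat_lit 6078706) (nat_lit 38148) (nat_lit 33692452) (nat_lit 0) (nat_lit 0),Row.mk (nat_lit 22176) (nat_lit 31416) (nat_lit 15980765) (nat_lit 37961) (nat_lit 33692452) (nat_lit 0) (nat_lit 0),Row.mk (nat_lit 22344) (nat_lit 31229) (nat_lit 28348198) (nat_lit 37774) (nat_lit 33692452) (nat_lit 0) (nat_lit 0),Row.mk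 (nat_lit 22512) (nat_lit 31042) (nat_lit 43794824) (nat_lit 37587) (nat_lit 33692452) (nat_lit 0) (nat_lit 0),Row.mk (nat_lit 22680) (nat_lit 30855) (nat_lit 63087287) (nat_lit 37400) (nat_lit 33692452) (nat_lit 0) (nat_lit 0),Row.mk (nat_lit 22848) (nat_lit 30668) (nat_lit 87183107) (nat_lit 37213) (nat_lit 33692452) (nat_lit 0) (nat_lit 0),Row.mk (nat_lit 23016) (nat_lit 30481) (nat_lit 117278206) (nat_lit 37026) (nat_lit 33692452) (nat_lit 0) (nat_lit 0),Row.mk (nat_lit 23184) (nat_lit 30294) (nat_lit 154866258) (nat_lit 36839) (nat_lit 33692452) (nat_lit 0) (nat_lit 0),Row.mk (nat_lit 23352) (nat_lit 30107) (nat_lit 201812828) (nat_lit 36652) (nat_lit 33692452) (nat_lit 0) (nat_lit 0),Row.mk (nat_lit 23520) (nat_lit 29920) (nat_lit 260447962) (nat_lit 36465) (nat_lit 33692452) (nat_lit 0) (nat_lit 0),Row.mk (nat_lit 23688) (nat_lit 29733) (nat_lit 333681830) (nat_lit 36278) (nat_lit 33692452) (nat_lit 0) (nat_lit 0),Row.mk (nat_lit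 23856) (nat_lit 29546) (nat_lit 425149164) (nat_lit 36091) (nat_lit 33692452) (nat_lit 0) (nat_lit 0),Row.mk (nat_lit 24024) (nat_lit 29359) (nat_lit 539389658) (nat_lit 35904) (nat_lit 33692452) (nat_lit 0) (nat_lit 0),Row.mk (nat_lit 24192) (nat_lit 29172) (nat_lit 682073279) (nat_lit 35717) (nat_lit 33692452) (nat_lit 0) (nat_lit 0),Row.mk (nat_lit 24360) (nat_lit 28985) (nat_lit 860281679) (nat_lit 35530) (nat_lit 33692452) (nat_lit 0) (nat_lit 0),Row.mk (nat_lit 24528) (nat_lit 28798) (nat_lit 1082859672) (nat_lit 35343) (nat_lit 33692452) (nat_lit 0) (nat_lit 0),Row.mk (nat_lit 24696) (nat_lit 28611) (nat_lit 1360854216) (nat_lit 35156) (nat_lit 33692452) (nat_lit 0) (nat_lit 0),Row.mk (nat_lit 24864) (nat_lit 28424) (nat_lit 1708062695) (nat_lit 34969) (nat_lit 33692452) (nat_lit 0) (nat_lit 0),Row.mk (nat_lit 25032) (nat_lit 28237) (nat_lit 2141717710) (nat_lit 34782) (nat_lit 33692452) (nat_lit 0) (nat_lit 0),Row.mk (nat_lit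 25200) (nat_lit 28050) (nat_lit 2683342361) (nat_lit 34595) (nat_lit 33692452) (nat_lit 0) (nat_lit 0),Row.mk (nat_lit 25368) (nat_lit 27863) (nat_lit 3359818485) (nat_lit 34408) (nat_lit 33692452) (nat_lit 0) (nat_lit 0),Row.mk (nat_lit 25536) (nat_lit 27676) (nat_lit 4204720844) (nat_lit 34221) (nat_lit 33692452) (nat_lit 0) (nat_lit 0),Row.mk (nat_lit 25704) (nat_lit 27489) (nat_lit 5259983508) (nat_lit 34034) (nat_lit 33692452) (nat_lit 0) (nat_lit 0),Row.mk (nat_lit 25872) (nat_lit 27302) (nat_lit 6577981119) (nat_lit 33847) (nat_lit 33692452) (nat_lit 0) (nat_lit 0),Row.mk (nat_lit 26040) (nat_lit 32912) (nat_lit 8388608) (nat_lit 62084) (nat_lit 8249432185) (nat_lit 0) (nat_lit 0),Row.mk (nat_lit 26208) (nat_lit 32912) (nat_lit 8388608) (nat_lit 62084) (nat_lit 10305430352) (nat_lit 0) (nat_lit 0)],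
[Row.mk (nat_lit 10248) (nat_lit 32912) (nat_lit 6) (nat_lit 61710) (nat_lit 8388601) (nat_lit 0) (nat_lit 0),Row.mk (nat_lit 10416) (nat_lit 32912) (nat_lit 8) (nat_lit 61710) (nat_lit 8388599) (nat_lit 0) (nat_lit 0),Row.mk (nat_lit 10584) (nat_lit 32912) (nat_lit 10) (nat_lit 61710) (nat_lit 8388597) (nat_lit 0) (nat_lit 0),Row.mk (nat_lit 10752) (nat_lit 32912) (nat_lit 13) (nat_lit 61710) (nat_lit 8388594) (nat_lit 0) (nat_lit 0),Row.mk (nat_lit 10920) (nat_lit 32912) (nat_lit 16) (nat_lit 61710) (nat_lit 8388591) (nat_lit 0) (nat_lit 0),Row.mk (nat_lit 11088) (nat_lit 32912) (nat_lit 21) (nat_lit 61710) (nat_lit 8388586) (nat_lit 0) (nat_lit 0),Row.mk (nat_lit 11256) (nat_lit 32912) (nat_lit 26) (nat_lit 61710) (nat_lit 8388581) (nat_lit 0) (nat_lit 0),Row.mk (nat_lit 11424) (nat_lit 32912) (nat_lit 32) (nat_lit 61710) (nat_lit 8388575) (nat_lit 0) (nat_lit 0),Row.mk (nat_lit 11592) (nat_lit 32912) (nat_lit 41) (nat_lit 61710)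 (nat_lit 8388566) (nat_lit 0) (nat_lit 0),Row.mk (nat_lit 11760) (nat_lit 32912) (nat_lit 51) (nat_lit 61710) (nat_lit 8388556) (nat_lit 0) (nat_lit 0),Row.mk (nat_lit 11928) (nat_lit 32912) (nat_lit 64) (nat_lit 61710) (nat_lit 8388543) (nat_lit 0) (nat_lit 0),Row.mk (nat_lit 12096) (nat_lit 32912) (nat_lit 79) (nat_lit 61710) (nat_lit 8388528) (nat_lit 0) (nat_lit 0),Row.mk (nat_lit 12264) (nat_lit 32912) (nat_lit 99) (nat_lit 61710) (nat_lit 8388508) (nat_lit 0) (nat_lit 0),Row.mk (nat_lit 12432) (nat_lit 32912) (nat_lit 124) (nat_lit 61710) (nat_lit 8388483) (nat_lit 0) (nat_lit 0),Row.mk (nat_lit 12600) (nat_lit 32912) (nat_lit 155) (nat_lit 61710) (nat_lit 8388452) (nat_lit 0) (nat_lit 0),Row.mk (nat_lit 12768) (nat_lit 32912) (nat_lit 194) (nat_lit 61710) (nat_lit 8388413) (nat_lit 0) (nat_lit 0),Row.mk (nat_lit 12936) (nat_lit 32912) (nat_lit 243) (nat_lit 61710) (nat_lit 8388364) (nat_lit 0) (nat_lit 0),Row.mk (nat_lit 13104)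 (nat_lit 32912) (nat_lit 303) (nat_lit 61710) (nat_lit 8388304) (nat_lit 0) (nat_lit 0),Row.mk (nat_lit 13272) (nat_lit 32912) (nat_lit 379) (nat_lit 61710) (nat_lit 8388228) (nat_lit 0) (nat_lit 0),Row.mk (nat_lit 13440) (nat_lit 32912) (nat_lit 473) (nat_lit 61710) (nat_lit 8388134) (nat_lit 0) (nat_lit 0),Row.mk (nat_lit 13608) (nat_lit 32912) (nat_lit 591) (nat_lit 61710) (nat_lit 8388016) (nat_lit 0) (nat_lit 0),Row.mk (nat_lit 13776) (nat_lit 32912) (nat_lit 738) (nat_lit 61710) (nat_lit 8387869) (nat_lit 0) (nat_lit 0),Row.mk (nat_lit 13944) (nat_lit 32912) (nat_lit 922) (nat_lit 61710) (nat_lit 8387685) (nat_lit 0) (nat_lit 0),Row.mk (nat_lit 14112) (nat_lit 32912) (nat_lit 1152) (nat_lit 61710) (nat_lit 8387455) (nat_lit 0) (nat_lit 0),Row.mk (nat_lit 14280) (nat_lit 32912) (nat_lit 1439) (nat_lit 61710) (nat_lit 8387168) (nat_lit 0) (nat_lit 0),Row.mk (nat_lit 14448) (nat_lit 32912) (nat_lit 1797) (nat_lit 61710) (nat_lit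 8386810) (nat_lit 0) (nat_lit 0),Row.mk (nat_lit 14616) (nat_lit 32912) (nat_lit 2244) (nat_lit 61710) (nat_lit 8386363) (nat_lit 0) (nat_lit 0),Row.mk (nat_lit 14784) (nat_lit 32912) (nat_lit 2803) (nat_lit 61710) (nat_lit 8385804) (nat_lit 0) (nat_lit 0),Row.mk (nat_lit 14952) (nat_lit 32912) (nat_lit 3501) (nat_lit 61710) (nat_lit 8385106) (nat_lit 0) (nat_lit 0),Row.mk (nat_lit 15120) (nat_lit 32912) (nat_lit 4373) (nat_lit 61710) (nat_lit 8384234) (nat_lit 0) (nat_lit 0),Row.mk (nat_lit 15288) (nat_lit 32912) (nat_lit 5462) (nat_lit 61710) (nat_lit 8383145) (nat_lit 0) (nat_lit 0),Row.mk (nat_lit 15456) (nat_lit 32912) (nat_lit 6822) (nat_lit 61710) (nat_lit 8381785) (nat_lit 0) (nat_lit 0),Row.mk (nat_lit 15624) (nat_lit 32912) (nat_lit 8521) (nat_lit 61710) (nat_lit 8380086) (nat_lit 0) (nat_lit 0),Row.mk (nat_lit 15792) (nat_lit 60962) (nat_lit 10588) (nat_lit 61336) (nat_lit 54) (nat_lit 0) (nat_lit 0),Row.mk (nat_lit 15960)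 (nat_lit 60401) (nat_lit 13208) (nat_lit 60775) (nat_lit 84) (nat_lit 0) (nat_lit 0),Row.mk (nat_lit 16128) (nat_lit 59840) (nat_lit 16470) (nat_lit 60214) (nat_lit 131) (nat_lit 0) (nat_lit 0),Row.mk (nat_lit 16296) (nat_lit 59279) (nat_lit 20530) (nat_lit 59653) (nat_lit 205) (nat_lit 0) (nat_lit 0),Row.mk (nat_lit 16464) (nat_lit 58718) (nat_lit 25577) (nat_lit 59092) (nat_lit 321) (nat_lit 0) (nat_lit 0),Row.mk (nat_lit 16632) (nat_lit 58157) (nat_lit 31846) (nat_lit 58531) (nat_lit 500) (nat_lit 0) (nat_lit 0),Row.mk (nat_lit 16800) (nat_lit 57596) (nat_lit 39619) (nat_lit 57970) (nat_lit 781) (nat_lit 0) (nat_lit 0),Row.mk (nat_lit 16968) (nat_lit 57035) (nat_lit 49240) (nat_lit 57409) (nat_lit 1219) (nat_lit 0) (nat_lit 0),Row.mk (nat_lit 17136) (nat_lit 56474) (nat_lit 61121) (nat_lit 56848) (nat_lit 1901) (nat_lit 0) (nat_lit 0),Row.mk (nat_lit 17304) (nat_lit 55913) (nat_lit 75747) (nat_lit 56287) (nat_lit 2966) (nat_lit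 0) (nat_lit 0),Row.mk (nat_lit 17472) (nat_lit 55352) (nat_lit 93684) (nat_lit 55726) (nat_lit 4627) (nat_lit 0) (nat_lit 0),Row.mk (nat_lit 17640) (nat_lit 54791) (nat_lit 115570) (nat_lit 55165) (nat_lit 7219) (nat_lit 0) (nat_lit 0),Row.mk (nat_lit 17808) (nat_lit 54230) (nat_lit 142100) (nat_lit 54604) (nat_lit 11261) (nat_lit 0) (nat_lit 0),Row.mk (nat_lit 17976) (nat_lit 53669) (nat_lit 173978) (nat_lit 54043) (nat_lit 17566) (nat_lit 0) (nat_lit 0),Row.mk (nat_lit 18144) (nat_lit 53108) (nat_lit 211831) (nat_lit 53482) (nat_lit 27403) (nat_lit 0) (nat_lit 0),Row.mk (nat_lit 18312) (nat_lit 52547) (nat_lit 256051) (nat_lit 52921) (nat_lit 42747) (nat_lit 0) (nat_lit 0),Row.mk (nat_lit 18480) (nat_lit 51986) (nat_lit 306509) (nat_lit 52360) (nat_lit 66683) (nat_lit 0) (nat_lit 0),Row.mk (nat_lit 18648) (nat_lit 51425) (nat_lit 362086) (nat_lit 51799) (nat_lit 104022) (nat_lit 0) (nat_lit 0),Row.mk (nat_lit 18816) (nat_lit 50864)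 (nat_lit 419889) (nat_lit 51238) (nat_lit 162268) (nat_lit 0) (nat_lit 0),Row.mk (nat_lit 18984) (nat_lit 50303) (nat_lit 473972) (nat_lit 50677) (nat_lit 253129) (nat_lit 0) (nat_lit 0),Row.mk (nat_lit 19152) (nat_lit 49742) (nat_lit 513265) (nat_lit 50116) (nat_lit 394867) (nat_lit 0) (nat_lit 0),Row.mk (nat_lit 19320) (nat_lit 49181) (nat_lit 518265) (nat_lit 49555) (nat_lit 615970) (nat_lit 0) (nat_lit 0),Row.mk (nat_lit 19488) (nat_lit 48620) (nat_lit 455756) (nat_lit 48994) (nat_lit 960877) (nat_lit 0) (nat_lit 0),Row.mk (nat_lit 19656) (nat_lit 47872) (nat_lit 270429) (nat_lit 48433) (nat_lit 1498911) (nat_lit 0) (nat_lit 0),Row.mk (nat_lit 19824) (nat_lit 47685) (nat_lit 2107101) (nat_lit 48246) (nat_lit 102763) (nat_lit 0) (nat_lit 0),Row.mk (nat_lit 19992) (nat_lit 46750) (nat_lit 2049560) (nat_lit 47498) (nat_lit 710507) (nat_lit 0) (nat_lit 0),Row.mk (nat_lit 20160) (nat_lit 45815) (nat_lit 1651718) (nat_lit 46563) (nat_lit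 1795539) (nat_lit 0) (nat_lit 0),Row.mk (nat_lit 20328) (nat_lit 44693) (nat_lit 646322) (nat_lit 45628) (nat_lit 3659218) (nat_lit 0) (nat_lit 0),Row.mk (nat_lit 20496) (nat_lit 44506) (nat_lit 4254498) (nat_lit 45441) (nat_lit 1123018) (nat_lit 0) (nat_lit 0),Row.mk (nat_lit 20664) (nat_lit 43197) (nat_lit 2553699) (nat_lit 44319) (nat_lit 4162689) (nat_lit 0) (nat_lit 0),Row.mk (nat_lit 20832) (nat_lit 43010) (nat_lit 7495049) (nat_lit 44132) (nat_lit 893558) (nat_lit 0) (nat_lit 0),Row.mk (nat_lit 21000) (nat_lit 41327) (nat_lit 3983619) (nat_lit 42823) (nat_lit 6493549) (nat_lit 0) (nat_lit 0),Row.mk (nat_lit 21168) (nat_lit 41140) (nat_lit 10352961) (nat_lit 42636) (nat_lit 2732769) (nat_lit 0) (nat_lit 0),Row.mk (nat_lit 21336) (nat_lit 38896) (nat_lit 2453430) (nat_lit 40953) (nat_lit 13890332) (nat_lit 0) (nat_lit 0),Row.mk (nat_lit 21504) (nat_lit 38709) (nat_lit 9780664) (nat_lit 40766) (nat_lit 10632301) (nat_lit 0) (nat_lit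 0),Row.mk (nat_lit 21672) (nat_lit 38522) (nat_lit 18932203) (nat_lit 40579) (nat_lit 6563098) (nat_lit 0) (nat_lit 0),Row.mk (nat_lit 21840) (nat_lit 38335) (nat_lit 30362254) (nat_lit 40392) (nat_lit 1480762) (nat_lit 0) (nat_lit 0),Row.mk (nat_lit 22008) (nat_lit 31603) (nat_lit 6078706) (nat_lit 38148) (nat_lit 33692452) (nat_lit 0) (nat_lit 0),Row.mk (nat_lit 22176) (nat_lit 31416) (nat_lit 15980765) (nat_lit 37961) (nat_lit 33692452) (nat_lit 0) (nat_lit 0),Row.mk (nat_lit 22344) (nat_lit 31229) (nat_lit 28348198) (nat_lit 37774) (nat_lit 33692452) (nat_lit 0) (nat_lit 0),Row.mk (nat_lit 22512) (nat_lit 31042) (nat_lit 43794824) (nat_lit 37587) (nat_lit 33692452) (nat_lit 0) (nat_lit 0),Row.mk (nat_lit 22680) (nat_lit 30855) (nat_lit 63087287) (nat_lit 37400) (nat_lit 33692452) (nat_lit 0) (nat_lit 0),Row.mk (nat_lit 22848) (nat_lit 30668) (nat_lit 87183107) (nat_lit 37213) (nat_lit 33692452) (nat_lit 0) (nat_lit 0),Row.mk (nat_lit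 23016) (nat_lit 30481) (nat_lit 117278206) (nat_lit 37026) (nat_lit 33692452) (nat_lit 0) (nat_lit 0),Row.mk (nat_lit 23184) (nat_lit 30294) (nat_lit 154866258) (nat_lit 36839) (nat_lit 33692452) (nat_lit 0) (nat_lit 0),Row.mk (nat_lit 23352) (nat_lit 30107) (nat_lit 201812828) (nat_lit 36652) (nat_lit 33692452) (nat_lit 0) (nat_lit 0),Row.mk (nat_lit 23520) (nat_lit 29920) (nat_lit 260447962) (nat_lit 36465) (nat_lit 33692452) (nat_lit 0) (nat_lit 0),Row.mk (nat_lit 23688) (nat_lit 29733) (nat_lit 333681830) (nat_lit 36278) (nat_lit 33692452) (nat_lit 0) (nat_lit 0),Row.mk (nat_lit 23856) (nat_lit 29546) (nat_lit 425149164) (nat_lit 36091) (nat_lit 33692452) (nat_lit 0) (nat_lit 0),Row.mk (nat_lit 24024) (nat_lit 29359) (nat_lit 539389658) (nat_lit 35904) (nat_lit 33692452) (nat_lit 0) (nat_lit 0),Row.mk (nat_lit 24192) (nat_lit 29172) (nat_lit 682073279) (nat_lit 35717) (nat_lit 33692452) (nat_lit 0) (nat_lit 0),Row.mk (nat_lit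 24360) (nat_lit 28985) (nat_lit 860281679) (nat_lit 35530) (nat_lit 33692452) (nat_lit 0) (nat_lit 0),Row.mk (nat_lit 24528) (nat_lit 28798) (nat_lit 1082859672) (nat_lit 35343) (nat_lit 33692452) (nat_lit 0) (nat_lit 0),Row.mk (nat_lit 24696) (nat_lit 28611) (nat_lit 1360854216) (nat_lit 35156) (nat_lit 33692452) (nat_lit 0) (nat_lit 0),Row.mk (nat_lit 24864) (nat_lit 28424) (nat_lit 1708062695) (nat_lit 34969) (nat_lit 33692452) (nat_lit 0) (nat_lit 0),Row.mk (nat_lit 25032) (nat_lit 28237) (nat_lit 2141717710) (nat_lit 34782) (nat_lit 33692452) (nat_lit 0) (nat_lit 0),Row.mk (nat_lit 25200) (nat_lit 28050) (nat_lit 2683342361) (nat_lit 34595) (nat_lit 33692452) (nat_lit 0) (nat_lit 0),Row.mk (nat_lit 25368) (nat_lit 27863) (nat_lit 3359818485) (nat_lit 34408) (nat_lit 33692452) (nat_lit 0) (nat_lit 0),Row.mk (nat_lit 25536) (nat_lit 27676) (nat_lit 4204720844) (nat_lit 34221) (nat_lit 33692452) (nat_lit 0) (nat_lit 0),Row.mk (nat_lit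 25704) (nat_lit 27489) (nat_lit 5259983508) (nat_lit 34034) (nat_lit 33692452) (nat_lit 0) (nat_lit 0),Row.mk (nat_lit 25872) (nat_lit 27302) (nat_lit 6577981119) (nat_lit 33847) (nat_lit 33692452) (nat_lit 0) (nat_lit 0),Row.mk (nat_lit 26040) (nat_lit 32912) (nat_lit 8388608) (nat_lit 62084) (nat_lit 8249432185) (nat_lit 0) (nat_lit 0),Row.mk (nat_lit 26208) (nat_lit 32912) (nat_lit 8388608) (nat_lit 62084) (nat_lit 10305430352) (nat_lit 0) (nat_lit 0)],
[Row.mk (nat_lit 9912) (nat_lit 32912) (nat_lit 4) (nat_lit 61710) (nat_lit 8388603) (nat_lit 0) (nat_lit 0),Row.mk (nat_lit 10080) (nat_lit 32912) (nat_lit 5) (nat_lit 61710) (nat_lit 8388602) (nat_lit 0) (nat_lit 0),Row.mk (nat_lit 10248) (nat_lit 32912) (nat_lit 6) (nat_lit 61710) (nat_lit 8388601) (nat_lit 0) (nat_lit 0),Row.mk (nat_lit 10416) (nat_lit 32912) (nat_lit 8) (nat_lit 61710) (nat_lit 8388599) (nat_lit 0) (nat_lit 0),Row.mk (nat_lit 10584) (nat_lit 32912) (nat_lit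 10) (nat_lit 61710) (nat_lit 8388597) (nat_lit 0) (nat_lit 0),Row.mk (nat_lit 10752) (nat_lit 32912) (nat_lit 13) (nat_lit 61710) (nat_lit 8388594) (nat_lit 0) (nat_lit 0),Row.mk (nat_lit 10920) (nat_lit 32912) (nat_lit 16) (nat_lit 61710) (nat_lit 8388591) (nat_lit 0) (nat_lit 0),Row.mk (nat_lit 11088) (nat_lit 32912) (nat_lit 21) (nat_lit 61710) (nat_lit 8388586) (nat_lit 0) (nat_lit 0),Row.mk (nat_lit 11256) (nat_lit 32912) (nat_lit 26) (nat_lit 61710) (nat_lit 8388581) (nat_lit 0) (nat_lit 0),Row.mk (nat_lit 11424) (nat_lit 32912) (nat_lit 32) (nat_lit 61710) (nat_lit 8388575) (nat_lit 0) (nat_lit 0),Row.mk (nat_lit 11592) (nat_lit 32912) (nat_lit 41) (nat_lit 61710) (nat_lit 8388566) (nat_lit 0) (nat_lit 0),Row.mk (nat_lit 11760) (nat_lit 32912) (nat_lit 51) (nat_lit 61710) (nat_lit 8388556) (nat_lit 0) (nat_lit 0),Row.mk (nat_lit 11928) (nat_lit 32912) (nat_lit 64) (nat_lit 61710) (nat_lit 8388543) (nat_lit 0) (nat_lit 0),Row.mk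 (nat_lit 12096) (nat_lit 32912) (nat_lit 79) (nat_lit 61710) (nat_lit 8388528) (nat_lit 0) (nat_lit 0),Row.mk (nat_lit 12264) (nat_lit 32912) (nat_lit 99) (nat_lit 61710) (nat_lit 8388508) (nat_lit 0) (nat_lit 0),Row.mk (nat_lit 12432) (nat_lit 32912) (nat_lit 124) (nat_lit 61710) (nat_lit 8388483) (nat_lit 0) (nat_lit 0),Row.mk (nat_lit 12600) (nat_lit 32912) (nat_lit 155) (nat_lit 61710) (nat_lit 8388452) (nat_lit 0) (nat_lit 0),Row.mk (nat_lit 12768) (nat_lit 32912) (nat_lit 194) (nat_lit 61710) (nat_lit 8388413) (nat_lit 0) (nat_lit 0),Row.mk (nat_lit 12936) (nat_lit 32912) (nat_lit 243) (nat_lit 61710) (nat_lit 8388364) (nat_lit 0) (nat_lit 0),Row.mk (nat_lit 13104) (nat_lit 32912) (nat_lit 303) (nat_lit 61710) (nat_lit 8388304) (nat_lit 0) (nat_lit 0),Row.mk (nat_lit 13272) (nat_lit 32912) (nat_lit 379) (nat_lit 61710) (nat_lit 8388228) (nat_lit 0) (nat_lit 0),Row.mk (nat_lit 13440) (nat_lit 32912) (nat_lit 473) (nat_lit 61710)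 (nat_lit 8388134) (nat_lit 0) (nat_lit 0),Row.mk (nat_lit 13608) (nat_lit 32912) (nat_lit 591) (nat_lit 61710) (nat_lit 8388016) (nat_lit 0) (nat_lit 0),Row.mk (nat_lit 13776) (nat_lit 32912) (nat_lit 738) (nat_lit 61710) (nat_lit 8387869) (nat_lit 0) (nat_lit 0),Row.mk (nat_lit 13944) (nat_lit 32912) (nat_lit 922) (nat_lit 61710) (nat_lit 8387685) (nat_lit 0) (nat_lit 0),Row.mk (nat_lit 14112) (nat_lit 32912) (nat_lit 1152) (nat_lit 61710) (nat_lit 8387455) (nat_lit 0) (nat_lit 0),Row.mk (nat_lit 14280) (nat_lit 32912) (nat_lit 1439) (nat_lit 61710) (nat_lit 8387168) (nat_lit 0) (nat_lit 0),Row.mk (nat_lit 14448) (nat_lit 32912) (nat_lit 1797) (nat_lit 61710) (nat_lit 8386810) (nat_lit 0) (nat_lit 0),Row.mk (nat_lit 14616) (nat_lit 32912) (nat_lit 2244) (nat_lit 61710) (nat_lit 8386363) (nat_lit 0) (nat_lit 0),Row.mk (nat_lit 14784) (nat_lit 32912) (nat_lit 2803) (nat_lit 61710) (nat_lit 8385804) (nat_lit 0) (nat_lit 0),Row.mk (nat_lit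 14952) (nat_lit 32912) (nat_lit 3501) (nat_lit 61710) (nat_lit 8385106) (nat_lit 0) (nat_lit 0),Row.mk (nat_lit 15120) (nat_lit 32912) (nat_lit 4373) (nat_lit 61710) (nat_lit 8384234) (nat_lit 0) (nat_lit 0),Row.mk (nat_lit 15288) (nat_lit 32912) (nat_lit 5462) (nat_lit 61710) (nat_lit 8383145) (nat_lit 0) (nat_lit 0),Row.mk (nat_lit 15456) (nat_lit 32912) (nat_lit 6822) (nat_lit 61710) (nat_lit 8381785) (nat_lit 0) (nat_lit 0),Row.mk (nat_lit 15624) (nat_lit 32912) (nat_lit 8521) (nat_lit 61710) (nat_lit 8380086) (nat_lit 0) (nat_lit 0),Row.mk (nat_lit 15792) (nat_lit 60962) (nat_lit 10588) (nat_lit 61336) (nat_lit 54) (nat_lit 0) (nat_lit 0),Row.mk (nat_lit 15960) (nat_lit 60401) (nat_lit 13208) (nat_lit 60775) (nat_lit 84) (nat_lit 0) (nat_lit 0),Row.mk (nat_lit 16128) (nat_lit 59840) (nat_lit 16470) (nat_lit 60214) (nat_lit 131) (nat_lit 0) (nat_lit 0),Row.mk (nat_lit 16296) (nat_lit 59279) (nat_lit 20530) (nat_lit 59653) (nat_lit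 205) (nat_lit 0) (nat_lit 0),Row.mk (nat_lit 16464) (nat_lit 58718) (nat_lit 25577) (nat_lit 59092) (nat_lit 321) (nat_lit 0) (nat_lit 0),Row.mk (nat_lit 16632) (nat_lit 58157) (nat_lit 31846) (nat_lit 58531) (nat_lit 500) (nat_lit 0) (nat_lit 0),Row.mk (nat_lit 16800) (nat_lit 57596) (nat_lit 39619) (nat_lit 57970) (nat_lit 781) (nat_lit 0) (nat_lit 0),Row.mk (nat_lit 16968) (nat_lit 57035) (nat_lit 49240) (nat_lit 57409) (nat_lit 1219) (nat_lit 0) (nat_lit 0),Row.mk (nat_lit 17136) (nat_lit 56474) (nat_lit 61121) (nat_lit 56848) (nat_lit 1901) (nat_lit 0) (nat_lit 0),Row.mk (nat_lit 17304) (nat_lit 55913) (nat_lit 75747) (nat_lit 56287) (nat_lit 2966) (nat_lit 0) (nat_lit 0),Row.mk (nat_lit 17472) (nat_lit 55352) (nat_lit 93684) (nat_lit 55726) (nat_lit 4627) (nat_lit 0) (nat_lit 0),Row.mk (nat_lit 17640) (nat_lit 54791) (nat_lit 115570) (nat_lit 55165) (nat_lit 7219) (nat_lit 0) (nat_lit 0),Row.mk (nat_lit 17808) (nat_lit 54230)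 (nat_lit 142100) (nat_lit 54604) (nat_lit 11261) (nat_lit 0) (nat_lit 0),Row.mk (nat_lit 17976) (nat_lit 53669) (nat_lit 173978) (nat_lit 54043) (nat_lit 17566) (nat_lit 0) (nat_lit 0),Row.mk (nat_lit 18144) (nat_lit 53108) (nat_lit 211831) (nat_lit 53482) (nat_lit 27403) (nat_lit 0) (nat_lit 0),Row.mk (nat_lit 18312) (nat_lit 52547) (nat_lit 256051) (nat_lit 52921) (nat_lit 42747) (nat_lit 0) (nat_lit 0),Row.mk (nat_lit 18480) (nat_lit 51986) (nat_lit 306509) (nat_lit 52360) (nat_lit 66683) (nat_lit 0) (nat_lit 0),Row.mk (nat_lit 18648) (nat_lit 51425) (nat_lit 362086) (nat_lit 51799) (nat_lit 104022) (nat_lit 0) (nat_lit 0),Row.mk (nat_lit 18816) (nat_lit 50864) (nat_lit 419889) (nat_lit 51238) (nat_lit 162268) (nat_lit 0) (nat_lit 0),Row.mk (nat_lit 18984) (nat_lit 50303) (nat_lit 473972) (nat_lit 50677) (nat_lit 253129) (nat_lit 0) (nat_lit 0),Row.mk (nat_lit 19152) (nat_lit 49742) (nat_lit 513265) (nat_lit 50116) (nat_lit 394867)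 (nat_lit 0) (nat_lit 0),Row.mk (nat_lit 19320) (nat_lit 49181) (nat_lit 518265) (nat_lit 49555) (nat_lit 615970) (nat_lit 0) (nat_lit 0),Row.mk (nat_lit 19488) (nat_lit 48620) (nat_lit 455756) (nat_lit 48994) (nat_lit 960877) (nat_lit 0) (nat_lit 0),Row.mk (nat_lit 19656) (nat_lit 47872) (nat_lit 270429) (nat_lit 48433) (nat_lit 1498911) (nat_lit 0) (nat_lit 0),Row.mk (nat_lit 19824) (nat_lit 47685) (nat_lit 2107101) (nat_lit 48246) (nat_lit 102763) (nat_lit 0) (nat_lit 0),Row.mk (nat_lit 19992) (nat_lit 46750) (nat_lit 2049560) (nat_lit 47498) (nat_lit 710507) (nat_lit 0) (nat_lit 0),Row.mk (nat_lit 20160) (nat_lit 45815) (nat_lit 1651718) (nat_lit 46563) (nat_lit 1795539) (nat_lit 0) (nat_lit 0),Row.mk (nat_lit 20328) (nat_lit 44693) (nat_lit 646322) (nat_lit 45628) (nat_lit 3659218) (nat_lit 0) (nat_lit 0),Row.mk (nat_lit 20496) (nat_lit 44506) (nat_lit 4254498) (nat_lit 45441) (nat_lit 1123018) (nat_lit 0) (nat_lit 0),Row.mk (nat_lit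 20664) (nat_lit 43197) (nat_lit 2553699) (nat_lit 44319) (nat_lit 4162689) (nat_lit 0) (nat_lit 0),Row.mk (nat_lit 20832) (nat_lit 43010) (nat_lit 7495049) (nat_lit 44132) (nat_lit 893558) (nat_lit 0) (nat_lit 0),Row.mk (nat_lit 21000) (nat_lit 41327) (nat_lit 3983619) (nat_lit 42823) (nat_lit 6493549) (nat_lit 0) (nat_lit 0),Row.mk (nat_lit 21168) (nat_lit 41140) (nat_lit 10352961) (nat_lit 42636) (nat_lit 2732769) (nat_lit 0) (nat_lit 0),Row.mk (nat_lit 21336) (nat_lit 38896) (nat_lit 2453430) (nat_lit 40953) (nat_lit 13890332) (nat_lit 0) (nat_lit 0),Row.mk (nat_lit 21504) (nat_lit 38709) (nat_lit 9780664) (nat_lit 40766) (nat_lit 10632301) (nat_lit 0) (nat_lit 0),Row.mk (nat_lit 21672) (nat_lit 38522) (nat_lit 18932203) (nat_lit 40579) (nat_lit 6563098) (nat_lit 0) (nat_lit 0),Row.mk (nat_lit 21840) (nat_lit 38335) (nat_lit 30362254) (nat_lit 40392) (nat_lit 1480762) (nat_lit 0) (nat_lit 0),Row.mk (nat_lit 22008) (nat_lit 31603)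 (nat_lit 6078706) (nat_lit 38148) (nat_lit 33692452) (nat_lit 0) (nat_lit 0),Row.mk (nat_lit 22176) (nat_lit 31416) (nat_lit 15980765) (nat_lit 37961) (nat_lit 33692452) (nat_lit 0) (nat_lit 0),Row.mk (nat_lit 22344) (nat_lit 31229) (nat_lit 28348198) (nat_lit 37774) (nat_lit 33692452) (nat_lit 0) (nat_lit 0),Row.mk (nat_lit 22512) (nat_lit 31042) (nat_lit 43794824) (nat_lit 37587) (nat_lit 33692452) (nat_lit 0) (nat_lit 0),Row.mk (nat_lit 22680) (nat_lit 30855) (nat_lit 63087287) (nat_lit 37400) (nat_lit 33692452) (nat_lit 0) (nat_lit 0),Row.mk (nat_lit 22848) (nat_lit 30668) (nat_lit 87183107) (nat_lit 37213) (nat_lit 33692452) (nat_lit 0) (nat_lit 0),Row.mk (nat_lit 23016) (nat_lit 30481) (nat_lit 117278206) (nat_lit 37026) (nat_lit 33692452) (nat_lit 0) (nat_lit 0),Row.mk (nat_lit 23184) (nat_lit 30294) (nat_lit 154866258) (nat_lit 36839) (nat_lit 33692452) (nat_lit 0) (nat_lit 0),Row.mk (nat_lit 23352) (nat_lit 30107) (nat_lit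 201812828) (nat_lit 36652) (nat_lit 33692452) (nat_lit 0) (nat_lit 0),Row.mk (nat_lit 23520) (nat_lit 29920) (nat_lit 260447962) (nat_lit 36465) (nat_lit 33692452) (nat_lit 0) (nat_lit 0),Row.mk (nat_lit 23688) (nat_lit 29733) (nat_lit 333681830) (nat_lit 36278) (nat_lit 33692452) (nat_lit 0) (nat_lit 0),Row.mk (nat_lit 23856) (nat_lit 29546) (nat_lit 425149164) (nat_lit 36091) (nat_lit 33692452) (nat_lit 0) (nat_lit 0),Row.mk (nat_lit 24024) (nat_lit 29359) (nat_lit 539389658) (nat_lit 35904) (nat_lit 33692452) (nat_lit 0) (nat_lit 0),Row.mk (nat_lit 24192) (nat_lit 29172) (nat_lit 682073279) (nat_lit 35717) (nat_lit 33692452) (nat_lit 0) (nat_lit 0),Row.mk (nat_lit 24360) (nat_lit 28985) (nat_lit 860281679) (nat_lit 35530) (nat_lit 33692452) (nat_lit 0) (nat_lit 0),Row.mk (nat_lit 24528) (nat_lit 28798) (nat_lit 1082859672) (nat_lit 35343) (nat_lit 33692452) (nat_lit 0) (nat_lit 0),Row.mk (nat_lit 24696) (nat_lit 28611) (nat_lit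 1360854216) (nat_lit 35156) (nat_lit 33692452) (nat_lit 0) (nat_lit 0),Row.mk (nat_lit 24864) (nat_lit 28424) (nat_lit 1708062695) (nat_lit 34969) (nat_lit 33692452) (nat_lit 0) (nat_lit 0),Row.mk (nat_lit 25032) (nat_lit 28237) (nat_lit 2141717710) (nat_lit 34782) (nat_lit 33692452) (nat_lit 0) (nat_lit 0),Row.mk (nat_lit 25200) (nat_lit 28050) (nat_lit 2683342361) (nat_lit 34595) (nat_lit 33692452) (nat_lit 0) (nat_lit 0),Row.mk (nat_lit 25368) (nat_lit 27863) (nat_lit 3359818485) (nat_lit 34408) (nat_lit 33692452) (nat_lit 0) (nat_lit 0),Row.mk (nat_lit 25536) (nat_lit 27676) (nat_lit 4204720844) (nat_lit 34221) (nat_lit 33692452) (nat_lit 0) (nat_lit 0),Row.mk (nat_lit 25704) (nat_lit 27489) (nat_lit 5259983508) (nat_lit 34034) (nat_lit 33692452) (nat_lit 0) (nat_lit 0),Row.mk (nat_lit 25872) (nat_lit 27302) (nat_lit 6577981119) (nat_lit 33847) (nat_lit 33692452) (nat_lit 0) (nat_lit 0),Row.mk (nat_lit 26040) (nat_lit 32912) (nat_lit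 8388608) (nat_lit 62084) (nat_lit 8249432185) (nat_lit 0) (nat_lit 0),Row.mk (nat_lit 26208) (nat_lit 32912) (nat_lit 8388608) (nat_lit 62084) (nat_lit 10305430352) (nat_lit 0) (nat_lit 0),Row.mk (nat_lit 26376) (nat_lit 32912) (nat_lit 8388608) (nat_lit 62084) (nat_lit 12873322465) (nat_lit 0) (nat_lit 0)],
[Row.mk (nat_lit 8736) (nat_lit 61710) (nat_lit 8388607) (nat_lit 0) (nat_lit 0) (nat_lit 0) (nat_lit 0),Row.mk (nat_lit 8904) (nat_lit 32912) (nat_lit 1) (nat_lit 61710) (nat_lit 8388606) (nat_lit 0) (nat_lit 0),Row.mk (nat_lit 9072) (nat_lit 32912) (nat_lit 1) (nat_lit 61710) (nat_lit 8388606) (nat_lit 0) (nat_lit 0),Row.mk (nat_lit 9240) (nat_lit 32912) (nat_lit 1) (nat_lit 61710) (nat_lit 8388606) (nat_lit 0) (nat_lit 0),Row.mk (nat_lit 9408) (nat_lit 32912) (nat_lit 2) (nat_lit 61710) (nat_lit 8388605) (nat_lit 0) (nat_lit 0),Row.mk (nat_lit 9576) (nat_lit 32912) (nat_lit 2) (nat_lit 61710) (nat_lit 8388605) (nat_lit 0) (nat_lit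 0),Row.mk (nat_lit 9744) (nat_lit 32912) (nat_lit 3) (nat_lit 61710) (nat_lit 8388604) (nat_lit 0) (nat_lit 0),Row.mk (nat_lit 9912) (nat_lit 32912) (nat_lit 4) (nat_lit 61710) (nat_lit 8388603) (nat_lit 0) (nat_lit 0),Row.mk (nat_lit 10080) (nat_lit 32912) (nat_lit 5) (nat_lit 61710) (nat_lit 8388602) (nat_lit 0) (nat_lit 0),Row.mk (nat_lit 10248) (nat_lit 32912) (nat_lit 6) (nat_lit 61710) (nat_lit 8388601) (nat_lit 0) (nat_lit 0),Row.mk (nat_lit 10416) (nat_lit 32912) (nat_lit 8) (nat_lit 61710) (nat_lit 8388599) (nat_lit 0) (nat_lit 0),Row.mk (nat_lit 10584) (nat_lit 32912) (nat_lit 10) (nat_lit 61710) (nat_lit 8388597) (nat_lit 0) (nat_lit 0),Row.mk (nat_lit 10752) (nat_lit 32912) (nat_lit 13) (nat_lit 61710) (nat_lit 8388594) (nat_lit 0) (nat_lit 0),Row.mk (nat_lit 10920) (nat_lit 32912) (nat_lit 16) (nat_lit 61710) (nat_lit 8388591) (nat_lit 0) (nat_lit 0),Row.mk (nat_lit 11088) (nat_lit 32912) (nat_lit 21) (nat_lit 61710)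 (nat_lit 8388586) (nat_lit 0) (nat_lit 0),Row.mk (nat_lit 11256) (nat_lit 32912) (nat_lit 26) (nat_lit 61710) (nat_lit 8388581) (nat_lit 0) (nat_lit 0),Row.mk (nat_lit 11424) (nat_lit 32912) (nat_lit 32) (nat_lit 61710) (nat_lit 8388575) (nat_lit 0) (nat_lit 0),Row.mk (nat_lit 11592) (nat_lit 32912) (nat_lit 41) (nat_lit 61710) (nat_lit 8388566) (nat_lit 0) (nat_lit 0),Row.mk (nat_lit 11760) (nat_lit 32912) (nat_lit 51) (nat_lit 61710) (nat_lit 8388556) (nat_lit 0) (nat_lit 0),Row.mk (nat_lit 11928) (nat_lit 32912) (nat_lit 64) (nat_lit 61710) (nat_lit 8388543) (nat_lit 0) (nat_lit 0),Row.mk (nat_lit 12096) (nat_lit 32912) (nat_lit 79) (nat_lit 61710) (nat_lit 8388528) (nat_lit 0) (nat_lit 0),Row.mk (nat_lit 12264) (nat_lit 32912) (nat_lit 99) (nat_lit 61710) (nat_lit 8388508) (nat_lit 0) (nat_lit 0),Row.mk (nat_lit 12432) (nat_lit 32912) (nat_lit 124) (nat_lit 61710) (nat_lit 8388483) (nat_lit 0) (nat_lit 0),Row.mk (nat_lit 12600)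 (nat_lit 32912) (nat_lit 155) (nat_lit 61710) (nat_lit 8388452) (nat_lit 0) (nat_lit 0),Row.mk (nat_lit 12768) (nat_lit 32912) (nat_lit 194) (nat_lit 61710) (nat_lit 8388413) (nat_lit 0) (nat_lit 0),Row.mk (nat_lit 12936) (nat_lit 32912) (nat_lit 243) (nat_lit 61710) (nat_lit 8388364) (nat_lit 0) (nat_lit 0),Row.mk (nat_lit 13104) (nat_lit 32912) (nat_lit 303) (nat_lit 61710) (nat_lit 8388304) (nat_lit 0) (nat_lit 0),Row.mk (nat_lit 13272) (nat_lit 32912) (nat_lit 379) (nat_lit 61710) (nat_lit 8388228) (nat_lit 0) (nat_lit 0),Row.mk (nat_lit 13440) (nat_lit 32912) (nat_lit 473) (nat_lit 61710) (nat_lit 8388134) (nat_lit 0) (nat_lit 0),Row.mk (nat_lit 13608) (nat_lit 32912) (nat_lit 591) (nat_lit 61710) (nat_lit 8388016) (nat_lit 0) (nat_lit 0),Row.mk (nat_lit 13776) (nat_lit 32912) (nat_lit 738) (nat_lit 61710) (nat_lit 8387869) (nat_lit 0) (nat_lit 0),Row.mk (nat_lit 13944) (nat_lit 32912) (nat_lit 922) (nat_lit 61710) (nat_lit 8387685)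 (nat_lit 0) (nat_lit 0),Row.mk (nat_lit 14112) (nat_lit 32912) (nat_lit 1152) (nat_lit 61710) (nat_lit 8387455) (nat_lit 0) (nat_lit 0),Row.mk (nat_lit 14280) (nat_lit 32912) (nat_lit 1439) (nat_lit 61710) (nat_lit 8387168) (nat_lit 0) (nat_lit 0),Row.mk (nat_lit 14448) (nat_lit 32912) (nat_lit 1797) (nat_lit 61710) (nat_lit 8386810) (nat_lit 0) (nat_lit 0),Row.mk (nat_lit 14616) (nat_lit 32912) (nat_lit 2244) (nat_lit 61710) (nat_lit 8386363) (nat_lit 0) (nat_lit 0),Row.mk (nat_lit 14784) (nat_lit 32912) (nat_lit 2803) (nat_lit 61710) (nat_lit 8385804) (nat_lit 0) (nat_lit 0),Row.mk (nat_lit 14952) (nat_lit 32912) (nat_lit 3501) (nat_lit 61710) (nat_lit 8385106) (nat_lit 0) (nat_lit 0),Row.mk (nat_lit 15120) (nat_lit 32912) (nat_lit 4373) (nat_lit 61710) (nat_lit 8384234) (nat_lit 0) (nat_lit 0),Row.mk (nat_lit 15288) (nat_lit 32912) (nat_lit 5462) (nat_lit 61710) (nat_lit 8383145) (nat_lit 0) (nat_lit 0),Row.mk (nat_lit 15456) (nat_lit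 32912) (nat_lit 6822) (nat_lit 61710) (nat_lit 8381785) (nat_lit 0) (nat_lit 0),Row.mk (nat_lit 15624) (nat_lit 32912) (nat_lit 8521) (nat_lit 61710) (nat_lit 8380086) (nat_lit 0) (nat_lit 0),Row.mk (nat_lit 15792) (nat_lit 60962) (nat_lit 10588) (nat_lit 61336) (nat_lit 54) (nat_lit 0) (nat_lit 0),Row.mk (nat_lit 15960) (nat_lit 60401) (nat_lit 13208) (nat_lit 60775) (nat_lit 84) (nat_lit 0) (nat_lit 0),Row.mk (nat_lit 16128) (nat_lit 59840) (nat_lit 16470) (nat_lit 60214) (nat_lit 131) (nat_lit 0) (nat_lit 0),Row.mk (nat_lit 16296) (nat_lit 59279) (nat_lit 20530) (nat_lit 59653) (nat_lit 205) (nat_lit 0) (nat_lit 0),Row.mk (nat_lit 16464) (nat_lit 58718) (nat_lit 25577) (nat_lit 59092) (nat_lit 321) (nat_lit 0) (nat_lit 0),Row.mk (nat_lit 16632) (nat_lit 58157) (nat_lit 31846) (nat_lit 58531) (nat_lit 500) (nat_lit 0) (nat_lit 0),Row.mk (nat_lit 16800) (nat_lit 57596) (nat_lit 39619) (nat_lit 57970) (nat_lit 781) (nat_lit 0) (nat_lit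 0),Row.mk (nat_lit 16968) (nat_lit 57035) (nat_lit 49240) (nat_lit 57409) (nat_lit 1219) (nat_lit 0) (nat_lit 0),Row.mk (nat_lit 17136) (nat_lit 56474) (nat_lit 61121) (nat_lit 56848) (nat_lit 1901) (nat_lit 0) (nat_lit 0),Row.mk (nat_lit 17304) (nat_lit 55913) (nat_lit 75747) (nat_lit 56287) (nat_lit 2966) (nat_lit 0) (nat_lit 0),Row.mk (nat_lit 17472) (nat_lit 55352) (nat_lit 93684) (nat_lit 55726) (nat_lit 4627) (nat_lit 0) (nat_lit 0),Row.mk (nat_lit 17640) (nat_lit 54791) (nat_lit 115570) (nat_lit 55165) (nat_lit 7219) (nat_lit 0) (nat_lit 0),Row.mk (nat_lit 17808) (nat_lit 54230) (nat_lit 142100) (nat_lit 54604) (nat_lit 11261) (nat_lit 0) (nat_lit 0),Row.mk (nat_lit 17976) (nat_lit 53669) (nat_lit 173978) (nat_lit 54043) (nat_lit 17566) (nat_lit 0) (nat_lit 0),Row.mk (nat_lit 18144) (nat_lit 53108) (nat_lit 211831) (nat_lit 53482) (nat_lit 27403) (nat_lit 0) (nat_lit 0),Row.mk (nat_lit 18312) (nat_lit 52547) (nat_lit 256051)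 (nat_lit 52921) (nat_lit 42747) (nat_lit 0) (nat_lit 0),Row.mk (nat_lit 18480) (nat_lit 51986) (nat_lit 306509) (nat_lit 52360) (nat_lit 66683) (nat_lit 0) (nat_lit 0),Row.mk (nat_lit 18648) (nat_lit 51425) (nat_lit 362086) (nat_lit 51799) (nat_lit 104022) (nat_lit 0) (nat_lit 0),Row.mk (nat_lit 18816) (nat_lit 50864) (nat_lit 419889) (nat_lit 51238) (nat_lit 162268) (nat_lit 0) (nat_lit 0),Row.mk (nat_lit 18984) (nat_lit 50303) (nat_lit 473972) (nat_lit 50677) (nat_lit 253129) (nat_lit 0) (nat_lit 0),Row.mk (nat_lit 19152) (nat_lit 49742) (nat_lit 513265) (nat_lit 50116) (nat_lit 394867) (nat_lit 0) (nat_lit 0),Row.mk (nat_lit 19320) (nat_lit 49181) (nat_lit 518265) (nat_lit 49555) (nat_lit 615970) (nat_lit 0) (nat_lit 0),Row.mk (nat_lit 19488) (nat_lit 48620) (nat_lit 455756) (nat_lit 48994) (nat_lit 960877) (nat_lit 0) (nat_lit 0),Row.mk (nat_lit 19656) (nat_lit 47872) (nat_lit 270429) (nat_lit 48433) (nat_lit 1498911) (nat_lit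 0) (nat_lit 0),Row.mk (nat_lit 19824) (nat_lit 47685) (nat_lit 2107101) (nat_lit 48246) (nat_lit 102763) (nat_lit 0) (nat_lit 0),Row.mk (nat_lit 19992) (nat_lit 46750) (nat_lit 2049560) (nat_lit 47498) (nat_lit 710507) (nat_lit 0) (nat_lit 0),Row.mk (nat_lit 20160) (nat_lit 45815) (nat_lit 1651718) (nat_lit 46563) (nat_lit 1795539) (nat_lit 0) (nat_lit 0),Row.mk (nat_lit 20328) (nat_lit 44693) (nat_lit 646322) (nat_lit 45628) (nat_lit 3659218) (nat_lit 0) (nat_lit 0),Row.mk (nat_lit 20496) (nat_lit 44506) (nat_lit 4254498) (nat_lit 45441) (nat_lit 1123018) (nat_lit 0) (nat_lit 0),Row.mk (nat_lit 20664) (nat_lit 43197) (nat_lit 2553699) (nat_lit 44319) (nat_lit 4162689) (nat_lit 0) (nat_lit 0),Row.mk (nat_lit 20832) (nat_lit 43010) (nat_lit 7495049) (nat_lit 44132) (nat_lit 893558) (nat_lit 0) (nat_lit 0),Row.mk (nat_lit 21000) (nat_lit 41327) (nat_lit 3983619) (nat_lit 42823) (nat_lit 6493549) (nat_lit 0) (nat_lit 0),Row.mk (nat_lit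 21168) (nat_lit 41140) (nat_lit 10352961) (nat_lit 42636) (nat_lit 2732769) (nat_lit 0) (nat_lit 0),Row.mk (nat_lit 21336) (nat_lit 38896) (nat_lit 2453430) (nat_lit 40953) (nat_lit 13890332) (nat_lit 0) (nat_lit 0),Row.mk (nat_lit 21504) (nat_lit 38709) (nat_lit 9780664) (nat_lit 40766) (nat_lit 10632301) (nat_lit 0) (nat_lit 0),Row.mk (nat_lit 21672) (nat_lit 38522) (nat_lit 18932203) (nat_lit 40579) (nat_lit 6563098) (nat_lit 0) (nat_lit 0),Row.mk (nat_lit 21840) (nat_lit 38335) (nat_lit 30362254) (nat_lit 40392) (nat_lit 1480762) (nat_lit 0) (nat_lit 0),Row.mk (nat_lit 22008) (nat_lit 31603) (nat_lit 6078706) (nat_lit 38148) (nat_lit 33692452) (nat_lit 0) (nat_lit 0),Row.mk (nat_lit 22176) (nat_lit 31416) (nat_lit 15980765) (nat_lit 37961) (nat_lit 33692452) (nat_lit 0) (nat_lit 0),Row.mk (nat_lit 22344) (nat_lit 31229) (nat_lit 28348198) (nat_lit 37774) (nat_lit 33692452) (nat_lit 0) (nat_lit 0),Row.mk (nat_lit 22512) (nat_lit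 31042) (nat_lit 43794824) (nat_lit 37587) (nat_lit 33692452) (nat_lit 0) (nat_lit 0),Row.mk (nat_lit 22680) (nat_lit 30855) (nat_lit 63087287) (nat_lit 37400) (nat_lit 33692452) (nat_lit 0) (nat_lit 0),Row.mk (nat_lit 22848) (nat_lit 30668) (nat_lit 87183107) (nat_lit 37213) (nat_lit 33692452) (nat_lit 0) (nat_lit 0),Row.mk (nat_lit 23016) (nat_lit 30481) (nat_lit 117278206) (nat_lit 37026) (nat_lit 33692452) (nat_lit 0) (nat_lit 0),Row.mk (nat_lit 23184) (nat_lit 30294) (nat_lit 154866258) (nat_lit 36839) (nat_lit 33692452) (nat_lit 0) (nat_lit 0),Row.mk (nat_lit 23352) (nat_lit 30107) (nat_lit 201812828) (nat_lit 36652) (nat_lit 33692452) (nat_lit 0) (nat_lit 0),Row.mk (nat_lit 23520) (nat_lit 29920) (nat_lit 260447962) (nat_lit 36465) (nat_lit 33692452) (nat_lit 0) (nat_lit 0),Row.mk (nat_lit 23688) (nat_lit 29733) (nat_lit 333681830) (nat_lit 36278) (nat_lit 33692452) (nat_lit 0) (nat_lit 0),Row.mk (nat_lit 23856) (nat_lit 29546)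 (nat_lit 425149164) (nat_lit 36091) (nat_lit 33692452) (nat_lit 0) (nat_lit 0),Row.mk (nat_lit 24024) (nat_lit 29359) (nat_lit 539389658) (nat_lit 35904) (nat_lit 33692452) (nat_lit 0) (nat_lit 0),Row.mk (nat_lit 24192) (nat_lit 29172) (nat_lit 682073279) (nat_lit 35717) (nat_lit 33692452) (nat_lit 0) (nat_lit 0),Row.mk (nat_lit 24360) (nat_lit 28985) (nat_lit 860281679) (nat_lit 35530) (nat_lit 33692452) (nat_lit 0) (nat_lit 0),Row.mk (nat_lit 24528) (nat_lit 28798) (nat_lit 1082859672) (nat_lit 35343) (nat_lit 33692452) (nat_lit 0) (nat_lit 0),Row.mk (nat_lit 24696) (nat_lit 28611) (nat_lit 1360854216) (nat_lit 35156) (nat_lit 33692452) (nat_lit 0) (nat_lit 0),Row.mk (nat_lit 24864) (nat_lit 28424) (nat_lit 1708062695) (nat_lit 34969) (nat_lit 33692452) (nat_lit 0) (nat_lit 0),Row.mk (nat_lit 25032) (nat_lit 28237) (nat_lit 2141717710) (nat_lit 34782) (nat_lit 33692452) (nat_lit 0) (nat_lit 0),Row.mk (nat_lit 25200) (nat_lit 28050)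 (nat_lit 2683342361) (nat_lit 34595) (nat_lit 33692452) (nat_lit 0) (nat_lit 0),Row.mk (nat_lit 25368) (nat_lit 27863) (nat_lit 3359818485) (nat_lit 34408) (nat_lit 33692452) (nat_lit 0) (nat_lit 0),Row.mk (nat_lit 25536) (nat_lit 27676) (nat_lit 4204720844) (nat_lit 34221) (nat_lit 33692452) (nat_lit 0) (nat_lit 0),Row.mk (nat_lit 25704) (nat_lit 27489) (nat_lit 5259983508) (nat_lit 34034) (nat_lit 33692452) (nat_lit 0) (nat_lit 0),Row.mk (nat_lit 25872) (nat_lit 27302) (nat_lit 6577981119) (nat_lit 33847) (nat_lit 33692452) (nat_lit 0) (nat_lit 0),Row.mk (nat_lit 26040) (nat_lit 32912) (nat_lit 8388608) (nat_lit 62084) (nat_lit 8249432185) (nat_lit 0) (nat_lit 0),Row.mk (nat_lit 26208) (nat_lit 32912) (nat_lit 8388608) (nat_lit 62084) (nat_lit 10305430352) (nat_lit 0) (nat_lit 0),Row.mk (nat_lit 26376) (nat_lit 32912) (nat_lit 8388608) (nat_lit 62084) (nat_lit 12873322465) (nat_lit 0) (nat_lit 0)],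
[Row.mk (nat_lit 6720) (nat_lit 61710) (nat_lit 8388607) (nat_lit 0) (nat_lit 0) (nat_lit 0) (nat_lit 0),Row.mk (nat_lit 6888) (nat_lit 61710) (nat_lit 8388607) (nat_lit 0) (nat_lit 0) (nat_lit 0) (nat_lit 0),Row.mk (nat_lit 7056) (nat_lit 61710) (nat_lit 8388607) (nat_lit 0) (nat_lit 0) (nat_lit 0) (nat_lit 0),Row.mk (nat_lit 7224) (nat_lit 61710) (nat_lit 8388607) (nat_lit 0) (nat_lit 0) (nat_lit 0) (nat_lit 0),Row.mk (nat_lit 7392) (nat_lit 61710) (nat_lit 8388607) (nat_lit 0) (nat_lit 0) (nat_lit 0) (nat_lit 0),Row.mk (nat_lit 7560) (nat_lit 61710) (nat_lit 8388607) (nat_lit 0) (nat_lit 0) (nat_lit 0) (nat_lit 0),Row.mk (nat_lit 7728) (nat_lit 61710) (nat_lit 8388607) (nat_lit 0) (nat_lit 0) (nat_lit 0) (nat_lit 0),Row.mk (nat_lit 7896) (nat_lit 61710) (nat_lit 8388607) (nat_lit 0) (nat_lit 0) (nat_lit 0) (nat_lit 0),Row.mk (nat_lit 8064) (nat_lit 61710) (nat_lit 8388607) (nat_lit 0) (nat_lit 0) (nat_lit 0) (nat_lit 0),Row.mk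 (nat_lit 8232) (nat_lit 61710) (nat_lit 8388607) (nat_lit 0) (nat_lit 0) (nat_lit 0) (nat_lit 0),Row.mk (nat_lit 8400) (nat_lit 61710) (nat_lit 8388607) (nat_lit 0) (nat_lit 0) (nat_lit 0) (nat_lit 0),Row.mk (nat_lit 8568) (nat_lit 61710) (nat_lit 8388607) (nat_lit 0) (nat_lit 0) (nat_lit 0) (nat_lit 0),Row.mk (nat_lit 8736) (nat_lit 61710) (nat_lit 8388607) (nat_lit 0) (nat_lit 0) (nat_lit 0) (nat_lit 0),Row.mk (nat_lit 8904) (nat_lit 32912) (nat_lit 1) (nat_lit 61710) (nat_lit 8388606) (nat_lit 0) (nat_lit 0),Row.mk (nat_lit 9072) (nat_lit 32912) (nat_lit 1) (nat_lit 61710) (nat_lit 8388606) (nat_lit 0) (nat_lit 0),Row.mk (nat_lit 9240) (nat_lit 32912) (nat_lit 1) (nat_lit 61710) (nat_lit 8388606) (nat_lit 0) (nat_lit 0),Row.mk (nat_lit 9408) (nat_lit 32912) (nat_lit 2) (nat_lit 61710) (nat_lit 8388605) (nat_lit 0) (nat_lit 0),Row.mk (nat_lit 9576) (nat_lit 32912) (nat_lit 2) (nat_lit 61710) (nat_lit 8388605) (nat_lit 0) (nat_lit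 0),Row.mk (nat_lit 9744) (nat_lit 32912) (nat_lit 3) (nat_lit 61710) (nat_lit 8388604) (nat_lit 0) (nat_lit 0),Row.mk (nat_lit 9912) (nat_lit 32912) (nat_lit 4) (nat_lit 61710) (nat_lit 8388603) (nat_lit 0) (nat_lit 0),Row.mk (nat_lit 10080) (nat_lit 32912) (nat_lit 5) (nat_lit 61710) (nat_lit 8388602) (nat_lit 0) (nat_lit 0),Row.mk (nat_lit 10248) (nat_lit 32912) (nat_lit 6) (nat_lit 61710) (nat_lit 8388601) (nat_lit 0) (nat_lit 0),Row.mk (nat_lit 10416) (nat_lit 32912) (nat_lit 8) (nat_lit 61710) (nat_lit 8388599) (nat_lit 0) (nat_lit 0),Row.mk (nat_lit 10584) (nat_lit 32912) (nat_lit 10) (nat_lit 61710) (nat_lit 8388597) (nat_lit 0) (nat_lit 0),Row.mk (nat_lit 10752) (nat_lit 32912) (nat_lit 13) (nat_lit 61710) (nat_lit 8388594) (nat_lit 0) (nat_lit 0),Row.mk (nat_lit 10920) (nat_lit 32912) (nat_lit 16) (nat_lit 61710) (nat_lit 8388591) (nat_lit 0) (nat_lit 0),Row.mk (nat_lit 11088) (nat_lit 32912) (nat_lit 21) (nat_lit 61710)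 (nat_lit 8388586) (nat_lit 0) (nat_lit 0),Row.mk (nat_lit 11256) (nat_lit 32912) (nat_lit 26) (nat_lit 61710) (nat_lit 8388581) (nat_lit 0) (nat_lit 0),Row.mk (nat_lit 11424) (nat_lit 32912) (nat_lit 32) (nat_lit 61710) (nat_lit 8388575) (nat_lit 0) (nat_lit 0),Row.mk (nat_lit 11592) (nat_lit 32912) (nat_lit 41) (nat_lit 61710) (nat_lit 8388566) (nat_lit 0) (nat_lit 0),Row.mk (nat_lit 11760) (nat_lit 32912) (nat_lit 51) (nat_lit 61710) (nat_lit 8388556) (nat_lit 0) (nat_lit 0),Row.mk (nat_lit 11928) (nat_lit 32912) (nat_lit 64) (nat_lit 61710) (nat_lit 8388543) (nat_lit 0) (nat_lit 0),Row.mk (nat_lit 12096) (nat_lit 32912) (nat_lit 79) (nat_lit 61710) (nat_lit 8388528) (nat_lit 0) (nat_lit 0),Row.mk (nat_lit 12264) (nat_lit 32912) (nat_lit 99) (nat_lit 61710) (nat_lit 8388508) (nat_lit 0) (nat_lit 0),Row.mk (nat_lit 12432) (nat_lit 32912) (nat_lit 124) (nat_lit 61710) (nat_lit 8388483) (nat_lit 0) (nat_lit 0),Row.mk (nat_lit 12600)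 (nat_lit 32912) (nat_lit 155) (nat_lit 61710) (nat_lit 8388452) (nat_lit 0) (nat_lit 0),Row.mk (nat_lit 12768) (nat_lit 32912) (nat_lit 194) (nat_lit 61710) (nat_lit 8388413) (nat_lit 0) (nat_lit 0),Row.mk (nat_lit 12936) (nat_lit 32912) (nat_lit 243) (nat_lit 61710) (nat_lit 8388364) (nat_lit 0) (nat_lit 0),Row.mk (nat_lit 13104) (nat_lit 32912) (nat_lit 303) (nat_lit 61710) (nat_lit 8388304) (nat_lit 0) (nat_lit 0),Row.mk (nat_lit 13272) (nat_lit 32912) (nat_lit 379) (nat_lit 61710) (nat_lit 8388228) (nat_lit 0) (nat_lit 0),Row.mk (nat_lit 13440) (nat_lit 32912) (nat_lit 473) (nat_lit 61710) (nat_lit 8388134) (nat_lit 0) (nat_lit 0),Row.mk (nat_lit 13608) (nat_lit 32912) (nat_lit 591) (nat_lit 61710) (nat_lit 8388016) (nat_lit 0) (nat_lit 0),Row.mk (nat_lit 13776) (nat_lit 32912) (nat_lit 738) (nat_lit 61710) (nat_lit 8387869) (nat_lit 0) (nat_lit 0),Row.mk (nat_lit 13944) (nat_lit 32912) (nat_lit 922) (nat_lit 61710) (nat_lit 8387685)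 (nat_lit 0) (nat_lit 0),Row.mk (nat_lit 14112) (nat_lit 32912) (nat_lit 1152) (nat_lit 61710) (nat_lit 8387455) (nat_lit 0) (nat_lit 0),Row.mk (nat_lit 14280) (nat_lit 32912) (nat_lit 1439) (nat_lit 61710) (nat_lit 8387168) (nat_lit 0) (nat_lit 0),Row.mk (nat_lit 14448) (nat_lit 32912) (nat_lit 1797) (nat_lit 61710) (nat_lit 8386810) (nat_lit 0) (nat_lit 0),Row.mk (nat_lit 14616) (nat_lit 32912) (nat_lit 2244) (nat_lit 61710) (nat_lit 8386363) (nat_lit 0) (nat_lit 0),Row.mk (nat_lit 14784) (nat_lit 32912) (nat_lit 2803) (nat_lit 61710) (nat_lit 8385804) (nat_lit 0) (nat_lit 0),Row.mk (nat_lit 14952) (nat_lit 32912) (nat_lit 3501) (nat_lit 61710) (nat_lit 8385106) (nat_lit 0) (nat_lit 0),Row.mk (nat_lit 15120) (nat_lit 32912) (nat_lit 4373) (nat_lit 61710) (nat_lit 8384234) (nat_lit 0) (nat_lit 0),Row.mk (nat_lit 15288) (nat_lit 32912) (nat_lit 5462) (nat_lit 61710) (nat_lit 8383145) (nat_lit 0) (nat_lit 0),Row.mk (nat_lit 15456) (nat_lit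 32912) (nat_lit 6822) (nat_lit 61710) (nat_lit 8381785) (nat_lit 0) (nat_lit 0),Row.mk (nat_lit 15624) (nat_lit 32912) (nat_lit 8521) (nat_lit 61710) (nat_lit 8380086) (nat_lit 0) (nat_lit 0),Row.mk (nat_lit 15792) (nat_lit 60962) (nat_lit 10588) (nat_lit 61336) (nat_lit 54) (nat_lit 0) (nat_lit 0),Row.mk (nat_lit 15960) (nat_lit 60401) (nat_lit 13208) (nat_lit 60775) (nat_lit 84) (nat_lit 0) (nat_lit 0),Row.mk (nat_lit 16128) (nat_lit 59840) (nat_lit 16470) (nat_lit 60214) (nat_lit 131) (nat_lit 0) (nat_lit 0),Row.mk (nat_lit 16296) (nat_lit 59279) (nat_lit 20530) (nat_lit 59653) (nat_lit 205) (nat_lit 0) (nat_lit 0),Row.mk (nat_lit 16464) (nat_lit 58718) (nat_lit 25577) (nat_lit 59092) (nat_lit 321) (nat_lit 0) (nat_lit 0),Row.mk (nat_lit 16632) (nat_lit 58157) (nat_lit 31846) (nat_lit 58531) (nat_lit 500) (nat_lit 0) (nat_lit 0),Row.mk (nat_lit 16800) (nat_lit 57596) (nat_lit 39619) (nat_lit 57970) (nat_lit 781) (nat_lit 0) (nat_lit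 0),Row.mk (nat_lit 16968) (nat_lit 57035) (nat_lit 49240) (nat_lit 57409) (nat_lit 1219) (nat_lit 0) (nat_lit 0),Row.mk (nat_lit 17136) (nat_lit 56474) (nat_lit 61121) (nat_lit 56848) (nat_lit 1901) (nat_lit 0) (nat_lit 0),Row.mk (nat_lit 17304) (nat_lit 55913) (nat_lit 75747) (nat_lit 56287) (nat_lit 2966) (nat_lit 0) (nat_lit 0),Row.mk (nat_lit 17472) (nat_lit 55352) (nat_lit 93684) (nat_lit 55726) (nat_lit 4627) (nat_lit 0) (nat_lit 0),Row.mk (nat_lit 17640) (nat_lit 54791) (nat_lit 115570) (nat_lit 55165) (nat_lit 7219) (nat_lit 0) (nat_lit 0),Row.mk (nat_lit 17808) (nat_lit 54230) (nat_lit 142100) (nat_lit 54604) (nat_lit 11261) (nat_lit 0) (nat_lit 0),Row.mk (nat_lit 17976) (nat_lit 53669) (nat_lit 173978) (nat_lit 54043) (nat_lit 17566) (nat_lit 0) (nat_lit 0),Row.mk (nat_lit 18144) (nat_lit 53108) (nat_lit 211831) (nat_lit 53482) (nat_lit 27403) (nat_lit 0) (nat_lit 0),Row.mk (nat_lit 18312) (nat_lit 52547) (nat_lit 256051)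 (nat_lit 52921) (nat_lit 42747) (nat_lit 0) (nat_lit 0),Row.mk (nat_lit 18480) (nat_lit 51986) (nat_lit 306509) (nat_lit 52360) (nat_lit 66683) (nat_lit 0) (nat_lit 0),Row.mk (nat_lit 18648) (nat_lit 51425) (nat_lit 362086) (nat_lit 51799) (nat_lit 104022) (nat_lit 0) (nat_lit 0),Row.mk (nat_lit 18816) (nat_lit 50864) (nat_lit 419889) (nat_lit 51238) (nat_lit 162268) (nat_lit 0) (nat_lit 0),Row.mk (nat_lit 18984) (nat_lit 50303) (nat_lit 473972) (nat_lit 50677) (nat_lit 253129) (nat_lit 0) (nat_lit 0),Row.mk (nat_lit 19152) (nat_lit 49742) (nat_lit 513265) (nat_lit 50116) (nat_lit 394867) (nat_lit 0) (nat_lit 0),Row.mk (nat_lit 19320) (nat_lit 49181) (nat_lit 518265) (nat_lit 49555) (nat_lit 615970) (nat_lit 0) (nat_lit 0),Row.mk (nat_lit 19488) (nat_lit 48620) (nat_lit 455756) (nat_lit 48994) (nat_lit 960877) (nat_lit 0) (nat_lit 0),Row.mk (nat_lit 19656) (nat_lit 47872) (nat_lit 270429) (nat_lit 48433) (nat_lit 1498911) (nat_lit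 0) (nat_lit 0),Row.mk (nat_lit 19824) (nat_lit 47685) (nat_lit 2107101) (nat_lit 48246) (nat_lit 102763) (nat_lit 0) (nat_lit 0),Row.mk (nat_lit 19992) (nat_lit 46750) (nat_lit 2049560) (nat_lit 47498) (nat_lit 710507) (nat_lit 0) (nat_lit 0),Row.mk (nat_lit 20160) (nat_lit 45815) (nat_lit 1651718) (nat_lit 46563) (nat_lit 1795539) (nat_lit 0) (nat_lit 0),Row.mk (nat_lit 20328) (nat_lit 44693) (nat_lit 646322) (nat_lit 45628) (nat_lit 3659218) (nat_lit 0) (nat_lit 0),Row.mk (nat_lit 20496) (nat_lit 44506) (nat_lit 4254498) (nat_lit 45441) (nat_lit 1123018) (nat_lit 0) (nat_lit 0),Row.mk (nat_lit 20664) (nat_lit 43197) (nat_lit 2553699) (nat_lit 44319) (nat_lit 4162689) (nat_lit 0) (nat_lit 0),Row.mk (nat_lit 20832) (nat_lit 43010) (nat_lit 7495049) (nat_lit 44132) (nat_lit 893558) (nat_lit 0) (nat_lit 0),Row.mk (nat_lit 21000) (nat_lit 41327) (nat_lit 3983619) (nat_lit 42823) (nat_lit 6493549) (nat_lit 0) (nat_lit 0),Row.mk (nat_lit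 21168) (nat_lit 41140) (nat_lit 10352961) (nat_lit 42636) (nat_lit 2732769) (nat_lit 0) (nat_lit 0),Row.mk (nat_lit 21336) (nat_lit 38896) (nat_lit 2453430) (nat_lit 40953) (nat_lit 13890332) (nat_lit 0) (nat_lit 0),Row.mk (nat_lit 21504) (nat_lit 38709) (nat_lit 9780664) (nat_lit 40766) (nat_lit 10632301) (nat_lit 0) (nat_lit 0),Row.mk (nat_lit 21672) (nat_lit 38522) (nat_lit 18932203) (nat_lit 40579) (nat_lit 6563098) (nat_lit 0) (nat_lit 0),Row.mk (nat_lit 21840) (nat_lit 38335) (nat_lit 30362254) (nat_lit 40392) (nat_lit 1480762) (nat_lit 0) (nat_lit 0),Row.mk (nat_lit 22008) (nat_lit 31603) (nat_lit 6078706) (nat_lit 38148) (nat_lit 33692452) (nat_lit 0) (nat_lit 0),Row.mk (nat_lit 22176) (nat_lit 31416) (nat_lit 15980765) (nat_lit 37961) (nat_lit 33692452) (nat_lit 0) (nat_lit 0),Row.mk (nat_lit 22344) (nat_lit 31229) (nat_lit 28348198) (nat_lit 37774) (nat_lit 33692452) (nat_lit 0) (nat_lit 0),Row.mk (nat_lit 22512) (nat_lit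 31042) (nat_lit 43794824) (nat_lit 37587) (nat_lit 33692452) (nat_lit 0) (nat_lit 0),Row.mk (nat_lit 22680) (nat_lit 30855) (nat_lit 63087287) (nat_lit 37400) (nat_lit 33692452) (nat_lit 0) (nat_lit 0),Row.mk (nat_lit 22848) (nat_lit 30668) (nat_lit 87183107) (nat_lit 37213) (nat_lit 33692452) (nat_lit 0) (nat_lit 0),Row.mk (nat_lit 23016) (nat_lit 30481) (nat_lit 117278206) (nat_lit 37026) (nat_lit 33692452) (nat_lit 0) (nat_lit 0),Row.mk (nat_lit 23184) (nat_lit 30294) (nat_lit 154866258) (nat_lit 36839) (nat_lit 33692452) (nat_lit 0) (nat_lit 0),Row.mk (nat_lit 23352) (nat_lit 30107) (nat_lit 201812828) (nat_lit 36652) (nat_lit 33692452) (nat_lit 0) (nat_lit 0),Row.mk (nat_lit 23520) (nat_lit 29920) (nat_lit 260447962) (nat_lit 36465) (nat_lit 33692452) (nat_lit 0) (nat_lit 0),Row.mk (nat_lit 23688) (nat_lit 29733) (nat_lit 333681830) (nat_lit 36278) (nat_lit 33692452) (nat_lit 0) (nat_lit 0),Row.mk (nat_lit 23856) (nat_lit 29546)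 (nat_lit 425149164) (nat_lit 36091) (nat_lit 33692452) (nat_lit 0) (nat_lit 0),Row.mk (nat_lit 24024) (nat_lit 29359) (nat_lit 539389658) (nat_lit 35904) (nat_lit 33692452) (nat_lit 0) (nat_lit 0),Row.mk (nat_lit 24192) (nat_lit 29172) (nat_lit 682073279) (nat_lit 35717) (nat_lit 33692452) (nat_lit 0) (nat_lit 0),Row.mk (nat_lit 24360) (nat_lit 28985) (nat_lit 860281679) (nat_lit 35530) (nat_lit 33692452) (nat_lit 0) (nat_lit 0),Row.mk (nat_lit 24528) (nat_lit 28798) (nat_lit 1082859672) (nat_lit 35343) (nat_lit 33692452) (nat_lit 0) (nat_lit 0),Row.mk (nat_lit 24696) (nat_lit 28611) (nat_lit 1360854216) (nat_lit 35156) (nat_lit 33692452) (nat_lit 0) (nat_lit 0),Row.mk (nat_lit 24864) (nat_lit 28424) (nat_lit 1708062695) (nat_lit 34969) (nat_lit 33692452) (nat_lit 0) (nat_lit 0),Row.mk (nat_lit 25032) (nat_lit 28237) (nat_lit 2141717710) (nat_lit 34782) (nat_lit 33692452) (nat_lit 0) (nat_lit 0),Row.mk (nat_lit 25200) (nat_lit 28050)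 (nat_lit 2683342361) (nat_lit 34595) (nat_lit 33692452) (nat_lit 0) (nat_lit 0),Row.mk (nat_lit 25368) (nat_lit 27863) (nat_lit 3359818485) (nat_lit 34408) (nat_lit 33692452) (nat_lit 0) (nat_lit 0),Row.mk (nat_lit 25536) (nat_lit 27676) (nat_lit 4204720844) (nat_lit 34221) (nat_lit 33692452) (nat_lit 0) (nat_lit 0),Row.mk (nat_lit 25704) (nat_lit 27489) (nat_lit 5259983508) (nat_lit 34034) (nat_lit 33692452) (nat_lit 0) (nat_lit 0),Row.mk (nat_lit 25872) (nat_lit 27302) (nat_lit 6577981119) (nat_lit 33847) (nat_lit 33692452) (nat_lit 0) (nat_lit 0),Row.mk (nat_lit 26040) (nat_lit 32912) (nat_lit 8388608) (nat_lit 62084) (nat_lit 8249432185) (nat_lit 0) (nat_lit 0),Row.mk (nat_lit 26208) (nat_lit 32912) (nat_lit 8388608) (nat_lit 62084) (nat_lit 10305430352) (nat_lit 0) (nat_lit 0),Row.mk (nat_lit 26376) (nat_lit 32912) (nat_lit 8388608) (nat_lit 62084) (nat_lit 12873322465) (nat_lit 0) (nat_lit 0)],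
[Row.mk (nat_lit 5880) (nat_lit 61710) (nat_lit 8388607) (nat_lit 0) (nat_lit 0) (nat_lit 0) (nat_lit 0),Row.mk (nat_lit 6048) (nat_lit 61710) (nat_lit 8388607) (nat_lit 0) (nat_lit 0) (nat_lit 0) (nat_lit 0),Row.mk (nat_lit 6216) (nat_lit 61710) (nat_lit 8388607) (nat_lit 0) (nat_lit 0) (nat_lit 0) (nat_lit 0),Row.mk (nat_lit 6384) (nat_lit 61710) (nat_lit 8388607) (nat_lit 0) (nat_lit 0) (nat_lit 0) (nat_lit 0),Row.mk (nat_lit 6552) (nat_lit 61710) (nat_lit 8388607) (nat_lit 0) (nat_lit 0) (nat_lit 0) (nat_lit 0),Row.mk (nat_lit 6720) (nat_lit 61710) (nat_lit 8388607) (nat_lit 0) (nat_lit 0) (nat_lit 0) (nat_lit 0),Row.mk (nat_lit 6888) (nat_lit 61710) (nat_lit 8388607) (nat_lit 0) (nat_lit 0) (nat_lit 0) (nat_lit 0),Row.mk (nat_lit 7056) (nat_lit 61710) (nat_lit 8388607) (nat_lit 0) (nat_lit 0) (nat_lit 0) (nat_lit 0),Row.mk (nat_lit 7224) (nat_lit 61710) (nat_lit 8388607) (nat_lit 0) (nat_lit 0) (nat_lit 0) (nat_lit 0),Row.mk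 (nat_lit 7392) (nat_lit 61710) (nat_lit 8388607) (nat_lit 0) (nat_lit 0) (nat_lit 0) (nat_lit 0),Row.mk (nat_lit 7560) (nat_lit 61710) (nat_lit 8388607) (nat_lit 0) (nat_lit 0) (nat_lit 0) (nat_lit 0),Row.mk (nat_lit 7728) (nat_lit 61710) (nat_lit 8388607) (nat_lit 0) (nat_lit 0) (nat_lit 0) (nat_lit 0),Row.mk (nat_lit 7896) (nat_lit 61710) (nat_lit 8388607) (nat_lit 0) (nat_lit 0) (nat_lit 0) (nat_lit 0),Row.mk (nat_lit 8064) (nat_lit 61710) (nat_lit 8388607) (nat_lit 0) (nat_lit 0) (nat_lit 0) (nat_lit 0),Row.mk (nat_lit 8232) (nat_lit 61710) (nat_lit 8388607) (nat_lit 0) (nat_lit 0) (nat_lit 0) (nat_lit 0),Row.mk (nat_lit 8400) (nat_lit 61710) (nat_lit 8388607) (nat_lit 0) (nat_lit 0) (nat_lit 0) (nat_lit 0),Row.mk (nat_lit 8568) (nat_lit 61710) (nat_lit 8388607) (nat_lit 0) (nat_lit 0) (nat_lit 0) (nat_lit 0),Row.mk (nat_lit 8736) (nat_lit 61710) (nat_lit 8388607) (nat_lit 0) (nat_lit 0) (nat_lit 0) (nat_lit 0),Row.mk (nat_lit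 8904) (nat_lit 32912) (nat_lit 1) (nat_lit 61710) (nat_lit 8388606) (nat_lit 0) (nat_lit 0),Row.mk (nat_lit 9072) (nat_lit 32912) (nat_lit 1) (nat_lit 61710) (nat_lit 8388606) (nat_lit 0) (nat_lit 0),Row.mk (nat_lit 9240) (nat_lit 32912) (nat_lit 1) (nat_lit 61710) (nat_lit 8388606) (nat_lit 0) (nat_lit 0),Row.mk (nat_lit 9408) (nat_lit 32912) (nat_lit 2) (nat_lit 61710) (nat_lit 8388605) (nat_lit 0) (nat_lit 0),Row.mk (nat_lit 9576) (nat_lit 32912) (nat_lit 2) (nat_lit 61710) (nat_lit 8388605) (nat_lit 0) (nat_lit 0),Row.mk (nat_lit 9744) (nat_lit 32912) (nat_lit 3) (nat_lit 61710) (nat_lit 8388604) (nat_lit 0) (nat_lit 0),Row.mk (nat_lit 9912) (nat_lit 32912) (nat_lit 4) (nat_lit 61710) (nat_lit 8388603) (nat_lit 0) (nat_lit 0),Row.mk (nat_lit 10080) (nat_lit 32912) (nat_lit 5) (nat_lit 61710) (nat_lit 8388602) (nat_lit 0) (nat_lit 0),Row.mk (nat_lit 10248) (nat_lit 32912) (nat_lit 6) (nat_lit 61710) (nat_lit 8388601) (nat_lit 0)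 (nat_lit 0),Row.mk (nat_lit 10416) (nat_lit 32912) (nat_lit 8) (nat_lit 61710) (nat_lit 8388599) (nat_lit 0) (nat_lit 0),Row.mk (nat_lit 10584) (nat_lit 32912) (nat_lit 10) (nat_lit 61710) (nat_lit 8388597) (nat_lit 0) (nat_lit 0),Row.mk (nat_lit 10752) (nat_lit 32912) (nat_lit 13) (nat_lit 61710) (nat_lit 8388594) (nat_lit 0) (nat_lit 0),Row.mk (nat_lit 10920) (nat_lit 32912) (nat_lit 16) (nat_lit 61710) (nat_lit 8388591) (nat_lit 0) (nat_lit 0),Row.mk (nat_lit 11088) (nat_lit 32912) (nat_lit 21) (nat_lit 61710) (nat_lit 8388586) (nat_lit 0) (nat_lit 0),Row.mk (nat_lit 11256) (nat_lit 32912) (nat_lit 26) (nat_lit 61710) (nat_lit 8388581) (nat_lit 0) (nat_lit 0),Row.mk (nat_lit 11424) (nat_lit 32912) (nat_lit 32) (nat_lit 61710) (nat_lit 8388575) (nat_lit 0) (nat_lit 0),Row.mk (nat_lit 11592) (nat_lit 32912) (nat_lit 41) (nat_lit 61710) (nat_lit 8388566) (nat_lit 0) (nat_lit 0),Row.mk (nat_lit 11760) (nat_lit 32912) (nat_lit 51) (nat_lit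 61710) (nat_lit 8388556) (nat_lit 0) (nat_lit 0),Row.mk (nat_lit 11928) (nat_lit 32912) (nat_lit 64) (nat_lit 61710) (nat_lit 8388543) (nat_lit 0) (nat_lit 0),Row.mk (nat_lit 12096) (nat_lit 32912) (nat_lit 79) (nat_lit 61710) (nat_lit 8388528) (nat_lit 0) (nat_lit 0),Row.mk (nat_lit 12264) (nat_lit 32912) (nat_lit 99) (nat_lit 61710) (nat_lit 8388508) (nat_lit 0) (nat_lit 0),Row.mk (nat_lit 12432) (nat_lit 32912) (nat_lit 124) (nat_lit 61710) (nat_lit 8388483) (nat_lit 0) (nat_lit 0),Row.mk (nat_lit 12600) (nat_lit 32912) (nat_lit 155) (nat_lit 61710) (nat_lit 8388452) (nat_lit 0) (nat_lit 0),Row.mk (nat_lit 12768) (nat_lit 32912) (nat_lit 194) (nat_lit 61710) (nat_lit 8388413) (nat_lit 0) (nat_lit 0),Row.mk (nat_lit 12936) (nat_lit 32912) (nat_lit 243) (nat_lit 61710) (nat_lit 8388364) (nat_lit 0) (nat_lit 0),Row.mk (nat_lit 13104) (nat_lit 32912) (nat_lit 303) (nat_lit 61710) (nat_lit 8388304) (nat_lit 0) (nat_lit 0),Row.mk (nat_lit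 13272) (nat_lit 32912) (nat_lit 379) (nat_lit 61710) (nat_lit 8388228) (nat_lit 0) (nat_lit 0),Row.mk (nat_lit 13440) (nat_lit 32912) (nat_lit 473) (nat_lit 61710) (nat_lit 8388134) (nat_lit 0) (nat_lit 0),Row.mk (nat_lit 13608) (nat_lit 32912) (nat_lit 591) (nat_lit 61710) (nat_lit 8388016) (nat_lit 0) (nat_lit 0),Row.mk (nat_lit 13776) (nat_lit 32912) (nat_lit 738) (nat_lit 61710) (nat_lit 8387869) (nat_lit 0) (nat_lit 0),Row.mk (nat_lit 13944) (nat_lit 32912) (nat_lit 922) (nat_lit 61710) (nat_lit 8387685) (nat_lit 0) (nat_lit 0),Row.mk (nat_lit 14112) (nat_lit 32912) (nat_lit 1152) (nat_lit 61710) (nat_lit 8387455) (nat_lit 0) (nat_lit 0),Row.mk (nat_lit 14280) (nat_lit 32912) (nat_lit 1439) (nat_lit 61710) (nat_lit 8387168) (nat_lit 0) (nat_lit 0),Row.mk (nat_lit 14448) (nat_lit 32912) (nat_lit 1797) (nat_lit 61710) (nat_lit 8386810) (nat_lit 0) (nat_lit 0),Row.mk (nat_lit 14616) (nat_lit 32912) (nat_lit 2244) (nat_lit 61710)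 (nat_lit 8386363) (nat_lit 0) (nat_lit 0),Row.mk (nat_lit 14784) (nat_lit 32912) (nat_lit 2803) (nat_lit 61710) (nat_lit 8385804) (nat_lit 0) (nat_lit 0),Row.mk (nat_lit 14952) (nat_lit 32912) (nat_lit 3501) (nat_lit 61710) (nat_lit 8385106) (nat_lit 0) (nat_lit 0),Row.mk (nat_lit 15120) (nat_lit 32912) (nat_lit 4373) (nat_lit 61710) (nat_lit 8384234) (nat_lit 0) (nat_lit 0),Row.mk (nat_lit 15288) (nat_lit 32912) (nat_lit 5462) (nat_lit 61710) (nat_lit 8383145) (nat_lit 0) (nat_lit 0),Row.mk (nat_lit 15456) (nat_lit 32912) (nat_lit 6822) (nat_lit 61710) (nat_lit 8381785) (nat_lit 0) (nat_lit 0),Row.mk (nat_lit 15624) (nat_lit 32912) (nat_lit 8521) (nat_lit 61710) (nat_lit 8380086) (nat_lit 0) (nat_lit 0),Row.mk (nat_lit 15792) (nat_lit 60962) (nat_lit 10588) (nat_lit 61336) (nat_lit 54) (nat_lit 0) (nat_lit 0),Row.mk (nat_lit 15960) (nat_lit 60401) (nat_lit 13208) (nat_lit 60775) (nat_lit 84) (nat_lit 0) (nat_lit 0),Row.mk (nat_lit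 16128) (nat_lit 59840) (nat_lit 16470) (nat_lit 60214) (nat_lit 131) (nat_lit 0) (nat_lit 0),Row.mk (nat_lit 16296) (nat_lit 59279) (nat_lit 20530) (nat_lit 59653) (nat_lit 205) (nat_lit 0) (nat_lit 0),Row.mk (nat_lit 16464) (nat_lit 58718) (nat_lit 25577) (nat_lit 59092) (nat_lit 321) (nat_lit 0) (nat_lit 0),Row.mk (nat_lit 16632) (nat_lit 58157) (nat_lit 31846) (nat_lit 58531) (nat_lit 500) (nat_lit 0) (nat_lit 0),Row.mk (nat_lit 16800) (nat_lit 57596) (nat_lit 39619) (nat_lit 57970) (nat_lit 781) (nat_lit 0) (nat_lit 0),Row.mk (nat_lit 16968) (nat_lit 57035) (nat_lit 49240) (nat_lit 57409) (nat_lit 1219) (nat_lit 0) (nat_lit 0),Row.mk (nat_lit 17136) (nat_lit 56474) (nat_lit 61121) (nat_lit 56848) (nat_lit 1901) (nat_lit 0) (nat_lit 0),Row.mk (nat_lit 17304) (nat_lit 55913) (nat_lit 75747) (nat_lit 56287) (nat_lit 2966) (nat_lit 0) (nat_lit 0),Row.mk (nat_lit 17472) (nat_lit 55352) (nat_lit 93684) (nat_lit 55726) (nat_lit 4627)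 (nat_lit 0) (nat_lit 0),Row.mk (nat_lit 17640) (nat_lit 54791) (nat_lit 115570) (nat_lit 55165) (nat_lit 7219) (nat_lit 0) (nat_lit 0),Row.mk (nat_lit 17808) (nat_lit 54230) (nat_lit 142100) (nat_lit 54604) (nat_lit 11261) (nat_lit 0) (nat_lit 0),Row.mk (nat_lit 17976) (nat_lit 53669) (nat_lit 173978) (nat_lit 54043) (nat_lit 17566) (nat_lit 0) (nat_lit 0),Row.mk (nat_lit 18144) (nat_lit 53108) (nat_lit 211831) (nat_lit 53482) (nat_lit 27403) (nat_lit 0) (nat_lit 0),Row.mk (nat_lit 18312) (nat_lit 52547) (nat_lit 256051) (nat_lit 52921) (nat_lit 42747) (nat_lit 0) (nat_lit 0),Row.mk (nat_lit 18480) (nat_lit 51986) (nat_lit 306509) (nat_lit 52360) (nat_lit 66683) (nat_lit 0) (nat_lit 0),Row.mk (nat_lit 18648) (nat_lit 51425) (nat_lit 362086) (nat_lit 51799) (nat_lit 104022) (nat_lit 0) (nat_lit 0),Row.mk (nat_lit 18816) (nat_lit 50864) (nat_lit 419889) (nat_lit 51238) (nat_lit 162268) (nat_lit 0) (nat_lit 0),Row.mk (nat_lit 18984)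 (nat_lit 50303) (nat_lit 473972) (nat_lit 50677) (nat_lit 253129) (nat_lit 0) (nat_lit 0),Row.mk (nat_lit 19152) (nat_lit 49742) (nat_lit 513265) (nat_lit 50116) (nat_lit 394867) (nat_lit 0) (nat_lit 0),Row.mk (nat_lit 19320) (nat_lit 49181) (nat_lit 518265) (nat_lit 49555) (nat_lit 615970) (nat_lit 0) (nat_lit 0),Row.mk (nat_lit 19488) (nat_lit 48620) (nat_lit 455756) (nat_lit 48994) (nat_lit 960877) (nat_lit 0) (nat_lit 0),Row.mk (nat_lit 19656) (nat_lit 47872) (nat_lit 270429) (nat_lit 48433) (nat_lit 1498911) (nat_lit 0) (nat_lit 0),Row.mk (nat_lit 19824) (nat_lit 47685) (nat_lit 2107101) (nat_lit 48246) (nat_lit 102763) (nat_lit 0) (nat_lit 0),Row.mk (nat_lit 19992) (nat_lit 46750) (nat_lit 2049560) (nat_lit 47498) (nat_lit 710507) (nat_lit 0) (nat_lit 0),Row.mk (nat_lit 20160) (nat_lit 45815) (nat_lit 1651718) (nat_lit 46563) (nat_lit 1795539) (nat_lit 0) (nat_lit 0),Row.mk (nat_lit 20328) (nat_lit 44693) (nat_lit 646322) (nat_lit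 45628) (nat_lit 3659218) (nat_lit 0) (nat_lit 0),Row.mk (nat_lit 20496) (nat_lit 44506) (nat_lit 4254498) (nat_lit 45441) (nat_lit 1123018) (nat_lit 0) (nat_lit 0),Row.mk (nat_lit 20664) (nat_lit 43197) (nat_lit 2553699) (nat_lit 44319) (nat_lit 4162689) (nat_lit 0) (nat_lit 0),Row.mk (nat_lit 20832) (nat_lit 43010) (nat_lit 7495049) (nat_lit 44132) (nat_lit 893558) (nat_lit 0) (nat_lit 0),Row.mk (nat_lit 21000) (nat_lit 41327) (nat_lit 3983619) (nat_lit 42823) (nat_lit 6493549) (nat_lit 0) (nat_lit 0),Row.mk (nat_lit 21168) (nat_lit 41140) (nat_lit 10352961) (nat_lit 42636) (nat_lit 2732769) (nat_lit 0) (nat_lit 0),Row.mk (nat_lit 21336) (nat_lit 38896) (nat_lit 2453430) (nat_lit 40953) (nat_lit 13890332) (nat_lit 0) (nat_lit 0),Row.mk (nat_lit 21504) (nat_lit 38709) (nat_lit 9780664) (nat_lit 40766) (nat_lit 10632301) (nat_lit 0) (nat_lit 0),Row.mk (nat_lit 21672) (nat_lit 38522) (nat_lit 18932203) (nat_lit 40579) (nat_lit 6563098)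 (nat_lit 0) (nat_lit 0),Row.mk (nat_lit 21840) (nat_lit 38335) (nat_lit 30362254) (nat_lit 40392) (nat_lit 1480762) (nat_lit 0) (nat_lit 0),Row.mk (nat_lit 22008) (nat_lit 31603) (nat_lit 6078706) (nat_lit 38148) (nat_lit 33692452) (nat_lit 0) (nat_lit 0),Row.mk (nat_lit 22176) (nat_lit 31416) (nat_lit 15980765) (nat_lit 37961) (nat_lit 33692452) (nat_lit 0) (nat_lit 0),Row.mk (nat_lit 22344) (nat_lit 31229) (nat_lit 28348198) (nat_lit 37774) (nat_lit 33692452) (nat_lit 0) (nat_lit 0),Row.mk (nat_lit 22512) (nat_lit 31042) (nat_lit 43794824) (nat_lit 37587) (nat_lit 33692452) (nat_lit 0) (nat_lit 0),Row.mk (nat_lit 22680) (nat_lit 30855) (nat_lit 63087287) (nat_lit 37400) (nat_lit 33692452) (nat_lit 0) (nat_lit 0),Row.mk (nat_lit 22848) (nat_lit 30668) (nat_lit 87183107) (nat_lit 37213) (nat_lit 33692452) (nat_lit 0) (nat_lit 0),Row.mk (nat_lit 23016) (nat_lit 30481) (nat_lit 117278206) (nat_lit 37026) (nat_lit 33692452) (nat_lit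 0) (nat_lit 0),Row.mk (nat_lit 23184) (nat_lit 30294) (nat_lit 154866258) (nat_lit 36839) (nat_lit 33692452) (nat_lit 0) (nat_lit 0),Row.mk (nat_lit 23352) (nat_lit 30107) (nat_lit 201812828) (nat_lit 36652) (nat_lit 33692452) (nat_lit 0) (nat_lit 0),Row.mk (nat_lit 23520) (nat_lit 29920) (nat_lit 260447962) (nat_lit 36465) (nat_lit 33692452) (nat_lit 0) (nat_lit 0),Row.mk (nat_lit 23688) (nat_lit 29733) (nat_lit 333681830) (nat_lit 36278) (nat_lit 33692452) (nat_lit 0) (nat_lit 0),Row.mk (nat_lit 23856) (nat_lit 29546) (nat_lit 425149164) (nat_lit 36091) (nat_lit 33692452) (nat_lit 0) (nat_lit 0),Row.mk (nat_lit 24024) (nat_lit 29359) (nat_lit 539389658) (nat_lit 35904) (nat_lit 33692452) (nat_lit 0) (nat_lit 0),Row.mk (nat_lit 24192) (nat_lit 29172) (nat_lit 682073279) (nat_lit 35717) (nat_lit 33692452) (nat_lit 0) (nat_lit 0),Row.mk (nat_lit 24360) (nat_lit 28985) (nat_lit 860281679) (nat_lit 35530) (nat_lit 33692452) (nat_lit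 0) (nat_lit 0),Row.mk (nat_lit 24528) (nat_lit 28798) (nat_lit 1082859672) (nat_lit 35343) (nat_lit 33692452) (nat_lit 0) (nat_lit 0),Row.mk (nat_lit 24696) (nat_lit 28611) (nat_lit 1360854216) (nat_lit 35156) (nat_lit 33692452) (nat_lit 0) (nat_lit 0),Row.mk (nat_lit 24864) (nat_lit 28424) (nat_lit 1708062695) (nat_lit 34969) (nat_lit 33692452) (nat_lit 0) (nat_lit 0),Row.mk (nat_lit 25032) (nat_lit 28237) (nat_lit 2141717710) (nat_lit 34782) (nat_lit 33692452) (nat_lit 0) (nat_lit 0),Row.mk (nat_lit 25200) (nat_lit 28050) (nat_lit 2683342361) (nat_lit 34595) (nat_lit 33692452) (nat_lit 0) (nat_lit 0),Row.mk (nat_lit 25368) (nat_lit 27863) (nat_lit 3359818485) (nat_lit 34408) (nat_lit 33692452) (nat_lit 0) (nat_lit 0),Row.mk (nat_lit 25536) (nat_lit 27676) (nat_lit 4204720844) (nat_lit 34221) (nat_lit 33692452) (nat_lit 0) (nat_lit 0),Row.mk (nat_lit 25704) (nat_lit 27489) (nat_lit 5259983508) (nat_lit 34034) (nat_lit 33692452) (nat_lit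 0) (nat_lit 0),Row.mk (nat_lit 25872) (nat_lit 27302) (nat_lit 6577981119) (nat_lit 33847) (nat_lit 33692452) (nat_lit 0) (nat_lit 0),Row.mk (nat_lit 26040) (nat_lit 32912) (nat_lit 8388608) (nat_lit 62084) (nat_lit 8249432185) (nat_lit 0) (nat_lit 0),Row.mk (nat_lit 26208) (nat_lit 32912) (nat_lit 8388608) (nat_lit 62084) (nat_lit 10305430352) (nat_lit 0) (nat_lit 0),Row.mk (nat_lit 26376) (nat_lit 32912) (nat_lit 8388608) (nat_lit 62084) (nat_lit 12873322465) (nat_lit 0) (nat_lit 0),Row.mk (nat_lit 26544) (nat_lit 32912) (nat_lit 8388608) (nat_lit 62084) (nat_lit 16080557766) (nat_lit 0) (nat_lit 0)],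
[Row.mk (nat_lit 6888) (nat_lit 61710) (nat_lit 8388607) (nat_lit 0) (nat_lit 0) (nat_lit 0) (nat_lit 0),Row.mk (nat_lit 7056) (nat_lit 61710) (nat_lit 8388607) (nat_lit 0) (nat_lit 0) (nat_lit 0) (nat_lit 0),Row.mk (nat_lit 7224) (nat_lit 61710) (nat_lit 8388607) (nat_lit 0) (nat_lit 0) (nat_lit 0) (nat_lit 0),Row.mk (nat_lit 7392) (nat_lit 61710) (nat_lit 8388607) (nat_lit 0) (nat_lit 0) (nat_lit 0) (nat_lit 0),Row.mk (nat_lit 7560) (nat_lit 61710) (nat_lit 8388607) (nat_lit 0) (nat_lit 0) (nat_lit 0) (nat_lit 0),Row.mk (nat_lit 7728) (nat_lit 61710) (nat_lit 8388607) (nat_lit 0) (nat_lit 0) (nat_lit 0) (nat_lit 0),Row.mk (nat_lit 7896) (nat_lit 61710) (nat_lit 8388607) (nat_lit 0) (nat_lit 0) (nat_lit 0) (nat_lit 0),Row.mk (nat_lit 8064) (nat_lit 61710) (nat_lit 8388607) (nat_lit 0) (nat_lit 0) (nat_lit 0) (nat_lit 0),Row.mk (nat_lit 8232) (nat_lit 61710) (nat_lit 8388607) (nat_lit 0) (nat_lit 0) (nat_lit 0) (nat_lit 0),Row.mk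 (nat_lit 8400) (nat_lit 61710) (nat_lit 8388607) (nat_lit 0) (nat_lit 0) (nat_lit 0) (nat_lit 0),Row.mk (nat_lit 8568) (nat_lit 61710) (nat_lit 8388607) (nat_lit 0) (nat_lit 0) (nat_lit 0) (nat_lit 0),Row.mk (nat_lit 8736) (nat_lit 61710) (nat_lit 8388607) (nat_lit 0) (nat_lit 0) (nat_lit 0) (nat_lit 0),Row.mk (nat_lit 8904) (nat_lit 32912) (nat_lit 1) (nat_lit 61710) (nat_lit 8388606) (nat_lit 0) (nat_lit 0),Row.mk (nat_lit 9072) (nat_lit 32912) (nat_lit 1) (nat_lit 61710) (nat_lit 8388606) (nat_lit 0) (nat_lit 0),Row.mk (nat_lit 9240) (nat_lit 32912) (nat_lit 1) (nat_lit 61710) (nat_lit 8388606) (nat_lit 0) (nat_lit 0),Row.mk (nat_lit 9408) (nat_lit 32912) (nat_lit 2) (nat_lit 61710) (nat_lit 8388605) (nat_lit 0) (nat_lit 0),Row.mk (nat_lit 9576) (nat_lit 32912) (nat_lit 2) (nat_lit 61710) (nat_lit 8388605) (nat_lit 0) (nat_lit 0),Row.mk (nat_lit 9744) (nat_lit 32912) (nat_lit 3) (nat_lit 61710) (nat_lit 8388604) (nat_lit 0) (nat_lit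 0),Row.mk (nat_lit 9912) (nat_lit 32912) (nat_lit 4) (nat_lit 61710) (nat_lit 8388603) (nat_lit 0) (nat_lit 0),Row.mk (nat_lit 10080) (nat_lit 32912) (nat_lit 5) (nat_lit 61710) (nat_lit 8388602) (nat_lit 0) (nat_lit 0),Row.mk (nat_lit 10248) (nat_lit 32912) (nat_lit 6) (nat_lit 61710) (nat_lit 8388601) (nat_lit 0) (nat_lit 0),Row.mk (nat_lit 10416) (nat_lit 32912) (nat_lit 8) (nat_lit 61710) (nat_lit 8388599) (nat_lit 0) (nat_lit 0),Row.mk (nat_lit 10584) (nat_lit 32912) (nat_lit 10) (nat_lit 61710) (nat_lit 8388597) (nat_lit 0) (nat_lit 0),Row.mk (nat_lit 10752) (nat_lit 32912) (nat_lit 13) (nat_lit 61710) (nat_lit 8388594) (nat_lit 0) (nat_lit 0),Row.mk (nat_lit 10920) (nat_lit 32912) (nat_lit 16) (nat_lit 61710) (nat_lit 8388591) (nat_lit 0) (nat_lit 0),Row.mk (nat_lit 11088) (nat_lit 32912) (nat_lit 21) (nat_lit 61710) (nat_lit 8388586) (nat_lit 0) (nat_lit 0),Row.mk (nat_lit 11256) (nat_lit 32912) (nat_lit 26) (nat_lit 61710)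 (nat_lit 8388581) (nat_lit 0) (nat_lit 0),Row.mk (nat_lit 11424) (nat_lit 32912) (nat_lit 32) (nat_lit 61710) (nat_lit 8388575) (nat_lit 0) (nat_lit 0),Row.mk (nat_lit 11592) (nat_lit 32912) (nat_lit 41) (nat_lit 61710) (nat_lit 8388566) (nat_lit 0) (nat_lit 0),Row.mk (nat_lit 11760) (nat_lit 32912) (nat_lit 51) (nat_lit 61710) (nat_lit 8388556) (nat_lit 0) (nat_lit 0),Row.mk (nat_lit 11928) (nat_lit 32912) (nat_lit 64) (nat_lit 61710) (nat_lit 8388543) (nat_lit 0) (nat_lit 0),Row.mk (nat_lit 12096) (nat_lit 32912) (nat_lit 79) (nat_lit 61710) (nat_lit 8388528) (nat_lit 0) (nat_lit 0),Row.mk (nat_lit 12264) (nat_lit 32912) (nat_lit 99) (nat_lit 61710) (nat_lit 8388508) (nat_lit 0) (nat_lit 0),Row.mk (nat_lit 12432) (nat_lit 32912) (nat_lit 124) (nat_lit 61710) (nat_lit 8388483) (nat_lit 0) (nat_lit 0),Row.mk (nat_lit 12600) (nat_lit 32912) (nat_lit 155) (nat_lit 61710) (nat_lit 8388452) (nat_lit 0) (nat_lit 0),Row.mk (nat_lit 12768)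 (nat_lit 32912) (nat_lit 194) (nat_lit 61710) (nat_lit 8388413) (nat_lit 0) (nat_lit 0),Row.mk (nat_lit 12936) (nat_lit 32912) (nat_lit 243) (nat_lit 61710) (nat_lit 8388364) (nat_lit 0) (nat_lit 0),Row.mk (nat_lit 13104) (nat_lit 32912) (nat_lit 303) (nat_lit 61710) (nat_lit 8388304) (nat_lit 0) (nat_lit 0),Row.mk (nat_lit 13272) (nat_lit 32912) (nat_lit 379) (nat_lit 61710) (nat_lit 8388228) (nat_lit 0) (nat_lit 0),Row.mk (nat_lit 13440) (nat_lit 32912) (nat_lit 473) (nat_lit 61710) (nat_lit 8388134) (nat_lit 0) (nat_lit 0),Row.mk (nat_lit 13608) (nat_lit 32912) (nat_lit 591) (nat_lit 61710) (nat_lit 8388016) (nat_lit 0) (nat_lit 0),Row.mk (nat_lit 13776) (nat_lit 32912) (nat_lit 738) (nat_lit 61710) (nat_lit 8387869) (nat_lit 0) (nat_lit 0),Row.mk (nat_lit 13944) (nat_lit 32912) (nat_lit 922) (nat_lit 61710) (nat_lit 8387685) (nat_lit 0) (nat_lit 0),Row.mk (nat_lit 14112) (nat_lit 32912) (nat_lit 1152) (nat_lit 61710) (nat_lit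 8387455) (nat_lit 0) (nat_lit 0),Row.mk (nat_lit 14280) (nat_lit 32912) (nat_lit 1439) (nat_lit 61710) (nat_lit 8387168) (nat_lit 0) (nat_lit 0),Row.mk (nat_lit 14448) (nat_lit 32912) (nat_lit 1797) (nat_lit 61710) (nat_lit 8386810) (nat_lit 0) (nat_lit 0),Row.mk (nat_lit 14616) (nat_lit 32912) (nat_lit 2244) (nat_lit 61710) (nat_lit 8386363) (nat_lit 0) (nat_lit 0),Row.mk (nat_lit 14784) (nat_lit 32912) (nat_lit 2803) (nat_lit 61710) (nat_lit 8385804) (nat_lit 0) (nat_lit 0),Row.mk (nat_lit 14952) (nat_lit 32912) (nat_lit 3501) (nat_lit 61710) (nat_lit 8385106) (nat_lit 0) (nat_lit 0),Row.mk (nat_lit 15120) (nat_lit 32912) (nat_lit 4373) (nat_lit 61710) (nat_lit 8384234) (nat_lit 0) (nat_lit 0),Row.mk (nat_lit 15288) (nat_lit 32912) (nat_lit 5462) (nat_lit 61710) (nat_lit 8383145) (nat_lit 0) (nat_lit 0),Row.mk (nat_lit 15456) (nat_lit 32912) (nat_lit 6822) (nat_lit 61710) (nat_lit 8381785) (nat_lit 0) (nat_lit 0),Row.mk (nat_lit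 15624) (nat_lit 32912) (nat_lit 8521) (nat_lit 61710) (nat_lit 8380086) (nat_lit 0) (nat_lit 0),Row.mk (nat_lit 15792) (nat_lit 60962) (nat_lit 10588) (nat_lit 61336) (nat_lit 54) (nat_lit 0) (nat_lit 0),Row.mk (nat_lit 15960) (nat_lit 60401) (nat_lit 13208) (nat_lit 60775) (nat_lit 84) (nat_lit 0) (nat_lit 0),Row.mk (nat_lit 16128) (nat_lit 59840) (nat_lit 16470) (nat_lit 60214) (nat_lit 131) (nat_lit 0) (nat_lit 0),Row.mk (nat_lit 16296) (nat_lit 59279) (nat_lit 20530) (nat_lit 59653) (nat_lit 205) (nat_lit 0) (nat_lit 0),Row.mk (nat_lit 16464) (nat_lit 58718) (nat_lit 25577) (nat_lit 59092) (nat_lit 321) (nat_lit 0) (nat_lit 0),Row.mk (nat_lit 16632) (nat_lit 58157) (nat_lit 31846) (nat_lit 58531) (nat_lit 500) (nat_lit 0) (nat_lit 0),Row.mk (nat_lit 16800) (nat_lit 57596) (nat_lit 39619) (nat_lit 57970) (nat_lit 781) (nat_lit 0) (nat_lit 0),Row.mk (nat_lit 16968) (nat_lit 57035) (nat_lit 49240) (nat_lit 57409) (nat_lit 1219) (nat_lit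 0) (nat_lit 0),Row.mk (nat_lit 17136) (nat_lit 56474) (nat_lit 61121) (nat_lit 56848) (nat_lit 1901) (nat_lit 0) (nat_lit 0),Row.mk (nat_lit 17304) (nat_lit 55913) (nat_lit 75747) (nat_lit 56287) (nat_lit 2966) (nat_lit 0) (nat_lit 0),Row.mk (nat_lit 17472) (nat_lit 55352) (nat_lit 93684) (nat_lit 55726) (nat_lit 4627) (nat_lit 0) (nat_lit 0),Row.mk (nat_lit 17640) (nat_lit 54791) (nat_lit 115570) (nat_lit 55165) (nat_lit 7219) (nat_lit 0) (nat_lit 0),Row.mk (nat_lit 17808) (nat_lit 54230) (nat_lit 142100) (nat_lit 54604) (nat_lit 11261) (nat_lit 0) (nat_lit 0),Row.mk (nat_lit 17976) (nat_lit 53669) (nat_lit 173978) (nat_lit 54043) (nat_lit 17566) (nat_lit 0) (nat_lit 0),Row.mk (nat_lit 18144) (nat_lit 53108) (nat_lit 211831) (nat_lit 53482) (nat_lit 27403) (nat_lit 0) (nat_lit 0),Row.mk (nat_lit 18312) (nat_lit 52547) (nat_lit 256051) (nat_lit 52921) (nat_lit 42747) (nat_lit 0) (nat_lit 0),Row.mk (nat_lit 18480) (nat_lit 51986) (nat_lit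 306509) (nat_lit 52360) (nat_lit 66683) (nat_lit 0) (nat_lit 0),Row.mk (nat_lit 18648) (nat_lit 51425) (nat_lit 362086) (nat_lit 51799) (nat_lit 104022) (nat_lit 0) (nat_lit 0),Row.mk (nat_lit 18816) (nat_lit 50864) (nat_lit 419889) (nat_lit 51238) (nat_lit 162268) (nat_lit 0) (nat_lit 0),Row.mk (nat_lit 18984) (nat_lit 50303) (nat_lit 473972) (nat_lit 50677) (nat_lit 253129) (nat_lit 0) (nat_lit 0),Row.mk (nat_lit 19152) (nat_lit 49742) (nat_lit 513265) (nat_lit 50116) (nat_lit 394867) (nat_lit 0) (nat_lit 0),Row.mk (nat_lit 19320) (nat_lit 49181) (nat_lit 518265) (nat_lit 49555) (nat_lit 615970) (nat_lit 0) (nat_lit 0),Row.mk (nat_lit 19488) (nat_lit 48620) (nat_lit 455756) (nat_lit 48994) (nat_lit 960877) (nat_lit 0) (nat_lit 0),Row.mk (nat_lit 19656) (nat_lit 47872) (nat_lit 270429) (nat_lit 48433) (nat_lit 1498911) (nat_lit 0) (nat_lit 0),Row.mk (nat_lit 19824) (nat_lit 47685) (nat_lit 2107101) (nat_lit 48246) (nat_lit 102763)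 (nat_lit 0) (nat_lit 0),Row.mk (nat_lit 19992) (nat_lit 46750) (nat_lit 2049560) (nat_lit 47498) (nat_lit 710507) (nat_lit 0) (nat_lit 0),Row.mk (nat_lit 20160) (nat_lit 45815) (nat_lit 1651718) (nat_lit 46563) (nat_lit 1795539) (nat_lit 0) (nat_lit 0),Row.mk (nat_lit 20328) (nat_lit 44693) (nat_lit 646322) (nat_lit 45628) (nat_lit 3659218) (nat_lit 0) (nat_lit 0),Row.mk (nat_lit 20496) (nat_lit 44506) (nat_lit 4254498) (nat_lit 45441) (nat_lit 1123018) (nat_lit 0) (nat_lit 0),Row.mk (nat_lit 20664) (nat_lit 43197) (nat_lit 2553699) (nat_lit 44319) (nat_lit 4162689) (nat_lit 0) (nat_lit 0),Row.mk (nat_lit 20832) (nat_lit 43010) (nat_lit 7495049) (nat_lit 44132) (nat_lit 893558) (nat_lit 0) (nat_lit 0),Row.mk (nat_lit 21000) (nat_lit 41327) (nat_lit 3983619) (nat_lit 42823) (nat_lit 6493549) (nat_lit 0) (nat_lit 0),Row.mk (nat_lit 21168) (nat_lit 41140) (nat_lit 10352961) (nat_lit 42636) (nat_lit 2732769) (nat_lit 0) (nat_lit 0),Row.mk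 (nat_lit 21336) (nat_lit 38896) (nat_lit 2453430) (nat_lit 40953) (nat_lit 13890332) (nat_lit 0) (nat_lit 0),Row.mk (nat_lit 21504) (nat_lit 38709) (nat_lit 9780664) (nat_lit 40766) (nat_lit 10632301) (nat_lit 0) (nat_lit 0),Row.mk (nat_lit 21672) (nat_lit 38522) (nat_lit 18932203) (nat_lit 40579) (nat_lit 6563098) (nat_lit 0) (nat_lit 0),Row.mk (nat_lit 21840) (nat_lit 38335) (nat_lit 30362254) (nat_lit 40392) (nat_lit 1480762) (nat_lit 0) (nat_lit 0),Row.mk (nat_lit 22008) (nat_lit 31603) (nat_lit 6078706) (nat_lit 38148) (nat_lit 33692452) (nat_lit 0) (nat_lit 0),Row.mk (nat_lit 22176) (nat_lit 31416) (nat_lit 15980765) (nat_lit 37961) (nat_lit 33692452) (nat_lit 0) (nat_lit 0),Row.mk (nat_lit 22344) (nat_lit 31229) (nat_lit 28348198) (nat_lit 37774) (nat_lit 33692452) (nat_lit 0) (nat_lit 0),Row.mk (nat_lit 22512) (nat_lit 31042) (nat_lit 43794824) (nat_lit 37587) (nat_lit 33692452) (nat_lit 0) (nat_lit 0),Row.mk (nat_lit 22680)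 (nat_lit 30855) (nat_lit 63087287) (nat_lit 37400) (nat_lit 33692452) (nat_lit 0) (nat_lit 0),Row.mk (nat_lit 22848) (nat_lit 30668) (nat_lit 87183107) (nat_lit 37213) (nat_lit 33692452) (nat_lit 0) (nat_lit 0),Row.mk (nat_lit 23016) (nat_lit 30481) (nat_lit 117278206) (nat_lit 37026) (nat_lit 33692452) (nat_lit 0) (nat_lit 0),Row.mk (nat_lit 23184) (nat_lit 30294) (nat_lit 154866258) (nat_lit 36839) (nat_lit 33692452) (nat_lit 0) (nat_lit 0),Row.mk (nat_lit 23352) (nat_lit 30107) (nat_lit 201812828) (nat_lit 36652) (nat_lit 33692452) (nat_lit 0) (nat_lit 0),Row.mk (nat_lit 23520) (nat_lit 29920) (nat_lit 260447962) (nat_lit 36465) (nat_lit 33692452) (nat_lit 0) (nat_lit 0),Row.mk (nat_lit 23688) (nat_lit 29733) (nat_lit 333681830) (nat_lit 36278) (nat_lit 33692452) (nat_lit 0) (nat_lit 0),Row.mk (nat_lit 23856) (nat_lit 29546) (nat_lit 425149164) (nat_lit 36091) (nat_lit 33692452) (nat_lit 0) (nat_lit 0),Row.mk (nat_lit 24024) (nat_lit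 29359) (nat_lit 539389658) (nat_lit 35904) (nat_lit 33692452) (nat_lit 0) (nat_lit 0),Row.mk (nat_lit 24192) (nat_lit 29172) (nat_lit 682073279) (nat_lit 35717) (nat_lit 33692452) (nat_lit 0) (nat_lit 0),Row.mk (nat_lit 24360) (nat_lit 28985) (nat_lit 860281679) (nat_lit 35530) (nat_lit 33692452) (nat_lit 0) (nat_lit 0),Row.mk (nat_lit 24528) (nat_lit 28798) (nat_lit 1082859672) (nat_lit 35343) (nat_lit 33692452) (nat_lit 0) (nat_lit 0),Row.mk (nat_lit 24696) (nat_lit 28611) (nat_lit 1360854216) (nat_lit 35156) (nat_lit 33692452) (nat_lit 0) (nat_lit 0),Row.mk (nat_lit 24864) (nat_lit 28424) (nat_lit 1708062695) (nat_lit 34969) (nat_lit 33692452) (nat_lit 0) (nat_lit 0),Row.mk (nat_lit 25032) (nat_lit 28237) (nat_lit 2141717710) (nat_lit 34782) (nat_lit 33692452) (nat_lit 0) (nat_lit 0),Row.mk (nat_lit 25200) (nat_lit 28050) (nat_lit 2683342361) (nat_lit 34595) (nat_lit 33692452) (nat_lit 0) (nat_lit 0),Row.mk (nat_lit 25368) (nat_lit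 27863) (nat_lit 3359818485) (nat_lit 34408) (nat_lit 33692452) (nat_lit 0) (nat_lit 0),Row.mk (nat_lit 25536) (nat_lit 27676) (nat_lit 4204720844) (nat_lit 34221) (nat_lit 33692452) (nat_lit 0) (nat_lit 0),Row.mk (nat_lit 25704) (nat_lit 27489) (nat_lit 5259983508) (nat_lit 34034) (nat_lit 33692452) (nat_lit 0) (nat_lit 0),Row.mk (nat_lit 25872) (nat_lit 27302) (nat_lit 6577981119) (nat_lit 33847) (nat_lit 33692452) (nat_lit 0) (nat_lit 0),Row.mk (nat_lit 26040) (nat_lit 32912) (nat_lit 8388608) (nat_lit 62084) (nat_lit 8249432185) (nat_lit 0) (nat_lit 0),Row.mk (nat_lit 26208) (nat_lit 32912) (nat_lit 8388608) (nat_lit 62084) (nat_lit 10305430352) (nat_lit 0) (nat_lit 0),Row.mk (nat_lit 26376) (nat_lit 32912) (nat_lit 8388608) (nat_lit 62084) (nat_lit 12873322465) (nat_lit 0) (nat_lit 0),Row.mk (nat_lit 26544) (nat_lit 32912) (nat_lit 8388608) (nat_lit 62084) (nat_lit 16080557766) (nat_lit 0) (nat_lit 0)],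
[Row.mk (nat_lit 9240) (nat_lit 32912) (nat_lit 1) (nat_lit 61710) (nat_lit 8388606) (nat_lit 0) (nat_lit 0),Row.mk (nat_lit 9408) (nat_lit 32912) (nat_lit 2) (nat_lit 61710) (nat_lit 8388605) (nat_lit 0) (nat_lit 0),Row.mk (nat_lit 9576) (nat_lit 32912) (nat_lit 2) (nat_lit 61710) (nat_lit 8388605) (nat_lit 0) (nat_lit 0),Row.mk (nat_lit 9744) (nat_lit 32912) (nat_lit 3) (nat_lit 61710) (nat_lit 8388604) (nat_lit 0) (nat_lit 0),Row.mk (nat_lit 9912) (nat_lit 32912) (nat_lit 4) (nat_lit 61710) (nat_lit 8388603) (nat_lit 0) (nat_lit 0),Row.mk (nat_lit 10080) (nat_lit 32912) (nat_lit 5) (nat_lit 61710) (nat_lit 8388602) (nat_lit 0) (nat_lit 0),Row.mk (nat_lit 10248) (nat_lit 32912) (nat_lit 6) (nat_lit 61710) (nat_lit 8388601) (nat_lit 0) (nat_lit 0),Row.mk (nat_lit 10416) (nat_lit 32912) (nat_lit 8) (nat_lit 61710) (nat_lit 8388599) (nat_lit 0) (nat_lit 0),Row.mk (nat_lit 10584) (nat_lit 32912) (nat_lit 10) (nat_lit 61710) (nat_lit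 8388597) (nat_lit 0) (nat_lit 0),Row.mk (nat_lit 10752) (nat_lit 32912) (nat_lit 13) (nat_lit 61710) (nat_lit 8388594) (nat_lit 0) (nat_lit 0),Row.mk (nat_lit 10920) (nat_lit 32912) (nat_lit 16) (nat_lit 61710) (nat_lit 8388591) (nat_lit 0) (nat_lit 0),Row.mk (nat_lit 11088) (nat_lit 32912) (nat_lit 21) (nat_lit 61710) (nat_lit 8388586) (nat_lit 0) (nat_lit 0),Row.mk (nat_lit 11256) (nat_lit 32912) (nat_lit 26) (nat_lit 61710) (nat_lit 8388581) (nat_lit 0) (nat_lit 0),Row.mk (nat_lit 11424) (nat_lit 32912) (nat_lit 32) (nat_lit 61710) (nat_lit 8388575) (nat_lit 0) (nat_lit 0),Row.mk (nat_lit 11592) (nat_lit 32912) (nat_lit 41) (nat_lit 61710) (nat_lit 8388566) (nat_lit 0) (nat_lit 0),Row.mk (nat_lit 11760) (nat_lit 32912) (nat_lit 51) (nat_lit 61710) (nat_lit 8388556) (nat_lit 0) (nat_lit 0),Row.mk (nat_lit 11928) (nat_lit 32912) (nat_lit 64) (nat_lit 61710) (nat_lit 8388543) (nat_lit 0) (nat_lit 0),Row.mk (nat_lit 12096) (nat_lit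 32912) (nat_lit 79) (nat_lit 61710) (nat_lit 8388528) (nat_lit 0) (nat_lit 0),Row.mk (nat_lit 12264) (nat_lit 32912) (nat_lit 99) (nat_lit 61710) (nat_lit 8388508) (nat_lit 0) (nat_lit 0),Row.mk (nat_lit 12432) (nat_lit 32912) (nat_lit 124) (nat_lit 61710) (nat_lit 8388483) (nat_lit 0) (nat_lit 0),Row.mk (nat_lit 12600) (nat_lit 32912) (nat_lit 155) (nat_lit 61710) (nat_lit 8388452) (nat_lit 0) (nat_lit 0),Row.mk (nat_lit 12768) (nat_lit 32912) (nat_lit 194) (nat_lit 61710) (nat_lit 8388413) (nat_lit 0) (nat_lit 0),Row.mk (nat_lit 12936) (nat_lit 32912) (nat_lit 243) (nat_lit 61710) (nat_lit 8388364) (nat_lit 0) (nat_lit 0),Row.mk (nat_lit 13104) (nat_lit 32912) (nat_lit 303) (nat_lit 61710) (nat_lit 8388304) (nat_lit 0) (nat_lit 0),Row.mk (nat_lit 13272) (nat_lit 32912) (nat_lit 379) (nat_lit 61710) (nat_lit 8388228) (nat_lit 0) (nat_lit 0),Row.mk (nat_lit 13440) (nat_lit 32912) (nat_lit 473) (nat_lit 61710) (nat_lit 8388134) (nat_lit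 0) (nat_lit 0),Row.mk (nat_lit 13608) (nat_lit 32912) (nat_lit 591) (nat_lit 61710) (nat_lit 8388016) (nat_lit 0) (nat_lit 0),Row.mk (nat_lit 13776) (nat_lit 32912) (nat_lit 738) (nat_lit 61710) (nat_lit 8387869) (nat_lit 0) (nat_lit 0),Row.mk (nat_lit 13944) (nat_lit 32912) (nat_lit 922) (nat_lit 61710) (nat_lit 8387685) (nat_lit 0) (nat_lit 0),Row.mk (nat_lit 14112) (nat_lit 32912) (nat_lit 1152) (nat_lit 61710) (nat_lit 8387455) (nat_lit 0) (nat_lit 0),Row.mk (nat_lit 14280) (nat_lit 32912) (nat_lit 1439) (nat_lit 61710) (nat_lit 8387168) (nat_lit 0) (nat_lit 0),Row.mk (nat_lit 14448) (nat_lit 32912) (nat_lit 1797) (nat_lit 61710) (nat_lit 8386810) (nat_lit 0) (nat_lit 0),Row.mk (nat_lit 14616) (nat_lit 32912) (nat_lit 2244) (nat_lit 61710) (nat_lit 8386363) (nat_lit 0) (nat_lit 0),Row.mk (nat_lit 14784) (nat_lit 32912) (nat_lit 2803) (nat_lit 61710) (nat_lit 8385804) (nat_lit 0) (nat_lit 0),Row.mk (nat_lit 14952) (nat_lit 32912)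 (nat_lit 3501) (nat_lit 61710) (nat_lit 8385106) (nat_lit 0) (nat_lit 0),Row.mk (nat_lit 15120) (nat_lit 32912) (nat_lit 4373) (nat_lit 61710) (nat_lit 8384234) (nat_lit 0) (nat_lit 0),Row.mk (nat_lit 15288) (nat_lit 32912) (nat_lit 5462) (nat_lit 61710) (nat_lit 8383145) (nat_lit 0) (nat_lit 0),Row.mk (nat_lit 15456) (nat_lit 32912) (nat_lit 6822) (nat_lit 61710) (nat_lit 8381785) (nat_lit 0) (nat_lit 0),Row.mk (nat_lit 15624) (nat_lit 32912) (nat_lit 8521) (nat_lit 61710) (nat_lit 8380086) (nat_lit 0) (nat_lit 0),Row.mk (nat_lit 15792) (nat_lit 60962) (nat_lit 10588) (nat_lit 61336) (nat_lit 54) (nat_lit 0) (nat_lit 0),Row.mk (nat_lit 15960) (nat_lit 60401) (nat_lit 13208) (nat_lit 60775) (nat_lit 84) (nat_lit 0) (nat_lit 0),Row.mk (nat_lit 16128) (nat_lit 59840) (nat_lit 16470) (nat_lit 60214) (nat_lit 131) (nat_lit 0) (nat_lit 0),Row.mk (nat_lit 16296) (nat_lit 59279) (nat_lit 20530) (nat_lit 59653) (nat_lit 205) (nat_lit 0) (nat_lit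 0),Row.mk (nat_lit 16464) (nat_lit 58718) (nat_lit 25577) (nat_lit 59092) (nat_lit 321) (nat_lit 0) (nat_lit 0),Row.mk (nat_lit 16632) (nat_lit 58157) (nat_lit 31846) (nat_lit 58531) (nat_lit 500) (nat_lit 0) (nat_lit 0),Row.mk (nat_lit 16800) (nat_lit 57596) (nat_lit 39619) (nat_lit 57970) (nat_lit 781) (nat_lit 0) (nat_lit 0),Row.mk (nat_lit 16968) (nat_lit 57035) (nat_lit 49240) (nat_lit 57409) (nat_lit 1219) (nat_lit 0) (nat_lit 0),Row.mk (nat_lit 17136) (nat_lit 56474) (nat_lit 61121) (nat_lit 56848) (nat_lit 1901) (nat_lit 0) (nat_lit 0),Row.mk (nat_lit 17304) (nat_lit 55913) (nat_lit 75747) (nat_lit 56287) (nat_lit 2966) (nat_lit 0) (nat_lit 0),Row.mk (nat_lit 17472) (nat_lit 55352) (nat_lit 93684) (nat_lit 55726) (nat_lit 4627) (nat_lit 0) (nat_lit 0),Row.mk (nat_lit 17640) (nat_lit 54791) (nat_lit 115570) (nat_lit 55165) (nat_lit 7219) (nat_lit 0) (nat_lit 0),Row.mk (nat_lit 17808) (nat_lit 54230) (nat_lit 142100) (nat_lit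 54604) (nat_lit 11261) (nat_lit 0) (nat_lit 0),Row.mk (nat_lit 17976) (nat_lit 53669) (nat_lit 173978) (nat_lit 54043) (nat_lit 17566) (nat_lit 0) (nat_lit 0),Row.mk (nat_lit 18144) (nat_lit 53108) (nat_lit 211831) (nat_lit 53482) (nat_lit 27403) (nat_lit 0) (nat_lit 0),Row.mk (nat_lit 18312) (nat_lit 52547) (nat_lit 256051) (nat_lit 52921) (nat_lit 42747) (nat_lit 0) (nat_lit 0),Row.mk (nat_lit 18480) (nat_lit 51986) (nat_lit 306509) (nat_lit 52360) (nat_lit 66683) (nat_lit 0) (nat_lit 0),Row.mk (nat_lit 18648) (nat_lit 51425) (nat_lit 362086) (nat_lit 51799) (nat_lit 104022) (nat_lit 0) (nat_lit 0),Row.mk (nat_lit 18816) (nat_lit 50864) (nat_lit 419889) (nat_lit 51238) (nat_lit 162268) (nat_lit 0) (nat_lit 0),Row.mk (nat_lit 18984) (nat_lit 50303) (nat_lit 473972) (nat_lit 50677) (nat_lit 253129) (nat_lit 0) (nat_lit 0),Row.mk (nat_lit 19152) (nat_lit 49742) (nat_lit 513265) (nat_lit 50116) (nat_lit 394867) (nat_lit 0) (nat_lit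 0),Row.mk (nat_lit 19320) (nat_lit 49181) (nat_lit 518265) (nat_lit 49555) (nat_lit 615970) (nat_lit 0) (nat_lit 0),Row.mk (nat_lit 19488) (nat_lit 48620) (nat_lit 455756) (nat_lit 48994) (nat_lit 960877) (nat_lit 0) (nat_lit 0),Row.mk (nat_lit 19656) (nat_lit 47872) (nat_lit 270429) (nat_lit 48433) (nat_lit 1498911) (nat_lit 0) (nat_lit 0),Row.mk (nat_lit 19824) (nat_lit 47685) (nat_lit 2107101) (nat_lit 48246) (nat_lit 102763) (nat_lit 0) (nat_lit 0),Row.mk (nat_lit 19992) (nat_lit 46750) (nat_lit 2049560) (nat_lit 47498) (nat_lit 710507) (nat_lit 0) (nat_lit 0),Row.mk (nat_lit 20160) (nat_lit 45815) (nat_lit 1651718) (nat_lit 46563) (nat_lit 1795539) (nat_lit 0) (nat_lit 0),Row.mk (nat_lit 20328) (nat_lit 44693) (nat_lit 646322) (nat_lit 45628) (nat_lit 3659218) (nat_lit 0) (nat_lit 0),Row.mk (nat_lit 20496) (nat_lit 44506) (nat_lit 4254498) (nat_lit 45441) (nat_lit 1123018) (nat_lit 0) (nat_lit 0),Row.mk (nat_lit 20664) (nat_lit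 43197) (nat_lit 2553699) (nat_lit 44319) (nat_lit 4162689) (nat_lit 0) (nat_lit 0),Row.mk (nat_lit 20832) (nat_lit 43010) (nat_lit 7495049) (nat_lit 44132) (nat_lit 893558) (nat_lit 0) (nat_lit 0),Row.mk (nat_lit 21000) (nat_lit 41327) (nat_lit 3983619) (nat_lit 42823) (nat_lit 6493549) (nat_lit 0) (nat_lit 0),Row.mk (nat_lit 21168) (nat_lit 41140) (nat_lit 10352961) (nat_lit 42636) (nat_lit 2732769) (nat_lit 0) (nat_lit 0),Row.mk (nat_lit 21336) (nat_lit 38896) (nat_lit 2453430) (nat_lit 40953) (nat_lit 13890332) (nat_lit 0) (nat_lit 0),Row.mk (nat_lit 21504) (nat_lit 38709) (nat_lit 9780664) (nat_lit 40766) (nat_lit 10632301) (nat_lit 0) (nat_lit 0),Row.mk (nat_lit 21672) (nat_lit 38522) (nat_lit 18932203) (nat_lit 40579) (nat_lit 6563098) (nat_lit 0) (nat_lit 0),Row.mk (nat_lit 21840) (nat_lit 38335) (nat_lit 30362254) (nat_lit 40392) (nat_lit 1480762) (nat_lit 0) (nat_lit 0),Row.mk (nat_lit 22008) (nat_lit 31603) (nat_lit 6078706)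 (nat_lit 38148) (nat_lit 33692452) (nat_lit 0) (nat_lit 0),Row.mk (nat_lit 22176) (nat_lit 31416) (nat_lit 15980765) (nat_lit 37961) (nat_lit 33692452) (nat_lit 0) (nat_lit 0),Row.mk (nat_lit 22344) (nat_lit 31229) (nat_lit 28348198) (nat_lit 37774) (nat_lit 33692452) (nat_lit 0) (nat_lit 0),Row.mk (nat_lit 22512) (nat_lit 31042) (nat_lit 43794824) (nat_lit 37587) (nat_lit 33692452) (nat_lit 0) (nat_lit 0),Row.mk (nat_lit 22680) (nat_lit 30855) (nat_lit 63087287) (nat_lit 37400) (nat_lit 33692452) (nat_lit 0) (nat_lit 0),Row.mk (nat_lit 22848) (nat_lit 30668) (nat_lit 87183107) (nat_lit 37213) (nat_lit 33692452) (nat_lit 0) (nat_lit 0),Row.mk (nat_lit 23016) (nat_lit 30481) (nat_lit 117278206) (nat_lit 37026) (nat_lit 33692452) (nat_lit 0) (nat_lit 0),Row.mk (nat_lit 23184) (nat_lit 30294) (nat_lit 154866258) (nat_lit 36839) (nat_lit 33692452) (nat_lit 0) (nat_lit 0),Row.mk (nat_lit 23352) (nat_lit 30107) (nat_lit 201812828) (nat_lit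 36652) (nat_lit 33692452) (nat_lit 0) (nat_lit 0),Row.mk (nat_lit 23520) (nat_lit 29920) (nat_lit 260447962) (nat_lit 36465) (nat_lit 33692452) (nat_lit 0) (nat_lit 0),Row.mk (nat_lit 23688) (nat_lit 29733) (nat_lit 333681830) (nat_lit 36278) (nat_lit 33692452) (nat_lit 0) (nat_lit 0),Row.mk (nat_lit 23856) (nat_lit 29546) (nat_lit 425149164) (nat_lit 36091) (nat_lit 33692452) (nat_lit 0) (nat_lit 0),Row.mk (nat_lit 24024) (nat_lit 29359) (nat_lit 539389658) (nat_lit 35904) (nat_lit 33692452) (nat_lit 0) (nat_lit 0),Row.mk (nat_lit 24192) (nat_lit 29172) (nat_lit 682073279) (nat_lit 35717) (nat_lit 33692452) (nat_lit 0) (nat_lit 0),Row.mk (nat_lit 24360) (nat_lit 28985) (nat_lit 860281679) (nat_lit 35530) (nat_lit 33692452) (nat_lit 0) (nat_lit 0),Row.mk (nat_lit 24528) (nat_lit 28798) (nat_lit 1082859672) (nat_lit 35343) (nat_lit 33692452) (nat_lit 0) (nat_lit 0),Row.mk (nat_lit 24696) (nat_lit 28611) (nat_lit 1360854216) (nat_lit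 35156) (nat_lit 33692452) (nat_lit 0) (nat_lit 0),Row.mk (nat_lit 24864) (nat_lit 28424) (nat_lit 1708062695) (nat_lit 34969) (nat_lit 33692452) (nat_lit 0) (nat_lit 0),Row.mk (nat_lit 25032) (nat_lit 28237) (nat_lit 2141717710) (nat_lit 34782) (nat_lit 33692452) (nat_lit 0) (nat_lit 0),Row.mk (nat_lit 25200) (nat_lit 28050) (nat_lit 2683342361) (nat_lit 34595) (nat_lit 33692452) (nat_lit 0) (nat_lit 0),Row.mk (nat_lit 25368) (nat_lit 27863) (nat_lit 3359818485) (nat_lit 34408) (nat_lit 33692452) (nat_lit 0) (nat_lit 0),Row.mk (nat_lit 25536) (nat_lit 27676) (nat_lit 4204720844) (nat_lit 34221) (nat_lit 33692452) (nat_lit 0) (nat_lit 0),Row.mk (nat_lit 25704) (nat_lit 27489) (nat_lit 5259983508) (nat_lit 34034) (nat_lit 33692452) (nat_lit 0) (nat_lit 0),Row.mk (nat_lit 25872) (nat_lit 27302) (nat_lit 6577981119) (nat_lit 33847) (nat_lit 33692452) (nat_lit 0) (nat_lit 0),Row.mk (nat_lit 26040) (nat_lit 32912) (nat_lit 8388608) (nat_lit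 62084) (nat_lit 8249432185) (nat_lit 0) (nat_lit 0),Row.mk (nat_lit 26208) (nat_lit 32912) (nat_lit 8388608) (nat_lit 62084) (nat_lit 10305430352) (nat_lit 0) (nat_lit 0),Row.mk (nat_lit 26376) (nat_lit 32912) (nat_lit 8388608) (nat_lit 62084) (nat_lit 12873322465) (nat_lit 0) (nat_lit 0),Row.mk (nat_lit 26544) (nat_lit 32912) (nat_lit 8388608) (nat_lit 62084) (nat_lit 16080557766) (nat_lit 0) (nat_lit 0),Row.mk (nat_lit 26712) (nat_lit 32912) (nat_lit 8388608) (nat_lit 62084) (nat_lit 20086317287) (nat_lit 0) (nat_lit 0)],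
[Row.mk (nat_lit 10584) (nat_lit 32912) (nat_lit 10) (nat_lit 61710) (nat_lit 8388597) (nat_lit 0) (nat_lit 0),Row.mk (nat_lit 10752) (nat_lit 32912) (nat_lit 13) (nat_lit 61710) (nat_lit 8388594) (nat_lit 0) (nat_lit 0),Row.mk (nat_lit 10920) (nat_lit 32912) (nat_lit 16) (nat_lit 61710) (nat_lit 8388591) (nat_lit 0) (nat_lit 0),Row.mk (nat_lit 11088) (nat_lit 32912) (nat_lit 21) (nat_lit 61710) (nat_lit 8388586) (nat_lit 0) (nat_lit 0),Row.mk (nat_lit 11256) (nat_lit 32912) (nat_lit 26) (nat_lit 61710) (nat_lit 8388581) (nat_lit 0) (nat_lit 0),Row.mk (nat_lit 11424) (nat_lit 32912) (nat_lit 32) (nat_lit 61710) (nat_lit 8388575) (nat_lit 0) (nat_lit 0),Row.mk (nat_lit 11592) (nat_lit 32912) (nat_lit 41) (nat_lit 61710) (nat_lit 8388566) (nat_lit 0) (nat_lit 0),Row.mk (nat_lit 11760) (nat_lit 32912) (nat_lit 51) (nat_lit 61710) (nat_lit 8388556) (nat_lit 0) (nat_lit 0),Row.mk (nat_lit 11928) (nat_lit 32912) (nat_lit 64) (nat_lit 61710)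 (nat_lit 8388543) (nat_lit 0) (nat_lit 0),Row.mk (nat_lit 12096) (nat_lit 32912) (nat_lit 79) (nat_lit 61710) (nat_lit 8388528) (nat_lit 0) (nat_lit 0),Row.mk (nat_lit 12264) (nat_lit 32912) (nat_lit 99) (nat_lit 61710) (nat_lit 8388508) (nat_lit 0) (nat_lit 0),Row.mk (nat_lit 12432) (nat_lit 32912) (nat_lit 124) (nat_lit 61710) (nat_lit 8388483) (nat_lit 0) (nat_lit 0),Row.mk (nat_lit 12600) (nat_lit 32912) (nat_lit 155) (nat_lit 61710) (nat_lit 8388452) (nat_lit 0) (nat_lit 0),Row.mk (nat_lit 12768) (nat_lit 32912) (nat_lit 194) (nat_lit 61710) (nat_lit 8388413) (nat_lit 0) (nat_lit 0),Row.mk (nat_lit 12936) (nat_lit 32912) (nat_lit 243) (nat_lit 61710) (nat_lit 8388364) (nat_lit 0) (nat_lit 0),Row.mk (nat_lit 13104) (nat_lit 32912) (nat_lit 303) (nat_lit 61710) (nat_lit 8388304) (nat_lit 0) (nat_lit 0),Row.mk (nat_lit 13272) (nat_lit 32912) (nat_lit 379) (nat_lit 61710) (nat_lit 8388228) (nat_lit 0) (nat_lit 0),Row.mk (nat_lit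 13440) (nat_lit 32912) (nat_lit 473) (nat_lit 61710) (nat_lit 8388134) (nat_lit 0) (nat_lit 0),Row.mk (nat_lit 13608) (nat_lit 32912) (nat_lit 591) (nat_lit 61710) (nat_lit 8388016) (nat_lit 0) (nat_lit 0),Row.mk (nat_lit 13776) (nat_lit 32912) (nat_lit 738) (nat_lit 61710) (nat_lit 8387869) (nat_lit 0) (nat_lit 0),Row.mk (nat_lit 13944) (nat_lit 32912) (nat_lit 922) (nat_lit 61710) (nat_lit 8387685) (nat_lit 0) (nat_lit 0),Row.mk (nat_lit 14112) (nat_lit 32912) (nat_lit 1152) (nat_lit 61710) (nat_lit 8387455) (nat_lit 0) (nat_lit 0),Row.mk (nat_lit 14280) (nat_lit 32912) (nat_lit 1439) (nat_lit 61710) (nat_lit 8387168) (nat_lit 0) (nat_lit 0),Row.mk (nat_lit 14448) (nat_lit 32912) (nat_lit 1797) (nat_lit 61710) (nat_lit 8386810) (nat_lit 0) (nat_lit 0),Row.mk (nat_lit 14616) (nat_lit 32912) (nat_lit 2244) (nat_lit 61710) (nat_lit 8386363) (nat_lit 0) (nat_lit 0),Row.mk (nat_lit 14784) (nat_lit 32912) (nat_lit 2803) (nat_lit 61710)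 (nat_lit 8385804) (nat_lit 0) (nat_lit 0),Row.mk (nat_lit 14952) (nat_lit 32912) (nat_lit 3501) (nat_lit 61710) (nat_lit 8385106) (nat_lit 0) (nat_lit 0),Row.mk (nat_lit 15120) (nat_lit 32912) (nat_lit 4373) (nat_lit 61710) (nat_lit 8384234) (nat_lit 0) (nat_lit 0),Row.mk (nat_lit 15288) (nat_lit 32912) (nat_lit 5462) (nat_lit 61710) (nat_lit 8383145) (nat_lit 0) (nat_lit 0),Row.mk (nat_lit 15456) (nat_lit 32912) (nat_lit 6822) (nat_lit 61710) (nat_lit 8381785) (nat_lit 0) (nat_lit 0),Row.mk (nat_lit 15624) (nat_lit 32912) (nat_lit 8521) (nat_lit 61710) (nat_lit 8380086) (nat_lit 0) (nat_lit 0),Row.mk (nat_lit 15792) (nat_lit 60962) (nat_lit 10588) (nat_lit 61336) (nat_lit 54) (nat_lit 0) (nat_lit 0),Row.mk (nat_lit 15960) (nat_lit 60401) (nat_lit 13208) (nat_lit 60775) (nat_lit 84) (nat_lit 0) (nat_lit 0),Row.mk (nat_lit 16128) (nat_lit 59840) (nat_lit 16470) (nat_lit 60214) (nat_lit 131) (nat_lit 0) (nat_lit 0),Row.mk (nat_lit 16296)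 (nat_lit 59279) (nat_lit 20530) (nat_lit 59653) (nat_lit 205) (nat_lit 0) (nat_lit 0),Row.mk (nat_lit 16464) (nat_lit 58718) (nat_lit 25577) (nat_lit 59092) (nat_lit 321) (nat_lit 0) (nat_lit 0),Row.mk (nat_lit 16632) (nat_lit 58157) (nat_lit 31846) (nat_lit 58531) (nat_lit 500) (nat_lit 0) (nat_lit 0),Row.mk (nat_lit 16800) (nat_lit 57596) (nat_lit 39619) (nat_lit 57970) (nat_lit 781) (nat_lit 0) (nat_lit 0),Row.mk (nat_lit 16968) (nat_lit 57035) (nat_lit 49240) (nat_lit 57409) (nat_lit 1219) (nat_lit 0) (nat_lit 0),Row.mk (nat_lit 17136) (nat_lit 56474) (nat_lit 61121) (nat_lit 56848) (nat_lit 1901) (nat_lit 0) (nat_lit 0),Row.mk (nat_lit 17304) (nat_lit 55913) (nat_lit 75747) (nat_lit 56287) (nat_lit 2966) (nat_lit 0) (nat_lit 0),Row.mk (nat_lit 17472) (nat_lit 55352) (nat_lit 93684) (nat_lit 55726) (nat_lit 4627) (nat_lit 0) (nat_lit 0),Row.mk (nat_lit 17640) (nat_lit 54791) (nat_lit 115570) (nat_lit 55165) (nat_lit 7219) (nat_lit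 0) (nat_lit 0),Row.mk (nat_lit 17808) (nat_lit 54230) (nat_lit 142100) (nat_lit 54604) (nat_lit 11261) (nat_lit 0) (nat_lit 0),Row.mk (nat_lit 17976) (nat_lit 53669) (nat_lit 173978) (nat_lit 54043) (nat_lit 17566) (nat_lit 0) (nat_lit 0),Row.mk (nat_lit 18144) (nat_lit 53108) (nat_lit 211831) (nat_lit 53482) (nat_lit 27403) (nat_lit 0) (nat_lit 0),Row.mk (nat_lit 18312) (nat_lit 52547) (nat_lit 256051) (nat_lit 52921) (nat_lit 42747) (nat_lit 0) (nat_lit 0),Row.mk (nat_lit 18480) (nat_lit 51986) (nat_lit 306509) (nat_lit 52360) (nat_lit 66683) (nat_lit 0) (nat_lit 0),Row.mk (nat_lit 18648) (nat_lit 51425) (nat_lit 362086) (nat_lit 51799) (nat_lit 104022) (nat_lit 0) (nat_lit 0),Row.mk (nat_lit 18816) (nat_lit 50864) (nat_lit 419889) (nat_lit 51238) (nat_lit 162268) (nat_lit 0) (nat_lit 0),Row.mk (nat_lit 18984) (nat_lit 50303) (nat_lit 473972) (nat_lit 50677) (nat_lit 253129) (nat_lit 0) (nat_lit 0),Row.mk (nat_lit 19152) (nat_lit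 49742) (nat_lit 513265) (nat_lit 50116) (nat_lit 394867) (nat_lit 0) (nat_lit 0),Row.mk (nat_lit 19320) (nat_lit 49181) (nat_lit 518265) (nat_lit 49555) (nat_lit 615970) (nat_lit 0) (nat_lit 0),Row.mk (nat_lit 19488) (nat_lit 48620) (nat_lit 455756) (nat_lit 48994) (nat_lit 960877) (nat_lit 0) (nat_lit 0),Row.mk (nat_lit 19656) (nat_lit 47872) (nat_lit 270429) (nat_lit 48433) (nat_lit 1498911) (nat_lit 0) (nat_lit 0),Row.mk (nat_lit 19824) (nat_lit 47685) (nat_lit 2107101) (nat_lit 48246) (nat_lit 102763) (nat_lit 0) (nat_lit 0),Row.mk (nat_lit 19992) (nat_lit 46750) (nat_lit 2049560) (nat_lit 47498) (nat_lit 710507) (nat_lit 0) (nat_lit 0),Row.mk (nat_lit 20160) (nat_lit 45815) (nat_lit 1651718) (nat_lit 46563) (nat_lit 1795539) (nat_lit 0) (nat_lit 0),Row.mk (nat_lit 20328) (nat_lit 44693) (nat_lit 646322) (nat_lit 45628) (nat_lit 3659218) (nat_lit 0) (nat_lit 0),Row.mk (nat_lit 20496) (nat_lit 44506) (nat_lit 4254498) (nat_lit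 45441) (nat_lit 1123018) (nat_lit 0) (nat_lit 0),Row.mk (nat_lit 20664) (nat_lit 43197) (nat_lit 2553699) (nat_lit 44319) (nat_lit 4162689) (nat_lit 0) (nat_lit 0),Row.mk (nat_lit 20832) (nat_lit 43010) (nat_lit 7495049) (nat_lit 44132) (nat_lit 893558) (nat_lit 0) (nat_lit 0),Row.mk (nat_lit 21000) (nat_lit 41327) (nat_lit 3983619) (nat_lit 42823) (nat_lit 6493549) (nat_lit 0) (nat_lit 0),Row.mk (nat_lit 21168) (nat_lit 41140) (nat_lit 10352961) (nat_lit 42636) (nat_lit 2732769) (nat_lit 0) (nat_lit 0),Row.mk (nat_lit 21336) (nat_lit 38896) (nat_lit 2453430) (nat_lit 40953) (nat_lit 13890332) (nat_lit 0) (nat_lit 0),Row.mk (nat_lit 21504) (nat_lit 38709) (nat_lit 9780664) (nat_lit 40766) (nat_lit 10632301) (nat_lit 0) (nat_lit 0),Row.mk (nat_lit 21672) (nat_lit 38522) (nat_lit 18932203) (nat_lit 40579) (nat_lit 6563098) (nat_lit 0) (nat_lit 0),Row.mk (nat_lit 21840) (nat_lit 38335) (nat_lit 30362254) (nat_lit 40392) (nat_lit 1480762)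 (nat_lit 0) (nat_lit 0),Row.mk (nat_lit 22008) (nat_lit 31603) (nat_lit 6078706) (nat_lit 38148) (nat_lit 33692452) (nat_lit 0) (nat_lit 0),Row.mk (nat_lit 22176) (nat_lit 31416) (nat_lit 15980765) (nat_lit 37961) (nat_lit 33692452) (nat_lit 0) (nat_lit 0),Row.mk (nat_lit 22344) (nat_lit 31229) (nat_lit 28348198) (nat_lit 37774) (nat_lit 33692452) (nat_lit 0) (nat_lit 0),Row.mk (nat_lit 22512) (nat_lit 31042) (nat_lit 43794824) (nat_lit 37587) (nat_lit 33692452) (nat_lit 0) (nat_lit 0),Row.mk (nat_lit 22680) (nat_lit 30855) (nat_lit 63087287) (nat_lit 37400) (nat_lit 33692452) (nat_lit 0) (nat_lit 0),Row.mk (nat_lit 22848) (nat_lit 30668) (nat_lit 87183107) (nat_lit 37213) (nat_lit 33692452) (nat_lit 0) (nat_lit 0),Row.mk (nat_lit 23016) (nat_lit 30481) (nat_lit 117278206) (nat_lit 37026) (nat_lit 33692452) (nat_lit 0) (nat_lit 0),Row.mk (nat_lit 23184) (nat_lit 30294) (nat_lit 154866258) (nat_lit 36839) (nat_lit 33692452) (nat_lit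 0) (nat_lit 0),Row.mk (nat_lit 23352) (nat_lit 30107) (nat_lit 201812828) (nat_lit 36652) (nat_lit 33692452) (nat_lit 0) (nat_lit 0),Row.mk (nat_lit 23520) (nat_lit 29920) (nat_lit 260447962) (nat_lit 36465) (nat_lit 33692452) (nat_lit 0) (nat_lit 0),Row.mk (nat_lit 23688) (nat_lit 29733) (nat_lit 333681830) (nat_lit 36278) (nat_lit 33692452) (nat_lit 0) (nat_lit 0),Row.mk (nat_lit 23856) (nat_lit 29546) (nat_lit 425149164) (nat_lit 36091) (nat_lit 33692452) (nat_lit 0) (nat_lit 0),Row.mk (nat_lit 24024) (nat_lit 29359) (nat_lit 539389658) (nat_lit 35904) (nat_lit 33692452) (nat_lit 0) (nat_lit 0),Row.mk (nat_lit 24192) (nat_lit 29172) (nat_lit 682073279) (nat_lit 35717) (nat_lit 33692452) (nat_lit 0) (nat_lit 0),Row.mk (nat_lit 24360) (nat_lit 28985) (nat_lit 860281679) (nat_lit 35530) (nat_lit 33692452) (nat_lit 0) (nat_lit 0),Row.mk (nat_lit 24528) (nat_lit 28798) (nat_lit 1082859672) (nat_lit 35343) (nat_lit 33692452) (nat_lit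 0) (nat_lit 0),Row.mk (nat_lit 24696) (nat_lit 28611) (nat_lit 1360854216) (nat_lit 35156) (nat_lit 33692452) (nat_lit 0) (nat_lit 0),Row.mk (nat_lit 24864) (nat_lit 28424) (nat_lit 1708062695) (nat_lit 34969) (nat_lit 33692452) (nat_lit 0) (nat_lit 0),Row.mk (nat_lit 25032) (nat_lit 28237) (nat_lit 2141717710) (nat_lit 34782) (nat_lit 33692452) (nat_lit 0) (nat_lit 0),Row.mk (nat_lit 25200) (nat_lit 28050) (nat_lit 2683342361) (nat_lit 34595) (nat_lit 33692452) (nat_lit 0) (nat_lit 0),Row.mk (nat_lit 25368) (nat_lit 27863) (nat_lit 3359818485) (nat_lit 34408) (nat_lit 33692452) (nat_lit 0) (nat_lit 0),Row.mk (nat_lit 25536) (nat_lit 27676) (nat_lit 4204720844) (nat_lit 34221) (nat_lit 33692452) (nat_lit 0) (nat_lit 0),Row.mk (nat_lit 25704) (nat_lit 27489) (nat_lit 5259983508) (nat_lit 34034) (nat_lit 33692452) (nat_lit 0) (nat_lit 0),Row.mk (nat_lit 25872) (nat_lit 27302) (nat_lit 6577981119) (nat_lit 33847) (nat_lit 33692452) (nat_lit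 0) (nat_lit 0),Row.mk (nat_lit 26040) (nat_lit 32912) (nat_lit 8388608) (nat_lit 62084) (nat_lit 8249432185) (nat_lit 0) (nat_lit 0),Row.mk (nat_lit 26208) (nat_lit 32912) (nat_lit 8388608) (nat_lit 62084) (nat_lit 10305430352) (nat_lit 0) (nat_lit 0),Row.mk (nat_lit 26376) (nat_lit 32912) (nat_lit 8388608) (nat_lit 62084) (nat_lit 12873322465) (nat_lit 0) (nat_lit 0),Row.mk (nat_lit 26544) (nat_lit 32912) (nat_lit 8388608) (nat_lit 62084) (nat_lit 16080557766) (nat_lit 0) (nat_lit 0),Row.mk (nat_lit 26712) (nat_lit 32912) (nat_lit 8388608) (nat_lit 62084) (nat_lit 20086317287) (nat_lit 0) (nat_lit 0)],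
[Row.mk (nat_lit 10920) (nat_lit 32912) (nat_lit 16) (nat_lit 61710) (nat_lit 8388591) (nat_lit 0) (nat_lit 0),Row.mk (nat_lit 11088) (nat_lit 32912) (nat_lit 21) (nat_lit 61710) (nat_lit 8388586) (nat_lit 0) (nat_lit 0),Row.mk (nat_lit 11256) (nat_lit 32912) (nat_lit 26) (nat_lit 61710) (nat_lit 8388581) (nat_lit 0) (nat_lit 0),Row.mk (nat_lit 11424) (nat_lit 32912) (nat_lit 32) (nat_lit 61710) (nat_lit 8388575) (nat_lit 0) (nat_lit 0),Row.mk (nat_lit 11592) (nat_lit 32912) (nat_lit 41) (nat_lit 61710) (nat_lit 8388566) (nat_lit 0) (nat_lit 0),Row.mk (nat_lit 11760) (nat_lit 32912) (nat_lit 51) (nat_lit 61710) (nat_lit 8388556) (nat_lit 0) (nat_lit 0),Row.mk (nat_lit 11928) (nat_lit 32912) (nat_lit 64) (nat_lit 61710) (nat_lit 8388543) (nat_lit 0) (nat_lit 0),Row.mk (nat_lit 12096) (nat_lit 32912) (nat_lit 79) (nat_lit 61710) (nat_lit 8388528) (nat_lit 0) (nat_lit 0),Row.mk (nat_lit 12264) (nat_lit 32912) (nat_lit 99) (nat_lit 61710)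 (nat_lit 8388508) (nat_lit 0) (nat_lit 0),Row.mk (nat_lit 12432) (nat_lit 32912) (nat_lit 124) (nat_lit 61710) (nat_lit 8388483) (nat_lit 0) (nat_lit 0),Row.mk (nat_lit 12600) (nat_lit 32912) (nat_lit 155) (nat_lit 61710) (nat_lit 8388452) (nat_lit 0) (nat_lit 0),Row.mk (nat_lit 12768) (nat_lit 32912) (nat_lit 194) (nat_lit 61710) (nat_lit 8388413) (nat_lit 0) (nat_lit 0),Row.mk (nat_lit 12936) (nat_lit 32912) (nat_lit 243) (nat_lit 61710) (nat_lit 8388364) (nat_lit 0) (nat_lit 0),Row.mk (nat_lit 13104) (nat_lit 32912) (nat_lit 303) (nat_lit 61710) (nat_lit 8388304) (nat_lit 0) (nat_lit 0),Row.mk (nat_lit 13272) (nat_lit 32912) (nat_lit 379) (nat_lit 61710) (nat_lit 8388228) (nat_lit 0) (nat_lit 0),Row.mk (nat_lit 13440) (nat_lit 32912) (nat_lit 473) (nat_lit 61710) (nat_lit 8388134) (nat_lit 0) (nat_lit 0),Row.mk (nat_lit 13608) (nat_lit 32912) (nat_lit 591) (nat_lit 61710) (nat_lit 8388016) (nat_lit 0) (nat_lit 0),Row.mk (nat_lit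 13776) (nat_lit 32912) (nat_lit 738) (nat_lit 61710) (nat_lit 8387869) (nat_lit 0) (nat_lit 0),Row.mk (nat_lit 13944) (nat_lit 32912) (nat_lit 922) (nat_lit 61710) (nat_lit 8387685) (nat_lit 0) (nat_lit 0),Row.mk (nat_lit 14112) (nat_lit 32912) (nat_lit 1152) (nat_lit 61710) (nat_lit 8387455) (nat_lit 0) (nat_lit 0),Row.mk (nat_lit 14280) (nat_lit 32912) (nat_lit 1439) (nat_lit 61710) (nat_lit 8387168) (nat_lit 0) (nat_lit 0),Row.mk (nat_lit 14448) (nat_lit 32912) (nat_lit 1797) (nat_lit 61710) (nat_lit 8386810) (nat_lit 0) (nat_lit 0),Row.mk (nat_lit 14616) (nat_lit 32912) (nat_lit 2244) (nat_lit 61710) (nat_lit 8386363) (nat_lit 0) (nat_lit 0),Row.mk (nat_lit 14784) (nat_lit 32912) (nat_lit 2803) (nat_lit 61710) (nat_lit 8385804) (nat_lit 0) (nat_lit 0),Row.mk (nat_lit 14952) (nat_lit 32912) (nat_lit 3501) (nat_lit 61710) (nat_lit 8385106) (nat_lit 0) (nat_lit 0),Row.mk (nat_lit 15120) (nat_lit 32912) (nat_lit 4373) (nat_lit 61710)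 (nat_lit 8384234) (nat_lit 0) (nat_lit 0),Row.mk (nat_lit 15288) (nat_lit 32912) (nat_lit 5462) (nat_lit 61710) (nat_lit 8383145) (nat_lit 0) (nat_lit 0),Row.mk (nat_lit 15456) (nat_lit 32912) (nat_lit 6822) (nat_lit 61710) (nat_lit 8381785) (nat_lit 0) (nat_lit 0),Row.mk (nat_lit 15624) (nat_lit 32912) (nat_lit 8521) (nat_lit 61710) (nat_lit 8380086) (nat_lit 0) (nat_lit 0),Row.mk (nat_lit 15792) (nat_lit 60962) (nat_lit 10588) (nat_lit 61336) (nat_lit 54) (nat_lit 0) (nat_lit 0),Row.mk (nat_lit 15960) (nat_lit 60401) (nat_lit 13208) (nat_lit 60775) (nat_lit 84) (nat_lit 0) (nat_lit 0),Row.mk (nat_lit 16128) (nat_lit 59840) (nat_lit 16470) (nat_lit 60214) (nat_lit 131) (nat_lit 0) (nat_lit 0),Row.mk (nat_lit 16296) (nat_lit 59279) (nat_lit 20530) (nat_lit 59653) (nat_lit 205) (nat_lit 0) (nat_lit 0),Row.mk (nat_lit 16464) (nat_lit 58718) (nat_lit 25577) (nat_lit 59092) (nat_lit 321) (nat_lit 0) (nat_lit 0),Row.mk (nat_lit 16632)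 (nat_lit 58157) (nat_lit 31846) (nat_lit 58531) (nat_lit 500) (nat_lit 0) (nat_lit 0),Row.mk (nat_lit 16800) (nat_lit 57596) (nat_lit 39619) (nat_lit 57970) (nat_lit 781) (nat_lit 0) (nat_lit 0),Row.mk (nat_lit 16968) (nat_lit 57035) (nat_lit 49240) (nat_lit 57409) (nat_lit 1219) (nat_lit 0) (nat_lit 0),Row.mk (nat_lit 17136) (nat_lit 56474) (nat_lit 61121) (nat_lit 56848) (nat_lit 1901) (nat_lit 0) (nat_lit 0),Row.mk (nat_lit 17304) (nat_lit 55913) (nat_lit 75747) (nat_lit 56287) (nat_lit 2966) (nat_lit 0) (nat_lit 0),Row.mk (nat_lit 17472) (nat_lit 55352) (nat_lit 93684) (nat_lit 55726) (nat_lit 4627) (nat_lit 0) (nat_lit 0),Row.mk (nat_lit 17640) (nat_lit 54791) (nat_lit 115570) (nat_lit 55165) (nat_lit 7219) (nat_lit 0) (nat_lit 0),Row.mk (nat_lit 17808) (nat_lit 54230) (nat_lit 142100) (nat_lit 54604) (nat_lit 11261) (nat_lit 0) (nat_lit 0),Row.mk (nat_lit 17976) (nat_lit 53669) (nat_lit 173978) (nat_lit 54043) (nat_lit 17566)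 (nat_lit 0) (nat_lit 0),Row.mk (nat_lit 18144) (nat_lit 53108) (nat_lit 211831) (nat_lit 53482) (nat_lit 27403) (nat_lit 0) (nat_lit 0),Row.mk (nat_lit 18312) (nat_lit 52547) (nat_lit 256051) (nat_lit 52921) (nat_lit 42747) (nat_lit 0) (nat_lit 0),Row.mk (nat_lit 18480) (nat_lit 51986) (nat_lit 306509) (nat_lit 52360) (nat_lit 66683) (nat_lit 0) (nat_lit 0),Row.mk (nat_lit 18648) (nat_lit 51425) (nat_lit 362086) (nat_lit 51799) (nat_lit 104022) (nat_lit 0) (nat_lit 0),Row.mk (nat_lit 18816) (nat_lit 50864) (nat_lit 419889) (nat_lit 51238) (nat_lit 162268) (nat_lit 0) (nat_lit 0),Row.mk (nat_lit 18984) (nat_lit 50303) (nat_lit 473972) (nat_lit 50677) (nat_lit 253129) (nat_lit 0) (nat_lit 0),Row.mk (nat_lit 19152) (nat_lit 49742) (nat_lit 513265) (nat_lit 50116) (nat_lit 394867) (nat_lit 0) (nat_lit 0),Row.mk (nat_lit 19320) (nat_lit 49181) (nat_lit 518265) (nat_lit 49555) (nat_lit 615970) (nat_lit 0) (nat_lit 0),Row.mk (nat_lit 19488)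 (nat_lit 48620) (nat_lit 455756) (nat_lit 48994) (nat_lit 960877) (nat_lit 0) (nat_lit 0),Row.mk (nat_lit 19656) (nat_lit 47872) (nat_lit 270429) (nat_lit 48433) (nat_lit 1498911) (nat_lit 0) (nat_lit 0),Row.mk (nat_lit 19824) (nat_lit 47685) (nat_lit 2107101) (nat_lit 48246) (nat_lit 102763) (nat_lit 0) (nat_lit 0),Row.mk (nat_lit 19992) (nat_lit 46750) (nat_lit 2049560) (nat_lit 47498) (nat_lit 710507) (nat_lit 0) (nat_lit 0),Row.mk (nat_lit 20160) (nat_lit 45815) (nat_lit 1651718) (nat_lit 46563) (nat_lit 1795539) (nat_lit 0) (nat_lit 0),Row.mk (nat_lit 20328) (nat_lit 44693) (nat_lit 646322) (nat_lit 45628) (nat_lit 3659218) (nat_lit 0) (nat_lit 0),Row.mk (nat_lit 20496) (nat_lit 44506) (nat_lit 4254498) (nat_lit 45441) (nat_lit 1123018) (nat_lit 0) (nat_lit 0),Row.mk (nat_lit 20664) (nat_lit 43197) (nat_lit 2553699) (nat_lit 44319) (nat_lit 4162689) (nat_lit 0) (nat_lit 0),Row.mk (nat_lit 20832) (nat_lit 43010) (nat_lit 7495049)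 (nat_lit 44132) (nat_lit 893558) (nat_lit 0) (nat_lit 0),Row.mk (nat_lit 21000) (nat_lit 41327) (nat_lit 3983619) (nat_lit 42823) (nat_lit 6493549) (nat_lit 0) (nat_lit 0),Row.mk (nat_lit 21168) (nat_lit 41140) (nat_lit 10352961) (nat_lit 42636) (nat_lit 2732769) (nat_lit 0) (nat_lit 0),Row.mk (nat_lit 21336) (nat_lit 38896) (nat_lit 2453430) (nat_lit 40953) (nat_lit 13890332) (nat_lit 0) (nat_lit 0),Row.mk (nat_lit 21504) (nat_lit 38709) (nat_lit 9780664) (nat_lit 40766) (nat_lit 10632301) (nat_lit 0) (nat_lit 0),Row.mk (nat_lit 21672) (nat_lit 38522) (nat_lit 18932203) (nat_lit 40579) (nat_lit 6563098) (nat_lit 0) (nat_lit 0),Row.mk (nat_lit 21840) (nat_lit 38335) (nat_lit 30362254) (nat_lit 40392) (nat_lit 1480762) (nat_lit 0) (nat_lit 0),Row.mk (nat_lit 22008) (nat_lit 31603) (nat_lit 6078706) (nat_lit 38148) (nat_lit 33692452) (nat_lit 0) (nat_lit 0),Row.mk (nat_lit 22176) (nat_lit 31416) (nat_lit 15980765) (nat_lit 37961) (nat_lit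 33692452) (nat_lit 0) (nat_lit 0),Row.mk (nat_lit 22344) (nat_lit 31229) (nat_lit 28348198) (nat_lit 37774) (nat_lit 33692452) (nat_lit 0) (nat_lit 0),Row.mk (nat_lit 22512) (nat_lit 31042) (nat_lit 43794824) (nat_lit 37587) (nat_lit 33692452) (nat_lit 0) (nat_lit 0),Row.mk (nat_lit 22680) (nat_lit 30855) (nat_lit 63087287) (nat_lit 37400) (nat_lit 33692452) (nat_lit 0) (nat_lit 0),Row.mk (nat_lit 22848) (nat_lit 30668) (nat_lit 87183107) (nat_lit 37213) (nat_lit 33692452) (nat_lit 0) (nat_lit 0),Row.mk (nat_lit 23016) (nat_lit 30481) (nat_lit 117278206) (nat_lit 37026) (nat_lit 33692452) (nat_lit 0) (nat_lit 0),Row.mk (nat_lit 23184) (nat_lit 30294) (nat_lit 154866258) (nat_lit 36839) (nat_lit 33692452) (nat_lit 0) (nat_lit 0),Row.mk (nat_lit 23352) (nat_lit 30107) (nat_lit 201812828) (nat_lit 36652) (nat_lit 33692452) (nat_lit 0) (nat_lit 0),Row.mk (nat_lit 23520) (nat_lit 29920) (nat_lit 260447962) (nat_lit 36465) (nat_lit 33692452)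 (nat_lit 0) (nat_lit 0),Row.mk (nat_lit 23688) (nat_lit 29733) (nat_lit 333681830) (nat_lit 36278) (nat_lit 33692452) (nat_lit 0) (nat_lit 0),Row.mk (nat_lit 23856) (nat_lit 29546) (nat_lit 425149164) (nat_lit 36091) (nat_lit 33692452) (nat_lit 0) (nat_lit 0),Row.mk (nat_lit 24024) (nat_lit 29359) (nat_lit 539389658) (nat_lit 35904) (nat_lit 33692452) (nat_lit 0) (nat_lit 0),Row.mk (nat_lit 24192) (nat_lit 29172) (nat_lit 682073279) (nat_lit 35717) (nat_lit 33692452) (nat_lit 0) (nat_lit 0),Row.mk (nat_lit 24360) (nat_lit 28985) (nat_lit 860281679) (nat_lit 35530) (nat_lit 33692452) (nat_lit 0) (nat_lit 0),Row.mk (nat_lit 24528) (nat_lit 28798) (nat_lit 1082859672) (nat_lit 35343) (nat_lit 33692452) (nat_lit 0) (nat_lit 0),Row.mk (nat_lit 24696) (nat_lit 28611) (nat_lit 1360854216) (nat_lit 35156) (nat_lit 33692452) (nat_lit 0) (nat_lit 0),Row.mk (nat_lit 24864) (nat_lit 28424) (nat_lit 1708062695) (nat_lit 34969) (nat_lit 33692452)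 (nat_lit 0) (nat_lit 0),Row.mk (nat_lit 25032) (nat_lit 28237) (nat_lit 2141717710) (nat_lit 34782) (nat_lit 33692452) (nat_lit 0) (nat_lit 0),Row.mk (nat_lit 25200) (nat_lit 28050) (nat_lit 2683342361) (nat_lit 34595) (nat_lit 33692452) (nat_lit 0) (nat_lit 0),Row.mk (nat_lit 25368) (nat_lit 27863) (nat_lit 3359818485) (nat_lit 34408) (nat_lit 33692452) (nat_lit 0) (nat_lit 0),Row.mk (nat_lit 25536) (nat_lit 27676) (nat_lit 4204720844) (nat_lit 34221) (nat_lit 33692452) (nat_lit 0) (nat_lit 0),Row.mk (nat_lit 25704) (nat_lit 27489) (nat_lit 5259983508) (nat_lit 34034) (nat_lit 33692452) (nat_lit 0) (nat_lit 0),Row.mk (nat_lit 25872) (nat_lit 27302) (nat_lit 6577981119) (nat_lit 33847) (nat_lit 33692452) (nat_lit 0) (nat_lit 0),Row.mk (nat_lit 26040) (nat_lit 32912) (nat_lit 8388608) (nat_lit 62084) (nat_lit 8249432185) (nat_lit 0) (nat_lit 0),Row.mk (nat_lit 26208) (nat_lit 32912) (nat_lit 8388608) (nat_lit 62084) (nat_lit 10305430352)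 (nat_lit 0) (nat_lit 0),Row.mk (nat_lit 26376) (nat_lit 32912) (nat_lit 8388608) (nat_lit 62084) (nat_lit 12873322465) (nat_lit 0) (nat_lit 0),Row.mk (nat_lit 26544) (nat_lit 32912) (nat_lit 8388608) (nat_lit 62084) (nat_lit 16080557766) (nat_lit 0) (nat_lit 0),Row.mk (nat_lit 26712) (nat_lit 32912) (nat_lit 8388608) (nat_lit 62084) (nat_lit 20086317287) (nat_lit 0) (nat_lit 0),Row.mk (nat_lit 26880) (nat_lit 32912) (nat_lit 8388608) (nat_lit 62084) (nat_lit 25089414294) (nat_lit 0) (nat_lit 0)],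
[Row.mk (nat_lit 11256) (nat_lit 32912) (nat_lit 26) (nat_lit 61710) (nat_lit 8388581) (nat_lit 0) (nat_lit 0),Row.mk (nat_lit 11424) (nat_lit 32912) (nat_lit 32) (nat_lit 61710) (nat_lit 8388575) (nat_lit 0) (nat_lit 0),Row.mk (nat_lit 11592) (nat_lit 32912) (nat_lit 41) (nat_lit 61710) (nat_lit 8388566) (nat_lit 0) (nat_lit 0),Row.mk (nat_lit 11760) (nat_lit 32912) (nat_lit 51) (nat_lit 61710) (nat_lit 8388556) (nat_lit 0) (nat_lit 0),Row.mk (nat_lit 11928) (nat_lit 32912) (nat_lit 64) (nat_lit 61710) (nat_lit 8388543) (nat_lit 0) (nat_lit 0),Row.mk (nat_lit 12096) (nat_lit 32912) (nat_lit 79) (nat_lit 61710) (nat_lit 8388528) (nat_lit 0) (nat_lit 0),Row.mk (nat_lit 12264) (nat_lit 32912) (nat_lit 99) (nat_lit 61710) (nat_lit 8388508) (nat_lit 0) (nat_lit 0),Row.mk (nat_lit 12432) (nat_lit 32912) (nat_lit 124) (nat_lit 61710) (nat_lit 8388483) (nat_lit 0) (nat_lit 0),Row.mk (nat_lit 12600) (nat_lit 32912) (nat_lit 155) (nat_lit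 61710) (nat_lit 8388452) (nat_lit 0) (nat_lit 0),Row.mk (nat_lit 12768) (nat_lit 32912) (nat_lit 194) (nat_lit 61710) (nat_lit 8388413) (nat_lit 0) (nat_lit 0),Row.mk (nat_lit 12936) (nat_lit 32912) (nat_lit 243) (nat_lit 61710) (nat_lit 8388364) (nat_lit 0) (nat_lit 0),Row.mk (nat_lit 13104) (nat_lit 32912) (nat_lit 303) (nat_lit 61710) (nat_lit 8388304) (nat_lit 0) (nat_lit 0),Row.mk (nat_lit 13272) (nat_lit 32912) (nat_lit 379) (nat_lit 61710) (nat_lit 8388228) (nat_lit 0) (nat_lit 0),Row.mk (nat_lit 13440) (nat_lit 32912) (nat_lit 473) (nat_lit 61710) (nat_lit 8388134) (nat_lit 0) (nat_lit 0),Row.mk (nat_lit 13608) (nat_lit 32912) (nat_lit 591) (nat_lit 61710) (nat_lit 8388016) (nat_lit 0) (nat_lit 0),Row.mk (nat_lit 13776) (nat_lit 32912) (nat_lit 738) (nat_lit 61710) (nat_lit 8387869) (nat_lit 0) (nat_lit 0),Row.mk (nat_lit 13944) (nat_lit 32912) (nat_lit 922) (nat_lit 61710) (nat_lit 8387685) (nat_lit 0) (nat_lit 0),Row.mk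 (nat_lit 14112) (nat_lit 32912) (nat_lit 1152) (nat_lit 61710) (nat_lit 8387455) (nat_lit 0) (nat_lit 0),Row.mk (nat_lit 14280) (nat_lit 32912) (nat_lit 1439) (nat_lit 61710) (nat_lit 8387168) (nat_lit 0) (nat_lit 0),Row.mk (nat_lit 14448) (nat_lit 32912) (nat_lit 1797) (nat_lit 61710) (nat_lit 8386810) (nat_lit 0) (nat_lit 0),Row.mk (nat_lit 14616) (nat_lit 32912) (nat_lit 2244) (nat_lit 61710) (nat_lit 8386363) (nat_lit 0) (nat_lit 0),Row.mk (nat_lit 14784) (nat_lit 32912) (nat_lit 2803) (nat_lit 61710) (nat_lit 8385804) (nat_lit 0) (nat_lit 0),Row.mk (nat_lit 14952) (nat_lit 32912) (nat_lit 3501) (nat_lit 61710) (nat_lit 8385106) (nat_lit 0) (nat_lit 0),Row.mk (nat_lit 15120) (nat_lit 32912) (nat_lit 4373) (nat_lit 61710) (nat_lit 8384234) (nat_lit 0) (nat_lit 0),Row.mk (nat_lit 15288) (nat_lit 32912) (nat_lit 5462) (nat_lit 61710) (nat_lit 8383145) (nat_lit 0) (nat_lit 0),Row.mk (nat_lit 15456) (nat_lit 32912) (nat_lit 6822) (nat_lit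 61710) (nat_lit 8381785) (nat_lit 0) (nat_lit 0),Row.mk (nat_lit 15624) (nat_lit 32912) (nat_lit 8521) (nat_lit 61710) (nat_lit 8380086) (nat_lit 0) (nat_lit 0),Row.mk (nat_lit 15792) (nat_lit 60962) (nat_lit 10588) (nat_lit 61336) (nat_lit 54) (nat_lit 0) (nat_lit 0),Row.mk (nat_lit 15960) (nat_lit 60401) (nat_lit 13208) (nat_lit 60775) (nat_lit 84) (nat_lit 0) (nat_lit 0),Row.mk (nat_lit 16128) (nat_lit 59840) (nat_lit 16470) (nat_lit 60214) (nat_lit 131) (nat_lit 0) (nat_lit 0),Row.mk (nat_lit 16296) (nat_lit 59279) (nat_lit 20530) (nat_lit 59653) (nat_lit 205) (nat_lit 0) (nat_lit 0),Row.mk (nat_lit 16464) (nat_lit 58718) (nat_lit 25577) (nat_lit 59092) (nat_lit 321) (nat_lit 0) (nat_lit 0),Row.mk (nat_lit 16632) (nat_lit 58157) (nat_lit 31846) (nat_lit 58531) (nat_lit 500) (nat_lit 0) (nat_lit 0),Row.mk (nat_lit 16800) (nat_lit 57596) (nat_lit 39619) (nat_lit 57970) (nat_lit 781) (nat_lit 0) (nat_lit 0),Row.mk (nat_lit 16968)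 (nat_lit 57035) (nat_lit 49240) (nat_lit 57409) (nat_lit 1219) (nat_lit 0) (nat_lit 0),Row.mk (nat_lit 17136) (nat_lit 56474) (nat_lit 61121) (nat_lit 56848) (nat_lit 1901) (nat_lit 0) (nat_lit 0),Row.mk (nat_lit 17304) (nat_lit 55913) (nat_lit 75747) (nat_lit 56287) (nat_lit 2966) (nat_lit 0) (nat_lit 0),Row.mk (nat_lit 17472) (nat_lit 55352) (nat_lit 93684) (nat_lit 55726) (nat_lit 4627) (nat_lit 0) (nat_lit 0),Row.mk (nat_lit 17640) (nat_lit 54791) (nat_lit 115570) (nat_lit 55165) (nat_lit 7219) (nat_lit 0) (nat_lit 0),Row.mk (nat_lit 17808) (nat_lit 54230) (nat_lit 142100) (nat_lit 54604) (nat_lit 11261) (nat_lit 0) (nat_lit 0),Row.mk (nat_lit 17976) (nat_lit 53669) (nat_lit 173978) (nat_lit 54043) (nat_lit 17566) (nat_lit 0) (nat_lit 0),Row.mk (nat_lit 18144) (nat_lit 53108) (nat_lit 211831) (nat_lit 53482) (nat_lit 27403) (nat_lit 0) (nat_lit 0),Row.mk (nat_lit 18312) (nat_lit 52547) (nat_lit 256051) (nat_lit 52921) (nat_lit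 42747) (nat_lit 0) (nat_lit 0),Row.mk (nat_lit 18480) (nat_lit 51986) (nat_lit 306509) (nat_lit 52360) (nat_lit 66683) (nat_lit 0) (nat_lit 0),Row.mk (nat_lit 18648) (nat_lit 51425) (nat_lit 362086) (nat_lit 51799) (nat_lit 104022) (nat_lit 0) (nat_lit 0),Row.mk (nat_lit 18816) (nat_lit 50864) (nat_lit 419889) (nat_lit 51238) (nat_lit 162268) (nat_lit 0) (nat_lit 0),Row.mk (nat_lit 18984) (nat_lit 50303) (nat_lit 473972) (nat_lit 50677) (nat_lit 253129) (nat_lit 0) (nat_lit 0),Row.mk (nat_lit 19152) (nat_lit 49742) (nat_lit 513265) (nat_lit 50116) (nat_lit 394867) (nat_lit 0) (nat_lit 0),Row.mk (nat_lit 19320) (nat_lit 49181) (nat_lit 518265) (nat_lit 49555) (nat_lit 615970) (nat_lit 0) (nat_lit 0),Row.mk (nat_lit 19488) (nat_lit 48620) (nat_lit 455756) (nat_lit 48994) (nat_lit 960877) (nat_lit 0) (nat_lit 0),Row.mk (nat_lit 19656) (nat_lit 47872) (nat_lit 270429) (nat_lit 48433) (nat_lit 1498911) (nat_lit 0) (nat_lit 0),Row.mk (nat_lit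 19824) (nat_lit 47685) (nat_lit 2107101) (nat_lit 48246) (nat_lit 102763) (nat_lit 0) (nat_lit 0),Row.mk (nat_lit 19992) (nat_lit 46750) (nat_lit 2049560) (nat_lit 47498) (nat_lit 710507) (nat_lit 0) (nat_lit 0),Row.mk (nat_lit 20160) (nat_lit 45815) (nat_lit 1651718) (nat_lit 46563) (nat_lit 1795539) (nat_lit 0) (nat_lit 0),Row.mk (nat_lit 20328) (nat_lit 44693) (nat_lit 646322) (nat_lit 45628) (nat_lit 3659218) (nat_lit 0) (nat_lit 0),Row.mk (nat_lit 20496) (nat_lit 44506) (nat_lit 4254498) (nat_lit 45441) (nat_lit 1123018) (nat_lit 0) (nat_lit 0),Row.mk (nat_lit 20664) (nat_lit 43197) (nat_lit 2553699) (nat_lit 44319) (nat_lit 4162689) (nat_lit 0) (nat_lit 0),Row.mk (nat_lit 20832) (nat_lit 43010) (nat_lit 7495049) (nat_lit 44132) (nat_lit 893558) (nat_lit 0) (nat_lit 0),Row.mk (nat_lit 21000) (nat_lit 41327) (nat_lit 3983619) (nat_lit 42823) (nat_lit 6493549) (nat_lit 0) (nat_lit 0),Row.mk (nat_lit 21168) (nat_lit 41140) (nat_lit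 10352961) (nat_lit 42636) (nat_lit 2732769) (nat_lit 0) (nat_lit 0),Row.mk (nat_lit 21336) (nat_lit 38896) (nat_lit 2453430) (nat_lit 40953) (nat_lit 13890332) (nat_lit 0) (nat_lit 0),Row.mk (nat_lit 21504) (nat_lit 38709) (nat_lit 9780664) (nat_lit 40766) (nat_lit 10632301) (nat_lit 0) (nat_lit 0),Row.mk (nat_lit 21672) (nat_lit 38522) (nat_lit 18932203) (nat_lit 40579) (nat_lit 6563098) (nat_lit 0) (nat_lit 0),Row.mk (nat_lit 21840) (nat_lit 38335) (nat_lit 30362254) (nat_lit 40392) (nat_lit 1480762) (nat_lit 0) (nat_lit 0),Row.mk (nat_lit 22008) (nat_lit 31603) (nat_lit 6078706) (nat_lit 38148) (nat_lit 33692452) (nat_lit 0) (nat_lit 0),Row.mk (nat_lit 22176) (nat_lit 31416) (nat_lit 15980765) (nat_lit 37961) (nat_lit 33692452) (nat_lit 0) (nat_lit 0),Row.mk (nat_lit 22344) (nat_lit 31229) (nat_lit 28348198) (nat_lit 37774) (nat_lit 33692452) (nat_lit 0) (nat_lit 0),Row.mk (nat_lit 22512) (nat_lit 31042) (nat_lit 43794824) (nat_lit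 37587) (nat_lit 33692452) (nat_lit 0) (nat_lit 0),Row.mk (nat_lit 22680) (nat_lit 30855) (nat_lit 63087287) (nat_lit 37400) (nat_lit 33692452) (nat_lit 0) (nat_lit 0),Row.mk (nat_lit 22848) (nat_lit 30668) (nat_lit 87183107) (nat_lit 37213) (nat_lit 33692452) (nat_lit 0) (nat_lit 0),Row.mk (nat_lit 23016) (nat_lit 30481) (nat_lit 117278206) (nat_lit 37026) (nat_lit 33692452) (nat_lit 0) (nat_lit 0),Row.mk (nat_lit 23184) (nat_lit 30294) (nat_lit 154866258) (nat_lit 36839) (nat_lit 33692452) (nat_lit 0) (nat_lit 0),Row.mk (nat_lit 23352) (nat_lit 30107) (nat_lit 201812828) (nat_lit 36652) (nat_lit 33692452) (nat_lit 0) (nat_lit 0),Row.mk (nat_lit 23520) (nat_lit 29920) (nat_lit 260447962) (nat_lit 36465) (nat_lit 33692452) (nat_lit 0) (nat_lit 0),Row.mk (nat_lit 23688) (nat_lit 29733) (nat_lit 333681830) (nat_lit 36278) (nat_lit 33692452) (nat_lit 0) (nat_lit 0),Row.mk (nat_lit 23856) (nat_lit 29546) (nat_lit 425149164) (nat_lit 36091)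 (nat_lit 33692452) (nat_lit 0) (nat_lit 0),Row.mk (nat_lit 24024) (nat_lit 29359) (nat_lit 539389658) (nat_lit 35904) (nat_lit 33692452) (nat_lit 0) (nat_lit 0),Row.mk (nat_lit 24192) (nat_lit 29172) (nat_lit 682073279) (nat_lit 35717) (nat_lit 33692452) (nat_lit 0) (nat_lit 0),Row.mk (nat_lit 24360) (nat_lit 28985) (nat_lit 860281679) (nat_lit 35530) (nat_lit 33692452) (nat_lit 0) (nat_lit 0),Row.mk (nat_lit 24528) (nat_lit 28798) (nat_lit 1082859672) (nat_lit 35343) (nat_lit 33692452) (nat_lit 0) (nat_lit 0),Row.mk (nat_lit 24696) (nat_lit 28611) (nat_lit 1360854216) (nat_lit 35156) (nat_lit 33692452) (nat_lit 0) (nat_lit 0),Row.mk (nat_lit 24864) (nat_lit 28424) (nat_lit 1708062695) (nat_lit 34969) (nat_lit 33692452) (nat_lit 0) (nat_lit 0),Row.mk (nat_lit 25032) (nat_lit 28237) (nat_lit 2141717710) (nat_lit 34782) (nat_lit 33692452) (nat_lit 0) (nat_lit 0),Row.mk (nat_lit 25200) (nat_lit 28050) (nat_lit 2683342361) (nat_lit 34595)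 (nat_lit 33692452) (nat_lit 0) (nat_lit 0),Row.mk (nat_lit 25368) (nat_lit 27863) (nat_lit 3359818485) (nat_lit 34408) (nat_lit 33692452) (nat_lit 0) (nat_lit 0),Row.mk (nat_lit 25536) (nat_lit 27676) (nat_lit 4204720844) (nat_lit 34221) (nat_lit 33692452) (nat_lit 0) (nat_lit 0),Row.mk (nat_lit 25704) (nat_lit 27489) (nat_lit 5259983508) (nat_lit 34034) (nat_lit 33692452) (nat_lit 0) (nat_lit 0),Row.mk (nat_lit 25872) (nat_lit 27302) (nat_lit 6577981119) (nat_lit 33847) (nat_lit 33692452) (nat_lit 0) (nat_lit 0),Row.mk (nat_lit 26040) (nat_lit 32912) (nat_lit 8388608) (nat_lit 62084) (nat_lit 8249432185) (nat_lit 0) (nat_lit 0),Row.mk (nat_lit 26208) (nat_lit 32912) (nat_lit 8388608) (nat_lit 62084) (nat_lit 10305430352) (nat_lit 0) (nat_lit 0),Row.mk (nat_lit 26376) (nat_lit 32912) (nat_lit 8388608) (nat_lit 62084) (nat_lit 12873322465) (nat_lit 0) (nat_lit 0),Row.mk (nat_lit 26544) (nat_lit 32912) (nat_lit 8388608) (nat_lit 62084)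 (nat_lit 16080557766) (nat_lit 0) (nat_lit 0),Row.mk (nat_lit 26712) (nat_lit 32912) (nat_lit 8388608) (nat_lit 62084) (nat_lit 20086317287) (nat_lit 0) (nat_lit 0),Row.mk (nat_lit 26880) (nat_lit 32912) (nat_lit 8388608) (nat_lit 62084) (nat_lit 25089414294) (nat_lit 0) (nat_lit 0),Row.mk (nat_lit 27048) (nat_lit 32912) (nat_lit 8388608) (nat_lit 62084) (nat_lit 31338161762) (nat_lit 0) (nat_lit 0)],
[Row.mk (nat_lit 11592) (nat_lit 32912) (nat_lit 41) (nat_lit 61710) (nat_lit 8388566) (nat_lit 0) (nat_lit 0),Row.mk (nat_lit 11760) (nat_lit 32912) (nat_lit 51) (nat_lit 61710) (nat_lit 8388556) (nat_lit 0) (nat_lit 0),Row.mk (nat_lit 11928) (nat_lit 32912) (nat_lit 64) (nat_lit 61710) (nat_lit 8388543) (nat_lit 0) (nat_lit 0),Row.mk (nat_lit 12096) (nat_lit 32912) (nat_lit 79) (nat_lit 61710) (nat_lit 8388528) (nat_lit 0) (nat_lit 0),Row.mk (nat_lit 12264) (nat_lit 32912) (nat_lit 99) (nat_lit 61710) (nat_lit 8388508) (nat_lit 0)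 (nat_lit 0),Row.mk (nat_lit 12432) (nat_lit 32912) (nat_lit 124) (nat_lit 61710) (nat_lit 8388483) (nat_lit 0) (nat_lit 0),Row.mk (nat_lit 12600) (nat_lit 32912) (nat_lit 155) (nat_lit 61710) (nat_lit 8388452) (nat_lit 0) (nat_lit 0),Row.mk (nat_lit 12768) (nat_lit 32912) (nat_lit 194) (nat_lit 61710) (nat_lit 8388413) (nat_lit 0) (nat_lit 0),Row.mk (nat_lit 12936) (nat_lit 32912) (nat_lit 243) (nat_lit 61710) (nat_lit 8388364) (nat_lit 0) (nat_lit 0),Row.mk (nat_lit 13104) (nat_lit 32912) (nat_lit 303) (nat_lit 61710) (nat_lit 8388304) (nat_lit 0) (nat_lit 0),Row.mk (nat_lit 13272) (nat_lit 32912) (nat_lit 379) (nat_lit 61710) (nat_lit 8388228) (nat_lit 0) (nat_lit 0),Row.mk (nat_lit 13440) (nat_lit 32912) (nat_lit 473) (nat_lit 61710) (nat_lit 8388134) (nat_lit 0) (nat_lit 0),Row.mk (nat_lit 13608) (nat_lit 32912) (nat_lit 591) (nat_lit 61710) (nat_lit 8388016) (nat_lit 0) (nat_lit 0),Row.mk (nat_lit 13776) (nat_lit 32912) (nat_lit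 738) (nat_lit 61710) (nat_lit 8387869) (nat_lit 0) (nat_lit 0),Row.mk (nat_lit 13944) (nat_lit 32912) (nat_lit 922) (nat_lit 61710) (nat_lit 8387685) (nat_lit 0) (nat_lit 0),Row.mk (nat_lit 14112) (nat_lit 32912) (nat_lit 1152) (nat_lit 61710) (nat_lit 8387455) (nat_lit 0) (nat_lit 0),Row.mk (nat_lit 14280) (nat_lit 32912) (nat_lit 1439) (nat_lit 61710) (nat_lit 8387168) (nat_lit 0) (nat_lit 0),Row.mk (nat_lit 14448) (nat_lit 32912) (nat_lit 1797) (nat_lit 61710) (nat_lit 8386810) (nat_lit 0) (nat_lit 0),Row.mk (nat_lit 14616) (nat_lit 32912) (nat_lit 2244) (nat_lit 61710) (nat_lit 8386363) (nat_lit 0) (nat_lit 0),Row.mk (nat_lit 14784) (nat_lit 32912) (nat_lit 2803) (nat_lit 61710) (nat_lit 8385804) (nat_lit 0) (nat_lit 0),Row.mk (nat_lit 14952) (nat_lit 32912) (nat_lit 3501) (nat_lit 61710) (nat_lit 8385106) (nat_lit 0) (nat_lit 0),Row.mk (nat_lit 15120) (nat_lit 32912) (nat_lit 4373) (nat_lit 61710) (nat_lit 8384234) (nat_lit 0)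 (nat_lit 0),Row.mk (nat_lit 15288) (nat_lit 32912) (nat_lit 5462) (nat_lit 61710) (nat_lit 8383145) (nat_lit 0) (nat_lit 0),Row.mk (nat_lit 15456) (nat_lit 32912) (nat_lit 6822) (nat_lit 61710) (nat_lit 8381785) (nat_lit 0) (nat_lit 0),Row.mk (nat_lit 15624) (nat_lit 32912) (nat_lit 8521) (nat_lit 61710) (nat_lit 8380086) (nat_lit 0) (nat_lit 0),Row.mk (nat_lit 15792) (nat_lit 60962) (nat_lit 10588) (nat_lit 61336) (nat_lit 54) (nat_lit 0) (nat_lit 0),Row.mk (nat_lit 15960) (nat_lit 60401) (nat_lit 13208) (nat_lit 60775) (nat_lit 84) (nat_lit 0) (nat_lit 0),Row.mk (nat_lit 16128) (nat_lit 59840) (nat_lit 16470) (nat_lit 60214) (nat_lit 131) (nat_lit 0) (nat_lit 0),Row.mk (nat_lit 16296) (nat_lit 59279) (nat_lit 20530) (nat_lit 59653) (nat_lit 205) (nat_lit 0) (nat_lit 0),Row.mk (nat_lit 16464) (nat_lit 58718) (nat_lit 25577) (nat_lit 59092) (nat_lit 321) (nat_lit 0) (nat_lit 0),Row.mk (nat_lit 16632) (nat_lit 58157) (nat_lit 31846)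 (nat_lit 58531) (nat_lit 500) (nat_lit 0) (nat_lit 0),Row.mk (nat_lit 16800) (nat_lit 57596) (nat_lit 39619) (nat_lit 57970) (nat_lit 781) (nat_lit 0) (nat_lit 0),Row.mk (nat_lit 16968) (nat_lit 57035) (nat_lit 49240) (nat_lit 57409) (nat_lit 1219) (nat_lit 0) (nat_lit 0),Row.mk (nat_lit 17136) (nat_lit 56474) (nat_lit 61121) (nat_lit 56848) (nat_lit 1901) (nat_lit 0) (nat_lit 0),Row.mk (nat_lit 17304) (nat_lit 55913) (nat_lit 75747) (nat_lit 56287) (nat_lit 2966) (nat_lit 0) (nat_lit 0),Row.mk (nat_lit 17472) (nat_lit 55352) (nat_lit 93684) (nat_lit 55726) (nat_lit 4627) (nat_lit 0) (nat_lit 0),Row.mk (nat_lit 17640) (nat_lit 54791) (nat_lit 115570) (nat_lit 55165) (nat_lit 7219) (nat_lit 0) (nat_lit 0),Row.mk (nat_lit 17808) (nat_lit 54230) (nat_lit 142100) (nat_lit 54604) (nat_lit 11261) (nat_lit 0) (nat_lit 0),Row.mk (nat_lit 17976) (nat_lit 53669) (nat_lit 173978) (nat_lit 54043) (nat_lit 17566) (nat_lit 0) (nat_lit 0),Row.mk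 (nat_lit 18144) (nat_lit 53108) (nat_lit 211831) (nat_lit 53482) (nat_lit 27403) (nat_lit 0) (nat_lit 0),Row.mk (nat_lit 18312) (nat_lit 52547) (nat_lit 256051) (nat_lit 52921) (nat_lit 42747) (nat_lit 0) (nat_lit 0),Row.mk (nat_lit 18480) (nat_lit 51986) (nat_lit 306509) (nat_lit 52360) (nat_lit 66683) (nat_lit 0) (nat_lit 0),Row.mk (nat_lit 18648) (nat_lit 51425) (nat_lit 362086) (nat_lit 51799) (nat_lit 104022) (nat_lit 0) (nat_lit 0),Row.mk (nat_lit 18816) (nat_lit 50864) (nat_lit 419889) (nat_lit 51238) (nat_lit 162268) (nat_lit 0) (nat_lit 0),Row.mk (nat_lit 18984) (nat_lit 50303) (nat_lit 473972) (nat_lit 50677) (nat_lit 253129) (nat_lit 0) (nat_lit 0),Row.mk (nat_lit 19152) (nat_lit 49742) (nat_lit 513265) (nat_lit 50116) (nat_lit 394867) (nat_lit 0) (nat_lit 0),Row.mk (nat_lit 19320) (nat_lit 49181) (nat_lit 518265) (nat_lit 49555) (nat_lit 615970) (nat_lit 0) (nat_lit 0),Row.mk (nat_lit 19488) (nat_lit 48620) (nat_lit 455756)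 (nat_lit 48994) (nat_lit 960877) (nat_lit 0) (nat_lit 0),Row.mk (nat_lit 19656) (nat_lit 47872) (nat_lit 270429) (nat_lit 48433) (nat_lit 1498911) (nat_lit 0) (nat_lit 0),Row.mk (nat_lit 19824) (nat_lit 47685) (nat_lit 2107101) (nat_lit 48246) (nat_lit 102763) (nat_lit 0) (nat_lit 0),Row.mk (nat_lit 19992) (nat_lit 46750) (nat_lit 2049560) (nat_lit 47498) (nat_lit 710507) (nat_lit 0) (nat_lit 0),Row.mk (nat_lit 20160) (nat_lit 45815) (nat_lit 1651718) (nat_lit 46563) (nat_lit 1795539) (nat_lit 0) (nat_lit 0),Row.mk (nat_lit 20328) (nat_lit 44693) (nat_lit 646322) (nat_lit 45628) (nat_lit 3659218) (nat_lit 0) (nat_lit 0),Row.mk (nat_lit 20496) (nat_lit 44506) (nat_lit 4254498) (nat_lit 45441) (nat_lit 1123018) (nat_lit 0) (nat_lit 0),Row.mk (nat_lit 20664) (nat_lit 43197) (nat_lit 2553699) (nat_lit 44319) (nat_lit 4162689) (nat_lit 0) (nat_lit 0),Row.mk (nat_lit 20832) (nat_lit 43010) (nat_lit 7495049) (nat_lit 44132) (nat_lit 893558)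 (nat_lit 0) (nat_lit 0),Row.mk (nat_lit 21000) (nat_lit 41327) (nat_lit 3983619) (nat_lit 42823) (nat_lit 6493549) (nat_lit 0) (nat_lit 0),Row.mk (nat_lit 21168) (nat_lit 41140) (nat_lit 10352961) (nat_lit 42636) (nat_lit 2732769) (nat_lit 0) (nat_lit 0),Row.mk (nat_lit 21336) (nat_lit 38896) (nat_lit 2453430) (nat_lit 40953) (nat_lit 13890332) (nat_lit 0) (nat_lit 0),Row.mk (nat_lit 21504) (nat_lit 38709) (nat_lit 9780664) (nat_lit 40766) (nat_lit 10632301) (nat_lit 0) (nat_lit 0),Row.mk (nat_lit 21672) (nat_lit 38522) (nat_lit 18932203) (nat_lit 40579) (nat_lit 6563098) (nat_lit 0) (nat_lit 0),Row.mk (nat_lit 21840) (nat_lit 38335) (nat_lit 30362254) (nat_lit 40392) (nat_lit 1480762) (nat_lit 0) (nat_lit 0),Row.mk (nat_lit 22008) (nat_lit 31603) (nat_lit 6078706) (nat_lit 38148) (nat_lit 33692452) (nat_lit 0) (nat_lit 0),Row.mk (nat_lit 22176) (nat_lit 31416) (nat_lit 15980765) (nat_lit 37961) (nat_lit 33692452) (nat_lit 0) (nat_lit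 0),Row.mk (nat_lit 22344) (nat_lit 31229) (nat_lit 28348198) (nat_lit 37774) (nat_lit 33692452) (nat_lit 0) (nat_lit 0),Row.mk (nat_lit 22512) (nat_lit 31042) (nat_lit 43794824) (nat_lit 37587) (nat_lit 33692452) (nat_lit 0) (nat_lit 0),Row.mk (nat_lit 22680) (nat_lit 30855) (nat_lit 63087287) (nat_lit 37400) (nat_lit 33692452) (nat_lit 0) (nat_lit 0),Row.mk (nat_lit 22848) (nat_lit 30668) (nat_lit 87183107) (nat_lit 37213) (nat_lit 33692452) (nat_lit 0) (nat_lit 0),Row.mk (nat_lit 23016) (nat_lit 30481) (nat_lit 117278206) (nat_lit 37026) (nat_lit 33692452) (nat_lit 0) (nat_lit 0),Row.mk (nat_lit 23184) (nat_lit 30294) (nat_lit 154866258) (nat_lit 36839) (nat_lit 33692452) (nat_lit 0) (nat_lit 0),Row.mk (nat_lit 23352) (nat_lit 30107) (nat_lit 201812828) (nat_lit 36652) (nat_lit 33692452) (nat_lit 0) (nat_lit 0),Row.mk (nat_lit 23520) (nat_lit 29920) (nat_lit 260447962) (nat_lit 36465) (nat_lit 33692452) (nat_lit 0) (nat_lit 0),Row.mk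 (nat_lit 23688) (nat_lit 29733) (nat_lit 333681830) (nat_lit 36278) (nat_lit 33692452) (nat_lit 0) (nat_lit 0),Row.mk (nat_lit 23856) (nat_lit 29546) (nat_lit 425149164) (nat_lit 36091) (nat_lit 33692452) (nat_lit 0) (nat_lit 0),Row.mk (nat_lit 24024) (nat_lit 29359) (nat_lit 539389658) (nat_lit 35904) (nat_lit 33692452) (nat_lit 0) (nat_lit 0),Row.mk (nat_lit 24192) (nat_lit 29172) (nat_lit 682073279) (nat_lit 35717) (nat_lit 33692452) (nat_lit 0) (nat_lit 0),Row.mk (nat_lit 24360) (nat_lit 28985) (nat_lit 860281679) (nat_lit 35530) (nat_lit 33692452) (nat_lit 0) (nat_lit 0),Row.mk (nat_lit 24528) (nat_lit 28798) (nat_lit 1082859672) (nat_lit 35343) (nat_lit 33692452) (nat_lit 0) (nat_lit 0),Row.mk (nat_lit 24696) (nat_lit 28611) (nat_lit 1360854216) (nat_lit 35156) (nat_lit 33692452) (nat_lit 0) (nat_lit 0),Row.mk (nat_lit 24864) (nat_lit 28424) (nat_lit 1708062695) (nat_lit 34969) (nat_lit 33692452) (nat_lit 0) (nat_lit 0),Row.mk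 (nat_lit 25032) (nat_lit 28237) (nat_lit 2141717710) (nat_lit 34782) (nat_lit 33692452) (nat_lit 0) (nat_lit 0),Row.mk (nat_lit 25200) (nat_lit 28050) (nat_lit 2683342361) (nat_lit 34595) (nat_lit 33692452) (nat_lit 0) (nat_lit 0),Row.mk (nat_lit 25368) (nat_lit 27863) (nat_lit 3359818485) (nat_lit 34408) (nat_lit 33692452) (nat_lit 0) (nat_lit 0),Row.mk (nat_lit 25536) (nat_lit 27676) (nat_lit 4204720844) (nat_lit 34221) (nat_lit 33692452) (nat_lit 0) (nat_lit 0),Row.mk (nat_lit 25704) (nat_lit 27489) (nat_lit 5259983508) (nat_lit 34034) (nat_lit 33692452) (nat_lit 0) (nat_lit 0),Row.mk (nat_lit 25872) (nat_lit 27302) (nat_lit 6577981119) (nat_lit 33847) (nat_lit 33692452) (nat_lit 0) (nat_lit 0),Row.mk (nat_lit 26040) (nat_lit 32912) (nat_lit 8388608) (nat_lit 62084) (nat_lit 8249432185) (nat_lit 0) (nat_lit 0),Row.mk (nat_lit 26208) (nat_lit 32912) (nat_lit 8388608) (nat_lit 62084) (nat_lit 10305430352) (nat_lit 0) (nat_lit 0),Row.mk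 (nat_lit 26376) (nat_lit 32912) (nat_lit 8388608) (nat_lit 62084) (nat_lit 12873322465) (nat_lit 0) (nat_lit 0),Row.mk (nat_lit 26544) (nat_lit 32912) (nat_lit 8388608) (nat_lit 62084) (nat_lit 16080557766) (nat_lit 0) (nat_lit 0),Row.mk (nat_lit 26712) (nat_lit 32912) (nat_lit 8388608) (nat_lit 62084) (nat_lit 20086317287) (nat_lit 0) (nat_lit 0),Row.mk (nat_lit 26880) (nat_lit 32912) (nat_lit 8388608) (nat_lit 62084) (nat_lit 25089414294) (nat_lit 0) (nat_lit 0),Row.mk (nat_lit 27048) (nat_lit 32912) (nat_lit 8388608) (nat_lit 62084) (nat_lit 31338161762) (nat_lit 0) (nat_lit 0),Row.mk (nat_lit 27216) (nat_lit 32912) (nat_lit 8388608) (nat_lit 62084) (nat_lit 39142696606) (nat_lit 0) (nat_lit 0)],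
[Row.mk (nat_lit 11760) (nat_lit 32912) (nat_lit 51) (nat_lit 61710) (nat_lit 8388556) (nat_lit 0) (nat_lit 0),Row.mk (nat_lit 11928) (nat_lit 32912) (nat_lit 64) (nat_lit 61710) (nat_lit 8388543) (nat_lit 0) (nat_lit 0),Row.mk (nat_lit 12096) (nat_lit 32912) (nat_lit 79) (nat_lit 61710) (nat_lit 8388528) (nat_lit 0) (nat_lit 0),Row.mk (nat_lit 12264) (nat_lit 32912) (nat_lit 99) (nat_lit 61710) (nat_lit 8388508) (nat_lit 0) (nat_lit 0),Row.mk (nat_lit 12432) (nat_lit 32912) (nat_lit 124) (nat_lit 61710) (nat_lit 8388483) (nat_lit 0) (nat_lit 0),Row.mk (nat_lit 12600) (nat_lit 32912) (nat_lit 155) (nat_lit 61710) (nat_lit 8388452) (nat_lit 0) (nat_lit 0),Row.mk (nat_lit 12768) (nat_lit 32912) (nat_lit 194) (nat_lit 61710) (nat_lit 8388413) (nat_lit 0) (nat_lit 0),Row.mk (nat_lit 12936) (nat_lit 32912) (nat_lit 243) (nat_lit 61710) (nat_lit 8388364) (nat_lit 0) (nat_lit 0),Row.mk (nat_lit 13104) (nat_lit 32912) (nat_lit 303) (nat_lit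 61710) (nat_lit 8388304) (nat_lit 0) (nat_lit 0),Row.mk (nat_lit 13272) (nat_lit 32912) (nat_lit 379) (nat_lit 61710) (nat_lit 8388228) (nat_lit 0) (nat_lit 0),Row.mk (nat_lit 13440) (nat_lit 32912) (nat_lit 473) (nat_lit 61710) (nat_lit 8388134) (nat_lit 0) (nat_lit 0),Row.mk (nat_lit 13608) (nat_lit 32912) (nat_lit 591) (nat_lit 61710) (nat_lit 8388016) (nat_lit 0) (nat_lit 0),Row.mk (nat_lit 13776) (nat_lit 32912) (nat_lit 738) (nat_lit 61710) (nat_lit 8387869) (nat_lit 0) (nat_lit 0),Row.mk (nat_lit 13944) (nat_lit 32912) (nat_lit 922) (nat_lit 61710) (nat_lit 8387685) (nat_lit 0) (nat_lit 0),Row.mk (nat_lit 14112) (nat_lit 32912) (nat_lit 1152) (nat_lit 61710) (nat_lit 8387455) (nat_lit 0) (nat_lit 0),Row.mk (nat_lit 14280) (nat_lit 32912) (nat_lit 1439) (nat_lit 61710) (nat_lit 8387168) (nat_lit 0) (nat_lit 0),Row.mk (nat_lit 14448) (nat_lit 32912) (nat_lit 1797) (nat_lit 61710) (nat_lit 8386810) (nat_lit 0) (nat_lit 0),Row.mk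 (nat_lit 14616) (nat_lit 32912) (nat_lit 2244) (nat_lit 61710) (nat_lit 8386363) (nat_lit 0) (nat_lit 0),Row.mk (nat_lit 14784) (nat_lit 32912) (nat_lit 2803) (nat_lit 61710) (nat_lit 8385804) (nat_lit 0) (nat_lit 0),Row.mk (nat_lit 14952) (nat_lit 32912) (nat_lit 3501) (nat_lit 61710) (nat_lit 8385106) (nat_lit 0) (nat_lit 0),Row.mk (nat_lit 15120) (nat_lit 32912) (nat_lit 4373) (nat_lit 61710) (nat_lit 8384234) (nat_lit 0) (nat_lit 0),Row.mk (nat_lit 15288) (nat_lit 32912) (nat_lit 5462) (nat_lit 61710) (nat_lit 8383145) (nat_lit 0) (nat_lit 0),Row.mk (nat_lit 15456) (nat_lit 32912) (nat_lit 6822) (nat_lit 61710) (nat_lit 8381785) (nat_lit 0) (nat_lit 0),Row.mk (nat_lit 15624) (nat_lit 32912) (nat_lit 8521) (nat_lit 61710) (nat_lit 8380086) (nat_lit 0) (nat_lit 0),Row.mk (nat_lit 15792) (nat_lit 60962) (nat_lit 10588) (nat_lit 61336) (nat_lit 54) (nat_lit 0) (nat_lit 0),Row.mk (nat_lit 15960) (nat_lit 60401) (nat_lit 13208) (nat_lit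 60775) (nat_lit 84) (nat_lit 0) (nat_lit 0),Row.mk (nat_lit 16128) (nat_lit 59840) (nat_lit 16470) (nat_lit 60214) (nat_lit 131) (nat_lit 0) (nat_lit 0),Row.mk (nat_lit 16296) (nat_lit 59279) (nat_lit 20530) (nat_lit 59653) (nat_lit 205) (nat_lit 0) (nat_lit 0),Row.mk (nat_lit 16464) (nat_lit 58718) (nat_lit 25577) (nat_lit 59092) (nat_lit 321) (nat_lit 0) (nat_lit 0),Row.mk (nat_lit 16632) (nat_lit 58157) (nat_lit 31846) (nat_lit 58531) (nat_lit 500) (nat_lit 0) (nat_lit 0),Row.mk (nat_lit 16800) (nat_lit 57596) (nat_lit 39619) (nat_lit 57970) (nat_lit 781) (nat_lit 0) (nat_lit 0),Row.mk (nat_lit 16968) (nat_lit 57035) (nat_lit 49240) (nat_lit 57409) (nat_lit 1219) (nat_lit 0) (nat_lit 0),Row.mk (nat_lit 17136) (nat_lit 56474) (nat_lit 61121) (nat_lit 56848) (nat_lit 1901) (nat_lit 0) (nat_lit 0),Row.mk (nat_lit 17304) (nat_lit 55913) (nat_lit 75747) (nat_lit 56287) (nat_lit 2966) (nat_lit 0) (nat_lit 0),Row.mk (nat_lit 17472) (nat_lit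 55352) (nat_lit 93684) (nat_lit 55726) (nat_lit 4627) (nat_lit 0) (nat_lit 0),Row.mk (nat_lit 17640) (nat_lit 54791) (nat_lit 115570) (nat_lit 55165) (nat_lit 7219) (nat_lit 0) (nat_lit 0),Row.mk (nat_lit 17808) (nat_lit 54230) (nat_lit 142100) (nat_lit 54604) (nat_lit 11261) (nat_lit 0) (nat_lit 0),Row.mk (nat_lit 17976) (nat_lit 53669) (nat_lit 173978) (nat_lit 54043) (nat_lit 17566) (nat_lit 0) (nat_lit 0),Row.mk (nat_lit 18144) (nat_lit 53108) (nat_lit 211831) (nat_lit 53482) (nat_lit 27403) (nat_lit 0) (nat_lit 0),Row.mk (nat_lit 18312) (nat_lit 52547) (nat_lit 256051) (nat_lit 52921) (nat_lit 42747) (nat_lit 0) (nat_lit 0),Row.mk (nat_lit 18480) (nat_lit 51986) (nat_lit 306509) (nat_lit 52360) (nat_lit 66683) (nat_lit 0) (nat_lit 0),Row.mk (nat_lit 18648) (nat_lit 51425) (nat_lit 362086) (nat_lit 51799) (nat_lit 104022) (nat_lit 0) (nat_lit 0),Row.mk (nat_lit 18816) (nat_lit 50864) (nat_lit 419889) (nat_lit 51238) (nat_lit 162268)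 (nat_lit 0) (nat_lit 0),Row.mk (nat_lit 18984) (nat_lit 50303) (nat_lit 473972) (nat_lit 50677) (nat_lit 253129) (nat_lit 0) (nat_lit 0),Row.mk (nat_lit 19152) (nat_lit 49742) (nat_lit 513265) (nat_lit 50116) (nat_lit 394867) (nat_lit 0) (nat_lit 0),Row.mk (nat_lit 19320) (nat_lit 49181) (nat_lit 518265) (nat_lit 49555) (nat_lit 615970) (nat_lit 0) (nat_lit 0),Row.mk (nat_lit 19488) (nat_lit 48620) (nat_lit 455756) (nat_lit 48994) (nat_lit 960877) (nat_lit 0) (nat_lit 0),Row.mk (nat_lit 19656) (nat_lit 47872) (nat_lit 270429) (nat_lit 48433) (nat_lit 1498911) (nat_lit 0) (nat_lit 0),Row.mk (nat_lit 19824) (nat_lit 47685) (nat_lit 2107101) (nat_lit 48246) (nat_lit 102763) (nat_lit 0) (nat_lit 0),Row.mk (nat_lit 19992) (nat_lit 46750) (nat_lit 2049560) (nat_lit 47498) (nat_lit 710507) (nat_lit 0) (nat_lit 0),Row.mk (nat_lit 20160) (nat_lit 45815) (nat_lit 1651718) (nat_lit 46563) (nat_lit 1795539) (nat_lit 0) (nat_lit 0),Row.mk (nat_lit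 20328) (nat_lit 44693) (nat_lit 646322) (nat_lit 45628) (nat_lit 3659218) (nat_lit 0) (nat_lit 0),Row.mk (nat_lit 20496) (nat_lit 44506) (nat_lit 4254498) (nat_lit 45441) (nat_lit 1123018) (nat_lit 0) (nat_lit 0),Row.mk (nat_lit 20664) (nat_lit 43197) (nat_lit 2553699) (nat_lit 44319) (nat_lit 4162689) (nat_lit 0) (nat_lit 0),Row.mk (nat_lit 20832) (nat_lit 43010) (nat_lit 7495049) (nat_lit 44132) (nat_lit 893558) (nat_lit 0) (nat_lit 0),Row.mk (nat_lit 21000) (nat_lit 41327) (nat_lit 3983619) (nat_lit 42823) (nat_lit 6493549) (nat_lit 0) (nat_lit 0),Row.mk (nat_lit 21168) (nat_lit 41140) (nat_lit 10352961) (nat_lit 42636) (nat_lit 2732769) (nat_lit 0) (nat_lit 0),Row.mk (nat_lit 21336) (nat_lit 38896) (nat_lit 2453430) (nat_lit 40953) (nat_lit 13890332) (nat_lit 0) (nat_lit 0),Row.mk (nat_lit 21504) (nat_lit 38709) (nat_lit 9780664) (nat_lit 40766) (nat_lit 10632301) (nat_lit 0) (nat_lit 0),Row.mk (nat_lit 21672) (nat_lit 38522)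 (nat_lit 18932203) (nat_lit 40579) (nat_lit 6563098) (nat_lit 0) (nat_lit 0),Row.mk (nat_lit 21840) (nat_lit 38335) (nat_lit 30362254) (nat_lit 40392) (nat_lit 1480762) (nat_lit 0) (nat_lit 0),Row.mk (nat_lit 22008) (nat_lit 31603) (nat_lit 6078706) (nat_lit 38148) (nat_lit 33692452) (nat_lit 0) (nat_lit 0),Row.mk (nat_lit 22176) (nat_lit 31416) (nat_lit 15980765) (nat_lit 37961) (nat_lit 33692452) (nat_lit 0) (nat_lit 0),Row.mk (nat_lit 22344) (nat_lit 31229) (nat_lit 28348198) (nat_lit 37774) (nat_lit 33692452) (nat_lit 0) (nat_lit 0),Row.mk (nat_lit 22512) (nat_lit 31042) (nat_lit 43794824) (nat_lit 37587) (nat_lit 33692452) (nat_lit 0) (nat_lit 0),Row.mk (nat_lit 22680) (nat_lit 30855) (nat_lit 63087287) (nat_lit 37400) (nat_lit 33692452) (nat_lit 0) (nat_lit 0),Row.mk (nat_lit 22848) (nat_lit 30668) (nat_lit 87183107) (nat_lit 37213) (nat_lit 33692452) (nat_lit 0) (nat_lit 0),Row.mk (nat_lit 23016) (nat_lit 30481) (nat_lit 117278206)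 (nat_lit 37026) (nat_lit 33692452) (nat_lit 0) (nat_lit 0),Row.mk (nat_lit 23184) (nat_lit 30294) (nat_lit 154866258) (nat_lit 36839) (nat_lit 33692452) (nat_lit 0) (nat_lit 0),Row.mk (nat_lit 23352) (nat_lit 30107) (nat_lit 201812828) (nat_lit 36652) (nat_lit 33692452) (nat_lit 0) (nat_lit 0),Row.mk (nat_lit 23520) (nat_lit 29920) (nat_lit 260447962) (nat_lit 36465) (nat_lit 33692452) (nat_lit 0) (nat_lit 0),Row.mk (nat_lit 23688) (nat_lit 29733) (nat_lit 333681830) (nat_lit 36278) (nat_lit 33692452) (nat_lit 0) (nat_lit 0),Row.mk (nat_lit 23856) (nat_lit 29546) (nat_lit 425149164) (nat_lit 36091) (nat_lit 33692452) (nat_lit 0) (nat_lit 0),Row.mk (nat_lit 24024) (nat_lit 29359) (nat_lit 539389658) (nat_lit 35904) (nat_lit 33692452) (nat_lit 0) (nat_lit 0),Row.mk (nat_lit 24192) (nat_lit 29172) (nat_lit 682073279) (nat_lit 35717) (nat_lit 33692452) (nat_lit 0) (nat_lit 0),Row.mk (nat_lit 24360) (nat_lit 28985) (nat_lit 860281679)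 (nat_lit 35530) (nat_lit 33692452) (nat_lit 0) (nat_lit 0),Row.mk (nat_lit 24528) (nat_lit 28798) (nat_lit 1082859672) (nat_lit 35343) (nat_lit 33692452) (nat_lit 0) (nat_lit 0),Row.mk (nat_lit 24696) (nat_lit 28611) (nat_lit 1360854216) (nat_lit 35156) (nat_lit 33692452) (nat_lit 0) (nat_lit 0),Row.mk (nat_lit 24864) (nat_lit 28424) (nat_lit 1708062695) (nat_lit 34969) (nat_lit 33692452) (nat_lit 0) (nat_lit 0),Row.mk (nat_lit 25032) (nat_lit 28237) (nat_lit 2141717710) (nat_lit 34782) (nat_lit 33692452) (nat_lit 0) (nat_lit 0),Row.mk (nat_lit 25200) (nat_lit 28050) (nat_lit 2683342361) (nat_lit 34595) (nat_lit 33692452) (nat_lit 0) (nat_lit 0),Row.mk (nat_lit 25368) (nat_lit 27863) (nat_lit 3359818485) (nat_lit 34408) (nat_lit 33692452) (nat_lit 0) (nat_lit 0),Row.mk (nat_lit 25536) (nat_lit 27676) (nat_lit 4204720844) (nat_lit 34221) (nat_lit 33692452) (nat_lit 0) (nat_lit 0),Row.mk (nat_lit 25704) (nat_lit 27489) (nat_lit 5259983508)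 (nat_lit 34034) (nat_lit 33692452) (nat_lit 0) (nat_lit 0),Row.mk (nat_lit 25872) (nat_lit 27302) (nat_lit 6577981119) (nat_lit 33847) (nat_lit 33692452) (nat_lit 0) (nat_lit 0),Row.mk (nat_lit 26040) (nat_lit 32912) (nat_lit 8388608) (nat_lit 62084) (nat_lit 8249432185) (nat_lit 0) (nat_lit 0),Row.mk (nat_lit 26208) (nat_lit 32912) (nat_lit 8388608) (nat_lit 62084) (nat_lit 10305430352) (nat_lit 0) (nat_lit 0),Row.mk (nat_lit 26376) (nat_lit 32912) (nat_lit 8388608) (nat_lit 62084) (nat_lit 12873322465) (nat_lit 0) (nat_lit 0),Row.mk (nat_lit 26544) (nat_lit 32912) (nat_lit 8388608) (nat_lit 62084) (nat_lit 16080557766) (nat_lit 0) (nat_lit 0),Row.mk (nat_lit 26712) (nat_lit 32912) (nat_lit 8388608) (nat_lit 62084) (nat_lit 20086317287) (nat_lit 0) (nat_lit 0),Row.mk (nat_lit 26880) (nat_lit 32912) (nat_lit 8388608) (nat_lit 62084) (nat_lit 25089414294) (nat_lit 0) (nat_lit 0),Row.mk (nat_lit 27048) (nat_lit 32912) (nat_lit 8388608)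 (nat_lit 62084) (nat_lit 31338161762) (nat_lit 0) (nat_lit 0),Row.mk (nat_lit 27216) (nat_lit 32912) (nat_lit 8388608) (nat_lit 62084) (nat_lit 39142696606) (nat_lit 0) (nat_lit 0)],
[Row.mk (nat_lit 12096) (nat_lit 32912) (nat_lit 79) (nat_lit 61710) (nat_lit 8388528) (nat_lit 0) (nat_lit 0),Row.mk (nat_lit 12264) (nat_lit 32912) (nat_lit 99) (nat_lit 61710) (nat_lit 8388508) (nat_lit 0) (nat_lit 0),Row.mk (nat_lit 12432) (nat_lit 32912) (nat_lit 124) (nat_lit 61710) (nat_lit 8388483) (nat_lit 0) (nat_lit 0),Row.mk (nat_lit 12600) (nat_lit 32912) (nat_lit 155) (nat_lit 61710) (nat_lit 8388452) (nat_lit 0) (nat_lit 0),Row.mk (nat_lit 12768) (nat_lit 32912) (nat_lit 194) (nat_lit 61710) (nat_lit 8388413) (nat_lit 0) (nat_lit 0),Row.mk (nat_lit 12936) (nat_lit 32912) (nat_lit 243) (nat_lit 61710) (nat_lit 8388364) (nat_lit 0) (nat_lit 0),Row.mk (nat_lit 13104) (nat_lit 32912) (nat_lit 303) (nat_lit 61710) (nat_lit 8388304) (nat_lit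 0) (nat_lit 0),Row.mk (nat_lit 13272) (nat_lit 32912) (nat_lit 379) (nat_lit 61710) (nat_lit 8388228) (nat_lit 0) (nat_lit 0),Row.mk (nat_lit 13440) (nat_lit 32912) (nat_lit 473) (nat_lit 61710) (nat_lit 8388134) (nat_lit 0) (nat_lit 0),Row.mk (nat_lit 13608) (nat_lit 32912) (nat_lit 591) (nat_lit 61710) (nat_lit 8388016) (nat_lit 0) (nat_lit 0),Row.mk (nat_lit 13776) (nat_lit 32912) (nat_lit 738) (nat_lit 61710) (nat_lit 8387869) (nat_lit 0) (nat_lit 0),Row.mk (nat_lit 13944) (nat_lit 32912) (nat_lit 922) (nat_lit 61710) (nat_lit 8387685) (nat_lit 0) (nat_lit 0),Row.mk (nat_lit 14112) (nat_lit 32912) (nat_lit 1152) (nat_lit 61710) (nat_lit 8387455) (nat_lit 0) (nat_lit 0),Row.mk (nat_lit 14280) (nat_lit 32912) (nat_lit 1439) (nat_lit 61710) (nat_lit 8387168) (nat_lit 0) (nat_lit 0),Row.mk (nat_lit 14448) (nat_lit 32912) (nat_lit 1797) (nat_lit 61710) (nat_lit 8386810) (nat_lit 0) (nat_lit 0),Row.mk (nat_lit 14616) (nat_lit 32912)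 (nat_lit 2244) (nat_lit 61710) (nat_lit 8386363) (nat_lit 0) (nat_lit 0),Row.mk (nat_lit 14784) (nat_lit 32912) (nat_lit 2803) (nat_lit 61710) (nat_lit 8385804) (nat_lit 0) (nat_lit 0),Row.mk (nat_lit 14952) (nat_lit 32912) (nat_lit 3501) (nat_lit 61710) (nat_lit 8385106) (nat_lit 0) (nat_lit 0),Row.mk (nat_lit 15120) (nat_lit 32912) (nat_lit 4373) (nat_lit 61710) (nat_lit 8384234) (nat_lit 0) (nat_lit 0),Row.mk (nat_lit 15288) (nat_lit 32912) (nat_lit 5462) (nat_lit 61710) (nat_lit 8383145) (nat_lit 0) (nat_lit 0),Row.mk (nat_lit 15456) (nat_lit 32912) (nat_lit 6822) (nat_lit 61710) (nat_lit 8381785) (nat_lit 0) (nat_lit 0),Row.mk (nat_lit 15624) (nat_lit 32912) (nat_lit 8521) (nat_lit 61710) (nat_lit 8380086) (nat_lit 0) (nat_lit 0),Row.mk (nat_lit 15792) (nat_lit 60962) (nat_lit 10588) (nat_lit 61336) (nat_lit 54) (nat_lit 0) (nat_lit 0),Row.mk (nat_lit 15960) (nat_lit 60401) (nat_lit 13208) (nat_lit 60775) (nat_lit 84) (nat_lit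 0) (nat_lit 0),Row.mk (nat_lit 16128) (nat_lit 59840) (nat_lit 16470) (nat_lit 60214) (nat_lit 131) (nat_lit 0) (nat_lit 0),Row.mk (nat_lit 16296) (nat_lit 59279) (nat_lit 20530) (nat_lit 59653) (nat_lit 205) (nat_lit 0) (nat_lit 0),Row.mk (nat_lit 16464) (nat_lit 58718) (nat_lit 25577) (nat_lit 59092) (nat_lit 321) (nat_lit 0) (nat_lit 0),Row.mk (nat_lit 16632) (nat_lit 58157) (nat_lit 31846) (nat_lit 58531) (nat_lit 500) (nat_lit 0) (nat_lit 0),Row.mk (nat_lit 16800) (nat_lit 57596) (nat_lit 39619) (nat_lit 57970) (nat_lit 781) (nat_lit 0) (nat_lit 0),Row.mk (nat_lit 16968) (nat_lit 57035) (nat_lit 49240) (nat_lit 57409) (nat_lit 1219) (nat_lit 0) (nat_lit 0),Row.mk (nat_lit 17136) (nat_lit 56474) (nat_lit 61121) (nat_lit 56848) (nat_lit 1901) (nat_lit 0) (nat_lit 0),Row.mk (nat_lit 17304) (nat_lit 55913) (nat_lit 75747) (nat_lit 56287) (nat_lit 2966) (nat_lit 0) (nat_lit 0),Row.mk (nat_lit 17472) (nat_lit 55352) (nat_lit 93684)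 (nat_lit 55726) (nat_lit 4627) (nat_lit 0) (nat_lit 0),Row.mk (nat_lit 17640) (nat_lit 54791) (nat_lit 115570) (nat_lit 55165) (nat_lit 7219) (nat_lit 0) (nat_lit 0),Row.mk (nat_lit 17808) (nat_lit 54230) (nat_lit 142100) (nat_lit 54604) (nat_lit 11261) (nat_lit 0) (nat_lit 0),Row.mk (nat_lit 17976) (nat_lit 53669) (nat_lit 173978) (nat_lit 54043) (nat_lit 17566) (nat_lit 0) (nat_lit 0),Row.mk (nat_lit 18144) (nat_lit 53108) (nat_lit 211831) (nat_lit 53482) (nat_lit 27403) (nat_lit 0) (nat_lit 0),Row.mk (nat_lit 18312) (nat_lit 52547) (nat_lit 256051) (nat_lit 52921) (nat_lit 42747) (nat_lit 0) (nat_lit 0),Row.mk (nat_lit 18480) (nat_lit 51986) (nat_lit 306509) (nat_lit 52360) (nat_lit 66683) (nat_lit 0) (nat_lit 0),Row.mk (nat_lit 18648) (nat_lit 51425) (nat_lit 362086) (nat_lit 51799) (nat_lit 104022) (nat_lit 0) (nat_lit 0),Row.mk (nat_lit 18816) (nat_lit 50864) (nat_lit 419889) (nat_lit 51238) (nat_lit 162268) (nat_lit 0) (nat_lit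 0),Row.mk (nat_lit 18984) (nat_lit 50303) (nat_lit 473972) (nat_lit 50677) (nat_lit 253129) (nat_lit 0) (nat_lit 0),Row.mk (nat_lit 19152) (nat_lit 49742) (nat_lit 513265) (nat_lit 50116) (nat_lit 394867) (nat_lit 0) (nat_lit 0),Row.mk (nat_lit 19320) (nat_lit 49181) (nat_lit 518265) (nat_lit 49555) (nat_lit 615970) (nat_lit 0) (nat_lit 0),Row.mk (nat_lit 19488) (nat_lit 48620) (nat_lit 455756) (nat_lit 48994) (nat_lit 960877) (nat_lit 0) (nat_lit 0),Row.mk (nat_lit 19656) (nat_lit 47872) (nat_lit 270429) (nat_lit 48433) (nat_lit 1498911) (nat_lit 0) (nat_lit 0),Row.mk (nat_lit 19824) (nat_lit 47685) (nat_lit 2107101) (nat_lit 48246) (nat_lit 102763) (nat_lit 0) (nat_lit 0),Row.mk (nat_lit 19992) (nat_lit 46750) (nat_lit 2049560) (nat_lit 47498) (nat_lit 710507) (nat_lit 0) (nat_lit 0),Row.mk (nat_lit 20160) (nat_lit 45815) (nat_lit 1651718) (nat_lit 46563) (nat_lit 1795539) (nat_lit 0) (nat_lit 0),Row.mk (nat_lit 20328) (nat_lit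 44693) (nat_lit 646322) (nat_lit 45628) (nat_lit 3659218) (nat_lit 0) (nat_lit 0),Row.mk (nat_lit 20496) (nat_lit 44506) (nat_lit 4254498) (nat_lit 45441) (nat_lit 1123018) (nat_lit 0) (nat_lit 0),Row.mk (nat_lit 20664) (nat_lit 43197) (nat_lit 2553699) (nat_lit 44319) (nat_lit 4162689) (nat_lit 0) (nat_lit 0),Row.mk (nat_lit 20832) (nat_lit 43010) (nat_lit 7495049) (nat_lit 44132) (nat_lit 893558) (nat_lit 0) (nat_lit 0),Row.mk (nat_lit 21000) (nat_lit 41327) (nat_lit 3983619) (nat_lit 42823) (nat_lit 6493549) (nat_lit 0) (nat_lit 0),Row.mk (nat_lit 21168) (nat_lit 41140) (nat_lit 10352961) (nat_lit 42636) (nat_lit 2732769) (nat_lit 0) (nat_lit 0),Row.mk (nat_lit 21336) (nat_lit 38896) (nat_lit 2453430) (nat_lit 40953) (nat_lit 13890332) (nat_lit 0) (nat_lit 0),Row.mk (nat_lit 21504) (nat_lit 38709) (nat_lit 9780664) (nat_lit 40766) (nat_lit 10632301) (nat_lit 0) (nat_lit 0),Row.mk (nat_lit 21672) (nat_lit 38522) (nat_lit 18932203)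 (nat_lit 40579) (nat_lit 6563098) (nat_lit 0) (nat_lit 0),Row.mk (nat_lit 21840) (nat_lit 38335) (nat_lit 30362254) (nat_lit 40392) (nat_lit 1480762) (nat_lit 0) (nat_lit 0),Row.mk (nat_lit 22008) (nat_lit 31603) (nat_lit 6078706) (nat_lit 38148) (nat_lit 33692452) (nat_lit 0) (nat_lit 0),Row.mk (nat_lit 22176) (nat_lit 31416) (nat_lit 15980765) (nat_lit 37961) (nat_lit 33692452) (nat_lit 0) (nat_lit 0),Row.mk (nat_lit 22344) (nat_lit 31229) (nat_lit 28348198) (nat_lit 37774) (nat_lit 33692452) (nat_lit 0) (nat_lit 0),Row.mk (nat_lit 22512) (nat_lit 31042) (nat_lit 43794824) (nat_lit 37587) (nat_lit 33692452) (nat_lit 0) (nat_lit 0),Row.mk (nat_lit 22680) (nat_lit 30855) (nat_lit 63087287) (nat_lit 37400) (nat_lit 33692452) (nat_lit 0) (nat_lit 0),Row.mk (nat_lit 22848) (nat_lit 30668) (nat_lit 87183107) (nat_lit 37213) (nat_lit 33692452) (nat_lit 0) (nat_lit 0),Row.mk (nat_lit 23016) (nat_lit 30481) (nat_lit 117278206) (nat_lit 37026)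 (nat_lit 33692452) (nat_lit 0) (nat_lit 0),Row.mk (nat_lit 23184) (nat_lit 30294) (nat_lit 154866258) (nat_lit 36839) (nat_lit 33692452) (nat_lit 0) (nat_lit 0),Row.mk (nat_lit 23352) (nat_lit 30107) (nat_lit 201812828) (nat_lit 36652) (nat_lit 33692452) (nat_lit 0) (nat_lit 0),Row.mk (nat_lit 23520) (nat_lit 29920) (nat_lit 260447962) (nat_lit 36465) (nat_lit 33692452) (nat_lit 0) (nat_lit 0),Row.mk (nat_lit 23688) (nat_lit 29733) (nat_lit 333681830) (nat_lit 36278) (nat_lit 33692452) (nat_lit 0) (nat_lit 0),Row.mk (nat_lit 23856) (nat_lit 29546) (nat_lit 425149164) (nat_lit 36091) (nat_lit 33692452) (nat_lit 0) (nat_lit 0),Row.mk (nat_lit 24024) (nat_lit 29359) (nat_lit 539389658) (nat_lit 35904) (nat_lit 33692452) (nat_lit 0) (nat_lit 0),Row.mk (nat_lit 24192) (nat_lit 29172) (nat_lit 682073279) (nat_lit 35717) (nat_lit 33692452) (nat_lit 0) (nat_lit 0),Row.mk (nat_lit 24360) (nat_lit 28985) (nat_lit 860281679) (nat_lit 35530)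 (nat_lit 33692452) (nat_lit 0) (nat_lit 0),Row.mk (nat_lit 24528) (nat_lit 28798) (nat_lit 1082859672) (nat_lit 35343) (nat_lit 33692452) (nat_lit 0) (nat_lit 0),Row.mk (nat_lit 24696) (nat_lit 28611) (nat_lit 1360854216) (nat_lit 35156) (nat_lit 33692452) (nat_lit 0) (nat_lit 0),Row.mk (nat_lit 24864) (nat_lit 28424) (nat_lit 1708062695) (nat_lit 34969) (nat_lit 33692452) (nat_lit 0) (nat_lit 0),Row.mk (nat_lit 25032) (nat_lit 28237) (nat_lit 2141717710) (nat_lit 34782) (nat_lit 33692452) (nat_lit 0) (nat_lit 0),Row.mk (nat_lit 25200) (nat_lit 28050) (nat_lit 2683342361) (nat_lit 34595) (nat_lit 33692452) (nat_lit 0) (nat_lit 0),Row.mk (nat_lit 25368) (nat_lit 27863) (nat_lit 3359818485) (nat_lit 34408) (nat_lit 33692452) (nat_lit 0) (nat_lit 0),Row.mk (nat_lit 25536) (nat_lit 27676) (nat_lit 4204720844) (nat_lit 34221) (nat_lit 33692452) (nat_lit 0) (nat_lit 0),Row.mk (nat_lit 25704) (nat_lit 27489) (nat_lit 5259983508) (nat_lit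 34034) (nat_lit 33692452) (nat_lit 0) (nat_lit 0),Row.mk (nat_lit 25872) (nat_lit 27302) (nat_lit 6577981119) (nat_lit 33847) (nat_lit 33692452) (nat_lit 0) (nat_lit 0),Row.mk (nat_lit 26040) (nat_lit 32912) (nat_lit 8388608) (nat_lit 62084) (nat_lit 8249432185) (nat_lit 0) (nat_lit 0),Row.mk (nat_lit 26208) (nat_lit 32912) (nat_lit 8388608) (nat_lit 62084) (nat_lit 10305430352) (nat_lit 0) (nat_lit 0),Row.mk (nat_lit 26376) (nat_lit 32912) (nat_lit 8388608) (nat_lit 62084) (nat_lit 12873322465) (nat_lit 0) (nat_lit 0),Row.mk (nat_lit 26544) (nat_lit 32912) (nat_lit 8388608) (nat_lit 62084) (nat_lit 16080557766) (nat_lit 0) (nat_lit 0),Row.mk (nat_lit 26712) (nat_lit 32912) (nat_lit 8388608) (nat_lit 62084) (nat_lit 20086317287) (nat_lit 0) (nat_lit 0),Row.mk (nat_lit 26880) (nat_lit 32912) (nat_lit 8388608) (nat_lit 62084) (nat_lit 25089414294) (nat_lit 0) (nat_lit 0),Row.mk (nat_lit 27048) (nat_lit 32912) (nat_lit 8388608) (nat_lit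 62084) (nat_lit 31338161762) (nat_lit 0) (nat_lit 0),Row.mk (nat_lit 27216) (nat_lit 32912) (nat_lit 8388608) (nat_lit 62084) (nat_lit 39142696606) (nat_lit 0) (nat_lit 0),Row.mk (nat_lit 27384) (nat_lit 32912) (nat_lit 8388608) (nat_lit 62084) (nat_lit 48890372351) (nat_lit 0) (nat_lit 0)],
[Row.mk (nat_lit 12264) (nat_lit 32912) (nat_lit 99) (nat_lit 61710) (nat_lit 8388508) (nat_lit 0) (nat_lit 0),Row.mk (nat_lit 12432) (nat_lit 32912) (nat_lit 124) (nat_lit 61710) (nat_lit 8388483) (nat_lit 0) (nat_lit 0),Row.mk (nat_lit 12600) (nat_lit 32912) (nat_lit 155) (nat_lit 61710) (nat_lit 8388452) (nat_lit 0) (nat_lit 0),Row.mk (nat_lit 12768) (nat_lit 32912) (nat_lit 194) (nat_lit 61710) (nat_lit 8388413) (nat_lit 0) (nat_lit 0),Row.mk (nat_lit 12936) (nat_lit 32912) (nat_lit 243) (nat_lit 61710) (nat_lit 8388364) (nat_lit 0) (nat_lit 0),Row.mk (nat_lit 13104) (nat_lit 32912) (nat_lit 303) (nat_lit 61710) (nat_lit 8388304) (nat_lit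 0) (nat_lit 0),Row.mk (nat_lit 13272) (nat_lit 32912) (nat_lit 379) (nat_lit 61710) (nat_lit 8388228) (nat_lit 0) (nat_lit 0),Row.mk (nat_lit 13440) (nat_lit 32912) (nat_lit 473) (nat_lit 61710) (nat_lit 8388134) (nat_lit 0) (nat_lit 0),Row.mk (nat_lit 13608) (nat_lit 32912) (nat_lit 591) (nat_lit 61710) (nat_lit 8388016) (nat_lit 0) (nat_lit 0),Row.mk (nat_lit 13776) (nat_lit 32912) (nat_lit 738) (nat_lit 61710) (nat_lit 8387869) (nat_lit 0) (nat_lit 0),Row.mk (nat_lit 13944) (nat_lit 32912) (nat_lit 922) (nat_lit 61710) (nat_lit 8387685) (nat_lit 0) (nat_lit 0),Row.mk (nat_lit 14112) (nat_lit 32912) (nat_lit 1152) (nat_lit 61710) (nat_lit 8387455) (nat_lit 0) (nat_lit 0),Row.mk (nat_lit 14280) (nat_lit 32912) (nat_lit 1439) (nat_lit 61710) (nat_lit 8387168) (nat_lit 0) (nat_lit 0),Row.mk (nat_lit 14448) (nat_lit 32912) (nat_lit 1797) (nat_lit 61710) (nat_lit 8386810) (nat_lit 0) (nat_lit 0),Row.mk (nat_lit 14616) (nat_lit 32912)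 (nat_lit 2244) (nat_lit 61710) (nat_lit 8386363) (nat_lit 0) (nat_lit 0),Row.mk (nat_lit 14784) (nat_lit 32912) (nat_lit 2803) (nat_lit 61710) (nat_lit 8385804) (nat_lit 0) (nat_lit 0),Row.mk (nat_lit 14952) (nat_lit 32912) (nat_lit 3501) (nat_lit 61710) (nat_lit 8385106) (nat_lit 0) (nat_lit 0),Row.mk (nat_lit 15120) (nat_lit 32912) (nat_lit 4373) (nat_lit 61710) (nat_lit 8384234) (nat_lit 0) (nat_lit 0),Row.mk (nat_lit 15288) (nat_lit 32912) (nat_lit 5462) (nat_lit 61710) (nat_lit 8383145) (nat_lit 0) (nat_lit 0),Row.mk (nat_lit 15456) (nat_lit 32912) (nat_lit 6822) (nat_lit 61710) (nat_lit 8381785) (nat_lit 0) (nat_lit 0),Row.mk (nat_lit 15624) (nat_lit 32912) (nat_lit 8521) (nat_lit 61710) (nat_lit 8380086) (nat_lit 0) (nat_lit 0),Row.mk (nat_lit 15792) (nat_lit 60962) (nat_lit 10588) (nat_lit 61336) (nat_lit 54) (nat_lit 0) (nat_lit 0),Row.mk (nat_lit 15960) (nat_lit 60401) (nat_lit 13208) (nat_lit 60775) (nat_lit 84) (nat_lit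 0) (nat_lit 0),Row.mk (nat_lit 16128) (nat_lit 59840) (nat_lit 16470) (nat_lit 60214) (nat_lit 131) (nat_lit 0) (nat_lit 0),Row.mk (nat_lit 16296) (nat_lit 59279) (nat_lit 20530) (nat_lit 59653) (nat_lit 205) (nat_lit 0) (nat_lit 0),Row.mk (nat_lit 16464) (nat_lit 58718) (nat_lit 25577) (nat_lit 59092) (nat_lit 321) (nat_lit 0) (nat_lit 0),Row.mk (nat_lit 16632) (nat_lit 58157) (nat_lit 31846) (nat_lit 58531) (nat_lit 500) (nat_lit 0) (nat_lit 0),Row.mk (nat_lit 16800) (nat_lit 57596) (nat_lit 39619) (nat_lit 57970) (nat_lit 781) (nat_lit 0) (nat_lit 0),Row.mk (nat_lit 16968) (nat_lit 57035) (nat_lit 49240) (nat_lit 57409) (nat_lit 1219) (nat_lit 0) (nat_lit 0),Row.mk (nat_lit 17136) (nat_lit 56474) (nat_lit 61121) (nat_lit 56848) (nat_lit 1901) (nat_lit 0) (nat_lit 0),Row.mk (nat_lit 17304) (nat_lit 55913) (nat_lit 75747) (nat_lit 56287) (nat_lit 2966) (nat_lit 0) (nat_lit 0),Row.mk (nat_lit 17472) (nat_lit 55352) (nat_lit 93684)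 (nat_lit 55726) (nat_lit 4627) (nat_lit 0) (nat_lit 0),Row.mk (nat_lit 17640) (nat_lit 54791) (nat_lit 115570) (nat_lit 55165) (nat_lit 7219) (nat_lit 0) (nat_lit 0),Row.mk (nat_lit 17808) (nat_lit 54230) (nat_lit 142100) (nat_lit 54604) (nat_lit 11261) (nat_lit 0) (nat_lit 0),Row.mk (nat_lit 17976) (nat_lit 53669) (nat_lit 173978) (nat_lit 54043) (nat_lit 17566) (nat_lit 0) (nat_lit 0),Row.mk (nat_lit 18144) (nat_lit 53108) (nat_lit 211831) (nat_lit 53482) (nat_lit 27403) (nat_lit 0) (nat_lit 0),Row.mk (nat_lit 18312) (nat_lit 52547) (nat_lit 256051) (nat_lit 52921) (nat_lit 42747) (nat_lit 0) (nat_lit 0),Row.mk (nat_lit 18480) (nat_lit 51986) (nat_lit 306509) (nat_lit 52360) (nat_lit 66683) (nat_lit 0) (nat_lit 0),Row.mk (nat_lit 18648) (nat_lit 51425) (nat_lit 362086) (nat_lit 51799) (nat_lit 104022) (nat_lit 0) (nat_lit 0),Row.mk (nat_lit 18816) (nat_lit 50864) (nat_lit 419889) (nat_lit 51238) (nat_lit 162268) (nat_lit 0) (nat_lit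 0),Row.mk (nat_lit 18984) (nat_lit 50303) (nat_lit 473972) (nat_lit 50677) (nat_lit 253129) (nat_lit 0) (nat_lit 0),Row.mk (nat_lit 19152) (nat_lit 49742) (nat_lit 513265) (nat_lit 50116) (nat_lit 394867) (nat_lit 0) (nat_lit 0),Row.mk (nat_lit 19320) (nat_lit 49181) (nat_lit 518265) (nat_lit 49555) (nat_lit 615970) (nat_lit 0) (nat_lit 0),Row.mk (nat_lit 19488) (nat_lit 48620) (nat_lit 455756) (nat_lit 48994) (nat_lit 960877) (nat_lit 0) (nat_lit 0),Row.mk (nat_lit 19656) (nat_lit 47872) (nat_lit 270429) (nat_lit 48433) (nat_lit 1498911) (nat_lit 0) (nat_lit 0),Row.mk (nat_lit 19824) (nat_lit 47685) (nat_lit 2107101) (nat_lit 48246) (nat_lit 102763) (nat_lit 0) (nat_lit 0),Row.mk (nat_lit 19992) (nat_lit 46750) (nat_lit 2049560) (nat_lit 47498) (nat_lit 710507) (nat_lit 0) (nat_lit 0),Row.mk (nat_lit 20160) (nat_lit 45815) (nat_lit 1651718) (nat_lit 46563) (nat_lit 1795539) (nat_lit 0) (nat_lit 0),Row.mk (nat_lit 20328) (nat_lit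 44693) (nat_lit 646322) (nat_lit 45628) (nat_lit 3659218) (nat_lit 0) (nat_lit 0),Row.mk (nat_lit 20496) (nat_lit 44506) (nat_lit 4254498) (nat_lit 45441) (nat_lit 1123018) (nat_lit 0) (nat_lit 0),Row.mk (nat_lit 20664) (nat_lit 43197) (nat_lit 2553699) (nat_lit 44319) (nat_lit 4162689) (nat_lit 0) (nat_lit 0),Row.mk (nat_lit 20832) (nat_lit 43010) (nat_lit 7495049) (nat_lit 44132) (nat_lit 893558) (nat_lit 0) (nat_lit 0),Row.mk (nat_lit 21000) (nat_lit 41327) (nat_lit 3983619) (nat_lit 42823) (nat_lit 6493549) (nat_lit 0) (nat_lit 0),Row.mk (nat_lit 21168) (nat_lit 41140) (nat_lit 10352961) (nat_lit 42636) (nat_lit 2732769) (nat_lit 0) (nat_lit 0),Row.mk (nat_lit 21336) (nat_lit 38896) (nat_lit 2453430) (nat_lit 40953) (nat_lit 13890332) (nat_lit 0) (nat_lit 0),Row.mk (nat_lit 21504) (nat_lit 38709) (nat_lit 9780664) (nat_lit 40766) (nat_lit 10632301) (nat_lit 0) (nat_lit 0),Row.mk (nat_lit 21672) (nat_lit 38522) (nat_lit 18932203)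 (nat_lit 40579) (nat_lit 6563098) (nat_lit 0) (nat_lit 0),Row.mk (nat_lit 21840) (nat_lit 38335) (nat_lit 30362254) (nat_lit 40392) (nat_lit 1480762) (nat_lit 0) (nat_lit 0),Row.mk (nat_lit 22008) (nat_lit 31603) (nat_lit 6078706) (nat_lit 38148) (nat_lit 33692452) (nat_lit 0) (nat_lit 0),Row.mk (nat_lit 22176) (nat_lit 31416) (nat_lit 15980765) (nat_lit 37961) (nat_lit 33692452) (nat_lit 0) (nat_lit 0),Row.mk (nat_lit 22344) (nat_lit 31229) (nat_lit 28348198) (nat_lit 37774) (nat_lit 33692452) (nat_lit 0) (nat_lit 0),Row.mk (nat_lit 22512) (nat_lit 31042) (nat_lit 43794824) (nat_lit 37587) (nat_lit 33692452) (nat_lit 0) (nat_lit 0),Row.mk (nat_lit 22680) (nat_lit 30855) (nat_lit 63087287) (nat_lit 37400) (nat_lit 33692452) (nat_lit 0) (nat_lit 0),Row.mk (nat_lit 22848) (nat_lit 30668) (nat_lit 87183107) (nat_lit 37213) (nat_lit 33692452) (nat_lit 0) (nat_lit 0),Row.mk (nat_lit 23016) (nat_lit 30481) (nat_lit 117278206) (nat_lit 37026)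 (nat_lit 33692452) (nat_lit 0) (nat_lit 0),Row.mk (nat_lit 23184) (nat_lit 30294) (nat_lit 154866258) (nat_lit 36839) (nat_lit 33692452) (nat_lit 0) (nat_lit 0),Row.mk (nat_lit 23352) (nat_lit 30107) (nat_lit 201812828) (nat_lit 36652) (nat_lit 33692452) (nat_lit 0) (nat_lit 0),Row.mk (nat_lit 23520) (nat_lit 29920) (nat_lit 260447962) (nat_lit 36465) (nat_lit 33692452) (nat_lit 0) (nat_lit 0),Row.mk (nat_lit 23688) (nat_lit 29733) (nat_lit 333681830) (nat_lit 36278) (nat_lit 33692452) (nat_lit 0) (nat_lit 0),Row.mk (nat_lit 23856) (nat_lit 29546) (nat_lit 425149164) (nat_lit 36091) (nat_lit 33692452) (nat_lit 0) (nat_lit 0),Row.mk (nat_lit 24024) (nat_lit 29359) (nat_lit 539389658) (nat_lit 35904) (nat_lit 33692452) (nat_lit 0) (nat_lit 0),Row.mk (nat_lit 24192) (nat_lit 29172) (nat_lit 682073279) (nat_lit 35717) (nat_lit 33692452) (nat_lit 0) (nat_lit 0),Row.mk (nat_lit 24360) (nat_lit 28985) (nat_lit 860281679) (nat_lit 35530)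 (nat_lit 33692452) (nat_lit 0) (nat_lit 0),Row.mk (nat_lit 24528) (nat_lit 28798) (nat_lit 1082859672) (nat_lit 35343) (nat_lit 33692452) (nat_lit 0) (nat_lit 0),Row.mk (nat_lit 24696) (nat_lit 28611) (nat_lit 1360854216) (nat_lit 35156) (nat_lit 33692452) (nat_lit 0) (nat_lit 0),Row.mk (nat_lit 24864) (nat_lit 28424) (nat_lit 1708062695) (nat_lit 34969) (nat_lit 33692452) (nat_lit 0) (nat_lit 0),Row.mk (nat_lit 25032) (nat_lit 28237) (nat_lit 2141717710) (nat_lit 34782) (nat_lit 33692452) (nat_lit 0) (nat_lit 0),Row.mk (nat_lit 25200) (nat_lit 28050) (nat_lit 2683342361) (nat_lit 34595) (nat_lit 33692452) (nat_lit 0) (nat_lit 0),Row.mk (nat_lit 25368) (nat_lit 27863) (nat_lit 3359818485) (nat_lit 34408) (nat_lit 33692452) (nat_lit 0) (nat_lit 0),Row.mk (nat_lit 25536) (nat_lit 27676) (nat_lit 4204720844) (nat_lit 34221) (nat_lit 33692452) (nat_lit 0) (nat_lit 0),Row.mk (nat_lit 25704) (nat_lit 27489) (nat_lit 5259983508) (nat_lit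 34034) (nat_lit 33692452) (nat_lit 0) (nat_lit 0),Row.mk (nat_lit 25872) (nat_lit 27302) (nat_lit 6577981119) (nat_lit 33847) (nat_lit 33692452) (nat_lit 0) (nat_lit 0),Row.mk (nat_lit 26040) (nat_lit 32912) (nat_lit 8388608) (nat_lit 62084) (nat_lit 8249432185) (nat_lit 0) (nat_lit 0),Row.mk (nat_lit 26208) (nat_lit 32912) (nat_lit 8388608) (nat_lit 62084) (nat_lit 10305430352) (nat_lit 0) (nat_lit 0),Row.mk (nat_lit 26376) (nat_lit 32912) (nat_lit 8388608) (nat_lit 62084) (nat_lit 12873322465) (nat_lit 0) (nat_lit 0),Row.mk (nat_lit 26544) (nat_lit 32912) (nat_lit 8388608) (nat_lit 62084) (nat_lit 16080557766) (nat_lit 0) (nat_lit 0),Row.mk (nat_lit 26712) (nat_lit 32912) (nat_lit 8388608) (nat_lit 62084) (nat_lit 20086317287) (nat_lit 0) (nat_lit 0),Row.mk (nat_lit 26880) (nat_lit 32912) (nat_lit 8388608) (nat_lit 62084) (nat_lit 25089414294) (nat_lit 0) (nat_lit 0),Row.mk (nat_lit 27048) (nat_lit 32912) (nat_lit 8388608) (nat_lit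 62084) (nat_lit 31338161762) (nat_lit 0) (nat_lit 0),Row.mk (nat_lit 27216) (nat_lit 32912) (nat_lit 8388608) (nat_lit 62084) (nat_lit 39142696606) (nat_lit 0) (nat_lit 0),Row.mk (nat_lit 27384) (nat_lit 32912) (nat_lit 8388608) (nat_lit 62084) (nat_lit 48890372351) (nat_lit 0) (nat_lit 0),Row.mk (nat_lit 27552) (nat_lit 32912) (nat_lit 8388608) (nat_lit 62084) (nat_lit 61064984206) (nat_lit 0) (nat_lit 0)],
[Row.mk (nat_lit 12432) (nat_lit 32912) (nat_lit 124) (nat_lit 61710) (nat_lit 8388483) (nat_lit 0) (nat_lit 0),Row.mk (nat_lit 12600) (nat_lit 32912) (nat_lit 155) (nat_lit 61710) (nat_lit 8388452) (nat_lit 0) (nat_lit 0),Row.mk (nat_lit 12768) (nat_lit 32912) (nat_lit 194) (nat_lit 61710) (nat_lit 8388413) (nat_lit 0) (nat_lit 0),Row.mk (nat_lit 12936) (nat_lit 32912) (nat_lit 243) (nat_lit 61710) (nat_lit 8388364) (nat_lit 0) (nat_lit 0),Row.mk (nat_lit 13104) (nat_lit 32912) (nat_lit 303) (nat_lit 61710) (nat_lit 8388304)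 (nat_lit 0) (nat_lit 0),Row.mk (nat_lit 13272) (nat_lit 32912) (nat_lit 379) (nat_lit 61710) (nat_lit 8388228) (nat_lit 0) (nat_lit 0),Row.mk (nat_lit 13440) (nat_lit 32912) (nat_lit 473) (nat_lit 61710) (nat_lit 8388134) (nat_lit 0) (nat_lit 0),Row.mk (nat_lit 13608) (nat_lit 32912) (nat_lit 591) (nat_lit 61710) (nat_lit 8388016) (nat_lit 0) (nat_lit 0),Row.mk (nat_lit 13776) (nat_lit 32912) (nat_lit 738) (nat_lit 61710) (nat_lit 8387869) (nat_lit 0) (nat_lit 0),Row.mk (nat_lit 13944) (nat_lit 32912) (nat_lit 922) (nat_lit 61710) (nat_lit 8387685) (nat_lit 0) (nat_lit 0),Row.mk (nat_lit 14112) (nat_lit 32912) (nat_lit 1152) (nat_lit 61710) (nat_lit 8387455) (nat_lit 0) (nat_lit 0),Row.mk (nat_lit 14280) (nat_lit 32912) (nat_lit 1439) (nat_lit 61710) (nat_lit 8387168) (nat_lit 0) (nat_lit 0),Row.mk (nat_lit 14448) (nat_lit 32912) (nat_lit 1797) (nat_lit 61710) (nat_lit 8386810) (nat_lit 0) (nat_lit 0),Row.mk (nat_lit 14616) (nat_lit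 32912) (nat_lit 2244) (nat_lit 61710) (nat_lit 8386363) (nat_lit 0) (nat_lit 0),Row.mk (nat_lit 14784) (nat_lit 32912) (nat_lit 2803) (nat_lit 61710) (nat_lit 8385804) (nat_lit 0) (nat_lit 0),Row.mk (nat_lit 14952) (nat_lit 32912) (nat_lit 3501) (nat_lit 61710) (nat_lit 8385106) (nat_lit 0) (nat_lit 0),Row.mk (nat_lit 15120) (nat_lit 32912) (nat_lit 4373) (nat_lit 61710) (nat_lit 8384234) (nat_lit 0) (nat_lit 0),Row.mk (nat_lit 15288) (nat_lit 32912) (nat_lit 5462) (nat_lit 61710) (nat_lit 8383145) (nat_lit 0) (nat_lit 0),Row.mk (nat_lit 15456) (nat_lit 32912) (nat_lit 6822) (nat_lit 61710) (nat_lit 8381785) (nat_lit 0) (nat_lit 0),Row.mk (nat_lit 15624) (nat_lit 32912) (nat_lit 8521) (nat_lit 61710) (nat_lit 8380086) (nat_lit 0) (nat_lit 0),Row.mk (nat_lit 15792) (nat_lit 60962) (nat_lit 10588) (nat_lit 61336) (nat_lit 54) (nat_lit 0) (nat_lit 0),Row.mk (nat_lit 15960) (nat_lit 60401) (nat_lit 13208) (nat_lit 60775) (nat_lit 84)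 (nat_lit 0) (nat_lit 0),Row.mk (nat_lit 16128) (nat_lit 59840) (nat_lit 16470) (nat_lit 60214) (nat_lit 131) (nat_lit 0) (nat_lit 0),Row.mk (nat_lit 16296) (nat_lit 59279) (nat_lit 20530) (nat_lit 59653) (nat_lit 205) (nat_lit 0) (nat_lit 0),Row.mk (nat_lit 16464) (nat_lit 58718) (nat_lit 25577) (nat_lit 59092) (nat_lit 321) (nat_lit 0) (nat_lit 0),Row.mk (nat_lit 16632) (nat_lit 58157) (nat_lit 31846) (nat_lit 58531) (nat_lit 500) (nat_lit 0) (nat_lit 0),Row.mk (nat_lit 16800) (nat_lit 57596) (nat_lit 39619) (nat_lit 57970) (nat_lit 781) (nat_lit 0) (nat_lit 0),Row.mk (nat_lit 16968) (nat_lit 57035) (nat_lit 49240) (nat_lit 57409) (nat_lit 1219) (nat_lit 0) (nat_lit 0),Row.mk (nat_lit 17136) (nat_lit 56474) (nat_lit 61121) (nat_lit 56848) (nat_lit 1901) (nat_lit 0) (nat_lit 0),Row.mk (nat_lit 17304) (nat_lit 55913) (nat_lit 75747) (nat_lit 56287) (nat_lit 2966) (nat_lit 0) (nat_lit 0),Row.mk (nat_lit 17472) (nat_lit 55352) (nat_lit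 93684) (nat_lit 55726) (nat_lit 4627) (nat_lit 0) (nat_lit 0),Row.mk (nat_lit 17640) (nat_lit 54791) (nat_lit 115570) (nat_lit 55165) (nat_lit 7219) (nat_lit 0) (nat_lit 0),Row.mk (nat_lit 17808) (nat_lit 54230) (nat_lit 142100) (nat_lit 54604) (nat_lit 11261) (nat_lit 0) (nat_lit 0),Row.mk (nat_lit 17976) (nat_lit 53669) (nat_lit 173978) (nat_lit 54043) (nat_lit 17566) (nat_lit 0) (nat_lit 0),Row.mk (nat_lit 18144) (nat_lit 53108) (nat_lit 211831) (nat_lit 53482) (nat_lit 27403) (nat_lit 0) (nat_lit 0),Row.mk (nat_lit 18312) (nat_lit 52547) (nat_lit 256051) (nat_lit 52921) (nat_lit 42747) (nat_lit 0) (nat_lit 0),Row.mk (nat_lit 18480) (nat_lit 51986) (nat_lit 306509) (nat_lit 52360) (nat_lit 66683) (nat_lit 0) (nat_lit 0),Row.mk (nat_lit 18648) (nat_lit 51425) (nat_lit 362086) (nat_lit 51799) (nat_lit 104022) (nat_lit 0) (nat_lit 0),Row.mk (nat_lit 18816) (nat_lit 50864) (nat_lit 419889) (nat_lit 51238) (nat_lit 162268) (nat_lit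 0) (nat_lit 0),Row.mk (nat_lit 18984) (nat_lit 50303) (nat_lit 473972) (nat_lit 50677) (nat_lit 253129) (nat_lit 0) (nat_lit 0),Row.mk (nat_lit 19152) (nat_lit 49742) (nat_lit 513265) (nat_lit 50116) (nat_lit 394867) (nat_lit 0) (nat_lit 0),Row.mk (nat_lit 19320) (nat_lit 49181) (nat_lit 518265) (nat_lit 49555) (nat_lit 615970) (nat_lit 0) (nat_lit 0),Row.mk (nat_lit 19488) (nat_lit 48620) (nat_lit 455756) (nat_lit 48994) (nat_lit 960877) (nat_lit 0) (nat_lit 0),Row.mk (nat_lit 19656) (nat_lit 47872) (nat_lit 270429) (nat_lit 48433) (nat_lit 1498911) (nat_lit 0) (nat_lit 0),Row.mk (nat_lit 19824) (nat_lit 47685) (nat_lit 2107101) (nat_lit 48246) (nat_lit 102763) (nat_lit 0) (nat_lit 0),Row.mk (nat_lit 19992) (nat_lit 46750) (nat_lit 2049560) (nat_lit 47498) (nat_lit 710507) (nat_lit 0) (nat_lit 0),Row.mk (nat_lit 20160) (nat_lit 45815) (nat_lit 1651718) (nat_lit 46563) (nat_lit 1795539) (nat_lit 0) (nat_lit 0),Row.mk (nat_lit 20328)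 (nat_lit 44693) (nat_lit 646322) (nat_lit 45628) (nat_lit 3659218) (nat_lit 0) (nat_lit 0),Row.mk (nat_lit 20496) (nat_lit 44506) (nat_lit 4254498) (nat_lit 45441) (nat_lit 1123018) (nat_lit 0) (nat_lit 0),Row.mk (nat_lit 20664) (nat_lit 43197) (nat_lit 2553699) (nat_lit 44319) (nat_lit 4162689) (nat_lit 0) (nat_lit 0),Row.mk (nat_lit 20832) (nat_lit 43010) (nat_lit 7495049) (nat_lit 44132) (nat_lit 893558) (nat_lit 0) (nat_lit 0),Row.mk (nat_lit 21000) (nat_lit 41327) (nat_lit 3983619) (nat_lit 42823) (nat_lit 6493549) (nat_lit 0) (nat_lit 0),Row.mk (nat_lit 21168) (nat_lit 41140) (nat_lit 10352961) (nat_lit 42636) (nat_lit 2732769) (nat_lit 0) (nat_lit 0),Row.mk (nat_lit 21336) (nat_lit 38896) (nat_lit 2453430) (nat_lit 40953) (nat_lit 13890332) (nat_lit 0) (nat_lit 0),Row.mk (nat_lit 21504) (nat_lit 38709) (nat_lit 9780664) (nat_lit 40766) (nat_lit 10632301) (nat_lit 0) (nat_lit 0),Row.mk (nat_lit 21672) (nat_lit 38522) (nat_lit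 18932203) (nat_lit 40579) (nat_lit 6563098) (nat_lit 0) (nat_lit 0),Row.mk (nat_lit 21840) (nat_lit 38335) (nat_lit 30362254) (nat_lit 40392) (nat_lit 1480762) (nat_lit 0) (nat_lit 0),Row.mk (nat_lit 22008) (nat_lit 31603) (nat_lit 6078706) (nat_lit 38148) (nat_lit 33692452) (nat_lit 0) (nat_lit 0),Row.mk (nat_lit 22176) (nat_lit 31416) (nat_lit 15980765) (nat_lit 37961) (nat_lit 33692452) (nat_lit 0) (nat_lit 0),Row.mk (nat_lit 22344) (nat_lit 31229) (nat_lit 28348198) (nat_lit 37774) (nat_lit 33692452) (nat_lit 0) (nat_lit 0),Row.mk (nat_lit 22512) (nat_lit 31042) (nat_lit 43794824) (nat_lit 37587) (nat_lit 33692452) (nat_lit 0) (nat_lit 0),Row.mk (nat_lit 22680) (nat_lit 30855) (nat_lit 63087287) (nat_lit 37400) (nat_lit 33692452) (nat_lit 0) (nat_lit 0),Row.mk (nat_lit 22848) (nat_lit 30668) (nat_lit 87183107) (nat_lit 37213) (nat_lit 33692452) (nat_lit 0) (nat_lit 0),Row.mk (nat_lit 23016) (nat_lit 30481) (nat_lit 117278206)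 (nat_lit 37026) (nat_lit 33692452) (nat_lit 0) (nat_lit 0),Row.mk (nat_lit 23184) (nat_lit 30294) (nat_lit 154866258) (nat_lit 36839) (nat_lit 33692452) (nat_lit 0) (nat_lit 0),Row.mk (nat_lit 23352) (nat_lit 30107) (nat_lit 201812828) (nat_lit 36652) (nat_lit 33692452) (nat_lit 0) (nat_lit 0),Row.mk (nat_lit 23520) (nat_lit 29920) (nat_lit 260447962) (nat_lit 36465) (nat_lit 33692452) (nat_lit 0) (nat_lit 0),Row.mk (nat_lit 23688) (nat_lit 29733) (nat_lit 333681830) (nat_lit 36278) (nat_lit 33692452) (nat_lit 0) (nat_lit 0),Row.mk (nat_lit 23856) (nat_lit 29546) (nat_lit 425149164) (nat_lit 36091) (nat_lit 33692452) (nat_lit 0) (nat_lit 0),Row.mk (nat_lit 24024) (nat_lit 29359) (nat_lit 539389658) (nat_lit 35904) (nat_lit 33692452) (nat_lit 0) (nat_lit 0),Row.mk (nat_lit 24192) (nat_lit 29172) (nat_lit 682073279) (nat_lit 35717) (nat_lit 33692452) (nat_lit 0) (nat_lit 0),Row.mk (nat_lit 24360) (nat_lit 28985) (nat_lit 860281679)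 (nat_lit 35530) (nat_lit 33692452) (nat_lit 0) (nat_lit 0),Row.mk (nat_lit 24528) (nat_lit 28798) (nat_lit 1082859672) (nat_lit 35343) (nat_lit 33692452) (nat_lit 0) (nat_lit 0),Row.mk (nat_lit 24696) (nat_lit 28611) (nat_lit 1360854216) (nat_lit 35156) (nat_lit 33692452) (nat_lit 0) (nat_lit 0),Row.mk (nat_lit 24864) (nat_lit 28424) (nat_lit 1708062695) (nat_lit 34969) (nat_lit 33692452) (nat_lit 0) (nat_lit 0),Row.mk (nat_lit 25032) (nat_lit 28237) (nat_lit 2141717710) (nat_lit 34782) (nat_lit 33692452) (nat_lit 0) (nat_lit 0),Row.mk (nat_lit 25200) (nat_lit 28050) (nat_lit 2683342361) (nat_lit 34595) (nat_lit 33692452) (nat_lit 0) (nat_lit 0),Row.mk (nat_lit 25368) (nat_lit 27863) (nat_lit 3359818485) (nat_lit 34408) (nat_lit 33692452) (nat_lit 0) (nat_lit 0),Row.mk (nat_lit 25536) (nat_lit 27676) (nat_lit 4204720844) (nat_lit 34221) (nat_lit 33692452) (nat_lit 0) (nat_lit 0),Row.mk (nat_lit 25704) (nat_lit 27489) (nat_lit 5259983508)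 (nat_lit 34034) (nat_lit 33692452) (nat_lit 0) (nat_lit 0),Row.mk (nat_lit 25872) (nat_lit 27302) (nat_lit 6577981119) (nat_lit 33847) (nat_lit 33692452) (nat_lit 0) (nat_lit 0),Row.mk (nat_lit 26040) (nat_lit 32912) (nat_lit 8388608) (nat_lit 62084) (nat_lit 8249432185) (nat_lit 0) (nat_lit 0),Row.mk (nat_lit 26208) (nat_lit 32912) (nat_lit 8388608) (nat_lit 62084) (nat_lit 10305430352) (nat_lit 0) (nat_lit 0),Row.mk (nat_lit 26376) (nat_lit 32912) (nat_lit 8388608) (nat_lit 62084) (nat_lit 12873322465) (nat_lit 0) (nat_lit 0),Row.mk (nat_lit 26544) (nat_lit 32912) (nat_lit 8388608) (nat_lit 62084) (nat_lit 16080557766) (nat_lit 0) (nat_lit 0),Row.mk (nat_lit 26712) (nat_lit 32912) (nat_lit 8388608) (nat_lit 62084) (nat_lit 20086317287) (nat_lit 0) (nat_lit 0),Row.mk (nat_lit 26880) (nat_lit 32912) (nat_lit 8388608) (nat_lit 62084) (nat_lit 25089414294) (nat_lit 0) (nat_lit 0),Row.mk (nat_lit 27048) (nat_lit 32912) (nat_lit 8388608)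 (nat_lit 62084) (nat_lit 31338161762) (nat_lit 0) (nat_lit 0),Row.mk (nat_lit 27216) (nat_lit 32912) (nat_lit 8388608) (nat_lit 62084) (nat_lit 39142696606) (nat_lit 0) (nat_lit 0),Row.mk (nat_lit 27384) (nat_lit 32912) (nat_lit 8388608) (nat_lit 62084) (nat_lit 48890372351) (nat_lit 0) (nat_lit 0),Row.mk (nat_lit 27552) (nat_lit 32912) (nat_lit 8388608) (nat_lit 62084) (nat_lit 61064984206) (nat_lit 0) (nat_lit 0),Row.mk (nat_lit 27720) (nat_lit 32912) (nat_lit 8388608) (nat_lit 62084) (nat_lit 76270780715) (nat_lit 0) (nat_lit 0)],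
[Row.mk (nat_lit 12768) (nat_lit 32912) (nat_lit 194) (nat_lit 61710) (nat_lit 8388413) (nat_lit 0) (nat_lit 0),Row.mk (nat_lit 12936) (nat_lit 32912) (nat_lit 243) (nat_lit 61710) (nat_lit 8388364) (nat_lit 0) (nat_lit 0),Row.mk (nat_lit 13104) (nat_lit 32912) (nat_lit 303) (nat_lit 61710) (nat_lit 8388304) (nat_lit 0) (nat_lit 0),Row.mk (nat_lit 13272) (nat_lit 32912) (nat_lit 379) (nat_lit 61710) (nat_lit 8388228) (nat_lit 0) (nat_lit 0),Row.mk (nat_lit 13440) (nat_lit 32912) (nat_lit 473) (nat_lit 61710) (nat_lit 8388134) (nat_lit 0) (nat_lit 0),Row.mk (nat_lit 13608) (nat_lit 32912) (nat_lit 591) (nat_lit 61710) (nat_lit 8388016) (nat_lit 0) (nat_lit 0),Row.mk (nat_lit 13776) (nat_lit 32912) (nat_lit 738) (nat_lit 61710) (nat_lit 8387869) (nat_lit 0) (nat_lit 0),Row.mk (nat_lit 13944) (nat_lit 32912) (nat_lit 922) (nat_lit 61710) (nat_lit 8387685) (nat_lit 0) (nat_lit 0),Row.mk (nat_lit 14112) (nat_lit 32912) (nat_lit 1152) (nat_lit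 61710) (nat_lit 8387455) (nat_lit 0) (nat_lit 0),Row.mk (nat_lit 14280) (nat_lit 32912) (nat_lit 1439) (nat_lit 61710) (nat_lit 8387168) (nat_lit 0) (nat_lit 0),Row.mk (nat_lit 14448) (nat_lit 32912) (nat_lit 1797) (nat_lit 61710) (nat_lit 8386810) (nat_lit 0) (nat_lit 0),Row.mk (nat_lit 14616) (nat_lit 32912) (nat_lit 2244) (nat_lit 61710) (nat_lit 8386363) (nat_lit 0) (nat_lit 0),Row.mk (nat_lit 14784) (nat_lit 32912) (nat_lit 2803) (nat_lit 61710) (nat_lit 8385804) (nat_lit 0) (nat_lit 0),Row.mk (nat_lit 14952) (nat_lit 32912) (nat_lit 3501) (nat_lit 61710) (nat_lit 8385106) (nat_lit 0) (nat_lit 0),Row.mk (nat_lit 15120) (nat_lit 32912) (nat_lit 4373) (nat_lit 61710) (nat_lit 8384234) (nat_lit 0) (nat_lit 0),Row.mk (nat_lit 15288) (nat_lit 32912) (nat_lit 5462) (nat_lit 61710) (nat_lit 8383145) (nat_lit 0) (nat_lit 0),Row.mk (nat_lit 15456) (nat_lit 32912) (nat_lit 6822) (nat_lit 61710) (nat_lit 8381785) (nat_lit 0) (nat_lit 0),Row.mk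 (nat_lit 15624) (nat_lit 32912) (nat_lit 8521) (nat_lit 61710) (nat_lit 8380086) (nat_lit 0) (nat_lit 0),Row.mk (nat_lit 15792) (nat_lit 60962) (nat_lit 10588) (nat_lit 61336) (nat_lit 54) (nat_lit 0) (nat_lit 0),Row.mk (nat_lit 15960) (nat_lit 60401) (nat_lit 13208) (nat_lit 60775) (nat_lit 84) (nat_lit 0) (nat_lit 0),Row.mk (nat_lit 16128) (nat_lit 59840) (nat_lit 16470) (nat_lit 60214) (nat_lit 131) (nat_lit 0) (nat_lit 0),Row.mk (nat_lit 16296) (nat_lit 59279) (nat_lit 20530) (nat_lit 59653) (nat_lit 205) (nat_lit 0) (nat_lit 0),Row.mk (nat_lit 16464) (nat_lit 58718) (nat_lit 25577) (nat_lit 59092) (nat_lit 321) (nat_lit 0) (nat_lit 0),Row.mk (nat_lit 16632) (nat_lit 58157) (nat_lit 31846) (nat_lit 58531) (nat_lit 500) (nat_lit 0) (nat_lit 0),Row.mk (nat_lit 16800) (nat_lit 57596) (nat_lit 39619) (nat_lit 57970) (nat_lit 781) (nat_lit 0) (nat_lit 0),Row.mk (nat_lit 16968) (nat_lit 57035) (nat_lit 49240) (nat_lit 57409) (nat_lit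 1219) (nat_lit 0) (nat_lit 0),Row.mk (nat_lit 17136) (nat_lit 56474) (nat_lit 61121) (nat_lit 56848) (nat_lit 1901) (nat_lit 0) (nat_lit 0),Row.mk (nat_lit 17304) (nat_lit 55913) (nat_lit 75747) (nat_lit 56287) (nat_lit 2966) (nat_lit 0) (nat_lit 0),Row.mk (nat_lit 17472) (nat_lit 55352) (nat_lit 93684) (nat_lit 55726) (nat_lit 4627) (nat_lit 0) (nat_lit 0),Row.mk (nat_lit 17640) (nat_lit 54791) (nat_lit 115570) (nat_lit 55165) (nat_lit 7219) (nat_lit 0) (nat_lit 0),Row.mk (nat_lit 17808) (nat_lit 54230) (nat_lit 142100) (nat_lit 54604) (nat_lit 11261) (nat_lit 0) (nat_lit 0),Row.mk (nat_lit 17976) (nat_lit 53669) (nat_lit 173978) (nat_lit 54043) (nat_lit 17566) (nat_lit 0) (nat_lit 0),Row.mk (nat_lit 18144) (nat_lit 53108) (nat_lit 211831) (nat_lit 53482) (nat_lit 27403) (nat_lit 0) (nat_lit 0),Row.mk (nat_lit 18312) (nat_lit 52547) (nat_lit 256051) (nat_lit 52921) (nat_lit 42747) (nat_lit 0) (nat_lit 0),Row.mk (nat_lit 18480) (nat_lit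 51986) (nat_lit 306509) (nat_lit 52360) (nat_lit 66683) (nat_lit 0) (nat_lit 0),Row.mk (nat_lit 18648) (nat_lit 51425) (nat_lit 362086) (nat_lit 51799) (nat_lit 104022) (nat_lit 0) (nat_lit 0),Row.mk (nat_lit 18816) (nat_lit 50864) (nat_lit 419889) (nat_lit 51238) (nat_lit 162268) (nat_lit 0) (nat_lit 0),Row.mk (nat_lit 18984) (nat_lit 50303) (nat_lit 473972) (nat_lit 50677) (nat_lit 253129) (nat_lit 0) (nat_lit 0),Row.mk (nat_lit 19152) (nat_lit 49742) (nat_lit 513265) (nat_lit 50116) (nat_lit 394867) (nat_lit 0) (nat_lit 0),Row.mk (nat_lit 19320) (nat_lit 49181) (nat_lit 518265) (nat_lit 49555) (nat_lit 615970) (nat_lit 0) (nat_lit 0),Row.mk (nat_lit 19488) (nat_lit 48620) (nat_lit 455756) (nat_lit 48994) (nat_lit 960877) (nat_lit 0) (nat_lit 0),Row.mk (nat_lit 19656) (nat_lit 47872) (nat_lit 270429) (nat_lit 48433) (nat_lit 1498911) (nat_lit 0) (nat_lit 0),Row.mk (nat_lit 19824) (nat_lit 47685) (nat_lit 2107101) (nat_lit 48246)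 (nat_lit 102763) (nat_lit 0) (nat_lit 0),Row.mk (nat_lit 19992) (nat_lit 46750) (nat_lit 2049560) (nat_lit 47498) (nat_lit 710507) (nat_lit 0) (nat_lit 0),Row.mk (nat_lit 20160) (nat_lit 45815) (nat_lit 1651718) (nat_lit 46563) (nat_lit 1795539) (nat_lit 0) (nat_lit 0),Row.mk (nat_lit 20328) (nat_lit 44693) (nat_lit 646322) (nat_lit 45628) (nat_lit 3659218) (nat_lit 0) (nat_lit 0),Row.mk (nat_lit 20496) (nat_lit 44506) (nat_lit 4254498) (nat_lit 45441) (nat_lit 1123018) (nat_lit 0) (nat_lit 0),Row.mk (nat_lit 20664) (nat_lit 43197) (nat_lit 2553699) (nat_lit 44319) (nat_lit 4162689) (nat_lit 0) (nat_lit 0),Row.mk (nat_lit 20832) (nat_lit 43010) (nat_lit 7495049) (nat_lit 44132) (nat_lit 893558) (nat_lit 0) (nat_lit 0),Row.mk (nat_lit 21000) (nat_lit 41327) (nat_lit 3983619) (nat_lit 42823) (nat_lit 6493549) (nat_lit 0) (nat_lit 0),Row.mk (nat_lit 21168) (nat_lit 41140) (nat_lit 10352961) (nat_lit 42636) (nat_lit 2732769) (nat_lit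 0) (nat_lit 0),Row.mk (nat_lit 21336) (nat_lit 38896) (nat_lit 2453430) (nat_lit 40953) (nat_lit 13890332) (nat_lit 0) (nat_lit 0),Row.mk (nat_lit 21504) (nat_lit 38709) (nat_lit 9780664) (nat_lit 40766) (nat_lit 10632301) (nat_lit 0) (nat_lit 0),Row.mk (nat_lit 21672) (nat_lit 38522) (nat_lit 18932203) (nat_lit 40579) (nat_lit 6563098) (nat_lit 0) (nat_lit 0),Row.mk (nat_lit 21840) (nat_lit 38335) (nat_lit 30362254) (nat_lit 40392) (nat_lit 1480762) (nat_lit 0) (nat_lit 0),Row.mk (nat_lit 22008) (nat_lit 31603) (nat_lit 6078706) (nat_lit 38148) (nat_lit 33692452) (nat_lit 0) (nat_lit 0),Row.mk (nat_lit 22176) (nat_lit 31416) (nat_lit 15980765) (nat_lit 37961) (nat_lit 33692452) (nat_lit 0) (nat_lit 0),Row.mk (nat_lit 22344) (nat_lit 31229) (nat_lit 28348198) (nat_lit 37774) (nat_lit 33692452) (nat_lit 0) (nat_lit 0),Row.mk (nat_lit 22512) (nat_lit 31042) (nat_lit 43794824) (nat_lit 37587) (nat_lit 33692452) (nat_lit 0) (nat_lit 0),Row.mk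 (nat_lit 22680) (nat_lit 30855) (nat_lit 63087287) (nat_lit 37400) (nat_lit 33692452) (nat_lit 0) (nat_lit 0),Row.mk (nat_lit 22848) (nat_lit 30668) (nat_lit 87183107) (nat_lit 37213) (nat_lit 33692452) (nat_lit 0) (nat_lit 0),Row.mk (nat_lit 23016) (nat_lit 30481) (nat_lit 117278206) (nat_lit 37026) (nat_lit 33692452) (nat_lit 0) (nat_lit 0),Row.mk (nat_lit 23184) (nat_lit 30294) (nat_lit 154866258) (nat_lit 36839) (nat_lit 33692452) (nat_lit 0) (nat_lit 0),Row.mk (nat_lit 23352) (nat_lit 30107) (nat_lit 201812828) (nat_lit 36652) (nat_lit 33692452) (nat_lit 0) (nat_lit 0),Row.mk (nat_lit 23520) (nat_lit 29920) (nat_lit 260447962) (nat_lit 36465) (nat_lit 33692452) (nat_lit 0) (nat_lit 0),Row.mk (nat_lit 23688) (nat_lit 29733) (nat_lit 333681830) (nat_lit 36278) (nat_lit 33692452) (nat_lit 0) (nat_lit 0),Row.mk (nat_lit 23856) (nat_lit 29546) (nat_lit 425149164) (nat_lit 36091) (nat_lit 33692452) (nat_lit 0) (nat_lit 0),Row.mk (nat_lit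 24024) (nat_lit 29359) (nat_lit 539389658) (nat_lit 35904) (nat_lit 33692452) (nat_lit 0) (nat_lit 0),Row.mk (nat_lit 24192) (nat_lit 29172) (nat_lit 682073279) (nat_lit 35717) (nat_lit 33692452) (nat_lit 0) (nat_lit 0),Row.mk (nat_lit 24360) (nat_lit 28985) (nat_lit 860281679) (nat_lit 35530) (nat_lit 33692452) (nat_lit 0) (nat_lit 0),Row.mk (nat_lit 24528) (nat_lit 28798) (nat_lit 1082859672) (nat_lit 35343) (nat_lit 33692452) (nat_lit 0) (nat_lit 0),Row.mk (nat_lit 24696) (nat_lit 28611) (nat_lit 1360854216) (nat_lit 35156) (nat_lit 33692452) (nat_lit 0) (nat_lit 0),Row.mk (nat_lit 24864) (nat_lit 28424) (nat_lit 1708062695) (nat_lit 34969) (nat_lit 33692452) (nat_lit 0) (nat_lit 0),Row.mk (nat_lit 25032) (nat_lit 28237) (nat_lit 2141717710) (nat_lit 34782) (nat_lit 33692452) (nat_lit 0) (nat_lit 0),Row.mk (nat_lit 25200) (nat_lit 28050) (nat_lit 2683342361) (nat_lit 34595) (nat_lit 33692452) (nat_lit 0) (nat_lit 0),Row.mk (nat_lit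 25368) (nat_lit 27863) (nat_lit 3359818485) (nat_lit 34408) (nat_lit 33692452) (nat_lit 0) (nat_lit 0),Row.mk (nat_lit 25536) (nat_lit 27676) (nat_lit 4204720844) (nat_lit 34221) (nat_lit 33692452) (nat_lit 0) (nat_lit 0),Row.mk (nat_lit 25704) (nat_lit 27489) (nat_lit 5259983508) (nat_lit 34034) (nat_lit 33692452) (nat_lit 0) (nat_lit 0),Row.mk (nat_lit 25872) (nat_lit 27302) (nat_lit 6577981119) (nat_lit 33847) (nat_lit 33692452) (nat_lit 0) (nat_lit 0),Row.mk (nat_lit 26040) (nat_lit 32912) (nat_lit 8388608) (nat_lit 62084) (nat_lit 8249432185) (nat_lit 0) (nat_lit 0),Row.mk (nat_lit 26208) (nat_lit 32912) (nat_lit 8388608) (nat_lit 62084) (nat_lit 10305430352) (nat_lit 0) (nat_lit 0),Row.mk (nat_lit 26376) (nat_lit 32912) (nat_lit 8388608) (nat_lit 62084) (nat_lit 12873322465) (nat_lit 0) (nat_lit 0),Row.mk (nat_lit 26544) (nat_lit 32912) (nat_lit 8388608) (nat_lit 62084) (nat_lit 16080557766) (nat_lit 0) (nat_lit 0),Row.mk (nat_lit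 26712) (nat_lit 32912) (nat_lit 8388608) (nat_lit 62084) (nat_lit 20086317287) (nat_lit 0) (nat_lit 0),Row.mk (nat_lit 26880) (nat_lit 32912) (nat_lit 8388608) (nat_lit 62084) (nat_lit 25089414294) (nat_lit 0) (nat_lit 0),Row.mk (nat_lit 27048) (nat_lit 32912) (nat_lit 8388608) (nat_lit 62084) (nat_lit 31338161762) (nat_lit 0) (nat_lit 0),Row.mk (nat_lit 27216) (nat_lit 32912) (nat_lit 8388608) (nat_lit 62084) (nat_lit 39142696606) (nat_lit 0) (nat_lit 0),Row.mk (nat_lit 27384) (nat_lit 32912) (nat_lit 8388608) (nat_lit 62084) (nat_lit 48890372351) (nat_lit 0) (nat_lit 0),Row.mk (nat_lit 27552) (nat_lit 32912) (nat_lit 8388608) (nat_lit 62084) (nat_lit 61064984206) (nat_lit 0) (nat_lit 0),Row.mk (nat_lit 27720) (nat_lit 32912) (nat_lit 8388608) (nat_lit 62084) (nat_lit 76270780715) (nat_lit 0) (nat_lit 0),Row.mk (nat_lit 27888) (nat_lit 32912) (nat_lit 8388608) (nat_lit 62084) (nat_lit 95262453733) (nat_lit 0) (nat_lit 0)],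
[Row.mk (nat_lit 12936) (nat_lit 32912) (nat_lit 243) (nat_lit 61710) (nat_lit 8388364) (nat_lit 0) (nat_lit 0),Row.mk (nat_lit 13104) (nat_lit 32912) (nat_lit 303) (nat_lit 61710) (nat_lit 8388304) (nat_lit 0) (nat_lit 0),Row.mk (nat_lit 13272) (nat_lit 32912) (nat_lit 379) (nat_lit 61710) (nat_lit 8388228) (nat_lit 0) (nat_lit 0),Row.mk (nat_lit 13440) (nat_lit 32912) (nat_lit 473) (nat_lit 61710) (nat_lit 8388134) (nat_lit 0) (nat_lit 0),Row.mk (nat_lit 13608) (nat_lit 32912) (nat_lit 591) (nat_lit 61710) (nat_lit 8388016) (nat_lit 0) (nat_lit 0),Row.mk (nat_lit 13776) (nat_lit 32912) (nat_lit 738) (nat_lit 61710) (nat_lit 8387869) (nat_lit 0) (nat_lit 0),Row.mk (nat_lit 13944) (nat_lit 32912) (nat_lit 922) (nat_lit 61710) (nat_lit 8387685) (nat_lit 0) (nat_lit 0),Row.mk (nat_lit 14112) (nat_lit 32912) (nat_lit 1152) (nat_lit 61710) (nat_lit 8387455) (nat_lit 0) (nat_lit 0),Row.mk (nat_lit 14280) (nat_lit 32912) (nat_lit 1439)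 (nat_lit 61710) (nat_lit 8387168) (nat_lit 0) (nat_lit 0),Row.mk (nat_lit 14448) (nat_lit 32912) (nat_lit 1797) (nat_lit 61710) (nat_lit 8386810) (nat_lit 0) (nat_lit 0),Row.mk (nat_lit 14616) (nat_lit 32912) (nat_lit 2244) (nat_lit 61710) (nat_lit 8386363) (nat_lit 0) (nat_lit 0),Row.mk (nat_lit 14784) (nat_lit 32912) (nat_lit 2803) (nat_lit 61710) (nat_lit 8385804) (nat_lit 0) (nat_lit 0),Row.mk (nat_lit 14952) (nat_lit 32912) (nat_lit 3501) (nat_lit 61710) (nat_lit 8385106) (nat_lit 0) (nat_lit 0),Row.mk (nat_lit 15120) (nat_lit 32912) (nat_lit 4373) (nat_lit 61710) (nat_lit 8384234) (nat_lit 0) (nat_lit 0),Row.mk (nat_lit 15288) (nat_lit 32912) (nat_lit 5462) (nat_lit 61710) (nat_lit 8383145) (nat_lit 0) (nat_lit 0),Row.mk (nat_lit 15456) (nat_lit 32912) (nat_lit 6822) (nat_lit 61710) (nat_lit 8381785) (nat_lit 0) (nat_lit 0),Row.mk (nat_lit 15624) (nat_lit 32912) (nat_lit 8521) (nat_lit 61710) (nat_lit 8380086) (nat_lit 0) (nat_lit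 0),Row.mk (nat_lit 15792) (nat_lit 60962) (nat_lit 10588) (nat_lit 61336) (nat_lit 54) (nat_lit 0) (nat_lit 0),Row.mk (nat_lit 15960) (nat_lit 60401) (nat_lit 13208) (nat_lit 60775) (nat_lit 84) (nat_lit 0) (nat_lit 0),Row.mk (nat_lit 16128) (nat_lit 59840) (nat_lit 16470) (nat_lit 60214) (nat_lit 131) (nat_lit 0) (nat_lit 0),Row.mk (nat_lit 16296) (nat_lit 59279) (nat_lit 20530) (nat_lit 59653) (nat_lit 205) (nat_lit 0) (nat_lit 0),Row.mk (nat_lit 16464) (nat_lit 58718) (nat_lit 25577) (nat_lit 59092) (nat_lit 321) (nat_lit 0) (nat_lit 0),Row.mk (nat_lit 16632) (nat_lit 58157) (nat_lit 31846) (nat_lit 58531) (nat_lit 500) (nat_lit 0) (nat_lit 0),Row.mk (nat_lit 16800) (nat_lit 57596) (nat_lit 39619) (nat_lit 57970) (nat_lit 781) (nat_lit 0) (nat_lit 0),Row.mk (nat_lit 16968) (nat_lit 57035) (nat_lit 49240) (nat_lit 57409) (nat_lit 1219) (nat_lit 0) (nat_lit 0),Row.mk (nat_lit 17136) (nat_lit 56474) (nat_lit 61121) (nat_lit 56848)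 (nat_lit 1901) (nat_lit 0) (nat_lit 0),Row.mk (nat_lit 17304) (nat_lit 55913) (nat_lit 75747) (nat_lit 56287) (nat_lit 2966) (nat_lit 0) (nat_lit 0),Row.mk (nat_lit 17472) (nat_lit 55352) (nat_lit 93684) (nat_lit 55726) (nat_lit 4627) (nat_lit 0) (nat_lit 0),Row.mk (nat_lit 17640) (nat_lit 54791) (nat_lit 115570) (nat_lit 55165) (nat_lit 7219) (nat_lit 0) (nat_lit 0),Row.mk (nat_lit 17808) (nat_lit 54230) (nat_lit 142100) (nat_lit 54604) (nat_lit 11261) (nat_lit 0) (nat_lit 0),Row.mk (nat_lit 17976) (nat_lit 53669) (nat_lit 173978) (nat_lit 54043) (nat_lit 17566) (nat_lit 0) (nat_lit 0),Row.mk (nat_lit 18144) (nat_lit 53108) (nat_lit 211831) (nat_lit 53482) (nat_lit 27403) (nat_lit 0) (nat_lit 0),Row.mk (nat_lit 18312) (nat_lit 52547) (nat_lit 256051) (nat_lit 52921) (nat_lit 42747) (nat_lit 0) (nat_lit 0),Row.mk (nat_lit 18480) (nat_lit 51986) (nat_lit 306509) (nat_lit 52360) (nat_lit 66683) (nat_lit 0) (nat_lit 0),Row.mk (nat_lit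 18648) (nat_lit 51425) (nat_lit 362086) (nat_lit 51799) (nat_lit 104022) (nat_lit 0) (nat_lit 0),Row.mk (nat_lit 18816) (nat_lit 50864) (nat_lit 419889) (nat_lit 51238) (nat_lit 162268) (nat_lit 0) (nat_lit 0),Row.mk (nat_lit 18984) (nat_lit 50303) (nat_lit 473972) (nat_lit 50677) (nat_lit 253129) (nat_lit 0) (nat_lit 0),Row.mk (nat_lit 19152) (nat_lit 49742) (nat_lit 513265) (nat_lit 50116) (nat_lit 394867) (nat_lit 0) (nat_lit 0),Row.mk (nat_lit 19320) (nat_lit 49181) (nat_lit 518265) (nat_lit 49555) (nat_lit 615970) (nat_lit 0) (nat_lit 0),Row.mk (nat_lit 19488) (nat_lit 48620) (nat_lit 455756) (nat_lit 48994) (nat_lit 960877) (nat_lit 0) (nat_lit 0),Row.mk (nat_lit 19656) (nat_lit 47872) (nat_lit 270429) (nat_lit 48433) (nat_lit 1498911) (nat_lit 0) (nat_lit 0),Row.mk (nat_lit 19824) (nat_lit 47685) (nat_lit 2107101) (nat_lit 48246) (nat_lit 102763) (nat_lit 0) (nat_lit 0),Row.mk (nat_lit 19992) (nat_lit 46750) (nat_lit 2049560)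 (nat_lit 47498) (nat_lit 710507) (nat_lit 0) (nat_lit 0),Row.mk (nat_lit 20160) (nat_lit 45815) (nat_lit 1651718) (nat_lit 46563) (nat_lit 1795539) (nat_lit 0) (nat_lit 0),Row.mk (nat_lit 20328) (nat_lit 44693) (nat_lit 646322) (nat_lit 45628) (nat_lit 3659218) (nat_lit 0) (nat_lit 0),Row.mk (nat_lit 20496) (nat_lit 44506) (nat_lit 4254498) (nat_lit 45441) (nat_lit 1123018) (nat_lit 0) (nat_lit 0),Row.mk (nat_lit 20664) (nat_lit 43197) (nat_lit 2553699) (nat_lit 44319) (nat_lit 4162689) (nat_lit 0) (nat_lit 0),Row.mk (nat_lit 20832) (nat_lit 43010) (nat_lit 7495049) (nat_lit 44132) (nat_lit 893558) (nat_lit 0) (nat_lit 0),Row.mk (nat_lit 21000) (nat_lit 41327) (nat_lit 3983619) (nat_lit 42823) (nat_lit 6493549) (nat_lit 0) (nat_lit 0),Row.mk (nat_lit 21168) (nat_lit 41140) (nat_lit 10352961) (nat_lit 42636) (nat_lit 2732769) (nat_lit 0) (nat_lit 0),Row.mk (nat_lit 21336) (nat_lit 38896) (nat_lit 2453430) (nat_lit 40953) (nat_lit 13890332)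 (nat_lit 0) (nat_lit 0),Row.mk (nat_lit 21504) (nat_lit 38709) (nat_lit 9780664) (nat_lit 40766) (nat_lit 10632301) (nat_lit 0) (nat_lit 0),Row.mk (nat_lit 21672) (nat_lit 38522) (nat_lit 18932203) (nat_lit 40579) (nat_lit 6563098) (nat_lit 0) (nat_lit 0),Row.mk (nat_lit 21840) (nat_lit 38335) (nat_lit 30362254) (nat_lit 40392) (nat_lit 1480762) (nat_lit 0) (nat_lit 0),Row.mk (nat_lit 22008) (nat_lit 31603) (nat_lit 6078706) (nat_lit 38148) (nat_lit 33692452) (nat_lit 0) (nat_lit 0),Row.mk (nat_lit 22176) (nat_lit 31416) (nat_lit 15980765) (nat_lit 37961) (nat_lit 33692452) (nat_lit 0) (nat_lit 0),Row.mk (nat_lit 22344) (nat_lit 31229) (nat_lit 28348198) (nat_lit 37774) (nat_lit 33692452) (nat_lit 0) (nat_lit 0),Row.mk (nat_lit 22512) (nat_lit 31042) (nat_lit 43794824) (nat_lit 37587) (nat_lit 33692452) (nat_lit 0) (nat_lit 0),Row.mk (nat_lit 22680) (nat_lit 30855) (nat_lit 63087287) (nat_lit 37400) (nat_lit 33692452) (nat_lit 0)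 (nat_lit 0),Row.mk (nat_lit 22848) (nat_lit 30668) (nat_lit 87183107) (nat_lit 37213) (nat_lit 33692452) (nat_lit 0) (nat_lit 0),Row.mk (nat_lit 23016) (nat_lit 30481) (nat_lit 117278206) (nat_lit 37026) (nat_lit 33692452) (nat_lit 0) (nat_lit 0),Row.mk (nat_lit 23184) (nat_lit 30294) (nat_lit 154866258) (nat_lit 36839) (nat_lit 33692452) (nat_lit 0) (nat_lit 0),Row.mk (nat_lit 23352) (nat_lit 30107) (nat_lit 201812828) (nat_lit 36652) (nat_lit 33692452) (nat_lit 0) (nat_lit 0),Row.mk (nat_lit 23520) (nat_lit 29920) (nat_lit 260447962) (nat_lit 36465) (nat_lit 33692452) (nat_lit 0) (nat_lit 0),Row.mk (nat_lit 23688) (nat_lit 29733) (nat_lit 333681830) (nat_lit 36278) (nat_lit 33692452) (nat_lit 0) (nat_lit 0),Row.mk (nat_lit 23856) (nat_lit 29546) (nat_lit 425149164) (nat_lit 36091) (nat_lit 33692452) (nat_lit 0) (nat_lit 0),Row.mk (nat_lit 24024) (nat_lit 29359) (nat_lit 539389658) (nat_lit 35904) (nat_lit 33692452) (nat_lit 0) (nat_lit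 0),Row.mk (nat_lit 24192) (nat_lit 29172) (nat_lit 682073279) (nat_lit 35717) (nat_lit 33692452) (nat_lit 0) (nat_lit 0),Row.mk (nat_lit 24360) (nat_lit 28985) (nat_lit 860281679) (nat_lit 35530) (nat_lit 33692452) (nat_lit 0) (nat_lit 0),Row.mk (nat_lit 24528) (nat_lit 28798) (nat_lit 1082859672) (nat_lit 35343) (nat_lit 33692452) (nat_lit 0) (nat_lit 0),Row.mk (nat_lit 24696) (nat_lit 28611) (nat_lit 1360854216) (nat_lit 35156) (nat_lit 33692452) (nat_lit 0) (nat_lit 0),Row.mk (nat_lit 24864) (nat_lit 28424) (nat_lit 1708062695) (nat_lit 34969) (nat_lit 33692452) (nat_lit 0) (nat_lit 0),Row.mk (nat_lit 25032) (nat_lit 28237) (nat_lit 2141717710) (nat_lit 34782) (nat_lit 33692452) (nat_lit 0) (nat_lit 0),Row.mk (nat_lit 25200) (nat_lit 28050) (nat_lit 2683342361) (nat_lit 34595) (nat_lit 33692452) (nat_lit 0) (nat_lit 0),Row.mk (nat_lit 25368) (nat_lit 27863) (nat_lit 3359818485) (nat_lit 34408) (nat_lit 33692452) (nat_lit 0) (nat_lit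 0),Row.mk (nat_lit 25536) (nat_lit 27676) (nat_lit 4204720844) (nat_lit 34221) (nat_lit 33692452) (nat_lit 0) (nat_lit 0),Row.mk (nat_lit 25704) (nat_lit 27489) (nat_lit 5259983508) (nat_lit 34034) (nat_lit 33692452) (nat_lit 0) (nat_lit 0),Row.mk (nat_lit 25872) (nat_lit 27302) (nat_lit 6577981119) (nat_lit 33847) (nat_lit 33692452) (nat_lit 0) (nat_lit 0),Row.mk (nat_lit 26040) (nat_lit 32912) (nat_lit 8388608) (nat_lit 62084) (nat_lit 8249432185) (nat_lit 0) (nat_lit 0),Row.mk (nat_lit 26208) (nat_lit 32912) (nat_lit 8388608) (nat_lit 62084) (nat_lit 10305430352) (nat_lit 0) (nat_lit 0),Row.mk (nat_lit 26376) (nat_lit 32912) (nat_lit 8388608) (nat_lit 62084) (nat_lit 12873322465) (nat_lit 0) (nat_lit 0),Row.mk (nat_lit 26544) (nat_lit 32912) (nat_lit 8388608) (nat_lit 62084) (nat_lit 16080557766) (nat_lit 0) (nat_lit 0),Row.mk (nat_lit 26712) (nat_lit 32912) (nat_lit 8388608) (nat_lit 62084) (nat_lit 20086317287) (nat_lit 0) (nat_lit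 0),Row.mk (nat_lit 26880) (nat_lit 32912) (nat_lit 8388608) (nat_lit 62084) (nat_lit 25089414294) (nat_lit 0) (nat_lit 0),Row.mk (nat_lit 27048) (nat_lit 32912) (nat_lit 8388608) (nat_lit 62084) (nat_lit 31338161762) (nat_lit 0) (nat_lit 0),Row.mk (nat_lit 27216) (nat_lit 32912) (nat_lit 8388608) (nat_lit 62084) (nat_lit 39142696606) (nat_lit 0) (nat_lit 0),Row.mk (nat_lit 27384) (nat_lit 32912) (nat_lit 8388608) (nat_lit 62084) (nat_lit 48890372351) (nat_lit 0) (nat_lit 0),Row.mk (nat_lit 27552) (nat_lit 32912) (nat_lit 8388608) (nat_lit 62084) (nat_lit 61064984206) (nat_lit 0) (nat_lit 0),Row.mk (nat_lit 27720) (nat_lit 32912) (nat_lit 8388608) (nat_lit 62084) (nat_lit 76270780715) (nat_lit 0) (nat_lit 0),Row.mk (nat_lit 27888) (nat_lit 32912) (nat_lit 8388608) (nat_lit 62084) (nat_lit 95262453733) (nat_lit 0) (nat_lit 0),Row.mk (nat_lit 28056) (nat_lit 32912) (nat_lit 8388608) (nat_lit 62084) (nat_lit 118982595181) (nat_lit 0)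 (nat_lit 0)],
[Row.mk (nat_lit 13104) (nat_lit 32912) (nat_lit 303) (nat_lit 61710) (nat_lit 8388304) (nat_lit 0) (nat_lit 0),Row.mk (nat_lit 13272) (nat_lit 32912) (nat_lit 379) (nat_lit 61710) (nat_lit 8388228) (nat_lit 0) (nat_lit 0),Row.mk (nat_lit 13440) (nat_lit 32912) (nat_lit 473) (nat_lit 61710) (nat_lit 8388134) (nat_lit 0) (nat_lit 0),Row.mk (nat_lit 13608) (nat_lit 32912) (nat_lit 591) (nat_lit 61710) (nat_lit 8388016) (nat_lit 0) (nat_lit 0),Row.mk (nat_lit 13776) (nat_lit 32912) (nat_lit 738) (nat_lit 61710) (nat_lit 8387869) (nat_lit 0) (nat_lit 0),Row.mk (nat_lit 13944) (nat_lit 32912) (nat_lit 922) (nat_lit 61710) (nat_lit 8387685) (nat_lit 0) (nat_lit 0),Row.mk (nat_lit 14112) (nat_lit 32912) (nat_lit 1152) (nat_lit 61710) (nat_lit 8387455) (nat_lit 0) (nat_lit 0),Row.mk (nat_lit 14280) (nat_lit 32912) (nat_lit 1439) (nat_lit 61710) (nat_lit 8387168) (nat_lit 0) (nat_lit 0),Row.mk (nat_lit 14448) (nat_lit 32912)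 (nat_lit 1797) (nat_lit 61710) (nat_lit 8386810) (nat_lit 0) (nat_lit 0),Row.mk (nat_lit 14616) (nat_lit 32912) (nat_lit 2244) (nat_lit 61710) (nat_lit 8386363) (nat_lit 0) (nat_lit 0),Row.mk (nat_lit 14784) (nat_lit 32912) (nat_lit 2803) (nat_lit 61710) (nat_lit 8385804) (nat_lit 0) (nat_lit 0),Row.mk (nat_lit 14952) (nat_lit 32912) (nat_lit 3501) (nat_lit 61710) (nat_lit 8385106) (nat_lit 0) (nat_lit 0),Row.mk (nat_lit 15120) (nat_lit 32912) (nat_lit 4373) (nat_lit 61710) (nat_lit 8384234) (nat_lit 0) (nat_lit 0),Row.mk (nat_lit 15288) (nat_lit 32912) (nat_lit 5462) (nat_lit 61710) (nat_lit 8383145) (nat_lit 0) (nat_lit 0),Row.mk (nat_lit 15456) (nat_lit 32912) (nat_lit 6822) (nat_lit 61710) (nat_lit 8381785) (nat_lit 0) (nat_lit 0),Row.mk (nat_lit 15624) (nat_lit 32912) (nat_lit 8521) (nat_lit 61710) (nat_lit 8380086) (nat_lit 0) (nat_lit 0),Row.mk (nat_lit 15792) (nat_lit 60962) (nat_lit 10588) (nat_lit 61336) (nat_lit 54) (nat_lit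 0) (nat_lit 0),Row.mk (nat_lit 15960) (nat_lit 60401) (nat_lit 13208) (nat_lit 60775) (nat_lit 84) (nat_lit 0) (nat_lit 0),Row.mk (nat_lit 16128) (nat_lit 59840) (nat_lit 16470) (nat_lit 60214) (nat_lit 131) (nat_lit 0) (nat_lit 0),Row.mk (nat_lit 16296) (nat_lit 59279) (nat_lit 20530) (nat_lit 59653) (nat_lit 205) (nat_lit 0) (nat_lit 0),Row.mk (nat_lit 16464) (nat_lit 58718) (nat_lit 25577) (nat_lit 59092) (nat_lit 321) (nat_lit 0) (nat_lit 0),Row.mk (nat_lit 16632) (nat_lit 58157) (nat_lit 31846) (nat_lit 58531) (nat_lit 500) (nat_lit 0) (nat_lit 0),Row.mk (nat_lit 16800) (nat_lit 57596) (nat_lit 39619) (nat_lit 57970) (nat_lit 781) (nat_lit 0) (nat_lit 0),Row.mk (nat_lit 16968) (nat_lit 57035) (nat_lit 49240) (nat_lit 57409) (nat_lit 1219) (nat_lit 0) (nat_lit 0),Row.mk (nat_lit 17136) (nat_lit 56474) (nat_lit 61121) (nat_lit 56848) (nat_lit 1901) (nat_lit 0) (nat_lit 0),Row.mk (nat_lit 17304) (nat_lit 55913) (nat_lit 75747) (nat_lit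 56287) (nat_lit 2966) (nat_lit 0) (nat_lit 0),Row.mk (nat_lit 17472) (nat_lit 55352) (nat_lit 93684) (nat_lit 55726) (nat_lit 4627) (nat_lit 0) (nat_lit 0),Row.mk (nat_lit 17640) (nat_lit 54791) (nat_lit 115570) (nat_lit 55165) (nat_lit 7219) (nat_lit 0) (nat_lit 0),Row.mk (nat_lit 17808) (nat_lit 54230) (nat_lit 142100) (nat_lit 54604) (nat_lit 11261) (nat_lit 0) (nat_lit 0),Row.mk (nat_lit 17976) (nat_lit 53669) (nat_lit 173978) (nat_lit 54043) (nat_lit 17566) (nat_lit 0) (nat_lit 0),Row.mk (nat_lit 18144) (nat_lit 53108) (nat_lit 211831) (nat_lit 53482) (nat_lit 27403) (nat_lit 0) (nat_lit 0),Row.mk (nat_lit 18312) (nat_lit 52547) (nat_lit 256051) (nat_lit 52921) (nat_lit 42747) (nat_lit 0) (nat_lit 0),Row.mk (nat_lit 18480) (nat_lit 51986) (nat_lit 306509) (nat_lit 52360) (nat_lit 66683) (nat_lit 0) (nat_lit 0),Row.mk (nat_lit 18648) (nat_lit 51425) (nat_lit 362086) (nat_lit 51799) (nat_lit 104022) (nat_lit 0) (nat_lit 0),Row.mk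 (nat_lit 18816) (nat_lit 50864) (nat_lit 419889) (nat_lit 51238) (nat_lit 162268) (nat_lit 0) (nat_lit 0),Row.mk (nat_lit 18984) (nat_lit 50303) (nat_lit 473972) (nat_lit 50677) (nat_lit 253129) (nat_lit 0) (nat_lit 0),Row.mk (nat_lit 19152) (nat_lit 49742) (nat_lit 513265) (nat_lit 50116) (nat_lit 394867) (nat_lit 0) (nat_lit 0),Row.mk (nat_lit 19320) (nat_lit 49181) (nat_lit 518265) (nat_lit 49555) (nat_lit 615970) (nat_lit 0) (nat_lit 0),Row.mk (nat_lit 19488) (nat_lit 48620) (nat_lit 455756) (nat_lit 48994) (nat_lit 960877) (nat_lit 0) (nat_lit 0),Row.mk (nat_lit 19656) (nat_lit 47872) (nat_lit 270429) (nat_lit 48433) (nat_lit 1498911) (nat_lit 0) (nat_lit 0),Row.mk (nat_lit 19824) (nat_lit 47685) (nat_lit 2107101) (nat_lit 48246) (nat_lit 102763) (nat_lit 0) (nat_lit 0),Row.mk (nat_lit 19992) (nat_lit 46750) (nat_lit 2049560) (nat_lit 47498) (nat_lit 710507) (nat_lit 0) (nat_lit 0),Row.mk (nat_lit 20160) (nat_lit 45815) (nat_lit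 1651718) (nat_lit 46563) (nat_lit 1795539) (nat_lit 0) (nat_lit 0),Row.mk (nat_lit 20328) (nat_lit 44693) (nat_lit 646322) (nat_lit 45628) (nat_lit 3659218) (nat_lit 0) (nat_lit 0),Row.mk (nat_lit 20496) (nat_lit 44506) (nat_lit 4254498) (nat_lit 45441) (nat_lit 1123018) (nat_lit 0) (nat_lit 0),Row.mk (nat_lit 20664) (nat_lit 43197) (nat_lit 2553699) (nat_lit 44319) (nat_lit 4162689) (nat_lit 0) (nat_lit 0),Row.mk (nat_lit 20832) (nat_lit 43010) (nat_lit 7495049) (nat_lit 44132) (nat_lit 893558) (nat_lit 0) (nat_lit 0),Row.mk (nat_lit 21000) (nat_lit 41327) (nat_lit 3983619) (nat_lit 42823) (nat_lit 6493549) (nat_lit 0) (nat_lit 0),Row.mk (nat_lit 21168) (nat_lit 41140) (nat_lit 10352961) (nat_lit 42636) (nat_lit 2732769) (nat_lit 0) (nat_lit 0),Row.mk (nat_lit 21336) (nat_lit 38896) (nat_lit 2453430) (nat_lit 40953) (nat_lit 13890332) (nat_lit 0) (nat_lit 0),Row.mk (nat_lit 21504) (nat_lit 38709) (nat_lit 9780664) (nat_lit 40766)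 (nat_lit 10632301) (nat_lit 0) (nat_lit 0),Row.mk (nat_lit 21672) (nat_lit 38522) (nat_lit 18932203) (nat_lit 40579) (nat_lit 6563098) (nat_lit 0) (nat_lit 0),Row.mk (nat_lit 21840) (nat_lit 38335) (nat_lit 30362254) (nat_lit 40392) (nat_lit 1480762) (nat_lit 0) (nat_lit 0),Row.mk (nat_lit 22008) (nat_lit 31603) (nat_lit 6078706) (nat_lit 38148) (nat_lit 33692452) (nat_lit 0) (nat_lit 0),Row.mk (nat_lit 22176) (nat_lit 31416) (nat_lit 15980765) (nat_lit 37961) (nat_lit 33692452) (nat_lit 0) (nat_lit 0),Row.mk (nat_lit 22344) (nat_lit 31229) (nat_lit 28348198) (nat_lit 37774) (nat_lit 33692452) (nat_lit 0) (nat_lit 0),Row.mk (nat_lit 22512) (nat_lit 31042) (nat_lit 43794824) (nat_lit 37587) (nat_lit 33692452) (nat_lit 0) (nat_lit 0),Row.mk (nat_lit 22680) (nat_lit 30855) (nat_lit 63087287) (nat_lit 37400) (nat_lit 33692452) (nat_lit 0) (nat_lit 0),Row.mk (nat_lit 22848) (nat_lit 30668) (nat_lit 87183107) (nat_lit 37213) (nat_lit 33692452)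 (nat_lit 0) (nat_lit 0),Row.mk (nat_lit 23016) (nat_lit 30481) (nat_lit 117278206) (nat_lit 37026) (nat_lit 33692452) (nat_lit 0) (nat_lit 0),Row.mk (nat_lit 23184) (nat_lit 30294) (nat_lit 154866258) (nat_lit 36839) (nat_lit 33692452) (nat_lit 0) (nat_lit 0),Row.mk (nat_lit 23352) (nat_lit 30107) (nat_lit 201812828) (nat_lit 36652) (nat_lit 33692452) (nat_lit 0) (nat_lit 0),Row.mk (nat_lit 23520) (nat_lit 29920) (nat_lit 260447962) (nat_lit 36465) (nat_lit 33692452) (nat_lit 0) (nat_lit 0),Row.mk (nat_lit 23688) (nat_lit 29733) (nat_lit 333681830) (nat_lit 36278) (nat_lit 33692452) (nat_lit 0) (nat_lit 0),Row.mk (nat_lit 23856) (nat_lit 29546) (nat_lit 425149164) (nat_lit 36091) (nat_lit 33692452) (nat_lit 0) (nat_lit 0),Row.mk (nat_lit 24024) (nat_lit 29359) (nat_lit 539389658) (nat_lit 35904) (nat_lit 33692452) (nat_lit 0) (nat_lit 0),Row.mk (nat_lit 24192) (nat_lit 29172) (nat_lit 682073279) (nat_lit 35717) (nat_lit 33692452)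 (nat_lit 0) (nat_lit 0),Row.mk (nat_lit 24360) (nat_lit 28985) (nat_lit 860281679) (nat_lit 35530) (nat_lit 33692452) (nat_lit 0) (nat_lit 0),Row.mk (nat_lit 24528) (nat_lit 28798) (nat_lit 1082859672) (nat_lit 35343) (nat_lit 33692452) (nat_lit 0) (nat_lit 0),Row.mk (nat_lit 24696) (nat_lit 28611) (nat_lit 1360854216) (nat_lit 35156) (nat_lit 33692452) (nat_lit 0) (nat_lit 0),Row.mk (nat_lit 24864) (nat_lit 28424) (nat_lit 1708062695) (nat_lit 34969) (nat_lit 33692452) (nat_lit 0) (nat_lit 0),Row.mk (nat_lit 25032) (nat_lit 28237) (nat_lit 2141717710) (nat_lit 34782) (nat_lit 33692452) (nat_lit 0) (nat_lit 0),Row.mk (nat_lit 25200) (nat_lit 28050) (nat_lit 2683342361) (nat_lit 34595) (nat_lit 33692452) (nat_lit 0) (nat_lit 0),Row.mk (nat_lit 25368) (nat_lit 27863) (nat_lit 3359818485) (nat_lit 34408) (nat_lit 33692452) (nat_lit 0) (nat_lit 0),Row.mk (nat_lit 25536) (nat_lit 27676) (nat_lit 4204720844) (nat_lit 34221) (nat_lit 33692452)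 (nat_lit 0) (nat_lit 0),Row.mk (nat_lit 25704) (nat_lit 27489) (nat_lit 5259983508) (nat_lit 34034) (nat_lit 33692452) (nat_lit 0) (nat_lit 0),Row.mk (nat_lit 25872) (nat_lit 27302) (nat_lit 6577981119) (nat_lit 33847) (nat_lit 33692452) (nat_lit 0) (nat_lit 0),Row.mk (nat_lit 26040) (nat_lit 32912) (nat_lit 8388608) (nat_lit 62084) (nat_lit 8249432185) (nat_lit 0) (nat_lit 0),Row.mk (nat_lit 26208) (nat_lit 32912) (nat_lit 8388608) (nat_lit 62084) (nat_lit 10305430352) (nat_lit 0) (nat_lit 0),Row.mk (nat_lit 26376) (nat_lit 32912) (nat_lit 8388608) (nat_lit 62084) (nat_lit 12873322465) (nat_lit 0) (nat_lit 0),Row.mk (nat_lit 26544) (nat_lit 32912) (nat_lit 8388608) (nat_lit 62084) (nat_lit 16080557766) (nat_lit 0) (nat_lit 0),Row.mk (nat_lit 26712) (nat_lit 32912) (nat_lit 8388608) (nat_lit 62084) (nat_lit 20086317287) (nat_lit 0) (nat_lit 0),Row.mk (nat_lit 26880) (nat_lit 32912) (nat_lit 8388608) (nat_lit 62084) (nat_lit 25089414294)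 (nat_lit 0) (nat_lit 0),Row.mk (nat_lit 27048) (nat_lit 32912) (nat_lit 8388608) (nat_lit 62084) (nat_lit 31338161762) (nat_lit 0) (nat_lit 0),Row.mk (nat_lit 27216) (nat_lit 32912) (nat_lit 8388608) (nat_lit 62084) (nat_lit 39142696606) (nat_lit 0) (nat_lit 0),Row.mk (nat_lit 27384) (nat_lit 32912) (nat_lit 8388608) (nat_lit 62084) (nat_lit 48890372351) (nat_lit 0) (nat_lit 0),Row.mk (nat_lit 27552) (nat_lit 32912) (nat_lit 8388608) (nat_lit 62084) (nat_lit 61064984206) (nat_lit 0) (nat_lit 0),Row.mk (nat_lit 27720) (nat_lit 32912) (nat_lit 8388608) (nat_lit 62084) (nat_lit 76270780715) (nat_lit 0) (nat_lit 0),Row.mk (nat_lit 27888) (nat_lit 32912) (nat_lit 8388608) (nat_lit 62084) (nat_lit 95262453733) (nat_lit 0) (nat_lit 0),Row.mk (nat_lit 28056) (nat_lit 32912) (nat_lit 8388608) (nat_lit 62084) (nat_lit 118982595181) (nat_lit 0) (nat_lit 0),Row.mk (nat_lit 28224) (nat_lit 32912) (nat_lit 8388608) (nat_lit 62084) (nat_lit 148608479629)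 (nat_lit 0) (nat_lit 0)],
[Row.mk (nat_lit 13440) (nat_lit 32912) (nat_lit 473) (nat_lit 61710) (nat_lit 8388134) (nat_lit 0) (nat_lit 0),Row.mk (nat_lit 13608) (nat_lit 32912) (nat_lit 591) (nat_lit 61710) (nat_lit 8388016) (nat_lit 0) (nat_lit 0),Row.mk (nat_lit 13776) (nat_lit 32912) (nat_lit 738) (nat_lit 61710) (nat_lit 8387869) (nat_lit 0) (nat_lit 0),Row.mk (nat_lit 13944) (nat_lit 32912) (nat_lit 922) (nat_lit 61710) (nat_lit 8387685) (nat_lit 0) (nat_lit 0),Row.mk (nat_lit 14112) (nat_lit 32912) (nat_lit 1152) (nat_lit 61710) (nat_lit 8387455) (nat_lit 0) (nat_lit 0),Row.mk (nat_lit 14280) (nat_lit 32912) (nat_lit 1439) (nat_lit 61710) (nat_lit 8387168) (nat_lit 0) (nat_lit 0),Row.mk (nat_lit 14448) (nat_lit 32912) (nat_lit 1797) (nat_lit 61710) (nat_lit 8386810) (nat_lit 0) (nat_lit 0),Row.mk (nat_lit 14616) (nat_lit 32912) (nat_lit 2244) (nat_lit 61710) (nat_lit 8386363) (nat_lit 0) (nat_lit 0),Row.mk (nat_lit 14784) (nat_lit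 32912) (nat_lit 2803) (nat_lit 61710) (nat_lit 8385804) (nat_lit 0) (nat_lit 0),Row.mk (nat_lit 14952) (nat_lit 32912) (nat_lit 3501) (nat_lit 61710) (nat_lit 8385106) (nat_lit 0) (nat_lit 0),Row.mk (nat_lit 15120) (nat_lit 32912) (nat_lit 4373) (nat_lit 61710) (nat_lit 8384234) (nat_lit 0) (nat_lit 0),Row.mk (nat_lit 15288) (nat_lit 32912) (nat_lit 5462) (nat_lit 61710) (nat_lit 8383145) (nat_lit 0) (nat_lit 0),Row.mk (nat_lit 15456) (nat_lit 32912) (nat_lit 6822) (nat_lit 61710) (nat_lit 8381785) (nat_lit 0) (nat_lit 0),Row.mk (nat_lit 15624) (nat_lit 32912) (nat_lit 8521) (nat_lit 61710) (nat_lit 8380086) (nat_lit 0) (nat_lit 0),Row.mk (nat_lit 15792) (nat_lit 60962) (nat_lit 10588) (nat_lit 61336) (nat_lit 54) (nat_lit 0) (nat_lit 0),Row.mk (nat_lit 15960) (nat_lit 60401) (nat_lit 13208) (nat_lit 60775) (nat_lit 84) (nat_lit 0) (nat_lit 0),Row.mk (nat_lit 16128) (nat_lit 59840) (nat_lit 16470) (nat_lit 60214) (nat_lit 131) (nat_lit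 0) (nat_lit 0),Row.mk (nat_lit 16296) (nat_lit 59279) (nat_lit 20530) (nat_lit 59653) (nat_lit 205) (nat_lit 0) (nat_lit 0),Row.mk (nat_lit 16464) (nat_lit 58718) (nat_lit 25577) (nat_lit 59092) (nat_lit 321) (nat_lit 0) (nat_lit 0),Row.mk (nat_lit 16632) (nat_lit 58157) (nat_lit 31846) (nat_lit 58531) (nat_lit 500) (nat_lit 0) (nat_lit 0),Row.mk (nat_lit 16800) (nat_lit 57596) (nat_lit 39619) (nat_lit 57970) (nat_lit 781) (nat_lit 0) (nat_lit 0),Row.mk (nat_lit 16968) (nat_lit 57035) (nat_lit 49240) (nat_lit 57409) (nat_lit 1219) (nat_lit 0) (nat_lit 0),Row.mk (nat_lit 17136) (nat_lit 56474) (nat_lit 61121) (nat_lit 56848) (nat_lit 1901) (nat_lit 0) (nat_lit 0),Row.mk (nat_lit 17304) (nat_lit 55913) (nat_lit 75747) (nat_lit 56287) (nat_lit 2966) (nat_lit 0) (nat_lit 0),Row.mk (nat_lit 17472) (nat_lit 55352) (nat_lit 93684) (nat_lit 55726) (nat_lit 4627) (nat_lit 0) (nat_lit 0),Row.mk (nat_lit 17640) (nat_lit 54791) (nat_lit 115570)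 (nat_lit 55165) (nat_lit 7219) (nat_lit 0) (nat_lit 0),Row.mk (nat_lit 17808) (nat_lit 54230) (nat_lit 142100) (nat_lit 54604) (nat_lit 11261) (nat_lit 0) (nat_lit 0),Row.mk (nat_lit 17976) (nat_lit 53669) (nat_lit 173978) (nat_lit 54043) (nat_lit 17566) (nat_lit 0) (nat_lit 0),Row.mk (nat_lit 18144) (nat_lit 53108) (nat_lit 211831) (nat_lit 53482) (nat_lit 27403) (nat_lit 0) (nat_lit 0),Row.mk (nat_lit 18312) (nat_lit 52547) (nat_lit 256051) (nat_lit 52921) (nat_lit 42747) (nat_lit 0) (nat_lit 0),Row.mk (nat_lit 18480) (nat_lit 51986) (nat_lit 306509) (nat_lit 52360) (nat_lit 66683) (nat_lit 0) (nat_lit 0),Row.mk (nat_lit 18648) (nat_lit 51425) (nat_lit 362086) (nat_lit 51799) (nat_lit 104022) (nat_lit 0) (nat_lit 0),Row.mk (nat_lit 18816) (nat_lit 50864) (nat_lit 419889) (nat_lit 51238) (nat_lit 162268) (nat_lit 0) (nat_lit 0),Row.mk (nat_lit 18984) (nat_lit 50303) (nat_lit 473972) (nat_lit 50677) (nat_lit 253129) (nat_lit 0) (nat_lit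 0),Row.mk (nat_lit 19152) (nat_lit 49742) (nat_lit 513265) (nat_lit 50116) (nat_lit 394867) (nat_lit 0) (nat_lit 0),Row.mk (nat_lit 19320) (nat_lit 49181) (nat_lit 518265) (nat_lit 49555) (nat_lit 615970) (nat_lit 0) (nat_lit 0),Row.mk (nat_lit 19488) (nat_lit 48620) (nat_lit 455756) (nat_lit 48994) (nat_lit 960877) (nat_lit 0) (nat_lit 0),Row.mk (nat_lit 19656) (nat_lit 47872) (nat_lit 270429) (nat_lit 48433) (nat_lit 1498911) (nat_lit 0) (nat_lit 0),Row.mk (nat_lit 19824) (nat_lit 47685) (nat_lit 2107101) (nat_lit 48246) (nat_lit 102763) (nat_lit 0) (nat_lit 0),Row.mk (nat_lit 19992) (nat_lit 46750) (nat_lit 2049560) (nat_lit 47498) (nat_lit 710507) (nat_lit 0) (nat_lit 0),Row.mk (nat_lit 20160) (nat_lit 45815) (nat_lit 1651718) (nat_lit 46563) (nat_lit 1795539) (nat_lit 0) (nat_lit 0),Row.mk (nat_lit 20328) (nat_lit 44693) (nat_lit 646322) (nat_lit 45628) (nat_lit 3659218) (nat_lit 0) (nat_lit 0),Row.mk (nat_lit 20496) (nat_lit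 44506) (nat_lit 4254498) (nat_lit 45441) (nat_lit 1123018) (nat_lit 0) (nat_lit 0),Row.mk (nat_lit 20664) (nat_lit 43197) (nat_lit 2553699) (nat_lit 44319) (nat_lit 4162689) (nat_lit 0) (nat_lit 0),Row.mk (nat_lit 20832) (nat_lit 43010) (nat_lit 7495049) (nat_lit 44132) (nat_lit 893558) (nat_lit 0) (nat_lit 0),Row.mk (nat_lit 21000) (nat_lit 41327) (nat_lit 3983619) (nat_lit 42823) (nat_lit 6493549) (nat_lit 0) (nat_lit 0),Row.mk (nat_lit 21168) (nat_lit 41140) (nat_lit 10352961) (nat_lit 42636) (nat_lit 2732769) (nat_lit 0) (nat_lit 0),Row.mk (nat_lit 21336) (nat_lit 38896) (nat_lit 2453430) (nat_lit 40953) (nat_lit 13890332) (nat_lit 0) (nat_lit 0),Row.mk (nat_lit 21504) (nat_lit 38709) (nat_lit 9780664) (nat_lit 40766) (nat_lit 10632301) (nat_lit 0) (nat_lit 0),Row.mk (nat_lit 21672) (nat_lit 38522) (nat_lit 18932203) (nat_lit 40579) (nat_lit 6563098) (nat_lit 0) (nat_lit 0),Row.mk (nat_lit 21840) (nat_lit 38335) (nat_lit 30362254)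 (nat_lit 40392) (nat_lit 1480762) (nat_lit 0) (nat_lit 0),Row.mk (nat_lit 22008) (nat_lit 31603) (nat_lit 6078706) (nat_lit 38148) (nat_lit 33692452) (nat_lit 0) (nat_lit 0),Row.mk (nat_lit 22176) (nat_lit 31416) (nat_lit 15980765) (nat_lit 37961) (nat_lit 33692452) (nat_lit 0) (nat_lit 0),Row.mk (nat_lit 22344) (nat_lit 31229) (nat_lit 28348198) (nat_lit 37774) (nat_lit 33692452) (nat_lit 0) (nat_lit 0),Row.mk (nat_lit 22512) (nat_lit 31042) (nat_lit 43794824) (nat_lit 37587) (nat_lit 33692452) (nat_lit 0) (nat_lit 0),Row.mk (nat_lit 22680) (nat_lit 30855) (nat_lit 63087287) (nat_lit 37400) (nat_lit 33692452) (nat_lit 0) (nat_lit 0),Row.mk (nat_lit 22848) (nat_lit 30668) (nat_lit 87183107) (nat_lit 37213) (nat_lit 33692452) (nat_lit 0) (nat_lit 0),Row.mk (nat_lit 23016) (nat_lit 30481) (nat_lit 117278206) (nat_lit 37026) (nat_lit 33692452) (nat_lit 0) (nat_lit 0),Row.mk (nat_lit 23184) (nat_lit 30294) (nat_lit 154866258) (nat_lit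 36839) (nat_lit 33692452) (nat_lit 0) (nat_lit 0),Row.mk (nat_lit 23352) (nat_lit 30107) (nat_lit 201812828) (nat_lit 36652) (nat_lit 33692452) (nat_lit 0) (nat_lit 0),Row.mk (nat_lit 23520) (nat_lit 29920) (nat_lit 260447962) (nat_lit 36465) (nat_lit 33692452) (nat_lit 0) (nat_lit 0),Row.mk (nat_lit 23688) (nat_lit 29733) (nat_lit 333681830) (nat_lit 36278) (nat_lit 33692452) (nat_lit 0) (nat_lit 0),Row.mk (nat_lit 23856) (nat_lit 29546) (nat_lit 425149164) (nat_lit 36091) (nat_lit 33692452) (nat_lit 0) (nat_lit 0),Row.mk (nat_lit 24024) (nat_lit 29359) (nat_lit 539389658) (nat_lit 35904) (nat_lit 33692452) (nat_lit 0) (nat_lit 0),Row.mk (nat_lit 24192) (nat_lit 29172) (nat_lit 682073279) (nat_lit 35717) (nat_lit 33692452) (nat_lit 0) (nat_lit 0),Row.mk (nat_lit 24360) (nat_lit 28985) (nat_lit 860281679) (nat_lit 35530) (nat_lit 33692452) (nat_lit 0) (nat_lit 0),Row.mk (nat_lit 24528) (nat_lit 28798) (nat_lit 1082859672) (nat_lit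 35343) (nat_lit 33692452) (nat_lit 0) (nat_lit 0),Row.mk (nat_lit 24696) (nat_lit 28611) (nat_lit 1360854216) (nat_lit 35156) (nat_lit 33692452) (nat_lit 0) (nat_lit 0),Row.mk (nat_lit 24864) (nat_lit 28424) (nat_lit 1708062695) (nat_lit 34969) (nat_lit 33692452) (nat_lit 0) (nat_lit 0),Row.mk (nat_lit 25032) (nat_lit 28237) (nat_lit 2141717710) (nat_lit 34782) (nat_lit 33692452) (nat_lit 0) (nat_lit 0),Row.mk (nat_lit 25200) (nat_lit 28050) (nat_lit 2683342361) (nat_lit 34595) (nat_lit 33692452) (nat_lit 0) (nat_lit 0),Row.mk (nat_lit 25368) (nat_lit 27863) (nat_lit 3359818485) (nat_lit 34408) (nat_lit 33692452) (nat_lit 0) (nat_lit 0),Row.mk (nat_lit 25536) (nat_lit 27676) (nat_lit 4204720844) (nat_lit 34221) (nat_lit 33692452) (nat_lit 0) (nat_lit 0),Row.mk (nat_lit 25704) (nat_lit 27489) (nat_lit 5259983508) (nat_lit 34034) (nat_lit 33692452) (nat_lit 0) (nat_lit 0),Row.mk (nat_lit 25872) (nat_lit 27302) (nat_lit 6577981119) (nat_lit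 33847) (nat_lit 33692452) (nat_lit 0) (nat_lit 0),Row.mk (nat_lit 26040) (nat_lit 32912) (nat_lit 8388608) (nat_lit 62084) (nat_lit 8249432185) (nat_lit 0) (nat_lit 0),Row.mk (nat_lit 26208) (nat_lit 32912) (nat_lit 8388608) (nat_lit 62084) (nat_lit 10305430352) (nat_lit 0) (nat_lit 0),Row.mk (nat_lit 26376) (nat_lit 32912) (nat_lit 8388608) (nat_lit 62084) (nat_lit 12873322465) (nat_lit 0) (nat_lit 0),Row.mk (nat_lit 26544) (nat_lit 32912) (nat_lit 8388608) (nat_lit 62084) (nat_lit 16080557766) (nat_lit 0) (nat_lit 0),Row.mk (nat_lit 26712) (nat_lit 32912) (nat_lit 8388608) (nat_lit 62084) (nat_lit 20086317287) (nat_lit 0) (nat_lit 0),Row.mk (nat_lit 26880) (nat_lit 32912) (nat_lit 8388608) (nat_lit 62084) (nat_lit 25089414294) (nat_lit 0) (nat_lit 0),Row.mk (nat_lit 27048) (nat_lit 32912) (nat_lit 8388608) (nat_lit 62084) (nat_lit 31338161762) (nat_lit 0) (nat_lit 0),Row.mk (nat_lit 27216) (nat_lit 32912) (nat_lit 8388608) (nat_lit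 62084) (nat_lit 39142696606) (nat_lit 0) (nat_lit 0),Row.mk (nat_lit 27384) (nat_lit 32912) (nat_lit 8388608) (nat_lit 62084) (nat_lit 48890372351) (nat_lit 0) (nat_lit 0),Row.mk (nat_lit 27552) (nat_lit 32912) (nat_lit 8388608) (nat_lit 62084) (nat_lit 61064984206) (nat_lit 0) (nat_lit 0),Row.mk (nat_lit 27720) (nat_lit 32912) (nat_lit 8388608) (nat_lit 62084) (nat_lit 76270780715) (nat_lit 0) (nat_lit 0),Row.mk (nat_lit 27888) (nat_lit 32912) (nat_lit 8388608) (nat_lit 62084) (nat_lit 95262453733) (nat_lit 0) (nat_lit 0),Row.mk (nat_lit 28056) (nat_lit 32912) (nat_lit 8388608) (nat_lit 62084) (nat_lit 118982595181) (nat_lit 0) (nat_lit 0),Row.mk (nat_lit 28224) (nat_lit 32912) (nat_lit 8388608) (nat_lit 62084) (nat_lit 148608479629) (nat_lit 0) (nat_lit 0),Row.mk (nat_lit 28392) (nat_lit 32912) (nat_lit 8388608) (nat_lit 62084) (nat_lit 185610494615) (nat_lit 0) (nat_lit 0)],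
[Row.mk (nat_lit 13608) (nat_lit 32912) (nat_lit 591) (nat_lit 61710) (nat_lit 8388016) (nat_lit 0) (nat_lit 0),Row.mk (nat_lit 13776) (nat_lit 32912) (nat_lit 738) (nat_lit 61710) (nat_lit 8387869) (nat_lit 0) (nat_lit 0),Row.mk (nat_lit 13944) (nat_lit 32912) (nat_lit 922) (nat_lit 61710) (nat_lit 8387685) (nat_lit 0) (nat_lit 0),Row.mk (nat_lit 14112) (nat_lit 32912) (nat_lit 1152) (nat_lit 61710) (nat_lit 8387455) (nat_lit 0) (nat_lit 0),Row.mk (nat_lit 14280) (nat_lit 32912) (nat_lit 1439) (nat_lit 61710) (nat_lit 8387168) (nat_lit 0) (nat_lit 0),Row.mk (nat_lit 14448) (nat_lit 32912) (nat_lit 1797) (nat_lit 61710) (nat_lit 8386810) (nat_lit 0) (nat_lit 0),Row.mk (nat_lit 14616) (nat_lit 32912) (nat_lit 2244) (nat_lit 61710) (nat_lit 8386363) (nat_lit 0) (nat_lit 0),Row.mk (nat_lit 14784) (nat_lit 32912) (nat_lit 2803) (nat_lit 61710) (nat_lit 8385804) (nat_lit 0) (nat_lit 0),Row.mk (nat_lit 14952) (nat_lit 32912) (nat_lit 3501)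 (nat_lit 61710) (nat_lit 8385106) (nat_lit 0) (nat_lit 0),Row.mk (nat_lit 15120) (nat_lit 32912) (nat_lit 4373) (nat_lit 61710) (nat_lit 8384234) (nat_lit 0) (nat_lit 0),Row.mk (nat_lit 15288) (nat_lit 32912) (nat_lit 5462) (nat_lit 61710) (nat_lit 8383145) (nat_lit 0) (nat_lit 0),Row.mk (nat_lit 15456) (nat_lit 32912) (nat_lit 6822) (nat_lit 61710) (nat_lit 8381785) (nat_lit 0) (nat_lit 0),Row.mk (nat_lit 15624) (nat_lit 32912) (nat_lit 8521) (nat_lit 61710) (nat_lit 8380086) (nat_lit 0) (nat_lit 0),Row.mk (nat_lit 15792) (nat_lit 60962) (nat_lit 10588) (nat_lit 61336) (nat_lit 54) (nat_lit 0) (nat_lit 0),Row.mk (nat_lit 15960) (nat_lit 60401) (nat_lit 13208) (nat_lit 60775) (nat_lit 84) (nat_lit 0) (nat_lit 0),Row.mk (nat_lit 16128) (nat_lit 59840) (nat_lit 16470) (nat_lit 60214) (nat_lit 131) (nat_lit 0) (nat_lit 0),Row.mk (nat_lit 16296) (nat_lit 59279) (nat_lit 20530) (nat_lit 59653) (nat_lit 205) (nat_lit 0) (nat_lit 0),Row.mk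 (nat_lit 16464) (nat_lit 58718) (nat_lit 25577) (nat_lit 59092) (nat_lit 321) (nat_lit 0) (nat_lit 0),Row.mk (nat_lit 16632) (nat_lit 58157) (nat_lit 31846) (nat_lit 58531) (nat_lit 500) (nat_lit 0) (nat_lit 0),Row.mk (nat_lit 16800) (nat_lit 57596) (nat_lit 39619) (nat_lit 57970) (nat_lit 781) (nat_lit 0) (nat_lit 0),Row.mk (nat_lit 16968) (nat_lit 57035) (nat_lit 49240) (nat_lit 57409) (nat_lit 1219) (nat_lit 0) (nat_lit 0),Row.mk (nat_lit 17136) (nat_lit 56474) (nat_lit 61121) (nat_lit 56848) (nat_lit 1901) (nat_lit 0) (nat_lit 0),Row.mk (nat_lit 17304) (nat_lit 55913) (nat_lit 75747) (nat_lit 56287) (nat_lit 2966) (nat_lit 0) (nat_lit 0),Row.mk (nat_lit 17472) (nat_lit 55352) (nat_lit 93684) (nat_lit 55726) (nat_lit 4627) (nat_lit 0) (nat_lit 0),Row.mk (nat_lit 17640) (nat_lit 54791) (nat_lit 115570) (nat_lit 55165) (nat_lit 7219) (nat_lit 0) (nat_lit 0),Row.mk (nat_lit 17808) (nat_lit 54230) (nat_lit 142100) (nat_lit 54604) (nat_lit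 11261) (nat_lit 0) (nat_lit 0),Row.mk (nat_lit 17976) (nat_lit 53669) (nat_lit 173978) (nat_lit 54043) (nat_lit 17566) (nat_lit 0) (nat_lit 0),Row.mk (nat_lit 18144) (nat_lit 53108) (nat_lit 211831) (nat_lit 53482) (nat_lit 27403) (nat_lit 0) (nat_lit 0),Row.mk (nat_lit 18312) (nat_lit 52547) (nat_lit 256051) (nat_lit 52921) (nat_lit 42747) (nat_lit 0) (nat_lit 0),Row.mk (nat_lit 18480) (nat_lit 51986) (nat_lit 306509) (nat_lit 52360) (nat_lit 66683) (nat_lit 0) (nat_lit 0),Row.mk (nat_lit 18648) (nat_lit 51425) (nat_lit 362086) (nat_lit 51799) (nat_lit 104022) (nat_lit 0) (nat_lit 0),Row.mk (nat_lit 18816) (nat_lit 50864) (nat_lit 419889) (nat_lit 51238) (nat_lit 162268) (nat_lit 0) (nat_lit 0),Row.mk (nat_lit 18984) (nat_lit 50303) (nat_lit 473972) (nat_lit 50677) (nat_lit 253129) (nat_lit 0) (nat_lit 0),Row.mk (nat_lit 19152) (nat_lit 49742) (nat_lit 513265) (nat_lit 50116) (nat_lit 394867) (nat_lit 0) (nat_lit 0),Row.mk (nat_lit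 19320) (nat_lit 49181) (nat_lit 518265) (nat_lit 49555) (nat_lit 615970) (nat_lit 0) (nat_lit 0),Row.mk (nat_lit 19488) (nat_lit 48620) (nat_lit 455756) (nat_lit 48994) (nat_lit 960877) (nat_lit 0) (nat_lit 0),Row.mk (nat_lit 19656) (nat_lit 47872) (nat_lit 270429) (nat_lit 48433) (nat_lit 1498911) (nat_lit 0) (nat_lit 0),Row.mk (nat_lit 19824) (nat_lit 47685) (nat_lit 2107101) (nat_lit 48246) (nat_lit 102763) (nat_lit 0) (nat_lit 0),Row.mk (nat_lit 19992) (nat_lit 46750) (nat_lit 2049560) (nat_lit 47498) (nat_lit 710507) (nat_lit 0) (nat_lit 0),Row.mk (nat_lit 20160) (nat_lit 45815) (nat_lit 1651718) (nat_lit 46563) (nat_lit 1795539) (nat_lit 0) (nat_lit 0),Row.mk (nat_lit 20328) (nat_lit 44693) (nat_lit 646322) (nat_lit 45628) (nat_lit 3659218) (nat_lit 0) (nat_lit 0),Row.mk (nat_lit 20496) (nat_lit 44506) (nat_lit 4254498) (nat_lit 45441) (nat_lit 1123018) (nat_lit 0) (nat_lit 0),Row.mk (nat_lit 20664) (nat_lit 43197) (nat_lit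 2553699) (nat_lit 44319) (nat_lit 4162689) (nat_lit 0) (nat_lit 0),Row.mk (nat_lit 20832) (nat_lit 43010) (nat_lit 7495049) (nat_lit 44132) (nat_lit 893558) (nat_lit 0) (nat_lit 0),Row.mk (nat_lit 21000) (nat_lit 41327) (nat_lit 3983619) (nat_lit 42823) (nat_lit 6493549) (nat_lit 0) (nat_lit 0),Row.mk (nat_lit 21168) (nat_lit 41140) (nat_lit 10352961) (nat_lit 42636) (nat_lit 2732769) (nat_lit 0) (nat_lit 0),Row.mk (nat_lit 21336) (nat_lit 38896) (nat_lit 2453430) (nat_lit 40953) (nat_lit 13890332) (nat_lit 0) (nat_lit 0),Row.mk (nat_lit 21504) (nat_lit 38709) (nat_lit 9780664) (nat_lit 40766) (nat_lit 10632301) (nat_lit 0) (nat_lit 0),Row.mk (nat_lit 21672) (nat_lit 38522) (nat_lit 18932203) (nat_lit 40579) (nat_lit 6563098) (nat_lit 0) (nat_lit 0),Row.mk (nat_lit 21840) (nat_lit 38335) (nat_lit 30362254) (nat_lit 40392) (nat_lit 1480762) (nat_lit 0) (nat_lit 0),Row.mk (nat_lit 22008) (nat_lit 31603) (nat_lit 6078706) (nat_lit 38148)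 (nat_lit 33692452) (nat_lit 0) (nat_lit 0),Row.mk (nat_lit 22176) (nat_lit 31416) (nat_lit 15980765) (nat_lit 37961) (nat_lit 33692452) (nat_lit 0) (nat_lit 0),Row.mk (nat_lit 22344) (nat_lit 31229) (nat_lit 28348198) (nat_lit 37774) (nat_lit 33692452) (nat_lit 0) (nat_lit 0),Row.mk (nat_lit 22512) (nat_lit 31042) (nat_lit 43794824) (nat_lit 37587) (nat_lit 33692452) (nat_lit 0) (nat_lit 0),Row.mk (nat_lit 22680) (nat_lit 30855) (nat_lit 63087287) (nat_lit 37400) (nat_lit 33692452) (nat_lit 0) (nat_lit 0),Row.mk (nat_lit 22848) (nat_lit 30668) (nat_lit 87183107) (nat_lit 37213) (nat_lit 33692452) (nat_lit 0) (nat_lit 0),Row.mk (nat_lit 23016) (nat_lit 30481) (nat_lit 117278206) (nat_lit 37026) (nat_lit 33692452) (nat_lit 0) (nat_lit 0),Row.mk (nat_lit 23184) (nat_lit 30294) (nat_lit 154866258) (nat_lit 36839) (nat_lit 33692452) (nat_lit 0) (nat_lit 0),Row.mk (nat_lit 23352) (nat_lit 30107) (nat_lit 201812828) (nat_lit 36652) (nat_lit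 33692452) (nat_lit 0) (nat_lit 0),Row.mk (nat_lit 23520) (nat_lit 29920) (nat_lit 260447962) (nat_lit 36465) (nat_lit 33692452) (nat_lit 0) (nat_lit 0),Row.mk (nat_lit 23688) (nat_lit 29733) (nat_lit 333681830) (nat_lit 36278) (nat_lit 33692452) (nat_lit 0) (nat_lit 0),Row.mk (nat_lit 23856) (nat_lit 29546) (nat_lit 425149164) (nat_lit 36091) (nat_lit 33692452) (nat_lit 0) (nat_lit 0),Row.mk (nat_lit 24024) (nat_lit 29359) (nat_lit 539389658) (nat_lit 35904) (nat_lit 33692452) (nat_lit 0) (nat_lit 0),Row.mk (nat_lit 24192) (nat_lit 29172) (nat_lit 682073279) (nat_lit 35717) (nat_lit 33692452) (nat_lit 0) (nat_lit 0),Row.mk (nat_lit 24360) (nat_lit 28985) (nat_lit 860281679) (nat_lit 35530) (nat_lit 33692452) (nat_lit 0) (nat_lit 0),Row.mk (nat_lit 24528) (nat_lit 28798) (nat_lit 1082859672) (nat_lit 35343) (nat_lit 33692452) (nat_lit 0) (nat_lit 0),Row.mk (nat_lit 24696) (nat_lit 28611) (nat_lit 1360854216) (nat_lit 35156) (nat_lit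 33692452) (nat_lit 0) (nat_lit 0),Row.mk (nat_lit 24864) (nat_lit 28424) (nat_lit 1708062695) (nat_lit 34969) (nat_lit 33692452) (nat_lit 0) (nat_lit 0),Row.mk (nat_lit 25032) (nat_lit 28237) (nat_lit 2141717710) (nat_lit 34782) (nat_lit 33692452) (nat_lit 0) (nat_lit 0),Row.mk (nat_lit 25200) (nat_lit 28050) (nat_lit 2683342361) (nat_lit 34595) (nat_lit 33692452) (nat_lit 0) (nat_lit 0),Row.mk (nat_lit 25368) (nat_lit 27863) (nat_lit 3359818485) (nat_lit 34408) (nat_lit 33692452) (nat_lit 0) (nat_lit 0),Row.mk (nat_lit 25536) (nat_lit 27676) (nat_lit 4204720844) (nat_lit 34221) (nat_lit 33692452) (nat_lit 0) (nat_lit 0),Row.mk (nat_lit 25704) (nat_lit 27489) (nat_lit 5259983508) (nat_lit 34034) (nat_lit 33692452) (nat_lit 0) (nat_lit 0),Row.mk (nat_lit 25872) (nat_lit 27302) (nat_lit 6577981119) (nat_lit 33847) (nat_lit 33692452) (nat_lit 0) (nat_lit 0),Row.mk (nat_lit 26040) (nat_lit 32912) (nat_lit 8388608) (nat_lit 62084) (nat_lit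 8249432185) (nat_lit 0) (nat_lit 0),Row.mk (nat_lit 26208) (nat_lit 32912) (nat_lit 8388608) (nat_lit 62084) (nat_lit 10305430352) (nat_lit 0) (nat_lit 0),Row.mk (nat_lit 26376) (nat_lit 32912) (nat_lit 8388608) (nat_lit 62084) (nat_lit 12873322465) (nat_lit 0) (nat_lit 0),Row.mk (nat_lit 26544) (nat_lit 32912) (nat_lit 8388608) (nat_lit 62084) (nat_lit 16080557766) (nat_lit 0) (nat_lit 0),Row.mk (nat_lit 26712) (nat_lit 32912) (nat_lit 8388608) (nat_lit 62084) (nat_lit 20086317287) (nat_lit 0) (nat_lit 0),Row.mk (nat_lit 26880) (nat_lit 32912) (nat_lit 8388608) (nat_lit 62084) (nat_lit 25089414294) (nat_lit 0) (nat_lit 0),Row.mk (nat_lit 27048) (nat_lit 32912) (nat_lit 8388608) (nat_lit 62084) (nat_lit 31338161762) (nat_lit 0) (nat_lit 0),Row.mk (nat_lit 27216) (nat_lit 32912) (nat_lit 8388608) (nat_lit 62084) (nat_lit 39142696606) (nat_lit 0) (nat_lit 0),Row.mk (nat_lit 27384) (nat_lit 32912) (nat_lit 8388608) (nat_lit 62084) (nat_lit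 48890372351) (nat_lit 0) (nat_lit 0),Row.mk (nat_lit 27552) (nat_lit 32912) (nat_lit 8388608) (nat_lit 62084) (nat_lit 61064984206) (nat_lit 0) (nat_lit 0),Row.mk (nat_lit 27720) (nat_lit 32912) (nat_lit 8388608) (nat_lit 62084) (nat_lit 76270780715) (nat_lit 0) (nat_lit 0),Row.mk (nat_lit 27888) (nat_lit 32912) (nat_lit 8388608) (nat_lit 62084) (nat_lit 95262453733) (nat_lit 0) (nat_lit 0),Row.mk (nat_lit 28056) (nat_lit 32912) (nat_lit 8388608) (nat_lit 62084) (nat_lit 118982595181) (nat_lit 0) (nat_lit 0),Row.mk (nat_lit 28224) (nat_lit 32912) (nat_lit 8388608) (nat_lit 62084) (nat_lit 148608479629) (nat_lit 0) (nat_lit 0),Row.mk (nat_lit 28392) (nat_lit 32912) (nat_lit 8388608) (nat_lit 62084) (nat_lit 185610494615) (nat_lit 0) (nat_lit 0),Row.mk (nat_lit 28560) (nat_lit 32912) (nat_lit 8388608) (nat_lit 62084) (nat_lit 231825118704) (nat_lit 0) (nat_lit 0)],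
[Row.mk (nat_lit 13776) (nat_lit 32912) (nat_lit 738) (nat_lit 61710) (nat_lit 8387869) (nat_lit 0) (nat_lit 0),Row.mk (nat_lit 13944) (nat_lit 32912) (nat_lit 922) (nat_lit 61710) (nat_lit 8387685) (nat_lit 0) (nat_lit 0),Row.mk (nat_lit 14112) (nat_lit 32912) (nat_lit 1152) (nat_lit 61710) (nat_lit 8387455) (nat_lit 0) (nat_lit 0),Row.mk (nat_lit 14280) (nat_lit 32912) (nat_lit 1439) (nat_lit 61710) (nat_lit 8387168) (nat_lit 0) (nat_lit 0),Row.mk (nat_lit 14448) (nat_lit 32912) (nat_lit 1797) (nat_lit 61710) (nat_lit 8386810) (nat_lit 0) (nat_lit 0),Row.mk (nat_lit 14616) (nat_lit 32912) (nat_lit 2244) (nat_lit 61710) (nat_lit 8386363) (nat_lit 0) (nat_lit 0),Row.mk (nat_lit 14784) (nat_lit 32912) (nat_lit 2803) (nat_lit 61710) (nat_lit 8385804) (nat_lit 0) (nat_lit 0),Row.mk (nat_lit 14952) (nat_lit 32912) (nat_lit 3501) (nat_lit 61710) (nat_lit 8385106) (nat_lit 0) (nat_lit 0),Row.mk (nat_lit 15120) (nat_lit 32912) (nat_lit 4373)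 (nat_lit 61710) (nat_lit 8384234) (nat_lit 0) (nat_lit 0),Row.mk (nat_lit 15288) (nat_lit 32912) (nat_lit 5462) (nat_lit 61710) (nat_lit 8383145) (nat_lit 0) (nat_lit 0),Row.mk (nat_lit 15456) (nat_lit 32912) (nat_lit 6822) (nat_lit 61710) (nat_lit 8381785) (nat_lit 0) (nat_lit 0),Row.mk (nat_lit 15624) (nat_lit 32912) (nat_lit 8521) (nat_lit 61710) (nat_lit 8380086) (nat_lit 0) (nat_lit 0),Row.mk (nat_lit 15792) (nat_lit 60962) (nat_lit 10588) (nat_lit 61336) (nat_lit 54) (nat_lit 0) (nat_lit 0),Row.mk (nat_lit 15960) (nat_lit 60401) (nat_lit 13208) (nat_lit 60775) (nat_lit 84) (nat_lit 0) (nat_lit 0),Row.mk (nat_lit 16128) (nat_lit 59840) (nat_lit 16470) (nat_lit 60214) (nat_lit 131) (nat_lit 0) (nat_lit 0),Row.mk (nat_lit 16296) (nat_lit 59279) (nat_lit 20530) (nat_lit 59653) (nat_lit 205) (nat_lit 0) (nat_lit 0),Row.mk (nat_lit 16464) (nat_lit 58718) (nat_lit 25577) (nat_lit 59092) (nat_lit 321) (nat_lit 0) (nat_lit 0),Row.mk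 (nat_lit 16632) (nat_lit 58157) (nat_lit 31846) (nat_lit 58531) (nat_lit 500) (nat_lit 0) (nat_lit 0),Row.mk (nat_lit 16800) (nat_lit 57596) (nat_lit 39619) (nat_lit 57970) (nat_lit 781) (nat_lit 0) (nat_lit 0),Row.mk (nat_lit 16968) (nat_lit 57035) (nat_lit 49240) (nat_lit 57409) (nat_lit 1219) (nat_lit 0) (nat_lit 0),Row.mk (nat_lit 17136) (nat_lit 56474) (nat_lit 61121) (nat_lit 56848) (nat_lit 1901) (nat_lit 0) (nat_lit 0),Row.mk (nat_lit 17304) (nat_lit 55913) (nat_lit 75747) (nat_lit 56287) (nat_lit 2966) (nat_lit 0) (nat_lit 0),Row.mk (nat_lit 17472) (nat_lit 55352) (nat_lit 93684) (nat_lit 55726) (nat_lit 4627) (nat_lit 0) (nat_lit 0),Row.mk (nat_lit 17640) (nat_lit 54791) (nat_lit 115570) (nat_lit 55165) (nat_lit 7219) (nat_lit 0) (nat_lit 0),Row.mk (nat_lit 17808) (nat_lit 54230) (nat_lit 142100) (nat_lit 54604) (nat_lit 11261) (nat_lit 0) (nat_lit 0),Row.mk (nat_lit 17976) (nat_lit 53669) (nat_lit 173978) (nat_lit 54043)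 (nat_lit 17566) (nat_lit 0) (nat_lit 0),Row.mk (nat_lit 18144) (nat_lit 53108) (nat_lit 211831) (nat_lit 53482) (nat_lit 27403) (nat_lit 0) (nat_lit 0),Row.mk (nat_lit 18312) (nat_lit 52547) (nat_lit 256051) (nat_lit 52921) (nat_lit 42747) (nat_lit 0) (nat_lit 0),Row.mk (nat_lit 18480) (nat_lit 51986) (nat_lit 306509) (nat_lit 52360) (nat_lit 66683) (nat_lit 0) (nat_lit 0),Row.mk (nat_lit 18648) (nat_lit 51425) (nat_lit 362086) (nat_lit 51799) (nat_lit 104022) (nat_lit 0) (nat_lit 0),Row.mk (nat_lit 18816) (nat_lit 50864) (nat_lit 419889) (nat_lit 51238) (nat_lit 162268) (nat_lit 0) (nat_lit 0),Row.mk (nat_lit 18984) (nat_lit 50303) (nat_lit 473972) (nat_lit 50677) (nat_lit 253129) (nat_lit 0) (nat_lit 0),Row.mk (nat_lit 19152) (nat_lit 49742) (nat_lit 513265) (nat_lit 50116) (nat_lit 394867) (nat_lit 0) (nat_lit 0),Row.mk (nat_lit 19320) (nat_lit 49181) (nat_lit 518265) (nat_lit 49555) (nat_lit 615970) (nat_lit 0) (nat_lit 0),Row.mk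 (nat_lit 19488) (nat_lit 48620) (nat_lit 455756) (nat_lit 48994) (nat_lit 960877) (nat_lit 0) (nat_lit 0),Row.mk (nat_lit 19656) (nat_lit 47872) (nat_lit 270429) (nat_lit 48433) (nat_lit 1498911) (nat_lit 0) (nat_lit 0),Row.mk (nat_lit 19824) (nat_lit 47685) (nat_lit 2107101) (nat_lit 48246) (nat_lit 102763) (nat_lit 0) (nat_lit 0),Row.mk (nat_lit 19992) (nat_lit 46750) (nat_lit 2049560) (nat_lit 47498) (nat_lit 710507) (nat_lit 0) (nat_lit 0),Row.mk (nat_lit 20160) (nat_lit 45815) (nat_lit 1651718) (nat_lit 46563) (nat_lit 1795539) (nat_lit 0) (nat_lit 0),Row.mk (nat_lit 20328) (nat_lit 44693) (nat_lit 646322) (nat_lit 45628) (nat_lit 3659218) (nat_lit 0) (nat_lit 0),Row.mk (nat_lit 20496) (nat_lit 44506) (nat_lit 4254498) (nat_lit 45441) (nat_lit 1123018) (nat_lit 0) (nat_lit 0),Row.mk (nat_lit 20664) (nat_lit 43197) (nat_lit 2553699) (nat_lit 44319) (nat_lit 4162689) (nat_lit 0) (nat_lit 0),Row.mk (nat_lit 20832) (nat_lit 43010)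 (nat_lit 7495049) (nat_lit 44132) (nat_lit 893558) (nat_lit 0) (nat_lit 0),Row.mk (nat_lit 21000) (nat_lit 41327) (nat_lit 3983619) (nat_lit 42823) (nat_lit 6493549) (nat_lit 0) (nat_lit 0),Row.mk (nat_lit 21168) (nat_lit 41140) (nat_lit 10352961) (nat_lit 42636) (nat_lit 2732769) (nat_lit 0) (nat_lit 0),Row.mk (nat_lit 21336) (nat_lit 38896) (nat_lit 2453430) (nat_lit 40953) (nat_lit 13890332) (nat_lit 0) (nat_lit 0),Row.mk (nat_lit 21504) (nat_lit 38709) (nat_lit 9780664) (nat_lit 40766) (nat_lit 10632301) (nat_lit 0) (nat_lit 0),Row.mk (nat_lit 21672) (nat_lit 38522) (nat_lit 18932203) (nat_lit 40579) (nat_lit 6563098) (nat_lit 0) (nat_lit 0),Row.mk (nat_lit 21840) (nat_lit 38335) (nat_lit 30362254) (nat_lit 40392) (nat_lit 1480762) (nat_lit 0) (nat_lit 0),Row.mk (nat_lit 22008) (nat_lit 31603) (nat_lit 6078706) (nat_lit 38148) (nat_lit 33692452) (nat_lit 0) (nat_lit 0),Row.mk (nat_lit 22176) (nat_lit 31416) (nat_lit 15980765)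 (nat_lit 37961) (nat_lit 33692452) (nat_lit 0) (nat_lit 0),Row.mk (nat_lit 22344) (nat_lit 31229) (nat_lit 28348198) (nat_lit 37774) (nat_lit 33692452) (nat_lit 0) (nat_lit 0),Row.mk (nat_lit 22512) (nat_lit 31042) (nat_lit 43794824) (nat_lit 37587) (nat_lit 33692452) (nat_lit 0) (nat_lit 0),Row.mk (nat_lit 22680) (nat_lit 30855) (nat_lit 63087287) (nat_lit 37400) (nat_lit 33692452) (nat_lit 0) (nat_lit 0),Row.mk (nat_lit 22848) (nat_lit 30668) (nat_lit 87183107) (nat_lit 37213) (nat_lit 33692452) (nat_lit 0) (nat_lit 0),Row.mk (nat_lit 23016) (nat_lit 30481) (nat_lit 117278206) (nat_lit 37026) (nat_lit 33692452) (nat_lit 0) (nat_lit 0),Row.mk (nat_lit 23184) (nat_lit 30294) (nat_lit 154866258) (nat_lit 36839) (nat_lit 33692452) (nat_lit 0) (nat_lit 0),Row.mk (nat_lit 23352) (nat_lit 30107) (nat_lit 201812828) (nat_lit 36652) (nat_lit 33692452) (nat_lit 0) (nat_lit 0),Row.mk (nat_lit 23520) (nat_lit 29920) (nat_lit 260447962) (nat_lit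 36465) (nat_lit 33692452) (nat_lit 0) (nat_lit 0),Row.mk (nat_lit 23688) (nat_lit 29733) (nat_lit 333681830) (nat_lit 36278) (nat_lit 33692452) (nat_lit 0) (nat_lit 0),Row.mk (nat_lit 23856) (nat_lit 29546) (nat_lit 425149164) (nat_lit 36091) (nat_lit 33692452) (nat_lit 0) (nat_lit 0),Row.mk (nat_lit 24024) (nat_lit 29359) (nat_lit 539389658) (nat_lit 35904) (nat_lit 33692452) (nat_lit 0) (nat_lit 0),Row.mk (nat_lit 24192) (nat_lit 29172) (nat_lit 682073279) (nat_lit 35717) (nat_lit 33692452) (nat_lit 0) (nat_lit 0),Row.mk (nat_lit 24360) (nat_lit 28985) (nat_lit 860281679) (nat_lit 35530) (nat_lit 33692452) (nat_lit 0) (nat_lit 0),Row.mk (nat_lit 24528) (nat_lit 28798) (nat_lit 1082859672) (nat_lit 35343) (nat_lit 33692452) (nat_lit 0) (nat_lit 0),Row.mk (nat_lit 24696) (nat_lit 28611) (nat_lit 1360854216) (nat_lit 35156) (nat_lit 33692452) (nat_lit 0) (nat_lit 0),Row.mk (nat_lit 24864) (nat_lit 28424) (nat_lit 1708062695) (nat_lit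 34969) (nat_lit 33692452) (nat_lit 0) (nat_lit 0),Row.mk (nat_lit 25032) (nat_lit 28237) (nat_lit 2141717710) (nat_lit 34782) (nat_lit 33692452) (nat_lit 0) (nat_lit 0),Row.mk (nat_lit 25200) (nat_lit 28050) (nat_lit 2683342361) (nat_lit 34595) (nat_lit 33692452) (nat_lit 0) (nat_lit 0),Row.mk (nat_lit 25368) (nat_lit 27863) (nat_lit 3359818485) (nat_lit 34408) (nat_lit 33692452) (nat_lit 0) (nat_lit 0),Row.mk (nat_lit 25536) (nat_lit 27676) (nat_lit 4204720844) (nat_lit 34221) (nat_lit 33692452) (nat_lit 0) (nat_lit 0),Row.mk (nat_lit 25704) (nat_lit 27489) (nat_lit 5259983508) (nat_lit 34034) (nat_lit 33692452) (nat_lit 0) (nat_lit 0),Row.mk (nat_lit 25872) (nat_lit 27302) (nat_lit 6577981119) (nat_lit 33847) (nat_lit 33692452) (nat_lit 0) (nat_lit 0),Row.mk (nat_lit 26040) (nat_lit 32912) (nat_lit 8388608) (nat_lit 62084) (nat_lit 8249432185) (nat_lit 0) (nat_lit 0),Row.mk (nat_lit 26208) (nat_lit 32912) (nat_lit 8388608) (nat_lit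 62084) (nat_lit 10305430352) (nat_lit 0) (nat_lit 0),Row.mk (nat_lit 26376) (nat_lit 32912) (nat_lit 8388608) (nat_lit 62084) (nat_lit 12873322465) (nat_lit 0) (nat_lit 0),Row.mk (nat_lit 26544) (nat_lit 32912) (nat_lit 8388608) (nat_lit 62084) (nat_lit 16080557766) (nat_lit 0) (nat_lit 0),Row.mk (nat_lit 26712) (nat_lit 32912) (nat_lit 8388608) (nat_lit 62084) (nat_lit 20086317287) (nat_lit 0) (nat_lit 0),Row.mk (nat_lit 26880) (nat_lit 32912) (nat_lit 8388608) (nat_lit 62084) (nat_lit 25089414294) (nat_lit 0) (nat_lit 0),Row.mk (nat_lit 27048) (nat_lit 32912) (nat_lit 8388608) (nat_lit 62084) (nat_lit 31338161762) (nat_lit 0) (nat_lit 0),Row.mk (nat_lit 27216) (nat_lit 32912) (nat_lit 8388608) (nat_lit 62084) (nat_lit 39142696606) (nat_lit 0) (nat_lit 0),Row.mk (nat_lit 27384) (nat_lit 32912) (nat_lit 8388608) (nat_lit 62084) (nat_lit 48890372351) (nat_lit 0) (nat_lit 0),Row.mk (nat_lit 27552) (nat_lit 32912) (nat_lit 8388608) (nat_lit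 62084) (nat_lit 61064984206) (nat_lit 0) (nat_lit 0),Row.mk (nat_lit 27720) (nat_lit 32912) (nat_lit 8388608) (nat_lit 62084) (nat_lit 76270780715) (nat_lit 0) (nat_lit 0),Row.mk (nat_lit 27888) (nat_lit 32912) (nat_lit 8388608) (nat_lit 62084) (nat_lit 95262453733) (nat_lit 0) (nat_lit 0),Row.mk (nat_lit 28056) (nat_lit 32912) (nat_lit 8388608) (nat_lit 62084) (nat_lit 118982595181) (nat_lit 0) (nat_lit 0),Row.mk (nat_lit 28224) (nat_lit 32912) (nat_lit 8388608) (nat_lit 62084) (nat_lit 148608479629) (nat_lit 0) (nat_lit 0),Row.mk (nat_lit 28392) (nat_lit 32912) (nat_lit 8388608) (nat_lit 62084) (nat_lit 185610494615) (nat_lit 0) (nat_lit 0),Row.mk (nat_lit 28560) (nat_lit 32912) (nat_lit 8388608) (nat_lit 62084) (nat_lit 231825118704) (nat_lit 0) (nat_lit 0),Row.mk (nat_lit 28728) (nat_lit 32912) (nat_lit 8388608) (nat_lit 62084) (nat_lit 289546069319) (nat_lit 0) (nat_lit 0)],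
[Row.mk (nat_lit 14112) (nat_lit 32912) (nat_lit 1152) (nat_lit 61710) (nat_lit 8387455) (nat_lit 0) (nat_lit 0),Row.mk (nat_lit 14280) (nat_lit 32912) (nat_lit 1439) (nat_lit 61710) (nat_lit 8387168) (nat_lit 0) (nat_lit 0),Row.mk (nat_lit 14448) (nat_lit 32912) (nat_lit 1797) (nat_lit 61710) (nat_lit 8386810) (nat_lit 0) (nat_lit 0),Row.mk (nat_lit 14616) (nat_lit 32912) (nat_lit 2244) (nat_lit 61710) (nat_lit 8386363) (nat_lit 0) (nat_lit 0),Row.mk (nat_lit 14784) (nat_lit 32912) (nat_lit 2803) (nat_lit 61710) (nat_lit 8385804) (nat_lit 0) (nat_lit 0),Row.mk (nat_lit 14952) (nat_lit 32912) (nat_lit 3501) (nat_lit 61710) (nat_lit 8385106) (nat_lit 0) (nat_lit 0),Row.mk (nat_lit 15120) (nat_lit 32912) (nat_lit 4373) (nat_lit 61710) (nat_lit 8384234) (nat_lit 0) (nat_lit 0),Row.mk (nat_lit 15288) (nat_lit 32912) (nat_lit 5462) (nat_lit 61710) (nat_lit 8383145) (nat_lit 0) (nat_lit 0),Row.mk (nat_lit 15456) (nat_lit 32912) (nat_lit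 6822) (nat_lit 61710) (nat_lit 8381785) (nat_lit 0) (nat_lit 0),Row.mk (nat_lit 15624) (nat_lit 32912) (nat_lit 8521) (nat_lit 61710) (nat_lit 8380086) (nat_lit 0) (nat_lit 0),Row.mk (nat_lit 15792) (nat_lit 60962) (nat_lit 10588) (nat_lit 61336) (nat_lit 54) (nat_lit 0) (nat_lit 0),Row.mk (nat_lit 15960) (nat_lit 60401) (nat_lit 13208) (nat_lit 60775) (nat_lit 84) (nat_lit 0) (nat_lit 0),Row.mk (nat_lit 16128) (nat_lit 59840) (nat_lit 16470) (nat_lit 60214) (nat_lit 131) (nat_lit 0) (nat_lit 0),Row.mk (nat_lit 16296) (nat_lit 59279) (nat_lit 20530) (nat_lit 59653) (nat_lit 205) (nat_lit 0) (nat_lit 0),Row.mk (nat_lit 16464) (nat_lit 58718) (nat_lit 25577) (nat_lit 59092) (nat_lit 321) (nat_lit 0) (nat_lit 0),Row.mk (nat_lit 16632) (nat_lit 58157) (nat_lit 31846) (nat_lit 58531) (nat_lit 500) (nat_lit 0) (nat_lit 0),Row.mk (nat_lit 16800) (nat_lit 57596) (nat_lit 39619) (nat_lit 57970) (nat_lit 781) (nat_lit 0) (nat_lit 0),Row.mk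 (nat_lit 16968) (nat_lit 57035) (nat_lit 49240) (nat_lit 57409) (nat_lit 1219) (nat_lit 0) (nat_lit 0),Row.mk (nat_lit 17136) (nat_lit 56474) (nat_lit 61121) (nat_lit 56848) (nat_lit 1901) (nat_lit 0) (nat_lit 0),Row.mk (nat_lit 17304) (nat_lit 55913) (nat_lit 75747) (nat_lit 56287) (nat_lit 2966) (nat_lit 0) (nat_lit 0),Row.mk (nat_lit 17472) (nat_lit 55352) (nat_lit 93684) (nat_lit 55726) (nat_lit 4627) (nat_lit 0) (nat_lit 0),Row.mk (nat_lit 17640) (nat_lit 54791) (nat_lit 115570) (nat_lit 55165) (nat_lit 7219) (nat_lit 0) (nat_lit 0),Row.mk (nat_lit 17808) (nat_lit 54230) (nat_lit 142100) (nat_lit 54604) (nat_lit 11261) (nat_lit 0) (nat_lit 0),Row.mk (nat_lit 17976) (nat_lit 53669) (nat_lit 173978) (nat_lit 54043) (nat_lit 17566) (nat_lit 0) (nat_lit 0),Row.mk (nat_lit 18144) (nat_lit 53108) (nat_lit 211831) (nat_lit 53482) (nat_lit 27403) (nat_lit 0) (nat_lit 0),Row.mk (nat_lit 18312) (nat_lit 52547) (nat_lit 256051) (nat_lit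 52921) (nat_lit 42747) (nat_lit 0) (nat_lit 0),Row.mk (nat_lit 18480) (nat_lit 51986) (nat_lit 306509) (nat_lit 52360) (nat_lit 66683) (nat_lit 0) (nat_lit 0),Row.mk (nat_lit 18648) (nat_lit 51425) (nat_lit 362086) (nat_lit 51799) (nat_lit 104022) (nat_lit 0) (nat_lit 0),Row.mk (nat_lit 18816) (nat_lit 50864) (nat_lit 419889) (nat_lit 51238) (nat_lit 162268) (nat_lit 0) (nat_lit 0),Row.mk (nat_lit 18984) (nat_lit 50303) (nat_lit 473972) (nat_lit 50677) (nat_lit 253129) (nat_lit 0) (nat_lit 0),Row.mk (nat_lit 19152) (nat_lit 49742) (nat_lit 513265) (nat_lit 50116) (nat_lit 394867) (nat_lit 0) (nat_lit 0),Row.mk (nat_lit 19320) (nat_lit 49181) (nat_lit 518265) (nat_lit 49555) (nat_lit 615970) (nat_lit 0) (nat_lit 0),Row.mk (nat_lit 19488) (nat_lit 48620) (nat_lit 455756) (nat_lit 48994) (nat_lit 960877) (nat_lit 0) (nat_lit 0),Row.mk (nat_lit 19656) (nat_lit 47872) (nat_lit 270429) (nat_lit 48433) (nat_lit 1498911) (nat_lit 0) (nat_lit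 0),Row.mk (nat_lit 19824) (nat_lit 47685) (nat_lit 2107101) (nat_lit 48246) (nat_lit 102763) (nat_lit 0) (nat_lit 0),Row.mk (nat_lit 19992) (nat_lit 46750) (nat_lit 2049560) (nat_lit 47498) (nat_lit 710507) (nat_lit 0) (nat_lit 0),Row.mk (nat_lit 20160) (nat_lit 45815) (nat_lit 1651718) (nat_lit 46563) (nat_lit 1795539) (nat_lit 0) (nat_lit 0),Row.mk (nat_lit 20328) (nat_lit 44693) (nat_lit 646322) (nat_lit 45628) (nat_lit 3659218) (nat_lit 0) (nat_lit 0),Row.mk (nat_lit 20496) (nat_lit 44506) (nat_lit 4254498) (nat_lit 45441) (nat_lit 1123018) (nat_lit 0) (nat_lit 0),Row.mk (nat_lit 20664) (nat_lit 43197) (nat_lit 2553699) (nat_lit 44319) (nat_lit 4162689) (nat_lit 0) (nat_lit 0),Row.mk (nat_lit 20832) (nat_lit 43010) (nat_lit 7495049) (nat_lit 44132) (nat_lit 893558) (nat_lit 0) (nat_lit 0),Row.mk (nat_lit 21000) (nat_lit 41327) (nat_lit 3983619) (nat_lit 42823) (nat_lit 6493549) (nat_lit 0) (nat_lit 0),Row.mk (nat_lit 21168) (nat_lit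 41140) (nat_lit 10352961) (nat_lit 42636) (nat_lit 2732769) (nat_lit 0) (nat_lit 0),Row.mk (nat_lit 21336) (nat_lit 38896) (nat_lit 2453430) (nat_lit 40953) (nat_lit 13890332) (nat_lit 0) (nat_lit 0),Row.mk (nat_lit 21504) (nat_lit 38709) (nat_lit 9780664) (nat_lit 40766) (nat_lit 10632301) (nat_lit 0) (nat_lit 0),Row.mk (nat_lit 21672) (nat_lit 38522) (nat_lit 18932203) (nat_lit 40579) (nat_lit 6563098) (nat_lit 0) (nat_lit 0),Row.mk (nat_lit 21840) (nat_lit 38335) (nat_lit 30362254) (nat_lit 40392) (nat_lit 1480762) (nat_lit 0) (nat_lit 0),Row.mk (nat_lit 22008) (nat_lit 31603) (nat_lit 6078706) (nat_lit 38148) (nat_lit 33692452) (nat_lit 0) (nat_lit 0),Row.mk (nat_lit 22176) (nat_lit 31416) (nat_lit 15980765) (nat_lit 37961) (nat_lit 33692452) (nat_lit 0) (nat_lit 0),Row.mk (nat_lit 22344) (nat_lit 31229) (nat_lit 28348198) (nat_lit 37774) (nat_lit 33692452) (nat_lit 0) (nat_lit 0),Row.mk (nat_lit 22512) (nat_lit 31042) (nat_lit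 43794824) (nat_lit 37587) (nat_lit 33692452) (nat_lit 0) (nat_lit 0),Row.mk (nat_lit 22680) (nat_lit 30855) (nat_lit 63087287) (nat_lit 37400) (nat_lit 33692452) (nat_lit 0) (nat_lit 0),Row.mk (nat_lit 22848) (nat_lit 30668) (nat_lit 87183107) (nat_lit 37213) (nat_lit 33692452) (nat_lit 0) (nat_lit 0),Row.mk (nat_lit 23016) (nat_lit 30481) (nat_lit 117278206) (nat_lit 37026) (nat_lit 33692452) (nat_lit 0) (nat_lit 0),Row.mk (nat_lit 23184) (nat_lit 30294) (nat_lit 154866258) (nat_lit 36839) (nat_lit 33692452) (nat_lit 0) (nat_lit 0),Row.mk (nat_lit 23352) (nat_lit 30107) (nat_lit 201812828) (nat_lit 36652) (nat_lit 33692452) (nat_lit 0) (nat_lit 0),Row.mk (nat_lit 23520) (nat_lit 29920) (nat_lit 260447962) (nat_lit 36465) (nat_lit 33692452) (nat_lit 0) (nat_lit 0),Row.mk (nat_lit 23688) (nat_lit 29733) (nat_lit 333681830) (nat_lit 36278) (nat_lit 33692452) (nat_lit 0) (nat_lit 0),Row.mk (nat_lit 23856) (nat_lit 29546) (nat_lit 425149164)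 (nat_lit 36091) (nat_lit 33692452) (nat_lit 0) (nat_lit 0),Row.mk (nat_lit 24024) (nat_lit 29359) (nat_lit 539389658) (nat_lit 35904) (nat_lit 33692452) (nat_lit 0) (nat_lit 0),Row.mk (nat_lit 24192) (nat_lit 29172) (nat_lit 682073279) (nat_lit 35717) (nat_lit 33692452) (nat_lit 0) (nat_lit 0),Row.mk (nat_lit 24360) (nat_lit 28985) (nat_lit 860281679) (nat_lit 35530) (nat_lit 33692452) (nat_lit 0) (nat_lit 0),Row.mk (nat_lit 24528) (nat_lit 28798) (nat_lit 1082859672) (nat_lit 35343) (nat_lit 33692452) (nat_lit 0) (nat_lit 0),Row.mk (nat_lit 24696) (nat_lit 28611) (nat_lit 1360854216) (nat_lit 35156) (nat_lit 33692452) (nat_lit 0) (nat_lit 0),Row.mk (nat_lit 24864) (nat_lit 28424) (nat_lit 1708062695) (nat_lit 34969) (nat_lit 33692452) (nat_lit 0) (nat_lit 0),Row.mk (nat_lit 25032) (nat_lit 28237) (nat_lit 2141717710) (nat_lit 34782) (nat_lit 33692452) (nat_lit 0) (nat_lit 0),Row.mk (nat_lit 25200) (nat_lit 28050) (nat_lit 2683342361)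 (nat_lit 34595) (nat_lit 33692452) (nat_lit 0) (nat_lit 0),Row.mk (nat_lit 25368) (nat_lit 27863) (nat_lit 3359818485) (nat_lit 34408) (nat_lit 33692452) (nat_lit 0) (nat_lit 0),Row.mk (nat_lit 25536) (nat_lit 27676) (nat_lit 4204720844) (nat_lit 34221) (nat_lit 33692452) (nat_lit 0) (nat_lit 0),Row.mk (nat_lit 25704) (nat_lit 27489) (nat_lit 5259983508) (nat_lit 34034) (nat_lit 33692452) (nat_lit 0) (nat_lit 0),Row.mk (nat_lit 25872) (nat_lit 27302) (nat_lit 6577981119) (nat_lit 33847) (nat_lit 33692452) (nat_lit 0) (nat_lit 0),Row.mk (nat_lit 26040) (nat_lit 32912) (nat_lit 8388608) (nat_lit 62084) (nat_lit 8249432185) (nat_lit 0) (nat_lit 0),Row.mk (nat_lit 26208) (nat_lit 32912) (nat_lit 8388608) (nat_lit 62084) (nat_lit 10305430352) (nat_lit 0) (nat_lit 0),Row.mk (nat_lit 26376) (nat_lit 32912) (nat_lit 8388608) (nat_lit 62084) (nat_lit 12873322465) (nat_lit 0) (nat_lit 0),Row.mk (nat_lit 26544) (nat_lit 32912) (nat_lit 8388608)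 (nat_lit 62084) (nat_lit 16080557766) (nat_lit 0) (nat_lit 0),Row.mk (nat_lit 26712) (nat_lit 32912) (nat_lit 8388608) (nat_lit 62084) (nat_lit 20086317287) (nat_lit 0) (nat_lit 0),Row.mk (nat_lit 26880) (nat_lit 32912) (nat_lit 8388608) (nat_lit 62084) (nat_lit 25089414294) (nat_lit 0) (nat_lit 0),Row.mk (nat_lit 27048) (nat_lit 32912) (nat_lit 8388608) (nat_lit 62084) (nat_lit 31338161762) (nat_lit 0) (nat_lit 0),Row.mk (nat_lit 27216) (nat_lit 32912) (nat_lit 8388608) (nat_lit 62084) (nat_lit 39142696606) (nat_lit 0) (nat_lit 0),Row.mk (nat_lit 27384) (nat_lit 32912) (nat_lit 8388608) (nat_lit 62084) (nat_lit 48890372351) (nat_lit 0) (nat_lit 0),Row.mk (nat_lit 27552) (nat_lit 32912) (nat_lit 8388608) (nat_lit 62084) (nat_lit 61064984206) (nat_lit 0) (nat_lit 0),Row.mk (nat_lit 27720) (nat_lit 32912) (nat_lit 8388608) (nat_lit 62084) (nat_lit 76270780715) (nat_lit 0) (nat_lit 0),Row.mk (nat_lit 27888) (nat_lit 32912) (nat_lit 8388608)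 (nat_lit 62084) (nat_lit 95262453733) (nat_lit 0) (nat_lit 0),Row.mk (nat_lit 28056) (nat_lit 32912) (nat_lit 8388608) (nat_lit 62084) (nat_lit 118982595181) (nat_lit 0) (nat_lit 0),Row.mk (nat_lit 28224) (nat_lit 32912) (nat_lit 8388608) (nat_lit 62084) (nat_lit 148608479629) (nat_lit 0) (nat_lit 0),Row.mk (nat_lit 28392) (nat_lit 32912) (nat_lit 8388608) (nat_lit 62084) (nat_lit 185610494615) (nat_lit 0) (nat_lit 0),Row.mk (nat_lit 28560) (nat_lit 32912) (nat_lit 8388608) (nat_lit 62084) (nat_lit 231825118704) (nat_lit 0) (nat_lit 0),Row.mk (nat_lit 28728) (nat_lit 32912) (nat_lit 8388608) (nat_lit 62084) (nat_lit 289546069319) (nat_lit 0) (nat_lit 0),Row.mk (nat_lit 28896) (nat_lit 32912) (nat_lit 8388608) (nat_lit 62084) (nat_lit 361638144187) (nat_lit 0) (nat_lit 0)],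
[Row.mk (nat_lit 14280) (nat_lit 32912) (nat_lit 1439) (nat_lit 61710) (nat_lit 8387168) (nat_lit 0) (nat_lit 0),Row.mk (nat_lit 14448) (nat_lit 32912) (nat_lit 1797) (nat_lit 61710) (nat_lit 8386810) (nat_lit 0) (nat_lit 0),Row.mk (nat_lit 14616) (nat_lit 32912) (nat_lit 2244) (nat_lit 61710) (nat_lit 8386363) (nat_lit 0) (nat_lit 0),Row.mk (nat_lit 14784) (nat_lit 32912) (nat_lit 2803) (nat_lit 61710) (nat_lit 8385804) (nat_lit 0) (nat_lit 0),Row.mk (nat_lit 14952) (nat_lit 32912) (nat_lit 3501) (nat_lit 61710) (nat_lit 8385106) (nat_lit 0) (nat_lit 0),Row.mk (nat_lit 15120) (nat_lit 32912) (nat_lit 4373) (nat_lit 61710) (nat_lit 8384234) (nat_lit 0) (nat_lit 0),Row.mk (nat_lit 15288) (nat_lit 32912) (nat_lit 5462) (nat_lit 61710) (nat_lit 8383145) (nat_lit 0) (nat_lit 0),Row.mk (nat_lit 15456) (nat_lit 32912) (nat_lit 6822) (nat_lit 61710) (nat_lit 8381785) (nat_lit 0) (nat_lit 0),Row.mk (nat_lit 15624) (nat_lit 32912) (nat_lit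 8521) (nat_lit 61710) (nat_lit 8380086) (nat_lit 0) (nat_lit 0),Row.mk (nat_lit 15792) (nat_lit 60962) (nat_lit 10588) (nat_lit 61336) (nat_lit 54) (nat_lit 0) (nat_lit 0),Row.mk (nat_lit 15960) (nat_lit 60401) (nat_lit 13208) (nat_lit 60775) (nat_lit 84) (nat_lit 0) (nat_lit 0),Row.mk (nat_lit 16128) (nat_lit 59840) (nat_lit 16470) (nat_lit 60214) (nat_lit 131) (nat_lit 0) (nat_lit 0),Row.mk (nat_lit 16296) (nat_lit 59279) (nat_lit 20530) (nat_lit 59653) (nat_lit 205) (nat_lit 0) (nat_lit 0),Row.mk (nat_lit 16464) (nat_lit 58718) (nat_lit 25577) (nat_lit 59092) (nat_lit 321) (nat_lit 0) (nat_lit 0),Row.mk (nat_lit 16632) (nat_lit 58157) (nat_lit 31846) (nat_lit 58531) (nat_lit 500) (nat_lit 0) (nat_lit 0),Row.mk (nat_lit 16800) (nat_lit 57596) (nat_lit 39619) (nat_lit 57970) (nat_lit 781) (nat_lit 0) (nat_lit 0),Row.mk (nat_lit 16968) (nat_lit 57035) (nat_lit 49240) (nat_lit 57409) (nat_lit 1219) (nat_lit 0) (nat_lit 0),Row.mk (nat_lit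 17136) (nat_lit 56474) (nat_lit 61121) (nat_lit 56848) (nat_lit 1901) (nat_lit 0) (nat_lit 0),Row.mk (nat_lit 17304) (nat_lit 55913) (nat_lit 75747) (nat_lit 56287) (nat_lit 2966) (nat_lit 0) (nat_lit 0),Row.mk (nat_lit 17472) (nat_lit 55352) (nat_lit 93684) (nat_lit 55726) (nat_lit 4627) (nat_lit 0) (nat_lit 0),Row.mk (nat_lit 17640) (nat_lit 54791) (nat_lit 115570) (nat_lit 55165) (nat_lit 7219) (nat_lit 0) (nat_lit 0),Row.mk (nat_lit 17808) (nat_lit 54230) (nat_lit 142100) (nat_lit 54604) (nat_lit 11261) (nat_lit 0) (nat_lit 0),Row.mk (nat_lit 17976) (nat_lit 53669) (nat_lit 173978) (nat_lit 54043) (nat_lit 17566) (nat_lit 0) (nat_lit 0),Row.mk (nat_lit 18144) (nat_lit 53108) (nat_lit 211831) (nat_lit 53482) (nat_lit 27403) (nat_lit 0) (nat_lit 0),Row.mk (nat_lit 18312) (nat_lit 52547) (nat_lit 256051) (nat_lit 52921) (nat_lit 42747) (nat_lit 0) (nat_lit 0),Row.mk (nat_lit 18480) (nat_lit 51986) (nat_lit 306509) (nat_lit 52360)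 (nat_lit 66683) (nat_lit 0) (nat_lit 0),Row.mk (nat_lit 18648) (nat_lit 51425) (nat_lit 362086) (nat_lit 51799) (nat_lit 104022) (nat_lit 0) (nat_lit 0),Row.mk (nat_lit 18816) (nat_lit 50864) (nat_lit 419889) (nat_lit 51238) (nat_lit 162268) (nat_lit 0) (nat_lit 0),Row.mk (nat_lit 18984) (nat_lit 50303) (nat_lit 473972) (nat_lit 50677) (nat_lit 253129) (nat_lit 0) (nat_lit 0),Row.mk (nat_lit 19152) (nat_lit 49742) (nat_lit 513265) (nat_lit 50116) (nat_lit 394867) (nat_lit 0) (nat_lit 0),Row.mk (nat_lit 19320) (nat_lit 49181) (nat_lit 518265) (nat_lit 49555) (nat_lit 615970) (nat_lit 0) (nat_lit 0),Row.mk (nat_lit 19488) (nat_lit 48620) (nat_lit 455756) (nat_lit 48994) (nat_lit 960877) (nat_lit 0) (nat_lit 0),Row.mk (nat_lit 19656) (nat_lit 47872) (nat_lit 270429) (nat_lit 48433) (nat_lit 1498911) (nat_lit 0) (nat_lit 0),Row.mk (nat_lit 19824) (nat_lit 47685) (nat_lit 2107101) (nat_lit 48246) (nat_lit 102763) (nat_lit 0) (nat_lit 0),Row.mk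 (nat_lit 19992) (nat_lit 46750) (nat_lit 2049560) (nat_lit 47498) (nat_lit 710507) (nat_lit 0) (nat_lit 0),Row.mk (nat_lit 20160) (nat_lit 45815) (nat_lit 1651718) (nat_lit 46563) (nat_lit 1795539) (nat_lit 0) (nat_lit 0),Row.mk (nat_lit 20328) (nat_lit 44693) (nat_lit 646322) (nat_lit 45628) (nat_lit 3659218) (nat_lit 0) (nat_lit 0),Row.mk (nat_lit 20496) (nat_lit 44506) (nat_lit 4254498) (nat_lit 45441) (nat_lit 1123018) (nat_lit 0) (nat_lit 0),Row.mk (nat_lit 20664) (nat_lit 43197) (nat_lit 2553699) (nat_lit 44319) (nat_lit 4162689) (nat_lit 0) (nat_lit 0),Row.mk (nat_lit 20832) (nat_lit 43010) (nat_lit 7495049) (nat_lit 44132) (nat_lit 893558) (nat_lit 0) (nat_lit 0),Row.mk (nat_lit 21000) (nat_lit 41327) (nat_lit 3983619) (nat_lit 42823) (nat_lit 6493549) (nat_lit 0) (nat_lit 0),Row.mk (nat_lit 21168) (nat_lit 41140) (nat_lit 10352961) (nat_lit 42636) (nat_lit 2732769) (nat_lit 0) (nat_lit 0),Row.mk (nat_lit 21336) (nat_lit 38896)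 (nat_lit 2453430) (nat_lit 40953) (nat_lit 13890332) (nat_lit 0) (nat_lit 0),Row.mk (nat_lit 21504) (nat_lit 38709) (nat_lit 9780664) (nat_lit 40766) (nat_lit 10632301) (nat_lit 0) (nat_lit 0),Row.mk (nat_lit 21672) (nat_lit 38522) (nat_lit 18932203) (nat_lit 40579) (nat_lit 6563098) (nat_lit 0) (nat_lit 0),Row.mk (nat_lit 21840) (nat_lit 38335) (nat_lit 30362254) (nat_lit 40392) (nat_lit 1480762) (nat_lit 0) (nat_lit 0),Row.mk (nat_lit 22008) (nat_lit 31603) (nat_lit 6078706) (nat_lit 38148) (nat_lit 33692452) (nat_lit 0) (nat_lit 0),Row.mk (nat_lit 22176) (nat_lit 31416) (nat_lit 15980765) (nat_lit 37961) (nat_lit 33692452) (nat_lit 0) (nat_lit 0),Row.mk (nat_lit 22344) (nat_lit 31229) (nat_lit 28348198) (nat_lit 37774) (nat_lit 33692452) (nat_lit 0) (nat_lit 0),Row.mk (nat_lit 22512) (nat_lit 31042) (nat_lit 43794824) (nat_lit 37587) (nat_lit 33692452) (nat_lit 0) (nat_lit 0),Row.mk (nat_lit 22680) (nat_lit 30855) (nat_lit 63087287)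 (nat_lit 37400) (nat_lit 33692452) (nat_lit 0) (nat_lit 0),Row.mk (nat_lit 22848) (nat_lit 30668) (nat_lit 87183107) (nat_lit 37213) (nat_lit 33692452) (nat_lit 0) (nat_lit 0),Row.mk (nat_lit 23016) (nat_lit 30481) (nat_lit 117278206) (nat_lit 37026) (nat_lit 33692452) (nat_lit 0) (nat_lit 0),Row.mk (nat_lit 23184) (nat_lit 30294) (nat_lit 154866258) (nat_lit 36839) (nat_lit 33692452) (nat_lit 0) (nat_lit 0),Row.mk (nat_lit 23352) (nat_lit 30107) (nat_lit 201812828) (nat_lit 36652) (nat_lit 33692452) (nat_lit 0) (nat_lit 0),Row.mk (nat_lit 23520) (nat_lit 29920) (nat_lit 260447962) (nat_lit 36465) (nat_lit 33692452) (nat_lit 0) (nat_lit 0),Row.mk (nat_lit 23688) (nat_lit 29733) (nat_lit 333681830) (nat_lit 36278) (nat_lit 33692452) (nat_lit 0) (nat_lit 0),Row.mk (nat_lit 23856) (nat_lit 29546) (nat_lit 425149164) (nat_lit 36091) (nat_lit 33692452) (nat_lit 0) (nat_lit 0),Row.mk (nat_lit 24024) (nat_lit 29359) (nat_lit 539389658) (nat_lit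 35904) (nat_lit 33692452) (nat_lit 0) (nat_lit 0),Row.mk (nat_lit 24192) (nat_lit 29172) (nat_lit 682073279) (nat_lit 35717) (nat_lit 33692452) (nat_lit 0) (nat_lit 0),Row.mk (nat_lit 24360) (nat_lit 28985) (nat_lit 860281679) (nat_lit 35530) (nat_lit 33692452) (nat_lit 0) (nat_lit 0),Row.mk (nat_lit 24528) (nat_lit 28798) (nat_lit 1082859672) (nat_lit 35343) (nat_lit 33692452) (nat_lit 0) (nat_lit 0),Row.mk (nat_lit 24696) (nat_lit 28611) (nat_lit 1360854216) (nat_lit 35156) (nat_lit 33692452) (nat_lit 0) (nat_lit 0),Row.mk (nat_lit 24864) (nat_lit 28424) (nat_lit 1708062695) (nat_lit 34969) (nat_lit 33692452) (nat_lit 0) (nat_lit 0),Row.mk (nat_lit 25032) (nat_lit 28237) (nat_lit 2141717710) (nat_lit 34782) (nat_lit 33692452) (nat_lit 0) (nat_lit 0),Row.mk (nat_lit 25200) (nat_lit 28050) (nat_lit 2683342361) (nat_lit 34595) (nat_lit 33692452) (nat_lit 0) (nat_lit 0),Row.mk (nat_lit 25368) (nat_lit 27863) (nat_lit 3359818485) (nat_lit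 34408) (nat_lit 33692452) (nat_lit 0) (nat_lit 0),Row.mk (nat_lit 25536) (nat_lit 27676) (nat_lit 4204720844) (nat_lit 34221) (nat_lit 33692452) (nat_lit 0) (nat_lit 0),Row.mk (nat_lit 25704) (nat_lit 27489) (nat_lit 5259983508) (nat_lit 34034) (nat_lit 33692452) (nat_lit 0) (nat_lit 0),Row.mk (nat_lit 25872) (nat_lit 27302) (nat_lit 6577981119) (nat_lit 33847) (nat_lit 33692452) (nat_lit 0) (nat_lit 0),Row.mk (nat_lit 26040) (nat_lit 32912) (nat_lit 8388608) (nat_lit 62084) (nat_lit 8249432185) (nat_lit 0) (nat_lit 0),Row.mk (nat_lit 26208) (nat_lit 32912) (nat_lit 8388608) (nat_lit 62084) (nat_lit 10305430352) (nat_lit 0) (nat_lit 0),Row.mk (nat_lit 26376) (nat_lit 32912) (nat_lit 8388608) (nat_lit 62084) (nat_lit 12873322465) (nat_lit 0) (nat_lit 0),Row.mk (nat_lit 26544) (nat_lit 32912) (nat_lit 8388608) (nat_lit 62084) (nat_lit 16080557766) (nat_lit 0) (nat_lit 0),Row.mk (nat_lit 26712) (nat_lit 32912) (nat_lit 8388608) (nat_lit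 62084) (nat_lit 20086317287) (nat_lit 0) (nat_lit 0),Row.mk (nat_lit 26880) (nat_lit 32912) (nat_lit 8388608) (nat_lit 62084) (nat_lit 25089414294) (nat_lit 0) (nat_lit 0),Row.mk (nat_lit 27048) (nat_lit 32912) (nat_lit 8388608) (nat_lit 62084) (nat_lit 31338161762) (nat_lit 0) (nat_lit 0),Row.mk (nat_lit 27216) (nat_lit 32912) (nat_lit 8388608) (nat_lit 62084) (nat_lit 39142696606) (nat_lit 0) (nat_lit 0),Row.mk (nat_lit 27384) (nat_lit 32912) (nat_lit 8388608) (nat_lit 62084) (nat_lit 48890372351) (nat_lit 0) (nat_lit 0),Row.mk (nat_lit 27552) (nat_lit 32912) (nat_lit 8388608) (nat_lit 62084) (nat_lit 61064984206) (nat_lit 0) (nat_lit 0),Row.mk (nat_lit 27720) (nat_lit 32912) (nat_lit 8388608) (nat_lit 62084) (nat_lit 76270780715) (nat_lit 0) (nat_lit 0),Row.mk (nat_lit 27888) (nat_lit 32912) (nat_lit 8388608) (nat_lit 62084) (nat_lit 95262453733) (nat_lit 0) (nat_lit 0),Row.mk (nat_lit 28056) (nat_lit 32912) (nat_lit 8388608) (nat_lit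 62084) (nat_lit 118982595181) (nat_lit 0) (nat_lit 0),Row.mk (nat_lit 28224) (nat_lit 32912) (nat_lit 8388608) (nat_lit 62084) (nat_lit 148608479629) (nat_lit 0) (nat_lit 0),Row.mk (nat_lit 28392) (nat_lit 32912) (nat_lit 8388608) (nat_lit 62084) (nat_lit 185610494615) (nat_lit 0) (nat_lit 0),Row.mk (nat_lit 28560) (nat_lit 32912) (nat_lit 8388608) (nat_lit 62084) (nat_lit 231825118704) (nat_lit 0) (nat_lit 0),Row.mk (nat_lit 28728) (nat_lit 32912) (nat_lit 8388608) (nat_lit 62084) (nat_lit 289546069319) (nat_lit 0) (nat_lit 0),Row.mk (nat_lit 28896) (nat_lit 32912) (nat_lit 8388608) (nat_lit 62084) (nat_lit 361638144187) (nat_lit 0) (nat_lit 0),Row.mk (nat_lit 29064) (nat_lit 32912) (nat_lit 8388608) (nat_lit 62084) (nat_lit 451679406563) (nat_lit 0) (nat_lit 0)],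
[Row.mk (nat_lit 14616) (nat_lit 32912) (nat_lit 2244) (nat_lit 61710) (nat_lit 8386363) (nat_lit 0) (nat_lit 0),Row.mk (nat_lit 14784) (nat_lit 32912) (nat_lit 2803) (nat_lit 61710) (nat_lit 8385804) (nat_lit 0) (nat_lit 0),Row.mk (nat_lit 14952) (nat_lit 32912) (nat_lit 3501) (nat_lit 61710) (nat_lit 8385106) (nat_lit 0) (nat_lit 0),Row.mk (nat_lit 15120) (nat_lit 32912) (nat_lit 4373) (nat_lit 61710) (nat_lit 8384234) (nat_lit 0) (nat_lit 0),Row.mk (nat_lit 15288) (nat_lit 32912) (nat_lit 5462) (nat_lit 61710) (nat_lit 8383145) (nat_lit 0) (nat_lit 0),Row.mk (nat_lit 15456) (nat_lit 32912) (nat_lit 6822) (nat_lit 61710) (nat_lit 8381785) (nat_lit 0) (nat_lit 0),Row.mk (nat_lit 15624) (nat_lit 32912) (nat_lit 8521) (nat_lit 61710) (nat_lit 8380086) (nat_lit 0) (nat_lit 0),Row.mk (nat_lit 15792) (nat_lit 60962) (nat_lit 10588) (nat_lit 61336) (nat_lit 54) (nat_lit 0) (nat_lit 0),Row.mk (nat_lit 15960) (nat_lit 60401) (nat_lit 13208)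 (nat_lit 60775) (nat_lit 84) (nat_lit 0) (nat_lit 0),Row.mk (nat_lit 16128) (nat_lit 59840) (nat_lit 16470) (nat_lit 60214) (nat_lit 131) (nat_lit 0) (nat_lit 0),Row.mk (nat_lit 16296) (nat_lit 59279) (nat_lit 20530) (nat_lit 59653) (nat_lit 205) (nat_lit 0) (nat_lit 0),Row.mk (nat_lit 16464) (nat_lit 58718) (nat_lit 25577) (nat_lit 59092) (nat_lit 321) (nat_lit 0) (nat_lit 0),Row.mk (nat_lit 16632) (nat_lit 58157) (nat_lit 31846) (nat_lit 58531) (nat_lit 500) (nat_lit 0) (nat_lit 0),Row.mk (nat_lit 16800) (nat_lit 57596) (nat_lit 39619) (nat_lit 57970) (nat_lit 781) (nat_lit 0) (nat_lit 0),Row.mk (nat_lit 16968) (nat_lit 57035) (nat_lit 49240) (nat_lit 57409) (nat_lit 1219) (nat_lit 0) (nat_lit 0),Row.mk (nat_lit 17136) (nat_lit 56474) (nat_lit 61121) (nat_lit 56848) (nat_lit 1901) (nat_lit 0) (nat_lit 0),Row.mk (nat_lit 17304) (nat_lit 55913) (nat_lit 75747) (nat_lit 56287) (nat_lit 2966) (nat_lit 0) (nat_lit 0),Row.mk (nat_lit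 17472) (nat_lit 55352) (nat_lit 93684) (nat_lit 55726) (nat_lit 4627) (nat_lit 0) (nat_lit 0),Row.mk (nat_lit 17640) (nat_lit 54791) (nat_lit 115570) (nat_lit 55165) (nat_lit 7219) (nat_lit 0) (nat_lit 0),Row.mk (nat_lit 17808) (nat_lit 54230) (nat_lit 142100) (nat_lit 54604) (nat_lit 11261) (nat_lit 0) (nat_lit 0),Row.mk (nat_lit 17976) (nat_lit 53669) (nat_lit 173978) (nat_lit 54043) (nat_lit 17566) (nat_lit 0) (nat_lit 0),Row.mk (nat_lit 18144) (nat_lit 53108) (nat_lit 211831) (nat_lit 53482) (nat_lit 27403) (nat_lit 0) (nat_lit 0),Row.mk (nat_lit 18312) (nat_lit 52547) (nat_lit 256051) (nat_lit 52921) (nat_lit 42747) (nat_lit 0) (nat_lit 0),Row.mk (nat_lit 18480) (nat_lit 51986) (nat_lit 306509) (nat_lit 52360) (nat_lit 66683) (nat_lit 0) (nat_lit 0),Row.mk (nat_lit 18648) (nat_lit 51425) (nat_lit 362086) (nat_lit 51799) (nat_lit 104022) (nat_lit 0) (nat_lit 0),Row.mk (nat_lit 18816) (nat_lit 50864) (nat_lit 419889) (nat_lit 51238)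 (nat_lit 162268) (nat_lit 0) (nat_lit 0),Row.mk (nat_lit 18984) (nat_lit 50303) (nat_lit 473972) (nat_lit 50677) (nat_lit 253129) (nat_lit 0) (nat_lit 0),Row.mk (nat_lit 19152) (nat_lit 49742) (nat_lit 513265) (nat_lit 50116) (nat_lit 394867) (nat_lit 0) (nat_lit 0),Row.mk (nat_lit 19320) (nat_lit 49181) (nat_lit 518265) (nat_lit 49555) (nat_lit 615970) (nat_lit 0) (nat_lit 0),Row.mk (nat_lit 19488) (nat_lit 48620) (nat_lit 455756) (nat_lit 48994) (nat_lit 960877) (nat_lit 0) (nat_lit 0),Row.mk (nat_lit 19656) (nat_lit 47872) (nat_lit 270429) (nat_lit 48433) (nat_lit 1498911) (nat_lit 0) (nat_lit 0),Row.mk (nat_lit 19824) (nat_lit 47685) (nat_lit 2107101) (nat_lit 48246) (nat_lit 102763) (nat_lit 0) (nat_lit 0),Row.mk (nat_lit 19992) (nat_lit 46750) (nat_lit 2049560) (nat_lit 47498) (nat_lit 710507) (nat_lit 0) (nat_lit 0),Row.mk (nat_lit 20160) (nat_lit 45815) (nat_lit 1651718) (nat_lit 46563) (nat_lit 1795539) (nat_lit 0) (nat_lit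 0),Row.mk (nat_lit 20328) (nat_lit 44693) (nat_lit 646322) (nat_lit 45628) (nat_lit 3659218) (nat_lit 0) (nat_lit 0),Row.mk (nat_lit 20496) (nat_lit 44506) (nat_lit 4254498) (nat_lit 45441) (nat_lit 1123018) (nat_lit 0) (nat_lit 0),Row.mk (nat_lit 20664) (nat_lit 43197) (nat_lit 2553699) (nat_lit 44319) (nat_lit 4162689) (nat_lit 0) (nat_lit 0),Row.mk (nat_lit 20832) (nat_lit 43010) (nat_lit 7495049) (nat_lit 44132) (nat_lit 893558) (nat_lit 0) (nat_lit 0),Row.mk (nat_lit 21000) (nat_lit 41327) (nat_lit 3983619) (nat_lit 42823) (nat_lit 6493549) (nat_lit 0) (nat_lit 0),Row.mk (nat_lit 21168) (nat_lit 41140) (nat_lit 10352961) (nat_lit 42636) (nat_lit 2732769) (nat_lit 0) (nat_lit 0),Row.mk (nat_lit 21336) (nat_lit 38896) (nat_lit 2453430) (nat_lit 40953) (nat_lit 13890332) (nat_lit 0) (nat_lit 0),Row.mk (nat_lit 21504) (nat_lit 38709) (nat_lit 9780664) (nat_lit 40766) (nat_lit 10632301) (nat_lit 0) (nat_lit 0),Row.mk (nat_lit 21672)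 (nat_lit 38522) (nat_lit 18932203) (nat_lit 40579) (nat_lit 6563098) (nat_lit 0) (nat_lit 0),Row.mk (nat_lit 21840) (nat_lit 38335) (nat_lit 30362254) (nat_lit 40392) (nat_lit 1480762) (nat_lit 0) (nat_lit 0),Row.mk (nat_lit 22008) (nat_lit 31603) (nat_lit 6078706) (nat_lit 38148) (nat_lit 33692452) (nat_lit 0) (nat_lit 0),Row.mk (nat_lit 22176) (nat_lit 31416) (nat_lit 15980765) (nat_lit 37961) (nat_lit 33692452) (nat_lit 0) (nat_lit 0),Row.mk (nat_lit 22344) (nat_lit 31229) (nat_lit 28348198) (nat_lit 37774) (nat_lit 33692452) (nat_lit 0) (nat_lit 0),Row.mk (nat_lit 22512) (nat_lit 31042) (nat_lit 43794824) (nat_lit 37587) (nat_lit 33692452) (nat_lit 0) (nat_lit 0),Row.mk (nat_lit 22680) (nat_lit 30855) (nat_lit 63087287) (nat_lit 37400) (nat_lit 33692452) (nat_lit 0) (nat_lit 0),Row.mk (nat_lit 22848) (nat_lit 30668) (nat_lit 87183107) (nat_lit 37213) (nat_lit 33692452) (nat_lit 0) (nat_lit 0),Row.mk (nat_lit 23016) (nat_lit 30481)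 (nat_lit 117278206) (nat_lit 37026) (nat_lit 33692452) (nat_lit 0) (nat_lit 0),Row.mk (nat_lit 23184) (nat_lit 30294) (nat_lit 154866258) (nat_lit 36839) (nat_lit 33692452) (nat_lit 0) (nat_lit 0),Row.mk (nat_lit 23352) (nat_lit 30107) (nat_lit 201812828) (nat_lit 36652) (nat_lit 33692452) (nat_lit 0) (nat_lit 0),Row.mk (nat_lit 23520) (nat_lit 29920) (nat_lit 260447962) (nat_lit 36465) (nat_lit 33692452) (nat_lit 0) (nat_lit 0),Row.mk (nat_lit 23688) (nat_lit 29733) (nat_lit 333681830) (nat_lit 36278) (nat_lit 33692452) (nat_lit 0) (nat_lit 0),Row.mk (nat_lit 23856) (nat_lit 29546) (nat_lit 425149164) (nat_lit 36091) (nat_lit 33692452) (nat_lit 0) (nat_lit 0),Row.mk (nat_lit 24024) (nat_lit 29359) (nat_lit 539389658) (nat_lit 35904) (nat_lit 33692452) (nat_lit 0) (nat_lit 0),Row.mk (nat_lit 24192) (nat_lit 29172) (nat_lit 682073279) (nat_lit 35717) (nat_lit 33692452) (nat_lit 0) (nat_lit 0),Row.mk (nat_lit 24360) (nat_lit 28985)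 (nat_lit 860281679) (nat_lit 35530) (nat_lit 33692452) (nat_lit 0) (nat_lit 0),Row.mk (nat_lit 24528) (nat_lit 28798) (nat_lit 1082859672) (nat_lit 35343) (nat_lit 33692452) (nat_lit 0) (nat_lit 0),Row.mk (nat_lit 24696) (nat_lit 28611) (nat_lit 1360854216) (nat_lit 35156) (nat_lit 33692452) (nat_lit 0) (nat_lit 0),Row.mk (nat_lit 24864) (nat_lit 28424) (nat_lit 1708062695) (nat_lit 34969) (nat_lit 33692452) (nat_lit 0) (nat_lit 0),Row.mk (nat_lit 25032) (nat_lit 28237) (nat_lit 2141717710) (nat_lit 34782) (nat_lit 33692452) (nat_lit 0) (nat_lit 0),Row.mk (nat_lit 25200) (nat_lit 28050) (nat_lit 2683342361) (nat_lit 34595) (nat_lit 33692452) (nat_lit 0) (nat_lit 0),Row.mk (nat_lit 25368) (nat_lit 27863) (nat_lit 3359818485) (nat_lit 34408) (nat_lit 33692452) (nat_lit 0) (nat_lit 0),Row.mk (nat_lit 25536) (nat_lit 27676) (nat_lit 4204720844) (nat_lit 34221) (nat_lit 33692452) (nat_lit 0) (nat_lit 0),Row.mk (nat_lit 25704) (nat_lit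 27489) (nat_lit 5259983508) (nat_lit 34034) (nat_lit 33692452) (nat_lit 0) (nat_lit 0),Row.mk (nat_lit 25872) (nat_lit 27302) (nat_lit 6577981119) (nat_lit 33847) (nat_lit 33692452) (nat_lit 0) (nat_lit 0),Row.mk (nat_lit 26040) (nat_lit 32912) (nat_lit 8388608) (nat_lit 62084) (nat_lit 8249432185) (nat_lit 0) (nat_lit 0),Row.mk (nat_lit 26208) (nat_lit 32912) (nat_lit 8388608) (nat_lit 62084) (nat_lit 10305430352) (nat_lit 0) (nat_lit 0),Row.mk (nat_lit 26376) (nat_lit 32912) (nat_lit 8388608) (nat_lit 62084) (nat_lit 12873322465) (nat_lit 0) (nat_lit 0),Row.mk (nat_lit 26544) (nat_lit 32912) (nat_lit 8388608) (nat_lit 62084) (nat_lit 16080557766) (nat_lit 0) (nat_lit 0),Row.mk (nat_lit 26712) (nat_lit 32912) (nat_lit 8388608) (nat_lit 62084) (nat_lit 20086317287) (nat_lit 0) (nat_lit 0),Row.mk (nat_lit 26880) (nat_lit 32912) (nat_lit 8388608) (nat_lit 62084) (nat_lit 25089414294) (nat_lit 0) (nat_lit 0),Row.mk (nat_lit 27048) (nat_lit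 32912) (nat_lit 8388608) (nat_lit 62084) (nat_lit 31338161762) (nat_lit 0) (nat_lit 0),Row.mk (nat_lit 27216) (nat_lit 32912) (nat_lit 8388608) (nat_lit 62084) (nat_lit 39142696606) (nat_lit 0) (nat_lit 0),Row.mk (nat_lit 27384) (nat_lit 32912) (nat_lit 8388608) (nat_lit 62084) (nat_lit 48890372351) (nat_lit 0) (nat_lit 0),Row.mk (nat_lit 27552) (nat_lit 32912) (nat_lit 8388608) (nat_lit 62084) (nat_lit 61064984206) (nat_lit 0) (nat_lit 0),Row.mk (nat_lit 27720) (nat_lit 32912) (nat_lit 8388608) (nat_lit 62084) (nat_lit 76270780715) (nat_lit 0) (nat_lit 0),Row.mk (nat_lit 27888) (nat_lit 32912) (nat_lit 8388608) (nat_lit 62084) (nat_lit 95262453733) (nat_lit 0) (nat_lit 0),Row.mk (nat_lit 28056) (nat_lit 32912) (nat_lit 8388608) (nat_lit 62084) (nat_lit 118982595181) (nat_lit 0) (nat_lit 0),Row.mk (nat_lit 28224) (nat_lit 32912) (nat_lit 8388608) (nat_lit 62084) (nat_lit 148608479629) (nat_lit 0) (nat_lit 0),Row.mk (nat_lit 28392)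 (nat_lit 32912) (nat_lit 8388608) (nat_lit 62084) (nat_lit 185610494615) (nat_lit 0) (nat_lit 0),Row.mk (nat_lit 28560) (nat_lit 32912) (nat_lit 8388608) (nat_lit 62084) (nat_lit 231825118704) (nat_lit 0) (nat_lit 0),Row.mk (nat_lit 28728) (nat_lit 32912) (nat_lit 8388608) (nat_lit 62084) (nat_lit 289546069319) (nat_lit 0) (nat_lit 0),Row.mk (nat_lit 28896) (nat_lit 32912) (nat_lit 8388608) (nat_lit 62084) (nat_lit 361638144187) (nat_lit 0) (nat_lit 0),Row.mk (nat_lit 29064) (nat_lit 32912) (nat_lit 8388608) (nat_lit 62084) (nat_lit 451679406563) (nat_lit 0) (nat_lit 0),Row.mk (nat_lit 29232) (nat_lit 32912) (nat_lit 8388608) (nat_lit 62084) (nat_lit 564138771133) (nat_lit 0) (nat_lit 0)],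
[Row.mk (nat_lit 14952) (nat_lit 32912) (nat_lit 3501) (nat_lit 61710) (nat_lit 8385106) (nat_lit 0) (nat_lit 0),Row.mk (nat_lit 15120) (nat_lit 32912) (nat_lit 4373) (nat_lit 61710) (nat_lit 8384234) (nat_lit 0) (nat_lit 0),Row.mk (nat_lit 15288) (nat_lit 32912) (nat_lit 5462) (nat_lit 61710) (nat_lit 8383145) (nat_lit 0) (nat_lit 0),Row.mk (nat_lit 15456) (nat_lit 32912) (nat_lit 6822) (nat_lit 61710) (nat_lit 8381785) (nat_lit 0) (nat_lit 0),Row.mk (nat_lit 15624) (nat_lit 32912) (nat_lit 8521) (nat_lit 61710) (nat_lit 8380086) (nat_lit 0) (nat_lit 0),Row.mk (nat_lit 15792) (nat_lit 60962) (nat_lit 10588) (nat_lit 61336) (nat_lit 54) (nat_lit 0) (nat_lit 0),Row.mk (nat_lit 15960) (nat_lit 60401) (nat_lit 13208) (nat_lit 60775) (nat_lit 84) (nat_lit 0) (nat_lit 0),Row.mk (nat_lit 16128) (nat_lit 59840) (nat_lit 16470) (nat_lit 60214) (nat_lit 131) (nat_lit 0) (nat_lit 0),Row.mk (nat_lit 16296) (nat_lit 59279) (nat_lit 20530) (nat_lit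 59653) (nat_lit 205) (nat_lit 0) (nat_lit 0),Row.mk (nat_lit 16464) (nat_lit 58718) (nat_lit 25577) (nat_lit 59092) (nat_lit 321) (nat_lit 0) (nat_lit 0),Row.mk (nat_lit 16632) (nat_lit 58157) (nat_lit 31846) (nat_lit 58531) (nat_lit 500) (nat_lit 0) (nat_lit 0),Row.mk (nat_lit 16800) (nat_lit 57596) (nat_lit 39619) (nat_lit 57970) (nat_lit 781) (nat_lit 0) (nat_lit 0),Row.mk (nat_lit 16968) (nat_lit 57035) (nat_lit 49240) (nat_lit 57409) (nat_lit 1219) (nat_lit 0) (nat_lit 0),Row.mk (nat_lit 17136) (nat_lit 56474) (nat_lit 61121) (nat_lit 56848) (nat_lit 1901) (nat_lit 0) (nat_lit 0),Row.mk (nat_lit 17304) (nat_lit 55913) (nat_lit 75747) (nat_lit 56287) (nat_lit 2966) (nat_lit 0) (nat_lit 0),Row.mk (nat_lit 17472) (nat_lit 55352) (nat_lit 93684) (nat_lit 55726) (nat_lit 4627) (nat_lit 0) (nat_lit 0),Row.mk (nat_lit 17640) (nat_lit 54791) (nat_lit 115570) (nat_lit 55165) (nat_lit 7219) (nat_lit 0) (nat_lit 0),Row.mk (nat_lit 17808)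 (nat_lit 54230) (nat_lit 142100) (nat_lit 54604) (nat_lit 11261) (nat_lit 0) (nat_lit 0),Row.mk (nat_lit 17976) (nat_lit 53669) (nat_lit 173978) (nat_lit 54043) (nat_lit 17566) (nat_lit 0) (nat_lit 0),Row.mk (nat_lit 18144) (nat_lit 53108) (nat_lit 211831) (nat_lit 53482) (nat_lit 27403) (nat_lit 0) (nat_lit 0),Row.mk (nat_lit 18312) (nat_lit 52547) (nat_lit 256051) (nat_lit 52921) (nat_lit 42747) (nat_lit 0) (nat_lit 0),Row.mk (nat_lit 18480) (nat_lit 51986) (nat_lit 306509) (nat_lit 52360) (nat_lit 66683) (nat_lit 0) (nat_lit 0),Row.mk (nat_lit 18648) (nat_lit 51425) (nat_lit 362086) (nat_lit 51799) (nat_lit 104022) (nat_lit 0) (nat_lit 0),Row.mk (nat_lit 18816) (nat_lit 50864) (nat_lit 419889) (nat_lit 51238) (nat_lit 162268) (nat_lit 0) (nat_lit 0),Row.mk (nat_lit 18984) (nat_lit 50303) (nat_lit 473972) (nat_lit 50677) (nat_lit 253129) (nat_lit 0) (nat_lit 0),Row.mk (nat_lit 19152) (nat_lit 49742) (nat_lit 513265) (nat_lit 50116)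 (nat_lit 394867) (nat_lit 0) (nat_lit 0),Row.mk (nat_lit 19320) (nat_lit 49181) (nat_lit 518265) (nat_lit 49555) (nat_lit 615970) (nat_lit 0) (nat_lit 0),Row.mk (nat_lit 19488) (nat_lit 48620) (nat_lit 455756) (nat_lit 48994) (nat_lit 960877) (nat_lit 0) (nat_lit 0),Row.mk (nat_lit 19656) (nat_lit 47872) (nat_lit 270429) (nat_lit 48433) (nat_lit 1498911) (nat_lit 0) (nat_lit 0),Row.mk (nat_lit 19824) (nat_lit 47685) (nat_lit 2107101) (nat_lit 48246) (nat_lit 102763) (nat_lit 0) (nat_lit 0),Row.mk (nat_lit 19992) (nat_lit 46750) (nat_lit 2049560) (nat_lit 47498) (nat_lit 710507) (nat_lit 0) (nat_lit 0),Row.mk (nat_lit 20160) (nat_lit 45815) (nat_lit 1651718) (nat_lit 46563) (nat_lit 1795539) (nat_lit 0) (nat_lit 0),Row.mk (nat_lit 20328) (nat_lit 44693) (nat_lit 646322) (nat_lit 45628) (nat_lit 3659218) (nat_lit 0) (nat_lit 0),Row.mk (nat_lit 20496) (nat_lit 44506) (nat_lit 4254498) (nat_lit 45441) (nat_lit 1123018) (nat_lit 0) (nat_lit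 0),Row.mk (nat_lit 20664) (nat_lit 43197) (nat_lit 2553699) (nat_lit 44319) (nat_lit 4162689) (nat_lit 0) (nat_lit 0),Row.mk (nat_lit 20832) (nat_lit 43010) (nat_lit 7495049) (nat_lit 44132) (nat_lit 893558) (nat_lit 0) (nat_lit 0),Row.mk (nat_lit 21000) (nat_lit 41327) (nat_lit 3983619) (nat_lit 42823) (nat_lit 6493549) (nat_lit 0) (nat_lit 0),Row.mk (nat_lit 21168) (nat_lit 41140) (nat_lit 10352961) (nat_lit 42636) (nat_lit 2732769) (nat_lit 0) (nat_lit 0),Row.mk (nat_lit 21336) (nat_lit 38896) (nat_lit 2453430) (nat_lit 40953) (nat_lit 13890332) (nat_lit 0) (nat_lit 0),Row.mk (nat_lit 21504) (nat_lit 38709) (nat_lit 9780664) (nat_lit 40766) (nat_lit 10632301) (nat_lit 0) (nat_lit 0),Row.mk (nat_lit 21672) (nat_lit 38522) (nat_lit 18932203) (nat_lit 40579) (nat_lit 6563098) (nat_lit 0) (nat_lit 0),Row.mk (nat_lit 21840) (nat_lit 38335) (nat_lit 30362254) (nat_lit 40392) (nat_lit 1480762) (nat_lit 0) (nat_lit 0),Row.mk (nat_lit 22008)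 (nat_lit 31603) (nat_lit 6078706) (nat_lit 38148) (nat_lit 33692452) (nat_lit 0) (nat_lit 0),Row.mk (nat_lit 22176) (nat_lit 31416) (nat_lit 15980765) (nat_lit 37961) (nat_lit 33692452) (nat_lit 0) (nat_lit 0),Row.mk (nat_lit 22344) (nat_lit 31229) (nat_lit 28348198) (nat_lit 37774) (nat_lit 33692452) (nat_lit 0) (nat_lit 0),Row.mk (nat_lit 22512) (nat_lit 31042) (nat_lit 43794824) (nat_lit 37587) (nat_lit 33692452) (nat_lit 0) (nat_lit 0),Row.mk (nat_lit 22680) (nat_lit 30855) (nat_lit 63087287) (nat_lit 37400) (nat_lit 33692452) (nat_lit 0) (nat_lit 0),Row.mk (nat_lit 22848) (nat_lit 30668) (nat_lit 87183107) (nat_lit 37213) (nat_lit 33692452) (nat_lit 0) (nat_lit 0),Row.mk (nat_lit 23016) (nat_lit 30481) (nat_lit 117278206) (nat_lit 37026) (nat_lit 33692452) (nat_lit 0) (nat_lit 0),Row.mk (nat_lit 23184) (nat_lit 30294) (nat_lit 154866258) (nat_lit 36839) (nat_lit 33692452) (nat_lit 0) (nat_lit 0),Row.mk (nat_lit 23352) (nat_lit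 30107) (nat_lit 201812828) (nat_lit 36652) (nat_lit 33692452) (nat_lit 0) (nat_lit 0),Row.mk (nat_lit 23520) (nat_lit 29920) (nat_lit 260447962) (nat_lit 36465) (nat_lit 33692452) (nat_lit 0) (nat_lit 0),Row.mk (nat_lit 23688) (nat_lit 29733) (nat_lit 333681830) (nat_lit 36278) (nat_lit 33692452) (nat_lit 0) (nat_lit 0),Row.mk (nat_lit 23856) (nat_lit 29546) (nat_lit 425149164) (nat_lit 36091) (nat_lit 33692452) (nat_lit 0) (nat_lit 0),Row.mk (nat_lit 24024) (nat_lit 29359) (nat_lit 539389658) (nat_lit 35904) (nat_lit 33692452) (nat_lit 0) (nat_lit 0),Row.mk (nat_lit 24192) (nat_lit 29172) (nat_lit 682073279) (nat_lit 35717) (nat_lit 33692452) (nat_lit 0) (nat_lit 0),Row.mk (nat_lit 24360) (nat_lit 28985) (nat_lit 860281679) (nat_lit 35530) (nat_lit 33692452) (nat_lit 0) (nat_lit 0),Row.mk (nat_lit 24528) (nat_lit 28798) (nat_lit 1082859672) (nat_lit 35343) (nat_lit 33692452) (nat_lit 0) (nat_lit 0),Row.mk (nat_lit 24696) (nat_lit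 28611) (nat_lit 1360854216) (nat_lit 35156) (nat_lit 33692452) (nat_lit 0) (nat_lit 0),Row.mk (nat_lit 24864) (nat_lit 28424) (nat_lit 1708062695) (nat_lit 34969) (nat_lit 33692452) (nat_lit 0) (nat_lit 0),Row.mk (nat_lit 25032) (nat_lit 28237) (nat_lit 2141717710) (nat_lit 34782) (nat_lit 33692452) (nat_lit 0) (nat_lit 0),Row.mk (nat_lit 25200) (nat_lit 28050) (nat_lit 2683342361) (nat_lit 34595) (nat_lit 33692452) (nat_lit 0) (nat_lit 0),Row.mk (nat_lit 25368) (nat_lit 27863) (nat_lit 3359818485) (nat_lit 34408) (nat_lit 33692452) (nat_lit 0) (nat_lit 0),Row.mk (nat_lit 25536) (nat_lit 27676) (nat_lit 4204720844) (nat_lit 34221) (nat_lit 33692452) (nat_lit 0) (nat_lit 0),Row.mk (nat_lit 25704) (nat_lit 27489) (nat_lit 5259983508) (nat_lit 34034) (nat_lit 33692452) (nat_lit 0) (nat_lit 0),Row.mk (nat_lit 25872) (nat_lit 27302) (nat_lit 6577981119) (nat_lit 33847) (nat_lit 33692452) (nat_lit 0) (nat_lit 0),Row.mk (nat_lit 26040) (nat_lit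 32912) (nat_lit 8388608) (nat_lit 62084) (nat_lit 8249432185) (nat_lit 0) (nat_lit 0),Row.mk (nat_lit 26208) (nat_lit 32912) (nat_lit 8388608) (nat_lit 62084) (nat_lit 10305430352) (nat_lit 0) (nat_lit 0),Row.mk (nat_lit 26376) (nat_lit 32912) (nat_lit 8388608) (nat_lit 62084) (nat_lit 12873322465) (nat_lit 0) (nat_lit 0),Row.mk (nat_lit 26544) (nat_lit 32912) (nat_lit 8388608) (nat_lit 62084) (nat_lit 16080557766) (nat_lit 0) (nat_lit 0),Row.mk (nat_lit 26712) (nat_lit 32912) (nat_lit 8388608) (nat_lit 62084) (nat_lit 20086317287) (nat_lit 0) (nat_lit 0),Row.mk (nat_lit 26880) (nat_lit 32912) (nat_lit 8388608) (nat_lit 62084) (nat_lit 25089414294) (nat_lit 0) (nat_lit 0),Row.mk (nat_lit 27048) (nat_lit 32912) (nat_lit 8388608) (nat_lit 62084) (nat_lit 31338161762) (nat_lit 0) (nat_lit 0),Row.mk (nat_lit 27216) (nat_lit 32912) (nat_lit 8388608) (nat_lit 62084) (nat_lit 39142696606) (nat_lit 0) (nat_lit 0),Row.mk (nat_lit 27384) (nat_lit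 32912) (nat_lit 8388608) (nat_lit 62084) (nat_lit 48890372351) (nat_lit 0) (nat_lit 0),Row.mk (nat_lit 27552) (nat_lit 32912) (nat_lit 8388608) (nat_lit 62084) (nat_lit 61064984206) (nat_lit 0) (nat_lit 0),Row.mk (nat_lit 27720) (nat_lit 32912) (nat_lit 8388608) (nat_lit 62084) (nat_lit 76270780715) (nat_lit 0) (nat_lit 0),Row.mk (nat_lit 27888) (nat_lit 32912) (nat_lit 8388608) (nat_lit 62084) (nat_lit 95262453733) (nat_lit 0) (nat_lit 0),Row.mk (nat_lit 28056) (nat_lit 32912) (nat_lit 8388608) (nat_lit 62084) (nat_lit 118982595181) (nat_lit 0) (nat_lit 0),Row.mk (nat_lit 28224) (nat_lit 32912) (nat_lit 8388608) (nat_lit 62084) (nat_lit 148608479629) (nat_lit 0) (nat_lit 0),Row.mk (nat_lit 28392) (nat_lit 32912) (nat_lit 8388608) (nat_lit 62084) (nat_lit 185610494615) (nat_lit 0) (nat_lit 0),Row.mk (nat_lit 28560) (nat_lit 32912) (nat_lit 8388608) (nat_lit 62084) (nat_lit 231825118704) (nat_lit 0) (nat_lit 0),Row.mk (nat_lit 28728)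 (nat_lit 32912) (nat_lit 8388608) (nat_lit 62084) (nat_lit 289546069319) (nat_lit 0) (nat_lit 0),Row.mk (nat_lit 28896) (nat_lit 32912) (nat_lit 8388608) (nat_lit 62084) (nat_lit 361638144187) (nat_lit 0) (nat_lit 0),Row.mk (nat_lit 29064) (nat_lit 32912) (nat_lit 8388608) (nat_lit 62084) (nat_lit 451679406563) (nat_lit 0) (nat_lit 0),Row.mk (nat_lit 29232) (nat_lit 32912) (nat_lit 8388608) (nat_lit 62084) (nat_lit 564138771133) (nat_lit 0) (nat_lit 0),Row.mk (nat_lit 29400) (nat_lit 32912) (nat_lit 8388608) (nat_lit 62084) (nat_lit 704597804532) (nat_lit 0) (nat_lit 0)],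
[Row.mk (nat_lit 15288) (nat_lit 32912) (nat_lit 5462) (nat_lit 61710) (nat_lit 8383145) (nat_lit 0) (nat_lit 0),Row.mk (nat_lit 15456) (nat_lit 32912) (nat_lit 6822) (nat_lit 61710) (nat_lit 8381785) (nat_lit 0) (nat_lit 0),Row.mk (nat_lit 15624) (nat_lit 32912) (nat_lit 8521) (nat_lit 61710) (nat_lit 8380086) (nat_lit 0) (nat_lit 0),Row.mk (nat_lit 15792) (nat_lit 60962) (nat_lit 10588) (nat_lit 61336) (nat_lit 54) (nat_lit 0) (nat_lit 0),Row.mk (nat_lit 15960) (nat_lit 60401) (nat_lit 13208) (nat_lit 60775) (nat_lit 84) (nat_lit 0) (nat_lit 0),Row.mk (nat_lit 16128) (nat_lit 59840) (nat_lit 16470) (nat_lit 60214) (nat_lit 131) (nat_lit 0) (nat_lit 0),Row.mk (nat_lit 16296) (nat_lit 59279) (nat_lit 20530) (nat_lit 59653) (nat_lit 205) (nat_lit 0) (nat_lit 0),Row.mk (nat_lit 16464) (nat_lit 58718) (nat_lit 25577) (nat_lit 59092) (nat_lit 321) (nat_lit 0) (nat_lit 0),Row.mk (nat_lit 16632) (nat_lit 58157) (nat_lit 31846) (nat_lit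 58531) (nat_lit 500) (nat_lit 0) (nat_lit 0),Row.mk (nat_lit 16800) (nat_lit 57596) (nat_lit 39619) (nat_lit 57970) (nat_lit 781) (nat_lit 0) (nat_lit 0),Row.mk (nat_lit 16968) (nat_lit 57035) (nat_lit 49240) (nat_lit 57409) (nat_lit 1219) (nat_lit 0) (nat_lit 0),Row.mk (nat_lit 17136) (nat_lit 56474) (nat_lit 61121) (nat_lit 56848) (nat_lit 1901) (nat_lit 0) (nat_lit 0),Row.mk (nat_lit 17304) (nat_lit 55913) (nat_lit 75747) (nat_lit 56287) (nat_lit 2966) (nat_lit 0) (nat_lit 0),Row.mk (nat_lit 17472) (nat_lit 55352) (nat_lit 93684) (nat_lit 55726) (nat_lit 4627) (nat_lit 0) (nat_lit 0),Row.mk (nat_lit 17640) (nat_lit 54791) (nat_lit 115570) (nat_lit 55165) (nat_lit 7219) (nat_lit 0) (nat_lit 0),Row.mk (nat_lit 17808) (nat_lit 54230) (nat_lit 142100) (nat_lit 54604) (nat_lit 11261) (nat_lit 0) (nat_lit 0),Row.mk (nat_lit 17976) (nat_lit 53669) (nat_lit 173978) (nat_lit 54043) (nat_lit 17566) (nat_lit 0) (nat_lit 0),Row.mk (nat_lit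 18144) (nat_lit 53108) (nat_lit 211831) (nat_lit 53482) (nat_lit 27403) (nat_lit 0) (nat_lit 0),Row.mk (nat_lit 18312) (nat_lit 52547) (nat_lit 256051) (nat_lit 52921) (nat_lit 42747) (nat_lit 0) (nat_lit 0),Row.mk (nat_lit 18480) (nat_lit 51986) (nat_lit 306509) (nat_lit 52360) (nat_lit 66683) (nat_lit 0) (nat_lit 0),Row.mk (nat_lit 18648) (nat_lit 51425) (nat_lit 362086) (nat_lit 51799) (nat_lit 104022) (nat_lit 0) (nat_lit 0),Row.mk (nat_lit 18816) (nat_lit 50864) (nat_lit 419889) (nat_lit 51238) (nat_lit 162268) (nat_lit 0) (nat_lit 0),Row.mk (nat_lit 18984) (nat_lit 50303) (nat_lit 473972) (nat_lit 50677) (nat_lit 253129) (nat_lit 0) (nat_lit 0),Row.mk (nat_lit 19152) (nat_lit 49742) (nat_lit 513265) (nat_lit 50116) (nat_lit 394867) (nat_lit 0) (nat_lit 0),Row.mk (nat_lit 19320) (nat_lit 49181) (nat_lit 518265) (nat_lit 49555) (nat_lit 615970) (nat_lit 0) (nat_lit 0),Row.mk (nat_lit 19488) (nat_lit 48620) (nat_lit 455756) (nat_lit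 48994) (nat_lit 960877) (nat_lit 0) (nat_lit 0),Row.mk (nat_lit 19656) (nat_lit 47872) (nat_lit 270429) (nat_lit 48433) (nat_lit 1498911) (nat_lit 0) (nat_lit 0),Row.mk (nat_lit 19824) (nat_lit 47685) (nat_lit 2107101) (nat_lit 48246) (nat_lit 102763) (nat_lit 0) (nat_lit 0),Row.mk (nat_lit 19992) (nat_lit 46750) (nat_lit 2049560) (nat_lit 47498) (nat_lit 710507) (nat_lit 0) (nat_lit 0),Row.mk (nat_lit 20160) (nat_lit 45815) (nat_lit 1651718) (nat_lit 46563) (nat_lit 1795539) (nat_lit 0) (nat_lit 0),Row.mk (nat_lit 20328) (nat_lit 44693) (nat_lit 646322) (nat_lit 45628) (nat_lit 3659218) (nat_lit 0) (nat_lit 0),Row.mk (nat_lit 20496) (nat_lit 44506) (nat_lit 4254498) (nat_lit 45441) (nat_lit 1123018) (nat_lit 0) (nat_lit 0),Row.mk (nat_lit 20664) (nat_lit 43197) (nat_lit 2553699) (nat_lit 44319) (nat_lit 4162689) (nat_lit 0) (nat_lit 0),Row.mk (nat_lit 20832) (nat_lit 43010) (nat_lit 7495049) (nat_lit 44132) (nat_lit 893558) (nat_lit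 0) (nat_lit 0),Row.mk (nat_lit 21000) (nat_lit 41327) (nat_lit 3983619) (nat_lit 42823) (nat_lit 6493549) (nat_lit 0) (nat_lit 0),Row.mk (nat_lit 21168) (nat_lit 41140) (nat_lit 10352961) (nat_lit 42636) (nat_lit 2732769) (nat_lit 0) (nat_lit 0),Row.mk (nat_lit 21336) (nat_lit 38896) (nat_lit 2453430) (nat_lit 40953) (nat_lit 13890332) (nat_lit 0) (nat_lit 0),Row.mk (nat_lit 21504) (nat_lit 38709) (nat_lit 9780664) (nat_lit 40766) (nat_lit 10632301) (nat_lit 0) (nat_lit 0),Row.mk (nat_lit 21672) (nat_lit 38522) (nat_lit 18932203) (nat_lit 40579) (nat_lit 6563098) (nat_lit 0) (nat_lit 0),Row.mk (nat_lit 21840) (nat_lit 38335) (nat_lit 30362254) (nat_lit 40392) (nat_lit 1480762) (nat_lit 0) (nat_lit 0),Row.mk (nat_lit 22008) (nat_lit 31603) (nat_lit 6078706) (nat_lit 38148) (nat_lit 33692452) (nat_lit 0) (nat_lit 0),Row.mk (nat_lit 22176) (nat_lit 31416) (nat_lit 15980765) (nat_lit 37961) (nat_lit 33692452) (nat_lit 0) (nat_lit 0),Row.mk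 (nat_lit 22344) (nat_lit 31229) (nat_lit 28348198) (nat_lit 37774) (nat_lit 33692452) (nat_lit 0) (nat_lit 0),Row.mk (nat_lit 22512) (nat_lit 31042) (nat_lit 43794824) (nat_lit 37587) (nat_lit 33692452) (nat_lit 0) (nat_lit 0),Row.mk (nat_lit 22680) (nat_lit 30855) (nat_lit 63087287) (nat_lit 37400) (nat_lit 33692452) (nat_lit 0) (nat_lit 0),Row.mk (nat_lit 22848) (nat_lit 30668) (nat_lit 87183107) (nat_lit 37213) (nat_lit 33692452) (nat_lit 0) (nat_lit 0),Row.mk (nat_lit 23016) (nat_lit 30481) (nat_lit 117278206) (nat_lit 37026) (nat_lit 33692452) (nat_lit 0) (nat_lit 0),Row.mk (nat_lit 23184) (nat_lit 30294) (nat_lit 154866258) (nat_lit 36839) (nat_lit 33692452) (nat_lit 0) (nat_lit 0),Row.mk (nat_lit 23352) (nat_lit 30107) (nat_lit 201812828) (nat_lit 36652) (nat_lit 33692452) (nat_lit 0) (nat_lit 0),Row.mk (nat_lit 23520) (nat_lit 29920) (nat_lit 260447962) (nat_lit 36465) (nat_lit 33692452) (nat_lit 0) (nat_lit 0),Row.mk (nat_lit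 23688) (nat_lit 29733) (nat_lit 333681830) (nat_lit 36278) (nat_lit 33692452) (nat_lit 0) (nat_lit 0),Row.mk (nat_lit 23856) (nat_lit 29546) (nat_lit 425149164) (nat_lit 36091) (nat_lit 33692452) (nat_lit 0) (nat_lit 0),Row.mk (nat_lit 24024) (nat_lit 29359) (nat_lit 539389658) (nat_lit 35904) (nat_lit 33692452) (nat_lit 0) (nat_lit 0),Row.mk (nat_lit 24192) (nat_lit 29172) (nat_lit 682073279) (nat_lit 35717) (nat_lit 33692452) (nat_lit 0) (nat_lit 0),Row.mk (nat_lit 24360) (nat_lit 28985) (nat_lit 860281679) (nat_lit 35530) (nat_lit 33692452) (nat_lit 0) (nat_lit 0),Row.mk (nat_lit 24528) (nat_lit 28798) (nat_lit 1082859672) (nat_lit 35343) (nat_lit 33692452) (nat_lit 0) (nat_lit 0),Row.mk (nat_lit 24696) (nat_lit 28611) (nat_lit 1360854216) (nat_lit 35156) (nat_lit 33692452) (nat_lit 0) (nat_lit 0),Row.mk (nat_lit 24864) (nat_lit 28424) (nat_lit 1708062695) (nat_lit 34969) (nat_lit 33692452) (nat_lit 0) (nat_lit 0),Row.mk (nat_lit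 25032) (nat_lit 28237) (nat_lit 2141717710) (nat_lit 34782) (nat_lit 33692452) (nat_lit 0) (nat_lit 0),Row.mk (nat_lit 25200) (nat_lit 28050) (nat_lit 2683342361) (nat_lit 34595) (nat_lit 33692452) (nat_lit 0) (nat_lit 0),Row.mk (nat_lit 25368) (nat_lit 27863) (nat_lit 3359818485) (nat_lit 34408) (nat_lit 33692452) (nat_lit 0) (nat_lit 0),Row.mk (nat_lit 25536) (nat_lit 27676) (nat_lit 4204720844) (nat_lit 34221) (nat_lit 33692452) (nat_lit 0) (nat_lit 0),Row.mk (nat_lit 25704) (nat_lit 27489) (nat_lit 5259983508) (nat_lit 34034) (nat_lit 33692452) (nat_lit 0) (nat_lit 0),Row.mk (nat_lit 25872) (nat_lit 27302) (nat_lit 6577981119) (nat_lit 33847) (nat_lit 33692452) (nat_lit 0) (nat_lit 0),Row.mk (nat_lit 26040) (nat_lit 32912) (nat_lit 8388608) (nat_lit 62084) (nat_lit 8249432185) (nat_lit 0) (nat_lit 0),Row.mk (nat_lit 26208) (nat_lit 32912) (nat_lit 8388608) (nat_lit 62084) (nat_lit 10305430352) (nat_lit 0) (nat_lit 0),Row.mk (nat_lit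 26376) (nat_lit 32912) (nat_lit 8388608) (nat_lit 62084) (nat_lit 12873322465) (nat_lit 0) (nat_lit 0),Row.mk (nat_lit 26544) (nat_lit 32912) (nat_lit 8388608) (nat_lit 62084) (nat_lit 16080557766) (nat_lit 0) (nat_lit 0),Row.mk (nat_lit 26712) (nat_lit 32912) (nat_lit 8388608) (nat_lit 62084) (nat_lit 20086317287) (nat_lit 0) (nat_lit 0),Row.mk (nat_lit 26880) (nat_lit 32912) (nat_lit 8388608) (nat_lit 62084) (nat_lit 25089414294) (nat_lit 0) (nat_lit 0),Row.mk (nat_lit 27048) (nat_lit 32912) (nat_lit 8388608) (nat_lit 62084) (nat_lit 31338161762) (nat_lit 0) (nat_lit 0),Row.mk (nat_lit 27216) (nat_lit 32912) (nat_lit 8388608) (nat_lit 62084) (nat_lit 39142696606) (nat_lit 0) (nat_lit 0),Row.mk (nat_lit 27384) (nat_lit 32912) (nat_lit 8388608) (nat_lit 62084) (nat_lit 48890372351) (nat_lit 0) (nat_lit 0),Row.mk (nat_lit 27552) (nat_lit 32912) (nat_lit 8388608) (nat_lit 62084) (nat_lit 61064984206) (nat_lit 0) (nat_lit 0),Row.mk (nat_lit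 27720) (nat_lit 32912) (nat_lit 8388608) (nat_lit 62084) (nat_lit 76270780715) (nat_lit 0) (nat_lit 0),Row.mk (nat_lit 27888) (nat_lit 32912) (nat_lit 8388608) (nat_lit 62084) (nat_lit 95262453733) (nat_lit 0) (nat_lit 0),Row.mk (nat_lit 28056) (nat_lit 32912) (nat_lit 8388608) (nat_lit 62084) (nat_lit 118982595181) (nat_lit 0) (nat_lit 0),Row.mk (nat_lit 28224) (nat_lit 32912) (nat_lit 8388608) (nat_lit 62084) (nat_lit 148608479629) (nat_lit 0) (nat_lit 0),Row.mk (nat_lit 28392) (nat_lit 32912) (nat_lit 8388608) (nat_lit 62084) (nat_lit 185610494615) (nat_lit 0) (nat_lit 0),Row.mk (nat_lit 28560) (nat_lit 32912) (nat_lit 8388608) (nat_lit 62084) (nat_lit 231825118704) (nat_lit 0) (nat_lit 0),Row.mk (nat_lit 28728) (nat_lit 32912) (nat_lit 8388608) (nat_lit 62084) (nat_lit 289546069319) (nat_lit 0) (nat_lit 0),Row.mk (nat_lit 28896) (nat_lit 32912) (nat_lit 8388608) (nat_lit 62084) (nat_lit 361638144187) (nat_lit 0) (nat_lit 0),Row.mk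 (nat_lit 29064) (nat_lit 32912) (nat_lit 8388608) (nat_lit 62084) (nat_lit 451679406563) (nat_lit 0) (nat_lit 0),Row.mk (nat_lit 29232) (nat_lit 32912) (nat_lit 8388608) (nat_lit 62084) (nat_lit 564138771133) (nat_lit 0) (nat_lit 0),Row.mk (nat_lit 29400) (nat_lit 32912) (nat_lit 8388608) (nat_lit 62084) (nat_lit 704597804532) (nat_lit 0) (nat_lit 0),Row.mk (nat_lit 29568) (nat_lit 32912) (nat_lit 8388608) (nat_lit 62084) (nat_lit 880027748841) (nat_lit 0) (nat_lit 0)],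
[Row.mk (nat_lit 15624) (nat_lit 32912) (nat_lit 8521) (nat_lit 61710) (nat_lit 8380086) (nat_lit 0) (nat_lit 0),Row.mk (nat_lit 15792) (nat_lit 60962) (nat_lit 10588) (nat_lit 61336) (nat_lit 54) (nat_lit 0) (nat_lit 0),Row.mk (nat_lit 15960) (nat_lit 60401) (nat_lit 13208) (nat_lit 60775) (nat_lit 84) (nat_lit 0) (nat_lit 0),Row.mk (nat_lit 16128) (nat_lit 59840) (nat_lit 16470) (nat_lit 60214) (nat_lit 131) (nat_lit 0) (nat_lit 0),Row.mk (nat_lit 16296) (nat_lit 59279) (nat_lit 20530) (nat_lit 59653) (nat_lit 205) (nat_lit 0) (nat_lit 0),Row.mk (nat_lit 16464) (nat_lit 58718) (nat_lit 25577) (nat_lit 59092) (nat_lit 321) (nat_lit 0) (nat_lit 0),Row.mk (nat_lit 16632) (nat_lit 58157) (nat_lit 31846) (nat_lit 58531) (nat_lit 500) (nat_lit 0) (nat_lit 0),Row.mk (nat_lit 16800) (nat_lit 57596) (nat_lit 39619) (nat_lit 57970) (nat_lit 781) (nat_lit 0) (nat_lit 0),Row.mk (nat_lit 16968) (nat_lit 57035) (nat_lit 49240) (nat_lit 57409)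 (nat_lit 1219) (nat_lit 0) (nat_lit 0),Row.mk (nat_lit 17136) (nat_lit 56474) (nat_lit 61121) (nat_lit 56848) (nat_lit 1901) (nat_lit 0) (nat_lit 0),Row.mk (nat_lit 17304) (nat_lit 55913) (nat_lit 75747) (nat_lit 56287) (nat_lit 2966) (nat_lit 0) (nat_lit 0),Row.mk (nat_lit 17472) (nat_lit 55352) (nat_lit 93684) (nat_lit 55726) (nat_lit 4627) (nat_lit 0) (nat_lit 0),Row.mk (nat_lit 17640) (nat_lit 54791) (nat_lit 115570) (nat_lit 55165) (nat_lit 7219) (nat_lit 0) (nat_lit 0),Row.mk (nat_lit 17808) (nat_lit 54230) (nat_lit 142100) (nat_lit 54604) (nat_lit 11261) (nat_lit 0) (nat_lit 0),Row.mk (nat_lit 17976) (nat_lit 53669) (nat_lit 173978) (nat_lit 54043) (nat_lit 17566) (nat_lit 0) (nat_lit 0),Row.mk (nat_lit 18144) (nat_lit 53108) (nat_lit 211831) (nat_lit 53482) (nat_lit 27403) (nat_lit 0) (nat_lit 0),Row.mk (nat_lit 18312) (nat_lit 52547) (nat_lit 256051) (nat_lit 52921) (nat_lit 42747) (nat_lit 0) (nat_lit 0),Row.mk (nat_lit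 18480) (nat_lit 51986) (nat_lit 306509) (nat_lit 52360) (nat_lit 66683) (nat_lit 0) (nat_lit 0),Row.mk (nat_lit 18648) (nat_lit 51425) (nat_lit 362086) (nat_lit 51799) (nat_lit 104022) (nat_lit 0) (nat_lit 0),Row.mk (nat_lit 18816) (nat_lit 50864) (nat_lit 419889) (nat_lit 51238) (nat_lit 162268) (nat_lit 0) (nat_lit 0),Row.mk (nat_lit 18984) (nat_lit 50303) (nat_lit 473972) (nat_lit 50677) (nat_lit 253129) (nat_lit 0) (nat_lit 0),Row.mk (nat_lit 19152) (nat_lit 49742) (nat_lit 513265) (nat_lit 50116) (nat_lit 394867) (nat_lit 0) (nat_lit 0),Row.mk (nat_lit 19320) (nat_lit 49181) (nat_lit 518265) (nat_lit 49555) (nat_lit 615970) (nat_lit 0) (nat_lit 0),Row.mk (nat_lit 19488) (nat_lit 48620) (nat_lit 455756) (nat_lit 48994) (nat_lit 960877) (nat_lit 0) (nat_lit 0),Row.mk (nat_lit 19656) (nat_lit 47872) (nat_lit 270429) (nat_lit 48433) (nat_lit 1498911) (nat_lit 0) (nat_lit 0),Row.mk (nat_lit 19824) (nat_lit 47685) (nat_lit 2107101)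 (nat_lit 48246) (nat_lit 102763) (nat_lit 0) (nat_lit 0),Row.mk (nat_lit 19992) (nat_lit 46750) (nat_lit 2049560) (nat_lit 47498) (nat_lit 710507) (nat_lit 0) (nat_lit 0),Row.mk (nat_lit 20160) (nat_lit 45815) (nat_lit 1651718) (nat_lit 46563) (nat_lit 1795539) (nat_lit 0) (nat_lit 0),Row.mk (nat_lit 20328) (nat_lit 44693) (nat_lit 646322) (nat_lit 45628) (nat_lit 3659218) (nat_lit 0) (nat_lit 0),Row.mk (nat_lit 20496) (nat_lit 44506) (nat_lit 4254498) (nat_lit 45441) (nat_lit 1123018) (nat_lit 0) (nat_lit 0),Row.mk (nat_lit 20664) (nat_lit 43197) (nat_lit 2553699) (nat_lit 44319) (nat_lit 4162689) (nat_lit 0) (nat_lit 0),Row.mk (nat_lit 20832) (nat_lit 43010) (nat_lit 7495049) (nat_lit 44132) (nat_lit 893558) (nat_lit 0) (nat_lit 0),Row.mk (nat_lit 21000) (nat_lit 41327) (nat_lit 3983619) (nat_lit 42823) (nat_lit 6493549) (nat_lit 0) (nat_lit 0),Row.mk (nat_lit 21168) (nat_lit 41140) (nat_lit 10352961) (nat_lit 42636) (nat_lit 2732769)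 (nat_lit 0) (nat_lit 0),Row.mk (nat_lit 21336) (nat_lit 38896) (nat_lit 2453430) (nat_lit 40953) (nat_lit 13890332) (nat_lit 0) (nat_lit 0),Row.mk (nat_lit 21504) (nat_lit 38709) (nat_lit 9780664) (nat_lit 40766) (nat_lit 10632301) (nat_lit 0) (nat_lit 0),Row.mk (nat_lit 21672) (nat_lit 38522) (nat_lit 18932203) (nat_lit 40579) (nat_lit 6563098) (nat_lit 0) (nat_lit 0),Row.mk (nat_lit 21840) (nat_lit 38335) (nat_lit 30362254) (nat_lit 40392) (nat_lit 1480762) (nat_lit 0) (nat_lit 0),Row.mk (nat_lit 22008) (nat_lit 31603) (nat_lit 6078706) (nat_lit 38148) (nat_lit 33692452) (nat_lit 0) (nat_lit 0),Row.mk (nat_lit 22176) (nat_lit 31416) (nat_lit 15980765) (nat_lit 37961) (nat_lit 33692452) (nat_lit 0) (nat_lit 0),Row.mk (nat_lit 22344) (nat_lit 31229) (nat_lit 28348198) (nat_lit 37774) (nat_lit 33692452) (nat_lit 0) (nat_lit 0),Row.mk (nat_lit 22512) (nat_lit 31042) (nat_lit 43794824) (nat_lit 37587) (nat_lit 33692452) (nat_lit 0) (nat_lit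 0),Row.mk (nat_lit 22680) (nat_lit 30855) (nat_lit 63087287) (nat_lit 37400) (nat_lit 33692452) (nat_lit 0) (nat_lit 0),Row.mk (nat_lit 22848) (nat_lit 30668) (nat_lit 87183107) (nat_lit 37213) (nat_lit 33692452) (nat_lit 0) (nat_lit 0),Row.mk (nat_lit 23016) (nat_lit 30481) (nat_lit 117278206) (nat_lit 37026) (nat_lit 33692452) (nat_lit 0) (nat_lit 0),Row.mk (nat_lit 23184) (nat_lit 30294) (nat_lit 154866258) (nat_lit 36839) (nat_lit 33692452) (nat_lit 0) (nat_lit 0),Row.mk (nat_lit 23352) (nat_lit 30107) (nat_lit 201812828) (nat_lit 36652) (nat_lit 33692452) (nat_lit 0) (nat_lit 0),Row.mk (nat_lit 23520) (nat_lit 29920) (nat_lit 260447962) (nat_lit 36465) (nat_lit 33692452) (nat_lit 0) (nat_lit 0),Row.mk (nat_lit 23688) (nat_lit 29733) (nat_lit 333681830) (nat_lit 36278) (nat_lit 33692452) (nat_lit 0) (nat_lit 0),Row.mk (nat_lit 23856) (nat_lit 29546) (nat_lit 425149164) (nat_lit 36091) (nat_lit 33692452) (nat_lit 0) (nat_lit 0),Row.mk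 (nat_lit 24024) (nat_lit 29359) (nat_lit 539389658) (nat_lit 35904) (nat_lit 33692452) (nat_lit 0) (nat_lit 0),Row.mk (nat_lit 24192) (nat_lit 29172) (nat_lit 682073279) (nat_lit 35717) (nat_lit 33692452) (nat_lit 0) (nat_lit 0),Row.mk (nat_lit 24360) (nat_lit 28985) (nat_lit 860281679) (nat_lit 35530) (nat_lit 33692452) (nat_lit 0) (nat_lit 0),Row.mk (nat_lit 24528) (nat_lit 28798) (nat_lit 1082859672) (nat_lit 35343) (nat_lit 33692452) (nat_lit 0) (nat_lit 0),Row.mk (nat_lit 24696) (nat_lit 28611) (nat_lit 1360854216) (nat_lit 35156) (nat_lit 33692452) (nat_lit 0) (nat_lit 0),Row.mk (nat_lit 24864) (nat_lit 28424) (nat_lit 1708062695) (nat_lit 34969) (nat_lit 33692452) (nat_lit 0) (nat_lit 0),Row.mk (nat_lit 25032) (nat_lit 28237) (nat_lit 2141717710) (nat_lit 34782) (nat_lit 33692452) (nat_lit 0) (nat_lit 0),Row.mk (nat_lit 25200) (nat_lit 28050) (nat_lit 2683342361) (nat_lit 34595) (nat_lit 33692452) (nat_lit 0) (nat_lit 0),Row.mk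 (nat_lit 25368) (nat_lit 27863) (nat_lit 3359818485) (nat_lit 34408) (nat_lit 33692452) (nat_lit 0) (nat_lit 0),Row.mk (nat_lit 25536) (nat_lit 27676) (nat_lit 4204720844) (nat_lit 34221) (nat_lit 33692452) (nat_lit 0) (nat_lit 0),Row.mk (nat_lit 25704) (nat_lit 27489) (nat_lit 5259983508) (nat_lit 34034) (nat_lit 33692452) (nat_lit 0) (nat_lit 0),Row.mk (nat_lit 25872) (nat_lit 27302) (nat_lit 6577981119) (nat_lit 33847) (nat_lit 33692452) (nat_lit 0) (nat_lit 0),Row.mk (nat_lit 26040) (nat_lit 32912) (nat_lit 8388608) (nat_lit 62084) (nat_lit 8249432185) (nat_lit 0) (nat_lit 0),Row.mk (nat_lit 26208) (nat_lit 32912) (nat_lit 8388608) (nat_lit 62084) (nat_lit 10305430352) (nat_lit 0) (nat_lit 0),Row.mk (nat_lit 26376) (nat_lit 32912) (nat_lit 8388608) (nat_lit 62084) (nat_lit 12873322465) (nat_lit 0) (nat_lit 0),Row.mk (nat_lit 26544) (nat_lit 32912) (nat_lit 8388608) (nat_lit 62084) (nat_lit 16080557766) (nat_lit 0) (nat_lit 0),Row.mk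 (nat_lit 26712) (nat_lit 32912) (nat_lit 8388608) (nat_lit 62084) (nat_lit 20086317287) (nat_lit 0) (nat_lit 0),Row.mk (nat_lit 26880) (nat_lit 32912) (nat_lit 8388608) (nat_lit 62084) (nat_lit 25089414294) (nat_lit 0) (nat_lit 0),Row.mk (nat_lit 27048) (nat_lit 32912) (nat_lit 8388608) (nat_lit 62084) (nat_lit 31338161762) (nat_lit 0) (nat_lit 0),Row.mk (nat_lit 27216) (nat_lit 32912) (nat_lit 8388608) (nat_lit 62084) (nat_lit 39142696606) (nat_lit 0) (nat_lit 0),Row.mk (nat_lit 27384) (nat_lit 32912) (nat_lit 8388608) (nat_lit 62084) (nat_lit 48890372351) (nat_lit 0) (nat_lit 0),Row.mk (nat_lit 27552) (nat_lit 32912) (nat_lit 8388608) (nat_lit 62084) (nat_lit 61064984206) (nat_lit 0) (nat_lit 0),Row.mk (nat_lit 27720) (nat_lit 32912) (nat_lit 8388608) (nat_lit 62084) (nat_lit 76270780715) (nat_lit 0) (nat_lit 0),Row.mk (nat_lit 27888) (nat_lit 32912) (nat_lit 8388608) (nat_lit 62084) (nat_lit 95262453733) (nat_lit 0) (nat_lit 0),Row.mk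 (nat_lit 28056) (nat_lit 32912) (nat_lit 8388608) (nat_lit 62084) (nat_lit 118982595181) (nat_lit 0) (nat_lit 0),Row.mk (nat_lit 28224) (nat_lit 32912) (nat_lit 8388608) (nat_lit 62084) (nat_lit 148608479629) (nat_lit 0) (nat_lit 0),Row.mk (nat_lit 28392) (nat_lit 32912) (nat_lit 8388608) (nat_lit 62084) (nat_lit 185610494615) (nat_lit 0) (nat_lit 0),Row.mk (nat_lit 28560) (nat_lit 32912) (nat_lit 8388608) (nat_lit 62084) (nat_lit 231825118704) (nat_lit 0) (nat_lit 0),Row.mk (nat_lit 28728) (nat_lit 32912) (nat_lit 8388608) (nat_lit 62084) (nat_lit 289546069319) (nat_lit 0) (nat_lit 0),Row.mk (nat_lit 28896) (nat_lit 32912) (nat_lit 8388608) (nat_lit 62084) (nat_lit 361638144187) (nat_lit 0) (nat_lit 0),Row.mk (nat_lit 29064) (nat_lit 32912) (nat_lit 8388608) (nat_lit 62084) (nat_lit 451679406563) (nat_lit 0) (nat_lit 0),Row.mk (nat_lit 29232) (nat_lit 32912) (nat_lit 8388608) (nat_lit 62084) (nat_lit 564138771133) (nat_lit 0) (nat_lit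 0),Row.mk (nat_lit 29400) (nat_lit 32912) (nat_lit 8388608) (nat_lit 62084) (nat_lit 704597804532) (nat_lit 0) (nat_lit 0),Row.mk (nat_lit 29568) (nat_lit 32912) (nat_lit 8388608) (nat_lit 62084) (nat_lit 880027748841) (nat_lit 0) (nat_lit 0),Row.mk (nat_lit 29736) (nat_lit 32912) (nat_lit 8388608) (nat_lit 62084) (nat_lit 1099135517246) (nat_lit 0) (nat_lit 0)],
[Row.mk (nat_lit 15960) (nat_lit 60401) (nat_lit 13208) (nat_lit 60775) (nat_lit 84) (nat_lit 0) (nat_lit 0),Row.mk (nat_lit 16128) (nat_lit 59840) (nat_lit 16470) (nat_lit 60214) (nat_lit 131) (nat_lit 0) (nat_lit 0),Row.mk (nat_lit 16296) (nat_lit 59279) (nat_lit 20530) (nat_lit 59653) (nat_lit 205) (nat_lit 0) (nat_lit 0),Row.mk (nat_lit 16464) (nat_lit 58718) (nat_lit 25577) (nat_lit 59092) (nat_lit 321) (nat_lit 0) (nat_lit 0),Row.mk (nat_lit 16632) (nat_lit 58157) (nat_lit 31846) (nat_lit 58531) (nat_lit 500) (nat_lit 0) (nat_lit 0),Row.mk (nat_lit 16800) (nat_lit 57596)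 (nat_lit 39619) (nat_lit 57970) (nat_lit 781) (nat_lit 0) (nat_lit 0),Row.mk (nat_lit 16968) (nat_lit 57035) (nat_lit 49240) (nat_lit 57409) (nat_lit 1219) (nat_lit 0) (nat_lit 0),Row.mk (nat_lit 17136) (nat_lit 56474) (nat_lit 61121) (nat_lit 56848) (nat_lit 1901) (nat_lit 0) (nat_lit 0),Row.mk (nat_lit 17304) (nat_lit 55913) (nat_lit 75747) (nat_lit 56287) (nat_lit 2966) (nat_lit 0) (nat_lit 0),Row.mk (nat_lit 17472) (nat_lit 55352) (nat_lit 93684) (nat_lit 55726) (nat_lit 4627) (nat_lit 0) (nat_lit 0),Row.mk (nat_lit 17640) (nat_lit 54791) (nat_lit 115570) (nat_lit 55165) (nat_lit 7219) (nat_lit 0) (nat_lit 0),Row.mk (nat_lit 17808) (nat_lit 54230) (nat_lit 142100) (nat_lit 54604) (nat_lit 11261) (nat_lit 0) (nat_lit 0),Row.mk (nat_lit 17976) (nat_lit 53669) (nat_lit 173978) (nat_lit 54043) (nat_lit 17566) (nat_lit 0) (nat_lit 0),Row.mk (nat_lit 18144) (nat_lit 53108) (nat_lit 211831) (nat_lit 53482) (nat_lit 27403) (nat_lit 0)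 (nat_lit 0),Row.mk (nat_lit 18312) (nat_lit 52547) (nat_lit 256051) (nat_lit 52921) (nat_lit 42747) (nat_lit 0) (nat_lit 0),Row.mk (nat_lit 18480) (nat_lit 51986) (nat_lit 306509) (nat_lit 52360) (nat_lit 66683) (nat_lit 0) (nat_lit 0),Row.mk (nat_lit 18648) (nat_lit 51425) (nat_lit 362086) (nat_lit 51799) (nat_lit 104022) (nat_lit 0) (nat_lit 0),Row.mk (nat_lit 18816) (nat_lit 50864) (nat_lit 419889) (nat_lit 51238) (nat_lit 162268) (nat_lit 0) (nat_lit 0),Row.mk (nat_lit 18984) (nat_lit 50303) (nat_lit 473972) (nat_lit 50677) (nat_lit 253129) (nat_lit 0) (nat_lit 0),Row.mk (nat_lit 19152) (nat_lit 49742) (nat_lit 513265) (nat_lit 50116) (nat_lit 394867) (nat_lit 0) (nat_lit 0),Row.mk (nat_lit 19320) (nat_lit 49181) (nat_lit 518265) (nat_lit 49555) (nat_lit 615970) (nat_lit 0) (nat_lit 0),Row.mk (nat_lit 19488) (nat_lit 48620) (nat_lit 455756) (nat_lit 48994) (nat_lit 960877) (nat_lit 0) (nat_lit 0),Row.mk (nat_lit 19656) (nat_lit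 47872) (nat_lit 270429) (nat_lit 48433) (nat_lit 1498911) (nat_lit 0) (nat_lit 0),Row.mk (nat_lit 19824) (nat_lit 47685) (nat_lit 2107101) (nat_lit 48246) (nat_lit 102763) (nat_lit 0) (nat_lit 0),Row.mk (nat_lit 19992) (nat_lit 46750) (nat_lit 2049560) (nat_lit 47498) (nat_lit 710507) (nat_lit 0) (nat_lit 0),Row.mk (nat_lit 20160) (nat_lit 45815) (nat_lit 1651718) (nat_lit 46563) (nat_lit 1795539) (nat_lit 0) (nat_lit 0),Row.mk (nat_lit 20328) (nat_lit 44693) (nat_lit 646322) (nat_lit 45628) (nat_lit 3659218) (nat_lit 0) (nat_lit 0),Row.mk (nat_lit 20496) (nat_lit 44506) (nat_lit 4254498) (nat_lit 45441) (nat_lit 1123018) (nat_lit 0) (nat_lit 0),Row.mk (nat_lit 20664) (nat_lit 43197) (nat_lit 2553699) (nat_lit 44319) (nat_lit 4162689) (nat_lit 0) (nat_lit 0),Row.mk (nat_lit 20832) (nat_lit 43010) (nat_lit 7495049) (nat_lit 44132) (nat_lit 893558) (nat_lit 0) (nat_lit 0),Row.mk (nat_lit 21000) (nat_lit 41327) (nat_lit 3983619) (nat_lit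 42823) (nat_lit 6493549) (nat_lit 0) (nat_lit 0),Row.mk (nat_lit 21168) (nat_lit 41140) (nat_lit 10352961) (nat_lit 42636) (nat_lit 2732769) (nat_lit 0) (nat_lit 0),Row.mk (nat_lit 21336) (nat_lit 38896) (nat_lit 2453430) (nat_lit 40953) (nat_lit 13890332) (nat_lit 0) (nat_lit 0),Row.mk (nat_lit 21504) (nat_lit 38709) (nat_lit 9780664) (nat_lit 40766) (nat_lit 10632301) (nat_lit 0) (nat_lit 0),Row.mk (nat_lit 21672) (nat_lit 38522) (nat_lit 18932203) (nat_lit 40579) (nat_lit 6563098) (nat_lit 0) (nat_lit 0),Row.mk (nat_lit 21840) (nat_lit 38335) (nat_lit 30362254) (nat_lit 40392) (nat_lit 1480762) (nat_lit 0) (nat_lit 0),Row.mk (nat_lit 22008) (nat_lit 31603) (nat_lit 6078706) (nat_lit 38148) (nat_lit 33692452) (nat_lit 0) (nat_lit 0),Row.mk (nat_lit 22176) (nat_lit 31416) (nat_lit 15980765) (nat_lit 37961) (nat_lit 33692452) (nat_lit 0) (nat_lit 0),Row.mk (nat_lit 22344) (nat_lit 31229) (nat_lit 28348198) (nat_lit 37774) (nat_lit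 33692452) (nat_lit 0) (nat_lit 0),Row.mk (nat_lit 22512) (nat_lit 31042) (nat_lit 43794824) (nat_lit 37587) (nat_lit 33692452) (nat_lit 0) (nat_lit 0),Row.mk (nat_lit 22680) (nat_lit 30855) (nat_lit 63087287) (nat_lit 37400) (nat_lit 33692452) (nat_lit 0) (nat_lit 0),Row.mk (nat_lit 22848) (nat_lit 30668) (nat_lit 87183107) (nat_lit 37213) (nat_lit 33692452) (nat_lit 0) (nat_lit 0),Row.mk (nat_lit 23016) (nat_lit 30481) (nat_lit 117278206) (nat_lit 37026) (nat_lit 33692452) (nat_lit 0) (nat_lit 0),Row.mk (nat_lit 23184) (nat_lit 30294) (nat_lit 154866258) (nat_lit 36839) (nat_lit 33692452) (nat_lit 0) (nat_lit 0),Row.mk (nat_lit 23352) (nat_lit 30107) (nat_lit 201812828) (nat_lit 36652) (nat_lit 33692452) (nat_lit 0) (nat_lit 0),Row.mk (nat_lit 23520) (nat_lit 29920) (nat_lit 260447962) (nat_lit 36465) (nat_lit 33692452) (nat_lit 0) (nat_lit 0),Row.mk (nat_lit 23688) (nat_lit 29733) (nat_lit 333681830) (nat_lit 36278) (nat_lit 33692452)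 (nat_lit 0) (nat_lit 0),Row.mk (nat_lit 23856) (nat_lit 29546) (nat_lit 425149164) (nat_lit 36091) (nat_lit 33692452) (nat_lit 0) (nat_lit 0),Row.mk (nat_lit 24024) (nat_lit 29359) (nat_lit 539389658) (nat_lit 35904) (nat_lit 33692452) (nat_lit 0) (nat_lit 0),Row.mk (nat_lit 24192) (nat_lit 29172) (nat_lit 682073279) (nat_lit 35717) (nat_lit 33692452) (nat_lit 0) (nat_lit 0),Row.mk (nat_lit 24360) (nat_lit 28985) (nat_lit 860281679) (nat_lit 35530) (nat_lit 33692452) (nat_lit 0) (nat_lit 0),Row.mk (nat_lit 24528) (nat_lit 28798) (nat_lit 1082859672) (nat_lit 35343) (nat_lit 33692452) (nat_lit 0) (nat_lit 0),Row.mk (nat_lit 24696) (nat_lit 28611) (nat_lit 1360854216) (nat_lit 35156) (nat_lit 33692452) (nat_lit 0) (nat_lit 0),Row.mk (nat_lit 24864) (nat_lit 28424) (nat_lit 1708062695) (nat_lit 34969) (nat_lit 33692452) (nat_lit 0) (nat_lit 0),Row.mk (nat_lit 25032) (nat_lit 28237) (nat_lit 2141717710) (nat_lit 34782) (nat_lit 33692452)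 (nat_lit 0) (nat_lit 0),Row.mk (nat_lit 25200) (nat_lit 28050) (nat_lit 2683342361) (nat_lit 34595) (nat_lit 33692452) (nat_lit 0) (nat_lit 0),Row.mk (nat_lit 25368) (nat_lit 27863) (nat_lit 3359818485) (nat_lit 34408) (nat_lit 33692452) (nat_lit 0) (nat_lit 0),Row.mk (nat_lit 25536) (nat_lit 27676) (nat_lit 4204720844) (nat_lit 34221) (nat_lit 33692452) (nat_lit 0) (nat_lit 0),Row.mk (nat_lit 25704) (nat_lit 27489) (nat_lit 5259983508) (nat_lit 34034) (nat_lit 33692452) (nat_lit 0) (nat_lit 0),Row.mk (nat_lit 25872) (nat_lit 27302) (nat_lit 6577981119) (nat_lit 33847) (nat_lit 33692452) (nat_lit 0) (nat_lit 0),Row.mk (nat_lit 26040) (nat_lit 32912) (nat_lit 8388608) (nat_lit 62084) (nat_lit 8249432185) (nat_lit 0) (nat_lit 0),Row.mk (nat_lit 26208) (nat_lit 32912) (nat_lit 8388608) (nat_lit 62084) (nat_lit 10305430352) (nat_lit 0) (nat_lit 0),Row.mk (nat_lit 26376) (nat_lit 32912) (nat_lit 8388608) (nat_lit 62084) (nat_lit 12873322465)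 (nat_lit 0) (nat_lit 0),Row.mk (nat_lit 26544) (nat_lit 32912) (nat_lit 8388608) (nat_lit 62084) (nat_lit 16080557766) (nat_lit 0) (nat_lit 0),Row.mk (nat_lit 26712) (nat_lit 32912) (nat_lit 8388608) (nat_lit 62084) (nat_lit 20086317287) (nat_lit 0) (nat_lit 0),Row.mk (nat_lit 26880) (nat_lit 32912) (nat_lit 8388608) (nat_lit 62084) (nat_lit 25089414294) (nat_lit 0) (nat_lit 0),Row.mk (nat_lit 27048) (nat_lit 32912) (nat_lit 8388608) (nat_lit 62084) (nat_lit 31338161762) (nat_lit 0) (nat_lit 0),Row.mk (nat_lit 27216) (nat_lit 32912) (nat_lit 8388608) (nat_lit 62084) (nat_lit 39142696606) (nat_lit 0) (nat_lit 0),Row.mk (nat_lit 27384) (nat_lit 32912) (nat_lit 8388608) (nat_lit 62084) (nat_lit 48890372351) (nat_lit 0) (nat_lit 0),Row.mk (nat_lit 27552) (nat_lit 32912) (nat_lit 8388608) (nat_lit 62084) (nat_lit 61064984206) (nat_lit 0) (nat_lit 0),Row.mk (nat_lit 27720) (nat_lit 32912) (nat_lit 8388608) (nat_lit 62084) (nat_lit 76270780715)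 (nat_lit 0) (nat_lit 0),Row.mk (nat_lit 27888) (nat_lit 32912) (nat_lit 8388608) (nat_lit 62084) (nat_lit 95262453733) (nat_lit 0) (nat_lit 0),Row.mk (nat_lit 28056) (nat_lit 32912) (nat_lit 8388608) (nat_lit 62084) (nat_lit 118982595181) (nat_lit 0) (nat_lit 0),Row.mk (nat_lit 28224) (nat_lit 32912) (nat_lit 8388608) (nat_lit 62084) (nat_lit 148608479629) (nat_lit 0) (nat_lit 0),Row.mk (nat_lit 28392) (nat_lit 32912) (nat_lit 8388608) (nat_lit 62084) (nat_lit 185610494615) (nat_lit 0) (nat_lit 0),Row.mk (nat_lit 28560) (nat_lit 32912) (nat_lit 8388608) (nat_lit 62084) (nat_lit 231825118704) (nat_lit 0) (nat_lit 0),Row.mk (nat_lit 28728) (nat_lit 32912) (nat_lit 8388608) (nat_lit 62084) (nat_lit 289546069319) (nat_lit 0) (nat_lit 0),Row.mk (nat_lit 28896) (nat_lit 32912) (nat_lit 8388608) (nat_lit 62084) (nat_lit 361638144187) (nat_lit 0) (nat_lit 0),Row.mk (nat_lit 29064) (nat_lit 32912) (nat_lit 8388608) (nat_lit 62084) (nat_lit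 451679406563) (nat_lit 0) (nat_lit 0),Row.mk (nat_lit 29232) (nat_lit 32912) (nat_lit 8388608) (nat_lit 62084) (nat_lit 564138771133) (nat_lit 0) (nat_lit 0),Row.mk (nat_lit 29400) (nat_lit 32912) (nat_lit 8388608) (nat_lit 62084) (nat_lit 704597804532) (nat_lit 0) (nat_lit 0),Row.mk (nat_lit 29568) (nat_lit 32912) (nat_lit 8388608) (nat_lit 62084) (nat_lit 880027748841) (nat_lit 0) (nat_lit 0),Row.mk (nat_lit 29736) (nat_lit 32912) (nat_lit 8388608) (nat_lit 62084) (nat_lit 1099135517246) (nat_lit 0) (nat_lit 0)],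
[Row.mk (nat_lit 16464) (nat_lit 58718) (nat_lit 25577) (nat_lit 59092) (nat_lit 321) (nat_lit 0) (nat_lit 0),Row.mk (nat_lit 16632) (nat_lit 58157) (nat_lit 31846) (nat_lit 58531) (nat_lit 500) (nat_lit 0) (nat_lit 0),Row.mk (nat_lit 16800) (nat_lit 57596) (nat_lit 39619) (nat_lit 57970) (nat_lit 781) (nat_lit 0) (nat_lit 0),Row.mk (nat_lit 16968) (nat_lit 57035) (nat_lit 49240) (nat_lit 57409) (nat_lit 1219) (nat_lit 0) (nat_lit 0),Row.mk (nat_lit 17136) (nat_lit 56474) (nat_lit 61121) (nat_lit 56848) (nat_lit 1901) (nat_lit 0) (nat_lit 0),Row.mk (nat_lit 17304) (nat_lit 55913) (nat_lit 75747) (nat_lit 56287) (nat_lit 2966) (nat_lit 0) (nat_lit 0),Row.mk (nat_lit 17472) (nat_lit 55352) (nat_lit 93684) (nat_lit 55726) (nat_lit 4627) (nat_lit 0) (nat_lit 0),Row.mk (nat_lit 17640) (nat_lit 54791) (nat_lit 115570) (nat_lit 55165) (nat_lit 7219) (nat_lit 0) (nat_lit 0),Row.mk (nat_lit 17808) (nat_lit 54230) (nat_lit 142100) (nat_lit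 54604) (nat_lit 11261) (nat_lit 0) (nat_lit 0),Row.mk (nat_lit 17976) (nat_lit 53669) (nat_lit 173978) (nat_lit 54043) (nat_lit 17566) (nat_lit 0) (nat_lit 0),Row.mk (nat_lit 18144) (nat_lit 53108) (nat_lit 211831) (nat_lit 53482) (nat_lit 27403) (nat_lit 0) (nat_lit 0),Row.mk (nat_lit 18312) (nat_lit 52547) (nat_lit 256051) (nat_lit 52921) (nat_lit 42747) (nat_lit 0) (nat_lit 0),Row.mk (nat_lit 18480) (nat_lit 51986) (nat_lit 306509) (nat_lit 52360) (nat_lit 66683) (nat_lit 0) (nat_lit 0),Row.mk (nat_lit 18648) (nat_lit 51425) (nat_lit 362086) (nat_lit 51799) (nat_lit 104022) (nat_lit 0) (nat_lit 0),Row.mk (nat_lit 18816) (nat_lit 50864) (nat_lit 419889) (nat_lit 51238) (nat_lit 162268) (nat_lit 0) (nat_lit 0),Row.mk (nat_lit 18984) (nat_lit 50303) (nat_lit 473972) (nat_lit 50677) (nat_lit 253129) (nat_lit 0) (nat_lit 0),Row.mk (nat_lit 19152) (nat_lit 49742) (nat_lit 513265) (nat_lit 50116) (nat_lit 394867) (nat_lit 0) (nat_lit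 0),Row.mk (nat_lit 19320) (nat_lit 49181) (nat_lit 518265) (nat_lit 49555) (nat_lit 615970) (nat_lit 0) (nat_lit 0),Row.mk (nat_lit 19488) (nat_lit 48620) (nat_lit 455756) (nat_lit 48994) (nat_lit 960877) (nat_lit 0) (nat_lit 0),Row.mk (nat_lit 19656) (nat_lit 47872) (nat_lit 270429) (nat_lit 48433) (nat_lit 1498911) (nat_lit 0) (nat_lit 0),Row.mk (nat_lit 19824) (nat_lit 47685) (nat_lit 2107101) (nat_lit 48246) (nat_lit 102763) (nat_lit 0) (nat_lit 0),Row.mk (nat_lit 19992) (nat_lit 46750) (nat_lit 2049560) (nat_lit 47498) (nat_lit 710507) (nat_lit 0) (nat_lit 0),Row.mk (nat_lit 20160) (nat_lit 45815) (nat_lit 1651718) (nat_lit 46563) (nat_lit 1795539) (nat_lit 0) (nat_lit 0),Row.mk (nat_lit 20328) (nat_lit 44693) (nat_lit 646322) (nat_lit 45628) (nat_lit 3659218) (nat_lit 0) (nat_lit 0),Row.mk (nat_lit 20496) (nat_lit 44506) (nat_lit 4254498) (nat_lit 45441) (nat_lit 1123018) (nat_lit 0) (nat_lit 0),Row.mk (nat_lit 20664) (nat_lit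 43197) (nat_lit 2553699) (nat_lit 44319) (nat_lit 4162689) (nat_lit 0) (nat_lit 0),Row.mk (nat_lit 20832) (nat_lit 43010) (nat_lit 7495049) (nat_lit 44132) (nat_lit 893558) (nat_lit 0) (nat_lit 0),Row.mk (nat_lit 21000) (nat_lit 41327) (nat_lit 3983619) (nat_lit 42823) (nat_lit 6493549) (nat_lit 0) (nat_lit 0),Row.mk (nat_lit 21168) (nat_lit 41140) (nat_lit 10352961) (nat_lit 42636) (nat_lit 2732769) (nat_lit 0) (nat_lit 0),Row.mk (nat_lit 21336) (nat_lit 38896) (nat_lit 2453430) (nat_lit 40953) (nat_lit 13890332) (nat_lit 0) (nat_lit 0),Row.mk (nat_lit 21504) (nat_lit 38709) (nat_lit 9780664) (nat_lit 40766) (nat_lit 10632301) (nat_lit 0) (nat_lit 0),Row.mk (nat_lit 21672) (nat_lit 38522) (nat_lit 18932203) (nat_lit 40579) (nat_lit 6563098) (nat_lit 0) (nat_lit 0),Row.mk (nat_lit 21840) (nat_lit 38335) (nat_lit 30362254) (nat_lit 40392) (nat_lit 1480762) (nat_lit 0) (nat_lit 0),Row.mk (nat_lit 22008) (nat_lit 31603) (nat_lit 6078706)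 (nat_lit 38148) (nat_lit 33692452) (nat_lit 0) (nat_lit 0),Row.mk (nat_lit 22176) (nat_lit 31416) (nat_lit 15980765) (nat_lit 37961) (nat_lit 33692452) (nat_lit 0) (nat_lit 0),Row.mk (nat_lit 22344) (nat_lit 31229) (nat_lit 28348198) (nat_lit 37774) (nat_lit 33692452) (nat_lit 0) (nat_lit 0),Row.mk (nat_lit 22512) (nat_lit 31042) (nat_lit 43794824) (nat_lit 37587) (nat_lit 33692452) (nat_lit 0) (nat_lit 0),Row.mk (nat_lit 22680) (nat_lit 30855) (nat_lit 63087287) (nat_lit 37400) (nat_lit 33692452) (nat_lit 0) (nat_lit 0),Row.mk (nat_lit 22848) (nat_lit 30668) (nat_lit 87183107) (nat_lit 37213) (nat_lit 33692452) (nat_lit 0) (nat_lit 0),Row.mk (nat_lit 23016) (nat_lit 30481) (nat_lit 117278206) (nat_lit 37026) (nat_lit 33692452) (nat_lit 0) (nat_lit 0),Row.mk (nat_lit 23184) (nat_lit 30294) (nat_lit 154866258) (nat_lit 36839) (nat_lit 33692452) (nat_lit 0) (nat_lit 0),Row.mk (nat_lit 23352) (nat_lit 30107) (nat_lit 201812828) (nat_lit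 36652) (nat_lit 33692452) (nat_lit 0) (nat_lit 0),Row.mk (nat_lit 23520) (nat_lit 29920) (nat_lit 260447962) (nat_lit 36465) (nat_lit 33692452) (nat_lit 0) (nat_lit 0),Row.mk (nat_lit 23688) (nat_lit 29733) (nat_lit 333681830) (nat_lit 36278) (nat_lit 33692452) (nat_lit 0) (nat_lit 0),Row.mk (nat_lit 23856) (nat_lit 29546) (nat_lit 425149164) (nat_lit 36091) (nat_lit 33692452) (nat_lit 0) (nat_lit 0),Row.mk (nat_lit 24024) (nat_lit 29359) (nat_lit 539389658) (nat_lit 35904) (nat_lit 33692452) (nat_lit 0) (nat_lit 0),Row.mk (nat_lit 24192) (nat_lit 29172) (nat_lit 682073279) (nat_lit 35717) (nat_lit 33692452) (nat_lit 0) (nat_lit 0),Row.mk (nat_lit 24360) (nat_lit 28985) (nat_lit 860281679) (nat_lit 35530) (nat_lit 33692452) (nat_lit 0) (nat_lit 0),Row.mk (nat_lit 24528) (nat_lit 28798) (nat_lit 1082859672) (nat_lit 35343) (nat_lit 33692452) (nat_lit 0) (nat_lit 0),Row.mk (nat_lit 24696) (nat_lit 28611) (nat_lit 1360854216) (nat_lit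 35156) (nat_lit 33692452) (nat_lit 0) (nat_lit 0),Row.mk (nat_lit 24864) (nat_lit 28424) (nat_lit 1708062695) (nat_lit 34969) (nat_lit 33692452) (nat_lit 0) (nat_lit 0),Row.mk (nat_lit 25032) (nat_lit 28237) (nat_lit 2141717710) (nat_lit 34782) (nat_lit 33692452) (nat_lit 0) (nat_lit 0),Row.mk (nat_lit 25200) (nat_lit 28050) (nat_lit 2683342361) (nat_lit 34595) (nat_lit 33692452) (nat_lit 0) (nat_lit 0),Row.mk (nat_lit 25368) (nat_lit 27863) (nat_lit 3359818485) (nat_lit 34408) (nat_lit 33692452) (nat_lit 0) (nat_lit 0),Row.mk (nat_lit 25536) (nat_lit 27676) (nat_lit 4204720844) (nat_lit 34221) (nat_lit 33692452) (nat_lit 0) (nat_lit 0),Row.mk (nat_lit 25704) (nat_lit 27489) (nat_lit 5259983508) (nat_lit 34034) (nat_lit 33692452) (nat_lit 0) (nat_lit 0),Row.mk (nat_lit 25872) (nat_lit 27302) (nat_lit 6577981119) (nat_lit 33847) (nat_lit 33692452) (nat_lit 0) (nat_lit 0),Row.mk (nat_lit 26040) (nat_lit 32912) (nat_lit 8388608) (nat_lit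 62084) (nat_lit 8249432185) (nat_lit 0) (nat_lit 0),Row.mk (nat_lit 26208) (nat_lit 32912) (nat_lit 8388608) (nat_lit 62084) (nat_lit 10305430352) (nat_lit 0) (nat_lit 0),Row.mk (nat_lit 26376) (nat_lit 32912) (nat_lit 8388608) (nat_lit 62084) (nat_lit 12873322465) (nat_lit 0) (nat_lit 0),Row.mk (nat_lit 26544) (nat_lit 32912) (nat_lit 8388608) (nat_lit 62084) (nat_lit 16080557766) (nat_lit 0) (nat_lit 0),Row.mk (nat_lit 26712) (nat_lit 32912) (nat_lit 8388608) (nat_lit 62084) (nat_lit 20086317287) (nat_lit 0) (nat_lit 0),Row.mk (nat_lit 26880) (nat_lit 32912) (nat_lit 8388608) (nat_lit 62084) (nat_lit 25089414294) (nat_lit 0) (nat_lit 0),Row.mk (nat_lit 27048) (nat_lit 32912) (nat_lit 8388608) (nat_lit 62084) (nat_lit 31338161762) (nat_lit 0) (nat_lit 0),Row.mk (nat_lit 27216) (nat_lit 32912) (nat_lit 8388608) (nat_lit 62084) (nat_lit 39142696606) (nat_lit 0) (nat_lit 0),Row.mk (nat_lit 27384) (nat_lit 32912) (nat_lit 8388608) (nat_lit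 62084) (nat_lit 48890372351) (nat_lit 0) (nat_lit 0),Row.mk (nat_lit 27552) (nat_lit 32912) (nat_lit 8388608) (nat_lit 62084) (nat_lit 61064984206) (nat_lit 0) (nat_lit 0),Row.mk (nat_lit 27720) (nat_lit 32912) (nat_lit 8388608) (nat_lit 62084) (nat_lit 76270780715) (nat_lit 0) (nat_lit 0),Row.mk (nat_lit 27888) (nat_lit 32912) (nat_lit 8388608) (nat_lit 62084) (nat_lit 95262453733) (nat_lit 0) (nat_lit 0),Row.mk (nat_lit 28056) (nat_lit 32912) (nat_lit 8388608) (nat_lit 62084) (nat_lit 118982595181) (nat_lit 0) (nat_lit 0),Row.mk (nat_lit 28224) (nat_lit 32912) (nat_lit 8388608) (nat_lit 62084) (nat_lit 148608479629) (nat_lit 0) (nat_lit 0),Row.mk (nat_lit 28392) (nat_lit 32912) (nat_lit 8388608) (nat_lit 62084) (nat_lit 185610494615) (nat_lit 0) (nat_lit 0),Row.mk (nat_lit 28560) (nat_lit 32912) (nat_lit 8388608) (nat_lit 62084) (nat_lit 231825118704) (nat_lit 0) (nat_lit 0),Row.mk (nat_lit 28728) (nat_lit 32912) (nat_lit 8388608)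 (nat_lit 62084) (nat_lit 289546069319) (nat_lit 0) (nat_lit 0),Row.mk (nat_lit 28896) (nat_lit 32912) (nat_lit 8388608) (nat_lit 62084) (nat_lit 361638144187) (nat_lit 0) (nat_lit 0),Row.mk (nat_lit 29064) (nat_lit 32912) (nat_lit 8388608) (nat_lit 62084) (nat_lit 451679406563) (nat_lit 0) (nat_lit 0),Row.mk (nat_lit 29232) (nat_lit 32912) (nat_lit 8388608) (nat_lit 62084) (nat_lit 564138771133) (nat_lit 0) (nat_lit 0),Row.mk (nat_lit 29400) (nat_lit 32912) (nat_lit 8388608) (nat_lit 62084) (nat_lit 704597804532) (nat_lit 0) (nat_lit 0),Row.mk (nat_lit 29568) (nat_lit 32912) (nat_lit 8388608) (nat_lit 62084) (nat_lit 880027748841) (nat_lit 0) (nat_lit 0),Row.mk (nat_lit 29736) (nat_lit 32912) (nat_lit 8388608) (nat_lit 62084) (nat_lit 1099135517246) (nat_lit 0) (nat_lit 0),Row.mk (nat_lit 29904) (nat_lit 32912) (nat_lit 8388608) (nat_lit 62084) (nat_lit 1372795834270) (nat_lit 0) (nat_lit 0)],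
[Row.mk (nat_lit 16968) (nat_lit 57035) (nat_lit 49240) (nat_lit 57409) (nat_lit 1219) (nat_lit 0) (nat_lit 0),Row.mk (nat_lit 17136) (nat_lit 56474) (nat_lit 61121) (nat_lit 56848) (nat_lit 1901) (nat_lit 0) (nat_lit 0),Row.mk (nat_lit 17304) (nat_lit 55913) (nat_lit 75747) (nat_lit 56287) (nat_lit 2966) (nat_lit 0) (nat_lit 0),Row.mk (nat_lit 17472) (nat_lit 55352) (nat_lit 93684) (nat_lit 55726) (nat_lit 4627) (nat_lit 0) (nat_lit 0),Row.mk (nat_lit 17640) (nat_lit 54791) (nat_lit 115570) (nat_lit 55165) (nat_lit 7219) (nat_lit 0) (nat_lit 0),Row.mk (nat_lit 17808) (nat_lit 54230) (nat_lit 142100) (nat_lit 54604) (nat_lit 11261) (nat_lit 0) (nat_lit 0),Row.mk (nat_lit 17976) (nat_lit 53669) (nat_lit 173978) (nat_lit 54043) (nat_lit 17566) (nat_lit 0) (nat_lit 0),Row.mk (nat_lit 18144) (nat_lit 53108) (nat_lit 211831) (nat_lit 53482) (nat_lit 27403) (nat_lit 0) (nat_lit 0),Row.mk (nat_lit 18312) (nat_lit 52547) (nat_lit 256051)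 (nat_lit 52921) (nat_lit 42747) (nat_lit 0) (nat_lit 0),Row.mk (nat_lit 18480) (nat_lit 51986) (nat_lit 306509) (nat_lit 52360) (nat_lit 66683) (nat_lit 0) (nat_lit 0),Row.mk (nat_lit 18648) (nat_lit 51425) (nat_lit 362086) (nat_lit 51799) (nat_lit 104022) (nat_lit 0) (nat_lit 0),Row.mk (nat_lit 18816) (nat_lit 50864) (nat_lit 419889) (nat_lit 51238) (nat_lit 162268) (nat_lit 0) (nat_lit 0),Row.mk (nat_lit 18984) (nat_lit 50303) (nat_lit 473972) (nat_lit 50677) (nat_lit 253129) (nat_lit 0) (nat_lit 0),Row.mk (nat_lit 19152) (nat_lit 49742) (nat_lit 513265) (nat_lit 50116) (nat_lit 394867) (nat_lit 0) (nat_lit 0),Row.mk (nat_lit 19320) (nat_lit 49181) (nat_lit 518265) (nat_lit 49555) (nat_lit 615970) (nat_lit 0) (nat_lit 0),Row.mk (nat_lit 19488) (nat_lit 48620) (nat_lit 455756) (nat_lit 48994) (nat_lit 960877) (nat_lit 0) (nat_lit 0),Row.mk (nat_lit 19656) (nat_lit 47872) (nat_lit 270429) (nat_lit 48433) (nat_lit 1498911) (nat_lit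 0) (nat_lit 0),Row.mk (nat_lit 19824) (nat_lit 47685) (nat_lit 2107101) (nat_lit 48246) (nat_lit 102763) (nat_lit 0) (nat_lit 0),Row.mk (nat_lit 19992) (nat_lit 46750) (nat_lit 2049560) (nat_lit 47498) (nat_lit 710507) (nat_lit 0) (nat_lit 0),Row.mk (nat_lit 20160) (nat_lit 45815) (nat_lit 1651718) (nat_lit 46563) (nat_lit 1795539) (nat_lit 0) (nat_lit 0),Row.mk (nat_lit 20328) (nat_lit 44693) (nat_lit 646322) (nat_lit 45628) (nat_lit 3659218) (nat_lit 0) (nat_lit 0),Row.mk (nat_lit 20496) (nat_lit 44506) (nat_lit 4254498) (nat_lit 45441) (nat_lit 1123018) (nat_lit 0) (nat_lit 0),Row.mk (nat_lit 20664) (nat_lit 43197) (nat_lit 2553699) (nat_lit 44319) (nat_lit 4162689) (nat_lit 0) (nat_lit 0),Row.mk (nat_lit 20832) (nat_lit 43010) (nat_lit 7495049) (nat_lit 44132) (nat_lit 893558) (nat_lit 0) (nat_lit 0),Row.mk (nat_lit 21000) (nat_lit 41327) (nat_lit 3983619) (nat_lit 42823) (nat_lit 6493549) (nat_lit 0) (nat_lit 0),Row.mk (nat_lit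 21168) (nat_lit 41140) (nat_lit 10352961) (nat_lit 42636) (nat_lit 2732769) (nat_lit 0) (nat_lit 0),Row.mk (nat_lit 21336) (nat_lit 38896) (nat_lit 2453430) (nat_lit 40953) (nat_lit 13890332) (nat_lit 0) (nat_lit 0),Row.mk (nat_lit 21504) (nat_lit 38709) (nat_lit 9780664) (nat_lit 40766) (nat_lit 10632301) (nat_lit 0) (nat_lit 0),Row.mk (nat_lit 21672) (nat_lit 38522) (nat_lit 18932203) (nat_lit 40579) (nat_lit 6563098) (nat_lit 0) (nat_lit 0),Row.mk (nat_lit 21840) (nat_lit 38335) (nat_lit 30362254) (nat_lit 40392) (nat_lit 1480762) (nat_lit 0) (nat_lit 0),Row.mk (nat_lit 22008) (nat_lit 31603) (nat_lit 6078706) (nat_lit 38148) (nat_lit 33692452) (nat_lit 0) (nat_lit 0),Row.mk (nat_lit 22176) (nat_lit 31416) (nat_lit 15980765) (nat_lit 37961) (nat_lit 33692452) (nat_lit 0) (nat_lit 0),Row.mk (nat_lit 22344) (nat_lit 31229) (nat_lit 28348198) (nat_lit 37774) (nat_lit 33692452) (nat_lit 0) (nat_lit 0),Row.mk (nat_lit 22512) (nat_lit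 31042) (nat_lit 43794824) (nat_lit 37587) (nat_lit 33692452) (nat_lit 0) (nat_lit 0),Row.mk (nat_lit 22680) (nat_lit 30855) (nat_lit 63087287) (nat_lit 37400) (nat_lit 33692452) (nat_lit 0) (nat_lit 0),Row.mk (nat_lit 22848) (nat_lit 30668) (nat_lit 87183107) (nat_lit 37213) (nat_lit 33692452) (nat_lit 0) (nat_lit 0),Row.mk (nat_lit 23016) (nat_lit 30481) (nat_lit 117278206) (nat_lit 37026) (nat_lit 33692452) (nat_lit 0) (nat_lit 0),Row.mk (nat_lit 23184) (nat_lit 30294) (nat_lit 154866258) (nat_lit 36839) (nat_lit 33692452) (nat_lit 0) (nat_lit 0),Row.mk (nat_lit 23352) (nat_lit 30107) (nat_lit 201812828) (nat_lit 36652) (nat_lit 33692452) (nat_lit 0) (nat_lit 0),Row.mk (nat_lit 23520) (nat_lit 29920) (nat_lit 260447962) (nat_lit 36465) (nat_lit 33692452) (nat_lit 0) (nat_lit 0),Row.mk (nat_lit 23688) (nat_lit 29733) (nat_lit 333681830) (nat_lit 36278) (nat_lit 33692452) (nat_lit 0) (nat_lit 0),Row.mk (nat_lit 23856) (nat_lit 29546)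 (nat_lit 425149164) (nat_lit 36091) (nat_lit 33692452) (nat_lit 0) (nat_lit 0),Row.mk (nat_lit 24024) (nat_lit 29359) (nat_lit 539389658) (nat_lit 35904) (nat_lit 33692452) (nat_lit 0) (nat_lit 0),Row.mk (nat_lit 24192) (nat_lit 29172) (nat_lit 682073279) (nat_lit 35717) (nat_lit 33692452) (nat_lit 0) (nat_lit 0),Row.mk (nat_lit 24360) (nat_lit 28985) (nat_lit 860281679) (nat_lit 35530) (nat_lit 33692452) (nat_lit 0) (nat_lit 0),Row.mk (nat_lit 24528) (nat_lit 28798) (nat_lit 1082859672) (nat_lit 35343) (nat_lit 33692452) (nat_lit 0) (nat_lit 0),Row.mk (nat_lit 24696) (nat_lit 28611) (nat_lit 1360854216) (nat_lit 35156) (nat_lit 33692452) (nat_lit 0) (nat_lit 0),Row.mk (nat_lit 24864) (nat_lit 28424) (nat_lit 1708062695) (nat_lit 34969) (nat_lit 33692452) (nat_lit 0) (nat_lit 0),Row.mk (nat_lit 25032) (nat_lit 28237) (nat_lit 2141717710) (nat_lit 34782) (nat_lit 33692452) (nat_lit 0) (nat_lit 0),Row.mk (nat_lit 25200) (nat_lit 28050)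 (nat_lit 2683342361) (nat_lit 34595) (nat_lit 33692452) (nat_lit 0) (nat_lit 0),Row.mk (nat_lit 25368) (nat_lit 27863) (nat_lit 3359818485) (nat_lit 34408) (nat_lit 33692452) (nat_lit 0) (nat_lit 0),Row.mk (nat_lit 25536) (nat_lit 27676) (nat_lit 4204720844) (nat_lit 34221) (nat_lit 33692452) (nat_lit 0) (nat_lit 0),Row.mk (nat_lit 25704) (nat_lit 27489) (nat_lit 5259983508) (nat_lit 34034) (nat_lit 33692452) (nat_lit 0) (nat_lit 0),Row.mk (nat_lit 25872) (nat_lit 27302) (nat_lit 6577981119) (nat_lit 33847) (nat_lit 33692452) (nat_lit 0) (nat_lit 0),Row.mk (nat_lit 26040) (nat_lit 32912) (nat_lit 8388608) (nat_lit 62084) (nat_lit 8249432185) (nat_lit 0) (nat_lit 0),Row.mk (nat_lit 26208) (nat_lit 32912) (nat_lit 8388608) (nat_lit 62084) (nat_lit 10305430352) (nat_lit 0) (nat_lit 0),Row.mk (nat_lit 26376) (nat_lit 32912) (nat_lit 8388608) (nat_lit 62084) (nat_lit 12873322465) (nat_lit 0) (nat_lit 0),Row.mk (nat_lit 26544) (nat_lit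 32912) (nat_lit 8388608) (nat_lit 62084) (nat_lit 16080557766) (nat_lit 0) (nat_lit 0),Row.mk (nat_lit 26712) (nat_lit 32912) (nat_lit 8388608) (nat_lit 62084) (nat_lit 20086317287) (nat_lit 0) (nat_lit 0),Row.mk (nat_lit 26880) (nat_lit 32912) (nat_lit 8388608) (nat_lit 62084) (nat_lit 25089414294) (nat_lit 0) (nat_lit 0),Row.mk (nat_lit 27048) (nat_lit 32912) (nat_lit 8388608) (nat_lit 62084) (nat_lit 31338161762) (nat_lit 0) (nat_lit 0),Row.mk (nat_lit 27216) (nat_lit 32912) (nat_lit 8388608) (nat_lit 62084) (nat_lit 39142696606) (nat_lit 0) (nat_lit 0),Row.mk (nat_lit 27384) (nat_lit 32912) (nat_lit 8388608) (nat_lit 62084) (nat_lit 48890372351) (nat_lit 0) (nat_lit 0),Row.mk (nat_lit 27552) (nat_lit 32912) (nat_lit 8388608) (nat_lit 62084) (nat_lit 61064984206) (nat_lit 0) (nat_lit 0),Row.mk (nat_lit 27720) (nat_lit 32912) (nat_lit 8388608) (nat_lit 62084) (nat_lit 76270780715) (nat_lit 0) (nat_lit 0),Row.mk (nat_lit 27888) (nat_lit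 32912) (nat_lit 8388608) (nat_lit 62084) (nat_lit 95262453733) (nat_lit 0) (nat_lit 0),Row.mk (nat_lit 28056) (nat_lit 32912) (nat_lit 8388608) (nat_lit 62084) (nat_lit 118982595181) (nat_lit 0) (nat_lit 0),Row.mk (nat_lit 28224) (nat_lit 32912) (nat_lit 8388608) (nat_lit 62084) (nat_lit 148608479629) (nat_lit 0) (nat_lit 0),Row.mk (nat_lit 28392) (nat_lit 32912) (nat_lit 8388608) (nat_lit 62084) (nat_lit 185610494615) (nat_lit 0) (nat_lit 0),Row.mk (nat_lit 28560) (nat_lit 32912) (nat_lit 8388608) (nat_lit 62084) (nat_lit 231825118704) (nat_lit 0) (nat_lit 0),Row.mk (nat_lit 28728) (nat_lit 32912) (nat_lit 8388608) (nat_lit 62084) (nat_lit 289546069319) (nat_lit 0) (nat_lit 0),Row.mk (nat_lit 28896) (nat_lit 32912) (nat_lit 8388608) (nat_lit 62084) (nat_lit 361638144187) (nat_lit 0) (nat_lit 0),Row.mk (nat_lit 29064) (nat_lit 32912) (nat_lit 8388608) (nat_lit 62084) (nat_lit 451679406563) (nat_lit 0) (nat_lit 0),Row.mk (nat_lit 29232)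 (nat_lit 32912) (nat_lit 8388608) (nat_lit 62084) (nat_lit 564138771133) (nat_lit 0) (nat_lit 0),Row.mk (nat_lit 29400) (nat_lit 32912) (nat_lit 8388608) (nat_lit 62084) (nat_lit 704597804532) (nat_lit 0) (nat_lit 0),Row.mk (nat_lit 29568) (nat_lit 32912) (nat_lit 8388608) (nat_lit 62084) (nat_lit 880027748841) (nat_lit 0) (nat_lit 0),Row.mk (nat_lit 29736) (nat_lit 32912) (nat_lit 8388608) (nat_lit 62084) (nat_lit 1099135517246) (nat_lit 0) (nat_lit 0),Row.mk (nat_lit 29904) (nat_lit 32912) (nat_lit 8388608) (nat_lit 62084) (nat_lit 1372795834270) (nat_lit 0) (nat_lit 0),Row.mk (nat_lit 30072) (nat_lit 32912) (nat_lit 8388608) (nat_lit 62084) (nat_lit 1714590968505) (nat_lit 0) (nat_lit 0)],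
[Row.mk (nat_lit 17472) (nat_lit 55352) (nat_lit 93684) (nat_lit 55726) (nat_lit 4627) (nat_lit 0) (nat_lit 0),Row.mk (nat_lit 17640) (nat_lit 54791) (nat_lit 115570) (nat_lit 55165) (nat_lit 7219) (nat_lit 0) (nat_lit 0),Row.mk (nat_lit 17808) (nat_lit 54230) (nat_lit 142100) (nat_lit 54604) (nat_lit 11261) (nat_lit 0) (nat_lit 0),Row.mk (nat_lit 17976) (nat_lit 53669) (nat_lit 173978) (nat_lit 54043) (nat_lit 17566) (nat_lit 0) (nat_lit 0),Row.mk (nat_lit 18144) (nat_lit 53108) (nat_lit 211831) (nat_lit 53482) (nat_lit 27403) (nat_lit 0) (nat_lit 0),Row.mk (nat_lit 18312) (nat_lit 52547) (nat_lit 256051) (nat_lit 52921) (nat_lit 42747) (nat_lit 0) (nat_lit 0),Row.mk (nat_lit 18480) (nat_lit 51986) (nat_lit 306509) (nat_lit 52360) (nat_lit 66683) (nat_lit 0) (nat_lit 0),Row.mk (nat_lit 18648) (nat_lit 51425) (nat_lit 362086) (nat_lit 51799) (nat_lit 104022) (nat_lit 0) (nat_lit 0),Row.mk (nat_lit 18816) (nat_lit 50864) (nat_lit 419889)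 (nat_lit 51238) (nat_lit 162268) (nat_lit 0) (nat_lit 0),Row.mk (nat_lit 18984) (nat_lit 50303) (nat_lit 473972) (nat_lit 50677) (nat_lit 253129) (nat_lit 0) (nat_lit 0),Row.mk (nat_lit 19152) (nat_lit 49742) (nat_lit 513265) (nat_lit 50116) (nat_lit 394867) (nat_lit 0) (nat_lit 0),Row.mk (nat_lit 19320) (nat_lit 49181) (nat_lit 518265) (nat_lit 49555) (nat_lit 615970) (nat_lit 0) (nat_lit 0),Row.mk (nat_lit 19488) (nat_lit 48620) (nat_lit 455756) (nat_lit 48994) (nat_lit 960877) (nat_lit 0) (nat_lit 0),Row.mk (nat_lit 19656) (nat_lit 47872) (nat_lit 270429) (nat_lit 48433) (nat_lit 1498911) (nat_lit 0) (nat_lit 0),Row.mk (nat_lit 19824) (nat_lit 47685) (nat_lit 2107101) (nat_lit 48246) (nat_lit 102763) (nat_lit 0) (nat_lit 0),Row.mk (nat_lit 19992) (nat_lit 46750) (nat_lit 2049560) (nat_lit 47498) (nat_lit 710507) (nat_lit 0) (nat_lit 0),Row.mk (nat_lit 20160) (nat_lit 45815) (nat_lit 1651718) (nat_lit 46563) (nat_lit 1795539) (nat_lit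 0) (nat_lit 0),Row.mk (nat_lit 20328) (nat_lit 44693) (nat_lit 646322) (nat_lit 45628) (nat_lit 3659218) (nat_lit 0) (nat_lit 0),Row.mk (nat_lit 20496) (nat_lit 44506) (nat_lit 4254498) (nat_lit 45441) (nat_lit 1123018) (nat_lit 0) (nat_lit 0),Row.mk (nat_lit 20664) (nat_lit 43197) (nat_lit 2553699) (nat_lit 44319) (nat_lit 4162689) (nat_lit 0) (nat_lit 0),Row.mk (nat_lit 20832) (nat_lit 43010) (nat_lit 7495049) (nat_lit 44132) (nat_lit 893558) (nat_lit 0) (nat_lit 0),Row.mk (nat_lit 21000) (nat_lit 41327) (nat_lit 3983619) (nat_lit 42823) (nat_lit 6493549) (nat_lit 0) (nat_lit 0),Row.mk (nat_lit 21168) (nat_lit 41140) (nat_lit 10352961) (nat_lit 42636) (nat_lit 2732769) (nat_lit 0) (nat_lit 0),Row.mk (nat_lit 21336) (nat_lit 38896) (nat_lit 2453430) (nat_lit 40953) (nat_lit 13890332) (nat_lit 0) (nat_lit 0),Row.mk (nat_lit 21504) (nat_lit 38709) (nat_lit 9780664) (nat_lit 40766) (nat_lit 10632301) (nat_lit 0) (nat_lit 0),Row.mk (nat_lit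 21672) (nat_lit 38522) (nat_lit 18932203) (nat_lit 40579) (nat_lit 6563098) (nat_lit 0) (nat_lit 0),Row.mk (nat_lit 21840) (nat_lit 38335) (nat_lit 30362254) (nat_lit 40392) (nat_lit 1480762) (nat_lit 0) (nat_lit 0),Row.mk (nat_lit 22008) (nat_lit 31603) (nat_lit 6078706) (nat_lit 38148) (nat_lit 33692452) (nat_lit 0) (nat_lit 0),Row.mk (nat_lit 22176) (nat_lit 31416) (nat_lit 15980765) (nat_lit 37961) (nat_lit 33692452) (nat_lit 0) (nat_lit 0),Row.mk (nat_lit 22344) (nat_lit 31229) (nat_lit 28348198) (nat_lit 37774) (nat_lit 33692452) (nat_lit 0) (nat_lit 0),Row.mk (nat_lit 22512) (nat_lit 31042) (nat_lit 43794824) (nat_lit 37587) (nat_lit 33692452) (nat_lit 0) (nat_lit 0),Row.mk (nat_lit 22680) (nat_lit 30855) (nat_lit 63087287) (nat_lit 37400) (nat_lit 33692452) (nat_lit 0) (nat_lit 0),Row.mk (nat_lit 22848) (nat_lit 30668) (nat_lit 87183107) (nat_lit 37213) (nat_lit 33692452) (nat_lit 0) (nat_lit 0),Row.mk (nat_lit 23016) (nat_lit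 30481) (nat_lit 117278206) (nat_lit 37026) (nat_lit 33692452) (nat_lit 0) (nat_lit 0),Row.mk (nat_lit 23184) (nat_lit 30294) (nat_lit 154866258) (nat_lit 36839) (nat_lit 33692452) (nat_lit 0) (nat_lit 0),Row.mk (nat_lit 23352) (nat_lit 30107) (nat_lit 201812828) (nat_lit 36652) (nat_lit 33692452) (nat_lit 0) (nat_lit 0),Row.mk (nat_lit 23520) (nat_lit 29920) (nat_lit 260447962) (nat_lit 36465) (nat_lit 33692452) (nat_lit 0) (nat_lit 0),Row.mk (nat_lit 23688) (nat_lit 29733) (nat_lit 333681830) (nat_lit 36278) (nat_lit 33692452) (nat_lit 0) (nat_lit 0),Row.mk (nat_lit 23856) (nat_lit 29546) (nat_lit 425149164) (nat_lit 36091) (nat_lit 33692452) (nat_lit 0) (nat_lit 0),Row.mk (nat_lit 24024) (nat_lit 29359) (nat_lit 539389658) (nat_lit 35904) (nat_lit 33692452) (nat_lit 0) (nat_lit 0),Row.mk (nat_lit 24192) (nat_lit 29172) (nat_lit 682073279) (nat_lit 35717) (nat_lit 33692452) (nat_lit 0) (nat_lit 0),Row.mk (nat_lit 24360) (nat_lit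 28985) (nat_lit 860281679) (nat_lit 35530) (nat_lit 33692452) (nat_lit 0) (nat_lit 0),Row.mk (nat_lit 24528) (nat_lit 28798) (nat_lit 1082859672) (nat_lit 35343) (nat_lit 33692452) (nat_lit 0) (nat_lit 0),Row.mk (nat_lit 24696) (nat_lit 28611) (nat_lit 1360854216) (nat_lit 35156) (nat_lit 33692452) (nat_lit 0) (nat_lit 0),Row.mk (nat_lit 24864) (nat_lit 28424) (nat_lit 1708062695) (nat_lit 34969) (nat_lit 33692452) (nat_lit 0) (nat_lit 0),Row.mk (nat_lit 25032) (nat_lit 28237) (nat_lit 2141717710) (nat_lit 34782) (nat_lit 33692452) (nat_lit 0) (nat_lit 0),Row.mk (nat_lit 25200) (nat_lit 28050) (nat_lit 2683342361) (nat_lit 34595) (nat_lit 33692452) (nat_lit 0) (nat_lit 0),Row.mk (nat_lit 25368) (nat_lit 27863) (nat_lit 3359818485) (nat_lit 34408) (nat_lit 33692452) (nat_lit 0) (nat_lit 0),Row.mk (nat_lit 25536) (nat_lit 27676) (nat_lit 4204720844) (nat_lit 34221) (nat_lit 33692452) (nat_lit 0) (nat_lit 0),Row.mk (nat_lit 25704) (nat_lit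 27489) (nat_lit 5259983508) (nat_lit 34034) (nat_lit 33692452) (nat_lit 0) (nat_lit 0),Row.mk (nat_lit 25872) (nat_lit 27302) (nat_lit 6577981119) (nat_lit 33847) (nat_lit 33692452) (nat_lit 0) (nat_lit 0),Row.mk (nat_lit 26040) (nat_lit 32912) (nat_lit 8388608) (nat_lit 62084) (nat_lit 8249432185) (nat_lit 0) (nat_lit 0),Row.mk (nat_lit 26208) (nat_lit 32912) (nat_lit 8388608) (nat_lit 62084) (nat_lit 10305430352) (nat_lit 0) (nat_lit 0),Row.mk (nat_lit 26376) (nat_lit 32912) (nat_lit 8388608) (nat_lit 62084) (nat_lit 12873322465) (nat_lit 0) (nat_lit 0),Row.mk (nat_lit 26544) (nat_lit 32912) (nat_lit 8388608) (nat_lit 62084) (nat_lit 16080557766) (nat_lit 0) (nat_lit 0),Row.mk (nat_lit 26712) (nat_lit 32912) (nat_lit 8388608) (nat_lit 62084) (nat_lit 20086317287) (nat_lit 0) (nat_lit 0),Row.mk (nat_lit 26880) (nat_lit 32912) (nat_lit 8388608) (nat_lit 62084) (nat_lit 25089414294) (nat_lit 0) (nat_lit 0),Row.mk (nat_lit 27048) (nat_lit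 32912) (nat_lit 8388608) (nat_lit 62084) (nat_lit 31338161762) (nat_lit 0) (nat_lit 0),Row.mk (nat_lit 27216) (nat_lit 32912) (nat_lit 8388608) (nat_lit 62084) (nat_lit 39142696606) (nat_lit 0) (nat_lit 0),Row.mk (nat_lit 27384) (nat_lit 32912) (nat_lit 8388608) (nat_lit 62084) (nat_lit 48890372351) (nat_lit 0) (nat_lit 0),Row.mk (nat_lit 27552) (nat_lit 32912) (nat_lit 8388608) (nat_lit 62084) (nat_lit 61064984206) (nat_lit 0) (nat_lit 0),Row.mk (nat_lit 27720) (nat_lit 32912) (nat_lit 8388608) (nat_lit 62084) (nat_lit 76270780715) (nat_lit 0) (nat_lit 0),Row.mk (nat_lit 27888) (nat_lit 32912) (nat_lit 8388608) (nat_lit 62084) (nat_lit 95262453733) (nat_lit 0) (nat_lit 0),Row.mk (nat_lit 28056) (nat_lit 32912) (nat_lit 8388608) (nat_lit 62084) (nat_lit 118982595181) (nat_lit 0) (nat_lit 0),Row.mk (nat_lit 28224) (nat_lit 32912) (nat_lit 8388608) (nat_lit 62084) (nat_lit 148608479629) (nat_lit 0) (nat_lit 0),Row.mk (nat_lit 28392)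 (nat_lit 32912) (nat_lit 8388608) (nat_lit 62084) (nat_lit 185610494615) (nat_lit 0) (nat_lit 0),Row.mk (nat_lit 28560) (nat_lit 32912) (nat_lit 8388608) (nat_lit 62084) (nat_lit 231825118704) (nat_lit 0) (nat_lit 0),Row.mk (nat_lit 28728) (nat_lit 32912) (nat_lit 8388608) (nat_lit 62084) (nat_lit 289546069319) (nat_lit 0) (nat_lit 0),Row.mk (nat_lit 28896) (nat_lit 32912) (nat_lit 8388608) (nat_lit 62084) (nat_lit 361638144187) (nat_lit 0) (nat_lit 0),Row.mk (nat_lit 29064) (nat_lit 32912) (nat_lit 8388608) (nat_lit 62084) (nat_lit 451679406563) (nat_lit 0) (nat_lit 0),Row.mk (nat_lit 29232) (nat_lit 32912) (nat_lit 8388608) (nat_lit 62084) (nat_lit 564138771133) (nat_lit 0) (nat_lit 0),Row.mk (nat_lit 29400) (nat_lit 32912) (nat_lit 8388608) (nat_lit 62084) (nat_lit 704597804532) (nat_lit 0) (nat_lit 0),Row.mk (nat_lit 29568) (nat_lit 32912) (nat_lit 8388608) (nat_lit 62084) (nat_lit 880027748841) (nat_lit 0) (nat_lit 0),Row.mk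 (nat_lit 29736) (nat_lit 32912) (nat_lit 8388608) (nat_lit 62084) (nat_lit 1099135517246) (nat_lit 0) (nat_lit 0),Row.mk (nat_lit 29904) (nat_lit 32912) (nat_lit 8388608) (nat_lit 62084) (nat_lit 1372795834270) (nat_lit 0) (nat_lit 0),Row.mk (nat_lit 30072) (nat_lit 32912) (nat_lit 8388608) (nat_lit 62084) (nat_lit 1714590968505) (nat_lit 0) (nat_lit 0),Row.mk (nat_lit 30240) (nat_lit 32912) (nat_lit 8388608) (nat_lit 62084) (nat_lit 2141484845766) (nat_lit 0) (nat_lit 0)],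
[Row.mk (nat_lit 17976) (nat_lit 53669) (nat_lit 173978) (nat_lit 54043) (nat_lit 17566) (nat_lit 0) (nat_lit 0),Row.mk (nat_lit 18144) (nat_lit 53108) (nat_lit 211831) (nat_lit 53482) (nat_lit 27403) (nat_lit 0) (nat_lit 0),Row.mk (nat_lit 18312) (nat_lit 52547) (nat_lit 256051) (nat_lit 52921) (nat_lit 42747) (nat_lit 0) (nat_lit 0),Row.mk (nat_lit 18480) (nat_lit 51986) (nat_lit 306509) (nat_lit 52360) (nat_lit 66683) (nat_lit 0) (nat_lit 0),Row.mk (nat_lit 18648) (nat_lit 51425) (nat_lit 362086) (nat_lit 51799) (nat_lit 104022) (nat_lit 0) (nat_lit 0),Row.mk (nat_lit 18816) (nat_lit 50864) (nat_lit 419889) (nat_lit 51238) (nat_lit 162268) (nat_lit 0) (nat_lit 0),Row.mk (nat_lit 18984) (nat_lit 50303) (nat_lit 473972) (nat_lit 50677) (nat_lit 253129) (nat_lit 0) (nat_lit 0),Row.mk (nat_lit 19152) (nat_lit 49742) (nat_lit 513265) (nat_lit 50116) (nat_lit 394867) (nat_lit 0) (nat_lit 0),Row.mk (nat_lit 19320) (nat_lit 49181) (nat_lit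 518265) (nat_lit 49555) (nat_lit 615970) (nat_lit 0) (nat_lit 0),Row.mk (nat_lit 19488) (nat_lit 48620) (nat_lit 455756) (nat_lit 48994) (nat_lit 960877) (nat_lit 0) (nat_lit 0),Row.mk (nat_lit 19656) (nat_lit 47872) (nat_lit 270429) (nat_lit 48433) (nat_lit 1498911) (nat_lit 0) (nat_lit 0),Row.mk (nat_lit 19824) (nat_lit 47685) (nat_lit 2107101) (nat_lit 48246) (nat_lit 102763) (nat_lit 0) (nat_lit 0),Row.mk (nat_lit 19992) (nat_lit 46750) (nat_lit 2049560) (nat_lit 47498) (nat_lit 710507) (nat_lit 0) (nat_lit 0),Row.mk (nat_lit 20160) (nat_lit 45815) (nat_lit 1651718) (nat_lit 46563) (nat_lit 1795539) (nat_lit 0) (nat_lit 0),Row.mk (nat_lit 20328) (nat_lit 44693) (nat_lit 646322) (nat_lit 45628) (nat_lit 3659218) (nat_lit 0) (nat_lit 0),Row.mk (nat_lit 20496) (nat_lit 44506) (nat_lit 4254498) (nat_lit 45441) (nat_lit 1123018) (nat_lit 0) (nat_lit 0),Row.mk (nat_lit 20664) (nat_lit 43197) (nat_lit 2553699) (nat_lit 44319) (nat_lit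 4162689) (nat_lit 0) (nat_lit 0),Row.mk (nat_lit 20832) (nat_lit 43010) (nat_lit 7495049) (nat_lit 44132) (nat_lit 893558) (nat_lit 0) (nat_lit 0),Row.mk (nat_lit 21000) (nat_lit 41327) (nat_lit 3983619) (nat_lit 42823) (nat_lit 6493549) (nat_lit 0) (nat_lit 0),Row.mk (nat_lit 21168) (nat_lit 41140) (nat_lit 10352961) (nat_lit 42636) (nat_lit 2732769) (nat_lit 0) (nat_lit 0),Row.mk (nat_lit 21336) (nat_lit 38896) (nat_lit 2453430) (nat_lit 40953) (nat_lit 13890332) (nat_lit 0) (nat_lit 0),Row.mk (nat_lit 21504) (nat_lit 38709) (nat_lit 9780664) (nat_lit 40766) (nat_lit 10632301) (nat_lit 0) (nat_lit 0),Row.mk (nat_lit 21672) (nat_lit 38522) (nat_lit 18932203) (nat_lit 40579) (nat_lit 6563098) (nat_lit 0) (nat_lit 0),Row.mk (nat_lit 21840) (nat_lit 38335) (nat_lit 30362254) (nat_lit 40392) (nat_lit 1480762) (nat_lit 0) (nat_lit 0),Row.mk (nat_lit 22008) (nat_lit 31603) (nat_lit 6078706) (nat_lit 38148) (nat_lit 33692452) (nat_lit 0)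 (nat_lit 0),Row.mk (nat_lit 22176) (nat_lit 31416) (nat_lit 15980765) (nat_lit 37961) (nat_lit 33692452) (nat_lit 0) (nat_lit 0),Row.mk (nat_lit 22344) (nat_lit 31229) (nat_lit 28348198) (nat_lit 37774) (nat_lit 33692452) (nat_lit 0) (nat_lit 0),Row.mk (nat_lit 22512) (nat_lit 31042) (nat_lit 43794824) (nat_lit 37587) (nat_lit 33692452) (nat_lit 0) (nat_lit 0),Row.mk (nat_lit 22680) (nat_lit 30855) (nat_lit 63087287) (nat_lit 37400) (nat_lit 33692452) (nat_lit 0) (nat_lit 0),Row.mk (nat_lit 22848) (nat_lit 30668) (nat_lit 87183107) (nat_lit 37213) (nat_lit 33692452) (nat_lit 0) (nat_lit 0),Row.mk (nat_lit 23016) (nat_lit 30481) (nat_lit 117278206) (nat_lit 37026) (nat_lit 33692452) (nat_lit 0) (nat_lit 0),Row.mk (nat_lit 23184) (nat_lit 30294) (nat_lit 154866258) (nat_lit 36839) (nat_lit 33692452) (nat_lit 0) (nat_lit 0),Row.mk (nat_lit 23352) (nat_lit 30107) (nat_lit 201812828) (nat_lit 36652) (nat_lit 33692452) (nat_lit 0) (nat_lit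 0),Row.mk (nat_lit 23520) (nat_lit 29920) (nat_lit 260447962) (nat_lit 36465) (nat_lit 33692452) (nat_lit 0) (nat_lit 0),Row.mk (nat_lit 23688) (nat_lit 29733) (nat_lit 333681830) (nat_lit 36278) (nat_lit 33692452) (nat_lit 0) (nat_lit 0),Row.mk (nat_lit 23856) (nat_lit 29546) (nat_lit 425149164) (nat_lit 36091) (nat_lit 33692452) (nat_lit 0) (nat_lit 0),Row.mk (nat_lit 24024) (nat_lit 29359) (nat_lit 539389658) (nat_lit 35904) (nat_lit 33692452) (nat_lit 0) (nat_lit 0),Row.mk (nat_lit 24192) (nat_lit 29172) (nat_lit 682073279) (nat_lit 35717) (nat_lit 33692452) (nat_lit 0) (nat_lit 0),Row.mk (nat_lit 24360) (nat_lit 28985) (nat_lit 860281679) (nat_lit 35530) (nat_lit 33692452) (nat_lit 0) (nat_lit 0),Row.mk (nat_lit 24528) (nat_lit 28798) (nat_lit 1082859672) (nat_lit 35343) (nat_lit 33692452) (nat_lit 0) (nat_lit 0),Row.mk (nat_lit 24696) (nat_lit 28611) (nat_lit 1360854216) (nat_lit 35156) (nat_lit 33692452) (nat_lit 0) (nat_lit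 0),Row.mk (nat_lit 24864) (nat_lit 28424) (nat_lit 1708062695) (nat_lit 34969) (nat_lit 33692452) (nat_lit 0) (nat_lit 0),Row.mk (nat_lit 25032) (nat_lit 28237) (nat_lit 2141717710) (nat_lit 34782) (nat_lit 33692452) (nat_lit 0) (nat_lit 0),Row.mk (nat_lit 25200) (nat_lit 28050) (nat_lit 2683342361) (nat_lit 34595) (nat_lit 33692452) (nat_lit 0) (nat_lit 0),Row.mk (nat_lit 25368) (nat_lit 27863) (nat_lit 3359818485) (nat_lit 34408) (nat_lit 33692452) (nat_lit 0) (nat_lit 0),Row.mk (nat_lit 25536) (nat_lit 27676) (nat_lit 4204720844) (nat_lit 34221) (nat_lit 33692452) (nat_lit 0) (nat_lit 0),Row.mk (nat_lit 25704) (nat_lit 27489) (nat_lit 5259983508) (nat_lit 34034) (nat_lit 33692452) (nat_lit 0) (nat_lit 0),Row.mk (nat_lit 25872) (nat_lit 27302) (nat_lit 6577981119) (nat_lit 33847) (nat_lit 33692452) (nat_lit 0) (nat_lit 0),Row.mk (nat_lit 26040) (nat_lit 32912) (nat_lit 8388608) (nat_lit 62084) (nat_lit 8249432185) (nat_lit 0) (nat_lit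 0),Row.mk (nat_lit 26208) (nat_lit 32912) (nat_lit 8388608) (nat_lit 62084) (nat_lit 10305430352) (nat_lit 0) (nat_lit 0),Row.mk (nat_lit 26376) (nat_lit 32912) (nat_lit 8388608) (nat_lit 62084) (nat_lit 12873322465) (nat_lit 0) (nat_lit 0),Row.mk (nat_lit 26544) (nat_lit 32912) (nat_lit 8388608) (nat_lit 62084) (nat_lit 16080557766) (nat_lit 0) (nat_lit 0),Row.mk (nat_lit 26712) (nat_lit 32912) (nat_lit 8388608) (nat_lit 62084) (nat_lit 20086317287) (nat_lit 0) (nat_lit 0),Row.mk (nat_lit 26880) (nat_lit 32912) (nat_lit 8388608) (nat_lit 62084) (nat_lit 25089414294) (nat_lit 0) (nat_lit 0),Row.mk (nat_lit 27048) (nat_lit 32912) (nat_lit 8388608) (nat_lit 62084) (nat_lit 31338161762) (nat_lit 0) (nat_lit 0),Row.mk (nat_lit 27216) (nat_lit 32912) (nat_lit 8388608) (nat_lit 62084) (nat_lit 39142696606) (nat_lit 0) (nat_lit 0),Row.mk (nat_lit 27384) (nat_lit 32912) (nat_lit 8388608) (nat_lit 62084) (nat_lit 48890372351) (nat_lit 0) (nat_lit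 0),Row.mk (nat_lit 27552) (nat_lit 32912) (nat_lit 8388608) (nat_lit 62084) (nat_lit 61064984206) (nat_lit 0) (nat_lit 0),Row.mk (nat_lit 27720) (nat_lit 32912) (nat_lit 8388608) (nat_lit 62084) (nat_lit 76270780715) (nat_lit 0) (nat_lit 0),Row.mk (nat_lit 27888) (nat_lit 32912) (nat_lit 8388608) (nat_lit 62084) (nat_lit 95262453733) (nat_lit 0) (nat_lit 0),Row.mk (nat_lit 28056) (nat_lit 32912) (nat_lit 8388608) (nat_lit 62084) (nat_lit 118982595181) (nat_lit 0) (nat_lit 0),Row.mk (nat_lit 28224) (nat_lit 32912) (nat_lit 8388608) (nat_lit 62084) (nat_lit 148608479629) (nat_lit 0) (nat_lit 0),Row.mk (nat_lit 28392) (nat_lit 32912) (nat_lit 8388608) (nat_lit 62084) (nat_lit 185610494615) (nat_lit 0) (nat_lit 0),Row.mk (nat_lit 28560) (nat_lit 32912) (nat_lit 8388608) (nat_lit 62084) (nat_lit 231825118704) (nat_lit 0) (nat_lit 0),Row.mk (nat_lit 28728) (nat_lit 32912) (nat_lit 8388608) (nat_lit 62084) (nat_lit 289546069319) (nat_lit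 0) (nat_lit 0),Row.mk (nat_lit 28896) (nat_lit 32912) (nat_lit 8388608) (nat_lit 62084) (nat_lit 361638144187) (nat_lit 0) (nat_lit 0),Row.mk (nat_lit 29064) (nat_lit 32912) (nat_lit 8388608) (nat_lit 62084) (nat_lit 451679406563) (nat_lit 0) (nat_lit 0),Row.mk (nat_lit 29232) (nat_lit 32912) (nat_lit 8388608) (nat_lit 62084) (nat_lit 564138771133) (nat_lit 0) (nat_lit 0),Row.mk (nat_lit 29400) (nat_lit 32912) (nat_lit 8388608) (nat_lit 62084) (nat_lit 704597804532) (nat_lit 0) (nat_lit 0),Row.mk (nat_lit 29568) (nat_lit 32912) (nat_lit 8388608) (nat_lit 62084) (nat_lit 880027748841) (nat_lit 0) (nat_lit 0),Row.mk (nat_lit 29736) (nat_lit 32912) (nat_lit 8388608) (nat_lit 62084) (nat_lit 1099135517246) (nat_lit 0) (nat_lit 0),Row.mk (nat_lit 29904) (nat_lit 32912) (nat_lit 8388608) (nat_lit 62084) (nat_lit 1372795834270) (nat_lit 0) (nat_lit 0),Row.mk (nat_lit 30072) (nat_lit 32912) (nat_lit 8388608) (nat_lit 62084) (nat_lit 1714590968505)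 (nat_lit 0) (nat_lit 0),Row.mk (nat_lit 30240) (nat_lit 32912) (nat_lit 8388608) (nat_lit 62084) (nat_lit 2141484845766) (nat_lit 0) (nat_lit 0),Row.mk (nat_lit 30408) (nat_lit 32912) (nat_lit 8388608) (nat_lit 62084) (nat_lit 2674665000160) (nat_lit 0) (nat_lit 0)],
[Row.mk (nat_lit 18648) (nat_lit 51425) (nat_lit 362086) (nat_lit 51799) (nat_lit 104022) (nat_lit 0) (nat_lit 0),Row.mk (nat_lit 18816) (nat_lit 50864) (nat_lit 419889) (nat_lit 51238) (nat_lit 162268) (nat_lit 0) (nat_lit 0),Row.mk (nat_lit 18984) (nat_lit 50303) (nat_lit 473972) (nat_lit 50677) (nat_lit 253129) (nat_lit 0) (nat_lit 0),Row.mk (nat_lit 19152) (nat_lit 49742) (nat_lit 513265) (nat_lit 50116) (nat_lit 394867) (nat_lit 0) (nat_lit 0),Row.mk (nat_lit 19320) (nat_lit 49181) (nat_lit 518265) (nat_lit 49555) (nat_lit 615970) (nat_lit 0) (nat_lit 0),Row.mk (nat_lit 19488) (nat_lit 48620) (nat_lit 455756) (nat_lit 48994) (nat_lit 960877) (nat_lit 0) (nat_lit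 0),Row.mk (nat_lit 19656) (nat_lit 47872) (nat_lit 270429) (nat_lit 48433) (nat_lit 1498911) (nat_lit 0) (nat_lit 0),Row.mk (nat_lit 19824) (nat_lit 47685) (nat_lit 2107101) (nat_lit 48246) (nat_lit 102763) (nat_lit 0) (nat_lit 0),Row.mk (nat_lit 19992) (nat_lit 46750) (nat_lit 2049560) (nat_lit 47498) (nat_lit 710507) (nat_lit 0) (nat_lit 0),Row.mk (nat_lit 20160) (nat_lit 45815) (nat_lit 1651718) (nat_lit 46563) (nat_lit 1795539) (nat_lit 0) (nat_lit 0),Row.mk (nat_lit 20328) (nat_lit 44693) (nat_lit 646322) (nat_lit 45628) (nat_lit 3659218) (nat_lit 0) (nat_lit 0),Row.mk (nat_lit 20496) (nat_lit 44506) (nat_lit 4254498) (nat_lit 45441) (nat_lit 1123018) (nat_lit 0) (nat_lit 0),Row.mk (nat_lit 20664) (nat_lit 43197) (nat_lit 2553699) (nat_lit 44319) (nat_lit 4162689) (nat_lit 0) (nat_lit 0),Row.mk (nat_lit 20832) (nat_lit 43010) (nat_lit 7495049) (nat_lit 44132) (nat_lit 893558) (nat_lit 0) (nat_lit 0),Row.mk (nat_lit 21000) (nat_lit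 41327) (nat_lit 3983619) (nat_lit 42823) (nat_lit 6493549) (nat_lit 0) (nat_lit 0),Row.mk (nat_lit 21168) (nat_lit 41140) (nat_lit 10352961) (nat_lit 42636) (nat_lit 2732769) (nat_lit 0) (nat_lit 0),Row.mk (nat_lit 21336) (nat_lit 38896) (nat_lit 2453430) (nat_lit 40953) (nat_lit 13890332) (nat_lit 0) (nat_lit 0),Row.mk (nat_lit 21504) (nat_lit 38709) (nat_lit 9780664) (nat_lit 40766) (nat_lit 10632301) (nat_lit 0) (nat_lit 0),Row.mk (nat_lit 21672) (nat_lit 38522) (nat_lit 18932203) (nat_lit 40579) (nat_lit 6563098) (nat_lit 0) (nat_lit 0),Row.mk (nat_lit 21840) (nat_lit 38335) (nat_lit 30362254) (nat_lit 40392) (nat_lit 1480762) (nat_lit 0) (nat_lit 0),Row.mk (nat_lit 22008) (nat_lit 31603) (nat_lit 6078706) (nat_lit 38148) (nat_lit 33692452) (nat_lit 0) (nat_lit 0),Row.mk (nat_lit 22176) (nat_lit 31416) (nat_lit 15980765) (nat_lit 37961) (nat_lit 33692452) (nat_lit 0) (nat_lit 0),Row.mk (nat_lit 22344) (nat_lit 31229) (nat_lit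 28348198) (nat_lit 37774) (nat_lit 33692452) (nat_lit 0) (nat_lit 0),Row.mk (nat_lit 22512) (nat_lit 31042) (nat_lit 43794824) (nat_lit 37587) (nat_lit 33692452) (nat_lit 0) (nat_lit 0),Row.mk (nat_lit 22680) (nat_lit 30855) (nat_lit 63087287) (nat_lit 37400) (nat_lit 33692452) (nat_lit 0) (nat_lit 0),Row.mk (nat_lit 22848) (nat_lit 30668) (nat_lit 87183107) (nat_lit 37213) (nat_lit 33692452) (nat_lit 0) (nat_lit 0),Row.mk (nat_lit 23016) (nat_lit 30481) (nat_lit 117278206) (nat_lit 37026) (nat_lit 33692452) (nat_lit 0) (nat_lit 0),Row.mk (nat_lit 23184) (nat_lit 30294) (nat_lit 154866258) (nat_lit 36839) (nat_lit 33692452) (nat_lit 0) (nat_lit 0),Row.mk (nat_lit 23352) (nat_lit 30107) (nat_lit 201812828) (nat_lit 36652) (nat_lit 33692452) (nat_lit 0) (nat_lit 0),Row.mk (nat_lit 23520) (nat_lit 29920) (nat_lit 260447962) (nat_lit 36465) (nat_lit 33692452) (nat_lit 0) (nat_lit 0),Row.mk (nat_lit 23688) (nat_lit 29733) (nat_lit 333681830)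 (nat_lit 36278) (nat_lit 33692452) (nat_lit 0) (nat_lit 0),Row.mk (nat_lit 23856) (nat_lit 29546) (nat_lit 425149164) (nat_lit 36091) (nat_lit 33692452) (nat_lit 0) (nat_lit 0),Row.mk (nat_lit 24024) (nat_lit 29359) (nat_lit 539389658) (nat_lit 35904) (nat_lit 33692452) (nat_lit 0) (nat_lit 0),Row.mk (nat_lit 24192) (nat_lit 29172) (nat_lit 682073279) (nat_lit 35717) (nat_lit 33692452) (nat_lit 0) (nat_lit 0),Row.mk (nat_lit 24360) (nat_lit 28985) (nat_lit 860281679) (nat_lit 35530) (nat_lit 33692452) (nat_lit 0) (nat_lit 0),Row.mk (nat_lit 24528) (nat_lit 28798) (nat_lit 1082859672) (nat_lit 35343) (nat_lit 33692452) (nat_lit 0) (nat_lit 0),Row.mk (nat_lit 24696) (nat_lit 28611) (nat_lit 1360854216) (nat_lit 35156) (nat_lit 33692452) (nat_lit 0) (nat_lit 0),Row.mk (nat_lit 24864) (nat_lit 28424) (nat_lit 1708062695) (nat_lit 34969) (nat_lit 33692452) (nat_lit 0) (nat_lit 0),Row.mk (nat_lit 25032) (nat_lit 28237) (nat_lit 2141717710)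 (nat_lit 34782) (nat_lit 33692452) (nat_lit 0) (nat_lit 0),Row.mk (nat_lit 25200) (nat_lit 28050) (nat_lit 2683342361) (nat_lit 34595) (nat_lit 33692452) (nat_lit 0) (nat_lit 0),Row.mk (nat_lit 25368) (nat_lit 27863) (nat_lit 3359818485) (nat_lit 34408) (nat_lit 33692452) (nat_lit 0) (nat_lit 0),Row.mk (nat_lit 25536) (nat_lit 27676) (nat_lit 4204720844) (nat_lit 34221) (nat_lit 33692452) (nat_lit 0) (nat_lit 0),Row.mk (nat_lit 25704) (nat_lit 27489) (nat_lit 5259983508) (nat_lit 34034) (nat_lit 33692452) (nat_lit 0) (nat_lit 0),Row.mk (nat_lit 25872) (nat_lit 27302) (nat_lit 6577981119) (nat_lit 33847) (nat_lit 33692452) (nat_lit 0) (nat_lit 0),Row.mk (nat_lit 26040) (nat_lit 32912) (nat_lit 8388608) (nat_lit 62084) (nat_lit 8249432185) (nat_lit 0) (nat_lit 0),Row.mk (nat_lit 26208) (nat_lit 32912) (nat_lit 8388608) (nat_lit 62084) (nat_lit 10305430352) (nat_lit 0) (nat_lit 0),Row.mk (nat_lit 26376) (nat_lit 32912) (nat_lit 8388608)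 (nat_lit 62084) (nat_lit 12873322465) (nat_lit 0) (nat_lit 0),Row.mk (nat_lit 26544) (nat_lit 32912) (nat_lit 8388608) (nat_lit 62084) (nat_lit 16080557766) (nat_lit 0) (nat_lit 0),Row.mk (nat_lit 26712) (nat_lit 32912) (nat_lit 8388608) (nat_lit 62084) (nat_lit 20086317287) (nat_lit 0) (nat_lit 0),Row.mk (nat_lit 26880) (nat_lit 32912) (nat_lit 8388608) (nat_lit 62084) (nat_lit 25089414294) (nat_lit 0) (nat_lit 0),Row.mk (nat_lit 27048) (nat_lit 32912) (nat_lit 8388608) (nat_lit 62084) (nat_lit 31338161762) (nat_lit 0) (nat_lit 0),Row.mk (nat_lit 27216) (nat_lit 32912) (nat_lit 8388608) (nat_lit 62084) (nat_lit 39142696606) (nat_lit 0) (nat_lit 0),Row.mk (nat_lit 27384) (nat_lit 32912) (nat_lit 8388608) (nat_lit 62084) (nat_lit 48890372351) (nat_lit 0) (nat_lit 0),Row.mk (nat_lit 27552) (nat_lit 32912) (nat_lit 8388608) (nat_lit 62084) (nat_lit 61064984206) (nat_lit 0) (nat_lit 0),Row.mk (nat_lit 27720) (nat_lit 32912) (nat_lit 8388608)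 (nat_lit 62084) (nat_lit 76270780715) (nat_lit 0) (nat_lit 0),Row.mk (nat_lit 27888) (nat_lit 32912) (nat_lit 8388608) (nat_lit 62084) (nat_lit 95262453733) (nat_lit 0) (nat_lit 0),Row.mk (nat_lit 28056) (nat_lit 32912) (nat_lit 8388608) (nat_lit 62084) (nat_lit 118982595181) (nat_lit 0) (nat_lit 0),Row.mk (nat_lit 28224) (nat_lit 32912) (nat_lit 8388608) (nat_lit 62084) (nat_lit 148608479629) (nat_lit 0) (nat_lit 0),Row.mk (nat_lit 28392) (nat_lit 32912) (nat_lit 8388608) (nat_lit 62084) (nat_lit 185610494615) (nat_lit 0) (nat_lit 0),Row.mk (nat_lit 28560) (nat_lit 32912) (nat_lit 8388608) (nat_lit 62084) (nat_lit 231825118704) (nat_lit 0) (nat_lit 0),Row.mk (nat_lit 28728) (nat_lit 32912) (nat_lit 8388608) (nat_lit 62084) (nat_lit 289546069319) (nat_lit 0) (nat_lit 0),Row.mk (nat_lit 28896) (nat_lit 32912) (nat_lit 8388608) (nat_lit 62084) (nat_lit 361638144187) (nat_lit 0) (nat_lit 0),Row.mk (nat_lit 29064) (nat_lit 32912) (nat_lit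 8388608) (nat_lit 62084) (nat_lit 451679406563) (nat_lit 0) (nat_lit 0),Row.mk (nat_lit 29232) (nat_lit 32912) (nat_lit 8388608) (nat_lit 62084) (nat_lit 564138771133) (nat_lit 0) (nat_lit 0),Row.mk (nat_lit 29400) (nat_lit 32912) (nat_lit 8388608) (nat_lit 62084) (nat_lit 704597804532) (nat_lit 0) (nat_lit 0),Row.mk (nat_lit 29568) (nat_lit 32912) (nat_lit 8388608) (nat_lit 62084) (nat_lit 880027748841) (nat_lit 0) (nat_lit 0),Row.mk (nat_lit 29736) (nat_lit 32912) (nat_lit 8388608) (nat_lit 62084) (nat_lit 1099135517246) (nat_lit 0) (nat_lit 0),Row.mk (nat_lit 29904) (nat_lit 32912) (nat_lit 8388608) (nat_lit 62084) (nat_lit 1372795834270) (nat_lit 0) (nat_lit 0),Row.mk (nat_lit 30072) (nat_lit 32912) (nat_lit 8388608) (nat_lit 62084) (nat_lit 1714590968505) (nat_lit 0) (nat_lit 0),Row.mk (nat_lit 30240) (nat_lit 32912) (nat_lit 8388608) (nat_lit 62084) (nat_lit 2141484845766) (nat_lit 0) (nat_lit 0),Row.mk (nat_lit 30408) (nat_lit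 32912) (nat_lit 8388608) (nat_lit 62084) (nat_lit 2674665000160) (nat_lit 0) (nat_lit 0),Row.mk (nat_lit 30576) (nat_lit 32912) (nat_lit 8388608) (nat_lit 62084) (nat_lit 3340594150663) (nat_lit 0) (nat_lit 0)],
[Row.mk (nat_lit 19320) (nat_lit 49181) (nat_lit 518265) (nat_lit 49555) (nat_lit 615970) (nat_lit 0) (nat_lit 0),Row.mk (nat_lit 19488) (nat_lit 48620) (nat_lit 455756) (nat_lit 48994) (nat_lit 960877) (nat_lit 0) (nat_lit 0),Row.mk (nat_lit 19656) (nat_lit 47872) (nat_lit 270429) (nat_lit 48433) (nat_lit 1498911) (nat_lit 0) (nat_lit 0),Row.mk (nat_lit 19824) (nat_lit 47685) (nat_lit 2107101) (nat_lit 48246) (nat_lit 102763) (nat_lit 0) (nat_lit 0),Row.mk (nat_lit 19992) (nat_lit 46750) (nat_lit 2049560) (nat_lit 47498) (nat_lit 710507) (nat_lit 0) (nat_lit 0),Row.mk (nat_lit 20160) (nat_lit 45815) (nat_lit 1651718) (nat_lit 46563) (nat_lit 1795539) (nat_lit 0) (nat_lit 0),Row.mk (nat_lit 20328) (nat_lit 44693) (nat_lit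 646322) (nat_lit 45628) (nat_lit 3659218) (nat_lit 0) (nat_lit 0),Row.mk (nat_lit 20496) (nat_lit 44506) (nat_lit 4254498) (nat_lit 45441) (nat_lit 1123018) (nat_lit 0) (nat_lit 0),Row.mk (nat_lit 20664) (nat_lit 43197) (nat_lit 2553699) (nat_lit 44319) (nat_lit 4162689) (nat_lit 0) (nat_lit 0),Row.mk (nat_lit 20832) (nat_lit 43010) (nat_lit 7495049) (nat_lit 44132) (nat_lit 893558) (nat_lit 0) (nat_lit 0),Row.mk (nat_lit 21000) (nat_lit 41327) (nat_lit 3983619) (nat_lit 42823) (nat_lit 6493549) (nat_lit 0) (nat_lit 0),Row.mk (nat_lit 21168) (nat_lit 41140) (nat_lit 10352961) (nat_lit 42636) (nat_lit 2732769) (nat_lit 0) (nat_lit 0),Row.mk (nat_lit 21336) (nat_lit 38896) (nat_lit 2453430) (nat_lit 40953) (nat_lit 13890332) (nat_lit 0) (nat_lit 0),Row.mk (nat_lit 21504) (nat_lit 38709) (nat_lit 9780664) (nat_lit 40766) (nat_lit 10632301) (nat_lit 0) (nat_lit 0),Row.mk (nat_lit 21672) (nat_lit 38522) (nat_lit 18932203) (nat_lit 40579)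 (nat_lit 6563098) (nat_lit 0) (nat_lit 0),Row.mk (nat_lit 21840) (nat_lit 38335) (nat_lit 30362254) (nat_lit 40392) (nat_lit 1480762) (nat_lit 0) (nat_lit 0),Row.mk (nat_lit 22008) (nat_lit 31603) (nat_lit 6078706) (nat_lit 38148) (nat_lit 33692452) (nat_lit 0) (nat_lit 0),Row.mk (nat_lit 22176) (nat_lit 31416) (nat_lit 15980765) (nat_lit 37961) (nat_lit 33692452) (nat_lit 0) (nat_lit 0),Row.mk (nat_lit 22344) (nat_lit 31229) (nat_lit 28348198) (nat_lit 37774) (nat_lit 33692452) (nat_lit 0) (nat_lit 0),Row.mk (nat_lit 22512) (nat_lit 31042) (nat_lit 43794824) (nat_lit 37587) (nat_lit 33692452) (nat_lit 0) (nat_lit 0),Row.mk (nat_lit 22680) (nat_lit 30855) (nat_lit 63087287) (nat_lit 37400) (nat_lit 33692452) (nat_lit 0) (nat_lit 0),Row.mk (nat_lit 22848) (nat_lit 30668) (nat_lit 87183107) (nat_lit 37213) (nat_lit 33692452) (nat_lit 0) (nat_lit 0),Row.mk (nat_lit 23016) (nat_lit 30481) (nat_lit 117278206) (nat_lit 37026) (nat_lit 33692452)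 (nat_lit 0) (nat_lit 0),Row.mk (nat_lit 23184) (nat_lit 30294) (nat_lit 154866258) (nat_lit 36839) (nat_lit 33692452) (nat_lit 0) (nat_lit 0),Row.mk (nat_lit 23352) (nat_lit 30107) (nat_lit 201812828) (nat_lit 36652) (nat_lit 33692452) (nat_lit 0) (nat_lit 0),Row.mk (nat_lit 23520) (nat_lit 29920) (nat_lit 260447962) (nat_lit 36465) (nat_lit 33692452) (nat_lit 0) (nat_lit 0),Row.mk (nat_lit 23688) (nat_lit 29733) (nat_lit 333681830) (nat_lit 36278) (nat_lit 33692452) (nat_lit 0) (nat_lit 0),Row.mk (nat_lit 23856) (nat_lit 29546) (nat_lit 425149164) (nat_lit 36091) (nat_lit 33692452) (nat_lit 0) (nat_lit 0),Row.mk (nat_lit 24024) (nat_lit 29359) (nat_lit 539389658) (nat_lit 35904) (nat_lit 33692452) (nat_lit 0) (nat_lit 0),Row.mk (nat_lit 24192) (nat_lit 29172) (nat_lit 682073279) (nat_lit 35717) (nat_lit 33692452) (nat_lit 0) (nat_lit 0),Row.mk (nat_lit 24360) (nat_lit 28985) (nat_lit 860281679) (nat_lit 35530) (nat_lit 33692452)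 (nat_lit 0) (nat_lit 0),Row.mk (nat_lit 24528) (nat_lit 28798) (nat_lit 1082859672) (nat_lit 35343) (nat_lit 33692452) (nat_lit 0) (nat_lit 0),Row.mk (nat_lit 24696) (nat_lit 28611) (nat_lit 1360854216) (nat_lit 35156) (nat_lit 33692452) (nat_lit 0) (nat_lit 0),Row.mk (nat_lit 24864) (nat_lit 28424) (nat_lit 1708062695) (nat_lit 34969) (nat_lit 33692452) (nat_lit 0) (nat_lit 0),Row.mk (nat_lit 25032) (nat_lit 28237) (nat_lit 2141717710) (nat_lit 34782) (nat_lit 33692452) (nat_lit 0) (nat_lit 0),Row.mk (nat_lit 25200) (nat_lit 28050) (nat_lit 2683342361) (nat_lit 34595) (nat_lit 33692452) (nat_lit 0) (nat_lit 0),Row.mk (nat_lit 25368) (nat_lit 27863) (nat_lit 3359818485) (nat_lit 34408) (nat_lit 33692452) (nat_lit 0) (nat_lit 0),Row.mk (nat_lit 25536) (nat_lit 27676) (nat_lit 4204720844) (nat_lit 34221) (nat_lit 33692452) (nat_lit 0) (nat_lit 0),Row.mk (nat_lit 25704) (nat_lit 27489) (nat_lit 5259983508) (nat_lit 34034) (nat_lit 33692452)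 (nat_lit 0) (nat_lit 0),Row.mk (nat_lit 25872) (nat_lit 27302) (nat_lit 6577981119) (nat_lit 33847) (nat_lit 33692452) (nat_lit 0) (nat_lit 0),Row.mk (nat_lit 26040) (nat_lit 32912) (nat_lit 8388608) (nat_lit 62084) (nat_lit 8249432185) (nat_lit 0) (nat_lit 0),Row.mk (nat_lit 26208) (nat_lit 32912) (nat_lit 8388608) (nat_lit 62084) (nat_lit 10305430352) (nat_lit 0) (nat_lit 0),Row.mk (nat_lit 26376) (nat_lit 32912) (nat_lit 8388608) (nat_lit 62084) (nat_lit 12873322465) (nat_lit 0) (nat_lit 0),Row.mk (nat_lit 26544) (nat_lit 32912) (nat_lit 8388608) (nat_lit 62084) (nat_lit 16080557766) (nat_lit 0) (nat_lit 0),Row.mk (nat_lit 26712) (nat_lit 32912) (nat_lit 8388608) (nat_lit 62084) (nat_lit 20086317287) (nat_lit 0) (nat_lit 0),Row.mk (nat_lit 26880) (nat_lit 32912) (nat_lit 8388608) (nat_lit 62084) (nat_lit 25089414294) (nat_lit 0) (nat_lit 0),Row.mk (nat_lit 27048) (nat_lit 32912) (nat_lit 8388608) (nat_lit 62084) (nat_lit 31338161762)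 (nat_lit 0) (nat_lit 0),Row.mk (nat_lit 27216) (nat_lit 32912) (nat_lit 8388608) (nat_lit 62084) (nat_lit 39142696606) (nat_lit 0) (nat_lit 0),Row.mk (nat_lit 27384) (nat_lit 32912) (nat_lit 8388608) (nat_lit 62084) (nat_lit 48890372351) (nat_lit 0) (nat_lit 0),Row.mk (nat_lit 27552) (nat_lit 32912) (nat_lit 8388608) (nat_lit 62084) (nat_lit 61064984206) (nat_lit 0) (nat_lit 0),Row.mk (nat_lit 27720) (nat_lit 32912) (nat_lit 8388608) (nat_lit 62084) (nat_lit 76270780715) (nat_lit 0) (nat_lit 0),Row.mk (nat_lit 27888) (nat_lit 32912) (nat_lit 8388608) (nat_lit 62084) (nat_lit 95262453733) (nat_lit 0) (nat_lit 0),Row.mk (nat_lit 28056) (nat_lit 32912) (nat_lit 8388608) (nat_lit 62084) (nat_lit 118982595181) (nat_lit 0) (nat_lit 0),Row.mk (nat_lit 28224) (nat_lit 32912) (nat_lit 8388608) (nat_lit 62084) (nat_lit 148608479629) (nat_lit 0) (nat_lit 0),Row.mk (nat_lit 28392) (nat_lit 32912) (nat_lit 8388608) (nat_lit 62084) (nat_lit 185610494615)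 (nat_lit 0) (nat_lit 0),Row.mk (nat_lit 28560) (nat_lit 32912) (nat_lit 8388608) (nat_lit 62084) (nat_lit 231825118704) (nat_lit 0) (nat_lit 0),Row.mk (nat_lit 28728) (nat_lit 32912) (nat_lit 8388608) (nat_lit 62084) (nat_lit 289546069319) (nat_lit 0) (nat_lit 0),Row.mk (nat_lit 28896) (nat_lit 32912) (nat_lit 8388608) (nat_lit 62084) (nat_lit 361638144187) (nat_lit 0) (nat_lit 0),Row.mk (nat_lit 29064) (nat_lit 32912) (nat_lit 8388608) (nat_lit 62084) (nat_lit 451679406563) (nat_lit 0) (nat_lit 0),Row.mk (nat_lit 29232) (nat_lit 32912) (nat_lit 8388608) (nat_lit 62084) (nat_lit 564138771133) (nat_lit 0) (nat_lit 0),Row.mk (nat_lit 29400) (nat_lit 32912) (nat_lit 8388608) (nat_lit 62084) (nat_lit 704597804532) (nat_lit 0) (nat_lit 0),Row.mk (nat_lit 29568) (nat_lit 32912) (nat_lit 8388608) (nat_lit 62084) (nat_lit 880027748841) (nat_lit 0) (nat_lit 0),Row.mk (nat_lit 29736) (nat_lit 32912) (nat_lit 8388608) (nat_lit 62084) (nat_lit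 1099135517246) (nat_lit 0) (nat_lit 0),Row.mk (nat_lit 29904) (nat_lit 32912) (nat_lit 8388608) (nat_lit 62084) (nat_lit 1372795834270) (nat_lit 0) (nat_lit 0),Row.mk (nat_lit 30072) (nat_lit 32912) (nat_lit 8388608) (nat_lit 62084) (nat_lit 1714590968505) (nat_lit 0) (nat_lit 0),Row.mk (nat_lit 30240) (nat_lit 32912) (nat_lit 8388608) (nat_lit 62084) (nat_lit 2141484845766) (nat_lit 0) (nat_lit 0),Row.mk (nat_lit 30408) (nat_lit 32912) (nat_lit 8388608) (nat_lit 62084) (nat_lit 2674665000160) (nat_lit 0) (nat_lit 0),Row.mk (nat_lit 30576) (nat_lit 32912) (nat_lit 8388608) (nat_lit 62084) (nat_lit 3340594150663) (nat_lit 0) (nat_lit 0),Row.mk (nat_lit 30744) (nat_lit 32912) (nat_lit 8388608) (nat_lit 62084) (nat_lit 4172323594897) (nat_lit 0) (nat_lit 0)],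
[Row.mk (nat_lit 19992) (nat_lit 46750) (nat_lit 2049560) (nat_lit 47498) (nat_lit 710507) (nat_lit 0) (nat_lit 0),Row.mk (nat_lit 20160) (nat_lit 45815) (nat_lit 1651718) (nat_lit 46563) (nat_lit 1795539) (nat_lit 0) (nat_lit 0),Row.mk (nat_lit 20328) (nat_lit 44693) (nat_lit 646322) (nat_lit 45628) (nat_lit 3659218) (nat_lit 0) (nat_lit 0),Row.mk (nat_lit 20496) (nat_lit 44506) (nat_lit 4254498) (nat_lit 45441) (nat_lit 1123018) (nat_lit 0) (nat_lit 0),Row.mk (nat_lit 20664) (nat_lit 43197) (nat_lit 2553699) (nat_lit 44319) (nat_lit 4162689) (nat_lit 0) (nat_lit 0),Row.mk (nat_lit 20832) (nat_lit 43010) (nat_lit 7495049) (nat_lit 44132) (nat_lit 893558) (nat_lit 0) (nat_lit 0),Row.mk (nat_lit 21000) (nat_lit 41327) (nat_lit 3983619) (nat_lit 42823) (nat_lit 6493549) (nat_lit 0) (nat_lit 0),Row.mk (nat_lit 21168) (nat_lit 41140) (nat_lit 10352961) (nat_lit 42636) (nat_lit 2732769) (nat_lit 0) (nat_lit 0),Row.mk (nat_lit 21336) (nat_lit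 38896) (nat_lit 2453430) (nat_lit 40953) (nat_lit 13890332) (nat_lit 0) (nat_lit 0),Row.mk (nat_lit 21504) (nat_lit 38709) (nat_lit 9780664) (nat_lit 40766) (nat_lit 10632301) (nat_lit 0) (nat_lit 0),Row.mk (nat_lit 21672) (nat_lit 38522) (nat_lit 18932203) (nat_lit 40579) (nat_lit 6563098) (nat_lit 0) (nat_lit 0),Row.mk (nat_lit 21840) (nat_lit 38335) (nat_lit 30362254) (nat_lit 40392) (nat_lit 1480762) (nat_lit 0) (nat_lit 0),Row.mk (nat_lit 22008) (nat_lit 31603) (nat_lit 6078706) (nat_lit 38148) (nat_lit 33692452) (nat_lit 0) (nat_lit 0),Row.mk (nat_lit 22176) (nat_lit 31416) (nat_lit 15980765) (nat_lit 37961) (nat_lit 33692452) (nat_lit 0) (nat_lit 0),Row.mk (nat_lit 22344) (nat_lit 31229) (nat_lit 28348198) (nat_lit 37774) (nat_lit 33692452) (nat_lit 0) (nat_lit 0),Row.mk (nat_lit 22512) (nat_lit 31042) (nat_lit 43794824) (nat_lit 37587) (nat_lit 33692452) (nat_lit 0) (nat_lit 0),Row.mk (nat_lit 22680) (nat_lit 30855) (nat_lit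 63087287) (nat_lit 37400) (nat_lit 33692452) (nat_lit 0) (nat_lit 0),Row.mk (nat_lit 22848) (nat_lit 30668) (nat_lit 87183107) (nat_lit 37213) (nat_lit 33692452) (nat_lit 0) (nat_lit 0),Row.mk (nat_lit 23016) (nat_lit 30481) (nat_lit 117278206) (nat_lit 37026) (nat_lit 33692452) (nat_lit 0) (nat_lit 0),Row.mk (nat_lit 23184) (nat_lit 30294) (nat_lit 154866258) (nat_lit 36839) (nat_lit 33692452) (nat_lit 0) (nat_lit 0),Row.mk (nat_lit 23352) (nat_lit 30107) (nat_lit 201812828) (nat_lit 36652) (nat_lit 33692452) (nat_lit 0) (nat_lit 0),Row.mk (nat_lit 23520) (nat_lit 29920) (nat_lit 260447962) (nat_lit 36465) (nat_lit 33692452) (nat_lit 0) (nat_lit 0),Row.mk (nat_lit 23688) (nat_lit 29733) (nat_lit 333681830) (nat_lit 36278) (nat_lit 33692452) (nat_lit 0) (nat_lit 0),Row.mk (nat_lit 23856) (nat_lit 29546) (nat_lit 425149164) (nat_lit 36091) (nat_lit 33692452) (nat_lit 0) (nat_lit 0),Row.mk (nat_lit 24024) (nat_lit 29359) (nat_lit 539389658)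 (nat_lit 35904) (nat_lit 33692452) (nat_lit 0) (nat_lit 0),Row.mk (nat_lit 24192) (nat_lit 29172) (nat_lit 682073279) (nat_lit 35717) (nat_lit 33692452) (nat_lit 0) (nat_lit 0),Row.mk (nat_lit 24360) (nat_lit 28985) (nat_lit 860281679) (nat_lit 35530) (nat_lit 33692452) (nat_lit 0) (nat_lit 0),Row.mk (nat_lit 24528) (nat_lit 28798) (nat_lit 1082859672) (nat_lit 35343) (nat_lit 33692452) (nat_lit 0) (nat_lit 0),Row.mk (nat_lit 24696) (nat_lit 28611) (nat_lit 1360854216) (nat_lit 35156) (nat_lit 33692452) (nat_lit 0) (nat_lit 0),Row.mk (nat_lit 24864) (nat_lit 28424) (nat_lit 1708062695) (nat_lit 34969) (nat_lit 33692452) (nat_lit 0) (nat_lit 0),Row.mk (nat_lit 25032) (nat_lit 28237) (nat_lit 2141717710) (nat_lit 34782) (nat_lit 33692452) (nat_lit 0) (nat_lit 0),Row.mk (nat_lit 25200) (nat_lit 28050) (nat_lit 2683342361) (nat_lit 34595) (nat_lit 33692452) (nat_lit 0) (nat_lit 0),Row.mk (nat_lit 25368) (nat_lit 27863) (nat_lit 3359818485)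 (nat_lit 34408) (nat_lit 33692452) (nat_lit 0) (nat_lit 0),Row.mk (nat_lit 25536) (nat_lit 27676) (nat_lit 4204720844) (nat_lit 34221) (nat_lit 33692452) (nat_lit 0) (nat_lit 0),Row.mk (nat_lit 25704) (nat_lit 27489) (nat_lit 5259983508) (nat_lit 34034) (nat_lit 33692452) (nat_lit 0) (nat_lit 0),Row.mk (nat_lit 25872) (nat_lit 27302) (nat_lit 6577981119) (nat_lit 33847) (nat_lit 33692452) (nat_lit 0) (nat_lit 0),Row.mk (nat_lit 26040) (nat_lit 32912) (nat_lit 8388608) (nat_lit 62084) (nat_lit 8249432185) (nat_lit 0) (nat_lit 0),Row.mk (nat_lit 26208) (nat_lit 32912) (nat_lit 8388608) (nat_lit 62084) (nat_lit 10305430352) (nat_lit 0) (nat_lit 0),Row.mk (nat_lit 26376) (nat_lit 32912) (nat_lit 8388608) (nat_lit 62084) (nat_lit 12873322465) (nat_lit 0) (nat_lit 0),Row.mk (nat_lit 26544) (nat_lit 32912) (nat_lit 8388608) (nat_lit 62084) (nat_lit 16080557766) (nat_lit 0) (nat_lit 0),Row.mk (nat_lit 26712) (nat_lit 32912) (nat_lit 8388608)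 (nat_lit 62084) (nat_lit 20086317287) (nat_lit 0) (nat_lit 0),Row.mk (nat_lit 26880) (nat_lit 32912) (nat_lit 8388608) (nat_lit 62084) (nat_lit 25089414294) (nat_lit 0) (nat_lit 0),Row.mk (nat_lit 27048) (nat_lit 32912) (nat_lit 8388608) (nat_lit 62084) (nat_lit 31338161762) (nat_lit 0) (nat_lit 0),Row.mk (nat_lit 27216) (nat_lit 32912) (nat_lit 8388608) (nat_lit 62084) (nat_lit 39142696606) (nat_lit 0) (nat_lit 0),Row.mk (nat_lit 27384) (nat_lit 32912) (nat_lit 8388608) (nat_lit 62084) (nat_lit 48890372351) (nat_lit 0) (nat_lit 0),Row.mk (nat_lit 27552) (nat_lit 32912) (nat_lit 8388608) (nat_lit 62084) (nat_lit 61064984206) (nat_lit 0) (nat_lit 0),Row.mk (nat_lit 27720) (nat_lit 32912) (nat_lit 8388608) (nat_lit 62084) (nat_lit 76270780715) (nat_lit 0) (nat_lit 0),Row.mk (nat_lit 27888) (nat_lit 32912) (nat_lit 8388608) (nat_lit 62084) (nat_lit 95262453733) (nat_lit 0) (nat_lit 0),Row.mk (nat_lit 28056) (nat_lit 32912) (nat_lit 8388608)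 (nat_lit 62084) (nat_lit 118982595181) (nat_lit 0) (nat_lit 0),Row.mk (nat_lit 28224) (nat_lit 32912) (nat_lit 8388608) (nat_lit 62084) (nat_lit 148608479629) (nat_lit 0) (nat_lit 0),Row.mk (nat_lit 28392) (nat_lit 32912) (nat_lit 8388608) (nat_lit 62084) (nat_lit 185610494615) (nat_lit 0) (nat_lit 0),Row.mk (nat_lit 28560) (nat_lit 32912) (nat_lit 8388608) (nat_lit 62084) (nat_lit 231825118704) (nat_lit 0) (nat_lit 0),Row.mk (nat_lit 28728) (nat_lit 32912) (nat_lit 8388608) (nat_lit 62084) (nat_lit 289546069319) (nat_lit 0) (nat_lit 0),Row.mk (nat_lit 28896) (nat_lit 32912) (nat_lit 8388608) (nat_lit 62084) (nat_lit 361638144187) (nat_lit 0) (nat_lit 0),Row.mk (nat_lit 29064) (nat_lit 32912) (nat_lit 8388608) (nat_lit 62084) (nat_lit 451679406563) (nat_lit 0) (nat_lit 0),Row.mk (nat_lit 29232) (nat_lit 32912) (nat_lit 8388608) (nat_lit 62084) (nat_lit 564138771133) (nat_lit 0) (nat_lit 0),Row.mk (nat_lit 29400) (nat_lit 32912) (nat_lit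 8388608) (nat_lit 62084) (nat_lit 704597804532) (nat_lit 0) (nat_lit 0),Row.mk (nat_lit 29568) (nat_lit 32912) (nat_lit 8388608) (nat_lit 62084) (nat_lit 880027748841) (nat_lit 0) (nat_lit 0),Row.mk (nat_lit 29736) (nat_lit 32912) (nat_lit 8388608) (nat_lit 62084) (nat_lit 1099135517246) (nat_lit 0) (nat_lit 0),Row.mk (nat_lit 29904) (nat_lit 32912) (nat_lit 8388608) (nat_lit 62084) (nat_lit 1372795834270) (nat_lit 0) (nat_lit 0),Row.mk (nat_lit 30072) (nat_lit 32912) (nat_lit 8388608) (nat_lit 62084) (nat_lit 1714590968505) (nat_lit 0) (nat_lit 0),Row.mk (nat_lit 30240) (nat_lit 32912) (nat_lit 8388608) (nat_lit 62084) (nat_lit 2141484845766) (nat_lit 0) (nat_lit 0),Row.mk (nat_lit 30408) (nat_lit 32912) (nat_lit 8388608) (nat_lit 62084) (nat_lit 2674665000160) (nat_lit 0) (nat_lit 0),Row.mk (nat_lit 30576) (nat_lit 32912) (nat_lit 8388608) (nat_lit 62084) (nat_lit 3340594150663) (nat_lit 0) (nat_lit 0),Row.mk (nat_lit 30744) (nat_lit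 32912) (nat_lit 8388608) (nat_lit 62084) (nat_lit 4172323594897) (nat_lit 0) (nat_lit 0),Row.mk (nat_lit 30912) (nat_lit 32912) (nat_lit 8388608) (nat_lit 62084) (nat_lit 5211133606266) (nat_lit 0) (nat_lit 0)],
[Row.mk (nat_lit 20664) (nat_lit 43197) (nat_lit 2553699) (nat_lit 44319) (nat_lit 4162689) (nat_lit 0) (nat_lit 0),Row.mk (nat_lit 20832) (nat_lit 43010) (nat_lit 7495049) (nat_lit 44132) (nat_lit 893558) (nat_lit 0) (nat_lit 0),Row.mk (nat_lit 21000) (nat_lit 41327) (nat_lit 3983619) (nat_lit 42823) (nat_lit 6493549) (nat_lit 0) (nat_lit 0),Row.mk (nat_lit 21168) (nat_lit 41140) (nat_lit 10352961) (nat_lit 42636) (nat_lit 2732769) (nat_lit 0) (nat_lit 0),Row.mk (nat_lit 21336) (nat_lit 38896) (nat_lit 2453430) (nat_lit 40953) (nat_lit 13890332) (nat_lit 0) (nat_lit 0),Row.mk (nat_lit 21504) (nat_lit 38709) (nat_lit 9780664) (nat_lit 40766) (nat_lit 10632301) (nat_lit 0) (nat_lit 0),Row.mk (nat_lit 21672) (nat_lit 38522)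 (nat_lit 18932203) (nat_lit 40579) (nat_lit 6563098) (nat_lit 0) (nat_lit 0),Row.mk (nat_lit 21840) (nat_lit 38335) (nat_lit 30362254) (nat_lit 40392) (nat_lit 1480762) (nat_lit 0) (nat_lit 0),Row.mk (nat_lit 22008) (nat_lit 31603) (nat_lit 6078706) (nat_lit 38148) (nat_lit 33692452) (nat_lit 0) (nat_lit 0),Row.mk (nat_lit 22176) (nat_lit 31416) (nat_lit 15980765) (nat_lit 37961) (nat_lit 33692452) (nat_lit 0) (nat_lit 0),Row.mk (nat_lit 22344) (nat_lit 31229) (nat_lit 28348198) (nat_lit 37774) (nat_lit 33692452) (nat_lit 0) (nat_lit 0),Row.mk (nat_lit 22512) (nat_lit 31042) (nat_lit 43794824) (nat_lit 37587) (nat_lit 33692452) (nat_lit 0) (nat_lit 0),Row.mk (nat_lit 22680) (nat_lit 30855) (nat_lit 63087287) (nat_lit 37400) (nat_lit 33692452) (nat_lit 0) (nat_lit 0),Row.mk (nat_lit 22848) (nat_lit 30668) (nat_lit 87183107) (nat_lit 37213) (nat_lit 33692452) (nat_lit 0) (nat_lit 0),Row.mk (nat_lit 23016) (nat_lit 30481) (nat_lit 117278206)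 (nat_lit 37026) (nat_lit 33692452) (nat_lit 0) (nat_lit 0),Row.mk (nat_lit 23184) (nat_lit 30294) (nat_lit 154866258) (nat_lit 36839) (nat_lit 33692452) (nat_lit 0) (nat_lit 0),Row.mk (nat_lit 23352) (nat_lit 30107) (nat_lit 201812828) (nat_lit 36652) (nat_lit 33692452) (nat_lit 0) (nat_lit 0),Row.mk (nat_lit 23520) (nat_lit 29920) (nat_lit 260447962) (nat_lit 36465) (nat_lit 33692452) (nat_lit 0) (nat_lit 0),Row.mk (nat_lit 23688) (nat_lit 29733) (nat_lit 333681830) (nat_lit 36278) (nat_lit 33692452) (nat_lit 0) (nat_lit 0),Row.mk (nat_lit 23856) (nat_lit 29546) (nat_lit 425149164) (nat_lit 36091) (nat_lit 33692452) (nat_lit 0) (nat_lit 0),Row.mk (nat_lit 24024) (nat_lit 29359) (nat_lit 539389658) (nat_lit 35904) (nat_lit 33692452) (nat_lit 0) (nat_lit 0),Row.mk (nat_lit 24192) (nat_lit 29172) (nat_lit 682073279) (nat_lit 35717) (nat_lit 33692452) (nat_lit 0) (nat_lit 0),Row.mk (nat_lit 24360) (nat_lit 28985) (nat_lit 860281679)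 (nat_lit 35530) (nat_lit 33692452) (nat_lit 0) (nat_lit 0),Row.mk (nat_lit 24528) (nat_lit 28798) (nat_lit 1082859672) (nat_lit 35343) (nat_lit 33692452) (nat_lit 0) (nat_lit 0),Row.mk (nat_lit 24696) (nat_lit 28611) (nat_lit 1360854216) (nat_lit 35156) (nat_lit 33692452) (nat_lit 0) (nat_lit 0),Row.mk (nat_lit 24864) (nat_lit 28424) (nat_lit 1708062695) (nat_lit 34969) (nat_lit 33692452) (nat_lit 0) (nat_lit 0),Row.mk (nat_lit 25032) (nat_lit 28237) (nat_lit 2141717710) (nat_lit 34782) (nat_lit 33692452) (nat_lit 0) (nat_lit 0),Row.mk (nat_lit 25200) (nat_lit 28050) (nat_lit 2683342361) (nat_lit 34595) (nat_lit 33692452) (nat_lit 0) (nat_lit 0),Row.mk (nat_lit 25368) (nat_lit 27863) (nat_lit 3359818485) (nat_lit 34408) (nat_lit 33692452) (nat_lit 0) (nat_lit 0),Row.mk (nat_lit 25536) (nat_lit 27676) (nat_lit 4204720844) (nat_lit 34221) (nat_lit 33692452) (nat_lit 0) (nat_lit 0),Row.mk (nat_lit 25704) (nat_lit 27489) (nat_lit 5259983508)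 (nat_lit 34034) (nat_lit 33692452) (nat_lit 0) (nat_lit 0),Row.mk (nat_lit 25872) (nat_lit 27302) (nat_lit 6577981119) (nat_lit 33847) (nat_lit 33692452) (nat_lit 0) (nat_lit 0),Row.mk (nat_lit 26040) (nat_lit 32912) (nat_lit 8388608) (nat_lit 62084) (nat_lit 8249432185) (nat_lit 0) (nat_lit 0),Row.mk (nat_lit 26208) (nat_lit 32912) (nat_lit 8388608) (nat_lit 62084) (nat_lit 10305430352) (nat_lit 0) (nat_lit 0),Row.mk (nat_lit 26376) (nat_lit 32912) (nat_lit 8388608) (nat_lit 62084) (nat_lit 12873322465) (nat_lit 0) (nat_lit 0),Row.mk (nat_lit 26544) (nat_lit 32912) (nat_lit 8388608) (nat_lit 62084) (nat_lit 16080557766) (nat_lit 0) (nat_lit 0),Row.mk (nat_lit 26712) (nat_lit 32912) (nat_lit 8388608) (nat_lit 62084) (nat_lit 20086317287) (nat_lit 0) (nat_lit 0),Row.mk (nat_lit 26880) (nat_lit 32912) (nat_lit 8388608) (nat_lit 62084) (nat_lit 25089414294) (nat_lit 0) (nat_lit 0),Row.mk (nat_lit 27048) (nat_lit 32912) (nat_lit 8388608)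 (nat_lit 62084) (nat_lit 31338161762) (nat_lit 0) (nat_lit 0),Row.mk (nat_lit 27216) (nat_lit 32912) (nat_lit 8388608) (nat_lit 62084) (nat_lit 39142696606) (nat_lit 0) (nat_lit 0),Row.mk (nat_lit 27384) (nat_lit 32912) (nat_lit 8388608) (nat_lit 62084) (nat_lit 48890372351) (nat_lit 0) (nat_lit 0),Row.mk (nat_lit 27552) (nat_lit 32912) (nat_lit 8388608) (nat_lit 62084) (nat_lit 61064984206) (nat_lit 0) (nat_lit 0),Row.mk (nat_lit 27720) (nat_lit 32912) (nat_lit 8388608) (nat_lit 62084) (nat_lit 76270780715) (nat_lit 0) (nat_lit 0),Row.mk (nat_lit 27888) (nat_lit 32912) (nat_lit 8388608) (nat_lit 62084) (nat_lit 95262453733) (nat_lit 0) (nat_lit 0),Row.mk (nat_lit 28056) (nat_lit 32912) (nat_lit 8388608) (nat_lit 62084) (nat_lit 118982595181) (nat_lit 0) (nat_lit 0),Row.mk (nat_lit 28224) (nat_lit 32912) (nat_lit 8388608) (nat_lit 62084) (nat_lit 148608479629) (nat_lit 0) (nat_lit 0),Row.mk (nat_lit 28392) (nat_lit 32912) (nat_lit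 8388608) (nat_lit 62084) (nat_lit 185610494615) (nat_lit 0) (nat_lit 0),Row.mk (nat_lit 28560) (nat_lit 32912) (nat_lit 8388608) (nat_lit 62084) (nat_lit 231825118704) (nat_lit 0) (nat_lit 0),Row.mk (nat_lit 28728) (nat_lit 32912) (nat_lit 8388608) (nat_lit 62084) (nat_lit 289546069319) (nat_lit 0) (nat_lit 0),Row.mk (nat_lit 28896) (nat_lit 32912) (nat_lit 8388608) (nat_lit 62084) (nat_lit 361638144187) (nat_lit 0) (nat_lit 0),Row.mk (nat_lit 29064) (nat_lit 32912) (nat_lit 8388608) (nat_lit 62084) (nat_lit 451679406563) (nat_lit 0) (nat_lit 0),Row.mk (nat_lit 29232) (nat_lit 32912) (nat_lit 8388608) (nat_lit 62084) (nat_lit 564138771133) (nat_lit 0) (nat_lit 0),Row.mk (nat_lit 29400) (nat_lit 32912) (nat_lit 8388608) (nat_lit 62084) (nat_lit 704597804532) (nat_lit 0) (nat_lit 0),Row.mk (nat_lit 29568) (nat_lit 32912) (nat_lit 8388608) (nat_lit 62084) (nat_lit 880027748841) (nat_lit 0) (nat_lit 0),Row.mk (nat_lit 29736) (nat_lit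 32912) (nat_lit 8388608) (nat_lit 62084) (nat_lit 1099135517246) (nat_lit 0) (nat_lit 0),Row.mk (nat_lit 29904) (nat_lit 32912) (nat_lit 8388608) (nat_lit 62084) (nat_lit 1372795834270) (nat_lit 0) (nat_lit 0),Row.mk (nat_lit 30072) (nat_lit 32912) (nat_lit 8388608) (nat_lit 62084) (nat_lit 1714590968505) (nat_lit 0) (nat_lit 0),Row.mk (nat_lit 30240) (nat_lit 32912) (nat_lit 8388608) (nat_lit 62084) (nat_lit 2141484845766) (nat_lit 0) (nat_lit 0),Row.mk (nat_lit 30408) (nat_lit 32912) (nat_lit 8388608) (nat_lit 62084) (nat_lit 2674665000160) (nat_lit 0) (nat_lit 0),Row.mk (nat_lit 30576) (nat_lit 32912) (nat_lit 8388608) (nat_lit 62084) (nat_lit 3340594150663) (nat_lit 0) (nat_lit 0),Row.mk (nat_lit 30744) (nat_lit 32912) (nat_lit 8388608) (nat_lit 62084) (nat_lit 4172323594897) (nat_lit 0) (nat_lit 0),Row.mk (nat_lit 30912) (nat_lit 32912) (nat_lit 8388608) (nat_lit 62084) (nat_lit 5211133606266) (nat_lit 0) (nat_lit 0)],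
[Row.mk (nat_lit 21000) (nat_lit 41327) (nat_lit 3983619) (nat_lit 42823) (nat_lit 6493549) (nat_lit 0) (nat_lit 0),Row.mk (nat_lit 21168) (nat_lit 41140) (nat_lit 10352961) (nat_lit 42636) (nat_lit 2732769) (nat_lit 0) (nat_lit 0),Row.mk (nat_lit 21336) (nat_lit 38896) (nat_lit 2453430) (nat_lit 40953) (nat_lit 13890332) (nat_lit 0) (nat_lit 0),Row.mk (nat_lit 21504) (nat_lit 38709) (nat_lit 9780664) (nat_lit 40766) (nat_lit 10632301) (nat_lit 0) (nat_lit 0),Row.mk (nat_lit 21672) (nat_lit 38522) (nat_lit 18932203) (nat_lit 40579) (nat_lit 6563098) (nat_lit 0) (nat_lit 0),Row.mk (nat_lit 21840) (nat_lit 38335) (nat_lit 30362254) (nat_lit 40392) (nat_lit 1480762) (nat_lit 0) (nat_lit 0),Row.mk (nat_lit 22008) (nat_lit 31603) (nat_lit 6078706) (nat_lit 38148) (nat_lit 33692452) (nat_lit 0) (nat_lit 0),Row.mk (nat_lit 22176) (nat_lit 31416) (nat_lit 15980765) (nat_lit 37961) (nat_lit 33692452) (nat_lit 0) (nat_lit 0),Row.mk (nat_lit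 22344) (nat_lit 31229) (nat_lit 28348198) (nat_lit 37774) (nat_lit 33692452) (nat_lit 0) (nat_lit 0),Row.mk (nat_lit 22512) (nat_lit 31042) (nat_lit 43794824) (nat_lit 37587) (nat_lit 33692452) (nat_lit 0) (nat_lit 0),Row.mk (nat_lit 22680) (nat_lit 30855) (nat_lit 63087287) (nat_lit 37400) (nat_lit 33692452) (nat_lit 0) (nat_lit 0),Row.mk (nat_lit 22848) (nat_lit 30668) (nat_lit 87183107) (nat_lit 37213) (nat_lit 33692452) (nat_lit 0) (nat_lit 0),Row.mk (nat_lit 23016) (nat_lit 30481) (nat_lit 117278206) (nat_lit 37026) (nat_lit 33692452) (nat_lit 0) (nat_lit 0),Row.mk (nat_lit 23184) (nat_lit 30294) (nat_lit 154866258) (nat_lit 36839) (nat_lit 33692452) (nat_lit 0) (nat_lit 0),Row.mk (nat_lit 23352) (nat_lit 30107) (nat_lit 201812828) (nat_lit 36652) (nat_lit 33692452) (nat_lit 0) (nat_lit 0),Row.mk (nat_lit 23520) (nat_lit 29920) (nat_lit 260447962) (nat_lit 36465) (nat_lit 33692452) (nat_lit 0) (nat_lit 0),Row.mk (nat_lit 23688)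 (nat_lit 29733) (nat_lit 333681830) (nat_lit 36278) (nat_lit 33692452) (nat_lit 0) (nat_lit 0),Row.mk (nat_lit 23856) (nat_lit 29546) (nat_lit 425149164) (nat_lit 36091) (nat_lit 33692452) (nat_lit 0) (nat_lit 0),Row.mk (nat_lit 24024) (nat_lit 29359) (nat_lit 539389658) (nat_lit 35904) (nat_lit 33692452) (nat_lit 0) (nat_lit 0),Row.mk (nat_lit 24192) (nat_lit 29172) (nat_lit 682073279) (nat_lit 35717) (nat_lit 33692452) (nat_lit 0) (nat_lit 0),Row.mk (nat_lit 24360) (nat_lit 28985) (nat_lit 860281679) (nat_lit 35530) (nat_lit 33692452) (nat_lit 0) (nat_lit 0),Row.mk (nat_lit 24528) (nat_lit 28798) (nat_lit 1082859672) (nat_lit 35343) (nat_lit 33692452) (nat_lit 0) (nat_lit 0),Row.mk (nat_lit 24696) (nat_lit 28611) (nat_lit 1360854216) (nat_lit 35156) (nat_lit 33692452) (nat_lit 0) (nat_lit 0),Row.mk (nat_lit 24864) (nat_lit 28424) (nat_lit 1708062695) (nat_lit 34969) (nat_lit 33692452) (nat_lit 0) (nat_lit 0),Row.mk (nat_lit 25032)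 (nat_lit 28237) (nat_lit 2141717710) (nat_lit 34782) (nat_lit 33692452) (nat_lit 0) (nat_lit 0),Row.mk (nat_lit 25200) (nat_lit 28050) (nat_lit 2683342361) (nat_lit 34595) (nat_lit 33692452) (nat_lit 0) (nat_lit 0),Row.mk (nat_lit 25368) (nat_lit 27863) (nat_lit 3359818485) (nat_lit 34408) (nat_lit 33692452) (nat_lit 0) (nat_lit 0),Row.mk (nat_lit 25536) (nat_lit 27676) (nat_lit 4204720844) (nat_lit 34221) (nat_lit 33692452) (nat_lit 0) (nat_lit 0),Row.mk (nat_lit 25704) (nat_lit 27489) (nat_lit 5259983508) (nat_lit 34034) (nat_lit 33692452) (nat_lit 0) (nat_lit 0),Row.mk (nat_lit 25872) (nat_lit 27302) (nat_lit 6577981119) (nat_lit 33847) (nat_lit 33692452) (nat_lit 0) (nat_lit 0),Row.mk (nat_lit 26040) (nat_lit 32912) (nat_lit 8388608) (nat_lit 62084) (nat_lit 8249432185) (nat_lit 0) (nat_lit 0),Row.mk (nat_lit 26208) (nat_lit 32912) (nat_lit 8388608) (nat_lit 62084) (nat_lit 10305430352) (nat_lit 0) (nat_lit 0),Row.mk (nat_lit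 26376) (nat_lit 32912) (nat_lit 8388608) (nat_lit 62084) (nat_lit 12873322465) (nat_lit 0) (nat_lit 0),Row.mk (nat_lit 26544) (nat_lit 32912) (nat_lit 8388608) (nat_lit 62084) (nat_lit 16080557766) (nat_lit 0) (nat_lit 0),Row.mk (nat_lit 26712) (nat_lit 32912) (nat_lit 8388608) (nat_lit 62084) (nat_lit 20086317287) (nat_lit 0) (nat_lit 0),Row.mk (nat_lit 26880) (nat_lit 32912) (nat_lit 8388608) (nat_lit 62084) (nat_lit 25089414294) (nat_lit 0) (nat_lit 0),Row.mk (nat_lit 27048) (nat_lit 32912) (nat_lit 8388608) (nat_lit 62084) (nat_lit 31338161762) (nat_lit 0) (nat_lit 0),Row.mk (nat_lit 27216) (nat_lit 32912) (nat_lit 8388608) (nat_lit 62084) (nat_lit 39142696606) (nat_lit 0) (nat_lit 0),Row.mk (nat_lit 27384) (nat_lit 32912) (nat_lit 8388608) (nat_lit 62084) (nat_lit 48890372351) (nat_lit 0) (nat_lit 0),Row.mk (nat_lit 27552) (nat_lit 32912) (nat_lit 8388608) (nat_lit 62084) (nat_lit 61064984206) (nat_lit 0) (nat_lit 0),Row.mk (nat_lit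 27720) (nat_lit 32912) (nat_lit 8388608) (nat_lit 62084) (nat_lit 76270780715) (nat_lit 0) (nat_lit 0),Row.mk (nat_lit 27888) (nat_lit 32912) (nat_lit 8388608) (nat_lit 62084) (nat_lit 95262453733) (nat_lit 0) (nat_lit 0),Row.mk (nat_lit 28056) (nat_lit 32912) (nat_lit 8388608) (nat_lit 62084) (nat_lit 118982595181) (nat_lit 0) (nat_lit 0),Row.mk (nat_lit 28224) (nat_lit 32912) (nat_lit 8388608) (nat_lit 62084) (nat_lit 148608479629) (nat_lit 0) (nat_lit 0),Row.mk (nat_lit 28392) (nat_lit 32912) (nat_lit 8388608) (nat_lit 62084) (nat_lit 185610494615) (nat_lit 0) (nat_lit 0),Row.mk (nat_lit 28560) (nat_lit 32912) (nat_lit 8388608) (nat_lit 62084) (nat_lit 231825118704) (nat_lit 0) (nat_lit 0),Row.mk (nat_lit 28728) (nat_lit 32912) (nat_lit 8388608) (nat_lit 62084) (nat_lit 289546069319) (nat_lit 0) (nat_lit 0),Row.mk (nat_lit 28896) (nat_lit 32912) (nat_lit 8388608) (nat_lit 62084) (nat_lit 361638144187) (nat_lit 0) (nat_lit 0),Row.mk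 (nat_lit 29064) (nat_lit 32912) (nat_lit 8388608) (nat_lit 62084) (nat_lit 451679406563) (nat_lit 0) (nat_lit 0),Row.mk (nat_lit 29232) (nat_lit 32912) (nat_lit 8388608) (nat_lit 62084) (nat_lit 564138771133) (nat_lit 0) (nat_lit 0),Row.mk (nat_lit 29400) (nat_lit 32912) (nat_lit 8388608) (nat_lit 62084) (nat_lit 704597804532) (nat_lit 0) (nat_lit 0),Row.mk (nat_lit 29568) (nat_lit 32912) (nat_lit 8388608) (nat_lit 62084) (nat_lit 880027748841) (nat_lit 0) (nat_lit 0),Row.mk (nat_lit 29736) (nat_lit 32912) (nat_lit 8388608) (nat_lit 62084) (nat_lit 1099135517246) (nat_lit 0) (nat_lit 0),Row.mk (nat_lit 29904) (nat_lit 32912) (nat_lit 8388608) (nat_lit 62084) (nat_lit 1372795834270) (nat_lit 0) (nat_lit 0),Row.mk (nat_lit 30072) (nat_lit 32912) (nat_lit 8388608) (nat_lit 62084) (nat_lit 1714590968505) (nat_lit 0) (nat_lit 0),Row.mk (nat_lit 30240) (nat_lit 32912) (nat_lit 8388608) (nat_lit 62084) (nat_lit 2141484845766) (nat_lit 0)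 (nat_lit 0),Row.mk (nat_lit 30408) (nat_lit 32912) (nat_lit 8388608) (nat_lit 62084) (nat_lit 2674665000160) (nat_lit 0) (nat_lit 0),Row.mk (nat_lit 30576) (nat_lit 32912) (nat_lit 8388608) (nat_lit 62084) (nat_lit 3340594150663) (nat_lit 0) (nat_lit 0),Row.mk (nat_lit 30744) (nat_lit 32912) (nat_lit 8388608) (nat_lit 62084) (nat_lit 4172323594897) (nat_lit 0) (nat_lit 0),Row.mk (nat_lit 30912) (nat_lit 32912) (nat_lit 8388608) (nat_lit 62084) (nat_lit 5211133606266) (nat_lit 0) (nat_lit 0),Row.mk (nat_lit 31080) (nat_lit 32912) (nat_lit 8388608) (nat_lit 62084) (nat_lit 6508582250415) (nat_lit 0) (nat_lit 0)],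
[Row.mk (nat_lit 21336) (nat_lit 38896) (nat_lit 2453430) (nat_lit 40953) (nat_lit 13890332) (nat_lit 0) (nat_lit 0),Row.mk (nat_lit 21504) (nat_lit 38709) (nat_lit 9780664) (nat_lit 40766) (nat_lit 10632301) (nat_lit 0) (nat_lit 0),Row.mk (nat_lit 21672) (nat_lit 38522) (nat_lit 18932203) (nat_lit 40579) (nat_lit 6563098) (nat_lit 0) (nat_lit 0),Row.mk (nat_lit 21840) (nat_lit 38335) (nat_lit 30362254) (nat_lit 40392) (nat_lit 1480762) (nat_lit 0) (nat_lit 0),Row.mk (nat_lit 22008) (nat_lit 31603) (nat_lit 6078706) (nat_lit 38148) (nat_lit 33692452) (nat_lit 0) (nat_lit 0),Row.mk (nat_lit 22176) (nat_lit 31416) (nat_lit 15980765) (nat_lit 37961) (nat_lit 33692452) (nat_lit 0) (nat_lit 0),Row.mk (nat_lit 22344) (nat_lit 31229) (nat_lit 28348198) (nat_lit 37774) (nat_lit 33692452) (nat_lit 0) (nat_lit 0),Row.mk (nat_lit 22512) (nat_lit 31042) (nat_lit 43794824) (nat_lit 37587) (nat_lit 33692452) (nat_lit 0) (nat_lit 0),Row.mk (nat_lit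 22680) (nat_lit 30855) (nat_lit 63087287) (nat_lit 37400) (nat_lit 33692452) (nat_lit 0) (nat_lit 0),Row.mk (nat_lit 22848) (nat_lit 30668) (nat_lit 87183107) (nat_lit 37213) (nat_lit 33692452) (nat_lit 0) (nat_lit 0),Row.mk (nat_lit 23016) (nat_lit 30481) (nat_lit 117278206) (nat_lit 37026) (nat_lit 33692452) (nat_lit 0) (nat_lit 0),Row.mk (nat_lit 23184) (nat_lit 30294) (nat_lit 154866258) (nat_lit 36839) (nat_lit 33692452) (nat_lit 0) (nat_lit 0),Row.mk (nat_lit 23352) (nat_lit 30107) (nat_lit 201812828) (nat_lit 36652) (nat_lit 33692452) (nat_lit 0) (nat_lit 0),Row.mk (nat_lit 23520) (nat_lit 29920) (nat_lit 260447962) (nat_lit 36465) (nat_lit 33692452) (nat_lit 0) (nat_lit 0),Row.mk (nat_lit 23688) (nat_lit 29733) (nat_lit 333681830) (nat_lit 36278) (nat_lit 33692452) (nat_lit 0) (nat_lit 0),Row.mk (nat_lit 23856) (nat_lit 29546) (nat_lit 425149164) (nat_lit 36091) (nat_lit 33692452) (nat_lit 0) (nat_lit 0),Row.mk (nat_lit 24024)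 (nat_lit 29359) (nat_lit 539389658) (nat_lit 35904) (nat_lit 33692452) (nat_lit 0) (nat_lit 0),Row.mk (nat_lit 24192) (nat_lit 29172) (nat_lit 682073279) (nat_lit 35717) (nat_lit 33692452) (nat_lit 0) (nat_lit 0),Row.mk (nat_lit 24360) (nat_lit 28985) (nat_lit 860281679) (nat_lit 35530) (nat_lit 33692452) (nat_lit 0) (nat_lit 0),Row.mk (nat_lit 24528) (nat_lit 28798) (nat_lit 1082859672) (nat_lit 35343) (nat_lit 33692452) (nat_lit 0) (nat_lit 0),Row.mk (nat_lit 24696) (nat_lit 28611) (nat_lit 1360854216) (nat_lit 35156) (nat_lit 33692452) (nat_lit 0) (nat_lit 0),Row.mk (nat_lit 24864) (nat_lit 28424) (nat_lit 1708062695) (nat_lit 34969) (nat_lit 33692452) (nat_lit 0) (nat_lit 0),Row.mk (nat_lit 25032) (nat_lit 28237) (nat_lit 2141717710) (nat_lit 34782) (nat_lit 33692452) (nat_lit 0) (nat_lit 0),Row.mk (nat_lit 25200) (nat_lit 28050) (nat_lit 2683342361) (nat_lit 34595) (nat_lit 33692452) (nat_lit 0) (nat_lit 0),Row.mk (nat_lit 25368)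 (nat_lit 27863) (nat_lit 3359818485) (nat_lit 34408) (nat_lit 33692452) (nat_lit 0) (nat_lit 0),Row.mk (nat_lit 25536) (nat_lit 27676) (nat_lit 4204720844) (nat_lit 34221) (nat_lit 33692452) (nat_lit 0) (nat_lit 0),Row.mk (nat_lit 25704) (nat_lit 27489) (nat_lit 5259983508) (nat_lit 34034) (nat_lit 33692452) (nat_lit 0) (nat_lit 0),Row.mk (nat_lit 25872) (nat_lit 27302) (nat_lit 6577981119) (nat_lit 33847) (nat_lit 33692452) (nat_lit 0) (nat_lit 0),Row.mk (nat_lit 26040) (nat_lit 32912) (nat_lit 8388608) (nat_lit 62084) (nat_lit 8249432185) (nat_lit 0) (nat_lit 0),Row.mk (nat_lit 26208) (nat_lit 32912) (nat_lit 8388608) (nat_lit 62084) (nat_lit 10305430352) (nat_lit 0) (nat_lit 0),Row.mk (nat_lit 26376) (nat_lit 32912) (nat_lit 8388608) (nat_lit 62084) (nat_lit 12873322465) (nat_lit 0) (nat_lit 0),Row.mk (nat_lit 26544) (nat_lit 32912) (nat_lit 8388608) (nat_lit 62084) (nat_lit 16080557766) (nat_lit 0) (nat_lit 0),Row.mk (nat_lit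 26712) (nat_lit 32912) (nat_lit 8388608) (nat_lit 62084) (nat_lit 20086317287) (nat_lit 0) (nat_lit 0),Row.mk (nat_lit 26880) (nat_lit 32912) (nat_lit 8388608) (nat_lit 62084) (nat_lit 25089414294) (nat_lit 0) (nat_lit 0),Row.mk (nat_lit 27048) (nat_lit 32912) (nat_lit 8388608) (nat_lit 62084) (nat_lit 31338161762) (nat_lit 0) (nat_lit 0),Row.mk (nat_lit 27216) (nat_lit 32912) (nat_lit 8388608) (nat_lit 62084) (nat_lit 39142696606) (nat_lit 0) (nat_lit 0),Row.mk (nat_lit 27384) (nat_lit 32912) (nat_lit 8388608) (nat_lit 62084) (nat_lit 48890372351) (nat_lit 0) (nat_lit 0),Row.mk (nat_lit 27552) (nat_lit 32912) (nat_lit 8388608) (nat_lit 62084) (nat_lit 61064984206) (nat_lit 0) (nat_lit 0),Row.mk (nat_lit 27720) (nat_lit 32912) (nat_lit 8388608) (nat_lit 62084) (nat_lit 76270780715) (nat_lit 0) (nat_lit 0),Row.mk (nat_lit 27888) (nat_lit 32912) (nat_lit 8388608) (nat_lit 62084) (nat_lit 95262453733) (nat_lit 0) (nat_lit 0),Row.mk (nat_lit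 28056) (nat_lit 32912) (nat_lit 8388608) (nat_lit 62084) (nat_lit 118982595181) (nat_lit 0) (nat_lit 0),Row.mk (nat_lit 28224) (nat_lit 32912) (nat_lit 8388608) (nat_lit 62084) (nat_lit 148608479629) (nat_lit 0) (nat_lit 0),Row.mk (nat_lit 28392) (nat_lit 32912) (nat_lit 8388608) (nat_lit 62084) (nat_lit 185610494615) (nat_lit 0) (nat_lit 0),Row.mk (nat_lit 28560) (nat_lit 32912) (nat_lit 8388608) (nat_lit 62084) (nat_lit 231825118704) (nat_lit 0) (nat_lit 0),Row.mk (nat_lit 28728) (nat_lit 32912) (nat_lit 8388608) (nat_lit 62084) (nat_lit 289546069319) (nat_lit 0) (nat_lit 0),Row.mk (nat_lit 28896) (nat_lit 32912) (nat_lit 8388608) (nat_lit 62084) (nat_lit 361638144187) (nat_lit 0) (nat_lit 0),Row.mk (nat_lit 29064) (nat_lit 32912) (nat_lit 8388608) (nat_lit 62084) (nat_lit 451679406563) (nat_lit 0) (nat_lit 0),Row.mk (nat_lit 29232) (nat_lit 32912) (nat_lit 8388608) (nat_lit 62084) (nat_lit 564138771133) (nat_lit 0) (nat_lit 0),Row.mk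 (nat_lit 29400) (nat_lit 32912) (nat_lit 8388608) (nat_lit 62084) (nat_lit 704597804532) (nat_lit 0) (nat_lit 0),Row.mk (nat_lit 29568) (nat_lit 32912) (nat_lit 8388608) (nat_lit 62084) (nat_lit 880027748841) (nat_lit 0) (nat_lit 0),Row.mk (nat_lit 29736) (nat_lit 32912) (nat_lit 8388608) (nat_lit 62084) (nat_lit 1099135517246) (nat_lit 0) (nat_lit 0),Row.mk (nat_lit 29904) (nat_lit 32912) (nat_lit 8388608) (nat_lit 62084) (nat_lit 1372795834270) (nat_lit 0) (nat_lit 0),Row.mk (nat_lit 30072) (nat_lit 32912) (nat_lit 8388608) (nat_lit 62084) (nat_lit 1714590968505) (nat_lit 0) (nat_lit 0),Row.mk (nat_lit 30240) (nat_lit 32912) (nat_lit 8388608) (nat_lit 62084) (nat_lit 2141484845766) (nat_lit 0) (nat_lit 0),Row.mk (nat_lit 30408) (nat_lit 32912) (nat_lit 8388608) (nat_lit 62084) (nat_lit 2674665000160) (nat_lit 0) (nat_lit 0),Row.mk (nat_lit 30576) (nat_lit 32912) (nat_lit 8388608) (nat_lit 62084) (nat_lit 3340594150663) (nat_lit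 0) (nat_lit 0),Row.mk (nat_lit 30744) (nat_lit 32912) (nat_lit 8388608) (nat_lit 62084) (nat_lit 4172323594897) (nat_lit 0) (nat_lit 0),Row.mk (nat_lit 30912) (nat_lit 32912) (nat_lit 8388608) (nat_lit 62084) (nat_lit 5211133606266) (nat_lit 0) (nat_lit 0),Row.mk (nat_lit 31080) (nat_lit 32912) (nat_lit 8388608) (nat_lit 62084) (nat_lit 6508582250415) (nat_lit 0) (nat_lit 0)],
[Row.mk (nat_lit 21504) (nat_lit 38709) (nat_lit 9780664) (nat_lit 40766) (nat_lit 10632301) (nat_lit 0) (nat_lit 0),Row.mk (nat_lit 21672) (nat_lit 38522) (nat_lit 18932203) (nat_lit 40579) (nat_lit 6563098) (nat_lit 0) (nat_lit 0),Row.mk (nat_lit 21840) (nat_lit 38335) (nat_lit 30362254) (nat_lit 40392) (nat_lit 1480762) (nat_lit 0) (nat_lit 0),Row.mk (nat_lit 22008) (nat_lit 31603) (nat_lit 6078706) (nat_lit 38148) (nat_lit 33692452) (nat_lit 0) (nat_lit 0),Row.mk (nat_lit 22176) (nat_lit 31416) (nat_lit 15980765) (nat_lit 37961) (nat_lit 33692452) (nat_lit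 0) (nat_lit 0),Row.mk (nat_lit 22344) (nat_lit 31229) (nat_lit 28348198) (nat_lit 37774) (nat_lit 33692452) (nat_lit 0) (nat_lit 0),Row.mk (nat_lit 22512) (nat_lit 31042) (nat_lit 43794824) (nat_lit 37587) (nat_lit 33692452) (nat_lit 0) (nat_lit 0),Row.mk (nat_lit 22680) (nat_lit 30855) (nat_lit 63087287) (nat_lit 37400) (nat_lit 33692452) (nat_lit 0) (nat_lit 0),Row.mk (nat_lit 22848) (nat_lit 30668) (nat_lit 87183107) (nat_lit 37213) (nat_lit 33692452) (nat_lit 0) (nat_lit 0),Row.mk (nat_lit 23016) (nat_lit 30481) (nat_lit 117278206) (nat_lit 37026) (nat_lit 33692452) (nat_lit 0) (nat_lit 0),Row.mk (nat_lit 23184) (nat_lit 30294) (nat_lit 154866258) (nat_lit 36839) (nat_lit 33692452) (nat_lit 0) (nat_lit 0),Row.mk (nat_lit 23352) (nat_lit 30107) (nat_lit 201812828) (nat_lit 36652) (nat_lit 33692452) (nat_lit 0) (nat_lit 0),Row.mk (nat_lit 23520) (nat_lit 29920) (nat_lit 260447962) (nat_lit 36465) (nat_lit 33692452) (nat_lit 0) (nat_lit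 0),Row.mk (nat_lit 23688) (nat_lit 29733) (nat_lit 333681830) (nat_lit 36278) (nat_lit 33692452) (nat_lit 0) (nat_lit 0),Row.mk (nat_lit 23856) (nat_lit 29546) (nat_lit 425149164) (nat_lit 36091) (nat_lit 33692452) (nat_lit 0) (nat_lit 0),Row.mk (nat_lit 24024) (nat_lit 29359) (nat_lit 539389658) (nat_lit 35904) (nat_lit 33692452) (nat_lit 0) (nat_lit 0),Row.mk (nat_lit 24192) (nat_lit 29172) (nat_lit 682073279) (nat_lit 35717) (nat_lit 33692452) (nat_lit 0) (nat_lit 0),Row.mk (nat_lit 24360) (nat_lit 28985) (nat_lit 860281679) (nat_lit 35530) (nat_lit 33692452) (nat_lit 0) (nat_lit 0),Row.mk (nat_lit 24528) (nat_lit 28798) (nat_lit 1082859672) (nat_lit 35343) (nat_lit 33692452) (nat_lit 0) (nat_lit 0),Row.mk (nat_lit 24696) (nat_lit 28611) (nat_lit 1360854216) (nat_lit 35156) (nat_lit 33692452) (nat_lit 0) (nat_lit 0),Row.mk (nat_lit 24864) (nat_lit 28424) (nat_lit 1708062695) (nat_lit 34969) (nat_lit 33692452) (nat_lit 0) (nat_lit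 0),Row.mk (nat_lit 25032) (nat_lit 28237) (nat_lit 2141717710) (nat_lit 34782) (nat_lit 33692452) (nat_lit 0) (nat_lit 0),Row.mk (nat_lit 25200) (nat_lit 28050) (nat_lit 2683342361) (nat_lit 34595) (nat_lit 33692452) (nat_lit 0) (nat_lit 0),Row.mk (nat_lit 25368) (nat_lit 27863) (nat_lit 3359818485) (nat_lit 34408) (nat_lit 33692452) (nat_lit 0) (nat_lit 0),Row.mk (nat_lit 25536) (nat_lit 27676) (nat_lit 4204720844) (nat_lit 34221) (nat_lit 33692452) (nat_lit 0) (nat_lit 0),Row.mk (nat_lit 25704) (nat_lit 27489) (nat_lit 5259983508) (nat_lit 34034) (nat_lit 33692452) (nat_lit 0) (nat_lit 0),Row.mk (nat_lit 25872) (nat_lit 27302) (nat_lit 6577981119) (nat_lit 33847) (nat_lit 33692452) (nat_lit 0) (nat_lit 0),Row.mk (nat_lit 26040) (nat_lit 32912) (nat_lit 8388608) (nat_lit 62084) (nat_lit 8249432185) (nat_lit 0) (nat_lit 0),Row.mk (nat_lit 26208) (nat_lit 32912) (nat_lit 8388608) (nat_lit 62084) (nat_lit 10305430352) (nat_lit 0) (nat_lit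 0),Row.mk (nat_lit 26376) (nat_lit 32912) (nat_lit 8388608) (nat_lit 62084) (nat_lit 12873322465) (nat_lit 0) (nat_lit 0),Row.mk (nat_lit 26544) (nat_lit 32912) (nat_lit 8388608) (nat_lit 62084) (nat_lit 16080557766) (nat_lit 0) (nat_lit 0),Row.mk (nat_lit 26712) (nat_lit 32912) (nat_lit 8388608) (nat_lit 62084) (nat_lit 20086317287) (nat_lit 0) (nat_lit 0),Row.mk (nat_lit 26880) (nat_lit 32912) (nat_lit 8388608) (nat_lit 62084) (nat_lit 25089414294) (nat_lit 0) (nat_lit 0),Row.mk (nat_lit 27048) (nat_lit 32912) (nat_lit 8388608) (nat_lit 62084) (nat_lit 31338161762) (nat_lit 0) (nat_lit 0),Row.mk (nat_lit 27216) (nat_lit 32912) (nat_lit 8388608) (nat_lit 62084) (nat_lit 39142696606) (nat_lit 0) (nat_lit 0),Row.mk (nat_lit 27384) (nat_lit 32912) (nat_lit 8388608) (nat_lit 62084) (nat_lit 48890372351) (nat_lit 0) (nat_lit 0),Row.mk (nat_lit 27552) (nat_lit 32912) (nat_lit 8388608) (nat_lit 62084) (nat_lit 61064984206) (nat_lit 0) (nat_lit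 0),Row.mk (nat_lit 27720) (nat_lit 32912) (nat_lit 8388608) (nat_lit 62084) (nat_lit 76270780715) (nat_lit 0) (nat_lit 0),Row.mk (nat_lit 27888) (nat_lit 32912) (nat_lit 8388608) (nat_lit 62084) (nat_lit 95262453733) (nat_lit 0) (nat_lit 0),Row.mk (nat_lit 28056) (nat_lit 32912) (nat_lit 8388608) (nat_lit 62084) (nat_lit 118982595181) (nat_lit 0) (nat_lit 0),Row.mk (nat_lit 28224) (nat_lit 32912) (nat_lit 8388608) (nat_lit 62084) (nat_lit 148608479629) (nat_lit 0) (nat_lit 0),Row.mk (nat_lit 28392) (nat_lit 32912) (nat_lit 8388608) (nat_lit 62084) (nat_lit 185610494615) (nat_lit 0) (nat_lit 0),Row.mk (nat_lit 28560) (nat_lit 32912) (nat_lit 8388608) (nat_lit 62084) (nat_lit 231825118704) (nat_lit 0) (nat_lit 0),Row.mk (nat_lit 28728) (nat_lit 32912) (nat_lit 8388608) (nat_lit 62084) (nat_lit 289546069319) (nat_lit 0) (nat_lit 0),Row.mk (nat_lit 28896) (nat_lit 32912) (nat_lit 8388608) (nat_lit 62084) (nat_lit 361638144187) (nat_lit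 0) (nat_lit 0),Row.mk (nat_lit 29064) (nat_lit 32912) (nat_lit 8388608) (nat_lit 62084) (nat_lit 451679406563) (nat_lit 0) (nat_lit 0),Row.mk (nat_lit 29232) (nat_lit 32912) (nat_lit 8388608) (nat_lit 62084) (nat_lit 564138771133) (nat_lit 0) (nat_lit 0),Row.mk (nat_lit 29400) (nat_lit 32912) (nat_lit 8388608) (nat_lit 62084) (nat_lit 704597804532) (nat_lit 0) (nat_lit 0),Row.mk (nat_lit 29568) (nat_lit 32912) (nat_lit 8388608) (nat_lit 62084) (nat_lit 880027748841) (nat_lit 0) (nat_lit 0),Row.mk (nat_lit 29736) (nat_lit 32912) (nat_lit 8388608) (nat_lit 62084) (nat_lit 1099135517246) (nat_lit 0) (nat_lit 0),Row.mk (nat_lit 29904) (nat_lit 32912) (nat_lit 8388608) (nat_lit 62084) (nat_lit 1372795834270) (nat_lit 0) (nat_lit 0),Row.mk (nat_lit 30072) (nat_lit 32912) (nat_lit 8388608) (nat_lit 62084) (nat_lit 1714590968505) (nat_lit 0) (nat_lit 0),Row.mk (nat_lit 30240) (nat_lit 32912) (nat_lit 8388608) (nat_lit 62084) (nat_lit 2141484845766)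 (nat_lit 0) (nat_lit 0),Row.mk (nat_lit 30408) (nat_lit 32912) (nat_lit 8388608) (nat_lit 62084) (nat_lit 2674665000160) (nat_lit 0) (nat_lit 0),Row.mk (nat_lit 30576) (nat_lit 32912) (nat_lit 8388608) (nat_lit 62084) (nat_lit 3340594150663) (nat_lit 0) (nat_lit 0),Row.mk (nat_lit 30744) (nat_lit 32912) (nat_lit 8388608) (nat_lit 62084) (nat_lit 4172323594897) (nat_lit 0) (nat_lit 0),Row.mk (nat_lit 30912) (nat_lit 32912) (nat_lit 8388608) (nat_lit 62084) (nat_lit 5211133606266) (nat_lit 0) (nat_lit 0),Row.mk (nat_lit 31080) (nat_lit 32912) (nat_lit 8388608) (nat_lit 62084) (nat_lit 6508582250415) (nat_lit 0) (nat_lit 0)],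
[Row.mk (nat_lit 21840) (nat_lit 38335) (nat_lit 30362254) (nat_lit 40392) (nat_lit 1480762) (nat_lit 0) (nat_lit 0),Row.mk (nat_lit 22008) (nat_lit 31603) (nat_lit 6078706) (nat_lit 38148) (nat_lit 33692452) (nat_lit 0) (nat_lit 0),Row.mk (nat_lit 22176) (nat_lit 31416) (nat_lit 15980765) (nat_lit 37961) (nat_lit 33692452) (nat_lit 0) (nat_lit 0),Row.mk (nat_lit 22344) (nat_lit 31229) (nat_lit 28348198) (nat_lit 37774) (nat_lit 33692452) (nat_lit 0) (nat_lit 0),Row.mk (nat_lit 22512) (nat_lit 31042) (nat_lit 43794824) (nat_lit 37587) (nat_lit 33692452) (nat_lit 0) (nat_lit 0),Row.mk (nat_lit 22680) (nat_lit 30855) (nat_lit 63087287) (nat_lit 37400) (nat_lit 33692452) (nat_lit 0) (nat_lit 0),Row.mk (nat_lit 22848) (nat_lit 30668) (nat_lit 87183107) (nat_lit 37213) (nat_lit 33692452) (nat_lit 0) (nat_lit 0),Row.mk (nat_lit 23016) (nat_lit 30481) (nat_lit 117278206) (nat_lit 37026) (nat_lit 33692452) (nat_lit 0) (nat_lit 0),Row.mk (nat_lit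 23184) (nat_lit 30294) (nat_lit 154866258) (nat_lit 36839) (nat_lit 33692452) (nat_lit 0) (nat_lit 0),Row.mk (nat_lit 23352) (nat_lit 30107) (nat_lit 201812828) (nat_lit 36652) (nat_lit 33692452) (nat_lit 0) (nat_lit 0),Row.mk (nat_lit 23520) (nat_lit 29920) (nat_lit 260447962) (nat_lit 36465) (nat_lit 33692452) (nat_lit 0) (nat_lit 0),Row.mk (nat_lit 23688) (nat_lit 29733) (nat_lit 333681830) (nat_lit 36278) (nat_lit 33692452) (nat_lit 0) (nat_lit 0),Row.mk (nat_lit 23856) (nat_lit 29546) (nat_lit 425149164) (nat_lit 36091) (nat_lit 33692452) (nat_lit 0) (nat_lit 0),Row.mk (nat_lit 24024) (nat_lit 29359) (nat_lit 539389658) (nat_lit 35904) (nat_lit 33692452) (nat_lit 0) (nat_lit 0),Row.mk (nat_lit 24192) (nat_lit 29172) (nat_lit 682073279) (nat_lit 35717) (nat_lit 33692452) (nat_lit 0) (nat_lit 0),Row.mk (nat_lit 24360) (nat_lit 28985) (nat_lit 860281679) (nat_lit 35530) (nat_lit 33692452) (nat_lit 0) (nat_lit 0),Row.mk (nat_lit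 24528) (nat_lit 28798) (nat_lit 1082859672) (nat_lit 35343) (nat_lit 33692452) (nat_lit 0) (nat_lit 0),Row.mk (nat_lit 24696) (nat_lit 28611) (nat_lit 1360854216) (nat_lit 35156) (nat_lit 33692452) (nat_lit 0) (nat_lit 0),Row.mk (nat_lit 24864) (nat_lit 28424) (nat_lit 1708062695) (nat_lit 34969) (nat_lit 33692452) (nat_lit 0) (nat_lit 0),Row.mk (nat_lit 25032) (nat_lit 28237) (nat_lit 2141717710) (nat_lit 34782) (nat_lit 33692452) (nat_lit 0) (nat_lit 0),Row.mk (nat_lit 25200) (nat_lit 28050) (nat_lit 2683342361) (nat_lit 34595) (nat_lit 33692452) (nat_lit 0) (nat_lit 0),Row.mk (nat_lit 25368) (nat_lit 27863) (nat_lit 3359818485) (nat_lit 34408) (nat_lit 33692452) (nat_lit 0) (nat_lit 0),Row.mk (nat_lit 25536) (nat_lit 27676) (nat_lit 4204720844) (nat_lit 34221) (nat_lit 33692452) (nat_lit 0) (nat_lit 0),Row.mk (nat_lit 25704) (nat_lit 27489) (nat_lit 5259983508) (nat_lit 34034) (nat_lit 33692452) (nat_lit 0) (nat_lit 0),Row.mk (nat_lit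 25872) (nat_lit 27302) (nat_lit 6577981119) (nat_lit 33847) (nat_lit 33692452) (nat_lit 0) (nat_lit 0),Row.mk (nat_lit 26040) (nat_lit 32912) (nat_lit 8388608) (nat_lit 62084) (nat_lit 8249432185) (nat_lit 0) (nat_lit 0),Row.mk (nat_lit 26208) (nat_lit 32912) (nat_lit 8388608) (nat_lit 62084) (nat_lit 10305430352) (nat_lit 0) (nat_lit 0),Row.mk (nat_lit 26376) (nat_lit 32912) (nat_lit 8388608) (nat_lit 62084) (nat_lit 12873322465) (nat_lit 0) (nat_lit 0),Row.mk (nat_lit 26544) (nat_lit 32912) (nat_lit 8388608) (nat_lit 62084) (nat_lit 16080557766) (nat_lit 0) (nat_lit 0),Row.mk (nat_lit 26712) (nat_lit 32912) (nat_lit 8388608) (nat_lit 62084) (nat_lit 20086317287) (nat_lit 0) (nat_lit 0),Row.mk (nat_lit 26880) (nat_lit 32912) (nat_lit 8388608) (nat_lit 62084) (nat_lit 25089414294) (nat_lit 0) (nat_lit 0),Row.mk (nat_lit 27048) (nat_lit 32912) (nat_lit 8388608) (nat_lit 62084) (nat_lit 31338161762) (nat_lit 0) (nat_lit 0),Row.mk (nat_lit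 27216) (nat_lit 32912) (nat_lit 8388608) (nat_lit 62084) (nat_lit 39142696606) (nat_lit 0) (nat_lit 0),Row.mk (nat_lit 27384) (nat_lit 32912) (nat_lit 8388608) (nat_lit 62084) (nat_lit 48890372351) (nat_lit 0) (nat_lit 0),Row.mk (nat_lit 27552) (nat_lit 32912) (nat_lit 8388608) (nat_lit 62084) (nat_lit 61064984206) (nat_lit 0) (nat_lit 0),Row.mk (nat_lit 27720) (nat_lit 32912) (nat_lit 8388608) (nat_lit 62084) (nat_lit 76270780715) (nat_lit 0) (nat_lit 0),Row.mk (nat_lit 27888) (nat_lit 32912) (nat_lit 8388608) (nat_lit 62084) (nat_lit 95262453733) (nat_lit 0) (nat_lit 0),Row.mk (nat_lit 28056) (nat_lit 32912) (nat_lit 8388608) (nat_lit 62084) (nat_lit 118982595181) (nat_lit 0) (nat_lit 0),Row.mk (nat_lit 28224) (nat_lit 32912) (nat_lit 8388608) (nat_lit 62084) (nat_lit 148608479629) (nat_lit 0) (nat_lit 0),Row.mk (nat_lit 28392) (nat_lit 32912) (nat_lit 8388608) (nat_lit 62084) (nat_lit 185610494615) (nat_lit 0) (nat_lit 0),Row.mk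 (nat_lit 28560) (nat_lit 32912) (nat_lit 8388608) (nat_lit 62084) (nat_lit 231825118704) (nat_lit 0) (nat_lit 0),Row.mk (nat_lit 28728) (nat_lit 32912) (nat_lit 8388608) (nat_lit 62084) (nat_lit 289546069319) (nat_lit 0) (nat_lit 0),Row.mk (nat_lit 28896) (nat_lit 32912) (nat_lit 8388608) (nat_lit 62084) (nat_lit 361638144187) (nat_lit 0) (nat_lit 0),Row.mk (nat_lit 29064) (nat_lit 32912) (nat_lit 8388608) (nat_lit 62084) (nat_lit 451679406563) (nat_lit 0) (nat_lit 0),Row.mk (nat_lit 29232) (nat_lit 32912) (nat_lit 8388608) (nat_lit 62084) (nat_lit 564138771133) (nat_lit 0) (nat_lit 0),Row.mk (nat_lit 29400) (nat_lit 32912) (nat_lit 8388608) (nat_lit 62084) (nat_lit 704597804532) (nat_lit 0) (nat_lit 0),Row.mk (nat_lit 29568) (nat_lit 32912) (nat_lit 8388608) (nat_lit 62084) (nat_lit 880027748841) (nat_lit 0) (nat_lit 0),Row.mk (nat_lit 29736) (nat_lit 32912) (nat_lit 8388608) (nat_lit 62084) (nat_lit 1099135517246) (nat_lit 0) (nat_lit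 0),Row.mk (nat_lit 29904) (nat_lit 32912) (nat_lit 8388608) (nat_lit 62084) (nat_lit 1372795834270) (nat_lit 0) (nat_lit 0),Row.mk (nat_lit 30072) (nat_lit 32912) (nat_lit 8388608) (nat_lit 62084) (nat_lit 1714590968505) (nat_lit 0) (nat_lit 0),Row.mk (nat_lit 30240) (nat_lit 32912) (nat_lit 8388608) (nat_lit 62084) (nat_lit 2141484845766) (nat_lit 0) (nat_lit 0),Row.mk (nat_lit 30408) (nat_lit 32912) (nat_lit 8388608) (nat_lit 62084) (nat_lit 2674665000160) (nat_lit 0) (nat_lit 0),Row.mk (nat_lit 30576) (nat_lit 32912) (nat_lit 8388608) (nat_lit 62084) (nat_lit 3340594150663) (nat_lit 0) (nat_lit 0),Row.mk (nat_lit 30744) (nat_lit 32912) (nat_lit 8388608) (nat_lit 62084) (nat_lit 4172323594897) (nat_lit 0) (nat_lit 0),Row.mk (nat_lit 30912) (nat_lit 32912) (nat_lit 8388608) (nat_lit 62084) (nat_lit 5211133606266) (nat_lit 0) (nat_lit 0),Row.mk (nat_lit 31080) (nat_lit 32912) (nat_lit 8388608) (nat_lit 62084) (nat_lit 6508582250415)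 (nat_lit 0) (nat_lit 0)],
[Row.mk (nat_lit 22008) (nat_lit 31603) (nat_lit 6078706) (nat_lit 38148) (nat_lit 33692452) (nat_lit 0) (nat_lit 0),Row.mk (nat_lit 22176) (nat_lit 31416) (nat_lit 15980765) (nat_lit 37961) (nat_lit 33692452) (nat_lit 0) (nat_lit 0),Row.mk (nat_lit 22344) (nat_lit 31229) (nat_lit 28348198) (nat_lit 37774) (nat_lit 33692452) (nat_lit 0) (nat_lit 0),Row.mk (nat_lit 22512) (nat_lit 31042) (nat_lit 43794824) (nat_lit 37587) (nat_lit 33692452) (nat_lit 0) (nat_lit 0),Row.mk (nat_lit 22680) (nat_lit 30855) (nat_lit 63087287) (nat_lit 37400) (nat_lit 33692452) (nat_lit 0) (nat_lit 0),Row.mk (nat_lit 22848) (nat_lit 30668) (nat_lit 87183107) (nat_lit 37213) (nat_lit 33692452) (nat_lit 0) (nat_lit 0),Row.mk (nat_lit 23016) (nat_lit 30481) (nat_lit 117278206) (nat_lit 37026) (nat_lit 33692452) (nat_lit 0) (nat_lit 0),Row.mk (nat_lit 23184) (nat_lit 30294) (nat_lit 154866258) (nat_lit 36839) (nat_lit 33692452) (nat_lit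 0) (nat_lit 0),Row.mk (nat_lit 23352) (nat_lit 30107) (nat_lit 201812828) (nat_lit 36652) (nat_lit 33692452) (nat_lit 0) (nat_lit 0),Row.mk (nat_lit 23520) (nat_lit 29920) (nat_lit 260447962) (nat_lit 36465) (nat_lit 33692452) (nat_lit 0) (nat_lit 0),Row.mk (nat_lit 23688) (nat_lit 29733) (nat_lit 333681830) (nat_lit 36278) (nat_lit 33692452) (nat_lit 0) (nat_lit 0),Row.mk (nat_lit 23856) (nat_lit 29546) (nat_lit 425149164) (nat_lit 36091) (nat_lit 33692452) (nat_lit 0) (nat_lit 0),Row.mk (nat_lit 24024) (nat_lit 29359) (nat_lit 539389658) (nat_lit 35904) (nat_lit 33692452) (nat_lit 0) (nat_lit 0),Row.mk (nat_lit 24192) (nat_lit 29172) (nat_lit 682073279) (nat_lit 35717) (nat_lit 33692452) (nat_lit 0) (nat_lit 0),Row.mk (nat_lit 24360) (nat_lit 28985) (nat_lit 860281679) (nat_lit 35530) (nat_lit 33692452) (nat_lit 0) (nat_lit 0),Row.mk (nat_lit 24528) (nat_lit 28798) (nat_lit 1082859672) (nat_lit 35343) (nat_lit 33692452) (nat_lit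 0) (nat_lit 0),Row.mk (nat_lit 24696) (nat_lit 28611) (nat_lit 1360854216) (nat_lit 35156) (nat_lit 33692452) (nat_lit 0) (nat_lit 0),Row.mk (nat_lit 24864) (nat_lit 28424) (nat_lit 1708062695) (nat_lit 34969) (nat_lit 33692452) (nat_lit 0) (nat_lit 0),Row.mk (nat_lit 25032) (nat_lit 28237) (nat_lit 2141717710) (nat_lit 34782) (nat_lit 33692452) (nat_lit 0) (nat_lit 0),Row.mk (nat_lit 25200) (nat_lit 28050) (nat_lit 2683342361) (nat_lit 34595) (nat_lit 33692452) (nat_lit 0) (nat_lit 0),Row.mk (nat_lit 25368) (nat_lit 27863) (nat_lit 3359818485) (nat_lit 34408) (nat_lit 33692452) (nat_lit 0) (nat_lit 0),Row.mk (nat_lit 25536) (nat_lit 27676) (nat_lit 4204720844) (nat_lit 34221) (nat_lit 33692452) (nat_lit 0) (nat_lit 0),Row.mk (nat_lit 25704) (nat_lit 27489) (nat_lit 5259983508) (nat_lit 34034) (nat_lit 33692452) (nat_lit 0) (nat_lit 0),Row.mk (nat_lit 25872) (nat_lit 27302) (nat_lit 6577981119) (nat_lit 33847) (nat_lit 33692452) (nat_lit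 0) (nat_lit 0),Row.mk (nat_lit 26040) (nat_lit 32912) (nat_lit 8388608) (nat_lit 62084) (nat_lit 8249432185) (nat_lit 0) (nat_lit 0),Row.mk (nat_lit 26208) (nat_lit 32912) (nat_lit 8388608) (nat_lit 62084) (nat_lit 10305430352) (nat_lit 0) (nat_lit 0),Row.mk (nat_lit 26376) (nat_lit 32912) (nat_lit 8388608) (nat_lit 62084) (nat_lit 12873322465) (nat_lit 0) (nat_lit 0),Row.mk (nat_lit 26544) (nat_lit 32912) (nat_lit 8388608) (nat_lit 62084) (nat_lit 16080557766) (nat_lit 0) (nat_lit 0),Row.mk (nat_lit 26712) (nat_lit 32912) (nat_lit 8388608) (nat_lit 62084) (nat_lit 20086317287) (nat_lit 0) (nat_lit 0),Row.mk (nat_lit 26880) (nat_lit 32912) (nat_lit 8388608) (nat_lit 62084) (nat_lit 25089414294) (nat_lit 0) (nat_lit 0),Row.mk (nat_lit 27048) (nat_lit 32912) (nat_lit 8388608) (nat_lit 62084) (nat_lit 31338161762) (nat_lit 0) (nat_lit 0),Row.mk (nat_lit 27216) (nat_lit 32912) (nat_lit 8388608) (nat_lit 62084) (nat_lit 39142696606) (nat_lit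 0) (nat_lit 0),Row.mk (nat_lit 27384) (nat_lit 32912) (nat_lit 8388608) (nat_lit 62084) (nat_lit 48890372351) (nat_lit 0) (nat_lit 0),Row.mk (nat_lit 27552) (nat_lit 32912) (nat_lit 8388608) (nat_lit 62084) (nat_lit 61064984206) (nat_lit 0) (nat_lit 0),Row.mk (nat_lit 27720) (nat_lit 32912) (nat_lit 8388608) (nat_lit 62084) (nat_lit 76270780715) (nat_lit 0) (nat_lit 0),Row.mk (nat_lit 27888) (nat_lit 32912) (nat_lit 8388608) (nat_lit 62084) (nat_lit 95262453733) (nat_lit 0) (nat_lit 0),Row.mk (nat_lit 28056) (nat_lit 32912) (nat_lit 8388608) (nat_lit 62084) (nat_lit 118982595181) (nat_lit 0) (nat_lit 0),Row.mk (nat_lit 28224) (nat_lit 32912) (nat_lit 8388608) (nat_lit 62084) (nat_lit 148608479629) (nat_lit 0) (nat_lit 0),Row.mk (nat_lit 28392) (nat_lit 32912) (nat_lit 8388608) (nat_lit 62084) (nat_lit 185610494615) (nat_lit 0) (nat_lit 0),Row.mk (nat_lit 28560) (nat_lit 32912) (nat_lit 8388608) (nat_lit 62084) (nat_lit 231825118704)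 (nat_lit 0) (nat_lit 0),Row.mk (nat_lit 28728) (nat_lit 32912) (nat_lit 8388608) (nat_lit 62084) (nat_lit 289546069319) (nat_lit 0) (nat_lit 0),Row.mk (nat_lit 28896) (nat_lit 32912) (nat_lit 8388608) (nat_lit 62084) (nat_lit 361638144187) (nat_lit 0) (nat_lit 0),Row.mk (nat_lit 29064) (nat_lit 32912) (nat_lit 8388608) (nat_lit 62084) (nat_lit 451679406563) (nat_lit 0) (nat_lit 0),Row.mk (nat_lit 29232) (nat_lit 32912) (nat_lit 8388608) (nat_lit 62084) (nat_lit 564138771133) (nat_lit 0) (nat_lit 0),Row.mk (nat_lit 29400) (nat_lit 32912) (nat_lit 8388608) (nat_lit 62084) (nat_lit 704597804532) (nat_lit 0) (nat_lit 0),Row.mk (nat_lit 29568) (nat_lit 32912) (nat_lit 8388608) (nat_lit 62084) (nat_lit 880027748841) (nat_lit 0) (nat_lit 0),Row.mk (nat_lit 29736) (nat_lit 32912) (nat_lit 8388608) (nat_lit 62084) (nat_lit 1099135517246) (nat_lit 0) (nat_lit 0),Row.mk (nat_lit 29904) (nat_lit 32912) (nat_lit 8388608) (nat_lit 62084) (nat_lit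 1372795834270) (nat_lit 0) (nat_lit 0),Row.mk (nat_lit 30072) (nat_lit 32912) (nat_lit 8388608) (nat_lit 62084) (nat_lit 1714590968505) (nat_lit 0) (nat_lit 0),Row.mk (nat_lit 30240) (nat_lit 32912) (nat_lit 8388608) (nat_lit 62084) (nat_lit 2141484845766) (nat_lit 0) (nat_lit 0),Row.mk (nat_lit 30408) (nat_lit 32912) (nat_lit 8388608) (nat_lit 62084) (nat_lit 2674665000160) (nat_lit 0) (nat_lit 0),Row.mk (nat_lit 30576) (nat_lit 32912) (nat_lit 8388608) (nat_lit 62084) (nat_lit 3340594150663) (nat_lit 0) (nat_lit 0),Row.mk (nat_lit 30744) (nat_lit 32912) (nat_lit 8388608) (nat_lit 62084) (nat_lit 4172323594897) (nat_lit 0) (nat_lit 0),Row.mk (nat_lit 30912) (nat_lit 32912) (nat_lit 8388608) (nat_lit 62084) (nat_lit 5211133606266) (nat_lit 0) (nat_lit 0),Row.mk (nat_lit 31080) (nat_lit 32912) (nat_lit 8388608) (nat_lit 62084) (nat_lit 6508582250415) (nat_lit 0) (nat_lit 0)],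
[Row.mk (nat_lit 22176) (nat_lit 31416) (nat_lit 15980765) (nat_lit 37961) (nat_lit 33692452) (nat_lit 0) (nat_lit 0),Row.mk (nat_lit 22344) (nat_lit 31229) (nat_lit 28348198) (nat_lit 37774) (nat_lit 33692452) (nat_lit 0) (nat_lit 0),Row.mk (nat_lit 22512) (nat_lit 31042) (nat_lit 43794824) (nat_lit 37587) (nat_lit 33692452) (nat_lit 0) (nat_lit 0),Row.mk (nat_lit 22680) (nat_lit 30855) (nat_lit 63087287) (nat_lit 37400) (nat_lit 33692452) (nat_lit 0) (nat_lit 0),Row.mk (nat_lit 22848) (nat_lit 30668) (nat_lit 87183107) (nat_lit 37213) (nat_lit 33692452) (nat_lit 0) (nat_lit 0),Row.mk (nat_lit 23016) (nat_lit 30481) (nat_lit 117278206) (nat_lit 37026) (nat_lit 33692452) (nat_lit 0) (nat_lit 0),Row.mk (nat_lit 23184) (nat_lit 30294) (nat_lit 154866258) (nat_lit 36839) (nat_lit 33692452) (nat_lit 0) (nat_lit 0),Row.mk (nat_lit 23352) (nat_lit 30107) (nat_lit 201812828) (nat_lit 36652) (nat_lit 33692452) (nat_lit 0) (nat_lit 0),Row.mk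 (nat_lit 23520) (nat_lit 29920) (nat_lit 260447962) (nat_lit 36465) (nat_lit 33692452) (nat_lit 0) (nat_lit 0),Row.mk (nat_lit 23688) (nat_lit 29733) (nat_lit 333681830) (nat_lit 36278) (nat_lit 33692452) (nat_lit 0) (nat_lit 0),Row.mk (nat_lit 23856) (nat_lit 29546) (nat_lit 425149164) (nat_lit 36091) (nat_lit 33692452) (nat_lit 0) (nat_lit 0),Row.mk (nat_lit 24024) (nat_lit 29359) (nat_lit 539389658) (nat_lit 35904) (nat_lit 33692452) (nat_lit 0) (nat_lit 0),Row.mk (nat_lit 24192) (nat_lit 29172) (nat_lit 682073279) (nat_lit 35717) (nat_lit 33692452) (nat_lit 0) (nat_lit 0),Row.mk (nat_lit 24360) (nat_lit 28985) (nat_lit 860281679) (nat_lit 35530) (nat_lit 33692452) (nat_lit 0) (nat_lit 0),Row.mk (nat_lit 24528) (nat_lit 28798) (nat_lit 1082859672) (nat_lit 35343) (nat_lit 33692452) (nat_lit 0) (nat_lit 0),Row.mk (nat_lit 24696) (nat_lit 28611) (nat_lit 1360854216) (nat_lit 35156) (nat_lit 33692452) (nat_lit 0) (nat_lit 0),Row.mk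 (nat_lit 24864) (nat_lit 28424) (nat_lit 1708062695) (nat_lit 34969) (nat_lit 33692452) (nat_lit 0) (nat_lit 0),Row.mk (nat_lit 25032) (nat_lit 28237) (nat_lit 2141717710) (nat_lit 34782) (nat_lit 33692452) (nat_lit 0) (nat_lit 0),Row.mk (nat_lit 25200) (nat_lit 28050) (nat_lit 2683342361) (nat_lit 34595) (nat_lit 33692452) (nat_lit 0) (nat_lit 0),Row.mk (nat_lit 25368) (nat_lit 27863) (nat_lit 3359818485) (nat_lit 34408) (nat_lit 33692452) (nat_lit 0) (nat_lit 0),Row.mk (nat_lit 25536) (nat_lit 27676) (nat_lit 4204720844) (nat_lit 34221) (nat_lit 33692452) (nat_lit 0) (nat_lit 0),Row.mk (nat_lit 25704) (nat_lit 27489) (nat_lit 5259983508) (nat_lit 34034) (nat_lit 33692452) (nat_lit 0) (nat_lit 0),Row.mk (nat_lit 25872) (nat_lit 27302) (nat_lit 6577981119) (nat_lit 33847) (nat_lit 33692452) (nat_lit 0) (nat_lit 0),Row.mk (nat_lit 26040) (nat_lit 32912) (nat_lit 8388608) (nat_lit 62084) (nat_lit 8249432185) (nat_lit 0) (nat_lit 0),Row.mk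 (nat_lit 26208) (nat_lit 32912) (nat_lit 8388608) (nat_lit 62084) (nat_lit 10305430352) (nat_lit 0) (nat_lit 0),Row.mk (nat_lit 26376) (nat_lit 32912) (nat_lit 8388608) (nat_lit 62084) (nat_lit 12873322465) (nat_lit 0) (nat_lit 0),Row.mk (nat_lit 26544) (nat_lit 32912) (nat_lit 8388608) (nat_lit 62084) (nat_lit 16080557766) (nat_lit 0) (nat_lit 0),Row.mk (nat_lit 26712) (nat_lit 32912) (nat_lit 8388608) (nat_lit 62084) (nat_lit 20086317287) (nat_lit 0) (nat_lit 0),Row.mk (nat_lit 26880) (nat_lit 32912) (nat_lit 8388608) (nat_lit 62084) (nat_lit 25089414294) (nat_lit 0) (nat_lit 0),Row.mk (nat_lit 27048) (nat_lit 32912) (nat_lit 8388608) (nat_lit 62084) (nat_lit 31338161762) (nat_lit 0) (nat_lit 0),Row.mk (nat_lit 27216) (nat_lit 32912) (nat_lit 8388608) (nat_lit 62084) (nat_lit 39142696606) (nat_lit 0) (nat_lit 0),Row.mk (nat_lit 27384) (nat_lit 32912) (nat_lit 8388608) (nat_lit 62084) (nat_lit 48890372351) (nat_lit 0) (nat_lit 0),Row.mk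 (nat_lit 27552) (nat_lit 32912) (nat_lit 8388608) (nat_lit 62084) (nat_lit 61064984206) (nat_lit 0) (nat_lit 0),Row.mk (nat_lit 27720) (nat_lit 32912) (nat_lit 8388608) (nat_lit 62084) (nat_lit 76270780715) (nat_lit 0) (nat_lit 0),Row.mk (nat_lit 27888) (nat_lit 32912) (nat_lit 8388608) (nat_lit 62084) (nat_lit 95262453733) (nat_lit 0) (nat_lit 0),Row.mk (nat_lit 28056) (nat_lit 32912) (nat_lit 8388608) (nat_lit 62084) (nat_lit 118982595181) (nat_lit 0) (nat_lit 0),Row.mk (nat_lit 28224) (nat_lit 32912) (nat_lit 8388608) (nat_lit 62084) (nat_lit 148608479629) (nat_lit 0) (nat_lit 0),Row.mk (nat_lit 28392) (nat_lit 32912) (nat_lit 8388608) (nat_lit 62084) (nat_lit 185610494615) (nat_lit 0) (nat_lit 0),Row.mk (nat_lit 28560) (nat_lit 32912) (nat_lit 8388608) (nat_lit 62084) (nat_lit 231825118704) (nat_lit 0) (nat_lit 0),Row.mk (nat_lit 28728) (nat_lit 32912) (nat_lit 8388608) (nat_lit 62084) (nat_lit 289546069319) (nat_lit 0) (nat_lit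 0),Row.mk (nat_lit 28896) (nat_lit 32912) (nat_lit 8388608) (nat_lit 62084) (nat_lit 361638144187) (nat_lit 0) (nat_lit 0),Row.mk (nat_lit 29064) (nat_lit 32912) (nat_lit 8388608) (nat_lit 62084) (nat_lit 451679406563) (nat_lit 0) (nat_lit 0),Row.mk (nat_lit 29232) (nat_lit 32912) (nat_lit 8388608) (nat_lit 62084) (nat_lit 564138771133) (nat_lit 0) (nat_lit 0),Row.mk (nat_lit 29400) (nat_lit 32912) (nat_lit 8388608) (nat_lit 62084) (nat_lit 704597804532) (nat_lit 0) (nat_lit 0),Row.mk (nat_lit 29568) (nat_lit 32912) (nat_lit 8388608) (nat_lit 62084) (nat_lit 880027748841) (nat_lit 0) (nat_lit 0),Row.mk (nat_lit 29736) (nat_lit 32912) (nat_lit 8388608) (nat_lit 62084) (nat_lit 1099135517246) (nat_lit 0) (nat_lit 0),Row.mk (nat_lit 29904) (nat_lit 32912) (nat_lit 8388608) (nat_lit 62084) (nat_lit 1372795834270) (nat_lit 0) (nat_lit 0),Row.mk (nat_lit 30072) (nat_lit 32912) (nat_lit 8388608) (nat_lit 62084) (nat_lit 1714590968505) (nat_lit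 0) (nat_lit 0),Row.mk (nat_lit 30240) (nat_lit 32912) (nat_lit 8388608) (nat_lit 62084) (nat_lit 2141484845766) (nat_lit 0) (nat_lit 0),Row.mk (nat_lit 30408) (nat_lit 32912) (nat_lit 8388608) (nat_lit 62084) (nat_lit 2674665000160) (nat_lit 0) (nat_lit 0),Row.mk (nat_lit 30576) (nat_lit 32912) (nat_lit 8388608) (nat_lit 62084) (nat_lit 3340594150663) (nat_lit 0) (nat_lit 0),Row.mk (nat_lit 30744) (nat_lit 32912) (nat_lit 8388608) (nat_lit 62084) (nat_lit 4172323594897) (nat_lit 0) (nat_lit 0),Row.mk (nat_lit 30912) (nat_lit 32912) (nat_lit 8388608) (nat_lit 62084) (nat_lit 5211133606266) (nat_lit 0) (nat_lit 0),Row.mk (nat_lit 31080) (nat_lit 32912) (nat_lit 8388608) (nat_lit 62084) (nat_lit 6508582250415) (nat_lit 0) (nat_lit 0)],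
[Row.mk (nat_lit 22344) (nat_lit 31229) (nat_lit 28348198) (nat_lit 37774) (nat_lit 33692452) (nat_lit 0) (nat_lit 0),Row.mk (nat_lit 22512) (nat_lit 31042) (nat_lit 43794824) (nat_lit 37587) (nat_lit 33692452) (nat_lit 0) (nat_lit 0),Row.mk (nat_lit 22680) (nat_lit 30855) (nat_lit 63087287) (nat_lit 37400) (nat_lit 33692452) (nat_lit 0) (nat_lit 0),Row.mk (nat_lit 22848) (nat_lit 30668) (nat_lit 87183107) (nat_lit 37213) (nat_lit 33692452) (nat_lit 0) (nat_lit 0),Row.mk (nat_lit 23016) (nat_lit 30481) (nat_lit 117278206) (nat_lit 37026) (nat_lit 33692452) (nat_lit 0) (nat_lit 0),Row.mk (nat_lit 23184) (nat_lit 30294) (nat_lit 154866258) (nat_lit 36839) (nat_lit 33692452) (nat_lit 0) (nat_lit 0),Row.mk (nat_lit 23352) (nat_lit 30107) (nat_lit 201812828) (nat_lit 36652) (nat_lit 33692452) (nat_lit 0) (nat_lit 0),Row.mk (nat_lit 23520) (nat_lit 29920) (nat_lit 260447962) (nat_lit 36465) (nat_lit 33692452) (nat_lit 0) (nat_lit 0),Row.mk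 (nat_lit 23688) (nat_lit 29733) (nat_lit 333681830) (nat_lit 36278) (nat_lit 33692452) (nat_lit 0) (nat_lit 0),Row.mk (nat_lit 23856) (nat_lit 29546) (nat_lit 425149164) (nat_lit 36091) (nat_lit 33692452) (nat_lit 0) (nat_lit 0),Row.mk (nat_lit 24024) (nat_lit 29359) (nat_lit 539389658) (nat_lit 35904) (nat_lit 33692452) (nat_lit 0) (nat_lit 0),Row.mk (nat_lit 24192) (nat_lit 29172) (nat_lit 682073279) (nat_lit 35717) (nat_lit 33692452) (nat_lit 0) (nat_lit 0),Row.mk (nat_lit 24360) (nat_lit 28985) (nat_lit 860281679) (nat_lit 35530) (nat_lit 33692452) (nat_lit 0) (nat_lit 0),Row.mk (nat_lit 24528) (nat_lit 28798) (nat_lit 1082859672) (nat_lit 35343) (nat_lit 33692452) (nat_lit 0) (nat_lit 0),Row.mk (nat_lit 24696) (nat_lit 28611) (nat_lit 1360854216) (nat_lit 35156) (nat_lit 33692452) (nat_lit 0) (nat_lit 0),Row.mk (nat_lit 24864) (nat_lit 28424) (nat_lit 1708062695) (nat_lit 34969) (nat_lit 33692452) (nat_lit 0) (nat_lit 0),Row.mk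 (nat_lit 25032) (nat_lit 28237) (nat_lit 2141717710) (nat_lit 34782) (nat_lit 33692452) (nat_lit 0) (nat_lit 0),Row.mk (nat_lit 25200) (nat_lit 28050) (nat_lit 2683342361) (nat_lit 34595) (nat_lit 33692452) (nat_lit 0) (nat_lit 0),Row.mk (nat_lit 25368) (nat_lit 27863) (nat_lit 3359818485) (nat_lit 34408) (nat_lit 33692452) (nat_lit 0) (nat_lit 0),Row.mk (nat_lit 25536) (nat_lit 27676) (nat_lit 4204720844) (nat_lit 34221) (nat_lit 33692452) (nat_lit 0) (nat_lit 0),Row.mk (nat_lit 25704) (nat_lit 27489) (nat_lit 5259983508) (nat_lit 34034) (nat_lit 33692452) (nat_lit 0) (nat_lit 0),Row.mk (nat_lit 25872) (nat_lit 27302) (nat_lit 6577981119) (nat_lit 33847) (nat_lit 33692452) (nat_lit 0) (nat_lit 0),Row.mk (nat_lit 26040) (nat_lit 32912) (nat_lit 8388608) (nat_lit 62084) (nat_lit 8249432185) (nat_lit 0) (nat_lit 0),Row.mk (nat_lit 26208) (nat_lit 32912) (nat_lit 8388608) (nat_lit 62084) (nat_lit 10305430352) (nat_lit 0) (nat_lit 0),Row.mk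 (nat_lit 26376) (nat_lit 32912) (nat_lit 8388608) (nat_lit 62084) (nat_lit 12873322465) (nat_lit 0) (nat_lit 0),Row.mk (nat_lit 26544) (nat_lit 32912) (nat_lit 8388608) (nat_lit 62084) (nat_lit 16080557766) (nat_lit 0) (nat_lit 0),Row.mk (nat_lit 26712) (nat_lit 32912) (nat_lit 8388608) (nat_lit 62084) (nat_lit 20086317287) (nat_lit 0) (nat_lit 0),Row.mk (nat_lit 26880) (nat_lit 32912) (nat_lit 8388608) (nat_lit 62084) (nat_lit 25089414294) (nat_lit 0) (nat_lit 0),Row.mk (nat_lit 27048) (nat_lit 32912) (nat_lit 8388608) (nat_lit 62084) (nat_lit 31338161762) (nat_lit 0) (nat_lit 0),Row.mk (nat_lit 27216) (nat_lit 32912) (nat_lit 8388608) (nat_lit 62084) (nat_lit 39142696606) (nat_lit 0) (nat_lit 0),Row.mk (nat_lit 27384) (nat_lit 32912) (nat_lit 8388608) (nat_lit 62084) (nat_lit 48890372351) (nat_lit 0) (nat_lit 0),Row.mk (nat_lit 27552) (nat_lit 32912) (nat_lit 8388608) (nat_lit 62084) (nat_lit 61064984206) (nat_lit 0) (nat_lit 0),Row.mk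 (nat_lit 27720) (nat_lit 32912) (nat_lit 8388608) (nat_lit 62084) (nat_lit 76270780715) (nat_lit 0) (nat_lit 0),Row.mk (nat_lit 27888) (nat_lit 32912) (nat_lit 8388608) (nat_lit 62084) (nat_lit 95262453733) (nat_lit 0) (nat_lit 0),Row.mk (nat_lit 28056) (nat_lit 32912) (nat_lit 8388608) (nat_lit 62084) (nat_lit 118982595181) (nat_lit 0) (nat_lit 0),Row.mk (nat_lit 28224) (nat_lit 32912) (nat_lit 8388608) (nat_lit 62084) (nat_lit 148608479629) (nat_lit 0) (nat_lit 0),Row.mk (nat_lit 28392) (nat_lit 32912) (nat_lit 8388608) (nat_lit 62084) (nat_lit 185610494615) (nat_lit 0) (nat_lit 0),Row.mk (nat_lit 28560) (nat_lit 32912) (nat_lit 8388608) (nat_lit 62084) (nat_lit 231825118704) (nat_lit 0) (nat_lit 0),Row.mk (nat_lit 28728) (nat_lit 32912) (nat_lit 8388608) (nat_lit 62084) (nat_lit 289546069319) (nat_lit 0) (nat_lit 0),Row.mk (nat_lit 28896) (nat_lit 32912) (nat_lit 8388608) (nat_lit 62084) (nat_lit 361638144187) (nat_lit 0) (nat_lit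 0),Row.mk (nat_lit 29064) (nat_lit 32912) (nat_lit 8388608) (nat_lit 62084) (nat_lit 451679406563) (nat_lit 0) (nat_lit 0),Row.mk (nat_lit 29232) (nat_lit 32912) (nat_lit 8388608) (nat_lit 62084) (nat_lit 564138771133) (nat_lit 0) (nat_lit 0),Row.mk (nat_lit 29400) (nat_lit 32912) (nat_lit 8388608) (nat_lit 62084) (nat_lit 704597804532) (nat_lit 0) (nat_lit 0),Row.mk (nat_lit 29568) (nat_lit 32912) (nat_lit 8388608) (nat_lit 62084) (nat_lit 880027748841) (nat_lit 0) (nat_lit 0),Row.mk (nat_lit 29736) (nat_lit 32912) (nat_lit 8388608) (nat_lit 62084) (nat_lit 1099135517246) (nat_lit 0) (nat_lit 0),Row.mk (nat_lit 29904) (nat_lit 32912) (nat_lit 8388608) (nat_lit 62084) (nat_lit 1372795834270) (nat_lit 0) (nat_lit 0),Row.mk (nat_lit 30072) (nat_lit 32912) (nat_lit 8388608) (nat_lit 62084) (nat_lit 1714590968505) (nat_lit 0) (nat_lit 0),Row.mk (nat_lit 30240) (nat_lit 32912) (nat_lit 8388608) (nat_lit 62084) (nat_lit 2141484845766) (nat_lit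 0) (nat_lit 0),Row.mk (nat_lit 30408) (nat_lit 32912) (nat_lit 8388608) (nat_lit 62084) (nat_lit 2674665000160) (nat_lit 0) (nat_lit 0),Row.mk (nat_lit 30576) (nat_lit 32912) (nat_lit 8388608) (nat_lit 62084) (nat_lit 3340594150663) (nat_lit 0) (nat_lit 0),Row.mk (nat_lit 30744) (nat_lit 32912) (nat_lit 8388608) (nat_lit 62084) (nat_lit 4172323594897) (nat_lit 0) (nat_lit 0),Row.mk (nat_lit 30912) (nat_lit 32912) (nat_lit 8388608) (nat_lit 62084) (nat_lit 5211133606266) (nat_lit 0) (nat_lit 0),Row.mk (nat_lit 31080) (nat_lit 32912) (nat_lit 8388608) (nat_lit 62084) (nat_lit 6508582250415) (nat_lit 0) (nat_lit 0)],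
[Row.mk (nat_lit 22512) (nat_lit 31042) (nat_lit 43794824) (nat_lit 37587) (nat_lit 33692452) (nat_lit 0) (nat_lit 0),Row.mk (nat_lit 22680) (nat_lit 30855) (nat_lit 63087287) (nat_lit 37400) (nat_lit 33692452) (nat_lit 0) (nat_lit 0),Row.mk (nat_lit 22848) (nat_lit 30668) (nat_lit 87183107) (nat_lit 37213) (nat_lit 33692452) (nat_lit 0) (nat_lit 0),Row.mk (nat_lit 23016) (nat_lit 30481) (nat_lit 117278206) (nat_lit 37026) (nat_lit 33692452) (nat_lit 0) (nat_lit 0),Row.mk (nat_lit 23184) (nat_lit 30294) (nat_lit 154866258) (nat_lit 36839) (nat_lit 33692452) (nat_lit 0) (nat_lit 0),Row.mk (nat_lit 23352) (nat_lit 30107) (nat_lit 201812828) (nat_lit 36652) (nat_lit 33692452) (nat_lit 0) (nat_lit 0),Row.mk (nat_lit 23520) (nat_lit 29920) (nat_lit 260447962) (nat_lit 36465) (nat_lit 33692452) (nat_lit 0) (nat_lit 0),Row.mk (nat_lit 23688) (nat_lit 29733) (nat_lit 333681830) (nat_lit 36278) (nat_lit 33692452) (nat_lit 0) (nat_lit 0),Row.mk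 (nat_lit 23856) (nat_lit 29546) (nat_lit 425149164) (nat_lit 36091) (nat_lit 33692452) (nat_lit 0) (nat_lit 0),Row.mk (nat_lit 24024) (nat_lit 29359) (nat_lit 539389658) (nat_lit 35904) (nat_lit 33692452) (nat_lit 0) (nat_lit 0),Row.mk (nat_lit 24192) (nat_lit 29172) (nat_lit 682073279) (nat_lit 35717) (nat_lit 33692452) (nat_lit 0) (nat_lit 0),Row.mk (nat_lit 24360) (nat_lit 28985) (nat_lit 860281679) (nat_lit 35530) (nat_lit 33692452) (nat_lit 0) (nat_lit 0),Row.mk (nat_lit 24528) (nat_lit 28798) (nat_lit 1082859672) (nat_lit 35343) (nat_lit 33692452) (nat_lit 0) (nat_lit 0),Row.mk (nat_lit 24696) (nat_lit 28611) (nat_lit 1360854216) (nat_lit 35156) (nat_lit 33692452) (nat_lit 0) (nat_lit 0),Row.mk (nat_lit 24864) (nat_lit 28424) (nat_lit 1708062695) (nat_lit 34969) (nat_lit 33692452) (nat_lit 0) (nat_lit 0),Row.mk (nat_lit 25032) (nat_lit 28237) (nat_lit 2141717710) (nat_lit 34782) (nat_lit 33692452) (nat_lit 0) (nat_lit 0),Row.mk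 (nat_lit 25200) (nat_lit 28050) (nat_lit 2683342361) (nat_lit 34595) (nat_lit 33692452) (nat_lit 0) (nat_lit 0),Row.mk (nat_lit 25368) (nat_lit 27863) (nat_lit 3359818485) (nat_lit 34408) (nat_lit 33692452) (nat_lit 0) (nat_lit 0),Row.mk (nat_lit 25536) (nat_lit 27676) (nat_lit 4204720844) (nat_lit 34221) (nat_lit 33692452) (nat_lit 0) (nat_lit 0),Row.mk (nat_lit 25704) (nat_lit 27489) (nat_lit 5259983508) (nat_lit 34034) (nat_lit 33692452) (nat_lit 0) (nat_lit 0),Row.mk (nat_lit 25872) (nat_lit 27302) (nat_lit 6577981119) (nat_lit 33847) (nat_lit 33692452) (nat_lit 0) (nat_lit 0),Row.mk (nat_lit 26040) (nat_lit 32912) (nat_lit 8388608) (nat_lit 62084) (nat_lit 8249432185) (nat_lit 0) (nat_lit 0),Row.mk (nat_lit 26208) (nat_lit 32912) (nat_lit 8388608) (nat_lit 62084) (nat_lit 10305430352) (nat_lit 0) (nat_lit 0),Row.mk (nat_lit 26376) (nat_lit 32912) (nat_lit 8388608) (nat_lit 62084) (nat_lit 12873322465) (nat_lit 0) (nat_lit 0),Row.mk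 (nat_lit 26544) (nat_lit 32912) (nat_lit 8388608) (nat_lit 62084) (nat_lit 16080557766) (nat_lit 0) (nat_lit 0),Row.mk (nat_lit 26712) (nat_lit 32912) (nat_lit 8388608) (nat_lit 62084) (nat_lit 20086317287) (nat_lit 0) (nat_lit 0),Row.mk (nat_lit 26880) (nat_lit 32912) (nat_lit 8388608) (nat_lit 62084) (nat_lit 25089414294) (nat_lit 0) (nat_lit 0),Row.mk (nat_lit 27048) (nat_lit 32912) (nat_lit 8388608) (nat_lit 62084) (nat_lit 31338161762) (nat_lit 0) (nat_lit 0),Row.mk (nat_lit 27216) (nat_lit 32912) (nat_lit 8388608) (nat_lit 62084) (nat_lit 39142696606) (nat_lit 0) (nat_lit 0),Row.mk (nat_lit 27384) (nat_lit 32912) (nat_lit 8388608) (nat_lit 62084) (nat_lit 48890372351) (nat_lit 0) (nat_lit 0),Row.mk (nat_lit 27552) (nat_lit 32912) (nat_lit 8388608) (nat_lit 62084) (nat_lit 61064984206) (nat_lit 0) (nat_lit 0),Row.mk (nat_lit 27720) (nat_lit 32912) (nat_lit 8388608) (nat_lit 62084) (nat_lit 76270780715) (nat_lit 0) (nat_lit 0),Row.mk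 (nat_lit 27888) (nat_lit 32912) (nat_lit 8388608) (nat_lit 62084) (nat_lit 95262453733) (nat_lit 0) (nat_lit 0),Row.mk (nat_lit 28056) (nat_lit 32912) (nat_lit 8388608) (nat_lit 62084) (nat_lit 118982595181) (nat_lit 0) (nat_lit 0),Row.mk (nat_lit 28224) (nat_lit 32912) (nat_lit 8388608) (nat_lit 62084) (nat_lit 148608479629) (nat_lit 0) (nat_lit 0),Row.mk (nat_lit 28392) (nat_lit 32912) (nat_lit 8388608) (nat_lit 62084) (nat_lit 185610494615) (nat_lit 0) (nat_lit 0),Row.mk (nat_lit 28560) (nat_lit 32912) (nat_lit 8388608) (nat_lit 62084) (nat_lit 231825118704) (nat_lit 0) (nat_lit 0),Row.mk (nat_lit 28728) (nat_lit 32912) (nat_lit 8388608) (nat_lit 62084) (nat_lit 289546069319) (nat_lit 0) (nat_lit 0),Row.mk (nat_lit 28896) (nat_lit 32912) (nat_lit 8388608) (nat_lit 62084) (nat_lit 361638144187) (nat_lit 0) (nat_lit 0),Row.mk (nat_lit 29064) (nat_lit 32912) (nat_lit 8388608) (nat_lit 62084) (nat_lit 451679406563) (nat_lit 0) (nat_lit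 0),Row.mk (nat_lit 29232) (nat_lit 32912) (nat_lit 8388608) (nat_lit 62084) (nat_lit 564138771133) (nat_lit 0) (nat_lit 0),Row.mk (nat_lit 29400) (nat_lit 32912) (nat_lit 8388608) (nat_lit 62084) (nat_lit 704597804532) (nat_lit 0) (nat_lit 0),Row.mk (nat_lit 29568) (nat_lit 32912) (nat_lit 8388608) (nat_lit 62084) (nat_lit 880027748841) (nat_lit 0) (nat_lit 0),Row.mk (nat_lit 29736) (nat_lit 32912) (nat_lit 8388608) (nat_lit 62084) (nat_lit 1099135517246) (nat_lit 0) (nat_lit 0),Row.mk (nat_lit 29904) (nat_lit 32912) (nat_lit 8388608) (nat_lit 62084) (nat_lit 1372795834270) (nat_lit 0) (nat_lit 0),Row.mk (nat_lit 30072) (nat_lit 32912) (nat_lit 8388608) (nat_lit 62084) (nat_lit 1714590968505) (nat_lit 0) (nat_lit 0),Row.mk (nat_lit 30240) (nat_lit 32912) (nat_lit 8388608) (nat_lit 62084) (nat_lit 2141484845766) (nat_lit 0) (nat_lit 0),Row.mk (nat_lit 30408) (nat_lit 32912) (nat_lit 8388608) (nat_lit 62084) (nat_lit 2674665000160)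 (nat_lit 0) (nat_lit 0),Row.mk (nat_lit 30576) (nat_lit 32912) (nat_lit 8388608) (nat_lit 62084) (nat_lit 3340594150663) (nat_lit 0) (nat_lit 0),Row.mk (nat_lit 30744) (nat_lit 32912) (nat_lit 8388608) (nat_lit 62084) (nat_lit 4172323594897) (nat_lit 0) (nat_lit 0),Row.mk (nat_lit 30912) (nat_lit 32912) (nat_lit 8388608) (nat_lit 62084) (nat_lit 5211133606266) (nat_lit 0) (nat_lit 0),Row.mk (nat_lit 31080) (nat_lit 32912) (nat_lit 8388608) (nat_lit 62084) (nat_lit 6508582250415) (nat_lit 0) (nat_lit 0)],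
[Row.mk (nat_lit 22848) (nat_lit 30668) (nat_lit 87183107) (nat_lit 37213) (nat_lit 33692452) (nat_lit 0) (nat_lit 0),Row.mk (nat_lit 23016) (nat_lit 30481) (nat_lit 117278206) (nat_lit 37026) (nat_lit 33692452) (nat_lit 0) (nat_lit 0),Row.mk (nat_lit 23184) (nat_lit 30294) (nat_lit 154866258) (nat_lit 36839) (nat_lit 33692452) (nat_lit 0) (nat_lit 0),Row.mk (nat_lit 23352) (nat_lit 30107) (nat_lit 201812828) (nat_lit 36652) (nat_lit 33692452) (nat_lit 0) (nat_lit 0),Row.mk (nat_lit 23520) (nat_lit 29920) (nat_lit 260447962) (nat_lit 36465) (nat_lit 33692452) (nat_lit 0) (nat_lit 0),Row.mk (nat_lit 23688) (nat_lit 29733) (nat_lit 333681830) (nat_lit 36278) (nat_lit 33692452) (nat_lit 0) (nat_lit 0),Row.mk (nat_lit 23856) (nat_lit 29546) (nat_lit 425149164) (nat_lit 36091) (nat_lit 33692452) (nat_lit 0) (nat_lit 0),Row.mk (nat_lit 24024) (nat_lit 29359) (nat_lit 539389658) (nat_lit 35904) (nat_lit 33692452) (nat_lit 0) (nat_lit 0),Row.mk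 (nat_lit 24192) (nat_lit 29172) (nat_lit 682073279) (nat_lit 35717) (nat_lit 33692452) (nat_lit 0) (nat_lit 0),Row.mk (nat_lit 24360) (nat_lit 28985) (nat_lit 860281679) (nat_lit 35530) (nat_lit 33692452) (nat_lit 0) (nat_lit 0),Row.mk (nat_lit 24528) (nat_lit 28798) (nat_lit 1082859672) (nat_lit 35343) (nat_lit 33692452) (nat_lit 0) (nat_lit 0),Row.mk (nat_lit 24696) (nat_lit 28611) (nat_lit 1360854216) (nat_lit 35156) (nat_lit 33692452) (nat_lit 0) (nat_lit 0),Row.mk (nat_lit 24864) (nat_lit 28424) (nat_lit 1708062695) (nat_lit 34969) (nat_lit 33692452) (nat_lit 0) (nat_lit 0),Row.mk (nat_lit 25032) (nat_lit 28237) (nat_lit 2141717710) (nat_lit 34782) (nat_lit 33692452) (nat_lit 0) (nat_lit 0),Row.mk (nat_lit 25200) (nat_lit 28050) (nat_lit 2683342361) (nat_lit 34595) (nat_lit 33692452) (nat_lit 0) (nat_lit 0),Row.mk (nat_lit 25368) (nat_lit 27863) (nat_lit 3359818485) (nat_lit 34408) (nat_lit 33692452) (nat_lit 0) (nat_lit 0),Row.mk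 (nat_lit 25536) (nat_lit 27676) (nat_lit 4204720844) (nat_lit 34221) (nat_lit 33692452) (nat_lit 0) (nat_lit 0),Row.mk (nat_lit 25704) (nat_lit 27489) (nat_lit 5259983508) (nat_lit 34034) (nat_lit 33692452) (nat_lit 0) (nat_lit 0),Row.mk (nat_lit 25872) (nat_lit 27302) (nat_lit 6577981119) (nat_lit 33847) (nat_lit 33692452) (nat_lit 0) (nat_lit 0),Row.mk (nat_lit 26040) (nat_lit 32912) (nat_lit 8388608) (nat_lit 62084) (nat_lit 8249432185) (nat_lit 0) (nat_lit 0),Row.mk (nat_lit 26208) (nat_lit 32912) (nat_lit 8388608) (nat_lit 62084) (nat_lit 10305430352) (nat_lit 0) (nat_lit 0),Row.mk (nat_lit 26376) (nat_lit 32912) (nat_lit 8388608) (nat_lit 62084) (nat_lit 12873322465) (nat_lit 0) (nat_lit 0),Row.mk (nat_lit 26544) (nat_lit 32912) (nat_lit 8388608) (nat_lit 62084) (nat_lit 16080557766) (nat_lit 0) (nat_lit 0),Row.mk (nat_lit 26712) (nat_lit 32912) (nat_lit 8388608) (nat_lit 62084) (nat_lit 20086317287) (nat_lit 0) (nat_lit 0),Row.mk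 (nat_lit 26880) (nat_lit 32912) (nat_lit 8388608) (nat_lit 62084) (nat_lit 25089414294) (nat_lit 0) (nat_lit 0),Row.mk (nat_lit 27048) (nat_lit 32912) (nat_lit 8388608) (nat_lit 62084) (nat_lit 31338161762) (nat_lit 0) (nat_lit 0),Row.mk (nat_lit 27216) (nat_lit 32912) (nat_lit 8388608) (nat_lit 62084) (nat_lit 39142696606) (nat_lit 0) (nat_lit 0),Row.mk (nat_lit 27384) (nat_lit 32912) (nat_lit 8388608) (nat_lit 62084) (nat_lit 48890372351) (nat_lit 0) (nat_lit 0),Row.mk (nat_lit 27552) (nat_lit 32912) (nat_lit 8388608) (nat_lit 62084) (nat_lit 61064984206) (nat_lit 0) (nat_lit 0),Row.mk (nat_lit 27720) (nat_lit 32912) (nat_lit 8388608) (nat_lit 62084) (nat_lit 76270780715) (nat_lit 0) (nat_lit 0),Row.mk (nat_lit 27888) (nat_lit 32912) (nat_lit 8388608) (nat_lit 62084) (nat_lit 95262453733) (nat_lit 0) (nat_lit 0),Row.mk (nat_lit 28056) (nat_lit 32912) (nat_lit 8388608) (nat_lit 62084) (nat_lit 118982595181) (nat_lit 0) (nat_lit 0),Row.mk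 (nat_lit 28224) (nat_lit 32912) (nat_lit 8388608) (nat_lit 62084) (nat_lit 148608479629) (nat_lit 0) (nat_lit 0),Row.mk (nat_lit 28392) (nat_lit 32912) (nat_lit 8388608) (nat_lit 62084) (nat_lit 185610494615) (nat_lit 0) (nat_lit 0),Row.mk (nat_lit 28560) (nat_lit 32912) (nat_lit 8388608) (nat_lit 62084) (nat_lit 231825118704) (nat_lit 0) (nat_lit 0),Row.mk (nat_lit 28728) (nat_lit 32912) (nat_lit 8388608) (nat_lit 62084) (nat_lit 289546069319) (nat_lit 0) (nat_lit 0),Row.mk (nat_lit 28896) (nat_lit 32912) (nat_lit 8388608) (nat_lit 62084) (nat_lit 361638144187) (nat_lit 0) (nat_lit 0),Row.mk (nat_lit 29064) (nat_lit 32912) (nat_lit 8388608) (nat_lit 62084) (nat_lit 451679406563) (nat_lit 0) (nat_lit 0),Row.mk (nat_lit 29232) (nat_lit 32912) (nat_lit 8388608) (nat_lit 62084) (nat_lit 564138771133) (nat_lit 0) (nat_lit 0),Row.mk (nat_lit 29400) (nat_lit 32912) (nat_lit 8388608) (nat_lit 62084) (nat_lit 704597804532) (nat_lit 0) (nat_lit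 0),Row.mk (nat_lit 29568) (nat_lit 32912) (nat_lit 8388608) (nat_lit 62084) (nat_lit 880027748841) (nat_lit 0) (nat_lit 0),Row.mk (nat_lit 29736) (nat_lit 32912) (nat_lit 8388608) (nat_lit 62084) (nat_lit 1099135517246) (nat_lit 0) (nat_lit 0),Row.mk (nat_lit 29904) (nat_lit 32912) (nat_lit 8388608) (nat_lit 62084) (nat_lit 1372795834270) (nat_lit 0) (nat_lit 0),Row.mk (nat_lit 30072) (nat_lit 32912) (nat_lit 8388608) (nat_lit 62084) (nat_lit 1714590968505) (nat_lit 0) (nat_lit 0),Row.mk (nat_lit 30240) (nat_lit 32912) (nat_lit 8388608) (nat_lit 62084) (nat_lit 2141484845766) (nat_lit 0) (nat_lit 0),Row.mk (nat_lit 30408) (nat_lit 32912) (nat_lit 8388608) (nat_lit 62084) (nat_lit 2674665000160) (nat_lit 0) (nat_lit 0),Row.mk (nat_lit 30576) (nat_lit 32912) (nat_lit 8388608) (nat_lit 62084) (nat_lit 3340594150663) (nat_lit 0) (nat_lit 0),Row.mk (nat_lit 30744) (nat_lit 32912) (nat_lit 8388608) (nat_lit 62084) (nat_lit 4172323594897)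 (nat_lit 0) (nat_lit 0),Row.mk (nat_lit 30912) (nat_lit 32912) (nat_lit 8388608) (nat_lit 62084) (nat_lit 5211133606266) (nat_lit 0) (nat_lit 0),Row.mk (nat_lit 31080) (nat_lit 32912) (nat_lit 8388608) (nat_lit 62084) (nat_lit 6508582250415) (nat_lit 0) (nat_lit 0)],
[Row.mk (nat_lit 23016) (nat_lit 30481) (nat_lit 117278206) (nat_lit 37026) (nat_lit 33692452) (nat_lit 0) (nat_lit 0),Row.mk (nat_lit 23184) (nat_lit 30294) (nat_lit 154866258) (nat_lit 36839) (nat_lit 33692452) (nat_lit 0) (nat_lit 0),Row.mk (nat_lit 23352) (nat_lit 30107) (nat_lit 201812828) (nat_lit 36652) (nat_lit 33692452) (nat_lit 0) (nat_lit 0),Row.mk (nat_lit 23520) (nat_lit 29920) (nat_lit 260447962) (nat_lit 36465) (nat_lit 33692452) (nat_lit 0) (nat_lit 0),Row.mk (nat_lit 23688) (nat_lit 29733) (nat_lit 333681830) (nat_lit 36278) (nat_lit 33692452) (nat_lit 0) (nat_lit 0),Row.mk (nat_lit 23856) (nat_lit 29546) (nat_lit 425149164) (nat_lit 36091) (nat_lit 33692452)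 (nat_lit 0) (nat_lit 0),Row.mk (nat_lit 24024) (nat_lit 29359) (nat_lit 539389658) (nat_lit 35904) (nat_lit 33692452) (nat_lit 0) (nat_lit 0),Row.mk (nat_lit 24192) (nat_lit 29172) (nat_lit 682073279) (nat_lit 35717) (nat_lit 33692452) (nat_lit 0) (nat_lit 0),Row.mk (nat_lit 24360) (nat_lit 28985) (nat_lit 860281679) (nat_lit 35530) (nat_lit 33692452) (nat_lit 0) (nat_lit 0),Row.mk (nat_lit 24528) (nat_lit 28798) (nat_lit 1082859672) (nat_lit 35343) (nat_lit 33692452) (nat_lit 0) (nat_lit 0),Row.mk (nat_lit 24696) (nat_lit 28611) (nat_lit 1360854216) (nat_lit 35156) (nat_lit 33692452) (nat_lit 0) (nat_lit 0),Row.mk (nat_lit 24864) (nat_lit 28424) (nat_lit 1708062695) (nat_lit 34969) (nat_lit 33692452) (nat_lit 0) (nat_lit 0),Row.mk (nat_lit 25032) (nat_lit 28237) (nat_lit 2141717710) (nat_lit 34782) (nat_lit 33692452) (nat_lit 0) (nat_lit 0),Row.mk (nat_lit 25200) (nat_lit 28050) (nat_lit 2683342361) (nat_lit 34595) (nat_lit 33692452)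 (nat_lit 0) (nat_lit 0),Row.mk (nat_lit 25368) (nat_lit 27863) (nat_lit 3359818485) (nat_lit 34408) (nat_lit 33692452) (nat_lit 0) (nat_lit 0),Row.mk (nat_lit 25536) (nat_lit 27676) (nat_lit 4204720844) (nat_lit 34221) (nat_lit 33692452) (nat_lit 0) (nat_lit 0),Row.mk (nat_lit 25704) (nat_lit 27489) (nat_lit 5259983508) (nat_lit 34034) (nat_lit 33692452) (nat_lit 0) (nat_lit 0),Row.mk (nat_lit 25872) (nat_lit 27302) (nat_lit 6577981119) (nat_lit 33847) (nat_lit 33692452) (nat_lit 0) (nat_lit 0),Row.mk (nat_lit 26040) (nat_lit 32912) (nat_lit 8388608) (nat_lit 62084) (nat_lit 8249432185) (nat_lit 0) (nat_lit 0),Row.mk (nat_lit 26208) (nat_lit 32912) (nat_lit 8388608) (nat_lit 62084) (nat_lit 10305430352) (nat_lit 0) (nat_lit 0),Row.mk (nat_lit 26376) (nat_lit 32912) (nat_lit 8388608) (nat_lit 62084) (nat_lit 12873322465) (nat_lit 0) (nat_lit 0),Row.mk (nat_lit 26544) (nat_lit 32912) (nat_lit 8388608) (nat_lit 62084) (nat_lit 16080557766)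 (nat_lit 0) (nat_lit 0),Row.mk (nat_lit 26712) (nat_lit 32912) (nat_lit 8388608) (nat_lit 62084) (nat_lit 20086317287) (nat_lit 0) (nat_lit 0),Row.mk (nat_lit 26880) (nat_lit 32912) (nat_lit 8388608) (nat_lit 62084) (nat_lit 25089414294) (nat_lit 0) (nat_lit 0),Row.mk (nat_lit 27048) (nat_lit 32912) (nat_lit 8388608) (nat_lit 62084) (nat_lit 31338161762) (nat_lit 0) (nat_lit 0),Row.mk (nat_lit 27216) (nat_lit 32912) (nat_lit 8388608) (nat_lit 62084) (nat_lit 39142696606) (nat_lit 0) (nat_lit 0),Row.mk (nat_lit 27384) (nat_lit 32912) (nat_lit 8388608) (nat_lit 62084) (nat_lit 48890372351) (nat_lit 0) (nat_lit 0),Row.mk (nat_lit 27552) (nat_lit 32912) (nat_lit 8388608) (nat_lit 62084) (nat_lit 61064984206) (nat_lit 0) (nat_lit 0),Row.mk (nat_lit 27720) (nat_lit 32912) (nat_lit 8388608) (nat_lit 62084) (nat_lit 76270780715) (nat_lit 0) (nat_lit 0),Row.mk (nat_lit 27888) (nat_lit 32912) (nat_lit 8388608) (nat_lit 62084) (nat_lit 95262453733)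 (nat_lit 0) (nat_lit 0),Row.mk (nat_lit 28056) (nat_lit 32912) (nat_lit 8388608) (nat_lit 62084) (nat_lit 118982595181) (nat_lit 0) (nat_lit 0),Row.mk (nat_lit 28224) (nat_lit 32912) (nat_lit 8388608) (nat_lit 62084) (nat_lit 148608479629) (nat_lit 0) (nat_lit 0),Row.mk (nat_lit 28392) (nat_lit 32912) (nat_lit 8388608) (nat_lit 62084) (nat_lit 185610494615) (nat_lit 0) (nat_lit 0),Row.mk (nat_lit 28560) (nat_lit 32912) (nat_lit 8388608) (nat_lit 62084) (nat_lit 231825118704) (nat_lit 0) (nat_lit 0),Row.mk (nat_lit 28728) (nat_lit 32912) (nat_lit 8388608) (nat_lit 62084) (nat_lit 289546069319) (nat_lit 0) (nat_lit 0),Row.mk (nat_lit 28896) (nat_lit 32912) (nat_lit 8388608) (nat_lit 62084) (nat_lit 361638144187) (nat_lit 0) (nat_lit 0),Row.mk (nat_lit 29064) (nat_lit 32912) (nat_lit 8388608) (nat_lit 62084) (nat_lit 451679406563) (nat_lit 0) (nat_lit 0),Row.mk (nat_lit 29232) (nat_lit 32912) (nat_lit 8388608) (nat_lit 62084) (nat_lit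 564138771133) (nat_lit 0) (nat_lit 0),Row.mk (nat_lit 29400) (nat_lit 32912) (nat_lit 8388608) (nat_lit 62084) (nat_lit 704597804532) (nat_lit 0) (nat_lit 0),Row.mk (nat_lit 29568) (nat_lit 32912) (nat_lit 8388608) (nat_lit 62084) (nat_lit 880027748841) (nat_lit 0) (nat_lit 0),Row.mk (nat_lit 29736) (nat_lit 32912) (nat_lit 8388608) (nat_lit 62084) (nat_lit 1099135517246) (nat_lit 0) (nat_lit 0),Row.mk (nat_lit 29904) (nat_lit 32912) (nat_lit 8388608) (nat_lit 62084) (nat_lit 1372795834270) (nat_lit 0) (nat_lit 0),Row.mk (nat_lit 30072) (nat_lit 32912) (nat_lit 8388608) (nat_lit 62084) (nat_lit 1714590968505) (nat_lit 0) (nat_lit 0),Row.mk (nat_lit 30240) (nat_lit 32912) (nat_lit 8388608) (nat_lit 62084) (nat_lit 2141484845766) (nat_lit 0) (nat_lit 0),Row.mk (nat_lit 30408) (nat_lit 32912) (nat_lit 8388608) (nat_lit 62084) (nat_lit 2674665000160) (nat_lit 0) (nat_lit 0),Row.mk (nat_lit 30576) (nat_lit 32912) (nat_lit 8388608) (nat_lit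 62084) (nat_lit 3340594150663) (nat_lit 0) (nat_lit 0),Row.mk (nat_lit 30744) (nat_lit 32912) (nat_lit 8388608) (nat_lit 62084) (nat_lit 4172323594897) (nat_lit 0) (nat_lit 0),Row.mk (nat_lit 30912) (nat_lit 32912) (nat_lit 8388608) (nat_lit 62084) (nat_lit 5211133606266) (nat_lit 0) (nat_lit 0),Row.mk (nat_lit 31080) (nat_lit 32912) (nat_lit 8388608) (nat_lit 62084) (nat_lit 6508582250415) (nat_lit 0) (nat_lit 0)],
[Row.mk (nat_lit 23184) (nat_lit 30294) (nat_lit 154866258) (nat_lit 36839) (nat_lit 33692452) (nat_lit 0) (nat_lit 0),Row.mk (nat_lit 23352) (nat_lit 30107) (nat_lit 201812828) (nat_lit 36652) (nat_lit 33692452) (nat_lit 0) (nat_lit 0),Row.mk (nat_lit 23520) (nat_lit 29920) (nat_lit 260447962) (nat_lit 36465) (nat_lit 33692452) (nat_lit 0) (nat_lit 0),Row.mk (nat_lit 23688) (nat_lit 29733) (nat_lit 333681830) (nat_lit 36278) (nat_lit 33692452) (nat_lit 0) (nat_lit 0),Row.mk (nat_lit 23856) (nat_lit 29546) (nat_lit 425149164)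 (nat_lit 36091) (nat_lit 33692452) (nat_lit 0) (nat_lit 0),Row.mk (nat_lit 24024) (nat_lit 29359) (nat_lit 539389658) (nat_lit 35904) (nat_lit 33692452) (nat_lit 0) (nat_lit 0),Row.mk (nat_lit 24192) (nat_lit 29172) (nat_lit 682073279) (nat_lit 35717) (nat_lit 33692452) (nat_lit 0) (nat_lit 0),Row.mk (nat_lit 24360) (nat_lit 28985) (nat_lit 860281679) (nat_lit 35530) (nat_lit 33692452) (nat_lit 0) (nat_lit 0),Row.mk (nat_lit 24528) (nat_lit 28798) (nat_lit 1082859672) (nat_lit 35343) (nat_lit 33692452) (nat_lit 0) (nat_lit 0),Row.mk (nat_lit 24696) (nat_lit 28611) (nat_lit 1360854216) (nat_lit 35156) (nat_lit 33692452) (nat_lit 0) (nat_lit 0),Row.mk (nat_lit 24864) (nat_lit 28424) (nat_lit 1708062695) (nat_lit 34969) (nat_lit 33692452) (nat_lit 0) (nat_lit 0),Row.mk (nat_lit 25032) (nat_lit 28237) (nat_lit 2141717710) (nat_lit 34782) (nat_lit 33692452) (nat_lit 0) (nat_lit 0),Row.mk (nat_lit 25200) (nat_lit 28050) (nat_lit 2683342361)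 (nat_lit 34595) (nat_lit 33692452) (nat_lit 0) (nat_lit 0),Row.mk (nat_lit 25368) (nat_lit 27863) (nat_lit 3359818485) (nat_lit 34408) (nat_lit 33692452) (nat_lit 0) (nat_lit 0),Row.mk (nat_lit 25536) (nat_lit 27676) (nat_lit 4204720844) (nat_lit 34221) (nat_lit 33692452) (nat_lit 0) (nat_lit 0),Row.mk (nat_lit 25704) (nat_lit 27489) (nat_lit 5259983508) (nat_lit 34034) (nat_lit 33692452) (nat_lit 0) (nat_lit 0),Row.mk (nat_lit 25872) (nat_lit 27302) (nat_lit 6577981119) (nat_lit 33847) (nat_lit 33692452) (nat_lit 0) (nat_lit 0),Row.mk (nat_lit 26040) (nat_lit 32912) (nat_lit 8388608) (nat_lit 62084) (nat_lit 8249432185) (nat_lit 0) (nat_lit 0),Row.mk (nat_lit 26208) (nat_lit 32912) (nat_lit 8388608) (nat_lit 62084) (nat_lit 10305430352) (nat_lit 0) (nat_lit 0),Row.mk (nat_lit 26376) (nat_lit 32912) (nat_lit 8388608) (nat_lit 62084) (nat_lit 12873322465) (nat_lit 0) (nat_lit 0),Row.mk (nat_lit 26544) (nat_lit 32912) (nat_lit 8388608)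 (nat_lit 62084) (nat_lit 16080557766) (nat_lit 0) (nat_lit 0),Row.mk (nat_lit 26712) (nat_lit 32912) (nat_lit 8388608) (nat_lit 62084) (nat_lit 20086317287) (nat_lit 0) (nat_lit 0),Row.mk (nat_lit 26880) (nat_lit 32912) (nat_lit 8388608) (nat_lit 62084) (nat_lit 25089414294) (nat_lit 0) (nat_lit 0),Row.mk (nat_lit 27048) (nat_lit 32912) (nat_lit 8388608) (nat_lit 62084) (nat_lit 31338161762) (nat_lit 0) (nat_lit 0),Row.mk (nat_lit 27216) (nat_lit 32912) (nat_lit 8388608) (nat_lit 62084) (nat_lit 39142696606) (nat_lit 0) (nat_lit 0),Row.mk (nat_lit 27384) (nat_lit 32912) (nat_lit 8388608) (nat_lit 62084) (nat_lit 48890372351) (nat_lit 0) (nat_lit 0),Row.mk (nat_lit 27552) (nat_lit 32912) (nat_lit 8388608) (nat_lit 62084) (nat_lit 61064984206) (nat_lit 0) (nat_lit 0),Row.mk (nat_lit 27720) (nat_lit 32912) (nat_lit 8388608) (nat_lit 62084) (nat_lit 76270780715) (nat_lit 0) (nat_lit 0),Row.mk (nat_lit 27888) (nat_lit 32912) (nat_lit 8388608)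 (nat_lit 62084) (nat_lit 95262453733) (nat_lit 0) (nat_lit 0),Row.mk (nat_lit 28056) (nat_lit 32912) (nat_lit 8388608) (nat_lit 62084) (nat_lit 118982595181) (nat_lit 0) (nat_lit 0),Row.mk (nat_lit 28224) (nat_lit 32912) (nat_lit 8388608) (nat_lit 62084) (nat_lit 148608479629) (nat_lit 0) (nat_lit 0),Row.mk (nat_lit 28392) (nat_lit 32912) (nat_lit 8388608) (nat_lit 62084) (nat_lit 185610494615) (nat_lit 0) (nat_lit 0),Row.mk (nat_lit 28560) (nat_lit 32912) (nat_lit 8388608) (nat_lit 62084) (nat_lit 231825118704) (nat_lit 0) (nat_lit 0),Row.mk (nat_lit 28728) (nat_lit 32912) (nat_lit 8388608) (nat_lit 62084) (nat_lit 289546069319) (nat_lit 0) (nat_lit 0),Row.mk (nat_lit 28896) (nat_lit 32912) (nat_lit 8388608) (nat_lit 62084) (nat_lit 361638144187) (nat_lit 0) (nat_lit 0),Row.mk (nat_lit 29064) (nat_lit 32912) (nat_lit 8388608) (nat_lit 62084) (nat_lit 451679406563) (nat_lit 0) (nat_lit 0),Row.mk (nat_lit 29232) (nat_lit 32912) (nat_lit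 8388608) (nat_lit 62084) (nat_lit 564138771133) (nat_lit 0) (nat_lit 0),Row.mk (nat_lit 29400) (nat_lit 32912) (nat_lit 8388608) (nat_lit 62084) (nat_lit 704597804532) (nat_lit 0) (nat_lit 0),Row.mk (nat_lit 29568) (nat_lit 32912) (nat_lit 8388608) (nat_lit 62084) (nat_lit 880027748841) (nat_lit 0) (nat_lit 0),Row.mk (nat_lit 29736) (nat_lit 32912) (nat_lit 8388608) (nat_lit 62084) (nat_lit 1099135517246) (nat_lit 0) (nat_lit 0),Row.mk (nat_lit 29904) (nat_lit 32912) (nat_lit 8388608) (nat_lit 62084) (nat_lit 1372795834270) (nat_lit 0) (nat_lit 0),Row.mk (nat_lit 30072) (nat_lit 32912) (nat_lit 8388608) (nat_lit 62084) (nat_lit 1714590968505) (nat_lit 0) (nat_lit 0),Row.mk (nat_lit 30240) (nat_lit 32912) (nat_lit 8388608) (nat_lit 62084) (nat_lit 2141484845766) (nat_lit 0) (nat_lit 0),Row.mk (nat_lit 30408) (nat_lit 32912) (nat_lit 8388608) (nat_lit 62084) (nat_lit 2674665000160) (nat_lit 0) (nat_lit 0),Row.mk (nat_lit 30576) (nat_lit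 32912) (nat_lit 8388608) (nat_lit 62084) (nat_lit 3340594150663) (nat_lit 0) (nat_lit 0),Row.mk (nat_lit 30744) (nat_lit 32912) (nat_lit 8388608) (nat_lit 62084) (nat_lit 4172323594897) (nat_lit 0) (nat_lit 0),Row.mk (nat_lit 30912) (nat_lit 32912) (nat_lit 8388608) (nat_lit 62084) (nat_lit 5211133606266) (nat_lit 0) (nat_lit 0),Row.mk (nat_lit 31080) (nat_lit 32912) (nat_lit 8388608) (nat_lit 62084) (nat_lit 6508582250415) (nat_lit 0) (nat_lit 0)],
[Row.mk (nat_lit 23520) (nat_lit 29920) (nat_lit 260447962) (nat_lit 36465) (nat_lit 33692452) (nat_lit 0) (nat_lit 0),Row.mk (nat_lit 23688) (nat_lit 29733) (nat_lit 333681830) (nat_lit 36278) (nat_lit 33692452) (nat_lit 0) (nat_lit 0),Row.mk (nat_lit 23856) (nat_lit 29546) (nat_lit 425149164) (nat_lit 36091) (nat_lit 33692452) (nat_lit 0) (nat_lit 0),Row.mk (nat_lit 24024) (nat_lit 29359) (nat_lit 539389658) (nat_lit 35904) (nat_lit 33692452) (nat_lit 0) (nat_lit 0),Row.mk (nat_lit 24192)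 (nat_lit 29172) (nat_lit 682073279) (nat_lit 35717) (nat_lit 33692452) (nat_lit 0) (nat_lit 0),Row.mk (nat_lit 24360) (nat_lit 28985) (nat_lit 860281679) (nat_lit 35530) (nat_lit 33692452) (nat_lit 0) (nat_lit 0),Row.mk (nat_lit 24528) (nat_lit 28798) (nat_lit 1082859672) (nat_lit 35343) (nat_lit 33692452) (nat_lit 0) (nat_lit 0),Row.mk (nat_lit 24696) (nat_lit 28611) (nat_lit 1360854216) (nat_lit 35156) (nat_lit 33692452) (nat_lit 0) (nat_lit 0),Row.mk (nat_lit 24864) (nat_lit 28424) (nat_lit 1708062695) (nat_lit 34969) (nat_lit 33692452) (nat_lit 0) (nat_lit 0),Row.mk (nat_lit 25032) (nat_lit 28237) (nat_lit 2141717710) (nat_lit 34782) (nat_lit 33692452) (nat_lit 0) (nat_lit 0),Row.mk (nat_lit 25200) (nat_lit 28050) (nat_lit 2683342361) (nat_lit 34595) (nat_lit 33692452) (nat_lit 0) (nat_lit 0),Row.mk (nat_lit 25368) (nat_lit 27863) (nat_lit 3359818485) (nat_lit 34408) (nat_lit 33692452) (nat_lit 0) (nat_lit 0),Row.mk (nat_lit 25536)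 (nat_lit 27676) (nat_lit 4204720844) (nat_lit 34221) (nat_lit 33692452) (nat_lit 0) (nat_lit 0),Row.mk (nat_lit 25704) (nat_lit 27489) (nat_lit 5259983508) (nat_lit 34034) (nat_lit 33692452) (nat_lit 0) (nat_lit 0),Row.mk (nat_lit 25872) (nat_lit 27302) (nat_lit 6577981119) (nat_lit 33847) (nat_lit 33692452) (nat_lit 0) (nat_lit 0),Row.mk (nat_lit 26040) (nat_lit 32912) (nat_lit 8388608) (nat_lit 62084) (nat_lit 8249432185) (nat_lit 0) (nat_lit 0),Row.mk (nat_lit 26208) (nat_lit 32912) (nat_lit 8388608) (nat_lit 62084) (nat_lit 10305430352) (nat_lit 0) (nat_lit 0),Row.mk (nat_lit 26376) (nat_lit 32912) (nat_lit 8388608) (nat_lit 62084) (nat_lit 12873322465) (nat_lit 0) (nat_lit 0),Row.mk (nat_lit 26544) (nat_lit 32912) (nat_lit 8388608) (nat_lit 62084) (nat_lit 16080557766) (nat_lit 0) (nat_lit 0),Row.mk (nat_lit 26712) (nat_lit 32912) (nat_lit 8388608) (nat_lit 62084) (nat_lit 20086317287) (nat_lit 0) (nat_lit 0),Row.mk (nat_lit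 26880) (nat_lit 32912) (nat_lit 8388608) (nat_lit 62084) (nat_lit 25089414294) (nat_lit 0) (nat_lit 0),Row.mk (nat_lit 27048) (nat_lit 32912) (nat_lit 8388608) (nat_lit 62084) (nat_lit 31338161762) (nat_lit 0) (nat_lit 0),Row.mk (nat_lit 27216) (nat_lit 32912) (nat_lit 8388608) (nat_lit 62084) (nat_lit 39142696606) (nat_lit 0) (nat_lit 0),Row.mk (nat_lit 27384) (nat_lit 32912) (nat_lit 8388608) (nat_lit 62084) (nat_lit 48890372351) (nat_lit 0) (nat_lit 0),Row.mk (nat_lit 27552) (nat_lit 32912) (nat_lit 8388608) (nat_lit 62084) (nat_lit 61064984206) (nat_lit 0) (nat_lit 0),Row.mk (nat_lit 27720) (nat_lit 32912) (nat_lit 8388608) (nat_lit 62084) (nat_lit 76270780715) (nat_lit 0) (nat_lit 0),Row.mk (nat_lit 27888) (nat_lit 32912) (nat_lit 8388608) (nat_lit 62084) (nat_lit 95262453733) (nat_lit 0) (nat_lit 0),Row.mk (nat_lit 28056) (nat_lit 32912) (nat_lit 8388608) (nat_lit 62084) (nat_lit 118982595181) (nat_lit 0) (nat_lit 0),Row.mk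 (nat_lit 28224) (nat_lit 32912) (nat_lit 8388608) (nat_lit 62084) (nat_lit 148608479629) (nat_lit 0) (nat_lit 0),Row.mk (nat_lit 28392) (nat_lit 32912) (nat_lit 8388608) (nat_lit 62084) (nat_lit 185610494615) (nat_lit 0) (nat_lit 0),Row.mk (nat_lit 28560) (nat_lit 32912) (nat_lit 8388608) (nat_lit 62084) (nat_lit 231825118704) (nat_lit 0) (nat_lit 0),Row.mk (nat_lit 28728) (nat_lit 32912) (nat_lit 8388608) (nat_lit 62084) (nat_lit 289546069319) (nat_lit 0) (nat_lit 0),Row.mk (nat_lit 28896) (nat_lit 32912) (nat_lit 8388608) (nat_lit 62084) (nat_lit 361638144187) (nat_lit 0) (nat_lit 0),Row.mk (nat_lit 29064) (nat_lit 32912) (nat_lit 8388608) (nat_lit 62084) (nat_lit 451679406563) (nat_lit 0) (nat_lit 0),Row.mk (nat_lit 29232) (nat_lit 32912) (nat_lit 8388608) (nat_lit 62084) (nat_lit 564138771133) (nat_lit 0) (nat_lit 0),Row.mk (nat_lit 29400) (nat_lit 32912) (nat_lit 8388608) (nat_lit 62084) (nat_lit 704597804532) (nat_lit 0) (nat_lit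 0),Row.mk (nat_lit 29568) (nat_lit 32912) (nat_lit 8388608) (nat_lit 62084) (nat_lit 880027748841) (nat_lit 0) (nat_lit 0),Row.mk (nat_lit 29736) (nat_lit 32912) (nat_lit 8388608) (nat_lit 62084) (nat_lit 1099135517246) (nat_lit 0) (nat_lit 0),Row.mk (nat_lit 29904) (nat_lit 32912) (nat_lit 8388608) (nat_lit 62084) (nat_lit 1372795834270) (nat_lit 0) (nat_lit 0),Row.mk (nat_lit 30072) (nat_lit 32912) (nat_lit 8388608) (nat_lit 62084) (nat_lit 1714590968505) (nat_lit 0) (nat_lit 0),Row.mk (nat_lit 30240) (nat_lit 32912) (nat_lit 8388608) (nat_lit 62084) (nat_lit 2141484845766) (nat_lit 0) (nat_lit 0),Row.mk (nat_lit 30408) (nat_lit 32912) (nat_lit 8388608) (nat_lit 62084) (nat_lit 2674665000160) (nat_lit 0) (nat_lit 0),Row.mk (nat_lit 30576) (nat_lit 32912) (nat_lit 8388608) (nat_lit 62084) (nat_lit 3340594150663) (nat_lit 0) (nat_lit 0),Row.mk (nat_lit 30744) (nat_lit 32912) (nat_lit 8388608) (nat_lit 62084) (nat_lit 4172323594897)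 (nat_lit 0) (nat_lit 0),Row.mk (nat_lit 30912) (nat_lit 32912) (nat_lit 8388608) (nat_lit 62084) (nat_lit 5211133606266) (nat_lit 0) (nat_lit 0),Row.mk (nat_lit 31080) (nat_lit 32912) (nat_lit 8388608) (nat_lit 62084) (nat_lit 6508582250415) (nat_lit 0) (nat_lit 0)],
[Row.mk (nat_lit 23688) (nat_lit 29733) (nat_lit 333681830) (nat_lit 36278) (nat_lit 33692452) (nat_lit 0) (nat_lit 0),Row.mk (nat_lit 23856) (nat_lit 29546) (nat_lit 425149164) (nat_lit 36091) (nat_lit 33692452) (nat_lit 0) (nat_lit 0),Row.mk (nat_lit 24024) (nat_lit 29359) (nat_lit 539389658) (nat_lit 35904) (nat_lit 33692452) (nat_lit 0) (nat_lit 0),Row.mk (nat_lit 24192) (nat_lit 29172) (nat_lit 682073279) (nat_lit 35717) (nat_lit 33692452) (nat_lit 0) (nat_lit 0),Row.mk (nat_lit 24360) (nat_lit 28985) (nat_lit 860281679) (nat_lit 35530) (nat_lit 33692452) (nat_lit 0) (nat_lit 0),Row.mk (nat_lit 24528) (nat_lit 28798) (nat_lit 1082859672) (nat_lit 35343) (nat_lit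 33692452) (nat_lit 0) (nat_lit 0),Row.mk (nat_lit 24696) (nat_lit 28611) (nat_lit 1360854216) (nat_lit 35156) (nat_lit 33692452) (nat_lit 0) (nat_lit 0),Row.mk (nat_lit 24864) (nat_lit 28424) (nat_lit 1708062695) (nat_lit 34969) (nat_lit 33692452) (nat_lit 0) (nat_lit 0),Row.mk (nat_lit 25032) (nat_lit 28237) (nat_lit 2141717710) (nat_lit 34782) (nat_lit 33692452) (nat_lit 0) (nat_lit 0),Row.mk (nat_lit 25200) (nat_lit 28050) (nat_lit 2683342361) (nat_lit 34595) (nat_lit 33692452) (nat_lit 0) (nat_lit 0),Row.mk (nat_lit 25368) (nat_lit 27863) (nat_lit 3359818485) (nat_lit 34408) (nat_lit 33692452) (nat_lit 0) (nat_lit 0),Row.mk (nat_lit 25536) (nat_lit 27676) (nat_lit 4204720844) (nat_lit 34221) (nat_lit 33692452) (nat_lit 0) (nat_lit 0),Row.mk (nat_lit 25704) (nat_lit 27489) (nat_lit 5259983508) (nat_lit 34034) (nat_lit 33692452) (nat_lit 0) (nat_lit 0),Row.mk (nat_lit 25872) (nat_lit 27302) (nat_lit 6577981119) (nat_lit 33847) (nat_lit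 33692452) (nat_lit 0) (nat_lit 0),Row.mk (nat_lit 26040) (nat_lit 32912) (nat_lit 8388608) (nat_lit 62084) (nat_lit 8249432185) (nat_lit 0) (nat_lit 0),Row.mk (nat_lit 26208) (nat_lit 32912) (nat_lit 8388608) (nat_lit 62084) (nat_lit 10305430352) (nat_lit 0) (nat_lit 0),Row.mk (nat_lit 26376) (nat_lit 32912) (nat_lit 8388608) (nat_lit 62084) (nat_lit 12873322465) (nat_lit 0) (nat_lit 0),Row.mk (nat_lit 26544) (nat_lit 32912) (nat_lit 8388608) (nat_lit 62084) (nat_lit 16080557766) (nat_lit 0) (nat_lit 0),Row.mk (nat_lit 26712) (nat_lit 32912) (nat_lit 8388608) (nat_lit 62084) (nat_lit 20086317287) (nat_lit 0) (nat_lit 0),Row.mk (nat_lit 26880) (nat_lit 32912) (nat_lit 8388608) (nat_lit 62084) (nat_lit 25089414294) (nat_lit 0) (nat_lit 0),Row.mk (nat_lit 27048) (nat_lit 32912) (nat_lit 8388608) (nat_lit 62084) (nat_lit 31338161762) (nat_lit 0) (nat_lit 0),Row.mk (nat_lit 27216) (nat_lit 32912) (nat_lit 8388608) (nat_lit 62084) (nat_lit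 39142696606) (nat_lit 0) (nat_lit 0),Row.mk (nat_lit 27384) (nat_lit 32912) (nat_lit 8388608) (nat_lit 62084) (nat_lit 48890372351) (nat_lit 0) (nat_lit 0),Row.mk (nat_lit 27552) (nat_lit 32912) (nat_lit 8388608) (nat_lit 62084) (nat_lit 61064984206) (nat_lit 0) (nat_lit 0),Row.mk (nat_lit 27720) (nat_lit 32912) (nat_lit 8388608) (nat_lit 62084) (nat_lit 76270780715) (nat_lit 0) (nat_lit 0),Row.mk (nat_lit 27888) (nat_lit 32912) (nat_lit 8388608) (nat_lit 62084) (nat_lit 95262453733) (nat_lit 0) (nat_lit 0),Row.mk (nat_lit 28056) (nat_lit 32912) (nat_lit 8388608) (nat_lit 62084) (nat_lit 118982595181) (nat_lit 0) (nat_lit 0),Row.mk (nat_lit 28224) (nat_lit 32912) (nat_lit 8388608) (nat_lit 62084) (nat_lit 148608479629) (nat_lit 0) (nat_lit 0),Row.mk (nat_lit 28392) (nat_lit 32912) (nat_lit 8388608) (nat_lit 62084) (nat_lit 185610494615) (nat_lit 0) (nat_lit 0),Row.mk (nat_lit 28560) (nat_lit 32912) (nat_lit 8388608) (nat_lit 62084)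 (nat_lit 231825118704) (nat_lit 0) (nat_lit 0),Row.mk (nat_lit 28728) (nat_lit 32912) (nat_lit 8388608) (nat_lit 62084) (nat_lit 289546069319) (nat_lit 0) (nat_lit 0),Row.mk (nat_lit 28896) (nat_lit 32912) (nat_lit 8388608) (nat_lit 62084) (nat_lit 361638144187) (nat_lit 0) (nat_lit 0),Row.mk (nat_lit 29064) (nat_lit 32912) (nat_lit 8388608) (nat_lit 62084) (nat_lit 451679406563) (nat_lit 0) (nat_lit 0),Row.mk (nat_lit 29232) (nat_lit 32912) (nat_lit 8388608) (nat_lit 62084) (nat_lit 564138771133) (nat_lit 0) (nat_lit 0),Row.mk (nat_lit 29400) (nat_lit 32912) (nat_lit 8388608) (nat_lit 62084) (nat_lit 704597804532) (nat_lit 0) (nat_lit 0),Row.mk (nat_lit 29568) (nat_lit 32912) (nat_lit 8388608) (nat_lit 62084) (nat_lit 880027748841) (nat_lit 0) (nat_lit 0),Row.mk (nat_lit 29736) (nat_lit 32912) (nat_lit 8388608) (nat_lit 62084) (nat_lit 1099135517246) (nat_lit 0) (nat_lit 0),Row.mk (nat_lit 29904) (nat_lit 32912) (nat_lit 8388608)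 (nat_lit 62084) (nat_lit 1372795834270) (nat_lit 0) (nat_lit 0),Row.mk (nat_lit 30072) (nat_lit 32912) (nat_lit 8388608) (nat_lit 62084) (nat_lit 1714590968505) (nat_lit 0) (nat_lit 0),Row.mk (nat_lit 30240) (nat_lit 32912) (nat_lit 8388608) (nat_lit 62084) (nat_lit 2141484845766) (nat_lit 0) (nat_lit 0),Row.mk (nat_lit 30408) (nat_lit 32912) (nat_lit 8388608) (nat_lit 62084) (nat_lit 2674665000160) (nat_lit 0) (nat_lit 0),Row.mk (nat_lit 30576) (nat_lit 32912) (nat_lit 8388608) (nat_lit 62084) (nat_lit 3340594150663) (nat_lit 0) (nat_lit 0),Row.mk (nat_lit 30744) (nat_lit 32912) (nat_lit 8388608) (nat_lit 62084) (nat_lit 4172323594897) (nat_lit 0) (nat_lit 0),Row.mk (nat_lit 30912) (nat_lit 32912) (nat_lit 8388608) (nat_lit 62084) (nat_lit 5211133606266) (nat_lit 0) (nat_lit 0),Row.mk (nat_lit 31080) (nat_lit 32912) (nat_lit 8388608) (nat_lit 62084) (nat_lit 6508582250415) (nat_lit 0) (nat_lit 0)],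
[Row.mk (nat_lit 24024) (nat_lit 29359) (nat_lit 539389658) (nat_lit 35904) (nat_lit 33692452) (nat_lit 0) (nat_lit 0),Row.mk (nat_lit 24192) (nat_lit 29172) (nat_lit 682073279) (nat_lit 35717) (nat_lit 33692452) (nat_lit 0) (nat_lit 0),Row.mk (nat_lit 24360) (nat_lit 28985) (nat_lit 860281679) (nat_lit 35530) (nat_lit 33692452) (nat_lit 0) (nat_lit 0),Row.mk (nat_lit 24528) (nat_lit 28798) (nat_lit 1082859672) (nat_lit 35343) (nat_lit 33692452) (nat_lit 0) (nat_lit 0),Row.mk (nat_lit 24696) (nat_lit 28611) (nat_lit 1360854216) (nat_lit 35156) (nat_lit 33692452) (nat_lit 0) (nat_lit 0),Row.mk (nat_lit 24864) (nat_lit 28424) (nat_lit 1708062695) (nat_lit 34969) (nat_lit 33692452) (nat_lit 0) (nat_lit 0),Row.mk (nat_lit 25032) (nat_lit 28237) (nat_lit 2141717710) (nat_lit 34782) (nat_lit 33692452) (nat_lit 0) (nat_lit 0),Row.mk (nat_lit 25200) (nat_lit 28050) (nat_lit 2683342361) (nat_lit 34595) (nat_lit 33692452) (nat_lit 0) (nat_lit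 0),Row.mk (nat_lit 25368) (nat_lit 27863) (nat_lit 3359818485) (nat_lit 34408) (nat_lit 33692452) (nat_lit 0) (nat_lit 0),Row.mk (nat_lit 25536) (nat_lit 27676) (nat_lit 4204720844) (nat_lit 34221) (nat_lit 33692452) (nat_lit 0) (nat_lit 0),Row.mk (nat_lit 25704) (nat_lit 27489) (nat_lit 5259983508) (nat_lit 34034) (nat_lit 33692452) (nat_lit 0) (nat_lit 0),Row.mk (nat_lit 25872) (nat_lit 27302) (nat_lit 6577981119) (nat_lit 33847) (nat_lit 33692452) (nat_lit 0) (nat_lit 0),Row.mk (nat_lit 26040) (nat_lit 32912) (nat_lit 8388608) (nat_lit 62084) (nat_lit 8249432185) (nat_lit 0) (nat_lit 0),Row.mk (nat_lit 26208) (nat_lit 32912) (nat_lit 8388608) (nat_lit 62084) (nat_lit 10305430352) (nat_lit 0) (nat_lit 0),Row.mk (nat_lit 26376) (nat_lit 32912) (nat_lit 8388608) (nat_lit 62084) (nat_lit 12873322465) (nat_lit 0) (nat_lit 0),Row.mk (nat_lit 26544) (nat_lit 32912) (nat_lit 8388608) (nat_lit 62084) (nat_lit 16080557766) (nat_lit 0) (nat_lit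 0),Row.mk (nat_lit 26712) (nat_lit 32912) (nat_lit 8388608) (nat_lit 62084) (nat_lit 20086317287) (nat_lit 0) (nat_lit 0),Row.mk (nat_lit 26880) (nat_lit 32912) (nat_lit 8388608) (nat_lit 62084) (nat_lit 25089414294) (nat_lit 0) (nat_lit 0),Row.mk (nat_lit 27048) (nat_lit 32912) (nat_lit 8388608) (nat_lit 62084) (nat_lit 31338161762) (nat_lit 0) (nat_lit 0),Row.mk (nat_lit 27216) (nat_lit 32912) (nat_lit 8388608) (nat_lit 62084) (nat_lit 39142696606) (nat_lit 0) (nat_lit 0),Row.mk (nat_lit 27384) (nat_lit 32912) (nat_lit 8388608) (nat_lit 62084) (nat_lit 48890372351) (nat_lit 0) (nat_lit 0),Row.mk (nat_lit 27552) (nat_lit 32912) (nat_lit 8388608) (nat_lit 62084) (nat_lit 61064984206) (nat_lit 0) (nat_lit 0),Row.mk (nat_lit 27720) (nat_lit 32912) (nat_lit 8388608) (nat_lit 62084) (nat_lit 76270780715) (nat_lit 0) (nat_lit 0),Row.mk (nat_lit 27888) (nat_lit 32912) (nat_lit 8388608) (nat_lit 62084) (nat_lit 95262453733) (nat_lit 0) (nat_lit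 0),Row.mk (nat_lit 28056) (nat_lit 32912) (nat_lit 8388608) (nat_lit 62084) (nat_lit 118982595181) (nat_lit 0) (nat_lit 0),Row.mk (nat_lit 28224) (nat_lit 32912) (nat_lit 8388608) (nat_lit 62084) (nat_lit 148608479629) (nat_lit 0) (nat_lit 0),Row.mk (nat_lit 28392) (nat_lit 32912) (nat_lit 8388608) (nat_lit 62084) (nat_lit 185610494615) (nat_lit 0) (nat_lit 0),Row.mk (nat_lit 28560) (nat_lit 32912) (nat_lit 8388608) (nat_lit 62084) (nat_lit 231825118704) (nat_lit 0) (nat_lit 0),Row.mk (nat_lit 28728) (nat_lit 32912) (nat_lit 8388608) (nat_lit 62084) (nat_lit 289546069319) (nat_lit 0) (nat_lit 0),Row.mk (nat_lit 28896) (nat_lit 32912) (nat_lit 8388608) (nat_lit 62084) (nat_lit 361638144187) (nat_lit 0) (nat_lit 0),Row.mk (nat_lit 29064) (nat_lit 32912) (nat_lit 8388608) (nat_lit 62084) (nat_lit 451679406563) (nat_lit 0) (nat_lit 0),Row.mk (nat_lit 29232) (nat_lit 32912) (nat_lit 8388608) (nat_lit 62084) (nat_lit 564138771133) (nat_lit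 0) (nat_lit 0),Row.mk (nat_lit 29400) (nat_lit 32912) (nat_lit 8388608) (nat_lit 62084) (nat_lit 704597804532) (nat_lit 0) (nat_lit 0),Row.mk (nat_lit 29568) (nat_lit 32912) (nat_lit 8388608) (nat_lit 62084) (nat_lit 880027748841) (nat_lit 0) (nat_lit 0),Row.mk (nat_lit 29736) (nat_lit 32912) (nat_lit 8388608) (nat_lit 62084) (nat_lit 1099135517246) (nat_lit 0) (nat_lit 0),Row.mk (nat_lit 29904) (nat_lit 32912) (nat_lit 8388608) (nat_lit 62084) (nat_lit 1372795834270) (nat_lit 0) (nat_lit 0),Row.mk (nat_lit 30072) (nat_lit 32912) (nat_lit 8388608) (nat_lit 62084) (nat_lit 1714590968505) (nat_lit 0) (nat_lit 0),Row.mk (nat_lit 30240) (nat_lit 32912) (nat_lit 8388608) (nat_lit 62084) (nat_lit 2141484845766) (nat_lit 0) (nat_lit 0),Row.mk (nat_lit 30408) (nat_lit 32912) (nat_lit 8388608) (nat_lit 62084) (nat_lit 2674665000160) (nat_lit 0) (nat_lit 0),Row.mk (nat_lit 30576) (nat_lit 32912) (nat_lit 8388608) (nat_lit 62084) (nat_lit 3340594150663)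 (nat_lit 0) (nat_lit 0),Row.mk (nat_lit 30744) (nat_lit 32912) (nat_lit 8388608) (nat_lit 62084) (nat_lit 4172323594897) (nat_lit 0) (nat_lit 0),Row.mk (nat_lit 30912) (nat_lit 32912) (nat_lit 8388608) (nat_lit 62084) (nat_lit 5211133606266) (nat_lit 0) (nat_lit 0),Row.mk (nat_lit 31080) (nat_lit 32912) (nat_lit 8388608) (nat_lit 62084) (nat_lit 6508582250415) (nat_lit 0) (nat_lit 0)],
[Row.mk (nat_lit 24192) (nat_lit 29172) (nat_lit 682073279) (nat_lit 35717) (nat_lit 33692452) (nat_lit 0) (nat_lit 0),Row.mk (nat_lit 24360) (nat_lit 28985) (nat_lit 860281679) (nat_lit 35530) (nat_lit 33692452) (nat_lit 0) (nat_lit 0),Row.mk (nat_lit 24528) (nat_lit 28798) (nat_lit 1082859672) (nat_lit 35343) (nat_lit 33692452) (nat_lit 0) (nat_lit 0),Row.mk (nat_lit 24696) (nat_lit 28611) (nat_lit 1360854216) (nat_lit 35156) (nat_lit 33692452) (nat_lit 0) (nat_lit 0),Row.mk (nat_lit 24864) (nat_lit 28424) (nat_lit 1708062695) (nat_lit 34969) (nat_lit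 33692452) (nat_lit 0) (nat_lit 0),Row.mk (nat_lit 25032) (nat_lit 28237) (nat_lit 2141717710) (nat_lit 34782) (nat_lit 33692452) (nat_lit 0) (nat_lit 0),Row.mk (nat_lit 25200) (nat_lit 28050) (nat_lit 2683342361) (nat_lit 34595) (nat_lit 33692452) (nat_lit 0) (nat_lit 0),Row.mk (nat_lit 25368) (nat_lit 27863) (nat_lit 3359818485) (nat_lit 34408) (nat_lit 33692452) (nat_lit 0) (nat_lit 0),Row.mk (nat_lit 25536) (nat_lit 27676) (nat_lit 4204720844) (nat_lit 34221) (nat_lit 33692452) (nat_lit 0) (nat_lit 0),Row.mk (nat_lit 25704) (nat_lit 27489) (nat_lit 5259983508) (nat_lit 34034) (nat_lit 33692452) (nat_lit 0) (nat_lit 0),Row.mk (nat_lit 25872) (nat_lit 27302) (nat_lit 6577981119) (nat_lit 33847) (nat_lit 33692452) (nat_lit 0) (nat_lit 0),Row.mk (nat_lit 26040) (nat_lit 32912) (nat_lit 8388608) (nat_lit 62084) (nat_lit 8249432185) (nat_lit 0) (nat_lit 0),Row.mk (nat_lit 26208) (nat_lit 32912) (nat_lit 8388608) (nat_lit 62084) (nat_lit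 10305430352) (nat_lit 0) (nat_lit 0),Row.mk (nat_lit 26376) (nat_lit 32912) (nat_lit 8388608) (nat_lit 62084) (nat_lit 12873322465) (nat_lit 0) (nat_lit 0),Row.mk (nat_lit 26544) (nat_lit 32912) (nat_lit 8388608) (nat_lit 62084) (nat_lit 16080557766) (nat_lit 0) (nat_lit 0),Row.mk (nat_lit 26712) (nat_lit 32912) (nat_lit 8388608) (nat_lit 62084) (nat_lit 20086317287) (nat_lit 0) (nat_lit 0),Row.mk (nat_lit 26880) (nat_lit 32912) (nat_lit 8388608) (nat_lit 62084) (nat_lit 25089414294) (nat_lit 0) (nat_lit 0),Row.mk (nat_lit 27048) (nat_lit 32912) (nat_lit 8388608) (nat_lit 62084) (nat_lit 31338161762) (nat_lit 0) (nat_lit 0),Row.mk (nat_lit 27216) (nat_lit 32912) (nat_lit 8388608) (nat_lit 62084) (nat_lit 39142696606) (nat_lit 0) (nat_lit 0),Row.mk (nat_lit 27384) (nat_lit 32912) (nat_lit 8388608) (nat_lit 62084) (nat_lit 48890372351) (nat_lit 0) (nat_lit 0),Row.mk (nat_lit 27552) (nat_lit 32912) (nat_lit 8388608) (nat_lit 62084) (nat_lit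 61064984206) (nat_lit 0) (nat_lit 0),Row.mk (nat_lit 27720) (nat_lit 32912) (nat_lit 8388608) (nat_lit 62084) (nat_lit 76270780715) (nat_lit 0) (nat_lit 0),Row.mk (nat_lit 27888) (nat_lit 32912) (nat_lit 8388608) (nat_lit 62084) (nat_lit 95262453733) (nat_lit 0) (nat_lit 0),Row.mk (nat_lit 28056) (nat_lit 32912) (nat_lit 8388608) (nat_lit 62084) (nat_lit 118982595181) (nat_lit 0) (nat_lit 0),Row.mk (nat_lit 28224) (nat_lit 32912) (nat_lit 8388608) (nat_lit 62084) (nat_lit 148608479629) (nat_lit 0) (nat_lit 0),Row.mk (nat_lit 28392) (nat_lit 32912) (nat_lit 8388608) (nat_lit 62084) (nat_lit 185610494615) (nat_lit 0) (nat_lit 0),Row.mk (nat_lit 28560) (nat_lit 32912) (nat_lit 8388608) (nat_lit 62084) (nat_lit 231825118704) (nat_lit 0) (nat_lit 0),Row.mk (nat_lit 28728) (nat_lit 32912) (nat_lit 8388608) (nat_lit 62084) (nat_lit 289546069319) (nat_lit 0) (nat_lit 0),Row.mk (nat_lit 28896) (nat_lit 32912) (nat_lit 8388608) (nat_lit 62084)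 (nat_lit 361638144187) (nat_lit 0) (nat_lit 0),Row.mk (nat_lit 29064) (nat_lit 32912) (nat_lit 8388608) (nat_lit 62084) (nat_lit 451679406563) (nat_lit 0) (nat_lit 0),Row.mk (nat_lit 29232) (nat_lit 32912) (nat_lit 8388608) (nat_lit 62084) (nat_lit 564138771133) (nat_lit 0) (nat_lit 0),Row.mk (nat_lit 29400) (nat_lit 32912) (nat_lit 8388608) (nat_lit 62084) (nat_lit 704597804532) (nat_lit 0) (nat_lit 0),Row.mk (nat_lit 29568) (nat_lit 32912) (nat_lit 8388608) (nat_lit 62084) (nat_lit 880027748841) (nat_lit 0) (nat_lit 0),Row.mk (nat_lit 29736) (nat_lit 32912) (nat_lit 8388608) (nat_lit 62084) (nat_lit 1099135517246) (nat_lit 0) (nat_lit 0),Row.mk (nat_lit 29904) (nat_lit 32912) (nat_lit 8388608) (nat_lit 62084) (nat_lit 1372795834270) (nat_lit 0) (nat_lit 0),Row.mk (nat_lit 30072) (nat_lit 32912) (nat_lit 8388608) (nat_lit 62084) (nat_lit 1714590968505) (nat_lit 0) (nat_lit 0),Row.mk (nat_lit 30240) (nat_lit 32912) (nat_lit 8388608)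 (nat_lit 62084) (nat_lit 2141484845766) (nat_lit 0) (nat_lit 0),Row.mk (nat_lit 30408) (nat_lit 32912) (nat_lit 8388608) (nat_lit 62084) (nat_lit 2674665000160) (nat_lit 0) (nat_lit 0),Row.mk (nat_lit 30576) (nat_lit 32912) (nat_lit 8388608) (nat_lit 62084) (nat_lit 3340594150663) (nat_lit 0) (nat_lit 0),Row.mk (nat_lit 30744) (nat_lit 32912) (nat_lit 8388608) (nat_lit 62084) (nat_lit 4172323594897) (nat_lit 0) (nat_lit 0),Row.mk (nat_lit 30912) (nat_lit 32912) (nat_lit 8388608) (nat_lit 62084) (nat_lit 5211133606266) (nat_lit 0) (nat_lit 0),Row.mk (nat_lit 31080) (nat_lit 32912) (nat_lit 8388608) (nat_lit 62084) (nat_lit 6508582250415) (nat_lit 0) (nat_lit 0)],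
[Row.mk (nat_lit 24360) (nat_lit 28985) (nat_lit 860281679) (nat_lit 35530) (nat_lit 33692452) (nat_lit 0) (nat_lit 0),Row.mk (nat_lit 24528) (nat_lit 28798) (nat_lit 1082859672) (nat_lit 35343) (nat_lit 33692452) (nat_lit 0) (nat_lit 0),Row.mk (nat_lit 24696) (nat_lit 28611) (nat_lit 1360854216) (nat_lit 35156) (nat_lit 33692452) (nat_lit 0) (nat_lit 0),Row.mk (nat_lit 24864) (nat_lit 28424) (nat_lit 1708062695) (nat_lit 34969) (nat_lit 33692452) (nat_lit 0) (nat_lit 0),Row.mk (nat_lit 25032) (nat_lit 28237) (nat_lit 2141717710) (nat_lit 34782) (nat_lit 33692452) (nat_lit 0) (nat_lit 0),Row.mk (nat_lit 25200) (nat_lit 28050) (nat_lit 2683342361) (nat_lit 34595) (nat_lit 33692452) (nat_lit 0) (nat_lit 0),Row.mk (nat_lit 25368) (nat_lit 27863) (nat_lit 3359818485) (nat_lit 34408) (nat_lit 33692452) (nat_lit 0) (nat_lit 0),Row.mk (nat_lit 25536) (nat_lit 27676) (nat_lit 4204720844) (nat_lit 34221) (nat_lit 33692452) (nat_lit 0) (nat_lit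 0),Row.mk (nat_lit 25704) (nat_lit 27489) (nat_lit 5259983508) (nat_lit 34034) (nat_lit 33692452) (nat_lit 0) (nat_lit 0),Row.mk (nat_lit 25872) (nat_lit 27302) (nat_lit 6577981119) (nat_lit 33847) (nat_lit 33692452) (nat_lit 0) (nat_lit 0),Row.mk (nat_lit 26040) (nat_lit 32912) (nat_lit 8388608) (nat_lit 62084) (nat_lit 8249432185) (nat_lit 0) (nat_lit 0),Row.mk (nat_lit 26208) (nat_lit 32912) (nat_lit 8388608) (nat_lit 62084) (nat_lit 10305430352) (nat_lit 0) (nat_lit 0),Row.mk (nat_lit 26376) (nat_lit 32912) (nat_lit 8388608) (nat_lit 62084) (nat_lit 12873322465) (nat_lit 0) (nat_lit 0),Row.mk (nat_lit 26544) (nat_lit 32912) (nat_lit 8388608) (nat_lit 62084) (nat_lit 16080557766) (nat_lit 0) (nat_lit 0),Row.mk (nat_lit 26712) (nat_lit 32912) (nat_lit 8388608) (nat_lit 62084) (nat_lit 20086317287) (nat_lit 0) (nat_lit 0),Row.mk (nat_lit 26880) (nat_lit 32912) (nat_lit 8388608) (nat_lit 62084) (nat_lit 25089414294) (nat_lit 0) (nat_lit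 0),Row.mk (nat_lit 27048) (nat_lit 32912) (nat_lit 8388608) (nat_lit 62084) (nat_lit 31338161762) (nat_lit 0) (nat_lit 0),Row.mk (nat_lit 27216) (nat_lit 32912) (nat_lit 8388608) (nat_lit 62084) (nat_lit 39142696606) (nat_lit 0) (nat_lit 0),Row.mk (nat_lit 27384) (nat_lit 32912) (nat_lit 8388608) (nat_lit 62084) (nat_lit 48890372351) (nat_lit 0) (nat_lit 0),Row.mk (nat_lit 27552) (nat_lit 32912) (nat_lit 8388608) (nat_lit 62084) (nat_lit 61064984206) (nat_lit 0) (nat_lit 0),Row.mk (nat_lit 27720) (nat_lit 32912) (nat_lit 8388608) (nat_lit 62084) (nat_lit 76270780715) (nat_lit 0) (nat_lit 0),Row.mk (nat_lit 27888) (nat_lit 32912) (nat_lit 8388608) (nat_lit 62084) (nat_lit 95262453733) (nat_lit 0) (nat_lit 0),Row.mk (nat_lit 28056) (nat_lit 32912) (nat_lit 8388608) (nat_lit 62084) (nat_lit 118982595181) (nat_lit 0) (nat_lit 0),Row.mk (nat_lit 28224) (nat_lit 32912) (nat_lit 8388608) (nat_lit 62084) (nat_lit 148608479629) (nat_lit 0)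 (nat_lit 0),Row.mk (nat_lit 28392) (nat_lit 32912) (nat_lit 8388608) (nat_lit 62084) (nat_lit 185610494615) (nat_lit 0) (nat_lit 0),Row.mk (nat_lit 28560) (nat_lit 32912) (nat_lit 8388608) (nat_lit 62084) (nat_lit 231825118704) (nat_lit 0) (nat_lit 0),Row.mk (nat_lit 28728) (nat_lit 32912) (nat_lit 8388608) (nat_lit 62084) (nat_lit 289546069319) (nat_lit 0) (nat_lit 0),Row.mk (nat_lit 28896) (nat_lit 32912) (nat_lit 8388608) (nat_lit 62084) (nat_lit 361638144187) (nat_lit 0) (nat_lit 0),Row.mk (nat_lit 29064) (nat_lit 32912) (nat_lit 8388608) (nat_lit 62084) (nat_lit 451679406563) (nat_lit 0) (nat_lit 0),Row.mk (nat_lit 29232) (nat_lit 32912) (nat_lit 8388608) (nat_lit 62084) (nat_lit 564138771133) (nat_lit 0) (nat_lit 0),Row.mk (nat_lit 29400) (nat_lit 32912) (nat_lit 8388608) (nat_lit 62084) (nat_lit 704597804532) (nat_lit 0) (nat_lit 0),Row.mk (nat_lit 29568) (nat_lit 32912) (nat_lit 8388608) (nat_lit 62084) (nat_lit 880027748841)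 (nat_lit 0) (nat_lit 0),Row.mk (nat_lit 29736) (nat_lit 32912) (nat_lit 8388608) (nat_lit 62084) (nat_lit 1099135517246) (nat_lit 0) (nat_lit 0),Row.mk (nat_lit 29904) (nat_lit 32912) (nat_lit 8388608) (nat_lit 62084) (nat_lit 1372795834270) (nat_lit 0) (nat_lit 0),Row.mk (nat_lit 30072) (nat_lit 32912) (nat_lit 8388608) (nat_lit 62084) (nat_lit 1714590968505) (nat_lit 0) (nat_lit 0),Row.mk (nat_lit 30240) (nat_lit 32912) (nat_lit 8388608) (nat_lit 62084) (nat_lit 2141484845766) (nat_lit 0) (nat_lit 0),Row.mk (nat_lit 30408) (nat_lit 32912) (nat_lit 8388608) (nat_lit 62084) (nat_lit 2674665000160) (nat_lit 0) (nat_lit 0),Row.mk (nat_lit 30576) (nat_lit 32912) (nat_lit 8388608) (nat_lit 62084) (nat_lit 3340594150663) (nat_lit 0) (nat_lit 0),Row.mk (nat_lit 30744) (nat_lit 32912) (nat_lit 8388608) (nat_lit 62084) (nat_lit 4172323594897) (nat_lit 0) (nat_lit 0),Row.mk (nat_lit 30912) (nat_lit 32912) (nat_lit 8388608) (nat_lit 62084)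 (nat_lit 5211133606266) (nat_lit 0) (nat_lit 0),Row.mk (nat_lit 31080) (nat_lit 32912) (nat_lit 8388608) (nat_lit 62084) (nat_lit 6508582250415) (nat_lit 0) (nat_lit 0)],
[Row.mk (nat_lit 24696) (nat_lit 28611) (nat_lit 1360854216) (nat_lit 35156) (nat_lit 33692452) (nat_lit 0) (nat_lit 0),Row.mk (nat_lit 24864) (nat_lit 28424) (nat_lit 1708062695) (nat_lit 34969) (nat_lit 33692452) (nat_lit 0) (nat_lit 0),Row.mk (nat_lit 25032) (nat_lit 28237) (nat_lit 2141717710) (nat_lit 34782) (nat_lit 33692452) (nat_lit 0) (nat_lit 0),Row.mk (nat_lit 25200) (nat_lit 28050) (nat_lit 2683342361) (nat_lit 34595) (nat_lit 33692452) (nat_lit 0) (nat_lit 0),Row.mk (nat_lit 25368) (nat_lit 27863) (nat_lit 3359818485) (nat_lit 34408) (nat_lit 33692452) (nat_lit 0) (nat_lit 0),Row.mk (nat_lit 25536) (nat_lit 27676) (nat_lit 4204720844) (nat_lit 34221) (nat_lit 33692452) (nat_lit 0) (nat_lit 0),Row.mk (nat_lit 25704) (nat_lit 27489) (nat_lit 5259983508)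 (nat_lit 34034) (nat_lit 33692452) (nat_lit 0) (nat_lit 0),Row.mk (nat_lit 25872) (nat_lit 27302) (nat_lit 6577981119) (nat_lit 33847) (nat_lit 33692452) (nat_lit 0) (nat_lit 0),Row.mk (nat_lit 26040) (nat_lit 32912) (nat_lit 8388608) (nat_lit 62084) (nat_lit 8249432185) (nat_lit 0) (nat_lit 0),Row.mk (nat_lit 26208) (nat_lit 32912) (nat_lit 8388608) (nat_lit 62084) (nat_lit 10305430352) (nat_lit 0) (nat_lit 0),Row.mk (nat_lit 26376) (nat_lit 32912) (nat_lit 8388608) (nat_lit 62084) (nat_lit 12873322465) (nat_lit 0) (nat_lit 0),Row.mk (nat_lit 26544) (nat_lit 32912) (nat_lit 8388608) (nat_lit 62084) (nat_lit 16080557766) (nat_lit 0) (nat_lit 0),Row.mk (nat_lit 26712) (nat_lit 32912) (nat_lit 8388608) (nat_lit 62084) (nat_lit 20086317287) (nat_lit 0) (nat_lit 0),Row.mk (nat_lit 26880) (nat_lit 32912) (nat_lit 8388608) (nat_lit 62084) (nat_lit 25089414294) (nat_lit 0) (nat_lit 0),Row.mk (nat_lit 27048) (nat_lit 32912) (nat_lit 8388608)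 (nat_lit 62084) (nat_lit 31338161762) (nat_lit 0) (nat_lit 0),Row.mk (nat_lit 27216) (nat_lit 32912) (nat_lit 8388608) (nat_lit 62084) (nat_lit 39142696606) (nat_lit 0) (nat_lit 0),Row.mk (nat_lit 27384) (nat_lit 32912) (nat_lit 8388608) (nat_lit 62084) (nat_lit 48890372351) (nat_lit 0) (nat_lit 0),Row.mk (nat_lit 27552) (nat_lit 32912) (nat_lit 8388608) (nat_lit 62084) (nat_lit 61064984206) (nat_lit 0) (nat_lit 0),Row.mk (nat_lit 27720) (nat_lit 32912) (nat_lit 8388608) (nat_lit 62084) (nat_lit 76270780715) (nat_lit 0) (nat_lit 0),Row.mk (nat_lit 27888) (nat_lit 32912) (nat_lit 8388608) (nat_lit 62084) (nat_lit 95262453733) (nat_lit 0) (nat_lit 0),Row.mk (nat_lit 28056) (nat_lit 32912) (nat_lit 8388608) (nat_lit 62084) (nat_lit 118982595181) (nat_lit 0) (nat_lit 0),Row.mk (nat_lit 28224) (nat_lit 32912) (nat_lit 8388608) (nat_lit 62084) (nat_lit 148608479629) (nat_lit 0) (nat_lit 0),Row.mk (nat_lit 28392) (nat_lit 32912) (nat_lit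 8388608) (nat_lit 62084) (nat_lit 185610494615) (nat_lit 0) (nat_lit 0),Row.mk (nat_lit 28560) (nat_lit 32912) (nat_lit 8388608) (nat_lit 62084) (nat_lit 231825118704) (nat_lit 0) (nat_lit 0),Row.mk (nat_lit 28728) (nat_lit 32912) (nat_lit 8388608) (nat_lit 62084) (nat_lit 289546069319) (nat_lit 0) (nat_lit 0),Row.mk (nat_lit 28896) (nat_lit 32912) (nat_lit 8388608) (nat_lit 62084) (nat_lit 361638144187) (nat_lit 0) (nat_lit 0),Row.mk (nat_lit 29064) (nat_lit 32912) (nat_lit 8388608) (nat_lit 62084) (nat_lit 451679406563) (nat_lit 0) (nat_lit 0),Row.mk (nat_lit 29232) (nat_lit 32912) (nat_lit 8388608) (nat_lit 62084) (nat_lit 564138771133) (nat_lit 0) (nat_lit 0),Row.mk (nat_lit 29400) (nat_lit 32912) (nat_lit 8388608) (nat_lit 62084) (nat_lit 704597804532) (nat_lit 0) (nat_lit 0),Row.mk (nat_lit 29568) (nat_lit 32912) (nat_lit 8388608) (nat_lit 62084) (nat_lit 880027748841) (nat_lit 0) (nat_lit 0),Row.mk (nat_lit 29736) (nat_lit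 32912) (nat_lit 8388608) (nat_lit 62084) (nat_lit 1099135517246) (nat_lit 0) (nat_lit 0),Row.mk (nat_lit 29904) (nat_lit 32912) (nat_lit 8388608) (nat_lit 62084) (nat_lit 1372795834270) (nat_lit 0) (nat_lit 0),Row.mk (nat_lit 30072) (nat_lit 32912) (nat_lit 8388608) (nat_lit 62084) (nat_lit 1714590968505) (nat_lit 0) (nat_lit 0),Row.mk (nat_lit 30240) (nat_lit 32912) (nat_lit 8388608) (nat_lit 62084) (nat_lit 2141484845766) (nat_lit 0) (nat_lit 0),Row.mk (nat_lit 30408) (nat_lit 32912) (nat_lit 8388608) (nat_lit 62084) (nat_lit 2674665000160) (nat_lit 0) (nat_lit 0),Row.mk (nat_lit 30576) (nat_lit 32912) (nat_lit 8388608) (nat_lit 62084) (nat_lit 3340594150663) (nat_lit 0) (nat_lit 0),Row.mk (nat_lit 30744) (nat_lit 32912) (nat_lit 8388608) (nat_lit 62084) (nat_lit 4172323594897) (nat_lit 0) (nat_lit 0),Row.mk (nat_lit 30912) (nat_lit 32912) (nat_lit 8388608) (nat_lit 62084) (nat_lit 5211133606266) (nat_lit 0) (nat_lit 0),Row.mk (nat_lit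 31080) (nat_lit 32912) (nat_lit 8388608) (nat_lit 62084) (nat_lit 6508582250415) (nat_lit 0) (nat_lit 0)],
[Row.mk (nat_lit 24864) (nat_lit 28424) (nat_lit 1708062695) (nat_lit 34969) (nat_lit 33692452) (nat_lit 0) (nat_lit 0),Row.mk (nat_lit 25032) (nat_lit 28237) (nat_lit 2141717710) (nat_lit 34782) (nat_lit 33692452) (nat_lit 0) (nat_lit 0),Row.mk (nat_lit 25200) (nat_lit 28050) (nat_lit 2683342361) (nat_lit 34595) (nat_lit 33692452) (nat_lit 0) (nat_lit 0),Row.mk (nat_lit 25368) (nat_lit 27863) (nat_lit 3359818485) (nat_lit 34408) (nat_lit 33692452) (nat_lit 0) (nat_lit 0),Row.mk (nat_lit 25536) (nat_lit 27676) (nat_lit 4204720844) (nat_lit 34221) (nat_lit 33692452) (nat_lit 0) (nat_lit 0),Row.mk (nat_lit 25704) (nat_lit 27489) (nat_lit 5259983508) (nat_lit 34034) (nat_lit 33692452) (nat_lit 0) (nat_lit 0),Row.mk (nat_lit 25872) (nat_lit 27302) (nat_lit 6577981119) (nat_lit 33847) (nat_lit 33692452) (nat_lit 0) (nat_lit 0),Row.mk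 (nat_lit 26040) (nat_lit 32912) (nat_lit 8388608) (nat_lit 62084) (nat_lit 8249432185) (nat_lit 0) (nat_lit 0),Row.mk (nat_lit 26208) (nat_lit 32912) (nat_lit 8388608) (nat_lit 62084) (nat_lit 10305430352) (nat_lit 0) (nat_lit 0),Row.mk (nat_lit 26376) (nat_lit 32912) (nat_lit 8388608) (nat_lit 62084) (nat_lit 12873322465) (nat_lit 0) (nat_lit 0),Row.mk (nat_lit 26544) (nat_lit 32912) (nat_lit 8388608) (nat_lit 62084) (nat_lit 16080557766) (nat_lit 0) (nat_lit 0),Row.mk (nat_lit 26712) (nat_lit 32912) (nat_lit 8388608) (nat_lit 62084) (nat_lit 20086317287) (nat_lit 0) (nat_lit 0),Row.mk (nat_lit 26880) (nat_lit 32912) (nat_lit 8388608) (nat_lit 62084) (nat_lit 25089414294) (nat_lit 0) (nat_lit 0),Row.mk (nat_lit 27048) (nat_lit 32912) (nat_lit 8388608) (nat_lit 62084) (nat_lit 31338161762) (nat_lit 0) (nat_lit 0),Row.mk (nat_lit 27216) (nat_lit 32912) (nat_lit 8388608) (nat_lit 62084) (nat_lit 39142696606) (nat_lit 0) (nat_lit 0),Row.mk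 (nat_lit 27384) (nat_lit 32912) (nat_lit 8388608) (nat_lit 62084) (nat_lit 48890372351) (nat_lit 0) (nat_lit 0),Row.mk (nat_lit 27552) (nat_lit 32912) (nat_lit 8388608) (nat_lit 62084) (nat_lit 61064984206) (nat_lit 0) (nat_lit 0),Row.mk (nat_lit 27720) (nat_lit 32912) (nat_lit 8388608) (nat_lit 62084) (nat_lit 76270780715) (nat_lit 0) (nat_lit 0),Row.mk (nat_lit 27888) (nat_lit 32912) (nat_lit 8388608) (nat_lit 62084) (nat_lit 95262453733) (nat_lit 0) (nat_lit 0),Row.mk (nat_lit 28056) (nat_lit 32912) (nat_lit 8388608) (nat_lit 62084) (nat_lit 118982595181) (nat_lit 0) (nat_lit 0),Row.mk (nat_lit 28224) (nat_lit 32912) (nat_lit 8388608) (nat_lit 62084) (nat_lit 148608479629) (nat_lit 0) (nat_lit 0),Row.mk (nat_lit 28392) (nat_lit 32912) (nat_lit 8388608) (nat_lit 62084) (nat_lit 185610494615) (nat_lit 0) (nat_lit 0),Row.mk (nat_lit 28560) (nat_lit 32912) (nat_lit 8388608) (nat_lit 62084) (nat_lit 231825118704) (nat_lit 0) (nat_lit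 0),Row.mk (nat_lit 28728) (nat_lit 32912) (nat_lit 8388608) (nat_lit 62084) (nat_lit 289546069319) (nat_lit 0) (nat_lit 0),Row.mk (nat_lit 28896) (nat_lit 32912) (nat_lit 8388608) (nat_lit 62084) (nat_lit 361638144187) (nat_lit 0) (nat_lit 0),Row.mk (nat_lit 29064) (nat_lit 32912) (nat_lit 8388608) (nat_lit 62084) (nat_lit 451679406563) (nat_lit 0) (nat_lit 0),Row.mk (nat_lit 29232) (nat_lit 32912) (nat_lit 8388608) (nat_lit 62084) (nat_lit 564138771133) (nat_lit 0) (nat_lit 0),Row.mk (nat_lit 29400) (nat_lit 32912) (nat_lit 8388608) (nat_lit 62084) (nat_lit 704597804532) (nat_lit 0) (nat_lit 0),Row.mk (nat_lit 29568) (nat_lit 32912) (nat_lit 8388608) (nat_lit 62084) (nat_lit 880027748841) (nat_lit 0) (nat_lit 0),Row.mk (nat_lit 29736) (nat_lit 32912) (nat_lit 8388608) (nat_lit 62084) (nat_lit 1099135517246) (nat_lit 0) (nat_lit 0),Row.mk (nat_lit 29904) (nat_lit 32912) (nat_lit 8388608) (nat_lit 62084) (nat_lit 1372795834270) (nat_lit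 0) (nat_lit 0),Row.mk (nat_lit 30072) (nat_lit 32912) (nat_lit 8388608) (nat_lit 62084) (nat_lit 1714590968505) (nat_lit 0) (nat_lit 0),Row.mk (nat_lit 30240) (nat_lit 32912) (nat_lit 8388608) (nat_lit 62084) (nat_lit 2141484845766) (nat_lit 0) (nat_lit 0),Row.mk (nat_lit 30408) (nat_lit 32912) (nat_lit 8388608) (nat_lit 62084) (nat_lit 2674665000160) (nat_lit 0) (nat_lit 0),Row.mk (nat_lit 30576) (nat_lit 32912) (nat_lit 8388608) (nat_lit 62084) (nat_lit 3340594150663) (nat_lit 0) (nat_lit 0),Row.mk (nat_lit 30744) (nat_lit 32912) (nat_lit 8388608) (nat_lit 62084) (nat_lit 4172323594897) (nat_lit 0) (nat_lit 0),Row.mk (nat_lit 30912) (nat_lit 32912) (nat_lit 8388608) (nat_lit 62084) (nat_lit 5211133606266) (nat_lit 0) (nat_lit 0),Row.mk (nat_lit 31080) (nat_lit 32912) (nat_lit 8388608) (nat_lit 62084) (nat_lit 6508582250415) (nat_lit 0) (nat_lit 0)],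
[Row.mk (nat_lit 25200) (nat_lit 28050) (nat_lit 2683342361) (nat_lit 34595) (nat_lit 33692452) (nat_lit 0) (nat_lit 0),Row.mk (nat_lit 25368) (nat_lit 27863) (nat_lit 3359818485) (nat_lit 34408) (nat_lit 33692452) (nat_lit 0) (nat_lit 0),Row.mk (nat_lit 25536) (nat_lit 27676) (nat_lit 4204720844) (nat_lit 34221) (nat_lit 33692452) (nat_lit 0) (nat_lit 0),Row.mk (nat_lit 25704) (nat_lit 27489) (nat_lit 5259983508) (nat_lit 34034) (nat_lit 33692452) (nat_lit 0) (nat_lit 0),Row.mk (nat_lit 25872) (nat_lit 27302) (nat_lit 6577981119) (nat_lit 33847) (nat_lit 33692452) (nat_lit 0) (nat_lit 0),Row.mk (nat_lit 26040) (nat_lit 32912) (nat_lit 8388608) (nat_lit 62084) (nat_lit 8249432185) (nat_lit 0) (nat_lit 0),Row.mk (nat_lit 26208) (nat_lit 32912) (nat_lit 8388608) (nat_lit 62084) (nat_lit 10305430352) (nat_lit 0) (nat_lit 0),Row.mk (nat_lit 26376) (nat_lit 32912) (nat_lit 8388608) (nat_lit 62084) (nat_lit 12873322465) (nat_lit 0) (nat_lit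 0),Row.mk (nat_lit 26544) (nat_lit 32912) (nat_lit 8388608) (nat_lit 62084) (nat_lit 16080557766) (nat_lit 0) (nat_lit 0),Row.mk (nat_lit 26712) (nat_lit 32912) (nat_lit 8388608) (nat_lit 62084) (nat_lit 20086317287) (nat_lit 0) (nat_lit 0),Row.mk (nat_lit 26880) (nat_lit 32912) (nat_lit 8388608) (nat_lit 62084) (nat_lit 25089414294) (nat_lit 0) (nat_lit 0),Row.mk (nat_lit 27048) (nat_lit 32912) (nat_lit 8388608) (nat_lit 62084) (nat_lit 31338161762) (nat_lit 0) (nat_lit 0),Row.mk (nat_lit 27216) (nat_lit 32912) (nat_lit 8388608) (nat_lit 62084) (nat_lit 39142696606) (nat_lit 0) (nat_lit 0),Row.mk (nat_lit 27384) (nat_lit 32912) (nat_lit 8388608) (nat_lit 62084) (nat_lit 48890372351) (nat_lit 0) (nat_lit 0),Row.mk (nat_lit 27552) (nat_lit 32912) (nat_lit 8388608) (nat_lit 62084) (nat_lit 61064984206) (nat_lit 0) (nat_lit 0),Row.mk (nat_lit 27720) (nat_lit 32912) (nat_lit 8388608) (nat_lit 62084) (nat_lit 76270780715) (nat_lit 0) (nat_lit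 0),Row.mk (nat_lit 27888) (nat_lit 32912) (nat_lit 8388608) (nat_lit 62084) (nat_lit 95262453733) (nat_lit 0) (nat_lit 0),Row.mk (nat_lit 28056) (nat_lit 32912) (nat_lit 8388608) (nat_lit 62084) (nat_lit 118982595181) (nat_lit 0) (nat_lit 0),Row.mk (nat_lit 28224) (nat_lit 32912) (nat_lit 8388608) (nat_lit 62084) (nat_lit 148608479629) (nat_lit 0) (nat_lit 0),Row.mk (nat_lit 28392) (nat_lit 32912) (nat_lit 8388608) (nat_lit 62084) (nat_lit 185610494615) (nat_lit 0) (nat_lit 0),Row.mk (nat_lit 28560) (nat_lit 32912) (nat_lit 8388608) (nat_lit 62084) (nat_lit 231825118704) (nat_lit 0) (nat_lit 0),Row.mk (nat_lit 28728) (nat_lit 32912) (nat_lit 8388608) (nat_lit 62084) (nat_lit 289546069319) (nat_lit 0) (nat_lit 0),Row.mk (nat_lit 28896) (nat_lit 32912) (nat_lit 8388608) (nat_lit 62084) (nat_lit 361638144187) (nat_lit 0) (nat_lit 0),Row.mk (nat_lit 29064) (nat_lit 32912) (nat_lit 8388608) (nat_lit 62084) (nat_lit 451679406563) (nat_lit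 0) (nat_lit 0),Row.mk (nat_lit 29232) (nat_lit 32912) (nat_lit 8388608) (nat_lit 62084) (nat_lit 564138771133) (nat_lit 0) (nat_lit 0),Row.mk (nat_lit 29400) (nat_lit 32912) (nat_lit 8388608) (nat_lit 62084) (nat_lit 704597804532) (nat_lit 0) (nat_lit 0),Row.mk (nat_lit 29568) (nat_lit 32912) (nat_lit 8388608) (nat_lit 62084) (nat_lit 880027748841) (nat_lit 0) (nat_lit 0),Row.mk (nat_lit 29736) (nat_lit 32912) (nat_lit 8388608) (nat_lit 62084) (nat_lit 1099135517246) (nat_lit 0) (nat_lit 0),Row.mk (nat_lit 29904) (nat_lit 32912) (nat_lit 8388608) (nat_lit 62084) (nat_lit 1372795834270) (nat_lit 0) (nat_lit 0),Row.mk (nat_lit 30072) (nat_lit 32912) (nat_lit 8388608) (nat_lit 62084) (nat_lit 1714590968505) (nat_lit 0) (nat_lit 0),Row.mk (nat_lit 30240) (nat_lit 32912) (nat_lit 8388608) (nat_lit 62084) (nat_lit 2141484845766) (nat_lit 0) (nat_lit 0),Row.mk (nat_lit 30408) (nat_lit 32912) (nat_lit 8388608) (nat_lit 62084) (nat_lit 2674665000160)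 (nat_lit 0) (nat_lit 0),Row.mk (nat_lit 30576) (nat_lit 32912) (nat_lit 8388608) (nat_lit 62084) (nat_lit 3340594150663) (nat_lit 0) (nat_lit 0),Row.mk (nat_lit 30744) (nat_lit 32912) (nat_lit 8388608) (nat_lit 62084) (nat_lit 4172323594897) (nat_lit 0) (nat_lit 0),Row.mk (nat_lit 30912) (nat_lit 32912) (nat_lit 8388608) (nat_lit 62084) (nat_lit 5211133606266) (nat_lit 0) (nat_lit 0),Row.mk (nat_lit 31080) (nat_lit 32912) (nat_lit 8388608) (nat_lit 62084) (nat_lit 6508582250415) (nat_lit 0) (nat_lit 0),Row.mk (nat_lit 31248) (nat_lit 32912) (nat_lit 8388608) (nat_lit 62084) (nat_lit 8129064307559) (nat_lit 0) (nat_lit 0)],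
[Row.mk (nat_lit 25368) (nat_lit 27863) (nat_lit 3359818485) (nat_lit 34408) (nat_lit 33692452) (nat_lit 0) (nat_lit 0),Row.mk (nat_lit 25536) (nat_lit 27676) (nat_lit 4204720844) (nat_lit 34221) (nat_lit 33692452) (nat_lit 0) (nat_lit 0),Row.mk (nat_lit 25704) (nat_lit 27489) (nat_lit 5259983508) (nat_lit 34034) (nat_lit 33692452) (nat_lit 0) (nat_lit 0),Row.mk (nat_lit 25872) (nat_lit 27302) (nat_lit 6577981119) (nat_lit 33847) (nat_lit 33692452) (nat_lit 0) (nat_lit 0),Row.mk (nat_lit 26040) (nat_lit 32912) (nat_lit 8388608) (nat_lit 62084) (nat_lit 8249432185) (nat_lit 0) (nat_lit 0),Row.mk (nat_lit 26208) (nat_lit 32912) (nat_lit 8388608) (nat_lit 62084) (nat_lit 10305430352) (nat_lit 0) (nat_lit 0),Row.mk (nat_lit 26376) (nat_lit 32912) (nat_lit 8388608) (nat_lit 62084) (nat_lit 12873322465) (nat_lit 0) (nat_lit 0),Row.mk (nat_lit 26544) (nat_lit 32912) (nat_lit 8388608) (nat_lit 62084) (nat_lit 16080557766) (nat_lit 0) (nat_lit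 0),Row.mk (nat_lit 26712) (nat_lit 32912) (nat_lit 8388608) (nat_lit 62084) (nat_lit 20086317287) (nat_lit 0) (nat_lit 0),Row.mk (nat_lit 26880) (nat_lit 32912) (nat_lit 8388608) (nat_lit 62084) (nat_lit 25089414294) (nat_lit 0) (nat_lit 0),Row.mk (nat_lit 27048) (nat_lit 32912) (nat_lit 8388608) (nat_lit 62084) (nat_lit 31338161762) (nat_lit 0) (nat_lit 0),Row.mk (nat_lit 27216) (nat_lit 32912) (nat_lit 8388608) (nat_lit 62084) (nat_lit 39142696606) (nat_lit 0) (nat_lit 0),Row.mk (nat_lit 27384) (nat_lit 32912) (nat_lit 8388608) (nat_lit 62084) (nat_lit 48890372351) (nat_lit 0) (nat_lit 0),Row.mk (nat_lit 27552) (nat_lit 32912) (nat_lit 8388608) (nat_lit 62084) (nat_lit 61064984206) (nat_lit 0) (nat_lit 0),Row.mk (nat_lit 27720) (nat_lit 32912) (nat_lit 8388608) (nat_lit 62084) (nat_lit 76270780715) (nat_lit 0) (nat_lit 0),Row.mk (nat_lit 27888) (nat_lit 32912) (nat_lit 8388608) (nat_lit 62084) (nat_lit 95262453733) (nat_lit 0) (nat_lit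 0),Row.mk (nat_lit 28056) (nat_lit 32912) (nat_lit 8388608) (nat_lit 62084) (nat_lit 118982595181) (nat_lit 0) (nat_lit 0),Row.mk (nat_lit 28224) (nat_lit 32912) (nat_lit 8388608) (nat_lit 62084) (nat_lit 148608479629) (nat_lit 0) (nat_lit 0),Row.mk (nat_lit 28392) (nat_lit 32912) (nat_lit 8388608) (nat_lit 62084) (nat_lit 185610494615) (nat_lit 0) (nat_lit 0),Row.mk (nat_lit 28560) (nat_lit 32912) (nat_lit 8388608) (nat_lit 62084) (nat_lit 231825118704) (nat_lit 0) (nat_lit 0),Row.mk (nat_lit 28728) (nat_lit 32912) (nat_lit 8388608) (nat_lit 62084) (nat_lit 289546069319) (nat_lit 0) (nat_lit 0),Row.mk (nat_lit 28896) (nat_lit 32912) (nat_lit 8388608) (nat_lit 62084) (nat_lit 361638144187) (nat_lit 0) (nat_lit 0),Row.mk (nat_lit 29064) (nat_lit 32912) (nat_lit 8388608) (nat_lit 62084) (nat_lit 451679406563) (nat_lit 0) (nat_lit 0),Row.mk (nat_lit 29232) (nat_lit 32912) (nat_lit 8388608) (nat_lit 62084) (nat_lit 564138771133) (nat_lit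 0) (nat_lit 0),Row.mk (nat_lit 29400) (nat_lit 32912) (nat_lit 8388608) (nat_lit 62084) (nat_lit 704597804532) (nat_lit 0) (nat_lit 0),Row.mk (nat_lit 29568) (nat_lit 32912) (nat_lit 8388608) (nat_lit 62084) (nat_lit 880027748841) (nat_lit 0) (nat_lit 0),Row.mk (nat_lit 29736) (nat_lit 32912) (nat_lit 8388608) (nat_lit 62084) (nat_lit 1099135517246) (nat_lit 0) (nat_lit 0),Row.mk (nat_lit 29904) (nat_lit 32912) (nat_lit 8388608) (nat_lit 62084) (nat_lit 1372795834270) (nat_lit 0) (nat_lit 0),Row.mk (nat_lit 30072) (nat_lit 32912) (nat_lit 8388608) (nat_lit 62084) (nat_lit 1714590968505) (nat_lit 0) (nat_lit 0),Row.mk (nat_lit 30240) (nat_lit 32912) (nat_lit 8388608) (nat_lit 62084) (nat_lit 2141484845766) (nat_lit 0) (nat_lit 0),Row.mk (nat_lit 30408) (nat_lit 32912) (nat_lit 8388608) (nat_lit 62084) (nat_lit 2674665000160) (nat_lit 0) (nat_lit 0),Row.mk (nat_lit 30576) (nat_lit 32912) (nat_lit 8388608) (nat_lit 62084) (nat_lit 3340594150663)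 (nat_lit 0) (nat_lit 0),Row.mk (nat_lit 30744) (nat_lit 32912) (nat_lit 8388608) (nat_lit 62084) (nat_lit 4172323594897) (nat_lit 0) (nat_lit 0),Row.mk (nat_lit 30912) (nat_lit 32912) (nat_lit 8388608) (nat_lit 62084) (nat_lit 5211133606266) (nat_lit 0) (nat_lit 0),Row.mk (nat_lit 31080) (nat_lit 32912) (nat_lit 8388608) (nat_lit 62084) (nat_lit 6508582250415) (nat_lit 0) (nat_lit 0),Row.mk (nat_lit 31248) (nat_lit 32912) (nat_lit 8388608) (nat_lit 62084) (nat_lit 8129064307559) (nat_lit 0) (nat_lit 0)],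
[Row.mk (nat_lit 25704) (nat_lit 27489) (nat_lit 5259983508) (nat_lit 34034) (nat_lit 33692452) (nat_lit 0) (nat_lit 0),Row.mk (nat_lit 25872) (nat_lit 27302) (nat_lit 6577981119) (nat_lit 33847) (nat_lit 33692452) (nat_lit 0) (nat_lit 0),Row.mk (nat_lit 26040) (nat_lit 32912) (nat_lit 8388608) (nat_lit 62084) (nat_lit 8249432185) (nat_lit 0) (nat_lit 0),Row.mk (nat_lit 26208) (nat_lit 32912) (nat_lit 8388608) (nat_lit 62084) (nat_lit 10305430352) (nat_lit 0) (nat_lit 0),Row.mk (nat_lit 26376) (nat_lit 32912) (nat_lit 8388608) (nat_lit 62084) (nat_lit 12873322465) (nat_lit 0) (nat_lit 0),Row.mk (nat_lit 26544) (nat_lit 32912) (nat_lit 8388608) (nat_lit 62084) (nat_lit 16080557766) (nat_lit 0) (nat_lit 0),Row.mk (nat_lit 26712) (nat_lit 32912) (nat_lit 8388608) (nat_lit 62084) (nat_lit 20086317287) (nat_lit 0) (nat_lit 0),Row.mk (nat_lit 26880) (nat_lit 32912) (nat_lit 8388608) (nat_lit 62084) (nat_lit 25089414294) (nat_lit 0) (nat_lit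 0),Row.mk (nat_lit 27048) (nat_lit 32912) (nat_lit 8388608) (nat_lit 62084) (nat_lit 31338161762) (nat_lit 0) (nat_lit 0),Row.mk (nat_lit 27216) (nat_lit 32912) (nat_lit 8388608) (nat_lit 62084) (nat_lit 39142696606) (nat_lit 0) (nat_lit 0),Row.mk (nat_lit 27384) (nat_lit 32912) (nat_lit 8388608) (nat_lit 62084) (nat_lit 48890372351) (nat_lit 0) (nat_lit 0),Row.mk (nat_lit 27552) (nat_lit 32912) (nat_lit 8388608) (nat_lit 62084) (nat_lit 61064984206) (nat_lit 0) (nat_lit 0),Row.mk (nat_lit 27720) (nat_lit 32912) (nat_lit 8388608) (nat_lit 62084) (nat_lit 76270780715) (nat_lit 0) (nat_lit 0),Row.mk (nat_lit 27888) (nat_lit 32912) (nat_lit 8388608) (nat_lit 62084) (nat_lit 95262453733) (nat_lit 0) (nat_lit 0),Row.mk (nat_lit 28056) (nat_lit 32912) (nat_lit 8388608) (nat_lit 62084) (nat_lit 118982595181) (nat_lit 0) (nat_lit 0),Row.mk (nat_lit 28224) (nat_lit 32912) (nat_lit 8388608) (nat_lit 62084) (nat_lit 148608479629) (nat_lit 0)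 (nat_lit 0),Row.mk (nat_lit 28392) (nat_lit 32912) (nat_lit 8388608) (nat_lit 62084) (nat_lit 185610494615) (nat_lit 0) (nat_lit 0),Row.mk (nat_lit 28560) (nat_lit 32912) (nat_lit 8388608) (nat_lit 62084) (nat_lit 231825118704) (nat_lit 0) (nat_lit 0),Row.mk (nat_lit 28728) (nat_lit 32912) (nat_lit 8388608) (nat_lit 62084) (nat_lit 289546069319) (nat_lit 0) (nat_lit 0),Row.mk (nat_lit 28896) (nat_lit 32912) (nat_lit 8388608) (nat_lit 62084) (nat_lit 361638144187) (nat_lit 0) (nat_lit 0),Row.mk (nat_lit 29064) (nat_lit 32912) (nat_lit 8388608) (nat_lit 62084) (nat_lit 451679406563) (nat_lit 0) (nat_lit 0),Row.mk (nat_lit 29232) (nat_lit 32912) (nat_lit 8388608) (nat_lit 62084) (nat_lit 564138771133) (nat_lit 0) (nat_lit 0),Row.mk (nat_lit 29400) (nat_lit 32912) (nat_lit 8388608) (nat_lit 62084) (nat_lit 704597804532) (nat_lit 0) (nat_lit 0),Row.mk (nat_lit 29568) (nat_lit 32912) (nat_lit 8388608) (nat_lit 62084) (nat_lit 880027748841)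 (nat_lit 0) (nat_lit 0),Row.mk (nat_lit 29736) (nat_lit 32912) (nat_lit 8388608) (nat_lit 62084) (nat_lit 1099135517246) (nat_lit 0) (nat_lit 0),Row.mk (nat_lit 29904) (nat_lit 32912) (nat_lit 8388608) (nat_lit 62084) (nat_lit 1372795834270) (nat_lit 0) (nat_lit 0),Row.mk (nat_lit 30072) (nat_lit 32912) (nat_lit 8388608) (nat_lit 62084) (nat_lit 1714590968505) (nat_lit 0) (nat_lit 0),Row.mk (nat_lit 30240) (nat_lit 32912) (nat_lit 8388608) (nat_lit 62084) (nat_lit 2141484845766) (nat_lit 0) (nat_lit 0),Row.mk (nat_lit 30408) (nat_lit 32912) (nat_lit 8388608) (nat_lit 62084) (nat_lit 2674665000160) (nat_lit 0) (nat_lit 0),Row.mk (nat_lit 30576) (nat_lit 32912) (nat_lit 8388608) (nat_lit 62084) (nat_lit 3340594150663) (nat_lit 0) (nat_lit 0),Row.mk (nat_lit 30744) (nat_lit 32912) (nat_lit 8388608) (nat_lit 62084) (nat_lit 4172323594897) (nat_lit 0) (nat_lit 0),Row.mk (nat_lit 30912) (nat_lit 32912) (nat_lit 8388608) (nat_lit 62084)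 (nat_lit 5211133606266) (nat_lit 0) (nat_lit 0),Row.mk (nat_lit 31080) (nat_lit 32912) (nat_lit 8388608) (nat_lit 62084) (nat_lit 6508582250415) (nat_lit 0) (nat_lit 0),Row.mk (nat_lit 31248) (nat_lit 32912) (nat_lit 8388608) (nat_lit 62084) (nat_lit 8129064307559) (nat_lit 0) (nat_lit 0)],
[Row.mk (nat_lit 26040) (nat_lit 32912) (nat_lit 8388608) (nat_lit 62084) (nat_lit 8249432185) (nat_lit 0) (nat_lit 0),Row.mk (nat_lit 26208) (nat_lit 32912) (nat_lit 8388608) (nat_lit 62084) (nat_lit 10305430352) (nat_lit 0) (nat_lit 0),Row.mk (nat_lit 26376) (nat_lit 32912) (nat_lit 8388608) (nat_lit 62084) (nat_lit 12873322465) (nat_lit 0) (nat_lit 0),Row.mk (nat_lit 26544) (nat_lit 32912) (nat_lit 8388608) (nat_lit 62084) (nat_lit 16080557766) (nat_lit 0) (nat_lit 0),Row.mk (nat_lit 26712) (nat_lit 32912) (nat_lit 8388608) (nat_lit 62084) (nat_lit 20086317287) (nat_lit 0) (nat_lit 0),Row.mk (nat_lit 26880) (nat_lit 32912) (nat_lit 8388608)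 (nat_lit 62084) (nat_lit 25089414294) (nat_lit 0) (nat_lit 0),Row.mk (nat_lit 27048) (nat_lit 32912) (nat_lit 8388608) (nat_lit 62084) (nat_lit 31338161762) (nat_lit 0) (nat_lit 0),Row.mk (nat_lit 27216) (nat_lit 32912) (nat_lit 8388608) (nat_lit 62084) (nat_lit 39142696606) (nat_lit 0) (nat_lit 0),Row.mk (nat_lit 27384) (nat_lit 32912) (nat_lit 8388608) (nat_lit 62084) (nat_lit 48890372351) (nat_lit 0) (nat_lit 0),Row.mk (nat_lit 27552) (nat_lit 32912) (nat_lit 8388608) (nat_lit 62084) (nat_lit 61064984206) (nat_lit 0) (nat_lit 0),Row.mk (nat_lit 27720) (nat_lit 32912) (nat_lit 8388608) (nat_lit 62084) (nat_lit 76270780715) (nat_lit 0) (nat_lit 0),Row.mk (nat_lit 27888) (nat_lit 32912) (nat_lit 8388608) (nat_lit 62084) (nat_lit 95262453733) (nat_lit 0) (nat_lit 0),Row.mk (nat_lit 28056) (nat_lit 32912) (nat_lit 8388608) (nat_lit 62084) (nat_lit 118982595181) (nat_lit 0) (nat_lit 0),Row.mk (nat_lit 28224) (nat_lit 32912) (nat_lit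 8388608) (nat_lit 62084) (nat_lit 148608479629) (nat_lit 0) (nat_lit 0),Row.mk (nat_lit 28392) (nat_lit 32912) (nat_lit 8388608) (nat_lit 62084) (nat_lit 185610494615) (nat_lit 0) (nat_lit 0),Row.mk (nat_lit 28560) (nat_lit 32912) (nat_lit 8388608) (nat_lit 62084) (nat_lit 231825118704) (nat_lit 0) (nat_lit 0),Row.mk (nat_lit 28728) (nat_lit 32912) (nat_lit 8388608) (nat_lit 62084) (nat_lit 289546069319) (nat_lit 0) (nat_lit 0),Row.mk (nat_lit 28896) (nat_lit 32912) (nat_lit 8388608) (nat_lit 62084) (nat_lit 361638144187) (nat_lit 0) (nat_lit 0),Row.mk (nat_lit 29064) (nat_lit 32912) (nat_lit 8388608) (nat_lit 62084) (nat_lit 451679406563) (nat_lit 0) (nat_lit 0),Row.mk (nat_lit 29232) (nat_lit 32912) (nat_lit 8388608) (nat_lit 62084) (nat_lit 564138771133) (nat_lit 0) (nat_lit 0),Row.mk (nat_lit 29400) (nat_lit 32912) (nat_lit 8388608) (nat_lit 62084) (nat_lit 704597804532) (nat_lit 0) (nat_lit 0),Row.mk (nat_lit 29568) (nat_lit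 32912) (nat_lit 8388608) (nat_lit 62084) (nat_lit 880027748841) (nat_lit 0) (nat_lit 0),Row.mk (nat_lit 29736) (nat_lit 32912) (nat_lit 8388608) (nat_lit 62084) (nat_lit 1099135517246) (nat_lit 0) (nat_lit 0),Row.mk (nat_lit 29904) (nat_lit 32912) (nat_lit 8388608) (nat_lit 62084) (nat_lit 1372795834270) (nat_lit 0) (nat_lit 0),Row.mk (nat_lit 30072) (nat_lit 32912) (nat_lit 8388608) (nat_lit 62084) (nat_lit 1714590968505) (nat_lit 0) (nat_lit 0),Row.mk (nat_lit 30240) (nat_lit 32912) (nat_lit 8388608) (nat_lit 62084) (nat_lit 2141484845766) (nat_lit 0) (nat_lit 0),Row.mk (nat_lit 30408) (nat_lit 32912) (nat_lit 8388608) (nat_lit 62084) (nat_lit 2674665000160) (nat_lit 0) (nat_lit 0),Row.mk (nat_lit 30576) (nat_lit 32912) (nat_lit 8388608) (nat_lit 62084) (nat_lit 3340594150663) (nat_lit 0) (nat_lit 0),Row.mk (nat_lit 30744) (nat_lit 32912) (nat_lit 8388608) (nat_lit 62084) (nat_lit 4172323594897) (nat_lit 0) (nat_lit 0),Row.mk (nat_lit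 30912) (nat_lit 32912) (nat_lit 8388608) (nat_lit 62084) (nat_lit 5211133606266) (nat_lit 0) (nat_lit 0),Row.mk (nat_lit 31080) (nat_lit 32912) (nat_lit 8388608) (nat_lit 62084) (nat_lit 6508582250415) (nat_lit 0) (nat_lit 0),Row.mk (nat_lit 31248) (nat_lit 32912) (nat_lit 8388608) (nat_lit 62084) (nat_lit 8129064307559) (nat_lit 0) (nat_lit 0)],
[Row.mk (nat_lit 26208) (nat_lit 32912) (nat_lit 8388608) (nat_lit 62084) (nat_lit 10305430352) (nat_lit 0) (nat_lit 0),Row.mk (nat_lit 26376) (nat_lit 32912) (nat_lit 8388608) (nat_lit 62084) (nat_lit 12873322465) (nat_lit 0) (nat_lit 0),Row.mk (nat_lit 26544) (nat_lit 32912) (nat_lit 8388608) (nat_lit 62084) (nat_lit 16080557766) (nat_lit 0) (nat_lit 0),Row.mk (nat_lit 26712) (nat_lit 32912) (nat_lit 8388608) (nat_lit 62084) (nat_lit 20086317287) (nat_lit 0) (nat_lit 0),Row.mk (nat_lit 26880) (nat_lit 32912) (nat_lit 8388608) (nat_lit 62084) (nat_lit 25089414294) (nat_lit 0) (nat_lit 0),Row.mk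 (nat_lit 27048) (nat_lit 32912) (nat_lit 8388608) (nat_lit 62084) (nat_lit 31338161762) (nat_lit 0) (nat_lit 0),Row.mk (nat_lit 27216) (nat_lit 32912) (nat_lit 8388608) (nat_lit 62084) (nat_lit 39142696606) (nat_lit 0) (nat_lit 0),Row.mk (nat_lit 27384) (nat_lit 32912) (nat_lit 8388608) (nat_lit 62084) (nat_lit 48890372351) (nat_lit 0) (nat_lit 0),Row.mk (nat_lit 27552) (nat_lit 32912) (nat_lit 8388608) (nat_lit 62084) (nat_lit 61064984206) (nat_lit 0) (nat_lit 0),Row.mk (nat_lit 27720) (nat_lit 32912) (nat_lit 8388608) (nat_lit 62084) (nat_lit 76270780715) (nat_lit 0) (nat_lit 0),Row.mk (nat_lit 27888) (nat_lit 32912) (nat_lit 8388608) (nat_lit 62084) (nat_lit 95262453733) (nat_lit 0) (nat_lit 0),Row.mk (nat_lit 28056) (nat_lit 32912) (nat_lit 8388608) (nat_lit 62084) (nat_lit 118982595181) (nat_lit 0) (nat_lit 0),Row.mk (nat_lit 28224) (nat_lit 32912) (nat_lit 8388608) (nat_lit 62084) (nat_lit 148608479629) (nat_lit 0) (nat_lit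 0),Row.mk (nat_lit 28392) (nat_lit 32912) (nat_lit 8388608) (nat_lit 62084) (nat_lit 185610494615) (nat_lit 0) (nat_lit 0),Row.mk (nat_lit 28560) (nat_lit 32912) (nat_lit 8388608) (nat_lit 62084) (nat_lit 231825118704) (nat_lit 0) (nat_lit 0),Row.mk (nat_lit 28728) (nat_lit 32912) (nat_lit 8388608) (nat_lit 62084) (nat_lit 289546069319) (nat_lit 0) (nat_lit 0),Row.mk (nat_lit 28896) (nat_lit 32912) (nat_lit 8388608) (nat_lit 62084) (nat_lit 361638144187) (nat_lit 0) (nat_lit 0),Row.mk (nat_lit 29064) (nat_lit 32912) (nat_lit 8388608) (nat_lit 62084) (nat_lit 451679406563) (nat_lit 0) (nat_lit 0),Row.mk (nat_lit 29232) (nat_lit 32912) (nat_lit 8388608) (nat_lit 62084) (nat_lit 564138771133) (nat_lit 0) (nat_lit 0),Row.mk (nat_lit 29400) (nat_lit 32912) (nat_lit 8388608) (nat_lit 62084) (nat_lit 704597804532) (nat_lit 0) (nat_lit 0),Row.mk (nat_lit 29568) (nat_lit 32912) (nat_lit 8388608) (nat_lit 62084) (nat_lit 880027748841) (nat_lit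 0) (nat_lit 0),Row.mk (nat_lit 29736) (nat_lit 32912) (nat_lit 8388608) (nat_lit 62084) (nat_lit 1099135517246) (nat_lit 0) (nat_lit 0),Row.mk (nat_lit 29904) (nat_lit 32912) (nat_lit 8388608) (nat_lit 62084) (nat_lit 1372795834270) (nat_lit 0) (nat_lit 0),Row.mk (nat_lit 30072) (nat_lit 32912) (nat_lit 8388608) (nat_lit 62084) (nat_lit 1714590968505) (nat_lit 0) (nat_lit 0),Row.mk (nat_lit 30240) (nat_lit 32912) (nat_lit 8388608) (nat_lit 62084) (nat_lit 2141484845766) (nat_lit 0) (nat_lit 0),Row.mk (nat_lit 30408) (nat_lit 32912) (nat_lit 8388608) (nat_lit 62084) (nat_lit 2674665000160) (nat_lit 0) (nat_lit 0),Row.mk (nat_lit 30576) (nat_lit 32912) (nat_lit 8388608) (nat_lit 62084) (nat_lit 3340594150663) (nat_lit 0) (nat_lit 0),Row.mk (nat_lit 30744) (nat_lit 32912) (nat_lit 8388608) (nat_lit 62084) (nat_lit 4172323594897) (nat_lit 0) (nat_lit 0),Row.mk (nat_lit 30912) (nat_lit 32912) (nat_lit 8388608) (nat_lit 62084) (nat_lit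 5211133606266) (nat_lit 0) (nat_lit 0),Row.mk (nat_lit 31080) (nat_lit 32912) (nat_lit 8388608) (nat_lit 62084) (nat_lit 6508582250415) (nat_lit 0) (nat_lit 0),Row.mk (nat_lit 31248) (nat_lit 32912) (nat_lit 8388608) (nat_lit 62084) (nat_lit 8129064307559) (nat_lit 0) (nat_lit 0)],
[Row.mk (nat_lit 26544) (nat_lit 32912) (nat_lit 8388608) (nat_lit 62084) (nat_lit 16080557766) (nat_lit 0) (nat_lit 0),Row.mk (nat_lit 26712) (nat_lit 32912) (nat_lit 8388608) (nat_lit 62084) (nat_lit 20086317287) (nat_lit 0) (nat_lit 0),Row.mk (nat_lit 26880) (nat_lit 32912) (nat_lit 8388608) (nat_lit 62084) (nat_lit 25089414294) (nat_lit 0) (nat_lit 0),Row.mk (nat_lit 27048) (nat_lit 32912) (nat_lit 8388608) (nat_lit 62084) (nat_lit 31338161762) (nat_lit 0) (nat_lit 0),Row.mk (nat_lit 27216) (nat_lit 32912) (nat_lit 8388608) (nat_lit 62084) (nat_lit 39142696606) (nat_lit 0) (nat_lit 0),Row.mk (nat_lit 27384) (nat_lit 32912) (nat_lit 8388608) (nat_lit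 62084) (nat_lit 48890372351) (nat_lit 0) (nat_lit 0),Row.mk (nat_lit 27552) (nat_lit 32912) (nat_lit 8388608) (nat_lit 62084) (nat_lit 61064984206) (nat_lit 0) (nat_lit 0),Row.mk (nat_lit 27720) (nat_lit 32912) (nat_lit 8388608) (nat_lit 62084) (nat_lit 76270780715) (nat_lit 0) (nat_lit 0),Row.mk (nat_lit 27888) (nat_lit 32912) (nat_lit 8388608) (nat_lit 62084) (nat_lit 95262453733) (nat_lit 0) (nat_lit 0),Row.mk (nat_lit 28056) (nat_lit 32912) (nat_lit 8388608) (nat_lit 62084) (nat_lit 118982595181) (nat_lit 0) (nat_lit 0),Row.mk (nat_lit 28224) (nat_lit 32912) (nat_lit 8388608) (nat_lit 62084) (nat_lit 148608479629) (nat_lit 0) (nat_lit 0),Row.mk (nat_lit 28392) (nat_lit 32912) (nat_lit 8388608) (nat_lit 62084) (nat_lit 185610494615) (nat_lit 0) (nat_lit 0),Row.mk (nat_lit 28560) (nat_lit 32912) (nat_lit 8388608) (nat_lit 62084) (nat_lit 231825118704) (nat_lit 0) (nat_lit 0),Row.mk (nat_lit 28728) (nat_lit 32912) (nat_lit 8388608)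 (nat_lit 62084) (nat_lit 289546069319) (nat_lit 0) (nat_lit 0),Row.mk (nat_lit 28896) (nat_lit 32912) (nat_lit 8388608) (nat_lit 62084) (nat_lit 361638144187) (nat_lit 0) (nat_lit 0),Row.mk (nat_lit 29064) (nat_lit 32912) (nat_lit 8388608) (nat_lit 62084) (nat_lit 451679406563) (nat_lit 0) (nat_lit 0),Row.mk (nat_lit 29232) (nat_lit 32912) (nat_lit 8388608) (nat_lit 62084) (nat_lit 564138771133) (nat_lit 0) (nat_lit 0),Row.mk (nat_lit 29400) (nat_lit 32912) (nat_lit 8388608) (nat_lit 62084) (nat_lit 704597804532) (nat_lit 0) (nat_lit 0),Row.mk (nat_lit 29568) (nat_lit 32912) (nat_lit 8388608) (nat_lit 62084) (nat_lit 880027748841) (nat_lit 0) (nat_lit 0),Row.mk (nat_lit 29736) (nat_lit 32912) (nat_lit 8388608) (nat_lit 62084) (nat_lit 1099135517246) (nat_lit 0) (nat_lit 0),Row.mk (nat_lit 29904) (nat_lit 32912) (nat_lit 8388608) (nat_lit 62084) (nat_lit 1372795834270) (nat_lit 0) (nat_lit 0),Row.mk (nat_lit 30072) (nat_lit 32912)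 (nat_lit 8388608) (nat_lit 62084) (nat_lit 1714590968505) (nat_lit 0) (nat_lit 0),Row.mk (nat_lit 30240) (nat_lit 32912) (nat_lit 8388608) (nat_lit 62084) (nat_lit 2141484845766) (nat_lit 0) (nat_lit 0),Row.mk (nat_lit 30408) (nat_lit 32912) (nat_lit 8388608) (nat_lit 62084) (nat_lit 2674665000160) (nat_lit 0) (nat_lit 0),Row.mk (nat_lit 30576) (nat_lit 32912) (nat_lit 8388608) (nat_lit 62084) (nat_lit 3340594150663) (nat_lit 0) (nat_lit 0),Row.mk (nat_lit 30744) (nat_lit 32912) (nat_lit 8388608) (nat_lit 62084) (nat_lit 4172323594897) (nat_lit 0) (nat_lit 0),Row.mk (nat_lit 30912) (nat_lit 32912) (nat_lit 8388608) (nat_lit 62084) (nat_lit 5211133606266) (nat_lit 0) (nat_lit 0),Row.mk (nat_lit 31080) (nat_lit 32912) (nat_lit 8388608) (nat_lit 62084) (nat_lit 6508582250415) (nat_lit 0) (nat_lit 0),Row.mk (nat_lit 31248) (nat_lit 32912) (nat_lit 8388608) (nat_lit 62084) (nat_lit 8129064307559) (nat_lit 0) (nat_lit 0)],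
[Row.mk (nat_lit 26880) (nat_lit 32912) (nat_lit 8388608) (nat_lit 62084) (nat_lit 25089414294) (nat_lit 0) (nat_lit 0),Row.mk (nat_lit 27048) (nat_lit 32912) (nat_lit 8388608) (nat_lit 62084) (nat_lit 31338161762) (nat_lit 0) (nat_lit 0),Row.mk (nat_lit 27216) (nat_lit 32912) (nat_lit 8388608) (nat_lit 62084) (nat_lit 39142696606) (nat_lit 0) (nat_lit 0),Row.mk (nat_lit 27384) (nat_lit 32912) (nat_lit 8388608) (nat_lit 62084) (nat_lit 48890372351) (nat_lit 0) (nat_lit 0),Row.mk (nat_lit 27552) (nat_lit 32912) (nat_lit 8388608) (nat_lit 62084) (nat_lit 61064984206) (nat_lit 0) (nat_lit 0),Row.mk (nat_lit 27720) (nat_lit 32912) (nat_lit 8388608) (nat_lit 62084) (nat_lit 76270780715) (nat_lit 0) (nat_lit 0),Row.mk (nat_lit 27888) (nat_lit 32912) (nat_lit 8388608) (nat_lit 62084) (nat_lit 95262453733) (nat_lit 0) (nat_lit 0),Row.mk (nat_lit 28056) (nat_lit 32912) (nat_lit 8388608) (nat_lit 62084) (nat_lit 118982595181) (nat_lit 0) (nat_lit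 0),Row.mk (nat_lit 28224) (nat_lit 32912) (nat_lit 8388608) (nat_lit 62084) (nat_lit 148608479629) (nat_lit 0) (nat_lit 0),Row.mk (nat_lit 28392) (nat_lit 32912) (nat_lit 8388608) (nat_lit 62084) (nat_lit 185610494615) (nat_lit 0) (nat_lit 0),Row.mk (nat_lit 28560) (nat_lit 32912) (nat_lit 8388608) (nat_lit 62084) (nat_lit 231825118704) (nat_lit 0) (nat_lit 0),Row.mk (nat_lit 28728) (nat_lit 32912) (nat_lit 8388608) (nat_lit 62084) (nat_lit 289546069319) (nat_lit 0) (nat_lit 0),Row.mk (nat_lit 28896) (nat_lit 32912) (nat_lit 8388608) (nat_lit 62084) (nat_lit 361638144187) (nat_lit 0) (nat_lit 0),Row.mk (nat_lit 29064) (nat_lit 32912) (nat_lit 8388608) (nat_lit 62084) (nat_lit 451679406563) (nat_lit 0) (nat_lit 0),Row.mk (nat_lit 29232) (nat_lit 32912) (nat_lit 8388608) (nat_lit 62084) (nat_lit 564138771133) (nat_lit 0) (nat_lit 0),Row.mk (nat_lit 29400) (nat_lit 32912) (nat_lit 8388608) (nat_lit 62084) (nat_lit 704597804532) (nat_lit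 0) (nat_lit 0),Row.mk (nat_lit 29568) (nat_lit 32912) (nat_lit 8388608) (nat_lit 62084) (nat_lit 880027748841) (nat_lit 0) (nat_lit 0),Row.mk (nat_lit 29736) (nat_lit 32912) (nat_lit 8388608) (nat_lit 62084) (nat_lit 1099135517246) (nat_lit 0) (nat_lit 0),Row.mk (nat_lit 29904) (nat_lit 32912) (nat_lit 8388608) (nat_lit 62084) (nat_lit 1372795834270) (nat_lit 0) (nat_lit 0),Row.mk (nat_lit 30072) (nat_lit 32912) (nat_lit 8388608) (nat_lit 62084) (nat_lit 1714590968505) (nat_lit 0) (nat_lit 0),Row.mk (nat_lit 30240) (nat_lit 32912) (nat_lit 8388608) (nat_lit 62084) (nat_lit 2141484845766) (nat_lit 0) (nat_lit 0),Row.mk (nat_lit 30408) (nat_lit 32912) (nat_lit 8388608) (nat_lit 62084) (nat_lit 2674665000160) (nat_lit 0) (nat_lit 0),Row.mk (nat_lit 30576) (nat_lit 32912) (nat_lit 8388608) (nat_lit 62084) (nat_lit 3340594150663) (nat_lit 0) (nat_lit 0),Row.mk (nat_lit 30744) (nat_lit 32912) (nat_lit 8388608) (nat_lit 62084) (nat_lit 4172323594897)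 (nat_lit 0) (nat_lit 0),Row.mk (nat_lit 30912) (nat_lit 32912) (nat_lit 8388608) (nat_lit 62084) (nat_lit 5211133606266) (nat_lit 0) (nat_lit 0),Row.mk (nat_lit 31080) (nat_lit 32912) (nat_lit 8388608) (nat_lit 62084) (nat_lit 6508582250415) (nat_lit 0) (nat_lit 0),Row.mk (nat_lit 31248) (nat_lit 32912) (nat_lit 8388608) (nat_lit 62084) (nat_lit 8129064307559) (nat_lit 0) (nat_lit 0)],
[Row.mk (nat_lit 27216) (nat_lit 32912) (nat_lit 8388608) (nat_lit 62084) (nat_lit 39142696606) (nat_lit 0) (nat_lit 0),Row.mk (nat_lit 27384) (nat_lit 32912) (nat_lit 8388608) (nat_lit 62084) (nat_lit 48890372351) (nat_lit 0) (nat_lit 0),Row.mk (nat_lit 27552) (nat_lit 32912) (nat_lit 8388608) (nat_lit 62084) (nat_lit 61064984206) (nat_lit 0) (nat_lit 0),Row.mk (nat_lit 27720) (nat_lit 32912) (nat_lit 8388608) (nat_lit 62084) (nat_lit 76270780715) (nat_lit 0) (nat_lit 0),Row.mk (nat_lit 27888) (nat_lit 32912) (nat_lit 8388608) (nat_lit 62084) (nat_lit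 95262453733) (nat_lit 0) (nat_lit 0),Row.mk (nat_lit 28056) (nat_lit 32912) (nat_lit 8388608) (nat_lit 62084) (nat_lit 118982595181) (nat_lit 0) (nat_lit 0),Row.mk (nat_lit 28224) (nat_lit 32912) (nat_lit 8388608) (nat_lit 62084) (nat_lit 148608479629) (nat_lit 0) (nat_lit 0),Row.mk (nat_lit 28392) (nat_lit 32912) (nat_lit 8388608) (nat_lit 62084) (nat_lit 185610494615) (nat_lit 0) (nat_lit 0),Row.mk (nat_lit 28560) (nat_lit 32912) (nat_lit 8388608) (nat_lit 62084) (nat_lit 231825118704) (nat_lit 0) (nat_lit 0),Row.mk (nat_lit 28728) (nat_lit 32912) (nat_lit 8388608) (nat_lit 62084) (nat_lit 289546069319) (nat_lit 0) (nat_lit 0),Row.mk (nat_lit 28896) (nat_lit 32912) (nat_lit 8388608) (nat_lit 62084) (nat_lit 361638144187) (nat_lit 0) (nat_lit 0),Row.mk (nat_lit 29064) (nat_lit 32912) (nat_lit 8388608) (nat_lit 62084) (nat_lit 451679406563) (nat_lit 0) (nat_lit 0),Row.mk (nat_lit 29232) (nat_lit 32912) (nat_lit 8388608) (nat_lit 62084)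 (nat_lit 564138771133) (nat_lit 0) (nat_lit 0),Row.mk (nat_lit 29400) (nat_lit 32912) (nat_lit 8388608) (nat_lit 62084) (nat_lit 704597804532) (nat_lit 0) (nat_lit 0),Row.mk (nat_lit 29568) (nat_lit 32912) (nat_lit 8388608) (nat_lit 62084) (nat_lit 880027748841) (nat_lit 0) (nat_lit 0),Row.mk (nat_lit 29736) (nat_lit 32912) (nat_lit 8388608) (nat_lit 62084) (nat_lit 1099135517246) (nat_lit 0) (nat_lit 0),Row.mk (nat_lit 29904) (nat_lit 32912) (nat_lit 8388608) (nat_lit 62084) (nat_lit 1372795834270) (nat_lit 0) (nat_lit 0),Row.mk (nat_lit 30072) (nat_lit 32912) (nat_lit 8388608) (nat_lit 62084) (nat_lit 1714590968505) (nat_lit 0) (nat_lit 0),Row.mk (nat_lit 30240) (nat_lit 32912) (nat_lit 8388608) (nat_lit 62084) (nat_lit 2141484845766) (nat_lit 0) (nat_lit 0),Row.mk (nat_lit 30408) (nat_lit 32912) (nat_lit 8388608) (nat_lit 62084) (nat_lit 2674665000160) (nat_lit 0) (nat_lit 0),Row.mk (nat_lit 30576) (nat_lit 32912) (nat_lit 8388608)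 (nat_lit 62084) (nat_lit 3340594150663) (nat_lit 0) (nat_lit 0),Row.mk (nat_lit 30744) (nat_lit 32912) (nat_lit 8388608) (nat_lit 62084) (nat_lit 4172323594897) (nat_lit 0) (nat_lit 0),Row.mk (nat_lit 30912) (nat_lit 32912) (nat_lit 8388608) (nat_lit 62084) (nat_lit 5211133606266) (nat_lit 0) (nat_lit 0),Row.mk (nat_lit 31080) (nat_lit 32912) (nat_lit 8388608) (nat_lit 62084) (nat_lit 6508582250415) (nat_lit 0) (nat_lit 0),Row.mk (nat_lit 31248) (nat_lit 32912) (nat_lit 8388608) (nat_lit 62084) (nat_lit 8129064307559) (nat_lit 0) (nat_lit 0),Row.mk (nat_lit 31416) (nat_lit 32912) (nat_lit 8388608) (nat_lit 62084) (nat_lit 10153007304739) (nat_lit 0) (nat_lit 0)],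
[Row.mk (nat_lit 27720) (nat_lit 32912) (nat_lit 8388608) (nat_lit 62084) (nat_lit 76270780715) (nat_lit 0) (nat_lit 0),Row.mk (nat_lit 27888) (nat_lit 32912) (nat_lit 8388608) (nat_lit 62084) (nat_lit 95262453733) (nat_lit 0) (nat_lit 0),Row.mk (nat_lit 28056) (nat_lit 32912) (nat_lit 8388608) (nat_lit 62084) (nat_lit 118982595181) (nat_lit 0) (nat_lit 0),Row.mk (nat_lit 28224) (nat_lit 32912) (nat_lit 8388608) (nat_lit 62084) (nat_lit 148608479629) (nat_lit 0) (nat_lit 0),Row.mk (nat_lit 28392) (nat_lit 32912) (nat_lit 8388608) (nat_lit 62084) (nat_lit 185610494615) (nat_lit 0) (nat_lit 0),Row.mk (nat_lit 28560) (nat_lit 32912) (nat_lit 8388608) (nat_lit 62084) (nat_lit 231825118704) (nat_lit 0) (nat_lit 0),Row.mk (nat_lit 28728) (nat_lit 32912) (nat_lit 8388608) (nat_lit 62084) (nat_lit 289546069319) (nat_lit 0) (nat_lit 0),Row.mk (nat_lit 28896) (nat_lit 32912) (nat_lit 8388608) (nat_lit 62084) (nat_lit 361638144187) (nat_lit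 0) (nat_lit 0),Row.mk (nat_lit 29064) (nat_lit 32912) (nat_lit 8388608) (nat_lit 62084) (nat_lit 451679406563) (nat_lit 0) (nat_lit 0),Row.mk (nat_lit 29232) (nat_lit 32912) (nat_lit 8388608) (nat_lit 62084) (nat_lit 564138771133) (nat_lit 0) (nat_lit 0),Row.mk (nat_lit 29400) (nat_lit 32912) (nat_lit 8388608) (nat_lit 62084) (nat_lit 704597804532) (nat_lit 0) (nat_lit 0),Row.mk (nat_lit 29568) (nat_lit 32912) (nat_lit 8388608) (nat_lit 62084) (nat_lit 880027748841) (nat_lit 0) (nat_lit 0),Row.mk (nat_lit 29736) (nat_lit 32912) (nat_lit 8388608) (nat_lit 62084) (nat_lit 1099135517246) (nat_lit 0) (nat_lit 0),Row.mk (nat_lit 29904) (nat_lit 32912) (nat_lit 8388608) (nat_lit 62084) (nat_lit 1372795834270) (nat_lit 0) (nat_lit 0),Row.mk (nat_lit 30072) (nat_lit 32912) (nat_lit 8388608) (nat_lit 62084) (nat_lit 1714590968505) (nat_lit 0) (nat_lit 0),Row.mk (nat_lit 30240) (nat_lit 32912) (nat_lit 8388608) (nat_lit 62084) (nat_lit 2141484845766)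 (nat_lit 0) (nat_lit 0),Row.mk (nat_lit 30408) (nat_lit 32912) (nat_lit 8388608) (nat_lit 62084) (nat_lit 2674665000160) (nat_lit 0) (nat_lit 0),Row.mk (nat_lit 30576) (nat_lit 32912) (nat_lit 8388608) (nat_lit 62084) (nat_lit 3340594150663) (nat_lit 0) (nat_lit 0),Row.mk (nat_lit 30744) (nat_lit 32912) (nat_lit 8388608) (nat_lit 62084) (nat_lit 4172323594897) (nat_lit 0) (nat_lit 0),Row.mk (nat_lit 30912) (nat_lit 32912) (nat_lit 8388608) (nat_lit 62084) (nat_lit 5211133606266) (nat_lit 0) (nat_lit 0),Row.mk (nat_lit 31080) (nat_lit 32912) (nat_lit 8388608) (nat_lit 62084) (nat_lit 6508582250415) (nat_lit 0) (nat_lit 0),Row.mk (nat_lit 31248) (nat_lit 32912) (nat_lit 8388608) (nat_lit 62084) (nat_lit 8129064307559) (nat_lit 0) (nat_lit 0),Row.mk (nat_lit 31416) (nat_lit 32912) (nat_lit 8388608) (nat_lit 62084) (nat_lit 10153007304739) (nat_lit 0) (nat_lit 0)],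
[Row.mk (nat_lit 28056) (nat_lit 32912) (nat_lit 8388608) (nat_lit 62084) (nat_lit 118982595181) (nat_lit 0) (nat_lit 0),Row.mk (nat_lit 28224) (nat_lit 32912) (nat_lit 8388608) (nat_lit 62084) (nat_lit 148608479629) (nat_lit 0) (nat_lit 0),Row.mk (nat_lit 28392) (nat_lit 32912) (nat_lit 8388608) (nat_lit 62084) (nat_lit 185610494615) (nat_lit 0) (nat_lit 0),Row.mk (nat_lit 28560) (nat_lit 32912) (nat_lit 8388608) (nat_lit 62084) (nat_lit 231825118704) (nat_lit 0) (nat_lit 0),Row.mk (nat_lit 28728) (nat_lit 32912) (nat_lit 8388608) (nat_lit 62084) (nat_lit 289546069319) (nat_lit 0) (nat_lit 0),Row.mk (nat_lit 28896) (nat_lit 32912) (nat_lit 8388608) (nat_lit 62084) (nat_lit 361638144187) (nat_lit 0) (nat_lit 0),Row.mk (nat_lit 29064) (nat_lit 32912) (nat_lit 8388608) (nat_lit 62084) (nat_lit 451679406563) (nat_lit 0) (nat_lit 0),Row.mk (nat_lit 29232) (nat_lit 32912) (nat_lit 8388608) (nat_lit 62084) (nat_lit 564138771133) (nat_lit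 0) (nat_lit 0),Row.mk (nat_lit 29400) (nat_lit 32912) (nat_lit 8388608) (nat_lit 62084) (nat_lit 704597804532) (nat_lit 0) (nat_lit 0),Row.mk (nat_lit 29568) (nat_lit 32912) (nat_lit 8388608) (nat_lit 62084) (nat_lit 880027748841) (nat_lit 0) (nat_lit 0),Row.mk (nat_lit 29736) (nat_lit 32912) (nat_lit 8388608) (nat_lit 62084) (nat_lit 1099135517246) (nat_lit 0) (nat_lit 0),Row.mk (nat_lit 29904) (nat_lit 32912) (nat_lit 8388608) (nat_lit 62084) (nat_lit 1372795834270) (nat_lit 0) (nat_lit 0),Row.mk (nat_lit 30072) (nat_lit 32912) (nat_lit 8388608) (nat_lit 62084) (nat_lit 1714590968505) (nat_lit 0) (nat_lit 0),Row.mk (nat_lit 30240) (nat_lit 32912) (nat_lit 8388608) (nat_lit 62084) (nat_lit 2141484845766) (nat_lit 0) (nat_lit 0),Row.mk (nat_lit 30408) (nat_lit 32912) (nat_lit 8388608) (nat_lit 62084) (nat_lit 2674665000160) (nat_lit 0) (nat_lit 0),Row.mk (nat_lit 30576) (nat_lit 32912) (nat_lit 8388608) (nat_lit 62084) (nat_lit 3340594150663)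 (nat_lit 0) (nat_lit 0),Row.mk (nat_lit 30744) (nat_lit 32912) (nat_lit 8388608) (nat_lit 62084) (nat_lit 4172323594897) (nat_lit 0) (nat_lit 0),Row.mk (nat_lit 30912) (nat_lit 32912) (nat_lit 8388608) (nat_lit 62084) (nat_lit 5211133606266) (nat_lit 0) (nat_lit 0),Row.mk (nat_lit 31080) (nat_lit 32912) (nat_lit 8388608) (nat_lit 62084) (nat_lit 6508582250415) (nat_lit 0) (nat_lit 0),Row.mk (nat_lit 31248) (nat_lit 32912) (nat_lit 8388608) (nat_lit 62084) (nat_lit 8129064307559) (nat_lit 0) (nat_lit 0),Row.mk (nat_lit 31416) (nat_lit 32912) (nat_lit 8388608) (nat_lit 62084) (nat_lit 10153007304739) (nat_lit 0) (nat_lit 0),Row.mk (nat_lit 31584) (nat_lit 32912) (nat_lit 8388608) (nat_lit 62084) (nat_lit 12680863283010) (nat_lit 0) (nat_lit 0)],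
[Row.mk (nat_lit 28728) (nat_lit 32912) (nat_lit 8388608) (nat_lit 62084) (nat_lit 289546069319) (nat_lit 0) (nat_lit 0),Row.mk (nat_lit 28896) (nat_lit 32912) (nat_lit 8388608) (nat_lit 62084) (nat_lit 361638144187) (nat_lit 0) (nat_lit 0),Row.mk (nat_lit 29064) (nat_lit 32912) (nat_lit 8388608) (nat_lit 62084) (nat_lit 451679406563) (nat_lit 0) (nat_lit 0),Row.mk (nat_lit 29232) (nat_lit 32912) (nat_lit 8388608) (nat_lit 62084) (nat_lit 564138771133) (nat_lit 0) (nat_lit 0),Row.mk (nat_lit 29400) (nat_lit 32912) (nat_lit 8388608) (nat_lit 62084) (nat_lit 704597804532) (nat_lit 0) (nat_lit 0),Row.mk (nat_lit 29568) (nat_lit 32912) (nat_lit 8388608) (nat_lit 62084) (nat_lit 880027748841) (nat_lit 0) (nat_lit 0),Row.mk (nat_lit 29736) (nat_lit 32912) (nat_lit 8388608) (nat_lit 62084) (nat_lit 1099135517246) (nat_lit 0) (nat_lit 0),Row.mk (nat_lit 29904) (nat_lit 32912) (nat_lit 8388608) (nat_lit 62084) (nat_lit 1372795834270) (nat_lit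 0) (nat_lit 0),Row.mk (nat_lit 30072) (nat_lit 32912) (nat_lit 8388608) (nat_lit 62084) (nat_lit 1714590968505) (nat_lit 0) (nat_lit 0),Row.mk (nat_lit 30240) (nat_lit 32912) (nat_lit 8388608) (nat_lit 62084) (nat_lit 2141484845766) (nat_lit 0) (nat_lit 0),Row.mk (nat_lit 30408) (nat_lit 32912) (nat_lit 8388608) (nat_lit 62084) (nat_lit 2674665000160) (nat_lit 0) (nat_lit 0),Row.mk (nat_lit 30576) (nat_lit 32912) (nat_lit 8388608) (nat_lit 62084) (nat_lit 3340594150663) (nat_lit 0) (nat_lit 0),Row.mk (nat_lit 30744) (nat_lit 32912) (nat_lit 8388608) (nat_lit 62084) (nat_lit 4172323594897) (nat_lit 0) (nat_lit 0),Row.mk (nat_lit 30912) (nat_lit 32912) (nat_lit 8388608) (nat_lit 62084) (nat_lit 5211133606266) (nat_lit 0) (nat_lit 0),Row.mk (nat_lit 31080) (nat_lit 32912) (nat_lit 8388608) (nat_lit 62084) (nat_lit 6508582250415) (nat_lit 0) (nat_lit 0),Row.mk (nat_lit 31248) (nat_lit 32912) (nat_lit 8388608) (nat_lit 62084) (nat_lit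 8129064307559) (nat_lit 0) (nat_lit 0),Row.mk (nat_lit 31416) (nat_lit 32912) (nat_lit 8388608) (nat_lit 62084) (nat_lit 10153007304739) (nat_lit 0) (nat_lit 0),Row.mk (nat_lit 31584) (nat_lit 32912) (nat_lit 8388608) (nat_lit 62084) (nat_lit 12680863283010) (nat_lit 0) (nat_lit 0)],
[Row.mk (nat_lit 29568) (nat_lit 32912) (nat_lit 8388608) (nat_lit 62084) (nat_lit 880027748841) (nat_lit 0) (nat_lit 0),Row.mk (nat_lit 29736) (nat_lit 32912) (nat_lit 8388608) (nat_lit 62084) (nat_lit 1099135517246) (nat_lit 0) (nat_lit 0),Row.mk (nat_lit 29904) (nat_lit 32912) (nat_lit 8388608) (nat_lit 62084) (nat_lit 1372795834270) (nat_lit 0) (nat_lit 0),Row.mk (nat_lit 30072) (nat_lit 32912) (nat_lit 8388608) (nat_lit 62084) (nat_lit 1714590968505) (nat_lit 0) (nat_lit 0),Row.mk (nat_lit 30240) (nat_lit 32912) (nat_lit 8388608) (nat_lit 62084) (nat_lit 2141484845766) (nat_lit 0) (nat_lit 0),Row.mk (nat_lit 30408) (nat_lit 32912) (nat_lit 8388608)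 (nat_lit 62084) (nat_lit 2674665000160) (nat_lit 0) (nat_lit 0),Row.mk (nat_lit 30576) (nat_lit 32912) (nat_lit 8388608) (nat_lit 62084) (nat_lit 3340594150663) (nat_lit 0) (nat_lit 0),Row.mk (nat_lit 30744) (nat_lit 32912) (nat_lit 8388608) (nat_lit 62084) (nat_lit 4172323594897) (nat_lit 0) (nat_lit 0),Row.mk (nat_lit 30912) (nat_lit 32912) (nat_lit 8388608) (nat_lit 62084) (nat_lit 5211133606266) (nat_lit 0) (nat_lit 0),Row.mk (nat_lit 31080) (nat_lit 32912) (nat_lit 8388608) (nat_lit 62084) (nat_lit 6508582250415) (nat_lit 0) (nat_lit 0),Row.mk (nat_lit 31248) (nat_lit 32912) (nat_lit 8388608) (nat_lit 62084) (nat_lit 8129064307559) (nat_lit 0) (nat_lit 0),Row.mk (nat_lit 31416) (nat_lit 32912) (nat_lit 8388608) (nat_lit 62084) (nat_lit 10153007304739) (nat_lit 0) (nat_lit 0),Row.mk (nat_lit 31584) (nat_lit 32912) (nat_lit 8388608) (nat_lit 62084) (nat_lit 12680863283010) (nat_lit 0) (nat_lit 0)],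
[Row.mk (nat_lit 30072) (nat_lit 32912) (nat_lit 8388608) (nat_lit 62084) (nat_lit 1714590968505) (nat_lit 0) (nat_lit 0),Row.mk (nat_lit 30240) (nat_lit 32912) (nat_lit 8388608) (nat_lit 62084) (nat_lit 2141484845766) (nat_lit 0) (nat_lit 0),Row.mk (nat_lit 30408) (nat_lit 32912) (nat_lit 8388608) (nat_lit 62084) (nat_lit 2674665000160) (nat_lit 0) (nat_lit 0),Row.mk (nat_lit 30576) (nat_lit 32912) (nat_lit 8388608) (nat_lit 62084) (nat_lit 3340594150663) (nat_lit 0) (nat_lit 0),Row.mk (nat_lit 30744) (nat_lit 32912) (nat_lit 8388608) (nat_lit 62084) (nat_lit 4172323594897) (nat_lit 0) (nat_lit 0),Row.mk (nat_lit 30912) (nat_lit 32912) (nat_lit 8388608) (nat_lit 62084) (nat_lit 5211133606266) (nat_lit 0) (nat_lit 0),Row.mk (nat_lit 31080) (nat_lit 32912) (nat_lit 8388608) (nat_lit 62084) (nat_lit 6508582250415) (nat_lit 0) (nat_lit 0),Row.mk (nat_lit 31248) (nat_lit 32912) (nat_lit 8388608) (nat_lit 62084) (nat_lit 8129064307559)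 (nat_lit 0) (nat_lit 0),Row.mk (nat_lit 31416) (nat_lit 32912) (nat_lit 8388608) (nat_lit 62084) (nat_lit 10153007304739) (nat_lit 0) (nat_lit 0),Row.mk (nat_lit 31584) (nat_lit 32912) (nat_lit 8388608) (nat_lit 62084) (nat_lit 12680863283010) (nat_lit 0) (nat_lit 0),Row.mk (nat_lit 31752) (nat_lit 32912) (nat_lit 8388608) (nat_lit 62084) (nat_lit 15838094418365) (nat_lit 0) (nat_lit 0)],
[Row.mk (nat_lit 30576) (nat_lit 32912) (nat_lit 8388608) (nat_lit 62084) (nat_lit 3340594150663) (nat_lit 0) (nat_lit 0),Row.mk (nat_lit 30744) (nat_lit 32912) (nat_lit 8388608) (nat_lit 62084) (nat_lit 4172323594897) (nat_lit 0) (nat_lit 0),Row.mk (nat_lit 30912) (nat_lit 32912) (nat_lit 8388608) (nat_lit 62084) (nat_lit 5211133606266) (nat_lit 0) (nat_lit 0),Row.mk (nat_lit 31080) (nat_lit 32912) (nat_lit 8388608) (nat_lit 62084) (nat_lit 6508582250415) (nat_lit 0) (nat_lit 0),Row.mk (nat_lit 31248) (nat_lit 32912) (nat_lit 8388608) (nat_lit 62084)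 (nat_lit 8129064307559) (nat_lit 0) (nat_lit 0),Row.mk (nat_lit 31416) (nat_lit 32912) (nat_lit 8388608) (nat_lit 62084) (nat_lit 10153007304739) (nat_lit 0) (nat_lit 0),Row.mk (nat_lit 31584) (nat_lit 32912) (nat_lit 8388608) (nat_lit 62084) (nat_lit 12680863283010) (nat_lit 0) (nat_lit 0),Row.mk (nat_lit 31752) (nat_lit 32912) (nat_lit 8388608) (nat_lit 62084) (nat_lit 15838094418365) (nat_lit 0) (nat_lit 0),Row.mk (nat_lit 31920) (nat_lit 32912) (nat_lit 8388608) (nat_lit 62084) (nat_lit 19781399941994) (nat_lit 0) (nat_lit 0)],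
[Row.mk (nat_lit 30912) (nat_lit 32912) (nat_lit 8388608) (nat_lit 62084) (nat_lit 5211133606266) (nat_lit 0) (nat_lit 0),Row.mk (nat_lit 31080) (nat_lit 32912) (nat_lit 8388608) (nat_lit 62084) (nat_lit 6508582250415) (nat_lit 0) (nat_lit 0),Row.mk (nat_lit 31248) (nat_lit 32912) (nat_lit 8388608) (nat_lit 62084) (nat_lit 8129064307559) (nat_lit 0) (nat_lit 0),Row.mk (nat_lit 31416) (nat_lit 32912) (nat_lit 8388608) (nat_lit 62084) (nat_lit 10153007304739) (nat_lit 0) (nat_lit 0),Row.mk (nat_lit 31584) (nat_lit 32912) (nat_lit 8388608) (nat_lit 62084) (nat_lit 12680863283010) (nat_lit 0) (nat_lit 0),Row.mk (nat_lit 31752) (nat_lit 32912) (nat_lit 8388608) (nat_lit 62084) (nat_lit 15838094418365) (nat_lit 0) (nat_lit 0),Row.mk (nat_lit 31920) (nat_lit 32912) (nat_lit 8388608) (nat_lit 62084) (nat_lit 19781399941994) (nat_lit 0) (nat_lit 0)],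
[Row.mk (nat_lit 31248) (nat_lit 32912) (nat_lit 8388608) (nat_lit 62084) (nat_lit 8129064307559) (nat_lit 0) (nat_lit 0),Row.mk (nat_lit 31416) (nat_lit 32912) (nat_lit 8388608) (nat_lit 62084) (nat_lit 10153007304739) (nat_lit 0) (nat_lit 0),Row.mk (nat_lit 31584) (nat_lit 32912) (nat_lit 8388608) (nat_lit 62084) (nat_lit 12680863283010) (nat_lit 0) (nat_lit 0),Row.mk (nat_lit 31752) (nat_lit 32912) (nat_lit 8388608) (nat_lit 62084) (nat_lit 15838094418365) (nat_lit 0) (nat_lit 0),Row.mk (nat_lit 31920) (nat_lit 32912) (nat_lit 8388608) (nat_lit 62084) (nat_lit 19781399941994) (nat_lit 0) (nat_lit 0),Row.mk (nat_lit 32088) (nat_lit 32912) (nat_lit 8388608) (nat_lit 62084) (nat_lit 24706493413474) (nat_lit 0) (nat_lit 0)],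
[Row.mk (nat_lit 31584) (nat_lit 32912) (nat_lit 8388608) (nat_lit 62084) (nat_lit 12680863283010) (nat_lit 0) (nat_lit 0),Row.mk (nat_lit 31752) (nat_lit 32912) (nat_lit 8388608) (nat_lit 62084) (nat_lit 15838094418365) (nat_lit 0) (nat_lit 0),Row.mk (nat_lit 31920) (nat_lit 32912) (nat_lit 8388608) (nat_lit 62084) (nat_lit 19781399941994) (nat_lit 0) (nat_lit 0),Row.mk (nat_lit 32088) (nat_lit 32912) (nat_lit 8388608) (nat_lit 62084) (nat_lit 24706493413474) (nat_lit 0) (nat_lit 0),Row.mk (nat_lit 32256) (nat_lit 32912) (nat_lit 8388608) (nat_lit 62084) (nat_lit 30857816347356) (nat_lit 0) (nat_lit 0)],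
[Row.mk (nat_lit 31752) (nat_lit 32912) (nat_lit 8388608) (nat_lit 62084) (nat_lit 15838094418365) (nat_lit 0) (nat_lit 0),Row.mk (nat_lit 31920) (nat_lit 32912) (nat_lit 8388608) (nat_lit 62084) (nat_lit 19781399941994) (nat_lit 0) (nat_lit 0),Row.mk (nat_lit 32088) (nat_lit 32912) (nat_lit 8388608) (nat_lit 62084) (nat_lit 24706493413474) (nat_lit 0) (nat_lit 0),Row.mk (nat_lit 32256) (nat_lit 32912) (nat_lit 8388608) (nat_lit 62084) (nat_lit 30857816347356) (nat_lit 0) (nat_lit 0),Row.mk (nat_lit 32424) (nat_lit 32912) (nat_lit 8388608) (nat_lit 62084) (nat_lit 38540670298458) (nat_lit 0) (nat_lit 0)],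
[Row.mk (nat_lit 31920) (nat_lit 32912) (nat_lit 8388608) (nat_lit 62084) (nat_lit 19781399941994) (nat_lit 0) (nat_lit 0),Row.mk (nat_lit 32088) (nat_lit 32912) (nat_lit 8388608) (nat_lit 62084) (nat_lit 24706493413474) (nat_lit 0) (nat_lit 0),Row.mk (nat_lit 32256) (nat_lit 32912) (nat_lit 8388608) (nat_lit 62084) (nat_lit 30857816347356) (nat_lit 0) (nat_lit 0),Row.mk (nat_lit 32424) (nat_lit 32912) (nat_lit 8388608) (nat_lit 62084) (nat_lit 38540670298458) (nat_lit 0) (nat_lit 0),Row.mk (nat_lit 32592) (nat_lit 32912) (nat_lit 8388608) (nat_lit 62084) (nat_lit 48136369543713) (nat_lit 0) (nat_lit 0)],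
[Row.mk (nat_lit 32088) (nat_lit 32912) (nat_lit 8388608) (nat_lit 62084) (nat_lit 24706493413474) (nat_lit 0) (nat_lit 0),Row.mk (nat_lit 32256) (nat_lit 32912) (nat_lit 8388608) (nat_lit 62084) (nat_lit 30857816347356) (nat_lit 0) (nat_lit 0),Row.mk (nat_lit 32424) (nat_lit 32912) (nat_lit 8388608) (nat_lit 62084) (nat_lit 38540670298458) (nat_lit 0) (nat_lit 0),Row.mk (nat_lit 32592) (nat_lit 32912) (nat_lit 8388608) (nat_lit 62084) (nat_lit 48136369543713) (nat_lit 0) (nat_lit 0),Row.mk (nat_lit 32760) (nat_lit 32912) (nat_lit 8388608) (nat_lit 62084) (nat_lit 60121166416258) (nat_lit 0) (nat_lit 0)],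
[Row.mk (nat_lit 32256) (nat_lit 32912) (nat_lit 8388608) (nat_lit 62084) (nat_lit 30857816347356) (nat_lit 0) (nat_lit 0),Row.mk (nat_lit 32424) (nat_lit 32912) (nat_lit 8388608) (nat_lit 62084) (nat_lit 38540670298458) (nat_lit 0) (nat_lit 0),Row.mk (nat_lit 32592) (nat_lit 32912) (nat_lit 8388608) (nat_lit 62084) (nat_lit 48136369543713) (nat_lit 0) (nat_lit 0),Row.mk (nat_lit 32760) (nat_lit 32912) (nat_lit 8388608) (nat_lit 62084) (nat_lit 60121166416258) (nat_lit 0) (nat_lit 0),Row.mk (nat_lit 32928) (nat_lit 32912) (nat_lit 8388608) (nat_lit 62084) (nat_lit 75089888591161) (nat_lit 0) (nat_lit 0)],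
[Row.mk (nat_lit 32424) (nat_lit 32912) (nat_lit 8388608) (nat_lit 62084) (nat_lit 38540670298458) (nat_lit 0) (nat_lit 0),Row.mk (nat_lit 32592) (nat_lit 32912) (nat_lit 8388608) (nat_lit 62084) (nat_lit 48136369543713) (nat_lit 0) (nat_lit 0),Row.mk (nat_lit 32760) (nat_lit 32912) (nat_lit 8388608) (nat_lit 62084) (nat_lit 60121166416258) (nat_lit 0) (nat_lit 0),Row.mk (nat_lit 32928) (nat_lit 32912) (nat_lit 8388608) (nat_lit 62084) (nat_lit 75089888591161) (nat_lit 0) (nat_lit 0)],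
[Row.mk (nat_lit 32760) (nat_lit 32912) (nat_lit 8388608) (nat_lit 62084) (nat_lit 60121166416258) (nat_lit 0) (nat_lit 0),Row.mk (nat_lit 32928) (nat_lit 32912) (nat_lit 8388608) (nat_lit 62084) (nat_lit 75089888591161) (nat_lit 0) (nat_lit 0),Row.mk (nat_lit 33096) (nat_lit 32912) (nat_lit 8388608) (nat_lit 62084) (nat_lit 93785461485077) (nat_lit 0) (nat_lit 0)],
[Row.mk (nat_lit 32928) (nat_lit 32912) (nat_lit 8388608) (nat_lit 62084) (nat_lit 75089888591161) (nat_lit 0) (nat_lit 0),Row.mk (nat_lit 33096) (nat_lit 32912) (nat_lit 8388608) (nat_lit 62084) (nat_lit 93785461485077) (nat_lit 0) (nat_lit 0),Row.mk (nat_lit 33264) (nat_lit 32912) (nat_lit 8388608) (nat_lit 62084) (nat_lit 117135781021219) (nat_lit 0) (nat_lit 0)],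
[Row.mk (nat_lit 33096) (nat_lit 32912) (nat_lit 8388608) (nat_lit 62084) (nat_lit 93785461485077) (nat_lit 0) (nat_lit 0),Row.mk (nat_lit 33264) (nat_lit 32912) (nat_lit 8388608) (nat_lit 62084) (nat_lit 117135781021219) (nat_lit 0) (nat_lit 0),Row.mk (nat_lit 33432) (nat_lit 32912) (nat_lit 8388608) (nat_lit 62084) (nat_lit 146299766823302) (nat_lit 0) (nat_lit 0)],
[Row.mk (nat_lit 33264) (nat_lit 32912) (nat_lit 8388608) (nat_lit 62084) (nat_lit 117135781021219) (nat_lit 0) (nat_lit 0),Row.mk (nat_lit 33432) (nat_lit 32912) (nat_lit 8388608) (nat_lit 62084) (nat_lit 146299766823302) (nat_lit 0) (nat_lit 0),Row.mk (nat_lit 33600) (nat_lit 32912) (nat_lit 8388608) (nat_lit 62084) (nat_lit 182724881543792) (nat_lit 0) (nat_lit 0)],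
[Row.mk (nat_lit 33432) (nat_lit 32912) (nat_lit 8388608) (nat_lit 62084) (nat_lit 146299766823302) (nat_lit 0) (nat_lit 0),Row.mk (nat_lit 33600) (nat_lit 32912) (nat_lit 8388608) (nat_lit 62084) (nat_lit 182724881543792) (nat_lit 0) (nat_lit 0),Row.mk (nat_lit 33768) (nat_lit 32912) (nat_lit 8388608) (nat_lit 62084) (nat_lit 228218971117311) (nat_lit 0) (nat_lit 0)],
[Row.mk (nat_lit 33600) (nat_lit 32912) (nat_lit 8388608) (nat_lit 62084) (nat_lit 182724881543792) (nat_lit 0) (nat_lit 0),Row.mk (nat_lit 33768) (nat_lit 32912) (nat_lit 8388608) (nat_lit 62084) (nat_lit 228218971117311) (nat_lit 0) (nat_lit 0),Row.mk (nat_lit 33936) (nat_lit 32912) (nat_lit 8388608) (nat_lit 62084) (nat_lit 285039991504083) (nat_lit 0) (nat_lit 0)],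
[Row.mk (nat_lit 33768) (nat_lit 32912) (nat_lit 8388608) (nat_lit 62084) (nat_lit 228218971117311) (nat_lit 0) (nat_lit 0),Row.mk (nat_lit 33936) (nat_lit 32912) (nat_lit 8388608) (nat_lit 62084) (nat_lit 285039991504083) (nat_lit 0) (nat_lit 0),Row.mk (nat_lit 34104) (nat_lit 32912) (nat_lit 8388608) (nat_lit 62084) (nat_lit 356008075227935) (nat_lit 0) (nat_lit 0)],
[Row.mk (nat_lit 33936) (nat_lit 32912) (nat_lit 8388608) (nat_lit 62084) (nat_lit 285039991504083) (nat_lit 0) (nat_lit 0),Row.mk (nat_lit 34104) (nat_lit 32912) (nat_lit 8388608) (nat_lit 62084) (nat_lit 356008075227935) (nat_lit 0) (nat_lit 0),Row.mk (nat_lit 34272) (nat_lit 32912) (nat_lit 8388608) (nat_lit 62084) (nat_lit 444645499778800) (nat_lit 0) (nat_lit 0)],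
[Row.mk (nat_lit 34104) (nat_lit 32912) (nat_lit 8388608) (nat_lit 62084) (nat_lit 356008075227935) (nat_lit 0) (nat_lit 0),Row.mk (nat_lit 34272) (nat_lit 32912) (nat_lit 8388608) (nat_lit 62084) (nat_lit 444645499778800) (nat_lit 0) (nat_lit 0),Row.mk (nat_lit 34440) (nat_lit 32912) (nat_lit 8388608) (nat_lit 62084) (nat_lit 555351504770867) (nat_lit 0) (nat_lit 0)],
[Row.mk (nat_lit 34272) (nat_lit 32912) (nat_lit 8388608) (nat_lit 62084) (nat_lit 444645499778800) (nat_lit 0) (nat_lit 0),Row.mk (nat_lit 34440) (nat_lit 32912) (nat_lit 8388608) (nat_lit 62084) (nat_lit 555351504770867) (nat_lit 0) (nat_lit 0),Row.mk (nat_lit 34608) (nat_lit 32912) (nat_lit 8388608) (nat_lit 62084) (nat_lit 693620634355862) (nat_lit 0) (nat_lit 0)],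
[Row.mk (nat_lit 34440) (nat_lit 32912) (nat_lit 8388608) (nat_lit 62084) (nat_lit 555351504770867) (nat_lit 0) (nat_lit 0),Row.mk (nat_lit 34608) (nat_lit 32912) (nat_lit 8388608) (nat_lit 62084) (nat_lit 693620634355862) (nat_lit 0) (nat_lit 0),Row.mk (nat_lit 34776) (nat_lit 32912) (nat_lit 8388608) (nat_lit 62084) (nat_lit 866315441629974) (nat_lit 0) (nat_lit 0)],
[Row.mk (nat_lit 34608) (nat_lit 32912) (nat_lit 8388608) (nat_lit 62084) (nat_lit 693620634355862) (nat_lit 0) (nat_lit 0),Row.mk (nat_lit 34776) (nat_lit 32912) (nat_lit 8388608) (nat_lit 62084) (nat_lit 866315441629974) (nat_lit 0) (nat_lit 0),Row.mk (nat_lit 34944) (nat_lit 32912) (nat_lit 8388608) (nat_lit 62084) (nat_lit 1082007089859453) (nat_lit 0) (nat_lit 0)],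
[Row.mk (nat_lit 34776) (nat_lit 32912) (nat_lit 8388608) (nat_lit 62084) (nat_lit 866315441629974) (nat_lit 0) (nat_lit 0),Row.mk (nat_lit 34944) (nat_lit 32912) (nat_lit 8388608) (nat_lit 62084) (nat_lit 1082007089859453) (nat_lit 0) (nat_lit 0),Row.mk (nat_lit 35112) (nat_lit 32912) (nat_lit 8388608) (nat_lit 62084) (nat_lit 1351400755194769) (nat_lit 0) (nat_lit 0)],
[Row.mk (nat_lit 34944) (nat_lit 32912) (nat_lit 8388608) (nat_lit 62084) (nat_lit 1082007089859453) (nat_lit 0) (nat_lit 0),Row.mk (nat_lit 35112) (nat_lit 32912) (nat_lit 8388608) (nat_lit 62084) (nat_lit 1351400755194769) (nat_lit 0) (nat_lit 0)],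
[Row.mk (nat_lit 35280) (nat_lit 32912) (nat_lit 8388608) (nat_lit 62084) (nat_lit 1687866944398277) (nat_lit 0) (nat_lit 0)],
[Row.mk (nat_lit 35448) (nat_lit 32912) (nat_lit 8388608) (nat_lit 62084) (nat_lit 2108105097868658) (nat_lit 0) (nat_lit 0)],
[Row.mk (nat_lit 35616) (nat_lit 32912) (nat_lit 8388608) (nat_lit 62084) (nat_lit 2632972413809816) (nat_lit 0) (nat_lit 0)],
[Row.mk (nat_lit 35784) (nat_lit 32912) (nat_lit 8388608) (nat_lit 62084) (nat_lit 3288519029623443) (nat_lit 0) (nat_lit 0)],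
[Row.mk (nat_lit 35952) (nat_lit 32912) (nat_lit 8388608) (nat_lit 62084) (nat_lit 4107280938495811) (nat_lit 0) (nat_lit 0)],
[],
[],
[],
[],
[],
[],
[],
[],
[],
[],
[],
[],
[],
[],
[],
[],
[],
[],
[],
[],
[],
[],
[],
[],
[],
[],
[],
[],
[],
[],
[],
[],
[],
[]]

/-- A table of rows. -/
noncomputable def tb3 : List (List Row) := [[],
[],
[],
[],
[],
[],
[],
[],
[],
[],
[],
[],
[],
[],
[],
[],
[],
[],
[],
[],
[],
[],
[],
[],
[],
[],
[],
[],
[],
[],
[],
[],
[],
[],
[],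
[Row.mk (nat_lit 20832) (nat_lit 61710) (nat_lit 8388607) (nat_lit 0) (nat_lit 0) (nat_lit 0) (nat_lit 0)],
[Row.mk (nat_lit 20832) (nat_lit 61710) (nat_lit 8388607) (nat_lit 0) (nat_lit 0) (nat_lit 0) (nat_lit 0)],
[Row.mk (nat_lit 20832) (nat_lit 61710) (nat_lit 8388607) (nat_lit 0) (nat_lit 0) (nat_lit 0) (nat_lit 0)],
[Row.mk (nat_lit 20832) (nat_lit 61710) (nat_lit 8388607) (nat_lit 0) (nat_lit 0) (nat_lit 0) (nat_lit 0)],
[Row.mk (nat_lit 20832) (nat_lit 61710) (nat_lit 8388607) (nat_lit 0) (nat_lit 0) (nat_lit 0) (nat_lit 0)],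
[Row.mk (nat_lit 20664) (nat_lit 61710) (nat_lit 8388607) (nat_lit 0) (nat_lit 0) (nat_lit 0) (nat_lit 0),Row.mk (nat_lit 20832) (nat_lit 61710) (nat_lit 8388607) (nat_lit 0) (nat_lit 0) (nat_lit 0) (nat_lit 0)],
[Row.mk (nat_lit 20664) (nat_lit 61710) (nat_lit 8388607) (nat_lit 0) (nat_lit 0) (nat_lit 0) (nat_lit 0),Row.mk (nat_lit 20832) (nat_lit 61710) (nat_lit 8388607) (nat_lit 0) (nat_lit 0) (nat_lit 0) (nat_lit 0),Row.mk (nat_lit 21000) (nat_lit 61710) (nat_lit 8388607) (nat_lit 0) (nat_lit 0) (nat_lit 0) (nat_lit 0)],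
[Row.mk (nat_lit 20664) (nat_lit 61710) (nat_lit 8388607) (nat_lit 0) (nat_lit 0) (nat_lit 0) (nat_lit 0),Row.mk (nat_lit 20832) (nat_lit 61710) (nat_lit 8388607) (nat_lit 0) (nat_lit 0) (nat_lit 0) (nat_lit 0),Row.mk (nat_lit 21000) (nat_lit 61710) (nat_lit 8388607) (nat_lit 0) (nat_lit 0) (nat_lit 0) (nat_lit 0)],
[Row.mk (nat_lit 20664) (nat_lit 61710) (nat_lit 8388607) (nat_lit 0) (nat_lit 0) (nat_lit 0) (nat_lit 0),Row.mk (nat_lit 20832) (nat_lit 61710) (nat_lit 8388607) (nat_lit 0) (nat_lit 0) (nat_lit 0) (nat_lit 0),Row.mk (nat_lit 21000) (nat_lit 61710) (nat_lit 8388607) (nat_lit 0) (nat_lit 0) (nat_lit 0) (nat_lit 0)],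
[Row.mk (nat_lit 20664) (nat_lit 61710) (nat_lit 8388607) (nat_lit 0) (nat_lit 0) (nat_lit 0) (nat_lit 0),Row.mk (nat_lit 20832) (nat_lit 61710) (nat_lit 8388607) (nat_lit 0) (nat_lit 0) (nat_lit 0) (nat_lit 0),Row.mk (nat_lit 21000) (nat_lit 61710) (nat_lit 8388607) (nat_lit 0) (nat_lit 0) (nat_lit 0) (nat_lit 0)],
[Row.mk (nat_lit 20664) (nat_lit 61710) (nat_lit 8388607) (nat_lit 0) (nat_lit 0) (nat_lit 0) (nat_lit 0),Row.mk (nat_lit 20832) (nat_lit 61710) (nat_lit 8388607) (nat_lit 0) (nat_lit 0) (nat_lit 0) (nat_lit 0),Row.mk (nat_lit 21000) (nat_lit 61710) (nat_lit 8388607) (nat_lit 0) (nat_lit 0) (nat_lit 0) (nat_lit 0)],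
[Row.mk (nat_lit 20664) (nat_lit 61710) (nat_lit 8388607) (nat_lit 0) (nat_lit 0) (nat_lit 0) (nat_lit 0),Row.mk (nat_lit 20832) (nat_lit 61710) (nat_lit 8388607) (nat_lit 0) (nat_lit 0) (nat_lit 0) (nat_lit 0),Row.mk (nat_lit 21000) (nat_lit 61710) (nat_lit 8388607) (nat_lit 0) (nat_lit 0) (nat_lit 0) (nat_lit 0)],
[Row.mk (nat_lit 20664) (nat_lit 61710) (nat_lit 8388607) (nat_lit 0) (nat_lit 0) (nat_lit 0) (nat_lit 0),Row.mk (nat_lit 20832) (nat_lit 61710) (nat_lit 8388607) (nat_lit 0) (nat_lit 0) (nat_lit 0) (nat_lit 0),Row.mk (nat_lit 21000) (nat_lit 61710) (nat_lit 8388607) (nat_lit 0) (nat_lit 0) (nat_lit 0) (nat_lit 0)],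
[Row.mk (nat_lit 20664) (nat_lit 61710) (nat_lit 8388607) (nat_lit 0) (nat_lit 0) (nat_lit 0) (nat_lit 0),Row.mk (nat_lit 20832) (nat_lit 61710) (nat_lit 8388607) (nat_lit 0) (nat_lit 0) (nat_lit 0) (nat_lit 0),Row.mk (nat_lit 21000) (nat_lit 61710) (nat_lit 8388607) (nat_lit 0) (nat_lit 0) (nat_lit 0) (nat_lit 0)],
[Row.mk (nat_lit 20664) (nat_lit 61710) (nat_lit 8388607) (nat_lit 0) (nat_lit 0) (nat_lit 0) (nat_lit 0),Row.mk (nat_lit 20832) (nat_lit 61710) (nat_lit 8388607) (nat_lit 0) (nat_lit 0) (nat_lit 0) (nat_lit 0),Row.mk (nat_lit 21000) (nat_lit 61710) (nat_lit 8388607) (nat_lit 0) (nat_lit 0) (nat_lit 0) (nat_lit 0)],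
[Row.mk (nat_lit 20664) (nat_lit 61710) (nat_lit 8388607) (nat_lit 0) (nat_lit 0) (nat_lit 0) (nat_lit 0),Row.mk (nat_lit 20832) (nat_lit 61710) (nat_lit 8388607) (nat_lit 0) (nat_lit 0) (nat_lit 0) (nat_lit 0),Row.mk (nat_lit 21000) (nat_lit 61710) (nat_lit 8388607) (nat_lit 0) (nat_lit 0) (nat_lit 0) (nat_lit 0)],
[Row.mk (nat_lit 20664) (nat_lit 61710) (nat_lit 8388607) (nat_lit 0) (nat_lit 0) (nat_lit 0) (nat_lit 0),Row.mk (nat_lit 20832) (nat_lit 61710) (nat_lit 8388607) (nat_lit 0) (nat_lit 0) (nat_lit 0) (nat_lit 0),Row.mk (nat_lit 21000) (nat_lit 61710) (nat_lit 8388607) (nat_lit 0) (nat_lit 0) (nat_lit 0) (nat_lit 0)],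
[Row.mk (nat_lit 20496) (nat_lit 61710) (nat_lit 8388607) (nat_lit 0) (nat_lit 0) (nat_lit 0) (nat_lit 0),Row.mk (nat_lit 20664) (nat_lit 61710) (nat_lit 8388607) (nat_lit 0) (nat_lit 0) (nat_lit 0) (nat_lit 0),Row.mk (nat_lit 20832) (nat_lit 61710) (nat_lit 8388607) (nat_lit 0) (nat_lit 0) (nat_lit 0) (nat_lit 0),Row.mk (nat_lit 21000) (nat_lit 61710) (nat_lit 8388607) (nat_lit 0) (nat_lit 0) (nat_lit 0) (nat_lit 0)],
[Row.mk (nat_lit 20496) (nat_lit 32912) (nat_lit 1) (nat_lit 61710) (nat_lit 8388606) (nat_lit 0) (nat_lit 0),Row.mk (nat_lit 20664) (nat_lit 32912) (nat_lit 1) (nat_lit 61710) (nat_lit 8388606) (nat_lit 0) (nat_lit 0),Row.mk (nat_lit 20832) (nat_lit 32912) (nat_lit 1) (nat_lit 61710) (nat_lit 8388606) (nat_lit 0) (nat_lit 0),Row.mk (nat_lit 21000) (nat_lit 32912) (nat_lit 1) (nat_lit 61710) (nat_lit 8388606) (nat_lit 0) (nat_lit 0)],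
[Row.mk (nat_lit 20496) (nat_lit 32912) (nat_lit 1) (nat_lit 61710) (nat_lit 8388606) (nat_lit 0) (nat_lit 0),Row.mk (nat_lit 20664) (nat_lit 32912) (nat_lit 1) (nat_lit 61710) (nat_lit 8388606) (nat_lit 0) (nat_lit 0),Row.mk (nat_lit 20832) (nat_lit 32912) (nat_lit 1) (nat_lit 61710) (nat_lit 8388606) (nat_lit 0) (nat_lit 0),Row.mk (nat_lit 21000) (nat_lit 32912) (nat_lit 1) (nat_lit 61710) (nat_lit 8388606) (nat_lit 0) (nat_lit 0)],
[Row.mk (nat_lit 20496) (nat_lit 32912) (nat_lit 1) (nat_lit 61710) (nat_lit 8388606) (nat_lit 0) (nat_lit 0),Row.mk (nat_lit 20664) (nat_lit 32912) (nat_lit 1) (nat_lit 61710) (nat_lit 8388606) (nat_lit 0) (nat_lit 0),Row.mk (nat_lit 20832) (nat_lit 32912) (nat_lit 1) (nat_lit 61710) (nat_lit 8388606) (nat_lit 0) (nat_lit 0),Row.mk (nat_lit 21000) (nat_lit 32912) (nat_lit 1) (nat_lit 61710) (nat_lit 8388606) (nat_lit 0) (nat_lit 0),Row.mk (nat_lit 21168) (nat_lit 32912) (nat_lit 1) (nat_lit 61710) (nat_lit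 8388606) (nat_lit 0) (nat_lit 0)],
[Row.mk (nat_lit 20496) (nat_lit 32912) (nat_lit 2) (nat_lit 61710) (nat_lit 8388605) (nat_lit 0) (nat_lit 0),Row.mk (nat_lit 20664) (nat_lit 32912) (nat_lit 2) (nat_lit 61710) (nat_lit 8388605) (nat_lit 0) (nat_lit 0),Row.mk (nat_lit 20832) (nat_lit 32912) (nat_lit 2) (nat_lit 61710) (nat_lit 8388605) (nat_lit 0) (nat_lit 0),Row.mk (nat_lit 21000) (nat_lit 32912) (nat_lit 2) (nat_lit 61710) (nat_lit 8388605) (nat_lit 0) (nat_lit 0),Row.mk (nat_lit 21168) (nat_lit 32912) (nat_lit 2) (nat_lit 61710) (nat_lit 8388605) (nat_lit 0) (nat_lit 0)],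
[Row.mk (nat_lit 20496) (nat_lit 32912) (nat_lit 2) (nat_lit 61710) (nat_lit 8388605) (nat_lit 0) (nat_lit 0),Row.mk (nat_lit 20664) (nat_lit 32912) (nat_lit 2) (nat_lit 61710) (nat_lit 8388605) (nat_lit 0) (nat_lit 0),Row.mk (nat_lit 20832) (nat_lit 32912) (nat_lit 2) (nat_lit 61710) (nat_lit 8388605) (nat_lit 0) (nat_lit 0),Row.mk (nat_lit 21000) (nat_lit 32912) (nat_lit 2) (nat_lit 61710) (nat_lit 8388605) (nat_lit 0) (nat_lit 0),Row.mk (nat_lit 21168) (nat_lit 32912) (nat_lit 2) (nat_lit 61710) (nat_lit 8388605) (nat_lit 0) (nat_lit 0)],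
[Row.mk (nat_lit 20496) (nat_lit 32912) (nat_lit 3) (nat_lit 61710) (nat_lit 8388604) (nat_lit 0) (nat_lit 0),Row.mk (nat_lit 20664) (nat_lit 32912) (nat_lit 3) (nat_lit 61710) (nat_lit 8388604) (nat_lit 0) (nat_lit 0),Row.mk (nat_lit 20832) (nat_lit 32912) (nat_lit 3) (nat_lit 61710) (nat_lit 8388604) (nat_lit 0) (nat_lit 0),Row.mk (nat_lit 21000) (nat_lit 32912) (nat_lit 3) (nat_lit 61710) (nat_lit 8388604) (nat_lit 0) (nat_lit 0),Row.mk (nat_lit 21168) (nat_lit 32912) (nat_lit 3) (nat_lit 61710) (nat_lit 8388604) (nat_lit 0) (nat_lit 0)],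
[Row.mk (nat_lit 20328) (nat_lit 32912) (nat_lit 4) (nat_lit 61710) (nat_lit 8388603) (nat_lit 0) (nat_lit 0),Row.mk (nat_lit 20496) (nat_lit 32912) (nat_lit 4) (nat_lit 61710) (nat_lit 8388603) (nat_lit 0) (nat_lit 0),Row.mk (nat_lit 20664) (nat_lit 32912) (nat_lit 4) (nat_lit 61710) (nat_lit 8388603) (nat_lit 0) (nat_lit 0),Row.mk (nat_lit 20832) (nat_lit 32912) (nat_lit 4) (nat_lit 61710) (nat_lit 8388603) (nat_lit 0) (nat_lit 0),Row.mk (nat_lit 21000) (nat_lit 32912) (nat_lit 4) (nat_lit 61710) (nat_lit 8388603) (nat_lit 0) (nat_lit 0),Row.mk (nat_lit 21168) (nat_lit 32912) (nat_lit 4) (nat_lit 61710) (nat_lit 8388603) (nat_lit 0) (nat_lit 0)],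
[Row.mk (nat_lit 20328) (nat_lit 32912) (nat_lit 5) (nat_lit 61710) (nat_lit 8388602) (nat_lit 0) (nat_lit 0),Row.mk (nat_lit 20496) (nat_lit 32912) (nat_lit 5) (nat_lit 61710) (nat_lit 8388602) (nat_lit 0) (nat_lit 0),Row.mk (nat_lit 20664) (nat_lit 32912) (nat_lit 5) (nat_lit 61710) (nat_lit 8388602) (nat_lit 0) (nat_lit 0),Row.mk (nat_lit 20832) (nat_lit 32912) (nat_lit 5) (nat_lit 61710) (nat_lit 8388602) (nat_lit 0) (nat_lit 0),Row.mk (nat_lit 21000) (nat_lit 32912) (nat_lit 5) (nat_lit 61710) (nat_lit 8388602) (nat_lit 0) (nat_lit 0),Row.mk (nat_lit 21168) (nat_lit 32912) (nat_lit 5) (nat_lit 61710) (nat_lit 8388602) (nat_lit 0) (nat_lit 0)],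
[Row.mk (nat_lit 19992) (nat_lit 32912) (nat_lit 6) (nat_lit 61710) (nat_lit 8388601) (nat_lit 0) (nat_lit 0),Row.mk (nat_lit 20160) (nat_lit 32912) (nat_lit 6) (nat_lit 61710) (nat_lit 8388601) (nat_lit 0) (nat_lit 0),Row.mk (nat_lit 20328) (nat_lit 32912) (nat_lit 6) (nat_lit 61710) (nat_lit 8388601) (nat_lit 0) (nat_lit 0),Row.mk (nat_lit 20496) (nat_lit 32912) (nat_lit 6) (nat_lit 61710) (nat_lit 8388601) (nat_lit 0) (nat_lit 0),Row.mk (nat_lit 20664) (nat_lit 32912) (nat_lit 6) (nat_lit 61710) (nat_lit 8388601) (nat_lit 0) (nat_lit 0),Row.mk (nat_lit 20832) (nat_lit 32912) (nat_lit 6) (nat_lit 61710) (nat_lit 8388601) (nat_lit 0) (nat_lit 0),Row.mk (nat_lit 21000) (nat_lit 32912) (nat_lit 6) (nat_lit 61710) (nat_lit 8388601) (nat_lit 0) (nat_lit 0),Row.mk (nat_lit 21168) (nat_lit 32912) (nat_lit 6) (nat_lit 61710) (nat_lit 8388601) (nat_lit 0) (nat_lit 0)],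
[Row.mk (nat_lit 19656) (nat_lit 32912) (nat_lit 8) (nat_lit 61710) (nat_lit 8388599) (nat_lit 0) (nat_lit 0),Row.mk (nat_lit 19824) (nat_lit 32912) (nat_lit 8) (nat_lit 61710) (nat_lit 8388599) (nat_lit 0) (nat_lit 0),Row.mk (nat_lit 19992) (nat_lit 32912) (nat_lit 8) (nat_lit 61710) (nat_lit 8388599) (nat_lit 0) (nat_lit 0),Row.mk (nat_lit 20160) (nat_lit 32912) (nat_lit 8) (nat_lit 61710) (nat_lit 8388599) (nat_lit 0) (nat_lit 0),Row.mk (nat_lit 20328) (nat_lit 32912) (nat_lit 8) (nat_lit 61710) (nat_lit 8388599) (nat_lit 0) (nat_lit 0),Row.mk (nat_lit 20496) (nat_lit 32912) (nat_lit 8) (nat_lit 61710) (nat_lit 8388599) (nat_lit 0) (nat_lit 0),Row.mk (nat_lit 20664) (nat_lit 32912) (nat_lit 8) (nat_lit 61710) (nat_lit 8388599) (nat_lit 0) (nat_lit 0),Row.mk (nat_lit 20832) (nat_lit 32912) (nat_lit 8) (nat_lit 61710) (nat_lit 8388599) (nat_lit 0) (nat_lit 0),Row.mk (nat_lit 21000) (nat_lit 32912) (nat_lit 8) (nat_lit 61710) (nat_lit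 8388599) (nat_lit 0) (nat_lit 0),Row.mk (nat_lit 21168) (nat_lit 32912) (nat_lit 8) (nat_lit 61710) (nat_lit 8388599) (nat_lit 0) (nat_lit 0)],
[Row.mk (nat_lit 18984) (nat_lit 32912) (nat_lit 10) (nat_lit 61710) (nat_lit 8388597) (nat_lit 0) (nat_lit 0),Row.mk (nat_lit 19152) (nat_lit 32912) (nat_lit 10) (nat_lit 61710) (nat_lit 8388597) (nat_lit 0) (nat_lit 0),Row.mk (nat_lit 19320) (nat_lit 32912) (nat_lit 10) (nat_lit 61710) (nat_lit 8388597) (nat_lit 0) (nat_lit 0),Row.mk (nat_lit 19488) (nat_lit 32912) (nat_lit 10) (nat_lit 61710) (nat_lit 8388597) (nat_lit 0) (nat_lit 0),Row.mk (nat_lit 19656) (nat_lit 32912) (nat_lit 10) (nat_lit 61710) (nat_lit 8388597) (nat_lit 0) (nat_lit 0),Row.mk (nat_lit 19824) (nat_lit 32912) (nat_lit 10) (nat_lit 61710) (nat_lit 8388597) (nat_lit 0) (nat_lit 0),Row.mk (nat_lit 19992) (nat_lit 32912) (nat_lit 10) (nat_lit 61710) (nat_lit 8388597) (nat_lit 0) (nat_lit 0),Row.mk (nat_lit 20160) (nat_lit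 32912) (nat_lit 10) (nat_lit 61710) (nat_lit 8388597) (nat_lit 0) (nat_lit 0),Row.mk (nat_lit 20328) (nat_lit 32912) (nat_lit 10) (nat_lit 61710) (nat_lit 8388597) (nat_lit 0) (nat_lit 0),Row.mk (nat_lit 20496) (nat_lit 32912) (nat_lit 10) (nat_lit 61710) (nat_lit 8388597) (nat_lit 0) (nat_lit 0),Row.mk (nat_lit 20664) (nat_lit 32912) (nat_lit 10) (nat_lit 61710) (nat_lit 8388597) (nat_lit 0) (nat_lit 0),Row.mk (nat_lit 20832) (nat_lit 32912) (nat_lit 10) (nat_lit 61710) (nat_lit 8388597) (nat_lit 0) (nat_lit 0),Row.mk (nat_lit 21000) (nat_lit 32912) (nat_lit 10) (nat_lit 61710) (nat_lit 8388597) (nat_lit 0) (nat_lit 0),Row.mk (nat_lit 21168) (nat_lit 32912) (nat_lit 10) (nat_lit 61710) (nat_lit 8388597) (nat_lit 0) (nat_lit 0),Row.mk (nat_lit 21336) (nat_lit 32912) (nat_lit 10) (nat_lit 61710) (nat_lit 8388597) (nat_lit 0) (nat_lit 0)],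
[Row.mk (nat_lit 15792) (nat_lit 32912) (nat_lit 13) (nat_lit 61710) (nat_lit 8388594) (nat_lit 0) (nat_lit 0),Row.mk (nat_lit 15960) (nat_lit 32912) (nat_lit 13) (nat_lit 61710) (nat_lit 8388594) (nat_lit 0) (nat_lit 0),Row.mk (nat_lit 16128) (nat_lit 32912) (nat_lit 13) (nat_lit 61710) (nat_lit 8388594) (nat_lit 0) (nat_lit 0),Row.mk (nat_lit 16296) (nat_lit 32912) (nat_lit 13) (nat_lit 61710) (nat_lit 8388594) (nat_lit 0) (nat_lit 0),Row.mk (nat_lit 16464) (nat_lit 32912) (nat_lit 13) (nat_lit 61710) (nat_lit 8388594) (nat_lit 0) (nat_lit 0),Row.mk (nat_lit 16632) (nat_lit 32912) (nat_lit 13) (nat_lit 61710) (nat_lit 8388594) (nat_lit 0) (nat_lit 0),Row.mk (nat_lit 16800) (nat_lit 32912) (nat_lit 13) (nat_lit 61710) (nat_lit 8388594) (nat_lit 0) (nat_lit 0),Row.mk (nat_lit 16968) (nat_lit 32912) (nat_lit 13) (nat_lit 61710) (nat_lit 8388594) (nat_lit 0) (nat_lit 0),Row.mk (nat_lit 17136) (nat_lit 32912) (nat_lit 13) (nat_lit 61710)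 (nat_lit 8388594) (nat_lit 0) (nat_lit 0),Row.mk (nat_lit 17304) (nat_lit 32912) (nat_lit 13) (nat_lit 61710) (nat_lit 8388594) (nat_lit 0) (nat_lit 0),Row.mk (nat_lit 17472) (nat_lit 32912) (nat_lit 13) (nat_lit 61710) (nat_lit 8388594) (nat_lit 0) (nat_lit 0),Row.mk (nat_lit 17640) (nat_lit 32912) (nat_lit 13) (nat_lit 61710) (nat_lit 8388594) (nat_lit 0) (nat_lit 0),Row.mk (nat_lit 17808) (nat_lit 32912) (nat_lit 13) (nat_lit 61710) (nat_lit 8388594) (nat_lit 0) (nat_lit 0),Row.mk (nat_lit 17976) (nat_lit 32912) (nat_lit 13) (nat_lit 61710) (nat_lit 8388594) (nat_lit 0) (nat_lit 0),Row.mk (nat_lit 18144) (nat_lit 32912) (nat_lit 13) (nat_lit 61710) (nat_lit 8388594) (nat_lit 0) (nat_lit 0),Row.mk (nat_lit 18312) (nat_lit 32912) (nat_lit 13) (nat_lit 61710) (nat_lit 8388594) (nat_lit 0) (nat_lit 0),Row.mk (nat_lit 18480) (nat_lit 32912) (nat_lit 13) (nat_lit 61710) (nat_lit 8388594) (nat_lit 0) (nat_lit 0),Row.mk (nat_lit 18648)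 (nat_lit 32912) (nat_lit 13) (nat_lit 61710) (nat_lit 8388594) (nat_lit 0) (nat_lit 0),Row.mk (nat_lit 18816) (nat_lit 32912) (nat_lit 13) (nat_lit 61710) (nat_lit 8388594) (nat_lit 0) (nat_lit 0),Row.mk (nat_lit 18984) (nat_lit 32912) (nat_lit 13) (nat_lit 61710) (nat_lit 8388594) (nat_lit 0) (nat_lit 0),Row.mk (nat_lit 19152) (nat_lit 32912) (nat_lit 13) (nat_lit 61710) (nat_lit 8388594) (nat_lit 0) (nat_lit 0),Row.mk (nat_lit 19320) (nat_lit 32912) (nat_lit 13) (nat_lit 61710) (nat_lit 8388594) (nat_lit 0) (nat_lit 0),Row.mk (nat_lit 19488) (nat_lit 32912) (nat_lit 13) (nat_lit 61710) (nat_lit 8388594) (nat_lit 0) (nat_lit 0),Row.mk (nat_lit 19656) (nat_lit 32912) (nat_lit 13) (nat_lit 61710) (nat_lit 8388594) (nat_lit 0) (nat_lit 0),Row.mk (nat_lit 19824) (nat_lit 32912) (nat_lit 13) (nat_lit 61710) (nat_lit 8388594) (nat_lit 0) (nat_lit 0),Row.mk (nat_lit 19992) (nat_lit 32912) (nat_lit 13) (nat_lit 61710) (nat_lit 8388594) (nat_lit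 0) (nat_lit 0),Row.mk (nat_lit 20160) (nat_lit 32912) (nat_lit 13) (nat_lit 61710) (nat_lit 8388594) (nat_lit 0) (nat_lit 0),Row.mk (nat_lit 20328) (nat_lit 32912) (nat_lit 13) (nat_lit 61710) (nat_lit 8388594) (nat_lit 0) (nat_lit 0),Row.mk (nat_lit 20496) (nat_lit 32912) (nat_lit 13) (nat_lit 61710) (nat_lit 8388594) (nat_lit 0) (nat_lit 0),Row.mk (nat_lit 20664) (nat_lit 32912) (nat_lit 13) (nat_lit 61710) (nat_lit 8388594) (nat_lit 0) (nat_lit 0),Row.mk (nat_lit 20832) (nat_lit 32912) (nat_lit 13) (nat_lit 61710) (nat_lit 8388594) (nat_lit 0) (nat_lit 0),Row.mk (nat_lit 21000) (nat_lit 32912) (nat_lit 13) (nat_lit 61710) (nat_lit 8388594) (nat_lit 0) (nat_lit 0),Row.mk (nat_lit 21168) (nat_lit 32912) (nat_lit 13) (nat_lit 61710) (nat_lit 8388594) (nat_lit 0) (nat_lit 0),Row.mk (nat_lit 21336) (nat_lit 32912) (nat_lit 13) (nat_lit 61710) (nat_lit 8388594) (nat_lit 0) (nat_lit 0)],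
[Row.mk (nat_lit 15792) (nat_lit 32912) (nat_lit 16) (nat_lit 61710) (nat_lit 8388591) (nat_lit 0) (nat_lit 0),Row.mk (nat_lit 15960) (nat_lit 32912) (nat_lit 16) (nat_lit 61710) (nat_lit 8388591) (nat_lit 0) (nat_lit 0),Row.mk (nat_lit 16128) (nat_lit 32912) (nat_lit 16) (nat_lit 61710) (nat_lit 8388591) (nat_lit 0) (nat_lit 0),Row.mk (nat_lit 16296) (nat_lit 32912) (nat_lit 16) (nat_lit 61710) (nat_lit 8388591) (nat_lit 0) (nat_lit 0),Row.mk (nat_lit 16464) (nat_lit 32912) (nat_lit 16) (nat_lit 61710) (nat_lit 8388591) (nat_lit 0) (nat_lit 0),Row.mk (nat_lit 16632) (nat_lit 32912) (nat_lit 16) (nat_lit 61710) (nat_lit 8388591) (nat_lit 0) (nat_lit 0),Row.mk (nat_lit 16800) (nat_lit 32912) (nat_lit 16) (nat_lit 61710) (nat_lit 8388591) (nat_lit 0) (nat_lit 0),Row.mk (nat_lit 16968) (nat_lit 32912) (nat_lit 16) (nat_lit 61710) (nat_lit 8388591) (nat_lit 0) (nat_lit 0),Row.mk (nat_lit 17136) (nat_lit 32912) (nat_lit 16) (nat_lit 61710)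 (nat_lit 8388591) (nat_lit 0) (nat_lit 0),Row.mk (nat_lit 17304) (nat_lit 32912) (nat_lit 16) (nat_lit 61710) (nat_lit 8388591) (nat_lit 0) (nat_lit 0),Row.mk (nat_lit 17472) (nat_lit 32912) (nat_lit 16) (nat_lit 61710) (nat_lit 8388591) (nat_lit 0) (nat_lit 0),Row.mk (nat_lit 17640) (nat_lit 32912) (nat_lit 16) (nat_lit 61710) (nat_lit 8388591) (nat_lit 0) (nat_lit 0),Row.mk (nat_lit 17808) (nat_lit 32912) (nat_lit 16) (nat_lit 61710) (nat_lit 8388591) (nat_lit 0) (nat_lit 0),Row.mk (nat_lit 17976) (nat_lit 32912) (nat_lit 16) (nat_lit 61710) (nat_lit 8388591) (nat_lit 0) (nat_lit 0),Row.mk (nat_lit 18144) (nat_lit 32912) (nat_lit 16) (nat_lit 61710) (nat_lit 8388591) (nat_lit 0) (nat_lit 0),Row.mk (nat_lit 18312) (nat_lit 32912) (nat_lit 16) (nat_lit 61710) (nat_lit 8388591) (nat_lit 0) (nat_lit 0),Row.mk (nat_lit 18480) (nat_lit 32912) (nat_lit 16) (nat_lit 61710) (nat_lit 8388591) (nat_lit 0) (nat_lit 0),Row.mk (nat_lit 18648)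 (nat_lit 32912) (nat_lit 16) (nat_lit 61710) (nat_lit 8388591) (nat_lit 0) (nat_lit 0),Row.mk (nat_lit 18816) (nat_lit 32912) (nat_lit 16) (nat_lit 61710) (nat_lit 8388591) (nat_lit 0) (nat_lit 0),Row.mk (nat_lit 18984) (nat_lit 32912) (nat_lit 16) (nat_lit 61710) (nat_lit 8388591) (nat_lit 0) (nat_lit 0),Row.mk (nat_lit 19152) (nat_lit 32912) (nat_lit 16) (nat_lit 61710) (nat_lit 8388591) (nat_lit 0) (nat_lit 0),Row.mk (nat_lit 19320) (nat_lit 32912) (nat_lit 16) (nat_lit 61710) (nat_lit 8388591) (nat_lit 0) (nat_lit 0),Row.mk (nat_lit 19488) (nat_lit 32912) (nat_lit 16) (nat_lit 61710) (nat_lit 8388591) (nat_lit 0) (nat_lit 0),Row.mk (nat_lit 19656) (nat_lit 32912) (nat_lit 16) (nat_lit 61710) (nat_lit 8388591) (nat_lit 0) (nat_lit 0),Row.mk (nat_lit 19824) (nat_lit 32912) (nat_lit 16) (nat_lit 61710) (nat_lit 8388591) (nat_lit 0) (nat_lit 0),Row.mk (nat_lit 19992) (nat_lit 32912) (nat_lit 16) (nat_lit 61710) (nat_lit 8388591) (nat_lit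 0) (nat_lit 0),Row.mk (nat_lit 20160) (nat_lit 32912) (nat_lit 16) (nat_lit 61710) (nat_lit 8388591) (nat_lit 0) (nat_lit 0),Row.mk (nat_lit 20328) (nat_lit 32912) (nat_lit 16) (nat_lit 61710) (nat_lit 8388591) (nat_lit 0) (nat_lit 0),Row.mk (nat_lit 20496) (nat_lit 32912) (nat_lit 16) (nat_lit 61710) (nat_lit 8388591) (nat_lit 0) (nat_lit 0),Row.mk (nat_lit 20664) (nat_lit 32912) (nat_lit 16) (nat_lit 61710) (nat_lit 8388591) (nat_lit 0) (nat_lit 0),Row.mk (nat_lit 20832) (nat_lit 32912) (nat_lit 16) (nat_lit 61710) (nat_lit 8388591) (nat_lit 0) (nat_lit 0),Row.mk (nat_lit 21000) (nat_lit 32912) (nat_lit 16) (nat_lit 61710) (nat_lit 8388591) (nat_lit 0) (nat_lit 0),Row.mk (nat_lit 21168) (nat_lit 32912) (nat_lit 16) (nat_lit 61710) (nat_lit 8388591) (nat_lit 0) (nat_lit 0),Row.mk (nat_lit 21336) (nat_lit 32912) (nat_lit 16) (nat_lit 61710) (nat_lit 8388591) (nat_lit 0) (nat_lit 0),Row.mk (nat_lit 21504) (nat_lit 32912) (nat_lit 16)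 (nat_lit 61710) (nat_lit 8388591) (nat_lit 0) (nat_lit 0)],
[Row.mk (nat_lit 15792) (nat_lit 32912) (nat_lit 21) (nat_lit 61710) (nat_lit 8388586) (nat_lit 0) (nat_lit 0),Row.mk (nat_lit 15960) (nat_lit 32912) (nat_lit 21) (nat_lit 61710) (nat_lit 8388586) (nat_lit 0) (nat_lit 0),Row.mk (nat_lit 16128) (nat_lit 32912) (nat_lit 21) (nat_lit 61710) (nat_lit 8388586) (nat_lit 0) (nat_lit 0),Row.mk (nat_lit 16296) (nat_lit 32912) (nat_lit 21) (nat_lit 61710) (nat_lit 8388586) (nat_lit 0) (nat_lit 0),Row.mk (nat_lit 16464) (nat_lit 32912) (nat_lit 21) (nat_lit 61710) (nat_lit 8388586) (nat_lit 0) (nat_lit 0),Row.mk (nat_lit 16632) (nat_lit 32912) (nat_lit 21) (nat_lit 61710) (nat_lit 8388586) (nat_lit 0) (nat_lit 0),Row.mk (nat_lit 16800) (nat_lit 32912) (nat_lit 21) (nat_lit 61710) (nat_lit 8388586) (nat_lit 0) (nat_lit 0),Row.mk (nat_lit 16968) (nat_lit 32912) (nat_lit 21) (nat_lit 61710) (nat_lit 8388586) (nat_lit 0) (nat_lit 0),Row.mk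 (nat_lit 17136) (nat_lit 32912) (nat_lit 21) (nat_lit 61710) (nat_lit 8388586) (nat_lit 0) (nat_lit 0),Row.mk (nat_lit 17304) (nat_lit 32912) (nat_lit 21) (nat_lit 61710) (nat_lit 8388586) (nat_lit 0) (nat_lit 0),Row.mk (nat_lit 17472) (nat_lit 32912) (nat_lit 21) (nat_lit 61710) (nat_lit 8388586) (nat_lit 0) (nat_lit 0),Row.mk (nat_lit 17640) (nat_lit 32912) (nat_lit 21) (nat_lit 61710) (nat_lit 8388586) (nat_lit 0) (nat_lit 0),Row.mk (nat_lit 17808) (nat_lit 32912) (nat_lit 21) (nat_lit 61710) (nat_lit 8388586) (nat_lit 0) (nat_lit 0),Row.mk (nat_lit 17976) (nat_lit 32912) (nat_lit 21) (nat_lit 61710) (nat_lit 8388586) (nat_lit 0) (nat_lit 0),Row.mk (nat_lit 18144) (nat_lit 32912) (nat_lit 21) (nat_lit 61710) (nat_lit 8388586) (nat_lit 0) (nat_lit 0),Row.mk (nat_lit 18312) (nat_lit 32912) (nat_lit 21) (nat_lit 61710) (nat_lit 8388586) (nat_lit 0) (nat_lit 0),Row.mk (nat_lit 18480) (nat_lit 32912) (nat_lit 21) (nat_lit 61710) (nat_lit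 8388586) (nat_lit 0) (nat_lit 0),Row.mk (nat_lit 18648) (nat_lit 32912) (nat_lit 21) (nat_lit 61710) (nat_lit 8388586) (nat_lit 0) (nat_lit 0),Row.mk (nat_lit 18816) (nat_lit 32912) (nat_lit 21) (nat_lit 61710) (nat_lit 8388586) (nat_lit 0) (nat_lit 0),Row.mk (nat_lit 18984) (nat_lit 32912) (nat_lit 21) (nat_lit 61710) (nat_lit 8388586) (nat_lit 0) (nat_lit 0),Row.mk (nat_lit 19152) (nat_lit 32912) (nat_lit 21) (nat_lit 61710) (nat_lit 8388586) (nat_lit 0) (nat_lit 0),Row.mk (nat_lit 19320) (nat_lit 32912) (nat_lit 21) (nat_lit 61710) (nat_lit 8388586) (nat_lit 0) (nat_lit 0),Row.mk (nat_lit 19488) (nat_lit 32912) (nat_lit 21) (nat_lit 61710) (nat_lit 8388586) (nat_lit 0) (nat_lit 0),Row.mk (nat_lit 19656) (nat_lit 32912) (nat_lit 21) (nat_lit 61710) (nat_lit 8388586) (nat_lit 0) (nat_lit 0),Row.mk (nat_lit 19824) (nat_lit 32912) (nat_lit 21) (nat_lit 61710) (nat_lit 8388586) (nat_lit 0) (nat_lit 0),Row.mk (nat_lit 19992) (nat_lit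 32912) (nat_lit 21) (nat_lit 61710) (nat_lit 8388586) (nat_lit 0) (nat_lit 0),Row.mk (nat_lit 20160) (nat_lit 32912) (nat_lit 21) (nat_lit 61710) (nat_lit 8388586) (nat_lit 0) (nat_lit 0),Row.mk (nat_lit 20328) (nat_lit 32912) (nat_lit 21) (nat_lit 61710) (nat_lit 8388586) (nat_lit 0) (nat_lit 0),Row.mk (nat_lit 20496) (nat_lit 32912) (nat_lit 21) (nat_lit 61710) (nat_lit 8388586) (nat_lit 0) (nat_lit 0),Row.mk (nat_lit 20664) (nat_lit 32912) (nat_lit 21) (nat_lit 61710) (nat_lit 8388586) (nat_lit 0) (nat_lit 0),Row.mk (nat_lit 20832) (nat_lit 32912) (nat_lit 21) (nat_lit 61710) (nat_lit 8388586) (nat_lit 0) (nat_lit 0),Row.mk (nat_lit 21000) (nat_lit 32912) (nat_lit 21) (nat_lit 61710) (nat_lit 8388586) (nat_lit 0) (nat_lit 0),Row.mk (nat_lit 21168) (nat_lit 32912) (nat_lit 21) (nat_lit 61710) (nat_lit 8388586) (nat_lit 0) (nat_lit 0),Row.mk (nat_lit 21336) (nat_lit 32912) (nat_lit 21) (nat_lit 61710) (nat_lit 8388586) (nat_lit 0)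 (nat_lit 0),Row.mk (nat_lit 21504) (nat_lit 32912) (nat_lit 21) (nat_lit 61710) (nat_lit 8388586) (nat_lit 0) (nat_lit 0)],
[Row.mk (nat_lit 15792) (nat_lit 32912) (nat_lit 26) (nat_lit 61710) (nat_lit 8388581) (nat_lit 0) (nat_lit 0),Row.mk (nat_lit 15960) (nat_lit 32912) (nat_lit 26) (nat_lit 61710) (nat_lit 8388581) (nat_lit 0) (nat_lit 0),Row.mk (nat_lit 16128) (nat_lit 32912) (nat_lit 26) (nat_lit 61710) (nat_lit 8388581) (nat_lit 0) (nat_lit 0),Row.mk (nat_lit 16296) (nat_lit 32912) (nat_lit 26) (nat_lit 61710) (nat_lit 8388581) (nat_lit 0) (nat_lit 0),Row.mk (nat_lit 16464) (nat_lit 32912) (nat_lit 26) (nat_lit 61710) (nat_lit 8388581) (nat_lit 0) (nat_lit 0),Row.mk (nat_lit 16632) (nat_lit 32912) (nat_lit 26) (nat_lit 61710) (nat_lit 8388581) (nat_lit 0) (nat_lit 0),Row.mk (nat_lit 16800) (nat_lit 32912) (nat_lit 26) (nat_lit 61710) (nat_lit 8388581) (nat_lit 0) (nat_lit 0),Row.mk (nat_lit 16968) (nat_lit 32912) (nat_lit 26)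 (nat_lit 61710) (nat_lit 8388581) (nat_lit 0) (nat_lit 0),Row.mk (nat_lit 17136) (nat_lit 32912) (nat_lit 26) (nat_lit 61710) (nat_lit 8388581) (nat_lit 0) (nat_lit 0),Row.mk (nat_lit 17304) (nat_lit 32912) (nat_lit 26) (nat_lit 61710) (nat_lit 8388581) (nat_lit 0) (nat_lit 0),Row.mk (nat_lit 17472) (nat_lit 32912) (nat_lit 26) (nat_lit 61710) (nat_lit 8388581) (nat_lit 0) (nat_lit 0),Row.mk (nat_lit 17640) (nat_lit 32912) (nat_lit 26) (nat_lit 61710) (nat_lit 8388581) (nat_lit 0) (nat_lit 0),Row.mk (nat_lit 17808) (nat_lit 32912) (nat_lit 26) (nat_lit 61710) (nat_lit 8388581) (nat_lit 0) (nat_lit 0),Row.mk (nat_lit 17976) (nat_lit 32912) (nat_lit 26) (nat_lit 61710) (nat_lit 8388581) (nat_lit 0) (nat_lit 0),Row.mk (nat_lit 18144) (nat_lit 32912) (nat_lit 26) (nat_lit 61710) (nat_lit 8388581) (nat_lit 0) (nat_lit 0),Row.mk (nat_lit 18312) (nat_lit 32912) (nat_lit 26) (nat_lit 61710) (nat_lit 8388581) (nat_lit 0) (nat_lit 0),Row.mk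 (nat_lit 18480) (nat_lit 32912) (nat_lit 26) (nat_lit 61710) (nat_lit 8388581) (nat_lit 0) (nat_lit 0),Row.mk (nat_lit 18648) (nat_lit 32912) (nat_lit 26) (nat_lit 61710) (nat_lit 8388581) (nat_lit 0) (nat_lit 0),Row.mk (nat_lit 18816) (nat_lit 32912) (nat_lit 26) (nat_lit 61710) (nat_lit 8388581) (nat_lit 0) (nat_lit 0),Row.mk (nat_lit 18984) (nat_lit 32912) (nat_lit 26) (nat_lit 61710) (nat_lit 8388581) (nat_lit 0) (nat_lit 0),Row.mk (nat_lit 19152) (nat_lit 32912) (nat_lit 26) (nat_lit 61710) (nat_lit 8388581) (nat_lit 0) (nat_lit 0),Row.mk (nat_lit 19320) (nat_lit 32912) (nat_lit 26) (nat_lit 61710) (nat_lit 8388581) (nat_lit 0) (nat_lit 0),Row.mk (nat_lit 19488) (nat_lit 32912) (nat_lit 26) (nat_lit 61710) (nat_lit 8388581) (nat_lit 0) (nat_lit 0),Row.mk (nat_lit 19656) (nat_lit 32912) (nat_lit 26) (nat_lit 61710) (nat_lit 8388581) (nat_lit 0) (nat_lit 0),Row.mk (nat_lit 19824) (nat_lit 32912) (nat_lit 26) (nat_lit 61710) (nat_lit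 8388581) (nat_lit 0) (nat_lit 0),Row.mk (nat_lit 19992) (nat_lit 32912) (nat_lit 26) (nat_lit 61710) (nat_lit 8388581) (nat_lit 0) (nat_lit 0),Row.mk (nat_lit 20160) (nat_lit 32912) (nat_lit 26) (nat_lit 61710) (nat_lit 8388581) (nat_lit 0) (nat_lit 0),Row.mk (nat_lit 20328) (nat_lit 32912) (nat_lit 26) (nat_lit 61710) (nat_lit 8388581) (nat_lit 0) (nat_lit 0),Row.mk (nat_lit 20496) (nat_lit 32912) (nat_lit 26) (nat_lit 61710) (nat_lit 8388581) (nat_lit 0) (nat_lit 0),Row.mk (nat_lit 20664) (nat_lit 32912) (nat_lit 26) (nat_lit 61710) (nat_lit 8388581) (nat_lit 0) (nat_lit 0),Row.mk (nat_lit 20832) (nat_lit 32912) (nat_lit 26) (nat_lit 61710) (nat_lit 8388581) (nat_lit 0) (nat_lit 0),Row.mk (nat_lit 21000) (nat_lit 32912) (nat_lit 26) (nat_lit 61710) (nat_lit 8388581) (nat_lit 0) (nat_lit 0),Row.mk (nat_lit 21168) (nat_lit 32912) (nat_lit 26) (nat_lit 61710) (nat_lit 8388581) (nat_lit 0) (nat_lit 0),Row.mk (nat_lit 21336) (nat_lit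 32912) (nat_lit 26) (nat_lit 61710) (nat_lit 8388581) (nat_lit 0) (nat_lit 0),Row.mk (nat_lit 21504) (nat_lit 32912) (nat_lit 26) (nat_lit 61710) (nat_lit 8388581) (nat_lit 0) (nat_lit 0),Row.mk (nat_lit 21672) (nat_lit 32912) (nat_lit 26) (nat_lit 61710) (nat_lit 8388581) (nat_lit 0) (nat_lit 0)],
[Row.mk (nat_lit 15792) (nat_lit 32912) (nat_lit 32) (nat_lit 61710) (nat_lit 8388575) (nat_lit 0) (nat_lit 0),Row.mk (nat_lit 15960) (nat_lit 32912) (nat_lit 32) (nat_lit 61710) (nat_lit 8388575) (nat_lit 0) (nat_lit 0),Row.mk (nat_lit 16128) (nat_lit 32912) (nat_lit 32) (nat_lit 61710) (nat_lit 8388575) (nat_lit 0) (nat_lit 0),Row.mk (nat_lit 16296) (nat_lit 32912) (nat_lit 32) (nat_lit 61710) (nat_lit 8388575) (nat_lit 0) (nat_lit 0),Row.mk (nat_lit 16464) (nat_lit 32912) (nat_lit 32) (nat_lit 61710) (nat_lit 8388575) (nat_lit 0) (nat_lit 0),Row.mk (nat_lit 16632) (nat_lit 32912) (nat_lit 32) (nat_lit 61710) (nat_lit 8388575) (nat_lit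 0) (nat_lit 0),Row.mk (nat_lit 16800) (nat_lit 32912) (nat_lit 32) (nat_lit 61710) (nat_lit 8388575) (nat_lit 0) (nat_lit 0),Row.mk (nat_lit 16968) (nat_lit 32912) (nat_lit 32) (nat_lit 61710) (nat_lit 8388575) (nat_lit 0) (nat_lit 0),Row.mk (nat_lit 17136) (nat_lit 32912) (nat_lit 32) (nat_lit 61710) (nat_lit 8388575) (nat_lit 0) (nat_lit 0),Row.mk (nat_lit 17304) (nat_lit 32912) (nat_lit 32) (nat_lit 61710) (nat_lit 8388575) (nat_lit 0) (nat_lit 0),Row.mk (nat_lit 17472) (nat_lit 32912) (nat_lit 32) (nat_lit 61710) (nat_lit 8388575) (nat_lit 0) (nat_lit 0),Row.mk (nat_lit 17640) (nat_lit 32912) (nat_lit 32) (nat_lit 61710) (nat_lit 8388575) (nat_lit 0) (nat_lit 0),Row.mk (nat_lit 17808) (nat_lit 32912) (nat_lit 32) (nat_lit 61710) (nat_lit 8388575) (nat_lit 0) (nat_lit 0),Row.mk (nat_lit 17976) (nat_lit 32912) (nat_lit 32) (nat_lit 61710) (nat_lit 8388575) (nat_lit 0) (nat_lit 0),Row.mk (nat_lit 18144) (nat_lit 32912) (nat_lit 32)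 (nat_lit 61710) (nat_lit 8388575) (nat_lit 0) (nat_lit 0),Row.mk (nat_lit 18312) (nat_lit 32912) (nat_lit 32) (nat_lit 61710) (nat_lit 8388575) (nat_lit 0) (nat_lit 0),Row.mk (nat_lit 18480) (nat_lit 32912) (nat_lit 32) (nat_lit 61710) (nat_lit 8388575) (nat_lit 0) (nat_lit 0),Row.mk (nat_lit 18648) (nat_lit 32912) (nat_lit 32) (nat_lit 61710) (nat_lit 8388575) (nat_lit 0) (nat_lit 0),Row.mk (nat_lit 18816) (nat_lit 32912) (nat_lit 32) (nat_lit 61710) (nat_lit 8388575) (nat_lit 0) (nat_lit 0),Row.mk (nat_lit 18984) (nat_lit 32912) (nat_lit 32) (nat_lit 61710) (nat_lit 8388575) (nat_lit 0) (nat_lit 0),Row.mk (nat_lit 19152) (nat_lit 32912) (nat_lit 32) (nat_lit 61710) (nat_lit 8388575) (nat_lit 0) (nat_lit 0),Row.mk (nat_lit 19320) (nat_lit 32912) (nat_lit 32) (nat_lit 61710) (nat_lit 8388575) (nat_lit 0) (nat_lit 0),Row.mk (nat_lit 19488) (nat_lit 32912) (nat_lit 32) (nat_lit 61710) (nat_lit 8388575) (nat_lit 0) (nat_lit 0),Row.mk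 (nat_lit 19656) (nat_lit 32912) (nat_lit 32) (nat_lit 61710) (nat_lit 8388575) (nat_lit 0) (nat_lit 0),Row.mk (nat_lit 19824) (nat_lit 32912) (nat_lit 32) (nat_lit 61710) (nat_lit 8388575) (nat_lit 0) (nat_lit 0),Row.mk (nat_lit 19992) (nat_lit 32912) (nat_lit 32) (nat_lit 61710) (nat_lit 8388575) (nat_lit 0) (nat_lit 0),Row.mk (nat_lit 20160) (nat_lit 32912) (nat_lit 32) (nat_lit 61710) (nat_lit 8388575) (nat_lit 0) (nat_lit 0),Row.mk (nat_lit 20328) (nat_lit 32912) (nat_lit 32) (nat_lit 61710) (nat_lit 8388575) (nat_lit 0) (nat_lit 0),Row.mk (nat_lit 20496) (nat_lit 32912) (nat_lit 32) (nat_lit 61710) (nat_lit 8388575) (nat_lit 0) (nat_lit 0),Row.mk (nat_lit 20664) (nat_lit 32912) (nat_lit 32) (nat_lit 61710) (nat_lit 8388575) (nat_lit 0) (nat_lit 0),Row.mk (nat_lit 20832) (nat_lit 32912) (nat_lit 32) (nat_lit 61710) (nat_lit 8388575) (nat_lit 0) (nat_lit 0),Row.mk (nat_lit 21000) (nat_lit 32912) (nat_lit 32) (nat_lit 61710) (nat_lit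 8388575) (nat_lit 0) (nat_lit 0),Row.mk (nat_lit 21168) (nat_lit 32912) (nat_lit 32) (nat_lit 61710) (nat_lit 8388575) (nat_lit 0) (nat_lit 0),Row.mk (nat_lit 21336) (nat_lit 32912) (nat_lit 32) (nat_lit 61710) (nat_lit 8388575) (nat_lit 0) (nat_lit 0),Row.mk (nat_lit 21504) (nat_lit 32912) (nat_lit 32) (nat_lit 61710) (nat_lit 8388575) (nat_lit 0) (nat_lit 0),Row.mk (nat_lit 21672) (nat_lit 32912) (nat_lit 32) (nat_lit 61710) (nat_lit 8388575) (nat_lit 0) (nat_lit 0)],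
[Row.mk (nat_lit 15792) (nat_lit 32912) (nat_lit 41) (nat_lit 61710) (nat_lit 8388566) (nat_lit 0) (nat_lit 0),Row.mk (nat_lit 15960) (nat_lit 32912) (nat_lit 41) (nat_lit 61710) (nat_lit 8388566) (nat_lit 0) (nat_lit 0),Row.mk (nat_lit 16128) (nat_lit 32912) (nat_lit 41) (nat_lit 61710) (nat_lit 8388566) (nat_lit 0) (nat_lit 0),Row.mk (nat_lit 16296) (nat_lit 32912) (nat_lit 41) (nat_lit 61710) (nat_lit 8388566) (nat_lit 0) (nat_lit 0),Row.mk (nat_lit 16464) (nat_lit 32912) (nat_lit 41) (nat_lit 61710) (nat_lit 8388566) (nat_lit 0) (nat_lit 0),Row.mk (nat_lit 16632) (nat_lit 32912) (nat_lit 41) (nat_lit 61710) (nat_lit 8388566) (nat_lit 0) (nat_lit 0),Row.mk (nat_lit 16800) (nat_lit 32912) (nat_lit 41) (nat_lit 61710) (nat_lit 8388566) (nat_lit 0) (nat_lit 0),Row.mk (nat_lit 16968) (nat_lit 32912) (nat_lit 41) (nat_lit 61710) (nat_lit 8388566) (nat_lit 0) (nat_lit 0),Row.mk (nat_lit 17136) (nat_lit 32912) (nat_lit 41) (nat_lit 61710)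 (nat_lit 8388566) (nat_lit 0) (nat_lit 0),Row.mk (nat_lit 17304) (nat_lit 32912) (nat_lit 41) (nat_lit 61710) (nat_lit 8388566) (nat_lit 0) (nat_lit 0),Row.mk (nat_lit 17472) (nat_lit 32912) (nat_lit 41) (nat_lit 61710) (nat_lit 8388566) (nat_lit 0) (nat_lit 0),Row.mk (nat_lit 17640) (nat_lit 32912) (nat_lit 41) (nat_lit 61710) (nat_lit 8388566) (nat_lit 0) (nat_lit 0),Row.mk (nat_lit 17808) (nat_lit 32912) (nat_lit 41) (nat_lit 61710) (nat_lit 8388566) (nat_lit 0) (nat_lit 0),Row.mk (nat_lit 17976) (nat_lit 32912) (nat_lit 41) (nat_lit 61710) (nat_lit 8388566) (nat_lit 0) (nat_lit 0),Row.mk (nat_lit 18144) (nat_lit 32912) (nat_lit 41) (nat_lit 61710) (nat_lit 8388566) (nat_lit 0) (nat_lit 0),Row.mk (nat_lit 18312) (nat_lit 32912) (nat_lit 41) (nat_lit 61710) (nat_lit 8388566) (nat_lit 0) (nat_lit 0),Row.mk (nat_lit 18480) (nat_lit 32912) (nat_lit 41) (nat_lit 61710) (nat_lit 8388566) (nat_lit 0) (nat_lit 0),Row.mk (nat_lit 18648)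 (nat_lit 32912) (nat_lit 41) (nat_lit 61710) (nat_lit 8388566) (nat_lit 0) (nat_lit 0),Row.mk (nat_lit 18816) (nat_lit 32912) (nat_lit 41) (nat_lit 61710) (nat_lit 8388566) (nat_lit 0) (nat_lit 0),Row.mk (nat_lit 18984) (nat_lit 32912) (nat_lit 41) (nat_lit 61710) (nat_lit 8388566) (nat_lit 0) (nat_lit 0),Row.mk (nat_lit 19152) (nat_lit 32912) (nat_lit 41) (nat_lit 61710) (nat_lit 8388566) (nat_lit 0) (nat_lit 0),Row.mk (nat_lit 19320) (nat_lit 32912) (nat_lit 41) (nat_lit 61710) (nat_lit 8388566) (nat_lit 0) (nat_lit 0),Row.mk (nat_lit 19488) (nat_lit 32912) (nat_lit 41) (nat_lit 61710) (nat_lit 8388566) (nat_lit 0) (nat_lit 0),Row.mk (nat_lit 19656) (nat_lit 32912) (nat_lit 41) (nat_lit 61710) (nat_lit 8388566) (nat_lit 0) (nat_lit 0),Row.mk (nat_lit 19824) (nat_lit 32912) (nat_lit 41) (nat_lit 61710) (nat_lit 8388566) (nat_lit 0) (nat_lit 0),Row.mk (nat_lit 19992) (nat_lit 32912) (nat_lit 41) (nat_lit 61710) (nat_lit 8388566) (nat_lit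 0) (nat_lit 0),Row.mk (nat_lit 20160) (nat_lit 32912) (nat_lit 41) (nat_lit 61710) (nat_lit 8388566) (nat_lit 0) (nat_lit 0),Row.mk (nat_lit 20328) (nat_lit 32912) (nat_lit 41) (nat_lit 61710) (nat_lit 8388566) (nat_lit 0) (nat_lit 0),Row.mk (nat_lit 20496) (nat_lit 32912) (nat_lit 41) (nat_lit 61710) (nat_lit 8388566) (nat_lit 0) (nat_lit 0),Row.mk (nat_lit 20664) (nat_lit 32912) (nat_lit 41) (nat_lit 61710) (nat_lit 8388566) (nat_lit 0) (nat_lit 0),Row.mk (nat_lit 20832) (nat_lit 32912) (nat_lit 41) (nat_lit 61710) (nat_lit 8388566) (nat_lit 0) (nat_lit 0),Row.mk (nat_lit 21000) (nat_lit 32912) (nat_lit 41) (nat_lit 61710) (nat_lit 8388566) (nat_lit 0) (nat_lit 0),Row.mk (nat_lit 21168) (nat_lit 32912) (nat_lit 41) (nat_lit 61710) (nat_lit 8388566) (nat_lit 0) (nat_lit 0),Row.mk (nat_lit 21336) (nat_lit 32912) (nat_lit 41) (nat_lit 61710) (nat_lit 8388566) (nat_lit 0) (nat_lit 0),Row.mk (nat_lit 21504) (nat_lit 32912) (nat_lit 41)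 (nat_lit 61710) (nat_lit 8388566) (nat_lit 0) (nat_lit 0),Row.mk (nat_lit 21672) (nat_lit 32912) (nat_lit 41) (nat_lit 61710) (nat_lit 8388566) (nat_lit 0) (nat_lit 0),Row.mk (nat_lit 21840) (nat_lit 32912) (nat_lit 41) (nat_lit 61710) (nat_lit 8388566) (nat_lit 0) (nat_lit 0)],
[Row.mk (nat_lit 15792) (nat_lit 32912) (nat_lit 51) (nat_lit 61710) (nat_lit 8388556) (nat_lit 0) (nat_lit 0),Row.mk (nat_lit 15960) (nat_lit 32912) (nat_lit 51) (nat_lit 61710) (nat_lit 8388556) (nat_lit 0) (nat_lit 0),Row.mk (nat_lit 16128) (nat_lit 32912) (nat_lit 51) (nat_lit 61710) (nat_lit 8388556) (nat_lit 0) (nat_lit 0),Row.mk (nat_lit 16296) (nat_lit 32912) (nat_lit 51) (nat_lit 61710) (nat_lit 8388556) (nat_lit 0) (nat_lit 0),Row.mk (nat_lit 16464) (nat_lit 32912) (nat_lit 51) (nat_lit 61710) (nat_lit 8388556) (nat_lit 0) (nat_lit 0),Row.mk (nat_lit 16632) (nat_lit 32912) (nat_lit 51) (nat_lit 61710) (nat_lit 8388556) (nat_lit 0) (nat_lit 0),Row.mk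 (nat_lit 16800) (nat_lit 32912) (nat_lit 51) (nat_lit 61710) (nat_lit 8388556) (nat_lit 0) (nat_lit 0),Row.mk (nat_lit 16968) (nat_lit 32912) (nat_lit 51) (nat_lit 61710) (nat_lit 8388556) (nat_lit 0) (nat_lit 0),Row.mk (nat_lit 17136) (nat_lit 32912) (nat_lit 51) (nat_lit 61710) (nat_lit 8388556) (nat_lit 0) (nat_lit 0),Row.mk (nat_lit 17304) (nat_lit 32912) (nat_lit 51) (nat_lit 61710) (nat_lit 8388556) (nat_lit 0) (nat_lit 0),Row.mk (nat_lit 17472) (nat_lit 32912) (nat_lit 51) (nat_lit 61710) (nat_lit 8388556) (nat_lit 0) (nat_lit 0),Row.mk (nat_lit 17640) (nat_lit 32912) (nat_lit 51) (nat_lit 61710) (nat_lit 8388556) (nat_lit 0) (nat_lit 0),Row.mk (nat_lit 17808) (nat_lit 32912) (nat_lit 51) (nat_lit 61710) (nat_lit 8388556) (nat_lit 0) (nat_lit 0),Row.mk (nat_lit 17976) (nat_lit 32912) (nat_lit 51) (nat_lit 61710) (nat_lit 8388556) (nat_lit 0) (nat_lit 0),Row.mk (nat_lit 18144) (nat_lit 32912) (nat_lit 51) (nat_lit 61710) (nat_lit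 8388556) (nat_lit 0) (nat_lit 0),Row.mk (nat_lit 18312) (nat_lit 32912) (nat_lit 51) (nat_lit 61710) (nat_lit 8388556) (nat_lit 0) (nat_lit 0),Row.mk (nat_lit 18480) (nat_lit 32912) (nat_lit 51) (nat_lit 61710) (nat_lit 8388556) (nat_lit 0) (nat_lit 0),Row.mk (nat_lit 18648) (nat_lit 32912) (nat_lit 51) (nat_lit 61710) (nat_lit 8388556) (nat_lit 0) (nat_lit 0),Row.mk (nat_lit 18816) (nat_lit 32912) (nat_lit 51) (nat_lit 61710) (nat_lit 8388556) (nat_lit 0) (nat_lit 0),Row.mk (nat_lit 18984) (nat_lit 32912) (nat_lit 51) (nat_lit 61710) (nat_lit 8388556) (nat_lit 0) (nat_lit 0),Row.mk (nat_lit 19152) (nat_lit 32912) (nat_lit 51) (nat_lit 61710) (nat_lit 8388556) (nat_lit 0) (nat_lit 0),Row.mk (nat_lit 19320) (nat_lit 32912) (nat_lit 51) (nat_lit 61710) (nat_lit 8388556) (nat_lit 0) (nat_lit 0),Row.mk (nat_lit 19488) (nat_lit 32912) (nat_lit 51) (nat_lit 61710) (nat_lit 8388556) (nat_lit 0) (nat_lit 0),Row.mk (nat_lit 19656) (nat_lit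 32912) (nat_lit 51) (nat_lit 61710) (nat_lit 8388556) (nat_lit 0) (nat_lit 0),Row.mk (nat_lit 19824) (nat_lit 32912) (nat_lit 51) (nat_lit 61710) (nat_lit 8388556) (nat_lit 0) (nat_lit 0),Row.mk (nat_lit 19992) (nat_lit 32912) (nat_lit 51) (nat_lit 61710) (nat_lit 8388556) (nat_lit 0) (nat_lit 0),Row.mk (nat_lit 20160) (nat_lit 32912) (nat_lit 51) (nat_lit 61710) (nat_lit 8388556) (nat_lit 0) (nat_lit 0),Row.mk (nat_lit 20328) (nat_lit 32912) (nat_lit 51) (nat_lit 61710) (nat_lit 8388556) (nat_lit 0) (nat_lit 0),Row.mk (nat_lit 20496) (nat_lit 32912) (nat_lit 51) (nat_lit 61710) (nat_lit 8388556) (nat_lit 0) (nat_lit 0),Row.mk (nat_lit 20664) (nat_lit 32912) (nat_lit 51) (nat_lit 61710) (nat_lit 8388556) (nat_lit 0) (nat_lit 0),Row.mk (nat_lit 20832) (nat_lit 32912) (nat_lit 51) (nat_lit 61710) (nat_lit 8388556) (nat_lit 0) (nat_lit 0),Row.mk (nat_lit 21000) (nat_lit 32912) (nat_lit 51) (nat_lit 61710) (nat_lit 8388556) (nat_lit 0)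 (nat_lit 0),Row.mk (nat_lit 21168) (nat_lit 32912) (nat_lit 51) (nat_lit 61710) (nat_lit 8388556) (nat_lit 0) (nat_lit 0),Row.mk (nat_lit 21336) (nat_lit 32912) (nat_lit 51) (nat_lit 61710) (nat_lit 8388556) (nat_lit 0) (nat_lit 0),Row.mk (nat_lit 21504) (nat_lit 32912) (nat_lit 51) (nat_lit 61710) (nat_lit 8388556) (nat_lit 0) (nat_lit 0),Row.mk (nat_lit 21672) (nat_lit 32912) (nat_lit 51) (nat_lit 61710) (nat_lit 8388556) (nat_lit 0) (nat_lit 0),Row.mk (nat_lit 21840) (nat_lit 32912) (nat_lit 51) (nat_lit 61710) (nat_lit 8388556) (nat_lit 0) (nat_lit 0),Row.mk (nat_lit 22008) (nat_lit 32912) (nat_lit 51) (nat_lit 61710) (nat_lit 8388556) (nat_lit 0) (nat_lit 0)],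
[Row.mk (nat_lit 15792) (nat_lit 32912) (nat_lit 64) (nat_lit 61710) (nat_lit 8388543) (nat_lit 0) (nat_lit 0),Row.mk (nat_lit 15960) (nat_lit 32912) (nat_lit 64) (nat_lit 61710) (nat_lit 8388543) (nat_lit 0) (nat_lit 0),Row.mk (nat_lit 16128) (nat_lit 32912) (nat_lit 64) (nat_lit 61710) (nat_lit 8388543) (nat_lit 0) (nat_lit 0),Row.mk (nat_lit 16296) (nat_lit 32912) (nat_lit 64) (nat_lit 61710) (nat_lit 8388543) (nat_lit 0) (nat_lit 0),Row.mk (nat_lit 16464) (nat_lit 32912) (nat_lit 64) (nat_lit 61710) (nat_lit 8388543) (nat_lit 0) (nat_lit 0),Row.mk (nat_lit 16632) (nat_lit 32912) (nat_lit 64) (nat_lit 61710) (nat_lit 8388543) (nat_lit 0) (nat_lit 0),Row.mk (nat_lit 16800) (nat_lit 32912) (nat_lit 64) (nat_lit 61710) (nat_lit 8388543) (nat_lit 0) (nat_lit 0),Row.mk (nat_lit 16968) (nat_lit 32912) (nat_lit 64) (nat_lit 61710) (nat_lit 8388543) (nat_lit 0) (nat_lit 0),Row.mk (nat_lit 17136) (nat_lit 32912) (nat_lit 64) (nat_lit 61710)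 (nat_lit 8388543) (nat_lit 0) (nat_lit 0),Row.mk (nat_lit 17304) (nat_lit 32912) (nat_lit 64) (nat_lit 61710) (nat_lit 8388543) (nat_lit 0) (nat_lit 0),Row.mk (nat_lit 17472) (nat_lit 32912) (nat_lit 64) (nat_lit 61710) (nat_lit 8388543) (nat_lit 0) (nat_lit 0),Row.mk (nat_lit 17640) (nat_lit 32912) (nat_lit 64) (nat_lit 61710) (nat_lit 8388543) (nat_lit 0) (nat_lit 0),Row.mk (nat_lit 17808) (nat_lit 32912) (nat_lit 64) (nat_lit 61710) (nat_lit 8388543) (nat_lit 0) (nat_lit 0),Row.mk (nat_lit 17976) (nat_lit 32912) (nat_lit 64) (nat_lit 61710) (nat_lit 8388543) (nat_lit 0) (nat_lit 0),Row.mk (nat_lit 18144) (nat_lit 32912) (nat_lit 64) (nat_lit 61710) (nat_lit 8388543) (nat_lit 0) (nat_lit 0),Row.mk (nat_lit 18312) (nat_lit 32912) (nat_lit 64) (nat_lit 61710) (nat_lit 8388543) (nat_lit 0) (nat_lit 0),Row.mk (nat_lit 18480) (nat_lit 32912) (nat_lit 64) (nat_lit 61710) (nat_lit 8388543) (nat_lit 0) (nat_lit 0),Row.mk (nat_lit 18648)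 (nat_lit 32912) (nat_lit 64) (nat_lit 61710) (nat_lit 8388543) (nat_lit 0) (nat_lit 0),Row.mk (nat_lit 18816) (nat_lit 32912) (nat_lit 64) (nat_lit 61710) (nat_lit 8388543) (nat_lit 0) (nat_lit 0),Row.mk (nat_lit 18984) (nat_lit 32912) (nat_lit 64) (nat_lit 61710) (nat_lit 8388543) (nat_lit 0) (nat_lit 0),Row.mk (nat_lit 19152) (nat_lit 32912) (nat_lit 64) (nat_lit 61710) (nat_lit 8388543) (nat_lit 0) (nat_lit 0),Row.mk (nat_lit 19320) (nat_lit 32912) (nat_lit 64) (nat_lit 61710) (nat_lit 8388543) (nat_lit 0) (nat_lit 0),Row.mk (nat_lit 19488) (nat_lit 32912) (nat_lit 64) (nat_lit 61710) (nat_lit 8388543) (nat_lit 0) (nat_lit 0),Row.mk (nat_lit 19656) (nat_lit 32912) (nat_lit 64) (nat_lit 61710) (nat_lit 8388543) (nat_lit 0) (nat_lit 0),Row.mk (nat_lit 19824) (nat_lit 32912) (nat_lit 64) (nat_lit 61710) (nat_lit 8388543) (nat_lit 0) (nat_lit 0),Row.mk (nat_lit 19992) (nat_lit 32912) (nat_lit 64) (nat_lit 61710) (nat_lit 8388543) (nat_lit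 0) (nat_lit 0),Row.mk (nat_lit 20160) (nat_lit 32912) (nat_lit 64) (nat_lit 61710) (nat_lit 8388543) (nat_lit 0) (nat_lit 0),Row.mk (nat_lit 20328) (nat_lit 32912) (nat_lit 64) (nat_lit 61710) (nat_lit 8388543) (nat_lit 0) (nat_lit 0),Row.mk (nat_lit 20496) (nat_lit 32912) (nat_lit 64) (nat_lit 61710) (nat_lit 8388543) (nat_lit 0) (nat_lit 0),Row.mk (nat_lit 20664) (nat_lit 32912) (nat_lit 64) (nat_lit 61710) (nat_lit 8388543) (nat_lit 0) (nat_lit 0),Row.mk (nat_lit 20832) (nat_lit 32912) (nat_lit 64) (nat_lit 61710) (nat_lit 8388543) (nat_lit 0) (nat_lit 0),Row.mk (nat_lit 21000) (nat_lit 32912) (nat_lit 64) (nat_lit 61710) (nat_lit 8388543) (nat_lit 0) (nat_lit 0),Row.mk (nat_lit 21168) (nat_lit 32912) (nat_lit 64) (nat_lit 61710) (nat_lit 8388543) (nat_lit 0) (nat_lit 0),Row.mk (nat_lit 21336) (nat_lit 32912) (nat_lit 64) (nat_lit 61710) (nat_lit 8388543) (nat_lit 0) (nat_lit 0),Row.mk (nat_lit 21504) (nat_lit 32912) (nat_lit 64)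 (nat_lit 61710) (nat_lit 8388543) (nat_lit 0) (nat_lit 0),Row.mk (nat_lit 21672) (nat_lit 32912) (nat_lit 64) (nat_lit 61710) (nat_lit 8388543) (nat_lit 0) (nat_lit 0),Row.mk (nat_lit 21840) (nat_lit 32912) (nat_lit 64) (nat_lit 61710) (nat_lit 8388543) (nat_lit 0) (nat_lit 0),Row.mk (nat_lit 22008) (nat_lit 32912) (nat_lit 64) (nat_lit 61710) (nat_lit 8388543) (nat_lit 0) (nat_lit 0)],
[Row.mk (nat_lit 15624) (nat_lit 32912) (nat_lit 79) (nat_lit 61710) (nat_lit 8388528) (nat_lit 0) (nat_lit 0),Row.mk (nat_lit 15792) (nat_lit 32912) (nat_lit 79) (nat_lit 61710) (nat_lit 8388528) (nat_lit 0) (nat_lit 0),Row.mk (nat_lit 15960) (nat_lit 32912) (nat_lit 79) (nat_lit 61710) (nat_lit 8388528) (nat_lit 0) (nat_lit 0),Row.mk (nat_lit 16128) (nat_lit 32912) (nat_lit 79) (nat_lit 61710) (nat_lit 8388528) (nat_lit 0) (nat_lit 0),Row.mk (nat_lit 16296) (nat_lit 32912) (nat_lit 79) (nat_lit 61710) (nat_lit 8388528) (nat_lit 0) (nat_lit 0),Row.mk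 (nat_lit 16464) (nat_lit 32912) (nat_lit 79) (nat_lit 61710) (nat_lit 8388528) (nat_lit 0) (nat_lit 0),Row.mk (nat_lit 16632) (nat_lit 32912) (nat_lit 79) (nat_lit 61710) (nat_lit 8388528) (nat_lit 0) (nat_lit 0),Row.mk (nat_lit 16800) (nat_lit 32912) (nat_lit 79) (nat_lit 61710) (nat_lit 8388528) (nat_lit 0) (nat_lit 0),Row.mk (nat_lit 16968) (nat_lit 32912) (nat_lit 79) (nat_lit 61710) (nat_lit 8388528) (nat_lit 0) (nat_lit 0),Row.mk (nat_lit 17136) (nat_lit 32912) (nat_lit 79) (nat_lit 61710) (nat_lit 8388528) (nat_lit 0) (nat_lit 0),Row.mk (nat_lit 17304) (nat_lit 32912) (nat_lit 79) (nat_lit 61710) (nat_lit 8388528) (nat_lit 0) (nat_lit 0),Row.mk (nat_lit 17472) (nat_lit 32912) (nat_lit 79) (nat_lit 61710) (nat_lit 8388528) (nat_lit 0) (nat_lit 0),Row.mk (nat_lit 17640) (nat_lit 32912) (nat_lit 79) (nat_lit 61710) (nat_lit 8388528) (nat_lit 0) (nat_lit 0),Row.mk (nat_lit 17808) (nat_lit 32912) (nat_lit 79) (nat_lit 61710) (nat_lit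 8388528) (nat_lit 0) (nat_lit 0),Row.mk (nat_lit 17976) (nat_lit 32912) (nat_lit 79) (nat_lit 61710) (nat_lit 8388528) (nat_lit 0) (nat_lit 0),Row.mk (nat_lit 18144) (nat_lit 32912) (nat_lit 79) (nat_lit 61710) (nat_lit 8388528) (nat_lit 0) (nat_lit 0),Row.mk (nat_lit 18312) (nat_lit 32912) (nat_lit 79) (nat_lit 61710) (nat_lit 8388528) (nat_lit 0) (nat_lit 0),Row.mk (nat_lit 18480) (nat_lit 32912) (nat_lit 79) (nat_lit 61710) (nat_lit 8388528) (nat_lit 0) (nat_lit 0),Row.mk (nat_lit 18648) (nat_lit 32912) (nat_lit 79) (nat_lit 61710) (nat_lit 8388528) (nat_lit 0) (nat_lit 0),Row.mk (nat_lit 18816) (nat_lit 32912) (nat_lit 79) (nat_lit 61710) (nat_lit 8388528) (nat_lit 0) (nat_lit 0),Row.mk (nat_lit 18984) (nat_lit 32912) (nat_lit 79) (nat_lit 61710) (nat_lit 8388528) (nat_lit 0) (nat_lit 0),Row.mk (nat_lit 19152) (nat_lit 32912) (nat_lit 79) (nat_lit 61710) (nat_lit 8388528) (nat_lit 0) (nat_lit 0),Row.mk (nat_lit 19320) (nat_lit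 32912) (nat_lit 79) (nat_lit 61710) (nat_lit 8388528) (nat_lit 0) (nat_lit 0),Row.mk (nat_lit 19488) (nat_lit 32912) (nat_lit 79) (nat_lit 61710) (nat_lit 8388528) (nat_lit 0) (nat_lit 0),Row.mk (nat_lit 19656) (nat_lit 32912) (nat_lit 79) (nat_lit 61710) (nat_lit 8388528) (nat_lit 0) (nat_lit 0),Row.mk (nat_lit 19824) (nat_lit 32912) (nat_lit 79) (nat_lit 61710) (nat_lit 8388528) (nat_lit 0) (nat_lit 0),Row.mk (nat_lit 19992) (nat_lit 32912) (nat_lit 79) (nat_lit 61710) (nat_lit 8388528) (nat_lit 0) (nat_lit 0),Row.mk (nat_lit 20160) (nat_lit 32912) (nat_lit 79) (nat_lit 61710) (nat_lit 8388528) (nat_lit 0) (nat_lit 0),Row.mk (nat_lit 20328) (nat_lit 32912) (nat_lit 79) (nat_lit 61710) (nat_lit 8388528) (nat_lit 0) (nat_lit 0),Row.mk (nat_lit 20496) (nat_lit 32912) (nat_lit 79) (nat_lit 61710) (nat_lit 8388528) (nat_lit 0) (nat_lit 0),Row.mk (nat_lit 20664) (nat_lit 32912) (nat_lit 79) (nat_lit 61710) (nat_lit 8388528) (nat_lit 0)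 (nat_lit 0),Row.mk (nat_lit 20832) (nat_lit 32912) (nat_lit 79) (nat_lit 61710) (nat_lit 8388528) (nat_lit 0) (nat_lit 0),Row.mk (nat_lit 21000) (nat_lit 32912) (nat_lit 79) (nat_lit 61710) (nat_lit 8388528) (nat_lit 0) (nat_lit 0),Row.mk (nat_lit 21168) (nat_lit 32912) (nat_lit 79) (nat_lit 61710) (nat_lit 8388528) (nat_lit 0) (nat_lit 0),Row.mk (nat_lit 21336) (nat_lit 32912) (nat_lit 79) (nat_lit 61710) (nat_lit 8388528) (nat_lit 0) (nat_lit 0),Row.mk (nat_lit 21504) (nat_lit 32912) (nat_lit 79) (nat_lit 61710) (nat_lit 8388528) (nat_lit 0) (nat_lit 0),Row.mk (nat_lit 21672) (nat_lit 32912) (nat_lit 79) (nat_lit 61710) (nat_lit 8388528) (nat_lit 0) (nat_lit 0),Row.mk (nat_lit 21840) (nat_lit 32912) (nat_lit 79) (nat_lit 61710) (nat_lit 8388528) (nat_lit 0) (nat_lit 0),Row.mk (nat_lit 22008) (nat_lit 32912) (nat_lit 79) (nat_lit 61710) (nat_lit 8388528) (nat_lit 0) (nat_lit 0),Row.mk (nat_lit 22176) (nat_lit 32912) (nat_lit 79)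 (nat_lit 61710) (nat_lit 8388528) (nat_lit 0) (nat_lit 0)],
[Row.mk (nat_lit 15624) (nat_lit 32912) (nat_lit 99) (nat_lit 61710) (nat_lit 8388508) (nat_lit 0) (nat_lit 0),Row.mk (nat_lit 15792) (nat_lit 32912) (nat_lit 99) (nat_lit 61710) (nat_lit 8388508) (nat_lit 0) (nat_lit 0),Row.mk (nat_lit 15960) (nat_lit 32912) (nat_lit 99) (nat_lit 61710) (nat_lit 8388508) (nat_lit 0) (nat_lit 0),Row.mk (nat_lit 16128) (nat_lit 32912) (nat_lit 99) (nat_lit 61710) (nat_lit 8388508) (nat_lit 0) (nat_lit 0),Row.mk (nat_lit 16296) (nat_lit 32912) (nat_lit 99) (nat_lit 61710) (nat_lit 8388508) (nat_lit 0) (nat_lit 0),Row.mk (nat_lit 16464) (nat_lit 32912) (nat_lit 99) (nat_lit 61710) (nat_lit 8388508) (nat_lit 0) (nat_lit 0),Row.mk (nat_lit 16632) (nat_lit 32912) (nat_lit 99) (nat_lit 61710) (nat_lit 8388508) (nat_lit 0) (nat_lit 0),Row.mk (nat_lit 16800) (nat_lit 32912) (nat_lit 99) (nat_lit 61710) (nat_lit 8388508) (nat_lit 0) (nat_lit 0),Row.mk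 (nat_lit 16968) (nat_lit 32912) (nat_lit 99) (nat_lit 61710) (nat_lit 8388508) (nat_lit 0) (nat_lit 0),Row.mk (nat_lit 17136) (nat_lit 32912) (nat_lit 99) (nat_lit 61710) (nat_lit 8388508) (nat_lit 0) (nat_lit 0),Row.mk (nat_lit 17304) (nat_lit 32912) (nat_lit 99) (nat_lit 61710) (nat_lit 8388508) (nat_lit 0) (nat_lit 0),Row.mk (nat_lit 17472) (nat_lit 32912) (nat_lit 99) (nat_lit 61710) (nat_lit 8388508) (nat_lit 0) (nat_lit 0),Row.mk (nat_lit 17640) (nat_lit 32912) (nat_lit 99) (nat_lit 61710) (nat_lit 8388508) (nat_lit 0) (nat_lit 0),Row.mk (nat_lit 17808) (nat_lit 32912) (nat_lit 99) (nat_lit 61710) (nat_lit 8388508) (nat_lit 0) (nat_lit 0),Row.mk (nat_lit 17976) (nat_lit 32912) (nat_lit 99) (nat_lit 61710) (nat_lit 8388508) (nat_lit 0) (nat_lit 0),Row.mk (nat_lit 18144) (nat_lit 32912) (nat_lit 99) (nat_lit 61710) (nat_lit 8388508) (nat_lit 0) (nat_lit 0),Row.mk (nat_lit 18312) (nat_lit 32912) (nat_lit 99) (nat_lit 61710) (nat_lit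 8388508) (nat_lit 0) (nat_lit 0),Row.mk (nat_lit 18480) (nat_lit 32912) (nat_lit 99) (nat_lit 61710) (nat_lit 8388508) (nat_lit 0) (nat_lit 0),Row.mk (nat_lit 18648) (nat_lit 32912) (nat_lit 99) (nat_lit 61710) (nat_lit 8388508) (nat_lit 0) (nat_lit 0),Row.mk (nat_lit 18816) (nat_lit 32912) (nat_lit 99) (nat_lit 61710) (nat_lit 8388508) (nat_lit 0) (nat_lit 0),Row.mk (nat_lit 18984) (nat_lit 32912) (nat_lit 99) (nat_lit 61710) (nat_lit 8388508) (nat_lit 0) (nat_lit 0),Row.mk (nat_lit 19152) (nat_lit 32912) (nat_lit 99) (nat_lit 61710) (nat_lit 8388508) (nat_lit 0) (nat_lit 0),Row.mk (nat_lit 19320) (nat_lit 32912) (nat_lit 99) (nat_lit 61710) (nat_lit 8388508) (nat_lit 0) (nat_lit 0),Row.mk (nat_lit 19488) (nat_lit 32912) (nat_lit 99) (nat_lit 61710) (nat_lit 8388508) (nat_lit 0) (nat_lit 0),Row.mk (nat_lit 19656) (nat_lit 32912) (nat_lit 99) (nat_lit 61710) (nat_lit 8388508) (nat_lit 0) (nat_lit 0),Row.mk (nat_lit 19824) (nat_lit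 32912) (nat_lit 99) (nat_lit 61710) (nat_lit 8388508) (nat_lit 0) (nat_lit 0),Row.mk (nat_lit 19992) (nat_lit 32912) (nat_lit 99) (nat_lit 61710) (nat_lit 8388508) (nat_lit 0) (nat_lit 0),Row.mk (nat_lit 20160) (nat_lit 32912) (nat_lit 99) (nat_lit 61710) (nat_lit 8388508) (nat_lit 0) (nat_lit 0),Row.mk (nat_lit 20328) (nat_lit 32912) (nat_lit 99) (nat_lit 61710) (nat_lit 8388508) (nat_lit 0) (nat_lit 0),Row.mk (nat_lit 20496) (nat_lit 32912) (nat_lit 99) (nat_lit 61710) (nat_lit 8388508) (nat_lit 0) (nat_lit 0),Row.mk (nat_lit 20664) (nat_lit 32912) (nat_lit 99) (nat_lit 61710) (nat_lit 8388508) (nat_lit 0) (nat_lit 0),Row.mk (nat_lit 20832) (nat_lit 32912) (nat_lit 99) (nat_lit 61710) (nat_lit 8388508) (nat_lit 0) (nat_lit 0),Row.mk (nat_lit 21000) (nat_lit 32912) (nat_lit 99) (nat_lit 61710) (nat_lit 8388508) (nat_lit 0) (nat_lit 0),Row.mk (nat_lit 21168) (nat_lit 32912) (nat_lit 99) (nat_lit 61710) (nat_lit 8388508) (nat_lit 0)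 (nat_lit 0),Row.mk (nat_lit 21336) (nat_lit 32912) (nat_lit 99) (nat_lit 61710) (nat_lit 8388508) (nat_lit 0) (nat_lit 0),Row.mk (nat_lit 21504) (nat_lit 32912) (nat_lit 99) (nat_lit 61710) (nat_lit 8388508) (nat_lit 0) (nat_lit 0),Row.mk (nat_lit 21672) (nat_lit 32912) (nat_lit 99) (nat_lit 61710) (nat_lit 8388508) (nat_lit 0) (nat_lit 0),Row.mk (nat_lit 21840) (nat_lit 32912) (nat_lit 99) (nat_lit 61710) (nat_lit 8388508) (nat_lit 0) (nat_lit 0),Row.mk (nat_lit 22008) (nat_lit 32912) (nat_lit 99) (nat_lit 61710) (nat_lit 8388508) (nat_lit 0) (nat_lit 0),Row.mk (nat_lit 22176) (nat_lit 32912) (nat_lit 99) (nat_lit 61710) (nat_lit 8388508) (nat_lit 0) (nat_lit 0),Row.mk (nat_lit 22344) (nat_lit 32912) (nat_lit 99) (nat_lit 61710) (nat_lit 8388508) (nat_lit 0) (nat_lit 0)],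
[Row.mk (nat_lit 15624) (nat_lit 32912) (nat_lit 124) (nat_lit 61710) (nat_lit 8388483) (nat_lit 0) (nat_lit 0),Row.mk (nat_lit 15792) (nat_lit 32912) (nat_lit 124) (nat_lit 61710) (nat_lit 8388483) (nat_lit 0) (nat_lit 0),Row.mk (nat_lit 15960) (nat_lit 32912) (nat_lit 124) (nat_lit 61710) (nat_lit 8388483) (nat_lit 0) (nat_lit 0),Row.mk (nat_lit 16128) (nat_lit 32912) (nat_lit 124) (nat_lit 61710) (nat_lit 8388483) (nat_lit 0) (nat_lit 0),Row.mk (nat_lit 16296) (nat_lit 32912) (nat_lit 124) (nat_lit 61710) (nat_lit 8388483) (nat_lit 0) (nat_lit 0),Row.mk (nat_lit 16464) (nat_lit 32912) (nat_lit 124) (nat_lit 61710) (nat_lit 8388483) (nat_lit 0) (nat_lit 0),Row.mk (nat_lit 16632) (nat_lit 32912) (nat_lit 124) (nat_lit 61710) (nat_lit 8388483) (nat_lit 0) (nat_lit 0),Row.mk (nat_lit 16800) (nat_lit 32912) (nat_lit 124) (nat_lit 61710) (nat_lit 8388483) (nat_lit 0) (nat_lit 0),Row.mk (nat_lit 16968) (nat_lit 32912) (nat_lit 124) (nat_lit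 61710) (nat_lit 8388483) (nat_lit 0) (nat_lit 0),Row.mk (nat_lit 17136) (nat_lit 32912) (nat_lit 124) (nat_lit 61710) (nat_lit 8388483) (nat_lit 0) (nat_lit 0),Row.mk (nat_lit 17304) (nat_lit 32912) (nat_lit 124) (nat_lit 61710) (nat_lit 8388483) (nat_lit 0) (nat_lit 0),Row.mk (nat_lit 17472) (nat_lit 32912) (nat_lit 124) (nat_lit 61710) (nat_lit 8388483) (nat_lit 0) (nat_lit 0),Row.mk (nat_lit 17640) (nat_lit 32912) (nat_lit 124) (nat_lit 61710) (nat_lit 8388483) (nat_lit 0) (nat_lit 0),Row.mk (nat_lit 17808) (nat_lit 32912) (nat_lit 124) (nat_lit 61710) (nat_lit 8388483) (nat_lit 0) (nat_lit 0),Row.mk (nat_lit 17976) (nat_lit 32912) (nat_lit 124) (nat_lit 61710) (nat_lit 8388483) (nat_lit 0) (nat_lit 0),Row.mk (nat_lit 18144) (nat_lit 32912) (nat_lit 124) (nat_lit 61710) (nat_lit 8388483) (nat_lit 0) (nat_lit 0),Row.mk (nat_lit 18312) (nat_lit 32912) (nat_lit 124) (nat_lit 61710) (nat_lit 8388483) (nat_lit 0) (nat_lit 0),Row.mk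 (nat_lit 18480) (nat_lit 32912) (nat_lit 124) (nat_lit 61710) (nat_lit 8388483) (nat_lit 0) (nat_lit 0),Row.mk (nat_lit 18648) (nat_lit 32912) (nat_lit 124) (nat_lit 61710) (nat_lit 8388483) (nat_lit 0) (nat_lit 0),Row.mk (nat_lit 18816) (nat_lit 32912) (nat_lit 124) (nat_lit 61710) (nat_lit 8388483) (nat_lit 0) (nat_lit 0),Row.mk (nat_lit 18984) (nat_lit 32912) (nat_lit 124) (nat_lit 61710) (nat_lit 8388483) (nat_lit 0) (nat_lit 0),Row.mk (nat_lit 19152) (nat_lit 32912) (nat_lit 124) (nat_lit 61710) (nat_lit 8388483) (nat_lit 0) (nat_lit 0),Row.mk (nat_lit 19320) (nat_lit 32912) (nat_lit 124) (nat_lit 61710) (nat_lit 8388483) (nat_lit 0) (nat_lit 0),Row.mk (nat_lit 19488) (nat_lit 32912) (nat_lit 124) (nat_lit 61710) (nat_lit 8388483) (nat_lit 0) (nat_lit 0),Row.mk (nat_lit 19656) (nat_lit 32912) (nat_lit 124) (nat_lit 61710) (nat_lit 8388483) (nat_lit 0) (nat_lit 0),Row.mk (nat_lit 19824) (nat_lit 32912) (nat_lit 124) (nat_lit 61710)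 (nat_lit 8388483) (nat_lit 0) (nat_lit 0),Row.mk (nat_lit 19992) (nat_lit 32912) (nat_lit 124) (nat_lit 61710) (nat_lit 8388483) (nat_lit 0) (nat_lit 0),Row.mk (nat_lit 20160) (nat_lit 32912) (nat_lit 124) (nat_lit 61710) (nat_lit 8388483) (nat_lit 0) (nat_lit 0),Row.mk (nat_lit 20328) (nat_lit 32912) (nat_lit 124) (nat_lit 61710) (nat_lit 8388483) (nat_lit 0) (nat_lit 0),Row.mk (nat_lit 20496) (nat_lit 32912) (nat_lit 124) (nat_lit 61710) (nat_lit 8388483) (nat_lit 0) (nat_lit 0),Row.mk (nat_lit 20664) (nat_lit 32912) (nat_lit 124) (nat_lit 61710) (nat_lit 8388483) (nat_lit 0) (nat_lit 0),Row.mk (nat_lit 20832) (nat_lit 32912) (nat_lit 124) (nat_lit 61710) (nat_lit 8388483) (nat_lit 0) (nat_lit 0),Row.mk (nat_lit 21000) (nat_lit 32912) (nat_lit 124) (nat_lit 61710) (nat_lit 8388483) (nat_lit 0) (nat_lit 0),Row.mk (nat_lit 21168) (nat_lit 32912) (nat_lit 124) (nat_lit 61710) (nat_lit 8388483) (nat_lit 0) (nat_lit 0),Row.mk (nat_lit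 21336) (nat_lit 32912) (nat_lit 124) (nat_lit 61710) (nat_lit 8388483) (nat_lit 0) (nat_lit 0),Row.mk (nat_lit 21504) (nat_lit 32912) (nat_lit 124) (nat_lit 61710) (nat_lit 8388483) (nat_lit 0) (nat_lit 0),Row.mk (nat_lit 21672) (nat_lit 32912) (nat_lit 124) (nat_lit 61710) (nat_lit 8388483) (nat_lit 0) (nat_lit 0),Row.mk (nat_lit 21840) (nat_lit 32912) (nat_lit 124) (nat_lit 61710) (nat_lit 8388483) (nat_lit 0) (nat_lit 0),Row.mk (nat_lit 22008) (nat_lit 32912) (nat_lit 124) (nat_lit 61710) (nat_lit 8388483) (nat_lit 0) (nat_lit 0),Row.mk (nat_lit 22176) (nat_lit 32912) (nat_lit 124) (nat_lit 61710) (nat_lit 8388483) (nat_lit 0) (nat_lit 0),Row.mk (nat_lit 22344) (nat_lit 32912) (nat_lit 124) (nat_lit 61710) (nat_lit 8388483) (nat_lit 0) (nat_lit 0),Row.mk (nat_lit 22512) (nat_lit 32912) (nat_lit 124) (nat_lit 61710) (nat_lit 8388483) (nat_lit 0) (nat_lit 0)],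
[Row.mk (nat_lit 15624) (nat_lit 32912) (nat_lit 155) (nat_lit 61710) (nat_lit 8388452) (nat_lit 0) (nat_lit 0),Row.mk (nat_lit 15792) (nat_lit 32912) (nat_lit 155) (nat_lit 61710) (nat_lit 8388452) (nat_lit 0) (nat_lit 0),Row.mk (nat_lit 15960) (nat_lit 32912) (nat_lit 155) (nat_lit 61710) (nat_lit 8388452) (nat_lit 0) (nat_lit 0),Row.mk (nat_lit 16128) (nat_lit 32912) (nat_lit 155) (nat_lit 61710) (nat_lit 8388452) (nat_lit 0) (nat_lit 0),Row.mk (nat_lit 16296) (nat_lit 32912) (nat_lit 155) (nat_lit 61710) (nat_lit 8388452) (nat_lit 0) (nat_lit 0),Row.mk (nat_lit 16464) (nat_lit 32912) (nat_lit 155) (nat_lit 61710) (nat_lit 8388452) (nat_lit 0) (nat_lit 0),Row.mk (nat_lit 16632) (nat_lit 32912) (nat_lit 155) (nat_lit 61710) (nat_lit 8388452) (nat_lit 0) (nat_lit 0),Row.mk (nat_lit 16800) (nat_lit 32912) (nat_lit 155) (nat_lit 61710) (nat_lit 8388452) (nat_lit 0) (nat_lit 0),Row.mk (nat_lit 16968) (nat_lit 32912) (nat_lit 155) (nat_lit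 61710) (nat_lit 8388452) (nat_lit 0) (nat_lit 0),Row.mk (nat_lit 17136) (nat_lit 32912) (nat_lit 155) (nat_lit 61710) (nat_lit 8388452) (nat_lit 0) (nat_lit 0),Row.mk (nat_lit 17304) (nat_lit 32912) (nat_lit 155) (nat_lit 61710) (nat_lit 8388452) (nat_lit 0) (nat_lit 0),Row.mk (nat_lit 17472) (nat_lit 32912) (nat_lit 155) (nat_lit 61710) (nat_lit 8388452) (nat_lit 0) (nat_lit 0),Row.mk (nat_lit 17640) (nat_lit 32912) (nat_lit 155) (nat_lit 61710) (nat_lit 8388452) (nat_lit 0) (nat_lit 0),Row.mk (nat_lit 17808) (nat_lit 32912) (nat_lit 155) (nat_lit 61710) (nat_lit 8388452) (nat_lit 0) (nat_lit 0),Row.mk (nat_lit 17976) (nat_lit 32912) (nat_lit 155) (nat_lit 61710) (nat_lit 8388452) (nat_lit 0) (nat_lit 0),Row.mk (nat_lit 18144) (nat_lit 32912) (nat_lit 155) (nat_lit 61710) (nat_lit 8388452) (nat_lit 0) (nat_lit 0),Row.mk (nat_lit 18312) (nat_lit 32912) (nat_lit 155) (nat_lit 61710) (nat_lit 8388452) (nat_lit 0) (nat_lit 0),Row.mk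 (nat_lit 18480) (nat_lit 32912) (nat_lit 155) (nat_lit 61710) (nat_lit 8388452) (nat_lit 0) (nat_lit 0),Row.mk (nat_lit 18648) (nat_lit 32912) (nat_lit 155) (nat_lit 61710) (nat_lit 8388452) (nat_lit 0) (nat_lit 0),Row.mk (nat_lit 18816) (nat_lit 32912) (nat_lit 155) (nat_lit 61710) (nat_lit 8388452) (nat_lit 0) (nat_lit 0),Row.mk (nat_lit 18984) (nat_lit 32912) (nat_lit 155) (nat_lit 61710) (nat_lit 8388452) (nat_lit 0) (nat_lit 0),Row.mk (nat_lit 19152) (nat_lit 32912) (nat_lit 155) (nat_lit 61710) (nat_lit 8388452) (nat_lit 0) (nat_lit 0),Row.mk (nat_lit 19320) (nat_lit 32912) (nat_lit 155) (nat_lit 61710) (nat_lit 8388452) (nat_lit 0) (nat_lit 0),Row.mk (nat_lit 19488) (nat_lit 32912) (nat_lit 155) (nat_lit 61710) (nat_lit 8388452) (nat_lit 0) (nat_lit 0),Row.mk (nat_lit 19656) (nat_lit 32912) (nat_lit 155) (nat_lit 61710) (nat_lit 8388452) (nat_lit 0) (nat_lit 0),Row.mk (nat_lit 19824) (nat_lit 32912) (nat_lit 155) (nat_lit 61710)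 (nat_lit 8388452) (nat_lit 0) (nat_lit 0),Row.mk (nat_lit 19992) (nat_lit 32912) (nat_lit 155) (nat_lit 61710) (nat_lit 8388452) (nat_lit 0) (nat_lit 0),Row.mk (nat_lit 20160) (nat_lit 32912) (nat_lit 155) (nat_lit 61710) (nat_lit 8388452) (nat_lit 0) (nat_lit 0),Row.mk (nat_lit 20328) (nat_lit 32912) (nat_lit 155) (nat_lit 61710) (nat_lit 8388452) (nat_lit 0) (nat_lit 0),Row.mk (nat_lit 20496) (nat_lit 32912) (nat_lit 155) (nat_lit 61710) (nat_lit 8388452) (nat_lit 0) (nat_lit 0),Row.mk (nat_lit 20664) (nat_lit 32912) (nat_lit 155) (nat_lit 61710) (nat_lit 8388452) (nat_lit 0) (nat_lit 0),Row.mk (nat_lit 20832) (nat_lit 32912) (nat_lit 155) (nat_lit 61710) (nat_lit 8388452) (nat_lit 0) (nat_lit 0),Row.mk (nat_lit 21000) (nat_lit 32912) (nat_lit 155) (nat_lit 61710) (nat_lit 8388452) (nat_lit 0) (nat_lit 0),Row.mk (nat_lit 21168) (nat_lit 32912) (nat_lit 155) (nat_lit 61710) (nat_lit 8388452) (nat_lit 0) (nat_lit 0),Row.mk (nat_lit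 21336) (nat_lit 32912) (nat_lit 155) (nat_lit 61710) (nat_lit 8388452) (nat_lit 0) (nat_lit 0),Row.mk (nat_lit 21504) (nat_lit 32912) (nat_lit 155) (nat_lit 61710) (nat_lit 8388452) (nat_lit 0) (nat_lit 0),Row.mk (nat_lit 21672) (nat_lit 32912) (nat_lit 155) (nat_lit 61710) (nat_lit 8388452) (nat_lit 0) (nat_lit 0),Row.mk (nat_lit 21840) (nat_lit 32912) (nat_lit 155) (nat_lit 61710) (nat_lit 8388452) (nat_lit 0) (nat_lit 0),Row.mk (nat_lit 22008) (nat_lit 32912) (nat_lit 155) (nat_lit 61710) (nat_lit 8388452) (nat_lit 0) (nat_lit 0),Row.mk (nat_lit 22176) (nat_lit 32912) (nat_lit 155) (nat_lit 61710) (nat_lit 8388452) (nat_lit 0) (nat_lit 0),Row.mk (nat_lit 22344) (nat_lit 32912) (nat_lit 155) (nat_lit 61710) (nat_lit 8388452) (nat_lit 0) (nat_lit 0),Row.mk (nat_lit 22512) (nat_lit 32912) (nat_lit 155) (nat_lit 61710) (nat_lit 8388452) (nat_lit 0) (nat_lit 0)],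
[Row.mk (nat_lit 15624) (nat_lit 32912) (nat_lit 194) (nat_lit 61710) (nat_lit 8388413) (nat_lit 0) (nat_lit 0),Row.mk (nat_lit 15792) (nat_lit 32912) (nat_lit 194) (nat_lit 61710) (nat_lit 8388413) (nat_lit 0) (nat_lit 0),Row.mk (nat_lit 15960) (nat_lit 32912) (nat_lit 194) (nat_lit 61710) (nat_lit 8388413) (nat_lit 0) (nat_lit 0),Row.mk (nat_lit 16128) (nat_lit 32912) (nat_lit 194) (nat_lit 61710) (nat_lit 8388413) (nat_lit 0) (nat_lit 0),Row.mk (nat_lit 16296) (nat_lit 32912) (nat_lit 194) (nat_lit 61710) (nat_lit 8388413) (nat_lit 0) (nat_lit 0),Row.mk (nat_lit 16464) (nat_lit 32912) (nat_lit 194) (nat_lit 61710) (nat_lit 8388413) (nat_lit 0) (nat_lit 0),Row.mk (nat_lit 16632) (nat_lit 32912) (nat_lit 194) (nat_lit 61710) (nat_lit 8388413) (nat_lit 0) (nat_lit 0),Row.mk (nat_lit 16800) (nat_lit 32912) (nat_lit 194) (nat_lit 61710) (nat_lit 8388413) (nat_lit 0) (nat_lit 0),Row.mk (nat_lit 16968) (nat_lit 32912) (nat_lit 194) (nat_lit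 61710) (nat_lit 8388413) (nat_lit 0) (nat_lit 0),Row.mk (nat_lit 17136) (nat_lit 32912) (nat_lit 194) (nat_lit 61710) (nat_lit 8388413) (nat_lit 0) (nat_lit 0),Row.mk (nat_lit 17304) (nat_lit 32912) (nat_lit 194) (nat_lit 61710) (nat_lit 8388413) (nat_lit 0) (nat_lit 0),Row.mk (nat_lit 17472) (nat_lit 32912) (nat_lit 194) (nat_lit 61710) (nat_lit 8388413) (nat_lit 0) (nat_lit 0),Row.mk (nat_lit 17640) (nat_lit 32912) (nat_lit 194) (nat_lit 61710) (nat_lit 8388413) (nat_lit 0) (nat_lit 0),Row.mk (nat_lit 17808) (nat_lit 32912) (nat_lit 194) (nat_lit 61710) (nat_lit 8388413) (nat_lit 0) (nat_lit 0),Row.mk (nat_lit 17976) (nat_lit 32912) (nat_lit 194) (nat_lit 61710) (nat_lit 8388413) (nat_lit 0) (nat_lit 0),Row.mk (nat_lit 18144) (nat_lit 32912) (nat_lit 194) (nat_lit 61710) (nat_lit 8388413) (nat_lit 0) (nat_lit 0),Row.mk (nat_lit 18312) (nat_lit 32912) (nat_lit 194) (nat_lit 61710) (nat_lit 8388413) (nat_lit 0) (nat_lit 0),Row.mk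 (nat_lit 18480) (nat_lit 32912) (nat_lit 194) (nat_lit 61710) (nat_lit 8388413) (nat_lit 0) (nat_lit 0),Row.mk (nat_lit 18648) (nat_lit 32912) (nat_lit 194) (nat_lit 61710) (nat_lit 8388413) (nat_lit 0) (nat_lit 0),Row.mk (nat_lit 18816) (nat_lit 32912) (nat_lit 194) (nat_lit 61710) (nat_lit 8388413) (nat_lit 0) (nat_lit 0),Row.mk (nat_lit 18984) (nat_lit 32912) (nat_lit 194) (nat_lit 61710) (nat_lit 8388413) (nat_lit 0) (nat_lit 0),Row.mk (nat_lit 19152) (nat_lit 32912) (nat_lit 194) (nat_lit 61710) (nat_lit 8388413) (nat_lit 0) (nat_lit 0),Row.mk (nat_lit 19320) (nat_lit 32912) (nat_lit 194) (nat_lit 61710) (nat_lit 8388413) (nat_lit 0) (nat_lit 0),Row.mk (nat_lit 19488) (nat_lit 32912) (nat_lit 194) (nat_lit 61710) (nat_lit 8388413) (nat_lit 0) (nat_lit 0),Row.mk (nat_lit 19656) (nat_lit 32912) (nat_lit 194) (nat_lit 61710) (nat_lit 8388413) (nat_lit 0) (nat_lit 0),Row.mk (nat_lit 19824) (nat_lit 32912) (nat_lit 194) (nat_lit 61710)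 (nat_lit 8388413) (nat_lit 0) (nat_lit 0),Row.mk (nat_lit 19992) (nat_lit 32912) (nat_lit 194) (nat_lit 61710) (nat_lit 8388413) (nat_lit 0) (nat_lit 0),Row.mk (nat_lit 20160) (nat_lit 32912) (nat_lit 194) (nat_lit 61710) (nat_lit 8388413) (nat_lit 0) (nat_lit 0),Row.mk (nat_lit 20328) (nat_lit 32912) (nat_lit 194) (nat_lit 61710) (nat_lit 8388413) (nat_lit 0) (nat_lit 0),Row.mk (nat_lit 20496) (nat_lit 32912) (nat_lit 194) (nat_lit 61710) (nat_lit 8388413) (nat_lit 0) (nat_lit 0),Row.mk (nat_lit 20664) (nat_lit 32912) (nat_lit 194) (nat_lit 61710) (nat_lit 8388413) (nat_lit 0) (nat_lit 0),Row.mk (nat_lit 20832) (nat_lit 32912) (nat_lit 194) (nat_lit 61710) (nat_lit 8388413) (nat_lit 0) (nat_lit 0),Row.mk (nat_lit 21000) (nat_lit 32912) (nat_lit 194) (nat_lit 61710) (nat_lit 8388413) (nat_lit 0) (nat_lit 0),Row.mk (nat_lit 21168) (nat_lit 32912) (nat_lit 194) (nat_lit 61710) (nat_lit 8388413) (nat_lit 0) (nat_lit 0),Row.mk (nat_lit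 21336) (nat_lit 32912) (nat_lit 194) (nat_lit 61710) (nat_lit 8388413) (nat_lit 0) (nat_lit 0),Row.mk (nat_lit 21504) (nat_lit 32912) (nat_lit 194) (nat_lit 61710) (nat_lit 8388413) (nat_lit 0) (nat_lit 0),Row.mk (nat_lit 21672) (nat_lit 32912) (nat_lit 194) (nat_lit 61710) (nat_lit 8388413) (nat_lit 0) (nat_lit 0),Row.mk (nat_lit 21840) (nat_lit 32912) (nat_lit 194) (nat_lit 61710) (nat_lit 8388413) (nat_lit 0) (nat_lit 0),Row.mk (nat_lit 22008) (nat_lit 32912) (nat_lit 194) (nat_lit 61710) (nat_lit 8388413) (nat_lit 0) (nat_lit 0),Row.mk (nat_lit 22176) (nat_lit 32912) (nat_lit 194) (nat_lit 61710) (nat_lit 8388413) (nat_lit 0) (nat_lit 0),Row.mk (nat_lit 22344) (nat_lit 32912) (nat_lit 194) (nat_lit 61710) (nat_lit 8388413) (nat_lit 0) (nat_lit 0),Row.mk (nat_lit 22512) (nat_lit 32912) (nat_lit 194) (nat_lit 61710) (nat_lit 8388413) (nat_lit 0) (nat_lit 0),Row.mk (nat_lit 22680) (nat_lit 32912) (nat_lit 194) (nat_lit 61710) (nat_lit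 8388413) (nat_lit 0) (nat_lit 0)],
[Row.mk (nat_lit 15624) (nat_lit 32912) (nat_lit 243) (nat_lit 61710) (nat_lit 8388364) (nat_lit 0) (nat_lit 0),Row.mk (nat_lit 15792) (nat_lit 32912) (nat_lit 243) (nat_lit 61710) (nat_lit 8388364) (nat_lit 0) (nat_lit 0),Row.mk (nat_lit 15960) (nat_lit 32912) (nat_lit 243) (nat_lit 61710) (nat_lit 8388364) (nat_lit 0) (nat_lit 0),Row.mk (nat_lit 16128) (nat_lit 32912) (nat_lit 243) (nat_lit 61710) (nat_lit 8388364) (nat_lit 0) (nat_lit 0),Row.mk (nat_lit 16296) (nat_lit 32912) (nat_lit 243) (nat_lit 61710) (nat_lit 8388364) (nat_lit 0) (nat_lit 0),Row.mk (nat_lit 16464) (nat_lit 32912) (nat_lit 243) (nat_lit 61710) (nat_lit 8388364) (nat_lit 0) (nat_lit 0),Row.mk (nat_lit 16632) (nat_lit 32912) (nat_lit 243) (nat_lit 61710) (nat_lit 8388364) (nat_lit 0) (nat_lit 0),Row.mk (nat_lit 16800) (nat_lit 32912) (nat_lit 243) (nat_lit 61710) (nat_lit 8388364) (nat_lit 0) (nat_lit 0),Row.mk (nat_lit 16968)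 (nat_lit 32912) (nat_lit 243) (nat_lit 61710) (nat_lit 8388364) (nat_lit 0) (nat_lit 0),Row.mk (nat_lit 17136) (nat_lit 32912) (nat_lit 243) (nat_lit 61710) (nat_lit 8388364) (nat_lit 0) (nat_lit 0),Row.mk (nat_lit 17304) (nat_lit 32912) (nat_lit 243) (nat_lit 61710) (nat_lit 8388364) (nat_lit 0) (nat_lit 0),Row.mk (nat_lit 17472) (nat_lit 32912) (nat_lit 243) (nat_lit 61710) (nat_lit 8388364) (nat_lit 0) (nat_lit 0),Row.mk (nat_lit 17640) (nat_lit 32912) (nat_lit 243) (nat_lit 61710) (nat_lit 8388364) (nat_lit 0) (nat_lit 0),Row.mk (nat_lit 17808) (nat_lit 32912) (nat_lit 243) (nat_lit 61710) (nat_lit 8388364) (nat_lit 0) (nat_lit 0),Row.mk (nat_lit 17976) (nat_lit 32912) (nat_lit 243) (nat_lit 61710) (nat_lit 8388364) (nat_lit 0) (nat_lit 0),Row.mk (nat_lit 18144) (nat_lit 32912) (nat_lit 243) (nat_lit 61710) (nat_lit 8388364) (nat_lit 0) (nat_lit 0),Row.mk (nat_lit 18312) (nat_lit 32912) (nat_lit 243) (nat_lit 61710) (nat_lit 8388364)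 (nat_lit 0) (nat_lit 0),Row.mk (nat_lit 18480) (nat_lit 32912) (nat_lit 243) (nat_lit 61710) (nat_lit 8388364) (nat_lit 0) (nat_lit 0),Row.mk (nat_lit 18648) (nat_lit 32912) (nat_lit 243) (nat_lit 61710) (nat_lit 8388364) (nat_lit 0) (nat_lit 0),Row.mk (nat_lit 18816) (nat_lit 32912) (nat_lit 243) (nat_lit 61710) (nat_lit 8388364) (nat_lit 0) (nat_lit 0),Row.mk (nat_lit 18984) (nat_lit 32912) (nat_lit 243) (nat_lit 61710) (nat_lit 8388364) (nat_lit 0) (nat_lit 0),Row.mk (nat_lit 19152) (nat_lit 32912) (nat_lit 243) (nat_lit 61710) (nat_lit 8388364) (nat_lit 0) (nat_lit 0),Row.mk (nat_lit 19320) (nat_lit 32912) (nat_lit 243) (nat_lit 61710) (nat_lit 8388364) (nat_lit 0) (nat_lit 0),Row.mk (nat_lit 19488) (nat_lit 32912) (nat_lit 243) (nat_lit 61710) (nat_lit 8388364) (nat_lit 0) (nat_lit 0),Row.mk (nat_lit 19656) (nat_lit 32912) (nat_lit 243) (nat_lit 61710) (nat_lit 8388364) (nat_lit 0) (nat_lit 0),Row.mk (nat_lit 19824) (nat_lit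 32912) (nat_lit 243) (nat_lit 61710) (nat_lit 8388364) (nat_lit 0) (nat_lit 0),Row.mk (nat_lit 19992) (nat_lit 32912) (nat_lit 243) (nat_lit 61710) (nat_lit 8388364) (nat_lit 0) (nat_lit 0),Row.mk (nat_lit 20160) (nat_lit 32912) (nat_lit 243) (nat_lit 61710) (nat_lit 8388364) (nat_lit 0) (nat_lit 0),Row.mk (nat_lit 20328) (nat_lit 32912) (nat_lit 243) (nat_lit 61710) (nat_lit 8388364) (nat_lit 0) (nat_lit 0),Row.mk (nat_lit 20496) (nat_lit 32912) (nat_lit 243) (nat_lit 61710) (nat_lit 8388364) (nat_lit 0) (nat_lit 0),Row.mk (nat_lit 20664) (nat_lit 32912) (nat_lit 243) (nat_lit 61710) (nat_lit 8388364) (nat_lit 0) (nat_lit 0),Row.mk (nat_lit 20832) (nat_lit 32912) (nat_lit 243) (nat_lit 61710) (nat_lit 8388364) (nat_lit 0) (nat_lit 0),Row.mk (nat_lit 21000) (nat_lit 32912) (nat_lit 243) (nat_lit 61710) (nat_lit 8388364) (nat_lit 0) (nat_lit 0),Row.mk (nat_lit 21168) (nat_lit 32912) (nat_lit 243) (nat_lit 61710) (nat_lit 8388364) (nat_lit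 0) (nat_lit 0),Row.mk (nat_lit 21336) (nat_lit 32912) (nat_lit 243) (nat_lit 61710) (nat_lit 8388364) (nat_lit 0) (nat_lit 0),Row.mk (nat_lit 21504) (nat_lit 32912) (nat_lit 243) (nat_lit 61710) (nat_lit 8388364) (nat_lit 0) (nat_lit 0),Row.mk (nat_lit 21672) (nat_lit 32912) (nat_lit 243) (nat_lit 61710) (nat_lit 8388364) (nat_lit 0) (nat_lit 0),Row.mk (nat_lit 21840) (nat_lit 32912) (nat_lit 243) (nat_lit 61710) (nat_lit 8388364) (nat_lit 0) (nat_lit 0),Row.mk (nat_lit 22008) (nat_lit 32912) (nat_lit 243) (nat_lit 61710) (nat_lit 8388364) (nat_lit 0) (nat_lit 0),Row.mk (nat_lit 22176) (nat_lit 32912) (nat_lit 243) (nat_lit 61710) (nat_lit 8388364) (nat_lit 0) (nat_lit 0),Row.mk (nat_lit 22344) (nat_lit 32912) (nat_lit 243) (nat_lit 61710) (nat_lit 8388364) (nat_lit 0) (nat_lit 0),Row.mk (nat_lit 22512) (nat_lit 32912) (nat_lit 243) (nat_lit 61710) (nat_lit 8388364) (nat_lit 0) (nat_lit 0),Row.mk (nat_lit 22680) (nat_lit 32912) (nat_lit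 243) (nat_lit 61710) (nat_lit 8388364) (nat_lit 0) (nat_lit 0),Row.mk (nat_lit 22848) (nat_lit 32912) (nat_lit 243) (nat_lit 61710) (nat_lit 8388364) (nat_lit 0) (nat_lit 0)],
[Row.mk (nat_lit 15624) (nat_lit 32912) (nat_lit 303) (nat_lit 61710) (nat_lit 8388304) (nat_lit 0) (nat_lit 0),Row.mk (nat_lit 15792) (nat_lit 32912) (nat_lit 303) (nat_lit 61710) (nat_lit 8388304) (nat_lit 0) (nat_lit 0),Row.mk (nat_lit 15960) (nat_lit 32912) (nat_lit 303) (nat_lit 61710) (nat_lit 8388304) (nat_lit 0) (nat_lit 0),Row.mk (nat_lit 16128) (nat_lit 32912) (nat_lit 303) (nat_lit 61710) (nat_lit 8388304) (nat_lit 0) (nat_lit 0),Row.mk (nat_lit 16296) (nat_lit 32912) (nat_lit 303) (nat_lit 61710) (nat_lit 8388304) (nat_lit 0) (nat_lit 0),Row.mk (nat_lit 16464) (nat_lit 32912) (nat_lit 303) (nat_lit 61710) (nat_lit 8388304) (nat_lit 0) (nat_lit 0),Row.mk (nat_lit 16632) (nat_lit 32912) (nat_lit 303) (nat_lit 61710) (nat_lit 8388304) (nat_lit 0) (nat_lit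 0),Row.mk (nat_lit 16800) (nat_lit 32912) (nat_lit 303) (nat_lit 61710) (nat_lit 8388304) (nat_lit 0) (nat_lit 0),Row.mk (nat_lit 16968) (nat_lit 32912) (nat_lit 303) (nat_lit 61710) (nat_lit 8388304) (nat_lit 0) (nat_lit 0),Row.mk (nat_lit 17136) (nat_lit 32912) (nat_lit 303) (nat_lit 61710) (nat_lit 8388304) (nat_lit 0) (nat_lit 0),Row.mk (nat_lit 17304) (nat_lit 32912) (nat_lit 303) (nat_lit 61710) (nat_lit 8388304) (nat_lit 0) (nat_lit 0),Row.mk (nat_lit 17472) (nat_lit 32912) (nat_lit 303) (nat_lit 61710) (nat_lit 8388304) (nat_lit 0) (nat_lit 0),Row.mk (nat_lit 17640) (nat_lit 32912) (nat_lit 303) (nat_lit 61710) (nat_lit 8388304) (nat_lit 0) (nat_lit 0),Row.mk (nat_lit 17808) (nat_lit 32912) (nat_lit 303) (nat_lit 61710) (nat_lit 8388304) (nat_lit 0) (nat_lit 0),Row.mk (nat_lit 17976) (nat_lit 32912) (nat_lit 303) (nat_lit 61710) (nat_lit 8388304) (nat_lit 0) (nat_lit 0),Row.mk (nat_lit 18144) (nat_lit 32912) (nat_lit 303)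 (nat_lit 61710) (nat_lit 8388304) (nat_lit 0) (nat_lit 0),Row.mk (nat_lit 18312) (nat_lit 32912) (nat_lit 303) (nat_lit 61710) (nat_lit 8388304) (nat_lit 0) (nat_lit 0),Row.mk (nat_lit 18480) (nat_lit 32912) (nat_lit 303) (nat_lit 61710) (nat_lit 8388304) (nat_lit 0) (nat_lit 0),Row.mk (nat_lit 18648) (nat_lit 32912) (nat_lit 303) (nat_lit 61710) (nat_lit 8388304) (nat_lit 0) (nat_lit 0),Row.mk (nat_lit 18816) (nat_lit 32912) (nat_lit 303) (nat_lit 61710) (nat_lit 8388304) (nat_lit 0) (nat_lit 0),Row.mk (nat_lit 18984) (nat_lit 32912) (nat_lit 303) (nat_lit 61710) (nat_lit 8388304) (nat_lit 0) (nat_lit 0),Row.mk (nat_lit 19152) (nat_lit 32912) (nat_lit 303) (nat_lit 61710) (nat_lit 8388304) (nat_lit 0) (nat_lit 0),Row.mk (nat_lit 19320) (nat_lit 32912) (nat_lit 303) (nat_lit 61710) (nat_lit 8388304) (nat_lit 0) (nat_lit 0),Row.mk (nat_lit 19488) (nat_lit 32912) (nat_lit 303) (nat_lit 61710) (nat_lit 8388304) (nat_lit 0) (nat_lit 0),Row.mk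 (nat_lit 19656) (nat_lit 32912) (nat_lit 303) (nat_lit 61710) (nat_lit 8388304) (nat_lit 0) (nat_lit 0),Row.mk (nat_lit 19824) (nat_lit 32912) (nat_lit 303) (nat_lit 61710) (nat_lit 8388304) (nat_lit 0) (nat_lit 0),Row.mk (nat_lit 19992) (nat_lit 32912) (nat_lit 303) (nat_lit 61710) (nat_lit 8388304) (nat_lit 0) (nat_lit 0),Row.mk (nat_lit 20160) (nat_lit 32912) (nat_lit 303) (nat_lit 61710) (nat_lit 8388304) (nat_lit 0) (nat_lit 0),Row.mk (nat_lit 20328) (nat_lit 32912) (nat_lit 303) (nat_lit 61710) (nat_lit 8388304) (nat_lit 0) (nat_lit 0),Row.mk (nat_lit 20496) (nat_lit 32912) (nat_lit 303) (nat_lit 61710) (nat_lit 8388304) (nat_lit 0) (nat_lit 0),Row.mk (nat_lit 20664) (nat_lit 32912) (nat_lit 303) (nat_lit 61710) (nat_lit 8388304) (nat_lit 0) (nat_lit 0),Row.mk (nat_lit 20832) (nat_lit 32912) (nat_lit 303) (nat_lit 61710) (nat_lit 8388304) (nat_lit 0) (nat_lit 0),Row.mk (nat_lit 21000) (nat_lit 32912) (nat_lit 303) (nat_lit 61710)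 (nat_lit 8388304) (nat_lit 0) (nat_lit 0),Row.mk (nat_lit 21168) (nat_lit 32912) (nat_lit 303) (nat_lit 61710) (nat_lit 8388304) (nat_lit 0) (nat_lit 0),Row.mk (nat_lit 21336) (nat_lit 32912) (nat_lit 303) (nat_lit 61710) (nat_lit 8388304) (nat_lit 0) (nat_lit 0),Row.mk (nat_lit 21504) (nat_lit 32912) (nat_lit 303) (nat_lit 61710) (nat_lit 8388304) (nat_lit 0) (nat_lit 0),Row.mk (nat_lit 21672) (nat_lit 32912) (nat_lit 303) (nat_lit 61710) (nat_lit 8388304) (nat_lit 0) (nat_lit 0),Row.mk (nat_lit 21840) (nat_lit 32912) (nat_lit 303) (nat_lit 61710) (nat_lit 8388304) (nat_lit 0) (nat_lit 0),Row.mk (nat_lit 22008) (nat_lit 32912) (nat_lit 303) (nat_lit 61710) (nat_lit 8388304) (nat_lit 0) (nat_lit 0),Row.mk (nat_lit 22176) (nat_lit 32912) (nat_lit 303) (nat_lit 61710) (nat_lit 8388304) (nat_lit 0) (nat_lit 0),Row.mk (nat_lit 22344) (nat_lit 32912) (nat_lit 303) (nat_lit 61710) (nat_lit 8388304) (nat_lit 0) (nat_lit 0),Row.mk (nat_lit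 22512) (nat_lit 32912) (nat_lit 303) (nat_lit 61710) (nat_lit 8388304) (nat_lit 0) (nat_lit 0),Row.mk (nat_lit 22680) (nat_lit 32912) (nat_lit 303) (nat_lit 61710) (nat_lit 8388304) (nat_lit 0) (nat_lit 0),Row.mk (nat_lit 22848) (nat_lit 32912) (nat_lit 303) (nat_lit 61710) (nat_lit 8388304) (nat_lit 0) (nat_lit 0),Row.mk (nat_lit 23016) (nat_lit 32912) (nat_lit 303) (nat_lit 61710) (nat_lit 8388304) (nat_lit 0) (nat_lit 0)],
[Row.mk (nat_lit 15624) (nat_lit 32912) (nat_lit 379) (nat_lit 61710) (nat_lit 8388228) (nat_lit 0) (nat_lit 0),Row.mk (nat_lit 15792) (nat_lit 32912) (nat_lit 379) (nat_lit 61710) (nat_lit 8388228) (nat_lit 0) (nat_lit 0),Row.mk (nat_lit 15960) (nat_lit 32912) (nat_lit 379) (nat_lit 61710) (nat_lit 8388228) (nat_lit 0) (nat_lit 0),Row.mk (nat_lit 16128) (nat_lit 32912) (nat_lit 379) (nat_lit 61710) (nat_lit 8388228) (nat_lit 0) (nat_lit 0),Row.mk (nat_lit 16296) (nat_lit 32912) (nat_lit 379) (nat_lit 61710)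 (nat_lit 8388228) (nat_lit 0) (nat_lit 0),Row.mk (nat_lit 16464) (nat_lit 32912) (nat_lit 379) (nat_lit 61710) (nat_lit 8388228) (nat_lit 0) (nat_lit 0),Row.mk (nat_lit 16632) (nat_lit 32912) (nat_lit 379) (nat_lit 61710) (nat_lit 8388228) (nat_lit 0) (nat_lit 0),Row.mk (nat_lit 16800) (nat_lit 32912) (nat_lit 379) (nat_lit 61710) (nat_lit 8388228) (nat_lit 0) (nat_lit 0),Row.mk (nat_lit 16968) (nat_lit 32912) (nat_lit 379) (nat_lit 61710) (nat_lit 8388228) (nat_lit 0) (nat_lit 0),Row.mk (nat_lit 17136) (nat_lit 32912) (nat_lit 379) (nat_lit 61710) (nat_lit 8388228) (nat_lit 0) (nat_lit 0),Row.mk (nat_lit 17304) (nat_lit 32912) (nat_lit 379) (nat_lit 61710) (nat_lit 8388228) (nat_lit 0) (nat_lit 0),Row.mk (nat_lit 17472) (nat_lit 32912) (nat_lit 379) (nat_lit 61710) (nat_lit 8388228) (nat_lit 0) (nat_lit 0),Row.mk (nat_lit 17640) (nat_lit 32912) (nat_lit 379) (nat_lit 61710) (nat_lit 8388228) (nat_lit 0) (nat_lit 0),Row.mk (nat_lit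 17808) (nat_lit 32912) (nat_lit 379) (nat_lit 61710) (nat_lit 8388228) (nat_lit 0) (nat_lit 0),Row.mk (nat_lit 17976) (nat_lit 32912) (nat_lit 379) (nat_lit 61710) (nat_lit 8388228) (nat_lit 0) (nat_lit 0),Row.mk (nat_lit 18144) (nat_lit 32912) (nat_lit 379) (nat_lit 61710) (nat_lit 8388228) (nat_lit 0) (nat_lit 0),Row.mk (nat_lit 18312) (nat_lit 32912) (nat_lit 379) (nat_lit 61710) (nat_lit 8388228) (nat_lit 0) (nat_lit 0),Row.mk (nat_lit 18480) (nat_lit 32912) (nat_lit 379) (nat_lit 61710) (nat_lit 8388228) (nat_lit 0) (nat_lit 0),Row.mk (nat_lit 18648) (nat_lit 32912) (nat_lit 379) (nat_lit 61710) (nat_lit 8388228) (nat_lit 0) (nat_lit 0),Row.mk (nat_lit 18816) (nat_lit 32912) (nat_lit 379) (nat_lit 61710) (nat_lit 8388228) (nat_lit 0) (nat_lit 0),Row.mk (nat_lit 18984) (nat_lit 32912) (nat_lit 379) (nat_lit 61710) (nat_lit 8388228) (nat_lit 0) (nat_lit 0),Row.mk (nat_lit 19152) (nat_lit 32912) (nat_lit 379) (nat_lit 61710) (nat_lit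 8388228) (nat_lit 0) (nat_lit 0),Row.mk (nat_lit 19320) (nat_lit 32912) (nat_lit 379) (nat_lit 61710) (nat_lit 8388228) (nat_lit 0) (nat_lit 0),Row.mk (nat_lit 19488) (nat_lit 32912) (nat_lit 379) (nat_lit 61710) (nat_lit 8388228) (nat_lit 0) (nat_lit 0),Row.mk (nat_lit 19656) (nat_lit 32912) (nat_lit 379) (nat_lit 61710) (nat_lit 8388228) (nat_lit 0) (nat_lit 0),Row.mk (nat_lit 19824) (nat_lit 32912) (nat_lit 379) (nat_lit 61710) (nat_lit 8388228) (nat_lit 0) (nat_lit 0),Row.mk (nat_lit 19992) (nat_lit 32912) (nat_lit 379) (nat_lit 61710) (nat_lit 8388228) (nat_lit 0) (nat_lit 0),Row.mk (nat_lit 20160) (nat_lit 32912) (nat_lit 379) (nat_lit 61710) (nat_lit 8388228) (nat_lit 0) (nat_lit 0),Row.mk (nat_lit 20328) (nat_lit 32912) (nat_lit 379) (nat_lit 61710) (nat_lit 8388228) (nat_lit 0) (nat_lit 0),Row.mk (nat_lit 20496) (nat_lit 32912) (nat_lit 379) (nat_lit 61710) (nat_lit 8388228) (nat_lit 0) (nat_lit 0),Row.mk (nat_lit 20664)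 (nat_lit 32912) (nat_lit 379) (nat_lit 61710) (nat_lit 8388228) (nat_lit 0) (nat_lit 0),Row.mk (nat_lit 20832) (nat_lit 32912) (nat_lit 379) (nat_lit 61710) (nat_lit 8388228) (nat_lit 0) (nat_lit 0),Row.mk (nat_lit 21000) (nat_lit 32912) (nat_lit 379) (nat_lit 61710) (nat_lit 8388228) (nat_lit 0) (nat_lit 0),Row.mk (nat_lit 21168) (nat_lit 32912) (nat_lit 379) (nat_lit 61710) (nat_lit 8388228) (nat_lit 0) (nat_lit 0),Row.mk (nat_lit 21336) (nat_lit 32912) (nat_lit 379) (nat_lit 61710) (nat_lit 8388228) (nat_lit 0) (nat_lit 0),Row.mk (nat_lit 21504) (nat_lit 32912) (nat_lit 379) (nat_lit 61710) (nat_lit 8388228) (nat_lit 0) (nat_lit 0),Row.mk (nat_lit 21672) (nat_lit 32912) (nat_lit 379) (nat_lit 61710) (nat_lit 8388228) (nat_lit 0) (nat_lit 0),Row.mk (nat_lit 21840) (nat_lit 32912) (nat_lit 379) (nat_lit 61710) (nat_lit 8388228) (nat_lit 0) (nat_lit 0),Row.mk (nat_lit 22008) (nat_lit 32912) (nat_lit 379) (nat_lit 61710) (nat_lit 8388228)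 (nat_lit 0) (nat_lit 0),Row.mk (nat_lit 22176) (nat_lit 32912) (nat_lit 379) (nat_lit 61710) (nat_lit 8388228) (nat_lit 0) (nat_lit 0),Row.mk (nat_lit 22344) (nat_lit 32912) (nat_lit 379) (nat_lit 61710) (nat_lit 8388228) (nat_lit 0) (nat_lit 0),Row.mk (nat_lit 22512) (nat_lit 32912) (nat_lit 379) (nat_lit 61710) (nat_lit 8388228) (nat_lit 0) (nat_lit 0),Row.mk (nat_lit 22680) (nat_lit 32912) (nat_lit 379) (nat_lit 61710) (nat_lit 8388228) (nat_lit 0) (nat_lit 0),Row.mk (nat_lit 22848) (nat_lit 32912) (nat_lit 379) (nat_lit 61710) (nat_lit 8388228) (nat_lit 0) (nat_lit 0),Row.mk (nat_lit 23016) (nat_lit 32912) (nat_lit 379) (nat_lit 61710) (nat_lit 8388228) (nat_lit 0) (nat_lit 0)],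
[Row.mk (nat_lit 15624) (nat_lit 32912) (nat_lit 473) (nat_lit 61710) (nat_lit 8388134) (nat_lit 0) (nat_lit 0),Row.mk (nat_lit 15792) (nat_lit 32912) (nat_lit 473) (nat_lit 61710) (nat_lit 8388134) (nat_lit 0) (nat_lit 0),Row.mk (nat_lit 15960) (nat_lit 32912) (nat_lit 473) (nat_lit 61710) (nat_lit 8388134) (nat_lit 0) (nat_lit 0),Row.mk (nat_lit 16128) (nat_lit 32912) (nat_lit 473) (nat_lit 61710) (nat_lit 8388134) (nat_lit 0) (nat_lit 0),Row.mk (nat_lit 16296) (nat_lit 32912) (nat_lit 473) (nat_lit 61710) (nat_lit 8388134) (nat_lit 0) (nat_lit 0),Row.mk (nat_lit 16464) (nat_lit 32912) (nat_lit 473) (nat_lit 61710) (nat_lit 8388134) (nat_lit 0) (nat_lit 0),Row.mk (nat_lit 16632) (nat_lit 32912) (nat_lit 473) (nat_lit 61710) (nat_lit 8388134) (nat_lit 0) (nat_lit 0),Row.mk (nat_lit 16800) (nat_lit 32912) (nat_lit 473) (nat_lit 61710) (nat_lit 8388134) (nat_lit 0) (nat_lit 0),Row.mk (nat_lit 16968) (nat_lit 32912) (nat_lit 473) (nat_lit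 61710) (nat_lit 8388134) (nat_lit 0) (nat_lit 0),Row.mk (nat_lit 17136) (nat_lit 32912) (nat_lit 473) (nat_lit 61710) (nat_lit 8388134) (nat_lit 0) (nat_lit 0),Row.mk (nat_lit 17304) (nat_lit 32912) (nat_lit 473) (nat_lit 61710) (nat_lit 8388134) (nat_lit 0) (nat_lit 0),Row.mk (nat_lit 17472) (nat_lit 32912) (nat_lit 473) (nat_lit 61710) (nat_lit 8388134) (nat_lit 0) (nat_lit 0),Row.mk (nat_lit 17640) (nat_lit 32912) (nat_lit 473) (nat_lit 61710) (nat_lit 8388134) (nat_lit 0) (nat_lit 0),Row.mk (nat_lit 17808) (nat_lit 32912) (nat_lit 473) (nat_lit 61710) (nat_lit 8388134) (nat_lit 0) (nat_lit 0),Row.mk (nat_lit 17976) (nat_lit 32912) (nat_lit 473) (nat_lit 61710) (nat_lit 8388134) (nat_lit 0) (nat_lit 0),Row.mk (nat_lit 18144) (nat_lit 32912) (nat_lit 473) (nat_lit 61710) (nat_lit 8388134) (nat_lit 0) (nat_lit 0),Row.mk (nat_lit 18312) (nat_lit 32912) (nat_lit 473) (nat_lit 61710) (nat_lit 8388134) (nat_lit 0) (nat_lit 0),Row.mk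 (nat_lit 18480) (nat_lit 32912) (nat_lit 473) (nat_lit 61710) (nat_lit 8388134) (nat_lit 0) (nat_lit 0),Row.mk (nat_lit 18648) (nat_lit 32912) (nat_lit 473) (nat_lit 61710) (nat_lit 8388134) (nat_lit 0) (nat_lit 0),Row.mk (nat_lit 18816) (nat_lit 32912) (nat_lit 473) (nat_lit 61710) (nat_lit 8388134) (nat_lit 0) (nat_lit 0),Row.mk (nat_lit 18984) (nat_lit 32912) (nat_lit 473) (nat_lit 61710) (nat_lit 8388134) (nat_lit 0) (nat_lit 0),Row.mk (nat_lit 19152) (nat_lit 32912) (nat_lit 473) (nat_lit 61710) (nat_lit 8388134) (nat_lit 0) (nat_lit 0),Row.mk (nat_lit 19320) (nat_lit 32912) (nat_lit 473) (nat_lit 61710) (nat_lit 8388134) (nat_lit 0) (nat_lit 0),Row.mk (nat_lit 19488) (nat_lit 32912) (nat_lit 473) (nat_lit 61710) (nat_lit 8388134) (nat_lit 0) (nat_lit 0),Row.mk (nat_lit 19656) (nat_lit 32912) (nat_lit 473) (nat_lit 61710) (nat_lit 8388134) (nat_lit 0) (nat_lit 0),Row.mk (nat_lit 19824) (nat_lit 32912) (nat_lit 473) (nat_lit 61710)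 (nat_lit 8388134) (nat_lit 0) (nat_lit 0),Row.mk (nat_lit 19992) (nat_lit 32912) (nat_lit 473) (nat_lit 61710) (nat_lit 8388134) (nat_lit 0) (nat_lit 0),Row.mk (nat_lit 20160) (nat_lit 32912) (nat_lit 473) (nat_lit 61710) (nat_lit 8388134) (nat_lit 0) (nat_lit 0),Row.mk (nat_lit 20328) (nat_lit 32912) (nat_lit 473) (nat_lit 61710) (nat_lit 8388134) (nat_lit 0) (nat_lit 0),Row.mk (nat_lit 20496) (nat_lit 32912) (nat_lit 473) (nat_lit 61710) (nat_lit 8388134) (nat_lit 0) (nat_lit 0),Row.mk (nat_lit 20664) (nat_lit 32912) (nat_lit 473) (nat_lit 61710) (nat_lit 8388134) (nat_lit 0) (nat_lit 0),Row.mk (nat_lit 20832) (nat_lit 32912) (nat_lit 473) (nat_lit 61710) (nat_lit 8388134) (nat_lit 0) (nat_lit 0),Row.mk (nat_lit 21000) (nat_lit 32912) (nat_lit 473) (nat_lit 61710) (nat_lit 8388134) (nat_lit 0) (nat_lit 0),Row.mk (nat_lit 21168) (nat_lit 32912) (nat_lit 473) (nat_lit 61710) (nat_lit 8388134) (nat_lit 0) (nat_lit 0),Row.mk (nat_lit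 21336) (nat_lit 32912) (nat_lit 473) (nat_lit 61710) (nat_lit 8388134) (nat_lit 0) (nat_lit 0),Row.mk (nat_lit 21504) (nat_lit 32912) (nat_lit 473) (nat_lit 61710) (nat_lit 8388134) (nat_lit 0) (nat_lit 0),Row.mk (nat_lit 21672) (nat_lit 32912) (nat_lit 473) (nat_lit 61710) (nat_lit 8388134) (nat_lit 0) (nat_lit 0),Row.mk (nat_lit 21840) (nat_lit 32912) (nat_lit 473) (nat_lit 61710) (nat_lit 8388134) (nat_lit 0) (nat_lit 0),Row.mk (nat_lit 22008) (nat_lit 32912) (nat_lit 473) (nat_lit 61710) (nat_lit 8388134) (nat_lit 0) (nat_lit 0),Row.mk (nat_lit 22176) (nat_lit 32912) (nat_lit 473) (nat_lit 61710) (nat_lit 8388134) (nat_lit 0) (nat_lit 0),Row.mk (nat_lit 22344) (nat_lit 32912) (nat_lit 473) (nat_lit 61710) (nat_lit 8388134) (nat_lit 0) (nat_lit 0),Row.mk (nat_lit 22512) (nat_lit 32912) (nat_lit 473) (nat_lit 61710) (nat_lit 8388134) (nat_lit 0) (nat_lit 0),Row.mk (nat_lit 22680) (nat_lit 32912) (nat_lit 473) (nat_lit 61710) (nat_lit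 8388134) (nat_lit 0) (nat_lit 0),Row.mk (nat_lit 22848) (nat_lit 32912) (nat_lit 473) (nat_lit 61710) (nat_lit 8388134) (nat_lit 0) (nat_lit 0),Row.mk (nat_lit 23016) (nat_lit 32912) (nat_lit 473) (nat_lit 61710) (nat_lit 8388134) (nat_lit 0) (nat_lit 0),Row.mk (nat_lit 23184) (nat_lit 32912) (nat_lit 473) (nat_lit 61710) (nat_lit 8388134) (nat_lit 0) (nat_lit 0)],
[Row.mk (nat_lit 15624) (nat_lit 32912) (nat_lit 591) (nat_lit 61710) (nat_lit 8388016) (nat_lit 0) (nat_lit 0),Row.mk (nat_lit 15792) (nat_lit 32912) (nat_lit 591) (nat_lit 61710) (nat_lit 8388016) (nat_lit 0) (nat_lit 0),Row.mk (nat_lit 15960) (nat_lit 32912) (nat_lit 591) (nat_lit 61710) (nat_lit 8388016) (nat_lit 0) (nat_lit 0),Row.mk (nat_lit 16128) (nat_lit 32912) (nat_lit 591) (nat_lit 61710) (nat_lit 8388016) (nat_lit 0) (nat_lit 0),Row.mk (nat_lit 16296) (nat_lit 32912) (nat_lit 591) (nat_lit 61710) (nat_lit 8388016) (nat_lit 0) (nat_lit 0),Row.mk (nat_lit 16464)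 (nat_lit 32912) (nat_lit 591) (nat_lit 61710) (nat_lit 8388016) (nat_lit 0) (nat_lit 0),Row.mk (nat_lit 16632) (nat_lit 32912) (nat_lit 591) (nat_lit 61710) (nat_lit 8388016) (nat_lit 0) (nat_lit 0),Row.mk (nat_lit 16800) (nat_lit 32912) (nat_lit 591) (nat_lit 61710) (nat_lit 8388016) (nat_lit 0) (nat_lit 0),Row.mk (nat_lit 16968) (nat_lit 32912) (nat_lit 591) (nat_lit 61710) (nat_lit 8388016) (nat_lit 0) (nat_lit 0),Row.mk (nat_lit 17136) (nat_lit 32912) (nat_lit 591) (nat_lit 61710) (nat_lit 8388016) (nat_lit 0) (nat_lit 0),Row.mk (nat_lit 17304) (nat_lit 32912) (nat_lit 591) (nat_lit 61710) (nat_lit 8388016) (nat_lit 0) (nat_lit 0),Row.mk (nat_lit 17472) (nat_lit 32912) (nat_lit 591) (nat_lit 61710) (nat_lit 8388016) (nat_lit 0) (nat_lit 0),Row.mk (nat_lit 17640) (nat_lit 32912) (nat_lit 591) (nat_lit 61710) (nat_lit 8388016) (nat_lit 0) (nat_lit 0),Row.mk (nat_lit 17808) (nat_lit 32912) (nat_lit 591) (nat_lit 61710) (nat_lit 8388016)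 (nat_lit 0) (nat_lit 0),Row.mk (nat_lit 17976) (nat_lit 32912) (nat_lit 591) (nat_lit 61710) (nat_lit 8388016) (nat_lit 0) (nat_lit 0),Row.mk (nat_lit 18144) (nat_lit 32912) (nat_lit 591) (nat_lit 61710) (nat_lit 8388016) (nat_lit 0) (nat_lit 0),Row.mk (nat_lit 18312) (nat_lit 32912) (nat_lit 591) (nat_lit 61710) (nat_lit 8388016) (nat_lit 0) (nat_lit 0),Row.mk (nat_lit 18480) (nat_lit 32912) (nat_lit 591) (nat_lit 61710) (nat_lit 8388016) (nat_lit 0) (nat_lit 0),Row.mk (nat_lit 18648) (nat_lit 32912) (nat_lit 591) (nat_lit 61710) (nat_lit 8388016) (nat_lit 0) (nat_lit 0),Row.mk (nat_lit 18816) (nat_lit 32912) (nat_lit 591) (nat_lit 61710) (nat_lit 8388016) (nat_lit 0) (nat_lit 0),Row.mk (nat_lit 18984) (nat_lit 32912) (nat_lit 591) (nat_lit 61710) (nat_lit 8388016) (nat_lit 0) (nat_lit 0),Row.mk (nat_lit 19152) (nat_lit 32912) (nat_lit 591) (nat_lit 61710) (nat_lit 8388016) (nat_lit 0) (nat_lit 0),Row.mk (nat_lit 19320) (nat_lit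 32912) (nat_lit 591) (nat_lit 61710) (nat_lit 8388016) (nat_lit 0) (nat_lit 0),Row.mk (nat_lit 19488) (nat_lit 32912) (nat_lit 591) (nat_lit 61710) (nat_lit 8388016) (nat_lit 0) (nat_lit 0),Row.mk (nat_lit 19656) (nat_lit 32912) (nat_lit 591) (nat_lit 61710) (nat_lit 8388016) (nat_lit 0) (nat_lit 0),Row.mk (nat_lit 19824) (nat_lit 32912) (nat_lit 591) (nat_lit 61710) (nat_lit 8388016) (nat_lit 0) (nat_lit 0),Row.mk (nat_lit 19992) (nat_lit 32912) (nat_lit 591) (nat_lit 61710) (nat_lit 8388016) (nat_lit 0) (nat_lit 0),Row.mk (nat_lit 20160) (nat_lit 32912) (nat_lit 591) (nat_lit 61710) (nat_lit 8388016) (nat_lit 0) (nat_lit 0),Row.mk (nat_lit 20328) (nat_lit 32912) (nat_lit 591) (nat_lit 61710) (nat_lit 8388016) (nat_lit 0) (nat_lit 0),Row.mk (nat_lit 20496) (nat_lit 32912) (nat_lit 591) (nat_lit 61710) (nat_lit 8388016) (nat_lit 0) (nat_lit 0),Row.mk (nat_lit 20664) (nat_lit 32912) (nat_lit 591) (nat_lit 61710) (nat_lit 8388016) (nat_lit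 0) (nat_lit 0),Row.mk (nat_lit 20832) (nat_lit 32912) (nat_lit 591) (nat_lit 61710) (nat_lit 8388016) (nat_lit 0) (nat_lit 0),Row.mk (nat_lit 21000) (nat_lit 32912) (nat_lit 591) (nat_lit 61710) (nat_lit 8388016) (nat_lit 0) (nat_lit 0),Row.mk (nat_lit 21168) (nat_lit 32912) (nat_lit 591) (nat_lit 61710) (nat_lit 8388016) (nat_lit 0) (nat_lit 0),Row.mk (nat_lit 21336) (nat_lit 32912) (nat_lit 591) (nat_lit 61710) (nat_lit 8388016) (nat_lit 0) (nat_lit 0),Row.mk (nat_lit 21504) (nat_lit 32912) (nat_lit 591) (nat_lit 61710) (nat_lit 8388016) (nat_lit 0) (nat_lit 0),Row.mk (nat_lit 21672) (nat_lit 32912) (nat_lit 591) (nat_lit 61710) (nat_lit 8388016) (nat_lit 0) (nat_lit 0),Row.mk (nat_lit 21840) (nat_lit 32912) (nat_lit 591) (nat_lit 61710) (nat_lit 8388016) (nat_lit 0) (nat_lit 0),Row.mk (nat_lit 22008) (nat_lit 32912) (nat_lit 591) (nat_lit 61710) (nat_lit 8388016) (nat_lit 0) (nat_lit 0),Row.mk (nat_lit 22176) (nat_lit 32912) (nat_lit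 591) (nat_lit 61710) (nat_lit 8388016) (nat_lit 0) (nat_lit 0),Row.mk (nat_lit 22344) (nat_lit 32912) (nat_lit 591) (nat_lit 61710) (nat_lit 8388016) (nat_lit 0) (nat_lit 0),Row.mk (nat_lit 22512) (nat_lit 32912) (nat_lit 591) (nat_lit 61710) (nat_lit 8388016) (nat_lit 0) (nat_lit 0),Row.mk (nat_lit 22680) (nat_lit 32912) (nat_lit 591) (nat_lit 61710) (nat_lit 8388016) (nat_lit 0) (nat_lit 0),Row.mk (nat_lit 22848) (nat_lit 32912) (nat_lit 591) (nat_lit 61710) (nat_lit 8388016) (nat_lit 0) (nat_lit 0),Row.mk (nat_lit 23016) (nat_lit 32912) (nat_lit 591) (nat_lit 61710) (nat_lit 8388016) (nat_lit 0) (nat_lit 0),Row.mk (nat_lit 23184) (nat_lit 32912) (nat_lit 591) (nat_lit 61710) (nat_lit 8388016) (nat_lit 0) (nat_lit 0),Row.mk (nat_lit 23352) (nat_lit 32912) (nat_lit 591) (nat_lit 61710) (nat_lit 8388016) (nat_lit 0) (nat_lit 0)],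
[Row.mk (nat_lit 15624) (nat_lit 32912) (nat_lit 738) (nat_lit 61710) (nat_lit 8387869) (nat_lit 0) (nat_lit 0),Row.mk (nat_lit 15792) (nat_lit 32912) (nat_lit 738) (nat_lit 61710) (nat_lit 8387869) (nat_lit 0) (nat_lit 0),Row.mk (nat_lit 15960) (nat_lit 32912) (nat_lit 738) (nat_lit 61710) (nat_lit 8387869) (nat_lit 0) (nat_lit 0),Row.mk (nat_lit 16128) (nat_lit 32912) (nat_lit 738) (nat_lit 61710) (nat_lit 8387869) (nat_lit 0) (nat_lit 0),Row.mk (nat_lit 16296) (nat_lit 32912) (nat_lit 738) (nat_lit 61710) (nat_lit 8387869) (nat_lit 0) (nat_lit 0),Row.mk (nat_lit 16464) (nat_lit 32912) (nat_lit 738) (nat_lit 61710) (nat_lit 8387869) (nat_lit 0) (nat_lit 0),Row.mk (nat_lit 16632) (nat_lit 32912) (nat_lit 738) (nat_lit 61710) (nat_lit 8387869) (nat_lit 0) (nat_lit 0),Row.mk (nat_lit 16800) (nat_lit 32912) (nat_lit 738) (nat_lit 61710) (nat_lit 8387869) (nat_lit 0) (nat_lit 0),Row.mk (nat_lit 16968) (nat_lit 32912) (nat_lit 738) (nat_lit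 61710) (nat_lit 8387869) (nat_lit 0) (nat_lit 0),Row.mk (nat_lit 17136) (nat_lit 32912) (nat_lit 738) (nat_lit 61710) (nat_lit 8387869) (nat_lit 0) (nat_lit 0),Row.mk (nat_lit 17304) (nat_lit 32912) (nat_lit 738) (nat_lit 61710) (nat_lit 8387869) (nat_lit 0) (nat_lit 0),Row.mk (nat_lit 17472) (nat_lit 32912) (nat_lit 738) (nat_lit 61710) (nat_lit 8387869) (nat_lit 0) (nat_lit 0),Row.mk (nat_lit 17640) (nat_lit 32912) (nat_lit 738) (nat_lit 61710) (nat_lit 8387869) (nat_lit 0) (nat_lit 0),Row.mk (nat_lit 17808) (nat_lit 32912) (nat_lit 738) (nat_lit 61710) (nat_lit 8387869) (nat_lit 0) (nat_lit 0),Row.mk (nat_lit 17976) (nat_lit 32912) (nat_lit 738) (nat_lit 61710) (nat_lit 8387869) (nat_lit 0) (nat_lit 0),Row.mk (nat_lit 18144) (nat_lit 32912) (nat_lit 738) (nat_lit 61710) (nat_lit 8387869) (nat_lit 0) (nat_lit 0),Row.mk (nat_lit 18312) (nat_lit 32912) (nat_lit 738) (nat_lit 61710) (nat_lit 8387869) (nat_lit 0) (nat_lit 0),Row.mk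 (nat_lit 18480) (nat_lit 32912) (nat_lit 738) (nat_lit 61710) (nat_lit 8387869) (nat_lit 0) (nat_lit 0),Row.mk (nat_lit 18648) (nat_lit 32912) (nat_lit 738) (nat_lit 61710) (nat_lit 8387869) (nat_lit 0) (nat_lit 0),Row.mk (nat_lit 18816) (nat_lit 32912) (nat_lit 738) (nat_lit 61710) (nat_lit 8387869) (nat_lit 0) (nat_lit 0),Row.mk (nat_lit 18984) (nat_lit 32912) (nat_lit 738) (nat_lit 61710) (nat_lit 8387869) (nat_lit 0) (nat_lit 0),Row.mk (nat_lit 19152) (nat_lit 32912) (nat_lit 738) (nat_lit 61710) (nat_lit 8387869) (nat_lit 0) (nat_lit 0),Row.mk (nat_lit 19320) (nat_lit 32912) (nat_lit 738) (nat_lit 61710) (nat_lit 8387869) (nat_lit 0) (nat_lit 0),Row.mk (nat_lit 19488) (nat_lit 32912) (nat_lit 738) (nat_lit 61710) (nat_lit 8387869) (nat_lit 0) (nat_lit 0),Row.mk (nat_lit 19656) (nat_lit 32912) (nat_lit 738) (nat_lit 61710) (nat_lit 8387869) (nat_lit 0) (nat_lit 0),Row.mk (nat_lit 19824) (nat_lit 32912) (nat_lit 738) (nat_lit 61710)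 (nat_lit 8387869) (nat_lit 0) (nat_lit 0),Row.mk (nat_lit 19992) (nat_lit 32912) (nat_lit 738) (nat_lit 61710) (nat_lit 8387869) (nat_lit 0) (nat_lit 0),Row.mk (nat_lit 20160) (nat_lit 32912) (nat_lit 738) (nat_lit 61710) (nat_lit 8387869) (nat_lit 0) (nat_lit 0),Row.mk (nat_lit 20328) (nat_lit 32912) (nat_lit 738) (nat_lit 61710) (nat_lit 8387869) (nat_lit 0) (nat_lit 0),Row.mk (nat_lit 20496) (nat_lit 32912) (nat_lit 738) (nat_lit 61710) (nat_lit 8387869) (nat_lit 0) (nat_lit 0),Row.mk (nat_lit 20664) (nat_lit 32912) (nat_lit 738) (nat_lit 61710) (nat_lit 8387869) (nat_lit 0) (nat_lit 0),Row.mk (nat_lit 20832) (nat_lit 32912) (nat_lit 738) (nat_lit 61710) (nat_lit 8387869) (nat_lit 0) (nat_lit 0),Row.mk (nat_lit 21000) (nat_lit 32912) (nat_lit 738) (nat_lit 61710) (nat_lit 8387869) (nat_lit 0) (nat_lit 0),Row.mk (nat_lit 21168) (nat_lit 32912) (nat_lit 738) (nat_lit 61710) (nat_lit 8387869) (nat_lit 0) (nat_lit 0),Row.mk (nat_lit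 21336) (nat_lit 32912) (nat_lit 738) (nat_lit 61710) (nat_lit 8387869) (nat_lit 0) (nat_lit 0),Row.mk (nat_lit 21504) (nat_lit 32912) (nat_lit 738) (nat_lit 61710) (nat_lit 8387869) (nat_lit 0) (nat_lit 0),Row.mk (nat_lit 21672) (nat_lit 32912) (nat_lit 738) (nat_lit 61710) (nat_lit 8387869) (nat_lit 0) (nat_lit 0),Row.mk (nat_lit 21840) (nat_lit 32912) (nat_lit 738) (nat_lit 61710) (nat_lit 8387869) (nat_lit 0) (nat_lit 0),Row.mk (nat_lit 22008) (nat_lit 32912) (nat_lit 738) (nat_lit 61710) (nat_lit 8387869) (nat_lit 0) (nat_lit 0),Row.mk (nat_lit 22176) (nat_lit 32912) (nat_lit 738) (nat_lit 61710) (nat_lit 8387869) (nat_lit 0) (nat_lit 0),Row.mk (nat_lit 22344) (nat_lit 32912) (nat_lit 738) (nat_lit 61710) (nat_lit 8387869) (nat_lit 0) (nat_lit 0),Row.mk (nat_lit 22512) (nat_lit 32912) (nat_lit 738) (nat_lit 61710) (nat_lit 8387869) (nat_lit 0) (nat_lit 0),Row.mk (nat_lit 22680) (nat_lit 32912) (nat_lit 738) (nat_lit 61710) (nat_lit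 8387869) (nat_lit 0) (nat_lit 0),Row.mk (nat_lit 22848) (nat_lit 32912) (nat_lit 738) (nat_lit 61710) (nat_lit 8387869) (nat_lit 0) (nat_lit 0),Row.mk (nat_lit 23016) (nat_lit 32912) (nat_lit 738) (nat_lit 61710) (nat_lit 8387869) (nat_lit 0) (nat_lit 0),Row.mk (nat_lit 23184) (nat_lit 32912) (nat_lit 738) (nat_lit 61710) (nat_lit 8387869) (nat_lit 0) (nat_lit 0),Row.mk (nat_lit 23352) (nat_lit 32912) (nat_lit 738) (nat_lit 61710) (nat_lit 8387869) (nat_lit 0) (nat_lit 0),Row.mk (nat_lit 23520) (nat_lit 32912) (nat_lit 738) (nat_lit 61710) (nat_lit 8387869) (nat_lit 0) (nat_lit 0)],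
[Row.mk (nat_lit 15624) (nat_lit 32912) (nat_lit 922) (nat_lit 61710) (nat_lit 8387685) (nat_lit 0) (nat_lit 0),Row.mk (nat_lit 15792) (nat_lit 32912) (nat_lit 922) (nat_lit 61710) (nat_lit 8387685) (nat_lit 0) (nat_lit 0),Row.mk (nat_lit 15960) (nat_lit 32912) (nat_lit 922) (nat_lit 61710) (nat_lit 8387685) (nat_lit 0) (nat_lit 0),Row.mk (nat_lit 16128) (nat_lit 32912) (nat_lit 922) (nat_lit 61710) (nat_lit 8387685) (nat_lit 0) (nat_lit 0),Row.mk (nat_lit 16296) (nat_lit 32912) (nat_lit 922) (nat_lit 61710) (nat_lit 8387685) (nat_lit 0) (nat_lit 0),Row.mk (nat_lit 16464) (nat_lit 32912) (nat_lit 922) (nat_lit 61710) (nat_lit 8387685) (nat_lit 0) (nat_lit 0),Row.mk (nat_lit 16632) (nat_lit 32912) (nat_lit 922) (nat_lit 61710) (nat_lit 8387685) (nat_lit 0) (nat_lit 0),Row.mk (nat_lit 16800) (nat_lit 32912) (nat_lit 922) (nat_lit 61710) (nat_lit 8387685) (nat_lit 0) (nat_lit 0),Row.mk (nat_lit 16968) (nat_lit 32912) (nat_lit 922) (nat_lit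 61710) (nat_lit 8387685) (nat_lit 0) (nat_lit 0),Row.mk (nat_lit 17136) (nat_lit 32912) (nat_lit 922) (nat_lit 61710) (nat_lit 8387685) (nat_lit 0) (nat_lit 0),Row.mk (nat_lit 17304) (nat_lit 32912) (nat_lit 922) (nat_lit 61710) (nat_lit 8387685) (nat_lit 0) (nat_lit 0),Row.mk (nat_lit 17472) (nat_lit 32912) (nat_lit 922) (nat_lit 61710) (nat_lit 8387685) (nat_lit 0) (nat_lit 0),Row.mk (nat_lit 17640) (nat_lit 32912) (nat_lit 922) (nat_lit 61710) (nat_lit 8387685) (nat_lit 0) (nat_lit 0),Row.mk (nat_lit 17808) (nat_lit 32912) (nat_lit 922) (nat_lit 61710) (nat_lit 8387685) (nat_lit 0) (nat_lit 0),Row.mk (nat_lit 17976) (nat_lit 32912) (nat_lit 922) (nat_lit 61710) (nat_lit 8387685) (nat_lit 0) (nat_lit 0),Row.mk (nat_lit 18144) (nat_lit 32912) (nat_lit 922) (nat_lit 61710) (nat_lit 8387685) (nat_lit 0) (nat_lit 0),Row.mk (nat_lit 18312) (nat_lit 32912) (nat_lit 922) (nat_lit 61710) (nat_lit 8387685) (nat_lit 0) (nat_lit 0),Row.mk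 (nat_lit 18480) (nat_lit 32912) (nat_lit 922) (nat_lit 61710) (nat_lit 8387685) (nat_lit 0) (nat_lit 0),Row.mk (nat_lit 18648) (nat_lit 32912) (nat_lit 922) (nat_lit 61710) (nat_lit 8387685) (nat_lit 0) (nat_lit 0),Row.mk (nat_lit 18816) (nat_lit 32912) (nat_lit 922) (nat_lit 61710) (nat_lit 8387685) (nat_lit 0) (nat_lit 0),Row.mk (nat_lit 18984) (nat_lit 32912) (nat_lit 922) (nat_lit 61710) (nat_lit 8387685) (nat_lit 0) (nat_lit 0),Row.mk (nat_lit 19152) (nat_lit 32912) (nat_lit 922) (nat_lit 61710) (nat_lit 8387685) (nat_lit 0) (nat_lit 0),Row.mk (nat_lit 19320) (nat_lit 32912) (nat_lit 922) (nat_lit 61710) (nat_lit 8387685) (nat_lit 0) (nat_lit 0),Row.mk (nat_lit 19488) (nat_lit 32912) (nat_lit 922) (nat_lit 61710) (nat_lit 8387685) (nat_lit 0) (nat_lit 0),Row.mk (nat_lit 19656) (nat_lit 32912) (nat_lit 922) (nat_lit 61710) (nat_lit 8387685) (nat_lit 0) (nat_lit 0),Row.mk (nat_lit 19824) (nat_lit 32912) (nat_lit 922) (nat_lit 61710)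 (nat_lit 8387685) (nat_lit 0) (nat_lit 0),Row.mk (nat_lit 19992) (nat_lit 32912) (nat_lit 922) (nat_lit 61710) (nat_lit 8387685) (nat_lit 0) (nat_lit 0),Row.mk (nat_lit 20160) (nat_lit 32912) (nat_lit 922) (nat_lit 61710) (nat_lit 8387685) (nat_lit 0) (nat_lit 0),Row.mk (nat_lit 20328) (nat_lit 32912) (nat_lit 922) (nat_lit 61710) (nat_lit 8387685) (nat_lit 0) (nat_lit 0),Row.mk (nat_lit 20496) (nat_lit 32912) (nat_lit 922) (nat_lit 61710) (nat_lit 8387685) (nat_lit 0) (nat_lit 0),Row.mk (nat_lit 20664) (nat_lit 32912) (nat_lit 922) (nat_lit 61710) (nat_lit 8387685) (nat_lit 0) (nat_lit 0),Row.mk (nat_lit 20832) (nat_lit 32912) (nat_lit 922) (nat_lit 61710) (nat_lit 8387685) (nat_lit 0) (nat_lit 0),Row.mk (nat_lit 21000) (nat_lit 32912) (nat_lit 922) (nat_lit 61710) (nat_lit 8387685) (nat_lit 0) (nat_lit 0),Row.mk (nat_lit 21168) (nat_lit 32912) (nat_lit 922) (nat_lit 61710) (nat_lit 8387685) (nat_lit 0) (nat_lit 0),Row.mk (nat_lit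 21336) (nat_lit 32912) (nat_lit 922) (nat_lit 61710) (nat_lit 8387685) (nat_lit 0) (nat_lit 0),Row.mk (nat_lit 21504) (nat_lit 32912) (nat_lit 922) (nat_lit 61710) (nat_lit 8387685) (nat_lit 0) (nat_lit 0),Row.mk (nat_lit 21672) (nat_lit 32912) (nat_lit 922) (nat_lit 61710) (nat_lit 8387685) (nat_lit 0) (nat_lit 0),Row.mk (nat_lit 21840) (nat_lit 32912) (nat_lit 922) (nat_lit 61710) (nat_lit 8387685) (nat_lit 0) (nat_lit 0),Row.mk (nat_lit 22008) (nat_lit 32912) (nat_lit 922) (nat_lit 61710) (nat_lit 8387685) (nat_lit 0) (nat_lit 0),Row.mk (nat_lit 22176) (nat_lit 32912) (nat_lit 922) (nat_lit 61710) (nat_lit 8387685) (nat_lit 0) (nat_lit 0),Row.mk (nat_lit 22344) (nat_lit 32912) (nat_lit 922) (nat_lit 61710) (nat_lit 8387685) (nat_lit 0) (nat_lit 0),Row.mk (nat_lit 22512) (nat_lit 32912) (nat_lit 922) (nat_lit 61710) (nat_lit 8387685) (nat_lit 0) (nat_lit 0),Row.mk (nat_lit 22680) (nat_lit 32912) (nat_lit 922) (nat_lit 61710) (nat_lit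 8387685) (nat_lit 0) (nat_lit 0),Row.mk (nat_lit 22848) (nat_lit 32912) (nat_lit 922) (nat_lit 61710) (nat_lit 8387685) (nat_lit 0) (nat_lit 0),Row.mk (nat_lit 23016) (nat_lit 32912) (nat_lit 922) (nat_lit 61710) (nat_lit 8387685) (nat_lit 0) (nat_lit 0),Row.mk (nat_lit 23184) (nat_lit 32912) (nat_lit 922) (nat_lit 61710) (nat_lit 8387685) (nat_lit 0) (nat_lit 0),Row.mk (nat_lit 23352) (nat_lit 32912) (nat_lit 922) (nat_lit 61710) (nat_lit 8387685) (nat_lit 0) (nat_lit 0),Row.mk (nat_lit 23520) (nat_lit 32912) (nat_lit 922) (nat_lit 61710) (nat_lit 8387685) (nat_lit 0) (nat_lit 0)],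
[Row.mk (nat_lit 15624) (nat_lit 32912) (nat_lit 1152) (nat_lit 61710) (nat_lit 8387455) (nat_lit 0) (nat_lit 0),Row.mk (nat_lit 15792) (nat_lit 32912) (nat_lit 1152) (nat_lit 61710) (nat_lit 8387455) (nat_lit 0) (nat_lit 0),Row.mk (nat_lit 15960) (nat_lit 32912) (nat_lit 1152) (nat_lit 61710) (nat_lit 8387455) (nat_lit 0) (nat_lit 0),Row.mk (nat_lit 16128) (nat_lit 32912) (nat_lit 1152) (nat_lit 61710) (nat_lit 8387455) (nat_lit 0) (nat_lit 0),Row.mk (nat_lit 16296) (nat_lit 32912) (nat_lit 1152) (nat_lit 61710) (nat_lit 8387455) (nat_lit 0) (nat_lit 0),Row.mk (nat_lit 16464) (nat_lit 32912) (nat_lit 1152) (nat_lit 61710) (nat_lit 8387455) (nat_lit 0) (nat_lit 0),Row.mk (nat_lit 16632) (nat_lit 32912) (nat_lit 1152) (nat_lit 61710) (nat_lit 8387455) (nat_lit 0) (nat_lit 0),Row.mk (nat_lit 16800) (nat_lit 32912) (nat_lit 1152) (nat_lit 61710) (nat_lit 8387455) (nat_lit 0) (nat_lit 0),Row.mk (nat_lit 16968) (nat_lit 32912) (nat_lit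 1152) (nat_lit 61710) (nat_lit 8387455) (nat_lit 0) (nat_lit 0),Row.mk (nat_lit 17136) (nat_lit 32912) (nat_lit 1152) (nat_lit 61710) (nat_lit 8387455) (nat_lit 0) (nat_lit 0),Row.mk (nat_lit 17304) (nat_lit 32912) (nat_lit 1152) (nat_lit 61710) (nat_lit 8387455) (nat_lit 0) (nat_lit 0),Row.mk (nat_lit 17472) (nat_lit 32912) (nat_lit 1152) (nat_lit 61710) (nat_lit 8387455) (nat_lit 0) (nat_lit 0),Row.mk (nat_lit 17640) (nat_lit 32912) (nat_lit 1152) (nat_lit 61710) (nat_lit 8387455) (nat_lit 0) (nat_lit 0),Row.mk (nat_lit 17808) (nat_lit 32912) (nat_lit 1152) (nat_lit 61710) (nat_lit 8387455) (nat_lit 0) (nat_lit 0),Row.mk (nat_lit 17976) (nat_lit 32912) (nat_lit 1152) (nat_lit 61710) (nat_lit 8387455) (nat_lit 0) (nat_lit 0),Row.mk (nat_lit 18144) (nat_lit 32912) (nat_lit 1152) (nat_lit 61710) (nat_lit 8387455) (nat_lit 0) (nat_lit 0),Row.mk (nat_lit 18312) (nat_lit 32912) (nat_lit 1152) (nat_lit 61710) (nat_lit 8387455) (nat_lit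 0) (nat_lit 0),Row.mk (nat_lit 18480) (nat_lit 32912) (nat_lit 1152) (nat_lit 61710) (nat_lit 8387455) (nat_lit 0) (nat_lit 0),Row.mk (nat_lit 18648) (nat_lit 32912) (nat_lit 1152) (nat_lit 61710) (nat_lit 8387455) (nat_lit 0) (nat_lit 0),Row.mk (nat_lit 18816) (nat_lit 32912) (nat_lit 1152) (nat_lit 61710) (nat_lit 8387455) (nat_lit 0) (nat_lit 0),Row.mk (nat_lit 18984) (nat_lit 32912) (nat_lit 1152) (nat_lit 61710) (nat_lit 8387455) (nat_lit 0) (nat_lit 0),Row.mk (nat_lit 19152) (nat_lit 32912) (nat_lit 1152) (nat_lit 61710) (nat_lit 8387455) (nat_lit 0) (nat_lit 0),Row.mk (nat_lit 19320) (nat_lit 32912) (nat_lit 1152) (nat_lit 61710) (nat_lit 8387455) (nat_lit 0) (nat_lit 0),Row.mk (nat_lit 19488) (nat_lit 32912) (nat_lit 1152) (nat_lit 61710) (nat_lit 8387455) (nat_lit 0) (nat_lit 0),Row.mk (nat_lit 19656) (nat_lit 32912) (nat_lit 1152) (nat_lit 61710) (nat_lit 8387455) (nat_lit 0) (nat_lit 0),Row.mk (nat_lit 19824) (nat_lit 32912)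 (nat_lit 1152) (nat_lit 61710) (nat_lit 8387455) (nat_lit 0) (nat_lit 0),Row.mk (nat_lit 19992) (nat_lit 32912) (nat_lit 1152) (nat_lit 61710) (nat_lit 8387455) (nat_lit 0) (nat_lit 0),Row.mk (nat_lit 20160) (nat_lit 32912) (nat_lit 1152) (nat_lit 61710) (nat_lit 8387455) (nat_lit 0) (nat_lit 0),Row.mk (nat_lit 20328) (nat_lit 32912) (nat_lit 1152) (nat_lit 61710) (nat_lit 8387455) (nat_lit 0) (nat_lit 0),Row.mk (nat_lit 20496) (nat_lit 32912) (nat_lit 1152) (nat_lit 61710) (nat_lit 8387455) (nat_lit 0) (nat_lit 0),Row.mk (nat_lit 20664) (nat_lit 32912) (nat_lit 1152) (nat_lit 61710) (nat_lit 8387455) (nat_lit 0) (nat_lit 0),Row.mk (nat_lit 20832) (nat_lit 32912) (nat_lit 1152) (nat_lit 61710) (nat_lit 8387455) (nat_lit 0) (nat_lit 0),Row.mk (nat_lit 21000) (nat_lit 32912) (nat_lit 1152) (nat_lit 61710) (nat_lit 8387455) (nat_lit 0) (nat_lit 0),Row.mk (nat_lit 21168) (nat_lit 32912) (nat_lit 1152) (nat_lit 61710) (nat_lit 8387455)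 (nat_lit 0) (nat_lit 0),Row.mk (nat_lit 21336) (nat_lit 32912) (nat_lit 1152) (nat_lit 61710) (nat_lit 8387455) (nat_lit 0) (nat_lit 0),Row.mk (nat_lit 21504) (nat_lit 32912) (nat_lit 1152) (nat_lit 61710) (nat_lit 8387455) (nat_lit 0) (nat_lit 0),Row.mk (nat_lit 21672) (nat_lit 32912) (nat_lit 1152) (nat_lit 61710) (nat_lit 8387455) (nat_lit 0) (nat_lit 0),Row.mk (nat_lit 21840) (nat_lit 32912) (nat_lit 1152) (nat_lit 61710) (nat_lit 8387455) (nat_lit 0) (nat_lit 0),Row.mk (nat_lit 22008) (nat_lit 32912) (nat_lit 1152) (nat_lit 61710) (nat_lit 8387455) (nat_lit 0) (nat_lit 0),Row.mk (nat_lit 22176) (nat_lit 32912) (nat_lit 1152) (nat_lit 61710) (nat_lit 8387455) (nat_lit 0) (nat_lit 0),Row.mk (nat_lit 22344) (nat_lit 32912) (nat_lit 1152) (nat_lit 61710) (nat_lit 8387455) (nat_lit 0) (nat_lit 0),Row.mk (nat_lit 22512) (nat_lit 32912) (nat_lit 1152) (nat_lit 61710) (nat_lit 8387455) (nat_lit 0) (nat_lit 0),Row.mk (nat_lit 22680) (nat_lit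 32912) (nat_lit 1152) (nat_lit 61710) (nat_lit 8387455) (nat_lit 0) (nat_lit 0),Row.mk (nat_lit 22848) (nat_lit 32912) (nat_lit 1152) (nat_lit 61710) (nat_lit 8387455) (nat_lit 0) (nat_lit 0),Row.mk (nat_lit 23016) (nat_lit 32912) (nat_lit 1152) (nat_lit 61710) (nat_lit 8387455) (nat_lit 0) (nat_lit 0),Row.mk (nat_lit 23184) (nat_lit 32912) (nat_lit 1152) (nat_lit 61710) (nat_lit 8387455) (nat_lit 0) (nat_lit 0),Row.mk (nat_lit 23352) (nat_lit 32912) (nat_lit 1152) (nat_lit 61710) (nat_lit 8387455) (nat_lit 0) (nat_lit 0),Row.mk (nat_lit 23520) (nat_lit 32912) (nat_lit 1152) (nat_lit 61710) (nat_lit 8387455) (nat_lit 0) (nat_lit 0),Row.mk (nat_lit 23688) (nat_lit 32912) (nat_lit 1152) (nat_lit 61710) (nat_lit 8387455) (nat_lit 0) (nat_lit 0)],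
[Row.mk (nat_lit 15624) (nat_lit 32912) (nat_lit 1439) (nat_lit 61710) (nat_lit 8387168) (nat_lit 0) (nat_lit 0),Row.mk (nat_lit 15792) (nat_lit 32912) (nat_lit 1439) (nat_lit 61710) (nat_lit 8387168) (nat_lit 0) (nat_lit 0),Row.mk (nat_lit 15960) (nat_lit 32912) (nat_lit 1439) (nat_lit 61710) (nat_lit 8387168) (nat_lit 0) (nat_lit 0),Row.mk (nat_lit 16128) (nat_lit 32912) (nat_lit 1439) (nat_lit 61710) (nat_lit 8387168) (nat_lit 0) (nat_lit 0),Row.mk (nat_lit 16296) (nat_lit 32912) (nat_lit 1439) (nat_lit 61710) (nat_lit 8387168) (nat_lit 0) (nat_lit 0),Row.mk (nat_lit 16464) (nat_lit 32912) (nat_lit 1439) (nat_lit 61710) (nat_lit 8387168) (nat_lit 0) (nat_lit 0),Row.mk (nat_lit 16632) (nat_lit 32912) (nat_lit 1439) (nat_lit 61710) (nat_lit 8387168) (nat_lit 0) (nat_lit 0),Row.mk (nat_lit 16800) (nat_lit 32912) (nat_lit 1439) (nat_lit 61710) (nat_lit 8387168) (nat_lit 0) (nat_lit 0),Row.mk (nat_lit 16968) (nat_lit 32912) (nat_lit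 1439) (nat_lit 61710) (nat_lit 8387168) (nat_lit 0) (nat_lit 0),Row.mk (nat_lit 17136) (nat_lit 32912) (nat_lit 1439) (nat_lit 61710) (nat_lit 8387168) (nat_lit 0) (nat_lit 0),Row.mk (nat_lit 17304) (nat_lit 32912) (nat_lit 1439) (nat_lit 61710) (nat_lit 8387168) (nat_lit 0) (nat_lit 0),Row.mk (nat_lit 17472) (nat_lit 32912) (nat_lit 1439) (nat_lit 61710) (nat_lit 8387168) (nat_lit 0) (nat_lit 0),Row.mk (nat_lit 17640) (nat_lit 32912) (nat_lit 1439) (nat_lit 61710) (nat_lit 8387168) (nat_lit 0) (nat_lit 0),Row.mk (nat_lit 17808) (nat_lit 32912) (nat_lit 1439) (nat_lit 61710) (nat_lit 8387168) (nat_lit 0) (nat_lit 0),Row.mk (nat_lit 17976) (nat_lit 32912) (nat_lit 1439) (nat_lit 61710) (nat_lit 8387168) (nat_lit 0) (nat_lit 0),Row.mk (nat_lit 18144) (nat_lit 32912) (nat_lit 1439) (nat_lit 61710) (nat_lit 8387168) (nat_lit 0) (nat_lit 0),Row.mk (nat_lit 18312) (nat_lit 32912) (nat_lit 1439) (nat_lit 61710) (nat_lit 8387168) (nat_lit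 0) (nat_lit 0),Row.mk (nat_lit 18480) (nat_lit 32912) (nat_lit 1439) (nat_lit 61710) (nat_lit 8387168) (nat_lit 0) (nat_lit 0),Row.mk (nat_lit 18648) (nat_lit 32912) (nat_lit 1439) (nat_lit 61710) (nat_lit 8387168) (nat_lit 0) (nat_lit 0),Row.mk (nat_lit 18816) (nat_lit 32912) (nat_lit 1439) (nat_lit 61710) (nat_lit 8387168) (nat_lit 0) (nat_lit 0),Row.mk (nat_lit 18984) (nat_lit 32912) (nat_lit 1439) (nat_lit 61710) (nat_lit 8387168) (nat_lit 0) (nat_lit 0),Row.mk (nat_lit 19152) (nat_lit 32912) (nat_lit 1439) (nat_lit 61710) (nat_lit 8387168) (nat_lit 0) (nat_lit 0),Row.mk (nat_lit 19320) (nat_lit 32912) (nat_lit 1439) (nat_lit 61710) (nat_lit 8387168) (nat_lit 0) (nat_lit 0),Row.mk (nat_lit 19488) (nat_lit 32912) (nat_lit 1439) (nat_lit 61710) (nat_lit 8387168) (nat_lit 0) (nat_lit 0),Row.mk (nat_lit 19656) (nat_lit 32912) (nat_lit 1439) (nat_lit 61710) (nat_lit 8387168) (nat_lit 0) (nat_lit 0),Row.mk (nat_lit 19824) (nat_lit 32912)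 (nat_lit 1439) (nat_lit 61710) (nat_lit 8387168) (nat_lit 0) (nat_lit 0),Row.mk (nat_lit 19992) (nat_lit 32912) (nat_lit 1439) (nat_lit 61710) (nat_lit 8387168) (nat_lit 0) (nat_lit 0),Row.mk (nat_lit 20160) (nat_lit 32912) (nat_lit 1439) (nat_lit 61710) (nat_lit 8387168) (nat_lit 0) (nat_lit 0),Row.mk (nat_lit 20328) (nat_lit 32912) (nat_lit 1439) (nat_lit 61710) (nat_lit 8387168) (nat_lit 0) (nat_lit 0),Row.mk (nat_lit 20496) (nat_lit 32912) (nat_lit 1439) (nat_lit 61710) (nat_lit 8387168) (nat_lit 0) (nat_lit 0),Row.mk (nat_lit 20664) (nat_lit 32912) (nat_lit 1439) (nat_lit 61710) (nat_lit 8387168) (nat_lit 0) (nat_lit 0),Row.mk (nat_lit 20832) (nat_lit 32912) (nat_lit 1439) (nat_lit 61710) (nat_lit 8387168) (nat_lit 0) (nat_lit 0),Row.mk (nat_lit 21000) (nat_lit 32912) (nat_lit 1439) (nat_lit 61710) (nat_lit 8387168) (nat_lit 0) (nat_lit 0),Row.mk (nat_lit 21168) (nat_lit 32912) (nat_lit 1439) (nat_lit 61710) (nat_lit 8387168)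 (nat_lit 0) (nat_lit 0),Row.mk (nat_lit 21336) (nat_lit 32912) (nat_lit 1439) (nat_lit 61710) (nat_lit 8387168) (nat_lit 0) (nat_lit 0),Row.mk (nat_lit 21504) (nat_lit 32912) (nat_lit 1439) (nat_lit 61710) (nat_lit 8387168) (nat_lit 0) (nat_lit 0),Row.mk (nat_lit 21672) (nat_lit 32912) (nat_lit 1439) (nat_lit 61710) (nat_lit 8387168) (nat_lit 0) (nat_lit 0),Row.mk (nat_lit 21840) (nat_lit 32912) (nat_lit 1439) (nat_lit 61710) (nat_lit 8387168) (nat_lit 0) (nat_lit 0),Row.mk (nat_lit 22008) (nat_lit 32912) (nat_lit 1439) (nat_lit 61710) (nat_lit 8387168) (nat_lit 0) (nat_lit 0),Row.mk (nat_lit 22176) (nat_lit 32912) (nat_lit 1439) (nat_lit 61710) (nat_lit 8387168) (nat_lit 0) (nat_lit 0),Row.mk (nat_lit 22344) (nat_lit 32912) (nat_lit 1439) (nat_lit 61710) (nat_lit 8387168) (nat_lit 0) (nat_lit 0),Row.mk (nat_lit 22512) (nat_lit 32912) (nat_lit 1439) (nat_lit 61710) (nat_lit 8387168) (nat_lit 0) (nat_lit 0),Row.mk (nat_lit 22680) (nat_lit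 32912) (nat_lit 1439) (nat_lit 61710) (nat_lit 8387168) (nat_lit 0) (nat_lit 0),Row.mk (nat_lit 22848) (nat_lit 32912) (nat_lit 1439) (nat_lit 61710) (nat_lit 8387168) (nat_lit 0) (nat_lit 0),Row.mk (nat_lit 23016) (nat_lit 32912) (nat_lit 1439) (nat_lit 61710) (nat_lit 8387168) (nat_lit 0) (nat_lit 0),Row.mk (nat_lit 23184) (nat_lit 32912) (nat_lit 1439) (nat_lit 61710) (nat_lit 8387168) (nat_lit 0) (nat_lit 0),Row.mk (nat_lit 23352) (nat_lit 32912) (nat_lit 1439) (nat_lit 61710) (nat_lit 8387168) (nat_lit 0) (nat_lit 0),Row.mk (nat_lit 23520) (nat_lit 32912) (nat_lit 1439) (nat_lit 61710) (nat_lit 8387168) (nat_lit 0) (nat_lit 0),Row.mk (nat_lit 23688) (nat_lit 32912) (nat_lit 1439) (nat_lit 61710) (nat_lit 8387168) (nat_lit 0) (nat_lit 0),Row.mk (nat_lit 23856) (nat_lit 32912) (nat_lit 1439) (nat_lit 61710) (nat_lit 8387168) (nat_lit 0) (nat_lit 0)],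
[Row.mk (nat_lit 15624) (nat_lit 32912) (nat_lit 1797) (nat_lit 61710) (nat_lit 8386810) (nat_lit 0) (nat_lit 0),Row.mk (nat_lit 15792) (nat_lit 32912) (nat_lit 1797) (nat_lit 61710) (nat_lit 8386810) (nat_lit 0) (nat_lit 0),Row.mk (nat_lit 15960) (nat_lit 32912) (nat_lit 1797) (nat_lit 61710) (nat_lit 8386810) (nat_lit 0) (nat_lit 0),Row.mk (nat_lit 16128) (nat_lit 32912) (nat_lit 1797) (nat_lit 61710) (nat_lit 8386810) (nat_lit 0) (nat_lit 0),Row.mk (nat_lit 16296) (nat_lit 32912) (nat_lit 1797) (nat_lit 61710) (nat_lit 8386810) (nat_lit 0) (nat_lit 0),Row.mk (nat_lit 16464) (nat_lit 32912) (nat_lit 1797) (nat_lit 61710) (nat_lit 8386810) (nat_lit 0) (nat_lit 0),Row.mk (nat_lit 16632) (nat_lit 32912) (nat_lit 1797) (nat_lit 61710) (nat_lit 8386810) (nat_lit 0) (nat_lit 0),Row.mk (nat_lit 16800) (nat_lit 32912) (nat_lit 1797) (nat_lit 61710) (nat_lit 8386810) (nat_lit 0) (nat_lit 0),Row.mk (nat_lit 16968) (nat_lit 32912) (nat_lit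 1797) (nat_lit 61710) (nat_lit 8386810) (nat_lit 0) (nat_lit 0),Row.mk (nat_lit 17136) (nat_lit 32912) (nat_lit 1797) (nat_lit 61710) (nat_lit 8386810) (nat_lit 0) (nat_lit 0),Row.mk (nat_lit 17304) (nat_lit 32912) (nat_lit 1797) (nat_lit 61710) (nat_lit 8386810) (nat_lit 0) (nat_lit 0),Row.mk (nat_lit 17472) (nat_lit 32912) (nat_lit 1797) (nat_lit 61710) (nat_lit 8386810) (nat_lit 0) (nat_lit 0),Row.mk (nat_lit 17640) (nat_lit 32912) (nat_lit 1797) (nat_lit 61710) (nat_lit 8386810) (nat_lit 0) (nat_lit 0),Row.mk (nat_lit 17808) (nat_lit 32912) (nat_lit 1797) (nat_lit 61710) (nat_lit 8386810) (nat_lit 0) (nat_lit 0),Row.mk (nat_lit 17976) (nat_lit 32912) (nat_lit 1797) (nat_lit 61710) (nat_lit 8386810) (nat_lit 0) (nat_lit 0),Row.mk (nat_lit 18144) (nat_lit 32912) (nat_lit 1797) (nat_lit 61710) (nat_lit 8386810) (nat_lit 0) (nat_lit 0),Row.mk (nat_lit 18312) (nat_lit 32912) (nat_lit 1797) (nat_lit 61710) (nat_lit 8386810) (nat_lit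 0) (nat_lit 0),Row.mk (nat_lit 18480) (nat_lit 32912) (nat_lit 1797) (nat_lit 61710) (nat_lit 8386810) (nat_lit 0) (nat_lit 0),Row.mk (nat_lit 18648) (nat_lit 32912) (nat_lit 1797) (nat_lit 61710) (nat_lit 8386810) (nat_lit 0) (nat_lit 0),Row.mk (nat_lit 18816) (nat_lit 32912) (nat_lit 1797) (nat_lit 61710) (nat_lit 8386810) (nat_lit 0) (nat_lit 0),Row.mk (nat_lit 18984) (nat_lit 32912) (nat_lit 1797) (nat_lit 61710) (nat_lit 8386810) (nat_lit 0) (nat_lit 0),Row.mk (nat_lit 19152) (nat_lit 32912) (nat_lit 1797) (nat_lit 61710) (nat_lit 8386810) (nat_lit 0) (nat_lit 0),Row.mk (nat_lit 19320) (nat_lit 32912) (nat_lit 1797) (nat_lit 61710) (nat_lit 8386810) (nat_lit 0) (nat_lit 0),Row.mk (nat_lit 19488) (nat_lit 32912) (nat_lit 1797) (nat_lit 61710) (nat_lit 8386810) (nat_lit 0) (nat_lit 0),Row.mk (nat_lit 19656) (nat_lit 32912) (nat_lit 1797) (nat_lit 61710) (nat_lit 8386810) (nat_lit 0) (nat_lit 0),Row.mk (nat_lit 19824) (nat_lit 32912)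 (nat_lit 1797) (nat_lit 61710) (nat_lit 8386810) (nat_lit 0) (nat_lit 0),Row.mk (nat_lit 19992) (nat_lit 32912) (nat_lit 1797) (nat_lit 61710) (nat_lit 8386810) (nat_lit 0) (nat_lit 0),Row.mk (nat_lit 20160) (nat_lit 32912) (nat_lit 1797) (nat_lit 61710) (nat_lit 8386810) (nat_lit 0) (nat_lit 0),Row.mk (nat_lit 20328) (nat_lit 32912) (nat_lit 1797) (nat_lit 61710) (nat_lit 8386810) (nat_lit 0) (nat_lit 0),Row.mk (nat_lit 20496) (nat_lit 32912) (nat_lit 1797) (nat_lit 61710) (nat_lit 8386810) (nat_lit 0) (nat_lit 0),Row.mk (nat_lit 20664) (nat_lit 32912) (nat_lit 1797) (nat_lit 61710) (nat_lit 8386810) (nat_lit 0) (nat_lit 0),Row.mk (nat_lit 20832) (nat_lit 32912) (nat_lit 1797) (nat_lit 61710) (nat_lit 8386810) (nat_lit 0) (nat_lit 0),Row.mk (nat_lit 21000) (nat_lit 32912) (nat_lit 1797) (nat_lit 61710) (nat_lit 8386810) (nat_lit 0) (nat_lit 0),Row.mk (nat_lit 21168) (nat_lit 32912) (nat_lit 1797) (nat_lit 61710) (nat_lit 8386810)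 (nat_lit 0) (nat_lit 0),Row.mk (nat_lit 21336) (nat_lit 32912) (nat_lit 1797) (nat_lit 61710) (nat_lit 8386810) (nat_lit 0) (nat_lit 0),Row.mk (nat_lit 21504) (nat_lit 32912) (nat_lit 1797) (nat_lit 61710) (nat_lit 8386810) (nat_lit 0) (nat_lit 0),Row.mk (nat_lit 21672) (nat_lit 32912) (nat_lit 1797) (nat_lit 61710) (nat_lit 8386810) (nat_lit 0) (nat_lit 0),Row.mk (nat_lit 21840) (nat_lit 32912) (nat_lit 1797) (nat_lit 61710) (nat_lit 8386810) (nat_lit 0) (nat_lit 0),Row.mk (nat_lit 22008) (nat_lit 32912) (nat_lit 1797) (nat_lit 61710) (nat_lit 8386810) (nat_lit 0) (nat_lit 0),Row.mk (nat_lit 22176) (nat_lit 32912) (nat_lit 1797) (nat_lit 61710) (nat_lit 8386810) (nat_lit 0) (nat_lit 0),Row.mk (nat_lit 22344) (nat_lit 32912) (nat_lit 1797) (nat_lit 61710) (nat_lit 8386810) (nat_lit 0) (nat_lit 0),Row.mk (nat_lit 22512) (nat_lit 32912) (nat_lit 1797) (nat_lit 61710) (nat_lit 8386810) (nat_lit 0) (nat_lit 0),Row.mk (nat_lit 22680) (nat_lit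 32912) (nat_lit 1797) (nat_lit 61710) (nat_lit 8386810) (nat_lit 0) (nat_lit 0),Row.mk (nat_lit 22848) (nat_lit 32912) (nat_lit 1797) (nat_lit 61710) (nat_lit 8386810) (nat_lit 0) (nat_lit 0),Row.mk (nat_lit 23016) (nat_lit 32912) (nat_lit 1797) (nat_lit 61710) (nat_lit 8386810) (nat_lit 0) (nat_lit 0),Row.mk (nat_lit 23184) (nat_lit 32912) (nat_lit 1797) (nat_lit 61710) (nat_lit 8386810) (nat_lit 0) (nat_lit 0),Row.mk (nat_lit 23352) (nat_lit 32912) (nat_lit 1797) (nat_lit 61710) (nat_lit 8386810) (nat_lit 0) (nat_lit 0),Row.mk (nat_lit 23520) (nat_lit 32912) (nat_lit 1797) (nat_lit 61710) (nat_lit 8386810) (nat_lit 0) (nat_lit 0),Row.mk (nat_lit 23688) (nat_lit 32912) (nat_lit 1797) (nat_lit 61710) (nat_lit 8386810) (nat_lit 0) (nat_lit 0),Row.mk (nat_lit 23856) (nat_lit 32912) (nat_lit 1797) (nat_lit 61710) (nat_lit 8386810) (nat_lit 0) (nat_lit 0)],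
[Row.mk (nat_lit 15456) (nat_lit 32912) (nat_lit 2244) (nat_lit 61710) (nat_lit 8386363) (nat_lit 0) (nat_lit 0),Row.mk (nat_lit 15624) (nat_lit 32912) (nat_lit 2244) (nat_lit 61710) (nat_lit 8386363) (nat_lit 0) (nat_lit 0),Row.mk (nat_lit 15792) (nat_lit 32912) (nat_lit 2244) (nat_lit 61710) (nat_lit 8386363) (nat_lit 0) (nat_lit 0),Row.mk (nat_lit 15960) (nat_lit 32912) (nat_lit 2244) (nat_lit 61710) (nat_lit 8386363) (nat_lit 0) (nat_lit 0),Row.mk (nat_lit 16128) (nat_lit 32912) (nat_lit 2244) (nat_lit 61710) (nat_lit 8386363) (nat_lit 0) (nat_lit 0),Row.mk (nat_lit 16296) (nat_lit 32912) (nat_lit 2244) (nat_lit 61710) (nat_lit 8386363) (nat_lit 0) (nat_lit 0),Row.mk (nat_lit 16464) (nat_lit 32912) (nat_lit 2244) (nat_lit 61710) (nat_lit 8386363) (nat_lit 0) (nat_lit 0),Row.mk (nat_lit 16632) (nat_lit 32912) (nat_lit 2244) (nat_lit 61710) (nat_lit 8386363) (nat_lit 0) (nat_lit 0),Row.mk (nat_lit 16800) (nat_lit 32912) (nat_lit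 2244) (nat_lit 61710) (nat_lit 8386363) (nat_lit 0) (nat_lit 0),Row.mk (nat_lit 16968) (nat_lit 32912) (nat_lit 2244) (nat_lit 61710) (nat_lit 8386363) (nat_lit 0) (nat_lit 0),Row.mk (nat_lit 17136) (nat_lit 32912) (nat_lit 2244) (nat_lit 61710) (nat_lit 8386363) (nat_lit 0) (nat_lit 0),Row.mk (nat_lit 17304) (nat_lit 32912) (nat_lit 2244) (nat_lit 61710) (nat_lit 8386363) (nat_lit 0) (nat_lit 0),Row.mk (nat_lit 17472) (nat_lit 32912) (nat_lit 2244) (nat_lit 61710) (nat_lit 8386363) (nat_lit 0) (nat_lit 0),Row.mk (nat_lit 17640) (nat_lit 32912) (nat_lit 2244) (nat_lit 61710) (nat_lit 8386363) (nat_lit 0) (nat_lit 0),Row.mk (nat_lit 17808) (nat_lit 32912) (nat_lit 2244) (nat_lit 61710) (nat_lit 8386363) (nat_lit 0) (nat_lit 0),Row.mk (nat_lit 17976) (nat_lit 32912) (nat_lit 2244) (nat_lit 61710) (nat_lit 8386363) (nat_lit 0) (nat_lit 0),Row.mk (nat_lit 18144) (nat_lit 32912) (nat_lit 2244) (nat_lit 61710) (nat_lit 8386363) (nat_lit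 0) (nat_lit 0),Row.mk (nat_lit 18312) (nat_lit 32912) (nat_lit 2244) (nat_lit 61710) (nat_lit 8386363) (nat_lit 0) (nat_lit 0),Row.mk (nat_lit 18480) (nat_lit 32912) (nat_lit 2244) (nat_lit 61710) (nat_lit 8386363) (nat_lit 0) (nat_lit 0),Row.mk (nat_lit 18648) (nat_lit 32912) (nat_lit 2244) (nat_lit 61710) (nat_lit 8386363) (nat_lit 0) (nat_lit 0),Row.mk (nat_lit 18816) (nat_lit 32912) (nat_lit 2244) (nat_lit 61710) (nat_lit 8386363) (nat_lit 0) (nat_lit 0),Row.mk (nat_lit 18984) (nat_lit 32912) (nat_lit 2244) (nat_lit 61710) (nat_lit 8386363) (nat_lit 0) (nat_lit 0),Row.mk (nat_lit 19152) (nat_lit 32912) (nat_lit 2244) (nat_lit 61710) (nat_lit 8386363) (nat_lit 0) (nat_lit 0),Row.mk (nat_lit 19320) (nat_lit 32912) (nat_lit 2244) (nat_lit 61710) (nat_lit 8386363) (nat_lit 0) (nat_lit 0),Row.mk (nat_lit 19488) (nat_lit 32912) (nat_lit 2244) (nat_lit 61710) (nat_lit 8386363) (nat_lit 0) (nat_lit 0),Row.mk (nat_lit 19656) (nat_lit 32912)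 (nat_lit 2244) (nat_lit 61710) (nat_lit 8386363) (nat_lit 0) (nat_lit 0),Row.mk (nat_lit 19824) (nat_lit 32912) (nat_lit 2244) (nat_lit 61710) (nat_lit 8386363) (nat_lit 0) (nat_lit 0),Row.mk (nat_lit 19992) (nat_lit 32912) (nat_lit 2244) (nat_lit 61710) (nat_lit 8386363) (nat_lit 0) (nat_lit 0),Row.mk (nat_lit 20160) (nat_lit 32912) (nat_lit 2244) (nat_lit 61710) (nat_lit 8386363) (nat_lit 0) (nat_lit 0),Row.mk (nat_lit 20328) (nat_lit 32912) (nat_lit 2244) (nat_lit 61710) (nat_lit 8386363) (nat_lit 0) (nat_lit 0),Row.mk (nat_lit 20496) (nat_lit 32912) (nat_lit 2244) (nat_lit 61710) (nat_lit 8386363) (nat_lit 0) (nat_lit 0),Row.mk (nat_lit 20664) (nat_lit 32912) (nat_lit 2244) (nat_lit 61710) (nat_lit 8386363) (nat_lit 0) (nat_lit 0),Row.mk (nat_lit 20832) (nat_lit 32912) (nat_lit 2244) (nat_lit 61710) (nat_lit 8386363) (nat_lit 0) (nat_lit 0),Row.mk (nat_lit 21000) (nat_lit 32912) (nat_lit 2244) (nat_lit 61710) (nat_lit 8386363)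 (nat_lit 0) (nat_lit 0),Row.mk (nat_lit 21168) (nat_lit 32912) (nat_lit 2244) (nat_lit 61710) (nat_lit 8386363) (nat_lit 0) (nat_lit 0),Row.mk (nat_lit 21336) (nat_lit 32912) (nat_lit 2244) (nat_lit 61710) (nat_lit 8386363) (nat_lit 0) (nat_lit 0),Row.mk (nat_lit 21504) (nat_lit 32912) (nat_lit 2244) (nat_lit 61710) (nat_lit 8386363) (nat_lit 0) (nat_lit 0),Row.mk (nat_lit 21672) (nat_lit 32912) (nat_lit 2244) (nat_lit 61710) (nat_lit 8386363) (nat_lit 0) (nat_lit 0),Row.mk (nat_lit 21840) (nat_lit 32912) (nat_lit 2244) (nat_lit 61710) (nat_lit 8386363) (nat_lit 0) (nat_lit 0),Row.mk (nat_lit 22008) (nat_lit 32912) (nat_lit 2244) (nat_lit 61710) (nat_lit 8386363) (nat_lit 0) (nat_lit 0),Row.mk (nat_lit 22176) (nat_lit 32912) (nat_lit 2244) (nat_lit 61710) (nat_lit 8386363) (nat_lit 0) (nat_lit 0),Row.mk (nat_lit 22344) (nat_lit 32912) (nat_lit 2244) (nat_lit 61710) (nat_lit 8386363) (nat_lit 0) (nat_lit 0),Row.mk (nat_lit 22512) (nat_lit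 32912) (nat_lit 2244) (nat_lit 61710) (nat_lit 8386363) (nat_lit 0) (nat_lit 0),Row.mk (nat_lit 22680) (nat_lit 32912) (nat_lit 2244) (nat_lit 61710) (nat_lit 8386363) (nat_lit 0) (nat_lit 0),Row.mk (nat_lit 22848) (nat_lit 32912) (nat_lit 2244) (nat_lit 61710) (nat_lit 8386363) (nat_lit 0) (nat_lit 0),Row.mk (nat_lit 23016) (nat_lit 32912) (nat_lit 2244) (nat_lit 61710) (nat_lit 8386363) (nat_lit 0) (nat_lit 0),Row.mk (nat_lit 23184) (nat_lit 32912) (nat_lit 2244) (nat_lit 61710) (nat_lit 8386363) (nat_lit 0) (nat_lit 0),Row.mk (nat_lit 23352) (nat_lit 32912) (nat_lit 2244) (nat_lit 61710) (nat_lit 8386363) (nat_lit 0) (nat_lit 0),Row.mk (nat_lit 23520) (nat_lit 32912) (nat_lit 2244) (nat_lit 61710) (nat_lit 8386363) (nat_lit 0) (nat_lit 0),Row.mk (nat_lit 23688) (nat_lit 32912) (nat_lit 2244) (nat_lit 61710) (nat_lit 8386363) (nat_lit 0) (nat_lit 0),Row.mk (nat_lit 23856) (nat_lit 32912) (nat_lit 2244) (nat_lit 61710) (nat_lit 8386363)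 (nat_lit 0) (nat_lit 0),Row.mk (nat_lit 24024) (nat_lit 32912) (nat_lit 2244) (nat_lit 61710) (nat_lit 8386363) (nat_lit 0) (nat_lit 0)],
[Row.mk (nat_lit 15456) (nat_lit 32912) (nat_lit 2803) (nat_lit 61710) (nat_lit 8385804) (nat_lit 0) (nat_lit 0),Row.mk (nat_lit 15624) (nat_lit 32912) (nat_lit 2803) (nat_lit 61710) (nat_lit 8385804) (nat_lit 0) (nat_lit 0),Row.mk (nat_lit 15792) (nat_lit 32912) (nat_lit 2803) (nat_lit 61710) (nat_lit 8385804) (nat_lit 0) (nat_lit 0),Row.mk (nat_lit 15960) (nat_lit 32912) (nat_lit 2803) (nat_lit 61710) (nat_lit 8385804) (nat_lit 0) (nat_lit 0),Row.mk (nat_lit 16128) (nat_lit 32912) (nat_lit 2803) (nat_lit 61710) (nat_lit 8385804) (nat_lit 0) (nat_lit 0),Row.mk (nat_lit 16296) (nat_lit 32912) (nat_lit 2803) (nat_lit 61710) (nat_lit 8385804) (nat_lit 0) (nat_lit 0),Row.mk (nat_lit 16464) (nat_lit 32912) (nat_lit 2803) (nat_lit 61710) (nat_lit 8385804) (nat_lit 0) (nat_lit 0),Row.mk (nat_lit 16632)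 (nat_lit 32912) (nat_lit 2803) (nat_lit 61710) (nat_lit 8385804) (nat_lit 0) (nat_lit 0),Row.mk (nat_lit 16800) (nat_lit 32912) (nat_lit 2803) (nat_lit 61710) (nat_lit 8385804) (nat_lit 0) (nat_lit 0),Row.mk (nat_lit 16968) (nat_lit 32912) (nat_lit 2803) (nat_lit 61710) (nat_lit 8385804) (nat_lit 0) (nat_lit 0),Row.mk (nat_lit 17136) (nat_lit 32912) (nat_lit 2803) (nat_lit 61710) (nat_lit 8385804) (nat_lit 0) (nat_lit 0),Row.mk (nat_lit 17304) (nat_lit 32912) (nat_lit 2803) (nat_lit 61710) (nat_lit 8385804) (nat_lit 0) (nat_lit 0),Row.mk (nat_lit 17472) (nat_lit 32912) (nat_lit 2803) (nat_lit 61710) (nat_lit 8385804) (nat_lit 0) (nat_lit 0),Row.mk (nat_lit 17640) (nat_lit 32912) (nat_lit 2803) (nat_lit 61710) (nat_lit 8385804) (nat_lit 0) (nat_lit 0),Row.mk (nat_lit 17808) (nat_lit 32912) (nat_lit 2803) (nat_lit 61710) (nat_lit 8385804) (nat_lit 0) (nat_lit 0),Row.mk (nat_lit 17976) (nat_lit 32912) (nat_lit 2803) (nat_lit 61710) (nat_lit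 8385804) (nat_lit 0) (nat_lit 0),Row.mk (nat_lit 18144) (nat_lit 32912) (nat_lit 2803) (nat_lit 61710) (nat_lit 8385804) (nat_lit 0) (nat_lit 0),Row.mk (nat_lit 18312) (nat_lit 32912) (nat_lit 2803) (nat_lit 61710) (nat_lit 8385804) (nat_lit 0) (nat_lit 0),Row.mk (nat_lit 18480) (nat_lit 32912) (nat_lit 2803) (nat_lit 61710) (nat_lit 8385804) (nat_lit 0) (nat_lit 0),Row.mk (nat_lit 18648) (nat_lit 32912) (nat_lit 2803) (nat_lit 61710) (nat_lit 8385804) (nat_lit 0) (nat_lit 0),Row.mk (nat_lit 18816) (nat_lit 32912) (nat_lit 2803) (nat_lit 61710) (nat_lit 8385804) (nat_lit 0) (nat_lit 0),Row.mk (nat_lit 18984) (nat_lit 32912) (nat_lit 2803) (nat_lit 61710) (nat_lit 8385804) (nat_lit 0) (nat_lit 0),Row.mk (nat_lit 19152) (nat_lit 32912) (nat_lit 2803) (nat_lit 61710) (nat_lit 8385804) (nat_lit 0) (nat_lit 0),Row.mk (nat_lit 19320) (nat_lit 32912) (nat_lit 2803) (nat_lit 61710) (nat_lit 8385804) (nat_lit 0) (nat_lit 0),Row.mk (nat_lit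 19488) (nat_lit 32912) (nat_lit 2803) (nat_lit 61710) (nat_lit 8385804) (nat_lit 0) (nat_lit 0),Row.mk (nat_lit 19656) (nat_lit 32912) (nat_lit 2803) (nat_lit 61710) (nat_lit 8385804) (nat_lit 0) (nat_lit 0),Row.mk (nat_lit 19824) (nat_lit 32912) (nat_lit 2803) (nat_lit 61710) (nat_lit 8385804) (nat_lit 0) (nat_lit 0),Row.mk (nat_lit 19992) (nat_lit 32912) (nat_lit 2803) (nat_lit 61710) (nat_lit 8385804) (nat_lit 0) (nat_lit 0),Row.mk (nat_lit 20160) (nat_lit 32912) (nat_lit 2803) (nat_lit 61710) (nat_lit 8385804) (nat_lit 0) (nat_lit 0),Row.mk (nat_lit 20328) (nat_lit 32912) (nat_lit 2803) (nat_lit 61710) (nat_lit 8385804) (nat_lit 0) (nat_lit 0),Row.mk (nat_lit 20496) (nat_lit 32912) (nat_lit 2803) (nat_lit 61710) (nat_lit 8385804) (nat_lit 0) (nat_lit 0),Row.mk (nat_lit 20664) (nat_lit 32912) (nat_lit 2803) (nat_lit 61710) (nat_lit 8385804) (nat_lit 0) (nat_lit 0),Row.mk (nat_lit 20832) (nat_lit 32912) (nat_lit 2803) (nat_lit 61710)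 (nat_lit 8385804) (nat_lit 0) (nat_lit 0),Row.mk (nat_lit 21000) (nat_lit 32912) (nat_lit 2803) (nat_lit 61710) (nat_lit 8385804) (nat_lit 0) (nat_lit 0),Row.mk (nat_lit 21168) (nat_lit 32912) (nat_lit 2803) (nat_lit 61710) (nat_lit 8385804) (nat_lit 0) (nat_lit 0),Row.mk (nat_lit 21336) (nat_lit 32912) (nat_lit 2803) (nat_lit 61710) (nat_lit 8385804) (nat_lit 0) (nat_lit 0),Row.mk (nat_lit 21504) (nat_lit 32912) (nat_lit 2803) (nat_lit 61710) (nat_lit 8385804) (nat_lit 0) (nat_lit 0),Row.mk (nat_lit 21672) (nat_lit 32912) (nat_lit 2803) (nat_lit 61710) (nat_lit 8385804) (nat_lit 0) (nat_lit 0),Row.mk (nat_lit 21840) (nat_lit 32912) (nat_lit 2803) (nat_lit 61710) (nat_lit 8385804) (nat_lit 0) (nat_lit 0),Row.mk (nat_lit 22008) (nat_lit 32912) (nat_lit 2803) (nat_lit 61710) (nat_lit 8385804) (nat_lit 0) (nat_lit 0),Row.mk (nat_lit 22176) (nat_lit 32912) (nat_lit 2803) (nat_lit 61710) (nat_lit 8385804) (nat_lit 0) (nat_lit 0),Row.mk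 (nat_lit 22344) (nat_lit 32912) (nat_lit 2803) (nat_lit 61710) (nat_lit 8385804) (nat_lit 0) (nat_lit 0),Row.mk (nat_lit 22512) (nat_lit 32912) (nat_lit 2803) (nat_lit 61710) (nat_lit 8385804) (nat_lit 0) (nat_lit 0),Row.mk (nat_lit 22680) (nat_lit 32912) (nat_lit 2803) (nat_lit 61710) (nat_lit 8385804) (nat_lit 0) (nat_lit 0),Row.mk (nat_lit 22848) (nat_lit 32912) (nat_lit 2803) (nat_lit 61710) (nat_lit 8385804) (nat_lit 0) (nat_lit 0),Row.mk (nat_lit 23016) (nat_lit 32912) (nat_lit 2803) (nat_lit 61710) (nat_lit 8385804) (nat_lit 0) (nat_lit 0),Row.mk (nat_lit 23184) (nat_lit 32912) (nat_lit 2803) (nat_lit 61710) (nat_lit 8385804) (nat_lit 0) (nat_lit 0),Row.mk (nat_lit 23352) (nat_lit 32912) (nat_lit 2803) (nat_lit 61710) (nat_lit 8385804) (nat_lit 0) (nat_lit 0),Row.mk (nat_lit 23520) (nat_lit 32912) (nat_lit 2803) (nat_lit 61710) (nat_lit 8385804) (nat_lit 0) (nat_lit 0),Row.mk (nat_lit 23688) (nat_lit 32912) (nat_lit 2803) (nat_lit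 61710) (nat_lit 8385804) (nat_lit 0) (nat_lit 0),Row.mk (nat_lit 23856) (nat_lit 32912) (nat_lit 2803) (nat_lit 61710) (nat_lit 8385804) (nat_lit 0) (nat_lit 0),Row.mk (nat_lit 24024) (nat_lit 32912) (nat_lit 2803) (nat_lit 61710) (nat_lit 8385804) (nat_lit 0) (nat_lit 0)],
[Row.mk (nat_lit 15288) (nat_lit 32912) (nat_lit 3501) (nat_lit 61710) (nat_lit 8385106) (nat_lit 0) (nat_lit 0),Row.mk (nat_lit 15456) (nat_lit 32912) (nat_lit 3501) (nat_lit 61710) (nat_lit 8385106) (nat_lit 0) (nat_lit 0),Row.mk (nat_lit 15624) (nat_lit 32912) (nat_lit 3501) (nat_lit 61710) (nat_lit 8385106) (nat_lit 0) (nat_lit 0),Row.mk (nat_lit 15792) (nat_lit 32912) (nat_lit 3501) (nat_lit 61710) (nat_lit 8385106) (nat_lit 0) (nat_lit 0),Row.mk (nat_lit 15960) (nat_lit 32912) (nat_lit 3501) (nat_lit 61710) (nat_lit 8385106) (nat_lit 0) (nat_lit 0),Row.mk (nat_lit 16128) (nat_lit 32912) (nat_lit 3501) (nat_lit 61710) (nat_lit 8385106) (nat_lit 0) (nat_lit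 0),Row.mk (nat_lit 16296) (nat_lit 32912) (nat_lit 3501) (nat_lit 61710) (nat_lit 8385106) (nat_lit 0) (nat_lit 0),Row.mk (nat_lit 16464) (nat_lit 32912) (nat_lit 3501) (nat_lit 61710) (nat_lit 8385106) (nat_lit 0) (nat_lit 0),Row.mk (nat_lit 16632) (nat_lit 32912) (nat_lit 3501) (nat_lit 61710) (nat_lit 8385106) (nat_lit 0) (nat_lit 0),Row.mk (nat_lit 16800) (nat_lit 32912) (nat_lit 3501) (nat_lit 61710) (nat_lit 8385106) (nat_lit 0) (nat_lit 0),Row.mk (nat_lit 16968) (nat_lit 32912) (nat_lit 3501) (nat_lit 61710) (nat_lit 8385106) (nat_lit 0) (nat_lit 0),Row.mk (nat_lit 17136) (nat_lit 32912) (nat_lit 3501) (nat_lit 61710) (nat_lit 8385106) (nat_lit 0) (nat_lit 0),Row.mk (nat_lit 17304) (nat_lit 32912) (nat_lit 3501) (nat_lit 61710) (nat_lit 8385106) (nat_lit 0) (nat_lit 0),Row.mk (nat_lit 17472) (nat_lit 32912) (nat_lit 3501) (nat_lit 61710) (nat_lit 8385106) (nat_lit 0) (nat_lit 0),Row.mk (nat_lit 17640) (nat_lit 32912) (nat_lit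 3501) (nat_lit 61710) (nat_lit 8385106) (nat_lit 0) (nat_lit 0),Row.mk (nat_lit 17808) (nat_lit 32912) (nat_lit 3501) (nat_lit 61710) (nat_lit 8385106) (nat_lit 0) (nat_lit 0),Row.mk (nat_lit 17976) (nat_lit 32912) (nat_lit 3501) (nat_lit 61710) (nat_lit 8385106) (nat_lit 0) (nat_lit 0),Row.mk (nat_lit 18144) (nat_lit 32912) (nat_lit 3501) (nat_lit 61710) (nat_lit 8385106) (nat_lit 0) (nat_lit 0),Row.mk (nat_lit 18312) (nat_lit 32912) (nat_lit 3501) (nat_lit 61710) (nat_lit 8385106) (nat_lit 0) (nat_lit 0),Row.mk (nat_lit 18480) (nat_lit 32912) (nat_lit 3501) (nat_lit 61710) (nat_lit 8385106) (nat_lit 0) (nat_lit 0),Row.mk (nat_lit 18648) (nat_lit 32912) (nat_lit 3501) (nat_lit 61710) (nat_lit 8385106) (nat_lit 0) (nat_lit 0),Row.mk (nat_lit 18816) (nat_lit 32912) (nat_lit 3501) (nat_lit 61710) (nat_lit 8385106) (nat_lit 0) (nat_lit 0),Row.mk (nat_lit 18984) (nat_lit 32912) (nat_lit 3501) (nat_lit 61710) (nat_lit 8385106) (nat_lit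 0) (nat_lit 0),Row.mk (nat_lit 19152) (nat_lit 32912) (nat_lit 3501) (nat_lit 61710) (nat_lit 8385106) (nat_lit 0) (nat_lit 0),Row.mk (nat_lit 19320) (nat_lit 32912) (nat_lit 3501) (nat_lit 61710) (nat_lit 8385106) (nat_lit 0) (nat_lit 0),Row.mk (nat_lit 19488) (nat_lit 32912) (nat_lit 3501) (nat_lit 61710) (nat_lit 8385106) (nat_lit 0) (nat_lit 0),Row.mk (nat_lit 19656) (nat_lit 32912) (nat_lit 3501) (nat_lit 61710) (nat_lit 8385106) (nat_lit 0) (nat_lit 0),Row.mk (nat_lit 19824) (nat_lit 32912) (nat_lit 3501) (nat_lit 61710) (nat_lit 8385106) (nat_lit 0) (nat_lit 0),Row.mk (nat_lit 19992) (nat_lit 32912) (nat_lit 3501) (nat_lit 61710) (nat_lit 8385106) (nat_lit 0) (nat_lit 0),Row.mk (nat_lit 20160) (nat_lit 32912) (nat_lit 3501) (nat_lit 61710) (nat_lit 8385106) (nat_lit 0) (nat_lit 0),Row.mk (nat_lit 20328) (nat_lit 32912) (nat_lit 3501) (nat_lit 61710) (nat_lit 8385106) (nat_lit 0) (nat_lit 0),Row.mk (nat_lit 20496) (nat_lit 32912)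 (nat_lit 3501) (nat_lit 61710) (nat_lit 8385106) (nat_lit 0) (nat_lit 0),Row.mk (nat_lit 20664) (nat_lit 32912) (nat_lit 3501) (nat_lit 61710) (nat_lit 8385106) (nat_lit 0) (nat_lit 0),Row.mk (nat_lit 20832) (nat_lit 32912) (nat_lit 3501) (nat_lit 61710) (nat_lit 8385106) (nat_lit 0) (nat_lit 0),Row.mk (nat_lit 21000) (nat_lit 32912) (nat_lit 3501) (nat_lit 61710) (nat_lit 8385106) (nat_lit 0) (nat_lit 0),Row.mk (nat_lit 21168) (nat_lit 32912) (nat_lit 3501) (nat_lit 61710) (nat_lit 8385106) (nat_lit 0) (nat_lit 0),Row.mk (nat_lit 21336) (nat_lit 32912) (nat_lit 3501) (nat_lit 61710) (nat_lit 8385106) (nat_lit 0) (nat_lit 0),Row.mk (nat_lit 21504) (nat_lit 32912) (nat_lit 3501) (nat_lit 61710) (nat_lit 8385106) (nat_lit 0) (nat_lit 0),Row.mk (nat_lit 21672) (nat_lit 32912) (nat_lit 3501) (nat_lit 61710) (nat_lit 8385106) (nat_lit 0) (nat_lit 0),Row.mk (nat_lit 21840) (nat_lit 32912) (nat_lit 3501) (nat_lit 61710) (nat_lit 8385106)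 (nat_lit 0) (nat_lit 0),Row.mk (nat_lit 22008) (nat_lit 32912) (nat_lit 3501) (nat_lit 61710) (nat_lit 8385106) (nat_lit 0) (nat_lit 0),Row.mk (nat_lit 22176) (nat_lit 32912) (nat_lit 3501) (nat_lit 61710) (nat_lit 8385106) (nat_lit 0) (nat_lit 0),Row.mk (nat_lit 22344) (nat_lit 32912) (nat_lit 3501) (nat_lit 61710) (nat_lit 8385106) (nat_lit 0) (nat_lit 0),Row.mk (nat_lit 22512) (nat_lit 32912) (nat_lit 3501) (nat_lit 61710) (nat_lit 8385106) (nat_lit 0) (nat_lit 0),Row.mk (nat_lit 22680) (nat_lit 32912) (nat_lit 3501) (nat_lit 61710) (nat_lit 8385106) (nat_lit 0) (nat_lit 0),Row.mk (nat_lit 22848) (nat_lit 32912) (nat_lit 3501) (nat_lit 61710) (nat_lit 8385106) (nat_lit 0) (nat_lit 0),Row.mk (nat_lit 23016) (nat_lit 32912) (nat_lit 3501) (nat_lit 61710) (nat_lit 8385106) (nat_lit 0) (nat_lit 0),Row.mk (nat_lit 23184) (nat_lit 32912) (nat_lit 3501) (nat_lit 61710) (nat_lit 8385106) (nat_lit 0) (nat_lit 0),Row.mk (nat_lit 23352) (nat_lit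 32912) (nat_lit 3501) (nat_lit 61710) (nat_lit 8385106) (nat_lit 0) (nat_lit 0),Row.mk (nat_lit 23520) (nat_lit 32912) (nat_lit 3501) (nat_lit 61710) (nat_lit 8385106) (nat_lit 0) (nat_lit 0),Row.mk (nat_lit 23688) (nat_lit 32912) (nat_lit 3501) (nat_lit 61710) (nat_lit 8385106) (nat_lit 0) (nat_lit 0),Row.mk (nat_lit 23856) (nat_lit 32912) (nat_lit 3501) (nat_lit 61710) (nat_lit 8385106) (nat_lit 0) (nat_lit 0),Row.mk (nat_lit 24024) (nat_lit 32912) (nat_lit 3501) (nat_lit 61710) (nat_lit 8385106) (nat_lit 0) (nat_lit 0),Row.mk (nat_lit 24192) (nat_lit 32912) (nat_lit 3501) (nat_lit 61710) (nat_lit 8385106) (nat_lit 0) (nat_lit 0)],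
[Row.mk (nat_lit 15120) (nat_lit 32912) (nat_lit 4373) (nat_lit 61710) (nat_lit 8384234) (nat_lit 0) (nat_lit 0),Row.mk (nat_lit 15288) (nat_lit 32912) (nat_lit 4373) (nat_lit 61710) (nat_lit 8384234) (nat_lit 0) (nat_lit 0),Row.mk (nat_lit 15456) (nat_lit 32912) (nat_lit 4373) (nat_lit 61710) (nat_lit 8384234) (nat_lit 0) (nat_lit 0),Row.mk (nat_lit 15624) (nat_lit 32912) (nat_lit 4373) (nat_lit 61710) (nat_lit 8384234) (nat_lit 0) (nat_lit 0),Row.mk (nat_lit 15792) (nat_lit 32912) (nat_lit 4373) (nat_lit 61710) (nat_lit 8384234) (nat_lit 0) (nat_lit 0),Row.mk (nat_lit 15960) (nat_lit 32912) (nat_lit 4373) (nat_lit 61710) (nat_lit 8384234) (nat_lit 0) (nat_lit 0),Row.mk (nat_lit 16128) (nat_lit 32912) (nat_lit 4373) (nat_lit 61710) (nat_lit 8384234) (nat_lit 0) (nat_lit 0),Row.mk (nat_lit 16296) (nat_lit 32912) (nat_lit 4373) (nat_lit 61710) (nat_lit 8384234) (nat_lit 0) (nat_lit 0),Row.mk (nat_lit 16464) (nat_lit 32912) (nat_lit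 4373) (nat_lit 61710) (nat_lit 8384234) (nat_lit 0) (nat_lit 0),Row.mk (nat_lit 16632) (nat_lit 32912) (nat_lit 4373) (nat_lit 61710) (nat_lit 8384234) (nat_lit 0) (nat_lit 0),Row.mk (nat_lit 16800) (nat_lit 32912) (nat_lit 4373) (nat_lit 61710) (nat_lit 8384234) (nat_lit 0) (nat_lit 0),Row.mk (nat_lit 16968) (nat_lit 32912) (nat_lit 4373) (nat_lit 61710) (nat_lit 8384234) (nat_lit 0) (nat_lit 0),Row.mk (nat_lit 17136) (nat_lit 32912) (nat_lit 4373) (nat_lit 61710) (nat_lit 8384234) (nat_lit 0) (nat_lit 0),Row.mk (nat_lit 17304) (nat_lit 32912) (nat_lit 4373) (nat_lit 61710) (nat_lit 8384234) (nat_lit 0) (nat_lit 0),Row.mk (nat_lit 17472) (nat_lit 32912) (nat_lit 4373) (nat_lit 61710) (nat_lit 8384234) (nat_lit 0) (nat_lit 0),Row.mk (nat_lit 17640) (nat_lit 32912) (nat_lit 4373) (nat_lit 61710) (nat_lit 8384234) (nat_lit 0) (nat_lit 0),Row.mk (nat_lit 17808) (nat_lit 32912) (nat_lit 4373) (nat_lit 61710) (nat_lit 8384234) (nat_lit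 0) (nat_lit 0),Row.mk (nat_lit 17976) (nat_lit 32912) (nat_lit 4373) (nat_lit 61710) (nat_lit 8384234) (nat_lit 0) (nat_lit 0),Row.mk (nat_lit 18144) (nat_lit 32912) (nat_lit 4373) (nat_lit 61710) (nat_lit 8384234) (nat_lit 0) (nat_lit 0),Row.mk (nat_lit 18312) (nat_lit 32912) (nat_lit 4373) (nat_lit 61710) (nat_lit 8384234) (nat_lit 0) (nat_lit 0),Row.mk (nat_lit 18480) (nat_lit 32912) (nat_lit 4373) (nat_lit 61710) (nat_lit 8384234) (nat_lit 0) (nat_lit 0),Row.mk (nat_lit 18648) (nat_lit 32912) (nat_lit 4373) (nat_lit 61710) (nat_lit 8384234) (nat_lit 0) (nat_lit 0),Row.mk (nat_lit 18816) (nat_lit 32912) (nat_lit 4373) (nat_lit 61710) (nat_lit 8384234) (nat_lit 0) (nat_lit 0),Row.mk (nat_lit 18984) (nat_lit 32912) (nat_lit 4373) (nat_lit 61710) (nat_lit 8384234) (nat_lit 0) (nat_lit 0),Row.mk (nat_lit 19152) (nat_lit 32912) (nat_lit 4373) (nat_lit 61710) (nat_lit 8384234) (nat_lit 0) (nat_lit 0),Row.mk (nat_lit 19320) (nat_lit 32912)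 (nat_lit 4373) (nat_lit 61710) (nat_lit 8384234) (nat_lit 0) (nat_lit 0),Row.mk (nat_lit 19488) (nat_lit 32912) (nat_lit 4373) (nat_lit 61710) (nat_lit 8384234) (nat_lit 0) (nat_lit 0),Row.mk (nat_lit 19656) (nat_lit 32912) (nat_lit 4373) (nat_lit 61710) (nat_lit 8384234) (nat_lit 0) (nat_lit 0),Row.mk (nat_lit 19824) (nat_lit 32912) (nat_lit 4373) (nat_lit 61710) (nat_lit 8384234) (nat_lit 0) (nat_lit 0),Row.mk (nat_lit 19992) (nat_lit 32912) (nat_lit 4373) (nat_lit 61710) (nat_lit 8384234) (nat_lit 0) (nat_lit 0),Row.mk (nat_lit 20160) (nat_lit 32912) (nat_lit 4373) (nat_lit 61710) (nat_lit 8384234) (nat_lit 0) (nat_lit 0),Row.mk (nat_lit 20328) (nat_lit 32912) (nat_lit 4373) (nat_lit 61710) (nat_lit 8384234) (nat_lit 0) (nat_lit 0),Row.mk (nat_lit 20496) (nat_lit 32912) (nat_lit 4373) (nat_lit 61710) (nat_lit 8384234) (nat_lit 0) (nat_lit 0),Row.mk (nat_lit 20664) (nat_lit 32912) (nat_lit 4373) (nat_lit 61710) (nat_lit 8384234)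 (nat_lit 0) (nat_lit 0),Row.mk (nat_lit 20832) (nat_lit 32912) (nat_lit 4373) (nat_lit 61710) (nat_lit 8384234) (nat_lit 0) (nat_lit 0),Row.mk (nat_lit 21000) (nat_lit 32912) (nat_lit 4373) (nat_lit 61710) (nat_lit 8384234) (nat_lit 0) (nat_lit 0),Row.mk (nat_lit 21168) (nat_lit 32912) (nat_lit 4373) (nat_lit 61710) (nat_lit 8384234) (nat_lit 0) (nat_lit 0),Row.mk (nat_lit 21336) (nat_lit 32912) (nat_lit 4373) (nat_lit 61710) (nat_lit 8384234) (nat_lit 0) (nat_lit 0),Row.mk (nat_lit 21504) (nat_lit 32912) (nat_lit 4373) (nat_lit 61710) (nat_lit 8384234) (nat_lit 0) (nat_lit 0),Row.mk (nat_lit 21672) (nat_lit 32912) (nat_lit 4373) (nat_lit 61710) (nat_lit 8384234) (nat_lit 0) (nat_lit 0),Row.mk (nat_lit 21840) (nat_lit 32912) (nat_lit 4373) (nat_lit 61710) (nat_lit 8384234) (nat_lit 0) (nat_lit 0),Row.mk (nat_lit 22008) (nat_lit 32912) (nat_lit 4373) (nat_lit 61710) (nat_lit 8384234) (nat_lit 0) (nat_lit 0),Row.mk (nat_lit 22176) (nat_lit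 32912) (nat_lit 4373) (nat_lit 61710) (nat_lit 8384234) (nat_lit 0) (nat_lit 0),Row.mk (nat_lit 22344) (nat_lit 32912) (nat_lit 4373) (nat_lit 61710) (nat_lit 8384234) (nat_lit 0) (nat_lit 0),Row.mk (nat_lit 22512) (nat_lit 32912) (nat_lit 4373) (nat_lit 61710) (nat_lit 8384234) (nat_lit 0) (nat_lit 0),Row.mk (nat_lit 22680) (nat_lit 32912) (nat_lit 4373) (nat_lit 61710) (nat_lit 8384234) (nat_lit 0) (nat_lit 0),Row.mk (nat_lit 22848) (nat_lit 32912) (nat_lit 4373) (nat_lit 61710) (nat_lit 8384234) (nat_lit 0) (nat_lit 0),Row.mk (nat_lit 23016) (nat_lit 32912) (nat_lit 4373) (nat_lit 61710) (nat_lit 8384234) (nat_lit 0) (nat_lit 0),Row.mk (nat_lit 23184) (nat_lit 32912) (nat_lit 4373) (nat_lit 61710) (nat_lit 8384234) (nat_lit 0) (nat_lit 0),Row.mk (nat_lit 23352) (nat_lit 32912) (nat_lit 4373) (nat_lit 61710) (nat_lit 8384234) (nat_lit 0) (nat_lit 0),Row.mk (nat_lit 23520) (nat_lit 32912) (nat_lit 4373) (nat_lit 61710) (nat_lit 8384234)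 (nat_lit 0) (nat_lit 0),Row.mk (nat_lit 23688) (nat_lit 32912) (nat_lit 4373) (nat_lit 61710) (nat_lit 8384234) (nat_lit 0) (nat_lit 0),Row.mk (nat_lit 23856) (nat_lit 32912) (nat_lit 4373) (nat_lit 61710) (nat_lit 8384234) (nat_lit 0) (nat_lit 0),Row.mk (nat_lit 24024) (nat_lit 32912) (nat_lit 4373) (nat_lit 61710) (nat_lit 8384234) (nat_lit 0) (nat_lit 0),Row.mk (nat_lit 24192) (nat_lit 32912) (nat_lit 4373) (nat_lit 61710) (nat_lit 8384234) (nat_lit 0) (nat_lit 0)],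
[Row.mk (nat_lit 14952) (nat_lit 32912) (nat_lit 5462) (nat_lit 61710) (nat_lit 8383145) (nat_lit 0) (nat_lit 0),Row.mk (nat_lit 15120) (nat_lit 32912) (nat_lit 5462) (nat_lit 61710) (nat_lit 8383145) (nat_lit 0) (nat_lit 0),Row.mk (nat_lit 15288) (nat_lit 32912) (nat_lit 5462) (nat_lit 61710) (nat_lit 8383145) (nat_lit 0) (nat_lit 0),Row.mk (nat_lit 15456) (nat_lit 32912) (nat_lit 5462) (nat_lit 61710) (nat_lit 8383145) (nat_lit 0) (nat_lit 0),Row.mk (nat_lit 15624) (nat_lit 32912) (nat_lit 5462) (nat_lit 61710) (nat_lit 8383145) (nat_lit 0) (nat_lit 0),Row.mk (nat_lit 15792) (nat_lit 32912) (nat_lit 5462) (nat_lit 61710) (nat_lit 8383145) (nat_lit 0) (nat_lit 0),Row.mk (nat_lit 15960) (nat_lit 32912) (nat_lit 5462) (nat_lit 61710) (nat_lit 8383145) (nat_lit 0) (nat_lit 0),Row.mk (nat_lit 16128) (nat_lit 32912) (nat_lit 5462) (nat_lit 61710) (nat_lit 8383145) (nat_lit 0) (nat_lit 0),Row.mk (nat_lit 16296) (nat_lit 32912) (nat_lit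 5462) (nat_lit 61710) (nat_lit 8383145) (nat_lit 0) (nat_lit 0),Row.mk (nat_lit 16464) (nat_lit 32912) (nat_lit 5462) (nat_lit 61710) (nat_lit 8383145) (nat_lit 0) (nat_lit 0),Row.mk (nat_lit 16632) (nat_lit 32912) (nat_lit 5462) (nat_lit 61710) (nat_lit 8383145) (nat_lit 0) (nat_lit 0),Row.mk (nat_lit 16800) (nat_lit 32912) (nat_lit 5462) (nat_lit 61710) (nat_lit 8383145) (nat_lit 0) (nat_lit 0),Row.mk (nat_lit 16968) (nat_lit 32912) (nat_lit 5462) (nat_lit 61710) (nat_lit 8383145) (nat_lit 0) (nat_lit 0),Row.mk (nat_lit 17136) (nat_lit 32912) (nat_lit 5462) (nat_lit 61710) (nat_lit 8383145) (nat_lit 0) (nat_lit 0),Row.mk (nat_lit 17304) (nat_lit 32912) (nat_lit 5462) (nat_lit 61710) (nat_lit 8383145) (nat_lit 0) (nat_lit 0),Row.mk (nat_lit 17472) (nat_lit 32912) (nat_lit 5462) (nat_lit 61710) (nat_lit 8383145) (nat_lit 0) (nat_lit 0),Row.mk (nat_lit 17640) (nat_lit 32912) (nat_lit 5462) (nat_lit 61710) (nat_lit 8383145) (nat_lit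 0) (nat_lit 0),Row.mk (nat_lit 17808) (nat_lit 32912) (nat_lit 5462) (nat_lit 61710) (nat_lit 8383145) (nat_lit 0) (nat_lit 0),Row.mk (nat_lit 17976) (nat_lit 32912) (nat_lit 5462) (nat_lit 61710) (nat_lit 8383145) (nat_lit 0) (nat_lit 0),Row.mk (nat_lit 18144) (nat_lit 32912) (nat_lit 5462) (nat_lit 61710) (nat_lit 8383145) (nat_lit 0) (nat_lit 0),Row.mk (nat_lit 18312) (nat_lit 32912) (nat_lit 5462) (nat_lit 61710) (nat_lit 8383145) (nat_lit 0) (nat_lit 0),Row.mk (nat_lit 18480) (nat_lit 32912) (nat_lit 5462) (nat_lit 61710) (nat_lit 8383145) (nat_lit 0) (nat_lit 0),Row.mk (nat_lit 18648) (nat_lit 32912) (nat_lit 5462) (nat_lit 61710) (nat_lit 8383145) (nat_lit 0) (nat_lit 0),Row.mk (nat_lit 18816) (nat_lit 32912) (nat_lit 5462) (nat_lit 61710) (nat_lit 8383145) (nat_lit 0) (nat_lit 0),Row.mk (nat_lit 18984) (nat_lit 32912) (nat_lit 5462) (nat_lit 61710) (nat_lit 8383145) (nat_lit 0) (nat_lit 0),Row.mk (nat_lit 19152) (nat_lit 32912)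 (nat_lit 5462) (nat_lit 61710) (nat_lit 8383145) (nat_lit 0) (nat_lit 0),Row.mk (nat_lit 19320) (nat_lit 32912) (nat_lit 5462) (nat_lit 61710) (nat_lit 8383145) (nat_lit 0) (nat_lit 0),Row.mk (nat_lit 19488) (nat_lit 32912) (nat_lit 5462) (nat_lit 61710) (nat_lit 8383145) (nat_lit 0) (nat_lit 0),Row.mk (nat_lit 19656) (nat_lit 32912) (nat_lit 5462) (nat_lit 61710) (nat_lit 8383145) (nat_lit 0) (nat_lit 0),Row.mk (nat_lit 19824) (nat_lit 32912) (nat_lit 5462) (nat_lit 61710) (nat_lit 8383145) (nat_lit 0) (nat_lit 0),Row.mk (nat_lit 19992) (nat_lit 32912) (nat_lit 5462) (nat_lit 61710) (nat_lit 8383145) (nat_lit 0) (nat_lit 0),Row.mk (nat_lit 20160) (nat_lit 32912) (nat_lit 5462) (nat_lit 61710) (nat_lit 8383145) (nat_lit 0) (nat_lit 0),Row.mk (nat_lit 20328) (nat_lit 32912) (nat_lit 5462) (nat_lit 61710) (nat_lit 8383145) (nat_lit 0) (nat_lit 0),Row.mk (nat_lit 20496) (nat_lit 32912) (nat_lit 5462) (nat_lit 61710) (nat_lit 8383145)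 (nat_lit 0) (nat_lit 0),Row.mk (nat_lit 20664) (nat_lit 32912) (nat_lit 5462) (nat_lit 61710) (nat_lit 8383145) (nat_lit 0) (nat_lit 0),Row.mk (nat_lit 20832) (nat_lit 32912) (nat_lit 5462) (nat_lit 61710) (nat_lit 8383145) (nat_lit 0) (nat_lit 0),Row.mk (nat_lit 21000) (nat_lit 32912) (nat_lit 5462) (nat_lit 61710) (nat_lit 8383145) (nat_lit 0) (nat_lit 0),Row.mk (nat_lit 21168) (nat_lit 32912) (nat_lit 5462) (nat_lit 61710) (nat_lit 8383145) (nat_lit 0) (nat_lit 0),Row.mk (nat_lit 21336) (nat_lit 32912) (nat_lit 5462) (nat_lit 61710) (nat_lit 8383145) (nat_lit 0) (nat_lit 0),Row.mk (nat_lit 21504) (nat_lit 32912) (nat_lit 5462) (nat_lit 61710) (nat_lit 8383145) (nat_lit 0) (nat_lit 0),Row.mk (nat_lit 21672) (nat_lit 32912) (nat_lit 5462) (nat_lit 61710) (nat_lit 8383145) (nat_lit 0) (nat_lit 0),Row.mk (nat_lit 21840) (nat_lit 32912) (nat_lit 5462) (nat_lit 61710) (nat_lit 8383145) (nat_lit 0) (nat_lit 0),Row.mk (nat_lit 22008) (nat_lit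 32912) (nat_lit 5462) (nat_lit 61710) (nat_lit 8383145) (nat_lit 0) (nat_lit 0),Row.mk (nat_lit 22176) (nat_lit 32912) (nat_lit 5462) (nat_lit 61710) (nat_lit 8383145) (nat_lit 0) (nat_lit 0),Row.mk (nat_lit 22344) (nat_lit 32912) (nat_lit 5462) (nat_lit 61710) (nat_lit 8383145) (nat_lit 0) (nat_lit 0),Row.mk (nat_lit 22512) (nat_lit 32912) (nat_lit 5462) (nat_lit 61710) (nat_lit 8383145) (nat_lit 0) (nat_lit 0),Row.mk (nat_lit 22680) (nat_lit 32912) (nat_lit 5462) (nat_lit 61710) (nat_lit 8383145) (nat_lit 0) (nat_lit 0),Row.mk (nat_lit 22848) (nat_lit 32912) (nat_lit 5462) (nat_lit 61710) (nat_lit 8383145) (nat_lit 0) (nat_lit 0),Row.mk (nat_lit 23016) (nat_lit 32912) (nat_lit 5462) (nat_lit 61710) (nat_lit 8383145) (nat_lit 0) (nat_lit 0),Row.mk (nat_lit 23184) (nat_lit 32912) (nat_lit 5462) (nat_lit 61710) (nat_lit 8383145) (nat_lit 0) (nat_lit 0),Row.mk (nat_lit 23352) (nat_lit 32912) (nat_lit 5462) (nat_lit 61710) (nat_lit 8383145)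 (nat_lit 0) (nat_lit 0),Row.mk (nat_lit 23520) (nat_lit 32912) (nat_lit 5462) (nat_lit 61710) (nat_lit 8383145) (nat_lit 0) (nat_lit 0),Row.mk (nat_lit 23688) (nat_lit 32912) (nat_lit 5462) (nat_lit 61710) (nat_lit 8383145) (nat_lit 0) (nat_lit 0),Row.mk (nat_lit 23856) (nat_lit 32912) (nat_lit 5462) (nat_lit 61710) (nat_lit 8383145) (nat_lit 0) (nat_lit 0),Row.mk (nat_lit 24024) (nat_lit 32912) (nat_lit 5462) (nat_lit 61710) (nat_lit 8383145) (nat_lit 0) (nat_lit 0),Row.mk (nat_lit 24192) (nat_lit 32912) (nat_lit 5462) (nat_lit 61710) (nat_lit 8383145) (nat_lit 0) (nat_lit 0),Row.mk (nat_lit 24360) (nat_lit 32912) (nat_lit 5462) (nat_lit 61710) (nat_lit 8383145) (nat_lit 0) (nat_lit 0)],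
[Row.mk (nat_lit 14616) (nat_lit 32912) (nat_lit 6822) (nat_lit 61710) (nat_lit 8381785) (nat_lit 0) (nat_lit 0),Row.mk (nat_lit 14784) (nat_lit 32912) (nat_lit 6822) (nat_lit 61710) (nat_lit 8381785) (nat_lit 0) (nat_lit 0),Row.mk (nat_lit 14952) (nat_lit 32912) (nat_lit 6822) (nat_lit 61710) (nat_lit 8381785) (nat_lit 0) (nat_lit 0),Row.mk (nat_lit 15120) (nat_lit 32912) (nat_lit 6822) (nat_lit 61710) (nat_lit 8381785) (nat_lit 0) (nat_lit 0),Row.mk (nat_lit 15288) (nat_lit 32912) (nat_lit 6822) (nat_lit 61710) (nat_lit 8381785) (nat_lit 0) (nat_lit 0),Row.mk (nat_lit 15456) (nat_lit 32912) (nat_lit 6822) (nat_lit 61710) (nat_lit 8381785) (nat_lit 0) (nat_lit 0),Row.mk (nat_lit 15624) (nat_lit 32912) (nat_lit 6822) (nat_lit 61710) (nat_lit 8381785) (nat_lit 0) (nat_lit 0),Row.mk (nat_lit 15792) (nat_lit 32912) (nat_lit 6822) (nat_lit 61710) (nat_lit 8381785) (nat_lit 0) (nat_lit 0),Row.mk (nat_lit 15960) (nat_lit 32912) (nat_lit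 6822) (nat_lit 61710) (nat_lit 8381785) (nat_lit 0) (nat_lit 0),Row.mk (nat_lit 16128) (nat_lit 32912) (nat_lit 6822) (nat_lit 61710) (nat_lit 8381785) (nat_lit 0) (nat_lit 0),Row.mk (nat_lit 16296) (nat_lit 32912) (nat_lit 6822) (nat_lit 61710) (nat_lit 8381785) (nat_lit 0) (nat_lit 0),Row.mk (nat_lit 16464) (nat_lit 32912) (nat_lit 6822) (nat_lit 61710) (nat_lit 8381785) (nat_lit 0) (nat_lit 0),Row.mk (nat_lit 16632) (nat_lit 32912) (nat_lit 6822) (nat_lit 61710) (nat_lit 8381785) (nat_lit 0) (nat_lit 0),Row.mk (nat_lit 16800) (nat_lit 32912) (nat_lit 6822) (nat_lit 61710) (nat_lit 8381785) (nat_lit 0) (nat_lit 0),Row.mk (nat_lit 16968) (nat_lit 32912) (nat_lit 6822) (nat_lit 61710) (nat_lit 8381785) (nat_lit 0) (nat_lit 0),Row.mk (nat_lit 17136) (nat_lit 32912) (nat_lit 6822) (nat_lit 61710) (nat_lit 8381785) (nat_lit 0) (nat_lit 0),Row.mk (nat_lit 17304) (nat_lit 32912) (nat_lit 6822) (nat_lit 61710) (nat_lit 8381785) (nat_lit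 0) (nat_lit 0),Row.mk (nat_lit 17472) (nat_lit 32912) (nat_lit 6822) (nat_lit 61710) (nat_lit 8381785) (nat_lit 0) (nat_lit 0),Row.mk (nat_lit 17640) (nat_lit 32912) (nat_lit 6822) (nat_lit 61710) (nat_lit 8381785) (nat_lit 0) (nat_lit 0),Row.mk (nat_lit 17808) (nat_lit 32912) (nat_lit 6822) (nat_lit 61710) (nat_lit 8381785) (nat_lit 0) (nat_lit 0),Row.mk (nat_lit 17976) (nat_lit 32912) (nat_lit 6822) (nat_lit 61710) (nat_lit 8381785) (nat_lit 0) (nat_lit 0),Row.mk (nat_lit 18144) (nat_lit 32912) (nat_lit 6822) (nat_lit 61710) (nat_lit 8381785) (nat_lit 0) (nat_lit 0),Row.mk (nat_lit 18312) (nat_lit 32912) (nat_lit 6822) (nat_lit 61710) (nat_lit 8381785) (nat_lit 0) (nat_lit 0),Row.mk (nat_lit 18480) (nat_lit 32912) (nat_lit 6822) (nat_lit 61710) (nat_lit 8381785) (nat_lit 0) (nat_lit 0),Row.mk (nat_lit 18648) (nat_lit 32912) (nat_lit 6822) (nat_lit 61710) (nat_lit 8381785) (nat_lit 0) (nat_lit 0),Row.mk (nat_lit 18816) (nat_lit 32912)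 (nat_lit 6822) (nat_lit 61710) (nat_lit 8381785) (nat_lit 0) (nat_lit 0),Row.mk (nat_lit 18984) (nat_lit 32912) (nat_lit 6822) (nat_lit 61710) (nat_lit 8381785) (nat_lit 0) (nat_lit 0),Row.mk (nat_lit 19152) (nat_lit 32912) (nat_lit 6822) (nat_lit 61710) (nat_lit 8381785) (nat_lit 0) (nat_lit 0),Row.mk (nat_lit 19320) (nat_lit 32912) (nat_lit 6822) (nat_lit 61710) (nat_lit 8381785) (nat_lit 0) (nat_lit 0),Row.mk (nat_lit 19488) (nat_lit 32912) (nat_lit 6822) (nat_lit 61710) (nat_lit 8381785) (nat_lit 0) (nat_lit 0),Row.mk (nat_lit 19656) (nat_lit 32912) (nat_lit 6822) (nat_lit 61710) (nat_lit 8381785) (nat_lit 0) (nat_lit 0),Row.mk (nat_lit 19824) (nat_lit 32912) (nat_lit 6822) (nat_lit 61710) (nat_lit 8381785) (nat_lit 0) (nat_lit 0),Row.mk (nat_lit 19992) (nat_lit 32912) (nat_lit 6822) (nat_lit 61710) (nat_lit 8381785) (nat_lit 0) (nat_lit 0),Row.mk (nat_lit 20160) (nat_lit 32912) (nat_lit 6822) (nat_lit 61710) (nat_lit 8381785)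 (nat_lit 0) (nat_lit 0),Row.mk (nat_lit 20328) (nat_lit 32912) (nat_lit 6822) (nat_lit 61710) (nat_lit 8381785) (nat_lit 0) (nat_lit 0),Row.mk (nat_lit 20496) (nat_lit 32912) (nat_lit 6822) (nat_lit 61710) (nat_lit 8381785) (nat_lit 0) (nat_lit 0),Row.mk (nat_lit 20664) (nat_lit 32912) (nat_lit 6822) (nat_lit 61710) (nat_lit 8381785) (nat_lit 0) (nat_lit 0),Row.mk (nat_lit 20832) (nat_lit 32912) (nat_lit 6822) (nat_lit 61710) (nat_lit 8381785) (nat_lit 0) (nat_lit 0),Row.mk (nat_lit 21000) (nat_lit 32912) (nat_lit 6822) (nat_lit 61710) (nat_lit 8381785) (nat_lit 0) (nat_lit 0),Row.mk (nat_lit 21168) (nat_lit 32912) (nat_lit 6822) (nat_lit 61710) (nat_lit 8381785) (nat_lit 0) (nat_lit 0),Row.mk (nat_lit 21336) (nat_lit 32912) (nat_lit 6822) (nat_lit 61710) (nat_lit 8381785) (nat_lit 0) (nat_lit 0),Row.mk (nat_lit 21504) (nat_lit 32912) (nat_lit 6822) (nat_lit 61710) (nat_lit 8381785) (nat_lit 0) (nat_lit 0),Row.mk (nat_lit 21672) (nat_lit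 32912) (nat_lit 6822) (nat_lit 61710) (nat_lit 8381785) (nat_lit 0) (nat_lit 0),Row.mk (nat_lit 21840) (nat_lit 32912) (nat_lit 6822) (nat_lit 61710) (nat_lit 8381785) (nat_lit 0) (nat_lit 0),Row.mk (nat_lit 22008) (nat_lit 32912) (nat_lit 6822) (nat_lit 61710) (nat_lit 8381785) (nat_lit 0) (nat_lit 0),Row.mk (nat_lit 22176) (nat_lit 32912) (nat_lit 6822) (nat_lit 61710) (nat_lit 8381785) (nat_lit 0) (nat_lit 0),Row.mk (nat_lit 22344) (nat_lit 32912) (nat_lit 6822) (nat_lit 61710) (nat_lit 8381785) (nat_lit 0) (nat_lit 0),Row.mk (nat_lit 22512) (nat_lit 32912) (nat_lit 6822) (nat_lit 61710) (nat_lit 8381785) (nat_lit 0) (nat_lit 0),Row.mk (nat_lit 22680) (nat_lit 32912) (nat_lit 6822) (nat_lit 61710) (nat_lit 8381785) (nat_lit 0) (nat_lit 0),Row.mk (nat_lit 22848) (nat_lit 32912) (nat_lit 6822) (nat_lit 61710) (nat_lit 8381785) (nat_lit 0) (nat_lit 0),Row.mk (nat_lit 23016) (nat_lit 32912) (nat_lit 6822) (nat_lit 61710) (nat_lit 8381785)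 (nat_lit 0) (nat_lit 0),Row.mk (nat_lit 23184) (nat_lit 32912) (nat_lit 6822) (nat_lit 61710) (nat_lit 8381785) (nat_lit 0) (nat_lit 0),Row.mk (nat_lit 23352) (nat_lit 32912) (nat_lit 6822) (nat_lit 61710) (nat_lit 8381785) (nat_lit 0) (nat_lit 0),Row.mk (nat_lit 23520) (nat_lit 32912) (nat_lit 6822) (nat_lit 61710) (nat_lit 8381785) (nat_lit 0) (nat_lit 0),Row.mk (nat_lit 23688) (nat_lit 32912) (nat_lit 6822) (nat_lit 61710) (nat_lit 8381785) (nat_lit 0) (nat_lit 0),Row.mk (nat_lit 23856) (nat_lit 32912) (nat_lit 6822) (nat_lit 61710) (nat_lit 8381785) (nat_lit 0) (nat_lit 0),Row.mk (nat_lit 24024) (nat_lit 32912) (nat_lit 6822) (nat_lit 61710) (nat_lit 8381785) (nat_lit 0) (nat_lit 0),Row.mk (nat_lit 24192) (nat_lit 32912) (nat_lit 6822) (nat_lit 61710) (nat_lit 8381785) (nat_lit 0) (nat_lit 0),Row.mk (nat_lit 24360) (nat_lit 32912) (nat_lit 6822) (nat_lit 61710) (nat_lit 8381785) (nat_lit 0) (nat_lit 0)],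
[Row.mk (nat_lit 12096) (nat_lit 32912) (nat_lit 8521) (nat_lit 61710) (nat_lit 8380086) (nat_lit 0) (nat_lit 0),Row.mk (nat_lit 12264) (nat_lit 32912) (nat_lit 8521) (nat_lit 61710) (nat_lit 8380086) (nat_lit 0) (nat_lit 0),Row.mk (nat_lit 12432) (nat_lit 32912) (nat_lit 8521) (nat_lit 61710) (nat_lit 8380086) (nat_lit 0) (nat_lit 0),Row.mk (nat_lit 12600) (nat_lit 32912) (nat_lit 8521) (nat_lit 61710) (nat_lit 8380086) (nat_lit 0) (nat_lit 0),Row.mk (nat_lit 12768) (nat_lit 32912) (nat_lit 8521) (nat_lit 61710) (nat_lit 8380086) (nat_lit 0) (nat_lit 0),Row.mk (nat_lit 12936) (nat_lit 32912) (nat_lit 8521) (nat_lit 61710) (nat_lit 8380086) (nat_lit 0) (nat_lit 0),Row.mk (nat_lit 13104) (nat_lit 32912) (nat_lit 8521) (nat_lit 61710) (nat_lit 8380086) (nat_lit 0) (nat_lit 0),Row.mk (nat_lit 13272) (nat_lit 32912) (nat_lit 8521) (nat_lit 61710) (nat_lit 8380086) (nat_lit 0) (nat_lit 0),Row.mk (nat_lit 13440) (nat_lit 32912) (nat_lit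 8521) (nat_lit 61710) (nat_lit 8380086) (nat_lit 0) (nat_lit 0),Row.mk (nat_lit 13608) (nat_lit 32912) (nat_lit 8521) (nat_lit 61710) (nat_lit 8380086) (nat_lit 0) (nat_lit 0),Row.mk (nat_lit 13776) (nat_lit 32912) (nat_lit 8521) (nat_lit 61710) (nat_lit 8380086) (nat_lit 0) (nat_lit 0),Row.mk (nat_lit 13944) (nat_lit 32912) (nat_lit 8521) (nat_lit 61710) (nat_lit 8380086) (nat_lit 0) (nat_lit 0),Row.mk (nat_lit 14112) (nat_lit 32912) (nat_lit 8521) (nat_lit 61710) (nat_lit 8380086) (nat_lit 0) (nat_lit 0),Row.mk (nat_lit 14280) (nat_lit 32912) (nat_lit 8521) (nat_lit 61710) (nat_lit 8380086) (nat_lit 0) (nat_lit 0),Row.mk (nat_lit 14448) (nat_lit 32912) (nat_lit 8521) (nat_lit 61710) (nat_lit 8380086) (nat_lit 0) (nat_lit 0),Row.mk (nat_lit 14616) (nat_lit 32912) (nat_lit 8521) (nat_lit 61710) (nat_lit 8380086) (nat_lit 0) (nat_lit 0),Row.mk (nat_lit 14784) (nat_lit 32912) (nat_lit 8521) (nat_lit 61710) (nat_lit 8380086) (nat_lit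 0) (nat_lit 0),Row.mk (nat_lit 14952) (nat_lit 32912) (nat_lit 8521) (nat_lit 61710) (nat_lit 8380086) (nat_lit 0) (nat_lit 0),Row.mk (nat_lit 15120) (nat_lit 32912) (nat_lit 8521) (nat_lit 61710) (nat_lit 8380086) (nat_lit 0) (nat_lit 0),Row.mk (nat_lit 15288) (nat_lit 32912) (nat_lit 8521) (nat_lit 61710) (nat_lit 8380086) (nat_lit 0) (nat_lit 0),Row.mk (nat_lit 15456) (nat_lit 32912) (nat_lit 8521) (nat_lit 61710) (nat_lit 8380086) (nat_lit 0) (nat_lit 0),Row.mk (nat_lit 15624) (nat_lit 32912) (nat_lit 8521) (nat_lit 61710) (nat_lit 8380086) (nat_lit 0) (nat_lit 0),Row.mk (nat_lit 15792) (nat_lit 32912) (nat_lit 8521) (nat_lit 61710) (nat_lit 8380086) (nat_lit 0) (nat_lit 0),Row.mk (nat_lit 15960) (nat_lit 32912) (nat_lit 8521) (nat_lit 61710) (nat_lit 8380086) (nat_lit 0) (nat_lit 0),Row.mk (nat_lit 16128) (nat_lit 32912) (nat_lit 8521) (nat_lit 61710) (nat_lit 8380086) (nat_lit 0) (nat_lit 0),Row.mk (nat_lit 16296) (nat_lit 32912)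 (nat_lit 8521) (nat_lit 61710) (nat_lit 8380086) (nat_lit 0) (nat_lit 0),Row.mk (nat_lit 16464) (nat_lit 32912) (nat_lit 8521) (nat_lit 61710) (nat_lit 8380086) (nat_lit 0) (nat_lit 0),Row.mk (nat_lit 16632) (nat_lit 32912) (nat_lit 8521) (nat_lit 61710) (nat_lit 8380086) (nat_lit 0) (nat_lit 0),Row.mk (nat_lit 16800) (nat_lit 32912) (nat_lit 8521) (nat_lit 61710) (nat_lit 8380086) (nat_lit 0) (nat_lit 0),Row.mk (nat_lit 16968) (nat_lit 32912) (nat_lit 8521) (nat_lit 61710) (nat_lit 8380086) (nat_lit 0) (nat_lit 0),Row.mk (nat_lit 17136) (nat_lit 32912) (nat_lit 8521) (nat_lit 61710) (nat_lit 8380086) (nat_lit 0) (nat_lit 0),Row.mk (nat_lit 17304) (nat_lit 32912) (nat_lit 8521) (nat_lit 61710) (nat_lit 8380086) (nat_lit 0) (nat_lit 0),Row.mk (nat_lit 17472) (nat_lit 32912) (nat_lit 8521) (nat_lit 61710) (nat_lit 8380086) (nat_lit 0) (nat_lit 0),Row.mk (nat_lit 17640) (nat_lit 32912) (nat_lit 8521) (nat_lit 61710) (nat_lit 8380086)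 (nat_lit 0) (nat_lit 0),Row.mk (nat_lit 17808) (nat_lit 32912) (nat_lit 8521) (nat_lit 61710) (nat_lit 8380086) (nat_lit 0) (nat_lit 0),Row.mk (nat_lit 17976) (nat_lit 32912) (nat_lit 8521) (nat_lit 61710) (nat_lit 8380086) (nat_lit 0) (nat_lit 0),Row.mk (nat_lit 18144) (nat_lit 32912) (nat_lit 8521) (nat_lit 61710) (nat_lit 8380086) (nat_lit 0) (nat_lit 0),Row.mk (nat_lit 18312) (nat_lit 32912) (nat_lit 8521) (nat_lit 61710) (nat_lit 8380086) (nat_lit 0) (nat_lit 0),Row.mk (nat_lit 18480) (nat_lit 32912) (nat_lit 8521) (nat_lit 61710) (nat_lit 8380086) (nat_lit 0) (nat_lit 0),Row.mk (nat_lit 18648) (nat_lit 32912) (nat_lit 8521) (nat_lit 61710) (nat_lit 8380086) (nat_lit 0) (nat_lit 0),Row.mk (nat_lit 18816) (nat_lit 32912) (nat_lit 8521) (nat_lit 61710) (nat_lit 8380086) (nat_lit 0) (nat_lit 0),Row.mk (nat_lit 18984) (nat_lit 32912) (nat_lit 8521) (nat_lit 61710) (nat_lit 8380086) (nat_lit 0) (nat_lit 0),Row.mk (nat_lit 19152) (nat_lit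 32912) (nat_lit 8521) (nat_lit 61710) (nat_lit 8380086) (nat_lit 0) (nat_lit 0),Row.mk (nat_lit 19320) (nat_lit 32912) (nat_lit 8521) (nat_lit 61710) (nat_lit 8380086) (nat_lit 0) (nat_lit 0),Row.mk (nat_lit 19488) (nat_lit 32912) (nat_lit 8521) (nat_lit 61710) (nat_lit 8380086) (nat_lit 0) (nat_lit 0),Row.mk (nat_lit 19656) (nat_lit 32912) (nat_lit 8521) (nat_lit 61710) (nat_lit 8380086) (nat_lit 0) (nat_lit 0),Row.mk (nat_lit 19824) (nat_lit 32912) (nat_lit 8521) (nat_lit 61710) (nat_lit 8380086) (nat_lit 0) (nat_lit 0),Row.mk (nat_lit 19992) (nat_lit 32912) (nat_lit 8521) (nat_lit 61710) (nat_lit 8380086) (nat_lit 0) (nat_lit 0),Row.mk (nat_lit 20160) (nat_lit 32912) (nat_lit 8521) (nat_lit 61710) (nat_lit 8380086) (nat_lit 0) (nat_lit 0),Row.mk (nat_lit 20328) (nat_lit 32912) (nat_lit 8521) (nat_lit 61710) (nat_lit 8380086) (nat_lit 0) (nat_lit 0),Row.mk (nat_lit 20496) (nat_lit 32912) (nat_lit 8521) (nat_lit 61710) (nat_lit 8380086)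 (nat_lit 0) (nat_lit 0),Row.mk (nat_lit 20664) (nat_lit 32912) (nat_lit 8521) (nat_lit 61710) (nat_lit 8380086) (nat_lit 0) (nat_lit 0),Row.mk (nat_lit 20832) (nat_lit 32912) (nat_lit 8521) (nat_lit 61710) (nat_lit 8380086) (nat_lit 0) (nat_lit 0),Row.mk (nat_lit 21000) (nat_lit 32912) (nat_lit 8521) (nat_lit 61710) (nat_lit 8380086) (nat_lit 0) (nat_lit 0),Row.mk (nat_lit 21168) (nat_lit 32912) (nat_lit 8521) (nat_lit 61710) (nat_lit 8380086) (nat_lit 0) (nat_lit 0),Row.mk (nat_lit 21336) (nat_lit 32912) (nat_lit 8521) (nat_lit 61710) (nat_lit 8380086) (nat_lit 0) (nat_lit 0),Row.mk (nat_lit 21504) (nat_lit 32912) (nat_lit 8521) (nat_lit 61710) (nat_lit 8380086) (nat_lit 0) (nat_lit 0),Row.mk (nat_lit 21672) (nat_lit 32912) (nat_lit 8521) (nat_lit 61710) (nat_lit 8380086) (nat_lit 0) (nat_lit 0),Row.mk (nat_lit 21840) (nat_lit 32912) (nat_lit 8521) (nat_lit 61710) (nat_lit 8380086) (nat_lit 0) (nat_lit 0),Row.mk (nat_lit 22008) (nat_lit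 32912) (nat_lit 8521) (nat_lit 61710) (nat_lit 8380086) (nat_lit 0) (nat_lit 0),Row.mk (nat_lit 22176) (nat_lit 32912) (nat_lit 8521) (nat_lit 61710) (nat_lit 8380086) (nat_lit 0) (nat_lit 0),Row.mk (nat_lit 22344) (nat_lit 32912) (nat_lit 8521) (nat_lit 61710) (nat_lit 8380086) (nat_lit 0) (nat_lit 0),Row.mk (nat_lit 22512) (nat_lit 32912) (nat_lit 8521) (nat_lit 61710) (nat_lit 8380086) (nat_lit 0) (nat_lit 0),Row.mk (nat_lit 22680) (nat_lit 32912) (nat_lit 8521) (nat_lit 61710) (nat_lit 8380086) (nat_lit 0) (nat_lit 0),Row.mk (nat_lit 22848) (nat_lit 32912) (nat_lit 8521) (nat_lit 61710) (nat_lit 8380086) (nat_lit 0) (nat_lit 0),Row.mk (nat_lit 23016) (nat_lit 32912) (nat_lit 8521) (nat_lit 61710) (nat_lit 8380086) (nat_lit 0) (nat_lit 0),Row.mk (nat_lit 23184) (nat_lit 32912) (nat_lit 8521) (nat_lit 61710) (nat_lit 8380086) (nat_lit 0) (nat_lit 0),Row.mk (nat_lit 23352) (nat_lit 32912) (nat_lit 8521) (nat_lit 61710) (nat_lit 8380086)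 (nat_lit 0) (nat_lit 0),Row.mk (nat_lit 23520) (nat_lit 32912) (nat_lit 8521) (nat_lit 61710) (nat_lit 8380086) (nat_lit 0) (nat_lit 0),Row.mk (nat_lit 23688) (nat_lit 32912) (nat_lit 8521) (nat_lit 61710) (nat_lit 8380086) (nat_lit 0) (nat_lit 0),Row.mk (nat_lit 23856) (nat_lit 32912) (nat_lit 8521) (nat_lit 61710) (nat_lit 8380086) (nat_lit 0) (nat_lit 0),Row.mk (nat_lit 24024) (nat_lit 32912) (nat_lit 8521) (nat_lit 61710) (nat_lit 8380086) (nat_lit 0) (nat_lit 0),Row.mk (nat_lit 24192) (nat_lit 32912) (nat_lit 8521) (nat_lit 61710) (nat_lit 8380086) (nat_lit 0) (nat_lit 0),Row.mk (nat_lit 24360) (nat_lit 32912) (nat_lit 8521) (nat_lit 61710) (nat_lit 8380086) (nat_lit 0) (nat_lit 0),Row.mk (nat_lit 24528) (nat_lit 32912) (nat_lit 8521) (nat_lit 61710) (nat_lit 8380086) (nat_lit 0) (nat_lit 0)],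
[Row.mk (nat_lit 10752) (nat_lit 60962) (nat_lit 10588) (nat_lit 61149) (nat_lit 54) (nat_lit 0) (nat_lit 0),Row.mk (nat_lit 10920) (nat_lit 60962) (nat_lit 10588) (nat_lit 61149) (nat_lit 54) (nat_lit 0) (nat_lit 0),Row.mk (nat_lit 11088) (nat_lit 60962) (nat_lit 10588) (nat_lit 61149) (nat_lit 54) (nat_lit 0) (nat_lit 0),Row.mk (nat_lit 11256) (nat_lit 60962) (nat_lit 10588) (nat_lit 61149) (nat_lit 54) (nat_lit 0) (nat_lit 0),Row.mk (nat_lit 11424) (nat_lit 60962) (nat_lit 10588) (nat_lit 61149) (nat_lit 54) (nat_lit 0) (nat_lit 0),Row.mk (nat_lit 11592) (nat_lit 60962) (nat_lit 10588) (nat_lit 61149) (nat_lit 54) (nat_lit 0) (nat_lit 0),Row.mk (nat_lit 11760) (nat_lit 60962) (nat_lit 10588) (nat_lit 61149) (nat_lit 54) (nat_lit 0) (nat_lit 0),Row.mk (nat_lit 11928) (nat_lit 60962) (nat_lit 10588) (nat_lit 61149) (nat_lit 54) (nat_lit 0) (nat_lit 0),Row.mk (nat_lit 12096) (nat_lit 60962) (nat_lit 10588) (nat_lit 61149) (nat_lit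 54) (nat_lit 0) (nat_lit 0),Row.mk (nat_lit 12264) (nat_lit 60962) (nat_lit 10588) (nat_lit 61149) (nat_lit 54) (nat_lit 0) (nat_lit 0),Row.mk (nat_lit 12432) (nat_lit 60962) (nat_lit 10588) (nat_lit 61149) (nat_lit 54) (nat_lit 0) (nat_lit 0),Row.mk (nat_lit 12600) (nat_lit 60962) (nat_lit 10588) (nat_lit 61149) (nat_lit 54) (nat_lit 0) (nat_lit 0),Row.mk (nat_lit 12768) (nat_lit 60962) (nat_lit 10588) (nat_lit 61149) (nat_lit 54) (nat_lit 0) (nat_lit 0),Row.mk (nat_lit 12936) (nat_lit 60962) (nat_lit 10588) (nat_lit 61149) (nat_lit 54) (nat_lit 0) (nat_lit 0),Row.mk (nat_lit 13104) (nat_lit 60962) (nat_lit 10588) (nat_lit 61149) (nat_lit 54) (nat_lit 0) (nat_lit 0),Row.mk (nat_lit 13272) (nat_lit 60962) (nat_lit 10588) (nat_lit 61149) (nat_lit 54) (nat_lit 0) (nat_lit 0),Row.mk (nat_lit 13440) (nat_lit 60962) (nat_lit 10588) (nat_lit 61149) (nat_lit 54) (nat_lit 0) (nat_lit 0),Row.mk (nat_lit 13608) (nat_lit 60962) (nat_lit 10588)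 (nat_lit 61149) (nat_lit 54) (nat_lit 0) (nat_lit 0),Row.mk (nat_lit 13776) (nat_lit 60962) (nat_lit 10588) (nat_lit 61149) (nat_lit 54) (nat_lit 0) (nat_lit 0),Row.mk (nat_lit 13944) (nat_lit 60962) (nat_lit 10588) (nat_lit 61149) (nat_lit 54) (nat_lit 0) (nat_lit 0),Row.mk (nat_lit 14112) (nat_lit 60962) (nat_lit 10588) (nat_lit 61149) (nat_lit 54) (nat_lit 0) (nat_lit 0),Row.mk (nat_lit 14280) (nat_lit 60962) (nat_lit 10588) (nat_lit 61149) (nat_lit 54) (nat_lit 0) (nat_lit 0),Row.mk (nat_lit 14448) (nat_lit 60962) (nat_lit 10588) (nat_lit 61149) (nat_lit 54) (nat_lit 0) (nat_lit 0),Row.mk (nat_lit 14616) (nat_lit 60962) (nat_lit 10588) (nat_lit 61149) (nat_lit 54) (nat_lit 0) (nat_lit 0),Row.mk (nat_lit 14784) (nat_lit 60962) (nat_lit 10588) (nat_lit 61149) (nat_lit 54) (nat_lit 0) (nat_lit 0),Row.mk (nat_lit 14952) (nat_lit 60962) (nat_lit 10588) (nat_lit 61149) (nat_lit 54) (nat_lit 0) (nat_lit 0),Row.mk (nat_lit 15120) (nat_lit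 60962) (nat_lit 10588) (nat_lit 61149) (nat_lit 54) (nat_lit 0) (nat_lit 0),Row.mk (nat_lit 15288) (nat_lit 60962) (nat_lit 10588) (nat_lit 61149) (nat_lit 54) (nat_lit 0) (nat_lit 0),Row.mk (nat_lit 15456) (nat_lit 60962) (nat_lit 10588) (nat_lit 61149) (nat_lit 54) (nat_lit 0) (nat_lit 0),Row.mk (nat_lit 15624) (nat_lit 60962) (nat_lit 10588) (nat_lit 61149) (nat_lit 54) (nat_lit 0) (nat_lit 0),Row.mk (nat_lit 15792) (nat_lit 60962) (nat_lit 10588) (nat_lit 61149) (nat_lit 54) (nat_lit 0) (nat_lit 0),Row.mk (nat_lit 15960) (nat_lit 60962) (nat_lit 10588) (nat_lit 61149) (nat_lit 54) (nat_lit 0) (nat_lit 0),Row.mk (nat_lit 16128) (nat_lit 60962) (nat_lit 10588) (nat_lit 61149) (nat_lit 54) (nat_lit 0) (nat_lit 0),Row.mk (nat_lit 16296) (nat_lit 60962) (nat_lit 10588) (nat_lit 61149) (nat_lit 54) (nat_lit 0) (nat_lit 0),Row.mk (nat_lit 16464) (nat_lit 60962) (nat_lit 10588) (nat_lit 61149) (nat_lit 54) (nat_lit 0) (nat_lit 0),Row.mk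 (nat_lit 16632) (nat_lit 60962) (nat_lit 10588) (nat_lit 61149) (nat_lit 54) (nat_lit 0) (nat_lit 0),Row.mk (nat_lit 16800) (nat_lit 60962) (nat_lit 10588) (nat_lit 61149) (nat_lit 54) (nat_lit 0) (nat_lit 0),Row.mk (nat_lit 16968) (nat_lit 60962) (nat_lit 10588) (nat_lit 61149) (nat_lit 54) (nat_lit 0) (nat_lit 0),Row.mk (nat_lit 17136) (nat_lit 60962) (nat_lit 10588) (nat_lit 61149) (nat_lit 54) (nat_lit 0) (nat_lit 0),Row.mk (nat_lit 17304) (nat_lit 60962) (nat_lit 10588) (nat_lit 61149) (nat_lit 54) (nat_lit 0) (nat_lit 0),Row.mk (nat_lit 17472) (nat_lit 60962) (nat_lit 10588) (nat_lit 61149) (nat_lit 54) (nat_lit 0) (nat_lit 0),Row.mk (nat_lit 17640) (nat_lit 60962) (nat_lit 10588) (nat_lit 61149) (nat_lit 54) (nat_lit 0) (nat_lit 0),Row.mk (nat_lit 17808) (nat_lit 60962) (nat_lit 10588) (nat_lit 61149) (nat_lit 54) (nat_lit 0) (nat_lit 0),Row.mk (nat_lit 17976) (nat_lit 60962) (nat_lit 10588) (nat_lit 61149) (nat_lit 54) (nat_lit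 0) (nat_lit 0),Row.mk (nat_lit 18144) (nat_lit 60962) (nat_lit 10588) (nat_lit 61149) (nat_lit 54) (nat_lit 0) (nat_lit 0),Row.mk (nat_lit 18312) (nat_lit 60962) (nat_lit 10588) (nat_lit 61149) (nat_lit 54) (nat_lit 0) (nat_lit 0),Row.mk (nat_lit 18480) (nat_lit 60962) (nat_lit 10588) (nat_lit 61149) (nat_lit 54) (nat_lit 0) (nat_lit 0),Row.mk (nat_lit 18648) (nat_lit 60962) (nat_lit 10588) (nat_lit 61149) (nat_lit 54) (nat_lit 0) (nat_lit 0),Row.mk (nat_lit 18816) (nat_lit 60962) (nat_lit 10588) (nat_lit 61149) (nat_lit 54) (nat_lit 0) (nat_lit 0),Row.mk (nat_lit 18984) (nat_lit 60962) (nat_lit 10588) (nat_lit 61149) (nat_lit 54) (nat_lit 0) (nat_lit 0),Row.mk (nat_lit 19152) (nat_lit 60962) (nat_lit 10588) (nat_lit 61149) (nat_lit 54) (nat_lit 0) (nat_lit 0),Row.mk (nat_lit 19320) (nat_lit 60962) (nat_lit 10588) (nat_lit 61149) (nat_lit 54) (nat_lit 0) (nat_lit 0),Row.mk (nat_lit 19488) (nat_lit 60962) (nat_lit 10588) (nat_lit 61149)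 (nat_lit 54) (nat_lit 0) (nat_lit 0),Row.mk (nat_lit 19656) (nat_lit 60962) (nat_lit 10588) (nat_lit 61149) (nat_lit 54) (nat_lit 0) (nat_lit 0),Row.mk (nat_lit 19824) (nat_lit 60962) (nat_lit 10588) (nat_lit 61149) (nat_lit 54) (nat_lit 0) (nat_lit 0),Row.mk (nat_lit 19992) (nat_lit 60962) (nat_lit 10588) (nat_lit 61149) (nat_lit 54) (nat_lit 0) (nat_lit 0),Row.mk (nat_lit 20160) (nat_lit 60962) (nat_lit 10588) (nat_lit 61149) (nat_lit 54) (nat_lit 0) (nat_lit 0),Row.mk (nat_lit 20328) (nat_lit 60962) (nat_lit 10588) (nat_lit 61149) (nat_lit 54) (nat_lit 0) (nat_lit 0),Row.mk (nat_lit 20496) (nat_lit 60962) (nat_lit 10588) (nat_lit 61149) (nat_lit 54) (nat_lit 0) (nat_lit 0),Row.mk (nat_lit 20664) (nat_lit 60962) (nat_lit 10588) (nat_lit 61149) (nat_lit 54) (nat_lit 0) (nat_lit 0),Row.mk (nat_lit 20832) (nat_lit 60962) (nat_lit 10588) (nat_lit 61149) (nat_lit 54) (nat_lit 0) (nat_lit 0),Row.mk (nat_lit 21000) (nat_lit 60962) (nat_lit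 10588) (nat_lit 61149) (nat_lit 54) (nat_lit 0) (nat_lit 0),Row.mk (nat_lit 21168) (nat_lit 60962) (nat_lit 10588) (nat_lit 61149) (nat_lit 54) (nat_lit 0) (nat_lit 0),Row.mk (nat_lit 21336) (nat_lit 60962) (nat_lit 10588) (nat_lit 61149) (nat_lit 54) (nat_lit 0) (nat_lit 0),Row.mk (nat_lit 21504) (nat_lit 60962) (nat_lit 10588) (nat_lit 61149) (nat_lit 54) (nat_lit 0) (nat_lit 0),Row.mk (nat_lit 21672) (nat_lit 60962) (nat_lit 10588) (nat_lit 61149) (nat_lit 54) (nat_lit 0) (nat_lit 0),Row.mk (nat_lit 21840) (nat_lit 60962) (nat_lit 10588) (nat_lit 61149) (nat_lit 54) (nat_lit 0) (nat_lit 0),Row.mk (nat_lit 22008) (nat_lit 60962) (nat_lit 10588) (nat_lit 61149) (nat_lit 54) (nat_lit 0) (nat_lit 0),Row.mk (nat_lit 22176) (nat_lit 60962) (nat_lit 10588) (nat_lit 61149) (nat_lit 54) (nat_lit 0) (nat_lit 0),Row.mk (nat_lit 22344) (nat_lit 60962) (nat_lit 10588) (nat_lit 61149) (nat_lit 54) (nat_lit 0) (nat_lit 0),Row.mk (nat_lit 22512)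 (nat_lit 60962) (nat_lit 10588) (nat_lit 61149) (nat_lit 54) (nat_lit 0) (nat_lit 0),Row.mk (nat_lit 22680) (nat_lit 60962) (nat_lit 10588) (nat_lit 61149) (nat_lit 54) (nat_lit 0) (nat_lit 0),Row.mk (nat_lit 22848) (nat_lit 60962) (nat_lit 10588) (nat_lit 61149) (nat_lit 54) (nat_lit 0) (nat_lit 0),Row.mk (nat_lit 23016) (nat_lit 60962) (nat_lit 10588) (nat_lit 61149) (nat_lit 54) (nat_lit 0) (nat_lit 0),Row.mk (nat_lit 23184) (nat_lit 60962) (nat_lit 10588) (nat_lit 61149) (nat_lit 54) (nat_lit 0) (nat_lit 0),Row.mk (nat_lit 23352) (nat_lit 60962) (nat_lit 10588) (nat_lit 61149) (nat_lit 54) (nat_lit 0) (nat_lit 0),Row.mk (nat_lit 23520) (nat_lit 60962) (nat_lit 10588) (nat_lit 61149) (nat_lit 54) (nat_lit 0) (nat_lit 0),Row.mk (nat_lit 23688) (nat_lit 60962) (nat_lit 10588) (nat_lit 61149) (nat_lit 54) (nat_lit 0) (nat_lit 0),Row.mk (nat_lit 23856) (nat_lit 60962) (nat_lit 10588) (nat_lit 61149) (nat_lit 54) (nat_lit 0) (nat_lit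 0),Row.mk (nat_lit 24024) (nat_lit 60962) (nat_lit 10588) (nat_lit 61149) (nat_lit 54) (nat_lit 0) (nat_lit 0),Row.mk (nat_lit 24192) (nat_lit 60962) (nat_lit 10588) (nat_lit 61149) (nat_lit 54) (nat_lit 0) (nat_lit 0),Row.mk (nat_lit 24360) (nat_lit 60962) (nat_lit 10588) (nat_lit 61149) (nat_lit 54) (nat_lit 0) (nat_lit 0),Row.mk (nat_lit 24528) (nat_lit 60962) (nat_lit 10588) (nat_lit 61149) (nat_lit 54) (nat_lit 0) (nat_lit 0)],
[Row.mk (nat_lit 10752) (nat_lit 60401) (nat_lit 13208) (nat_lit 60588) (nat_lit 84) (nat_lit 0) (nat_lit 0),Row.mk (nat_lit 10920) (nat_lit 60401) (nat_lit 13208) (nat_lit 60588) (nat_lit 84) (nat_lit 0) (nat_lit 0),Row.mk (nat_lit 11088) (nat_lit 60401) (nat_lit 13208) (nat_lit 60588) (nat_lit 84) (nat_lit 0) (nat_lit 0),Row.mk (nat_lit 11256) (nat_lit 60401) (nat_lit 13208) (nat_lit 60588) (nat_lit 84) (nat_lit 0) (nat_lit 0),Row.mk (nat_lit 11424) (nat_lit 60401) (nat_lit 13208) (nat_lit 60588) (nat_lit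 84) (nat_lit 0) (nat_lit 0),Row.mk (nat_lit 11592) (nat_lit 60401) (nat_lit 13208) (nat_lit 60588) (nat_lit 84) (nat_lit 0) (nat_lit 0),Row.mk (nat_lit 11760) (nat_lit 60401) (nat_lit 13208) (nat_lit 60588) (nat_lit 84) (nat_lit 0) (nat_lit 0),Row.mk (nat_lit 11928) (nat_lit 60401) (nat_lit 13208) (nat_lit 60588) (nat_lit 84) (nat_lit 0) (nat_lit 0),Row.mk (nat_lit 12096) (nat_lit 60401) (nat_lit 13208) (nat_lit 60588) (nat_lit 84) (nat_lit 0) (nat_lit 0),Row.mk (nat_lit 12264) (nat_lit 60401) (nat_lit 13208) (nat_lit 60588) (nat_lit 84) (nat_lit 0) (nat_lit 0),Row.mk (nat_lit 12432) (nat_lit 60401) (nat_lit 13208) (nat_lit 60588) (nat_lit 84) (nat_lit 0) (nat_lit 0),Row.mk (nat_lit 12600) (nat_lit 60401) (nat_lit 13208) (nat_lit 60588) (nat_lit 84) (nat_lit 0) (nat_lit 0),Row.mk (nat_lit 12768) (nat_lit 60401) (nat_lit 13208) (nat_lit 60588) (nat_lit 84) (nat_lit 0) (nat_lit 0),Row.mk (nat_lit 12936) (nat_lit 60401) (nat_lit 13208)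 (nat_lit 60588) (nat_lit 84) (nat_lit 0) (nat_lit 0),Row.mk (nat_lit 13104) (nat_lit 60401) (nat_lit 13208) (nat_lit 60588) (nat_lit 84) (nat_lit 0) (nat_lit 0),Row.mk (nat_lit 13272) (nat_lit 60401) (nat_lit 13208) (nat_lit 60588) (nat_lit 84) (nat_lit 0) (nat_lit 0),Row.mk (nat_lit 13440) (nat_lit 60401) (nat_lit 13208) (nat_lit 60588) (nat_lit 84) (nat_lit 0) (nat_lit 0),Row.mk (nat_lit 13608) (nat_lit 60401) (nat_lit 13208) (nat_lit 60588) (nat_lit 84) (nat_lit 0) (nat_lit 0),Row.mk (nat_lit 13776) (nat_lit 60401) (nat_lit 13208) (nat_lit 60588) (nat_lit 84) (nat_lit 0) (nat_lit 0),Row.mk (nat_lit 13944) (nat_lit 60401) (nat_lit 13208) (nat_lit 60588) (nat_lit 84) (nat_lit 0) (nat_lit 0),Row.mk (nat_lit 14112) (nat_lit 60401) (nat_lit 13208) (nat_lit 60588) (nat_lit 84) (nat_lit 0) (nat_lit 0),Row.mk (nat_lit 14280) (nat_lit 60401) (nat_lit 13208) (nat_lit 60588) (nat_lit 84) (nat_lit 0) (nat_lit 0),Row.mk (nat_lit 14448) (nat_lit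 60401) (nat_lit 13208) (nat_lit 60588) (nat_lit 84) (nat_lit 0) (nat_lit 0),Row.mk (nat_lit 14616) (nat_lit 60401) (nat_lit 13208) (nat_lit 60588) (nat_lit 84) (nat_lit 0) (nat_lit 0),Row.mk (nat_lit 14784) (nat_lit 60401) (nat_lit 13208) (nat_lit 60588) (nat_lit 84) (nat_lit 0) (nat_lit 0),Row.mk (nat_lit 14952) (nat_lit 60401) (nat_lit 13208) (nat_lit 60588) (nat_lit 84) (nat_lit 0) (nat_lit 0),Row.mk (nat_lit 15120) (nat_lit 60401) (nat_lit 13208) (nat_lit 60588) (nat_lit 84) (nat_lit 0) (nat_lit 0),Row.mk (nat_lit 15288) (nat_lit 60401) (nat_lit 13208) (nat_lit 60588) (nat_lit 84) (nat_lit 0) (nat_lit 0),Row.mk (nat_lit 15456) (nat_lit 60401) (nat_lit 13208) (nat_lit 60588) (nat_lit 84) (nat_lit 0) (nat_lit 0),Row.mk (nat_lit 15624) (nat_lit 60401) (nat_lit 13208) (nat_lit 60588) (nat_lit 84) (nat_lit 0) (nat_lit 0),Row.mk (nat_lit 15792) (nat_lit 60401) (nat_lit 13208) (nat_lit 60588) (nat_lit 84) (nat_lit 0) (nat_lit 0),Row.mk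 (nat_lit 15960) (nat_lit 60401) (nat_lit 13208) (nat_lit 60588) (nat_lit 84) (nat_lit 0) (nat_lit 0),Row.mk (nat_lit 16128) (nat_lit 60401) (nat_lit 13208) (nat_lit 60588) (nat_lit 84) (nat_lit 0) (nat_lit 0),Row.mk (nat_lit 16296) (nat_lit 60401) (nat_lit 13208) (nat_lit 60588) (nat_lit 84) (nat_lit 0) (nat_lit 0),Row.mk (nat_lit 16464) (nat_lit 60401) (nat_lit 13208) (nat_lit 60588) (nat_lit 84) (nat_lit 0) (nat_lit 0),Row.mk (nat_lit 16632) (nat_lit 60401) (nat_lit 13208) (nat_lit 60588) (nat_lit 84) (nat_lit 0) (nat_lit 0),Row.mk (nat_lit 16800) (nat_lit 60401) (nat_lit 13208) (nat_lit 60588) (nat_lit 84) (nat_lit 0) (nat_lit 0),Row.mk (nat_lit 16968) (nat_lit 60401) (nat_lit 13208) (nat_lit 60588) (nat_lit 84) (nat_lit 0) (nat_lit 0),Row.mk (nat_lit 17136) (nat_lit 60401) (nat_lit 13208) (nat_lit 60588) (nat_lit 84) (nat_lit 0) (nat_lit 0),Row.mk (nat_lit 17304) (nat_lit 60401) (nat_lit 13208) (nat_lit 60588) (nat_lit 84) (nat_lit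 0) (nat_lit 0),Row.mk (nat_lit 17472) (nat_lit 60401) (nat_lit 13208) (nat_lit 60588) (nat_lit 84) (nat_lit 0) (nat_lit 0),Row.mk (nat_lit 17640) (nat_lit 60401) (nat_lit 13208) (nat_lit 60588) (nat_lit 84) (nat_lit 0) (nat_lit 0),Row.mk (nat_lit 17808) (nat_lit 60401) (nat_lit 13208) (nat_lit 60588) (nat_lit 84) (nat_lit 0) (nat_lit 0),Row.mk (nat_lit 17976) (nat_lit 60401) (nat_lit 13208) (nat_lit 60588) (nat_lit 84) (nat_lit 0) (nat_lit 0),Row.mk (nat_lit 18144) (nat_lit 60401) (nat_lit 13208) (nat_lit 60588) (nat_lit 84) (nat_lit 0) (nat_lit 0),Row.mk (nat_lit 18312) (nat_lit 60401) (nat_lit 13208) (nat_lit 60588) (nat_lit 84) (nat_lit 0) (nat_lit 0),Row.mk (nat_lit 18480) (nat_lit 60401) (nat_lit 13208) (nat_lit 60588) (nat_lit 84) (nat_lit 0) (nat_lit 0),Row.mk (nat_lit 18648) (nat_lit 60401) (nat_lit 13208) (nat_lit 60588) (nat_lit 84) (nat_lit 0) (nat_lit 0),Row.mk (nat_lit 18816) (nat_lit 60401) (nat_lit 13208) (nat_lit 60588)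 (nat_lit 84) (nat_lit 0) (nat_lit 0),Row.mk (nat_lit 18984) (nat_lit 60401) (nat_lit 13208) (nat_lit 60588) (nat_lit 84) (nat_lit 0) (nat_lit 0),Row.mk (nat_lit 19152) (nat_lit 60401) (nat_lit 13208) (nat_lit 60588) (nat_lit 84) (nat_lit 0) (nat_lit 0),Row.mk (nat_lit 19320) (nat_lit 60401) (nat_lit 13208) (nat_lit 60588) (nat_lit 84) (nat_lit 0) (nat_lit 0),Row.mk (nat_lit 19488) (nat_lit 60401) (nat_lit 13208) (nat_lit 60588) (nat_lit 84) (nat_lit 0) (nat_lit 0),Row.mk (nat_lit 19656) (nat_lit 60401) (nat_lit 13208) (nat_lit 60588) (nat_lit 84) (nat_lit 0) (nat_lit 0),Row.mk (nat_lit 19824) (nat_lit 60401) (nat_lit 13208) (nat_lit 60588) (nat_lit 84) (nat_lit 0) (nat_lit 0),Row.mk (nat_lit 19992) (nat_lit 60401) (nat_lit 13208) (nat_lit 60588) (nat_lit 84) (nat_lit 0) (nat_lit 0),Row.mk (nat_lit 20160) (nat_lit 60401) (nat_lit 13208) (nat_lit 60588) (nat_lit 84) (nat_lit 0) (nat_lit 0),Row.mk (nat_lit 20328) (nat_lit 60401) (nat_lit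 13208) (nat_lit 60588) (nat_lit 84) (nat_lit 0) (nat_lit 0),Row.mk (nat_lit 20496) (nat_lit 60401) (nat_lit 13208) (nat_lit 60588) (nat_lit 84) (nat_lit 0) (nat_lit 0),Row.mk (nat_lit 20664) (nat_lit 60401) (nat_lit 13208) (nat_lit 60588) (nat_lit 84) (nat_lit 0) (nat_lit 0),Row.mk (nat_lit 20832) (nat_lit 60401) (nat_lit 13208) (nat_lit 60588) (nat_lit 84) (nat_lit 0) (nat_lit 0),Row.mk (nat_lit 21000) (nat_lit 60401) (nat_lit 13208) (nat_lit 60588) (nat_lit 84) (nat_lit 0) (nat_lit 0),Row.mk (nat_lit 21168) (nat_lit 60401) (nat_lit 13208) (nat_lit 60588) (nat_lit 84) (nat_lit 0) (nat_lit 0),Row.mk (nat_lit 21336) (nat_lit 60401) (nat_lit 13208) (nat_lit 60588) (nat_lit 84) (nat_lit 0) (nat_lit 0),Row.mk (nat_lit 21504) (nat_lit 60401) (nat_lit 13208) (nat_lit 60588) (nat_lit 84) (nat_lit 0) (nat_lit 0),Row.mk (nat_lit 21672) (nat_lit 60401) (nat_lit 13208) (nat_lit 60588) (nat_lit 84) (nat_lit 0) (nat_lit 0),Row.mk (nat_lit 21840)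 (nat_lit 60401) (nat_lit 13208) (nat_lit 60588) (nat_lit 84) (nat_lit 0) (nat_lit 0),Row.mk (nat_lit 22008) (nat_lit 60401) (nat_lit 13208) (nat_lit 60588) (nat_lit 84) (nat_lit 0) (nat_lit 0),Row.mk (nat_lit 22176) (nat_lit 60401) (nat_lit 13208) (nat_lit 60588) (nat_lit 84) (nat_lit 0) (nat_lit 0),Row.mk (nat_lit 22344) (nat_lit 60401) (nat_lit 13208) (nat_lit 60588) (nat_lit 84) (nat_lit 0) (nat_lit 0),Row.mk (nat_lit 22512) (nat_lit 60401) (nat_lit 13208) (nat_lit 60588) (nat_lit 84) (nat_lit 0) (nat_lit 0),Row.mk (nat_lit 22680) (nat_lit 60401) (nat_lit 13208) (nat_lit 60588) (nat_lit 84) (nat_lit 0) (nat_lit 0),Row.mk (nat_lit 22848) (nat_lit 60401) (nat_lit 13208) (nat_lit 60588) (nat_lit 84) (nat_lit 0) (nat_lit 0),Row.mk (nat_lit 23016) (nat_lit 60401) (nat_lit 13208) (nat_lit 60588) (nat_lit 84) (nat_lit 0) (nat_lit 0),Row.mk (nat_lit 23184) (nat_lit 60401) (nat_lit 13208) (nat_lit 60588) (nat_lit 84) (nat_lit 0) (nat_lit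 0),Row.mk (nat_lit 23352) (nat_lit 60401) (nat_lit 13208) (nat_lit 60588) (nat_lit 84) (nat_lit 0) (nat_lit 0),Row.mk (nat_lit 23520) (nat_lit 60401) (nat_lit 13208) (nat_lit 60588) (nat_lit 84) (nat_lit 0) (nat_lit 0),Row.mk (nat_lit 23688) (nat_lit 60401) (nat_lit 13208) (nat_lit 60588) (nat_lit 84) (nat_lit 0) (nat_lit 0),Row.mk (nat_lit 23856) (nat_lit 60401) (nat_lit 13208) (nat_lit 60588) (nat_lit 84) (nat_lit 0) (nat_lit 0),Row.mk (nat_lit 24024) (nat_lit 60401) (nat_lit 13208) (nat_lit 60588) (nat_lit 84) (nat_lit 0) (nat_lit 0),Row.mk (nat_lit 24192) (nat_lit 60401) (nat_lit 13208) (nat_lit 60588) (nat_lit 84) (nat_lit 0) (nat_lit 0),Row.mk (nat_lit 24360) (nat_lit 60401) (nat_lit 13208) (nat_lit 60588) (nat_lit 84) (nat_lit 0) (nat_lit 0),Row.mk (nat_lit 24528) (nat_lit 60401) (nat_lit 13208) (nat_lit 60588) (nat_lit 84) (nat_lit 0) (nat_lit 0),Row.mk (nat_lit 24696) (nat_lit 60401) (nat_lit 13208) (nat_lit 60588) (nat_lit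 84) (nat_lit 0) (nat_lit 0)],
[Row.mk (nat_lit 10752) (nat_lit 59840) (nat_lit 16470) (nat_lit 60027) (nat_lit 131) (nat_lit 0) (nat_lit 0),Row.mk (nat_lit 10920) (nat_lit 59840) (nat_lit 16470) (nat_lit 60027) (nat_lit 131) (nat_lit 0) (nat_lit 0),Row.mk (nat_lit 11088) (nat_lit 59840) (nat_lit 16470) (nat_lit 60027) (nat_lit 131) (nat_lit 0) (nat_lit 0),Row.mk (nat_lit 11256) (nat_lit 59840) (nat_lit 16470) (nat_lit 60027) (nat_lit 131) (nat_lit 0) (nat_lit 0),Row.mk (nat_lit 11424) (nat_lit 59840) (nat_lit 16470) (nat_lit 60027) (nat_lit 131) (nat_lit 0) (nat_lit 0),Row.mk (nat_lit 11592) (nat_lit 59840) (nat_lit 16470) (nat_lit 60027) (nat_lit 131) (nat_lit 0) (nat_lit 0),Row.mk (nat_lit 11760) (nat_lit 59840) (nat_lit 16470) (nat_lit 60027) (nat_lit 131) (nat_lit 0) (nat_lit 0),Row.mk (nat_lit 11928) (nat_lit 59840) (nat_lit 16470) (nat_lit 60027) (nat_lit 131) (nat_lit 0) (nat_lit 0),Row.mk (nat_lit 12096) (nat_lit 59840) (nat_lit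 16470) (nat_lit 60027) (nat_lit 131) (nat_lit 0) (nat_lit 0),Row.mk (nat_lit 12264) (nat_lit 59840) (nat_lit 16470) (nat_lit 60027) (nat_lit 131) (nat_lit 0) (nat_lit 0),Row.mk (nat_lit 12432) (nat_lit 59840) (nat_lit 16470) (nat_lit 60027) (nat_lit 131) (nat_lit 0) (nat_lit 0),Row.mk (nat_lit 12600) (nat_lit 59840) (nat_lit 16470) (nat_lit 60027) (nat_lit 131) (nat_lit 0) (nat_lit 0),Row.mk (nat_lit 12768) (nat_lit 59840) (nat_lit 16470) (nat_lit 60027) (nat_lit 131) (nat_lit 0) (nat_lit 0),Row.mk (nat_lit 12936) (nat_lit 59840) (nat_lit 16470) (nat_lit 60027) (nat_lit 131) (nat_lit 0) (nat_lit 0),Row.mk (nat_lit 13104) (nat_lit 59840) (nat_lit 16470) (nat_lit 60027) (nat_lit 131) (nat_lit 0) (nat_lit 0),Row.mk (nat_lit 13272) (nat_lit 59840) (nat_lit 16470) (nat_lit 60027) (nat_lit 131) (nat_lit 0) (nat_lit 0),Row.mk (nat_lit 13440) (nat_lit 59840) (nat_lit 16470) (nat_lit 60027) (nat_lit 131) (nat_lit 0) (nat_lit 0),Row.mk (nat_lit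 13608) (nat_lit 59840) (nat_lit 16470) (nat_lit 60027) (nat_lit 131) (nat_lit 0) (nat_lit 0),Row.mk (nat_lit 13776) (nat_lit 59840) (nat_lit 16470) (nat_lit 60027) (nat_lit 131) (nat_lit 0) (nat_lit 0),Row.mk (nat_lit 13944) (nat_lit 59840) (nat_lit 16470) (nat_lit 60027) (nat_lit 131) (nat_lit 0) (nat_lit 0),Row.mk (nat_lit 14112) (nat_lit 59840) (nat_lit 16470) (nat_lit 60027) (nat_lit 131) (nat_lit 0) (nat_lit 0),Row.mk (nat_lit 14280) (nat_lit 59840) (nat_lit 16470) (nat_lit 60027) (nat_lit 131) (nat_lit 0) (nat_lit 0),Row.mk (nat_lit 14448) (nat_lit 59840) (nat_lit 16470) (nat_lit 60027) (nat_lit 131) (nat_lit 0) (nat_lit 0),Row.mk (nat_lit 14616) (nat_lit 59840) (nat_lit 16470) (nat_lit 60027) (nat_lit 131) (nat_lit 0) (nat_lit 0),Row.mk (nat_lit 14784) (nat_lit 59840) (nat_lit 16470) (nat_lit 60027) (nat_lit 131) (nat_lit 0) (nat_lit 0),Row.mk (nat_lit 14952) (nat_lit 59840) (nat_lit 16470) (nat_lit 60027) (nat_lit 131) (nat_lit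 0) (nat_lit 0),Row.mk (nat_lit 15120) (nat_lit 59840) (nat_lit 16470) (nat_lit 60027) (nat_lit 131) (nat_lit 0) (nat_lit 0),Row.mk (nat_lit 15288) (nat_lit 59840) (nat_lit 16470) (nat_lit 60027) (nat_lit 131) (nat_lit 0) (nat_lit 0),Row.mk (nat_lit 15456) (nat_lit 59840) (nat_lit 16470) (nat_lit 60027) (nat_lit 131) (nat_lit 0) (nat_lit 0),Row.mk (nat_lit 15624) (nat_lit 59840) (nat_lit 16470) (nat_lit 60027) (nat_lit 131) (nat_lit 0) (nat_lit 0),Row.mk (nat_lit 15792) (nat_lit 59840) (nat_lit 16470) (nat_lit 60027) (nat_lit 131) (nat_lit 0) (nat_lit 0),Row.mk (nat_lit 15960) (nat_lit 59840) (nat_lit 16470) (nat_lit 60027) (nat_lit 131) (nat_lit 0) (nat_lit 0),Row.mk (nat_lit 16128) (nat_lit 59840) (nat_lit 16470) (nat_lit 60027) (nat_lit 131) (nat_lit 0) (nat_lit 0),Row.mk (nat_lit 16296) (nat_lit 59840) (nat_lit 16470) (nat_lit 60027) (nat_lit 131) (nat_lit 0) (nat_lit 0),Row.mk (nat_lit 16464) (nat_lit 59840) (nat_lit 16470) (nat_lit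 60027) (nat_lit 131) (nat_lit 0) (nat_lit 0),Row.mk (nat_lit 16632) (nat_lit 59840) (nat_lit 16470) (nat_lit 60027) (nat_lit 131) (nat_lit 0) (nat_lit 0),Row.mk (nat_lit 16800) (nat_lit 59840) (nat_lit 16470) (nat_lit 60027) (nat_lit 131) (nat_lit 0) (nat_lit 0),Row.mk (nat_lit 16968) (nat_lit 59840) (nat_lit 16470) (nat_lit 60027) (nat_lit 131) (nat_lit 0) (nat_lit 0),Row.mk (nat_lit 17136) (nat_lit 59840) (nat_lit 16470) (nat_lit 60027) (nat_lit 131) (nat_lit 0) (nat_lit 0),Row.mk (nat_lit 17304) (nat_lit 59840) (nat_lit 16470) (nat_lit 60027) (nat_lit 131) (nat_lit 0) (nat_lit 0),Row.mk (nat_lit 17472) (nat_lit 59840) (nat_lit 16470) (nat_lit 60027) (nat_lit 131) (nat_lit 0) (nat_lit 0),Row.mk (nat_lit 17640) (nat_lit 59840) (nat_lit 16470) (nat_lit 60027) (nat_lit 131) (nat_lit 0) (nat_lit 0),Row.mk (nat_lit 17808) (nat_lit 59840) (nat_lit 16470) (nat_lit 60027) (nat_lit 131) (nat_lit 0) (nat_lit 0),Row.mk (nat_lit 17976) (nat_lit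 59840) (nat_lit 16470) (nat_lit 60027) (nat_lit 131) (nat_lit 0) (nat_lit 0),Row.mk (nat_lit 18144) (nat_lit 59840) (nat_lit 16470) (nat_lit 60027) (nat_lit 131) (nat_lit 0) (nat_lit 0),Row.mk (nat_lit 18312) (nat_lit 59840) (nat_lit 16470) (nat_lit 60027) (nat_lit 131) (nat_lit 0) (nat_lit 0),Row.mk (nat_lit 18480) (nat_lit 59840) (nat_lit 16470) (nat_lit 60027) (nat_lit 131) (nat_lit 0) (nat_lit 0),Row.mk (nat_lit 18648) (nat_lit 59840) (nat_lit 16470) (nat_lit 60027) (nat_lit 131) (nat_lit 0) (nat_lit 0),Row.mk (nat_lit 18816) (nat_lit 59840) (nat_lit 16470) (nat_lit 60027) (nat_lit 131) (nat_lit 0) (nat_lit 0),Row.mk (nat_lit 18984) (nat_lit 59840) (nat_lit 16470) (nat_lit 60027) (nat_lit 131) (nat_lit 0) (nat_lit 0),Row.mk (nat_lit 19152) (nat_lit 59840) (nat_lit 16470) (nat_lit 60027) (nat_lit 131) (nat_lit 0) (nat_lit 0),Row.mk (nat_lit 19320) (nat_lit 59840) (nat_lit 16470) (nat_lit 60027) (nat_lit 131) (nat_lit 0) (nat_lit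 0),Row.mk (nat_lit 19488) (nat_lit 59840) (nat_lit 16470) (nat_lit 60027) (nat_lit 131) (nat_lit 0) (nat_lit 0),Row.mk (nat_lit 19656) (nat_lit 59840) (nat_lit 16470) (nat_lit 60027) (nat_lit 131) (nat_lit 0) (nat_lit 0),Row.mk (nat_lit 19824) (nat_lit 59840) (nat_lit 16470) (nat_lit 60027) (nat_lit 131) (nat_lit 0) (nat_lit 0),Row.mk (nat_lit 19992) (nat_lit 59840) (nat_lit 16470) (nat_lit 60027) (nat_lit 131) (nat_lit 0) (nat_lit 0),Row.mk (nat_lit 20160) (nat_lit 59840) (nat_lit 16470) (nat_lit 60027) (nat_lit 131) (nat_lit 0) (nat_lit 0),Row.mk (nat_lit 20328) (nat_lit 59840) (nat_lit 16470) (nat_lit 60027) (nat_lit 131) (nat_lit 0) (nat_lit 0),Row.mk (nat_lit 20496) (nat_lit 59840) (nat_lit 16470) (nat_lit 60027) (nat_lit 131) (nat_lit 0) (nat_lit 0),Row.mk (nat_lit 20664) (nat_lit 59840) (nat_lit 16470) (nat_lit 60027) (nat_lit 131) (nat_lit 0) (nat_lit 0),Row.mk (nat_lit 20832) (nat_lit 59840) (nat_lit 16470) (nat_lit 60027)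 (nat_lit 131) (nat_lit 0) (nat_lit 0),Row.mk (nat_lit 21000) (nat_lit 59840) (nat_lit 16470) (nat_lit 60027) (nat_lit 131) (nat_lit 0) (nat_lit 0),Row.mk (nat_lit 21168) (nat_lit 59840) (nat_lit 16470) (nat_lit 60027) (nat_lit 131) (nat_lit 0) (nat_lit 0),Row.mk (nat_lit 21336) (nat_lit 59840) (nat_lit 16470) (nat_lit 60027) (nat_lit 131) (nat_lit 0) (nat_lit 0),Row.mk (nat_lit 21504) (nat_lit 59840) (nat_lit 16470) (nat_lit 60027) (nat_lit 131) (nat_lit 0) (nat_lit 0),Row.mk (nat_lit 21672) (nat_lit 59840) (nat_lit 16470) (nat_lit 60027) (nat_lit 131) (nat_lit 0) (nat_lit 0),Row.mk (nat_lit 21840) (nat_lit 59840) (nat_lit 16470) (nat_lit 60027) (nat_lit 131) (nat_lit 0) (nat_lit 0),Row.mk (nat_lit 22008) (nat_lit 59840) (nat_lit 16470) (nat_lit 60027) (nat_lit 131) (nat_lit 0) (nat_lit 0),Row.mk (nat_lit 22176) (nat_lit 59840) (nat_lit 16470) (nat_lit 60027) (nat_lit 131) (nat_lit 0) (nat_lit 0),Row.mk (nat_lit 22344) (nat_lit 59840)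 (nat_lit 16470) (nat_lit 60027) (nat_lit 131) (nat_lit 0) (nat_lit 0),Row.mk (nat_lit 22512) (nat_lit 59840) (nat_lit 16470) (nat_lit 60027) (nat_lit 131) (nat_lit 0) (nat_lit 0),Row.mk (nat_lit 22680) (nat_lit 59840) (nat_lit 16470) (nat_lit 60027) (nat_lit 131) (nat_lit 0) (nat_lit 0),Row.mk (nat_lit 22848) (nat_lit 59840) (nat_lit 16470) (nat_lit 60027) (nat_lit 131) (nat_lit 0) (nat_lit 0),Row.mk (nat_lit 23016) (nat_lit 59840) (nat_lit 16470) (nat_lit 60027) (nat_lit 131) (nat_lit 0) (nat_lit 0),Row.mk (nat_lit 23184) (nat_lit 59840) (nat_lit 16470) (nat_lit 60027) (nat_lit 131) (nat_lit 0) (nat_lit 0),Row.mk (nat_lit 23352) (nat_lit 59840) (nat_lit 16470) (nat_lit 60027) (nat_lit 131) (nat_lit 0) (nat_lit 0),Row.mk (nat_lit 23520) (nat_lit 59840) (nat_lit 16470) (nat_lit 60027) (nat_lit 131) (nat_lit 0) (nat_lit 0),Row.mk (nat_lit 23688) (nat_lit 59840) (nat_lit 16470) (nat_lit 60027) (nat_lit 131) (nat_lit 0) (nat_lit 0),Row.mk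 (nat_lit 23856) (nat_lit 59840) (nat_lit 16470) (nat_lit 60027) (nat_lit 131) (nat_lit 0) (nat_lit 0),Row.mk (nat_lit 24024) (nat_lit 59840) (nat_lit 16470) (nat_lit 60027) (nat_lit 131) (nat_lit 0) (nat_lit 0),Row.mk (nat_lit 24192) (nat_lit 59840) (nat_lit 16470) (nat_lit 60027) (nat_lit 131) (nat_lit 0) (nat_lit 0),Row.mk (nat_lit 24360) (nat_lit 59840) (nat_lit 16470) (nat_lit 60027) (nat_lit 131) (nat_lit 0) (nat_lit 0),Row.mk (nat_lit 24528) (nat_lit 59840) (nat_lit 16470) (nat_lit 60027) (nat_lit 131) (nat_lit 0) (nat_lit 0),Row.mk (nat_lit 24696) (nat_lit 59840) (nat_lit 16470) (nat_lit 60027) (nat_lit 131) (nat_lit 0) (nat_lit 0)],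
[Row.mk (nat_lit 10752) (nat_lit 59279) (nat_lit 20530) (nat_lit 59466) (nat_lit 205) (nat_lit 0) (nat_lit 0),Row.mk (nat_lit 10920) (nat_lit 59279) (nat_lit 20530) (nat_lit 59466) (nat_lit 205) (nat_lit 0) (nat_lit 0),Row.mk (nat_lit 11088) (nat_lit 59279) (nat_lit 20530) (nat_lit 59466) (nat_lit 205) (nat_lit 0) (nat_lit 0),Row.mk (nat_lit 11256) (nat_lit 59279) (nat_lit 20530) (nat_lit 59466) (nat_lit 205) (nat_lit 0) (nat_lit 0),Row.mk (nat_lit 11424) (nat_lit 59279) (nat_lit 20530) (nat_lit 59466) (nat_lit 205) (nat_lit 0) (nat_lit 0),Row.mk (nat_lit 11592) (nat_lit 59279) (nat_lit 20530) (nat_lit 59466) (nat_lit 205) (nat_lit 0) (nat_lit 0),Row.mk (nat_lit 11760) (nat_lit 59279) (nat_lit 20530) (nat_lit 59466) (nat_lit 205) (nat_lit 0) (nat_lit 0),Row.mk (nat_lit 11928) (nat_lit 59279) (nat_lit 20530) (nat_lit 59466) (nat_lit 205) (nat_lit 0) (nat_lit 0),Row.mk (nat_lit 12096) (nat_lit 59279) (nat_lit 20530) (nat_lit 59466)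 (nat_lit 205) (nat_lit 0) (nat_lit 0),Row.mk (nat_lit 12264) (nat_lit 59279) (nat_lit 20530) (nat_lit 59466) (nat_lit 205) (nat_lit 0) (nat_lit 0),Row.mk (nat_lit 12432) (nat_lit 59279) (nat_lit 20530) (nat_lit 59466) (nat_lit 205) (nat_lit 0) (nat_lit 0),Row.mk (nat_lit 12600) (nat_lit 59279) (nat_lit 20530) (nat_lit 59466) (nat_lit 205) (nat_lit 0) (nat_lit 0),Row.mk (nat_lit 12768) (nat_lit 59279) (nat_lit 20530) (nat_lit 59466) (nat_lit 205) (nat_lit 0) (nat_lit 0),Row.mk (nat_lit 12936) (nat_lit 59279) (nat_lit 20530) (nat_lit 59466) (nat_lit 205) (nat_lit 0) (nat_lit 0),Row.mk (nat_lit 13104) (nat_lit 59279) (nat_lit 20530) (nat_lit 59466) (nat_lit 205) (nat_lit 0) (nat_lit 0),Row.mk (nat_lit 13272) (nat_lit 59279) (nat_lit 20530) (nat_lit 59466) (nat_lit 205) (nat_lit 0) (nat_lit 0),Row.mk (nat_lit 13440) (nat_lit 59279) (nat_lit 20530) (nat_lit 59466) (nat_lit 205) (nat_lit 0) (nat_lit 0),Row.mk (nat_lit 13608) (nat_lit 59279)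 (nat_lit 20530) (nat_lit 59466) (nat_lit 205) (nat_lit 0) (nat_lit 0),Row.mk (nat_lit 13776) (nat_lit 59279) (nat_lit 20530) (nat_lit 59466) (nat_lit 205) (nat_lit 0) (nat_lit 0),Row.mk (nat_lit 13944) (nat_lit 59279) (nat_lit 20530) (nat_lit 59466) (nat_lit 205) (nat_lit 0) (nat_lit 0),Row.mk (nat_lit 14112) (nat_lit 59279) (nat_lit 20530) (nat_lit 59466) (nat_lit 205) (nat_lit 0) (nat_lit 0),Row.mk (nat_lit 14280) (nat_lit 59279) (nat_lit 20530) (nat_lit 59466) (nat_lit 205) (nat_lit 0) (nat_lit 0),Row.mk (nat_lit 14448) (nat_lit 59279) (nat_lit 20530) (nat_lit 59466) (nat_lit 205) (nat_lit 0) (nat_lit 0),Row.mk (nat_lit 14616) (nat_lit 59279) (nat_lit 20530) (nat_lit 59466) (nat_lit 205) (nat_lit 0) (nat_lit 0),Row.mk (nat_lit 14784) (nat_lit 59279) (nat_lit 20530) (nat_lit 59466) (nat_lit 205) (nat_lit 0) (nat_lit 0),Row.mk (nat_lit 14952) (nat_lit 59279) (nat_lit 20530) (nat_lit 59466) (nat_lit 205) (nat_lit 0) (nat_lit 0),Row.mk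 (nat_lit 15120) (nat_lit 59279) (nat_lit 20530) (nat_lit 59466) (nat_lit 205) (nat_lit 0) (nat_lit 0),Row.mk (nat_lit 15288) (nat_lit 59279) (nat_lit 20530) (nat_lit 59466) (nat_lit 205) (nat_lit 0) (nat_lit 0),Row.mk (nat_lit 15456) (nat_lit 59279) (nat_lit 20530) (nat_lit 59466) (nat_lit 205) (nat_lit 0) (nat_lit 0),Row.mk (nat_lit 15624) (nat_lit 59279) (nat_lit 20530) (nat_lit 59466) (nat_lit 205) (nat_lit 0) (nat_lit 0),Row.mk (nat_lit 15792) (nat_lit 59279) (nat_lit 20530) (nat_lit 59466) (nat_lit 205) (nat_lit 0) (nat_lit 0),Row.mk (nat_lit 15960) (nat_lit 59279) (nat_lit 20530) (nat_lit 59466) (nat_lit 205) (nat_lit 0) (nat_lit 0),Row.mk (nat_lit 16128) (nat_lit 59279) (nat_lit 20530) (nat_lit 59466) (nat_lit 205) (nat_lit 0) (nat_lit 0),Row.mk (nat_lit 16296) (nat_lit 59279) (nat_lit 20530) (nat_lit 59466) (nat_lit 205) (nat_lit 0) (nat_lit 0),Row.mk (nat_lit 16464) (nat_lit 59279) (nat_lit 20530) (nat_lit 59466) (nat_lit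 205) (nat_lit 0) (nat_lit 0),Row.mk (nat_lit 16632) (nat_lit 59279) (nat_lit 20530) (nat_lit 59466) (nat_lit 205) (nat_lit 0) (nat_lit 0),Row.mk (nat_lit 16800) (nat_lit 59279) (nat_lit 20530) (nat_lit 59466) (nat_lit 205) (nat_lit 0) (nat_lit 0),Row.mk (nat_lit 16968) (nat_lit 59279) (nat_lit 20530) (nat_lit 59466) (nat_lit 205) (nat_lit 0) (nat_lit 0),Row.mk (nat_lit 17136) (nat_lit 59279) (nat_lit 20530) (nat_lit 59466) (nat_lit 205) (nat_lit 0) (nat_lit 0),Row.mk (nat_lit 17304) (nat_lit 59279) (nat_lit 20530) (nat_lit 59466) (nat_lit 205) (nat_lit 0) (nat_lit 0),Row.mk (nat_lit 17472) (nat_lit 59279) (nat_lit 20530) (nat_lit 59466) (nat_lit 205) (nat_lit 0) (nat_lit 0),Row.mk (nat_lit 17640) (nat_lit 59279) (nat_lit 20530) (nat_lit 59466) (nat_lit 205) (nat_lit 0) (nat_lit 0),Row.mk (nat_lit 17808) (nat_lit 59279) (nat_lit 20530) (nat_lit 59466) (nat_lit 205) (nat_lit 0) (nat_lit 0),Row.mk (nat_lit 17976) (nat_lit 59279) (nat_lit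 20530) (nat_lit 59466) (nat_lit 205) (nat_lit 0) (nat_lit 0),Row.mk (nat_lit 18144) (nat_lit 59279) (nat_lit 20530) (nat_lit 59466) (nat_lit 205) (nat_lit 0) (nat_lit 0),Row.mk (nat_lit 18312) (nat_lit 59279) (nat_lit 20530) (nat_lit 59466) (nat_lit 205) (nat_lit 0) (nat_lit 0),Row.mk (nat_lit 18480) (nat_lit 59279) (nat_lit 20530) (nat_lit 59466) (nat_lit 205) (nat_lit 0) (nat_lit 0),Row.mk (nat_lit 18648) (nat_lit 59279) (nat_lit 20530) (nat_lit 59466) (nat_lit 205) (nat_lit 0) (nat_lit 0),Row.mk (nat_lit 18816) (nat_lit 59279) (nat_lit 20530) (nat_lit 59466) (nat_lit 205) (nat_lit 0) (nat_lit 0),Row.mk (nat_lit 18984) (nat_lit 59279) (nat_lit 20530) (nat_lit 59466) (nat_lit 205) (nat_lit 0) (nat_lit 0),Row.mk (nat_lit 19152) (nat_lit 59279) (nat_lit 20530) (nat_lit 59466) (nat_lit 205) (nat_lit 0) (nat_lit 0),Row.mk (nat_lit 19320) (nat_lit 59279) (nat_lit 20530) (nat_lit 59466) (nat_lit 205) (nat_lit 0) (nat_lit 0),Row.mk (nat_lit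 19488) (nat_lit 59279) (nat_lit 20530) (nat_lit 59466) (nat_lit 205) (nat_lit 0) (nat_lit 0),Row.mk (nat_lit 19656) (nat_lit 59279) (nat_lit 20530) (nat_lit 59466) (nat_lit 205) (nat_lit 0) (nat_lit 0),Row.mk (nat_lit 19824) (nat_lit 59279) (nat_lit 20530) (nat_lit 59466) (nat_lit 205) (nat_lit 0) (nat_lit 0),Row.mk (nat_lit 19992) (nat_lit 59279) (nat_lit 20530) (nat_lit 59466) (nat_lit 205) (nat_lit 0) (nat_lit 0),Row.mk (nat_lit 20160) (nat_lit 59279) (nat_lit 20530) (nat_lit 59466) (nat_lit 205) (nat_lit 0) (nat_lit 0),Row.mk (nat_lit 20328) (nat_lit 59279) (nat_lit 20530) (nat_lit 59466) (nat_lit 205) (nat_lit 0) (nat_lit 0),Row.mk (nat_lit 20496) (nat_lit 59279) (nat_lit 20530) (nat_lit 59466) (nat_lit 205) (nat_lit 0) (nat_lit 0),Row.mk (nat_lit 20664) (nat_lit 59279) (nat_lit 20530) (nat_lit 59466) (nat_lit 205) (nat_lit 0) (nat_lit 0),Row.mk (nat_lit 20832) (nat_lit 59279) (nat_lit 20530) (nat_lit 59466) (nat_lit 205) (nat_lit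 0) (nat_lit 0),Row.mk (nat_lit 21000) (nat_lit 59279) (nat_lit 20530) (nat_lit 59466) (nat_lit 205) (nat_lit 0) (nat_lit 0),Row.mk (nat_lit 21168) (nat_lit 59279) (nat_lit 20530) (nat_lit 59466) (nat_lit 205) (nat_lit 0) (nat_lit 0),Row.mk (nat_lit 21336) (nat_lit 59279) (nat_lit 20530) (nat_lit 59466) (nat_lit 205) (nat_lit 0) (nat_lit 0),Row.mk (nat_lit 21504) (nat_lit 59279) (nat_lit 20530) (nat_lit 59466) (nat_lit 205) (nat_lit 0) (nat_lit 0),Row.mk (nat_lit 21672) (nat_lit 59279) (nat_lit 20530) (nat_lit 59466) (nat_lit 205) (nat_lit 0) (nat_lit 0),Row.mk (nat_lit 21840) (nat_lit 59279) (nat_lit 20530) (nat_lit 59466) (nat_lit 205) (nat_lit 0) (nat_lit 0),Row.mk (nat_lit 22008) (nat_lit 59279) (nat_lit 20530) (nat_lit 59466) (nat_lit 205) (nat_lit 0) (nat_lit 0),Row.mk (nat_lit 22176) (nat_lit 59279) (nat_lit 20530) (nat_lit 59466) (nat_lit 205) (nat_lit 0) (nat_lit 0),Row.mk (nat_lit 22344) (nat_lit 59279) (nat_lit 20530) (nat_lit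 59466) (nat_lit 205) (nat_lit 0) (nat_lit 0),Row.mk (nat_lit 22512) (nat_lit 59279) (nat_lit 20530) (nat_lit 59466) (nat_lit 205) (nat_lit 0) (nat_lit 0),Row.mk (nat_lit 22680) (nat_lit 59279) (nat_lit 20530) (nat_lit 59466) (nat_lit 205) (nat_lit 0) (nat_lit 0),Row.mk (nat_lit 22848) (nat_lit 59279) (nat_lit 20530) (nat_lit 59466) (nat_lit 205) (nat_lit 0) (nat_lit 0),Row.mk (nat_lit 23016) (nat_lit 59279) (nat_lit 20530) (nat_lit 59466) (nat_lit 205) (nat_lit 0) (nat_lit 0),Row.mk (nat_lit 23184) (nat_lit 59279) (nat_lit 20530) (nat_lit 59466) (nat_lit 205) (nat_lit 0) (nat_lit 0),Row.mk (nat_lit 23352) (nat_lit 59279) (nat_lit 20530) (nat_lit 59466) (nat_lit 205) (nat_lit 0) (nat_lit 0),Row.mk (nat_lit 23520) (nat_lit 59279) (nat_lit 20530) (nat_lit 59466) (nat_lit 205) (nat_lit 0) (nat_lit 0),Row.mk (nat_lit 23688) (nat_lit 59279) (nat_lit 20530) (nat_lit 59466) (nat_lit 205) (nat_lit 0) (nat_lit 0),Row.mk (nat_lit 23856) (nat_lit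 59279) (nat_lit 20530) (nat_lit 59466) (nat_lit 205) (nat_lit 0) (nat_lit 0),Row.mk (nat_lit 24024) (nat_lit 59279) (nat_lit 20530) (nat_lit 59466) (nat_lit 205) (nat_lit 0) (nat_lit 0),Row.mk (nat_lit 24192) (nat_lit 59279) (nat_lit 20530) (nat_lit 59466) (nat_lit 205) (nat_lit 0) (nat_lit 0),Row.mk (nat_lit 24360) (nat_lit 59279) (nat_lit 20530) (nat_lit 59466) (nat_lit 205) (nat_lit 0) (nat_lit 0),Row.mk (nat_lit 24528) (nat_lit 59279) (nat_lit 20530) (nat_lit 59466) (nat_lit 205) (nat_lit 0) (nat_lit 0),Row.mk (nat_lit 24696) (nat_lit 59279) (nat_lit 20530) (nat_lit 59466) (nat_lit 205) (nat_lit 0) (nat_lit 0)],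
[Row.mk (nat_lit 10752) (nat_lit 58718) (nat_lit 25577) (nat_lit 58905) (nat_lit 321) (nat_lit 0) (nat_lit 0),Row.mk (nat_lit 10920) (nat_lit 58718) (nat_lit 25577) (nat_lit 58905) (nat_lit 321) (nat_lit 0) (nat_lit 0),Row.mk (nat_lit 11088) (nat_lit 58718) (nat_lit 25577) (nat_lit 58905) (nat_lit 321) (nat_lit 0) (nat_lit 0),Row.mk (nat_lit 11256) (nat_lit 58718) (nat_lit 25577) (nat_lit 58905) (nat_lit 321) (nat_lit 0) (nat_lit 0),Row.mk (nat_lit 11424) (nat_lit 58718) (nat_lit 25577) (nat_lit 58905) (nat_lit 321) (nat_lit 0) (nat_lit 0),Row.mk (nat_lit 11592) (nat_lit 58718) (nat_lit 25577) (nat_lit 58905) (nat_lit 321) (nat_lit 0) (nat_lit 0),Row.mk (nat_lit 11760) (nat_lit 58718) (nat_lit 25577) (nat_lit 58905) (nat_lit 321) (nat_lit 0) (nat_lit 0),Row.mk (nat_lit 11928) (nat_lit 58718) (nat_lit 25577) (nat_lit 58905) (nat_lit 321) (nat_lit 0) (nat_lit 0),Row.mk (nat_lit 12096) (nat_lit 58718) (nat_lit 25577) (nat_lit 58905)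 (nat_lit 321) (nat_lit 0) (nat_lit 0),Row.mk (nat_lit 12264) (nat_lit 58718) (nat_lit 25577) (nat_lit 58905) (nat_lit 321) (nat_lit 0) (nat_lit 0),Row.mk (nat_lit 12432) (nat_lit 58718) (nat_lit 25577) (nat_lit 58905) (nat_lit 321) (nat_lit 0) (nat_lit 0),Row.mk (nat_lit 12600) (nat_lit 58718) (nat_lit 25577) (nat_lit 58905) (nat_lit 321) (nat_lit 0) (nat_lit 0),Row.mk (nat_lit 12768) (nat_lit 58718) (nat_lit 25577) (nat_lit 58905) (nat_lit 321) (nat_lit 0) (nat_lit 0),Row.mk (nat_lit 12936) (nat_lit 58718) (nat_lit 25577) (nat_lit 58905) (nat_lit 321) (nat_lit 0) (nat_lit 0),Row.mk (nat_lit 13104) (nat_lit 58718) (nat_lit 25577) (nat_lit 58905) (nat_lit 321) (nat_lit 0) (nat_lit 0),Row.mk (nat_lit 13272) (nat_lit 58718) (nat_lit 25577) (nat_lit 58905) (nat_lit 321) (nat_lit 0) (nat_lit 0),Row.mk (nat_lit 13440) (nat_lit 58718) (nat_lit 25577) (nat_lit 58905) (nat_lit 321) (nat_lit 0) (nat_lit 0),Row.mk (nat_lit 13608) (nat_lit 58718)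 (nat_lit 25577) (nat_lit 58905) (nat_lit 321) (nat_lit 0) (nat_lit 0),Row.mk (nat_lit 13776) (nat_lit 58718) (nat_lit 25577) (nat_lit 58905) (nat_lit 321) (nat_lit 0) (nat_lit 0),Row.mk (nat_lit 13944) (nat_lit 58718) (nat_lit 25577) (nat_lit 58905) (nat_lit 321) (nat_lit 0) (nat_lit 0),Row.mk (nat_lit 14112) (nat_lit 58718) (nat_lit 25577) (nat_lit 58905) (nat_lit 321) (nat_lit 0) (nat_lit 0),Row.mk (nat_lit 14280) (nat_lit 58718) (nat_lit 25577) (nat_lit 58905) (nat_lit 321) (nat_lit 0) (nat_lit 0),Row.mk (nat_lit 14448) (nat_lit 58718) (nat_lit 25577) (nat_lit 58905) (nat_lit 321) (nat_lit 0) (nat_lit 0),Row.mk (nat_lit 14616) (nat_lit 58718) (nat_lit 25577) (nat_lit 58905) (nat_lit 321) (nat_lit 0) (nat_lit 0),Row.mk (nat_lit 14784) (nat_lit 58718) (nat_lit 25577) (nat_lit 58905) (nat_lit 321) (nat_lit 0) (nat_lit 0),Row.mk (nat_lit 14952) (nat_lit 58718) (nat_lit 25577) (nat_lit 58905) (nat_lit 321) (nat_lit 0) (nat_lit 0),Row.mk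 (nat_lit 15120) (nat_lit 58718) (nat_lit 25577) (nat_lit 58905) (nat_lit 321) (nat_lit 0) (nat_lit 0),Row.mk (nat_lit 15288) (nat_lit 58718) (nat_lit 25577) (nat_lit 58905) (nat_lit 321) (nat_lit 0) (nat_lit 0),Row.mk (nat_lit 15456) (nat_lit 58718) (nat_lit 25577) (nat_lit 58905) (nat_lit 321) (nat_lit 0) (nat_lit 0),Row.mk (nat_lit 15624) (nat_lit 58718) (nat_lit 25577) (nat_lit 58905) (nat_lit 321) (nat_lit 0) (nat_lit 0),Row.mk (nat_lit 15792) (nat_lit 58718) (nat_lit 25577) (nat_lit 58905) (nat_lit 321) (nat_lit 0) (nat_lit 0),Row.mk (nat_lit 15960) (nat_lit 58718) (nat_lit 25577) (nat_lit 58905) (nat_lit 321) (nat_lit 0) (nat_lit 0),Row.mk (nat_lit 16128) (nat_lit 58718) (nat_lit 25577) (nat_lit 58905) (nat_lit 321) (nat_lit 0) (nat_lit 0),Row.mk (nat_lit 16296) (nat_lit 58718) (nat_lit 25577) (nat_lit 58905) (nat_lit 321) (nat_lit 0) (nat_lit 0),Row.mk (nat_lit 16464) (nat_lit 58718) (nat_lit 25577) (nat_lit 58905) (nat_lit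 321) (nat_lit 0) (nat_lit 0),Row.mk (nat_lit 16632) (nat_lit 58718) (nat_lit 25577) (nat_lit 58905) (nat_lit 321) (nat_lit 0) (nat_lit 0),Row.mk (nat_lit 16800) (nat_lit 58718) (nat_lit 25577) (nat_lit 58905) (nat_lit 321) (nat_lit 0) (nat_lit 0),Row.mk (nat_lit 16968) (nat_lit 58718) (nat_lit 25577) (nat_lit 58905) (nat_lit 321) (nat_lit 0) (nat_lit 0),Row.mk (nat_lit 17136) (nat_lit 58718) (nat_lit 25577) (nat_lit 58905) (nat_lit 321) (nat_lit 0) (nat_lit 0),Row.mk (nat_lit 17304) (nat_lit 58718) (nat_lit 25577) (nat_lit 58905) (nat_lit 321) (nat_lit 0) (nat_lit 0),Row.mk (nat_lit 17472) (nat_lit 58718) (nat_lit 25577) (nat_lit 58905) (nat_lit 321) (nat_lit 0) (nat_lit 0),Row.mk (nat_lit 17640) (nat_lit 58718) (nat_lit 25577) (nat_lit 58905) (nat_lit 321) (nat_lit 0) (nat_lit 0),Row.mk (nat_lit 17808) (nat_lit 58718) (nat_lit 25577) (nat_lit 58905) (nat_lit 321) (nat_lit 0) (nat_lit 0),Row.mk (nat_lit 17976) (nat_lit 58718) (nat_lit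 25577) (nat_lit 58905) (nat_lit 321) (nat_lit 0) (nat_lit 0),Row.mk (nat_lit 18144) (nat_lit 58718) (nat_lit 25577) (nat_lit 58905) (nat_lit 321) (nat_lit 0) (nat_lit 0),Row.mk (nat_lit 18312) (nat_lit 58718) (nat_lit 25577) (nat_lit 58905) (nat_lit 321) (nat_lit 0) (nat_lit 0),Row.mk (nat_lit 18480) (nat_lit 58718) (nat_lit 25577) (nat_lit 58905) (nat_lit 321) (nat_lit 0) (nat_lit 0),Row.mk (nat_lit 18648) (nat_lit 58718) (nat_lit 25577) (nat_lit 58905) (nat_lit 321) (nat_lit 0) (nat_lit 0),Row.mk (nat_lit 18816) (nat_lit 58718) (nat_lit 25577) (nat_lit 58905) (nat_lit 321) (nat_lit 0) (nat_lit 0),Row.mk (nat_lit 18984) (nat_lit 58718) (nat_lit 25577) (nat_lit 58905) (nat_lit 321) (nat_lit 0) (nat_lit 0),Row.mk (nat_lit 19152) (nat_lit 58718) (nat_lit 25577) (nat_lit 58905) (nat_lit 321) (nat_lit 0) (nat_lit 0),Row.mk (nat_lit 19320) (nat_lit 58718) (nat_lit 25577) (nat_lit 58905) (nat_lit 321) (nat_lit 0) (nat_lit 0),Row.mk (nat_lit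 19488) (nat_lit 58718) (nat_lit 25577) (nat_lit 58905) (nat_lit 321) (nat_lit 0) (nat_lit 0),Row.mk (nat_lit 19656) (nat_lit 58718) (nat_lit 25577) (nat_lit 58905) (nat_lit 321) (nat_lit 0) (nat_lit 0),Row.mk (nat_lit 19824) (nat_lit 58718) (nat_lit 25577) (nat_lit 58905) (nat_lit 321) (nat_lit 0) (nat_lit 0),Row.mk (nat_lit 19992) (nat_lit 58718) (nat_lit 25577) (nat_lit 58905) (nat_lit 321) (nat_lit 0) (nat_lit 0),Row.mk (nat_lit 20160) (nat_lit 58718) (nat_lit 25577) (nat_lit 58905) (nat_lit 321) (nat_lit 0) (nat_lit 0),Row.mk (nat_lit 20328) (nat_lit 58718) (nat_lit 25577) (nat_lit 58905) (nat_lit 321) (nat_lit 0) (nat_lit 0),Row.mk (nat_lit 20496) (nat_lit 58718) (nat_lit 25577) (nat_lit 58905) (nat_lit 321) (nat_lit 0) (nat_lit 0),Row.mk (nat_lit 20664) (nat_lit 58718) (nat_lit 25577) (nat_lit 58905) (nat_lit 321) (nat_lit 0) (nat_lit 0),Row.mk (nat_lit 20832) (nat_lit 58718) (nat_lit 25577) (nat_lit 58905) (nat_lit 321) (nat_lit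 0) (nat_lit 0),Row.mk (nat_lit 21000) (nat_lit 58718) (nat_lit 25577) (nat_lit 58905) (nat_lit 321) (nat_lit 0) (nat_lit 0),Row.mk (nat_lit 21168) (nat_lit 58718) (nat_lit 25577) (nat_lit 58905) (nat_lit 321) (nat_lit 0) (nat_lit 0),Row.mk (nat_lit 21336) (nat_lit 58718) (nat_lit 25577) (nat_lit 58905) (nat_lit 321) (nat_lit 0) (nat_lit 0),Row.mk (nat_lit 21504) (nat_lit 58718) (nat_lit 25577) (nat_lit 58905) (nat_lit 321) (nat_lit 0) (nat_lit 0),Row.mk (nat_lit 21672) (nat_lit 58718) (nat_lit 25577) (nat_lit 58905) (nat_lit 321) (nat_lit 0) (nat_lit 0),Row.mk (nat_lit 21840) (nat_lit 58718) (nat_lit 25577) (nat_lit 58905) (nat_lit 321) (nat_lit 0) (nat_lit 0),Row.mk (nat_lit 22008) (nat_lit 58718) (nat_lit 25577) (nat_lit 58905) (nat_lit 321) (nat_lit 0) (nat_lit 0),Row.mk (nat_lit 22176) (nat_lit 58718) (nat_lit 25577) (nat_lit 58905) (nat_lit 321) (nat_lit 0) (nat_lit 0),Row.mk (nat_lit 22344) (nat_lit 58718) (nat_lit 25577) (nat_lit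 58905) (nat_lit 321) (nat_lit 0) (nat_lit 0),Row.mk (nat_lit 22512) (nat_lit 58718) (nat_lit 25577) (nat_lit 58905) (nat_lit 321) (nat_lit 0) (nat_lit 0),Row.mk (nat_lit 22680) (nat_lit 58718) (nat_lit 25577) (nat_lit 58905) (nat_lit 321) (nat_lit 0) (nat_lit 0),Row.mk (nat_lit 22848) (nat_lit 58718) (nat_lit 25577) (nat_lit 58905) (nat_lit 321) (nat_lit 0) (nat_lit 0),Row.mk (nat_lit 23016) (nat_lit 58718) (nat_lit 25577) (nat_lit 58905) (nat_lit 321) (nat_lit 0) (nat_lit 0),Row.mk (nat_lit 23184) (nat_lit 58718) (nat_lit 25577) (nat_lit 58905) (nat_lit 321) (nat_lit 0) (nat_lit 0),Row.mk (nat_lit 23352) (nat_lit 58718) (nat_lit 25577) (nat_lit 58905) (nat_lit 321) (nat_lit 0) (nat_lit 0),Row.mk (nat_lit 23520) (nat_lit 58718) (nat_lit 25577) (nat_lit 58905) (nat_lit 321) (nat_lit 0) (nat_lit 0),Row.mk (nat_lit 23688) (nat_lit 58718) (nat_lit 25577) (nat_lit 58905) (nat_lit 321) (nat_lit 0) (nat_lit 0),Row.mk (nat_lit 23856) (nat_lit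 58718) (nat_lit 25577) (nat_lit 58905) (nat_lit 321) (nat_lit 0) (nat_lit 0),Row.mk (nat_lit 24024) (nat_lit 58718) (nat_lit 25577) (nat_lit 58905) (nat_lit 321) (nat_lit 0) (nat_lit 0),Row.mk (nat_lit 24192) (nat_lit 58718) (nat_lit 25577) (nat_lit 58905) (nat_lit 321) (nat_lit 0) (nat_lit 0),Row.mk (nat_lit 24360) (nat_lit 58718) (nat_lit 25577) (nat_lit 58905) (nat_lit 321) (nat_lit 0) (nat_lit 0),Row.mk (nat_lit 24528) (nat_lit 58718) (nat_lit 25577) (nat_lit 58905) (nat_lit 321) (nat_lit 0) (nat_lit 0),Row.mk (nat_lit 24696) (nat_lit 58718) (nat_lit 25577) (nat_lit 58905) (nat_lit 321) (nat_lit 0) (nat_lit 0),Row.mk (nat_lit 24864) (nat_lit 58718) (nat_lit 25577) (nat_lit 58905) (nat_lit 321) (nat_lit 0) (nat_lit 0)],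
[Row.mk (nat_lit 10752) (nat_lit 58157) (nat_lit 31846) (nat_lit 58344) (nat_lit 500) (nat_lit 0) (nat_lit 0),Row.mk (nat_lit 10920) (nat_lit 58157) (nat_lit 31846) (nat_lit 58344) (nat_lit 500) (nat_lit 0) (nat_lit 0),Row.mk (nat_lit 11088) (nat_lit 58157) (nat_lit 31846) (nat_lit 58344) (nat_lit 500) (nat_lit 0) (nat_lit 0),Row.mk (nat_lit 11256) (nat_lit 58157) (nat_lit 31846) (nat_lit 58344) (nat_lit 500) (nat_lit 0) (nat_lit 0),Row.mk (nat_lit 11424) (nat_lit 58157) (nat_lit 31846) (nat_lit 58344) (nat_lit 500) (nat_lit 0) (nat_lit 0),Row.mk (nat_lit 11592) (nat_lit 58157) (nat_lit 31846) (nat_lit 58344) (nat_lit 500) (nat_lit 0) (nat_lit 0),Row.mk (nat_lit 11760) (nat_lit 58157) (nat_lit 31846) (nat_lit 58344) (nat_lit 500) (nat_lit 0) (nat_lit 0),Row.mk (nat_lit 11928) (nat_lit 58157) (nat_lit 31846) (nat_lit 58344) (nat_lit 500) (nat_lit 0) (nat_lit 0),Row.mk (nat_lit 12096) (nat_lit 58157) (nat_lit 31846) (nat_lit 58344)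 (nat_lit 500) (nat_lit 0) (nat_lit 0),Row.mk (nat_lit 12264) (nat_lit 58157) (nat_lit 31846) (nat_lit 58344) (nat_lit 500) (nat_lit 0) (nat_lit 0),Row.mk (nat_lit 12432) (nat_lit 58157) (nat_lit 31846) (nat_lit 58344) (nat_lit 500) (nat_lit 0) (nat_lit 0),Row.mk (nat_lit 12600) (nat_lit 58157) (nat_lit 31846) (nat_lit 58344) (nat_lit 500) (nat_lit 0) (nat_lit 0),Row.mk (nat_lit 12768) (nat_lit 58157) (nat_lit 31846) (nat_lit 58344) (nat_lit 500) (nat_lit 0) (nat_lit 0),Row.mk (nat_lit 12936) (nat_lit 58157) (nat_lit 31846) (nat_lit 58344) (nat_lit 500) (nat_lit 0) (nat_lit 0),Row.mk (nat_lit 13104) (nat_lit 58157) (nat_lit 31846) (nat_lit 58344) (nat_lit 500) (nat_lit 0) (nat_lit 0),Row.mk (nat_lit 13272) (nat_lit 58157) (nat_lit 31846) (nat_lit 58344) (nat_lit 500) (nat_lit 0) (nat_lit 0),Row.mk (nat_lit 13440) (nat_lit 58157) (nat_lit 31846) (nat_lit 58344) (nat_lit 500) (nat_lit 0) (nat_lit 0),Row.mk (nat_lit 13608) (nat_lit 58157)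 (nat_lit 31846) (nat_lit 58344) (nat_lit 500) (nat_lit 0) (nat_lit 0),Row.mk (nat_lit 13776) (nat_lit 58157) (nat_lit 31846) (nat_lit 58344) (nat_lit 500) (nat_lit 0) (nat_lit 0),Row.mk (nat_lit 13944) (nat_lit 58157) (nat_lit 31846) (nat_lit 58344) (nat_lit 500) (nat_lit 0) (nat_lit 0),Row.mk (nat_lit 14112) (nat_lit 58157) (nat_lit 31846) (nat_lit 58344) (nat_lit 500) (nat_lit 0) (nat_lit 0),Row.mk (nat_lit 14280) (nat_lit 58157) (nat_lit 31846) (nat_lit 58344) (nat_lit 500) (nat_lit 0) (nat_lit 0),Row.mk (nat_lit 14448) (nat_lit 58157) (nat_lit 31846) (nat_lit 58344) (nat_lit 500) (nat_lit 0) (nat_lit 0),Row.mk (nat_lit 14616) (nat_lit 58157) (nat_lit 31846) (nat_lit 58344) (nat_lit 500) (nat_lit 0) (nat_lit 0),Row.mk (nat_lit 14784) (nat_lit 58157) (nat_lit 31846) (nat_lit 58344) (nat_lit 500) (nat_lit 0) (nat_lit 0),Row.mk (nat_lit 14952) (nat_lit 58157) (nat_lit 31846) (nat_lit 58344) (nat_lit 500) (nat_lit 0) (nat_lit 0),Row.mk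 (nat_lit 15120) (nat_lit 58157) (nat_lit 31846) (nat_lit 58344) (nat_lit 500) (nat_lit 0) (nat_lit 0),Row.mk (nat_lit 15288) (nat_lit 58157) (nat_lit 31846) (nat_lit 58344) (nat_lit 500) (nat_lit 0) (nat_lit 0),Row.mk (nat_lit 15456) (nat_lit 58157) (nat_lit 31846) (nat_lit 58344) (nat_lit 500) (nat_lit 0) (nat_lit 0),Row.mk (nat_lit 15624) (nat_lit 58157) (nat_lit 31846) (nat_lit 58344) (nat_lit 500) (nat_lit 0) (nat_lit 0),Row.mk (nat_lit 15792) (nat_lit 58157) (nat_lit 31846) (nat_lit 58344) (nat_lit 500) (nat_lit 0) (nat_lit 0),Row.mk (nat_lit 15960) (nat_lit 58157) (nat_lit 31846) (nat_lit 58344) (nat_lit 500) (nat_lit 0) (nat_lit 0),Row.mk (nat_lit 16128) (nat_lit 58157) (nat_lit 31846) (nat_lit 58344) (nat_lit 500) (nat_lit 0) (nat_lit 0),Row.mk (nat_lit 16296) (nat_lit 58157) (nat_lit 31846) (nat_lit 58344) (nat_lit 500) (nat_lit 0) (nat_lit 0),Row.mk (nat_lit 16464) (nat_lit 58157) (nat_lit 31846) (nat_lit 58344) (nat_lit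 500) (nat_lit 0) (nat_lit 0),Row.mk (nat_lit 16632) (nat_lit 58157) (nat_lit 31846) (nat_lit 58344) (nat_lit 500) (nat_lit 0) (nat_lit 0),Row.mk (nat_lit 16800) (nat_lit 58157) (nat_lit 31846) (nat_lit 58344) (nat_lit 500) (nat_lit 0) (nat_lit 0),Row.mk (nat_lit 16968) (nat_lit 58157) (nat_lit 31846) (nat_lit 58344) (nat_lit 500) (nat_lit 0) (nat_lit 0),Row.mk (nat_lit 17136) (nat_lit 58157) (nat_lit 31846) (nat_lit 58344) (nat_lit 500) (nat_lit 0) (nat_lit 0),Row.mk (nat_lit 17304) (nat_lit 58157) (nat_lit 31846) (nat_lit 58344) (nat_lit 500) (nat_lit 0) (nat_lit 0),Row.mk (nat_lit 17472) (nat_lit 58157) (nat_lit 31846) (nat_lit 58344) (nat_lit 500) (nat_lit 0) (nat_lit 0),Row.mk (nat_lit 17640) (nat_lit 58157) (nat_lit 31846) (nat_lit 58344) (nat_lit 500) (nat_lit 0) (nat_lit 0),Row.mk (nat_lit 17808) (nat_lit 58157) (nat_lit 31846) (nat_lit 58344) (nat_lit 500) (nat_lit 0) (nat_lit 0),Row.mk (nat_lit 17976) (nat_lit 58157) (nat_lit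 31846) (nat_lit 58344) (nat_lit 500) (nat_lit 0) (nat_lit 0),Row.mk (nat_lit 18144) (nat_lit 58157) (nat_lit 31846) (nat_lit 58344) (nat_lit 500) (nat_lit 0) (nat_lit 0),Row.mk (nat_lit 18312) (nat_lit 58157) (nat_lit 31846) (nat_lit 58344) (nat_lit 500) (nat_lit 0) (nat_lit 0),Row.mk (nat_lit 18480) (nat_lit 58157) (nat_lit 31846) (nat_lit 58344) (nat_lit 500) (nat_lit 0) (nat_lit 0),Row.mk (nat_lit 18648) (nat_lit 58157) (nat_lit 31846) (nat_lit 58344) (nat_lit 500) (nat_lit 0) (nat_lit 0),Row.mk (nat_lit 18816) (nat_lit 58157) (nat_lit 31846) (nat_lit 58344) (nat_lit 500) (nat_lit 0) (nat_lit 0),Row.mk (nat_lit 18984) (nat_lit 58157) (nat_lit 31846) (nat_lit 58344) (nat_lit 500) (nat_lit 0) (nat_lit 0),Row.mk (nat_lit 19152) (nat_lit 58157) (nat_lit 31846) (nat_lit 58344) (nat_lit 500) (nat_lit 0) (nat_lit 0),Row.mk (nat_lit 19320) (nat_lit 58157) (nat_lit 31846) (nat_lit 58344) (nat_lit 500) (nat_lit 0) (nat_lit 0),Row.mk (nat_lit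 19488) (nat_lit 58157) (nat_lit 31846) (nat_lit 58344) (nat_lit 500) (nat_lit 0) (nat_lit 0),Row.mk (nat_lit 19656) (nat_lit 58157) (nat_lit 31846) (nat_lit 58344) (nat_lit 500) (nat_lit 0) (nat_lit 0),Row.mk (nat_lit 19824) (nat_lit 58157) (nat_lit 31846) (nat_lit 58344) (nat_lit 500) (nat_lit 0) (nat_lit 0),Row.mk (nat_lit 19992) (nat_lit 58157) (nat_lit 31846) (nat_lit 58344) (nat_lit 500) (nat_lit 0) (nat_lit 0),Row.mk (nat_lit 20160) (nat_lit 58157) (nat_lit 31846) (nat_lit 58344) (nat_lit 500) (nat_lit 0) (nat_lit 0),Row.mk (nat_lit 20328) (nat_lit 58157) (nat_lit 31846) (nat_lit 58344) (nat_lit 500) (nat_lit 0) (nat_lit 0),Row.mk (nat_lit 20496) (nat_lit 58157) (nat_lit 31846) (nat_lit 58344) (nat_lit 500) (nat_lit 0) (nat_lit 0),Row.mk (nat_lit 20664) (nat_lit 58157) (nat_lit 31846) (nat_lit 58344) (nat_lit 500) (nat_lit 0) (nat_lit 0),Row.mk (nat_lit 20832) (nat_lit 58157) (nat_lit 31846) (nat_lit 58344) (nat_lit 500) (nat_lit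 0) (nat_lit 0),Row.mk (nat_lit 21000) (nat_lit 58157) (nat_lit 31846) (nat_lit 58344) (nat_lit 500) (nat_lit 0) (nat_lit 0),Row.mk (nat_lit 21168) (nat_lit 58157) (nat_lit 31846) (nat_lit 58344) (nat_lit 500) (nat_lit 0) (nat_lit 0),Row.mk (nat_lit 21336) (nat_lit 58157) (nat_lit 31846) (nat_lit 58344) (nat_lit 500) (nat_lit 0) (nat_lit 0),Row.mk (nat_lit 21504) (nat_lit 58157) (nat_lit 31846) (nat_lit 58344) (nat_lit 500) (nat_lit 0) (nat_lit 0),Row.mk (nat_lit 21672) (nat_lit 58157) (nat_lit 31846) (nat_lit 58344) (nat_lit 500) (nat_lit 0) (nat_lit 0),Row.mk (nat_lit 21840) (nat_lit 58157) (nat_lit 31846) (nat_lit 58344) (nat_lit 500) (nat_lit 0) (nat_lit 0),Row.mk (nat_lit 22008) (nat_lit 58157) (nat_lit 31846) (nat_lit 58344) (nat_lit 500) (nat_lit 0) (nat_lit 0),Row.mk (nat_lit 22176) (nat_lit 58157) (nat_lit 31846) (nat_lit 58344) (nat_lit 500) (nat_lit 0) (nat_lit 0),Row.mk (nat_lit 22344) (nat_lit 58157) (nat_lit 31846) (nat_lit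 58344) (nat_lit 500) (nat_lit 0) (nat_lit 0),Row.mk (nat_lit 22512) (nat_lit 58157) (nat_lit 31846) (nat_lit 58344) (nat_lit 500) (nat_lit 0) (nat_lit 0),Row.mk (nat_lit 22680) (nat_lit 58157) (nat_lit 31846) (nat_lit 58344) (nat_lit 500) (nat_lit 0) (nat_lit 0),Row.mk (nat_lit 22848) (nat_lit 58157) (nat_lit 31846) (nat_lit 58344) (nat_lit 500) (nat_lit 0) (nat_lit 0),Row.mk (nat_lit 23016) (nat_lit 58157) (nat_lit 31846) (nat_lit 58344) (nat_lit 500) (nat_lit 0) (nat_lit 0),Row.mk (nat_lit 23184) (nat_lit 58157) (nat_lit 31846) (nat_lit 58344) (nat_lit 500) (nat_lit 0) (nat_lit 0),Row.mk (nat_lit 23352) (nat_lit 58157) (nat_lit 31846) (nat_lit 58344) (nat_lit 500) (nat_lit 0) (nat_lit 0),Row.mk (nat_lit 23520) (nat_lit 58157) (nat_lit 31846) (nat_lit 58344) (nat_lit 500) (nat_lit 0) (nat_lit 0),Row.mk (nat_lit 23688) (nat_lit 58157) (nat_lit 31846) (nat_lit 58344) (nat_lit 500) (nat_lit 0) (nat_lit 0),Row.mk (nat_lit 23856) (nat_lit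 58157) (nat_lit 31846) (nat_lit 58344) (nat_lit 500) (nat_lit 0) (nat_lit 0),Row.mk (nat_lit 24024) (nat_lit 58157) (nat_lit 31846) (nat_lit 58344) (nat_lit 500) (nat_lit 0) (nat_lit 0),Row.mk (nat_lit 24192) (nat_lit 58157) (nat_lit 31846) (nat_lit 58344) (nat_lit 500) (nat_lit 0) (nat_lit 0),Row.mk (nat_lit 24360) (nat_lit 58157) (nat_lit 31846) (nat_lit 58344) (nat_lit 500) (nat_lit 0) (nat_lit 0),Row.mk (nat_lit 24528) (nat_lit 58157) (nat_lit 31846) (nat_lit 58344) (nat_lit 500) (nat_lit 0) (nat_lit 0),Row.mk (nat_lit 24696) (nat_lit 58157) (nat_lit 31846) (nat_lit 58344) (nat_lit 500) (nat_lit 0) (nat_lit 0),Row.mk (nat_lit 24864) (nat_lit 58157) (nat_lit 31846) (nat_lit 58344) (nat_lit 500) (nat_lit 0) (nat_lit 0)],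
[Row.mk (nat_lit 10752) (nat_lit 57596) (nat_lit 39619) (nat_lit 57783) (nat_lit 781) (nat_lit 0) (nat_lit 0),Row.mk (nat_lit 10920) (nat_lit 57596) (nat_lit 39619) (nat_lit 57783) (nat_lit 781) (nat_lit 0) (nat_lit 0),Row.mk (nat_lit 11088) (nat_lit 57596) (nat_lit 39619) (nat_lit 57783) (nat_lit 781) (nat_lit 0) (nat_lit 0),Row.mk (nat_lit 11256) (nat_lit 57596) (nat_lit 39619) (nat_lit 57783) (nat_lit 781) (nat_lit 0) (nat_lit 0),Row.mk (nat_lit 11424) (nat_lit 57596) (nat_lit 39619) (nat_lit 57783) (nat_lit 781) (nat_lit 0) (nat_lit 0),Row.mk (nat_lit 11592) (nat_lit 57596) (nat_lit 39619) (nat_lit 57783) (nat_lit 781) (nat_lit 0) (nat_lit 0),Row.mk (nat_lit 11760) (nat_lit 57596) (nat_lit 39619) (nat_lit 57783) (nat_lit 781) (nat_lit 0) (nat_lit 0),Row.mk (nat_lit 11928) (nat_lit 57596) (nat_lit 39619) (nat_lit 57783) (nat_lit 781) (nat_lit 0) (nat_lit 0),Row.mk (nat_lit 12096) (nat_lit 57596) (nat_lit 39619) (nat_lit 57783)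 (nat_lit 781) (nat_lit 0) (nat_lit 0),Row.mk (nat_lit 12264) (nat_lit 57596) (nat_lit 39619) (nat_lit 57783) (nat_lit 781) (nat_lit 0) (nat_lit 0),Row.mk (nat_lit 12432) (nat_lit 57596) (nat_lit 39619) (nat_lit 57783) (nat_lit 781) (nat_lit 0) (nat_lit 0),Row.mk (nat_lit 12600) (nat_lit 57596) (nat_lit 39619) (nat_lit 57783) (nat_lit 781) (nat_lit 0) (nat_lit 0),Row.mk (nat_lit 12768) (nat_lit 57596) (nat_lit 39619) (nat_lit 57783) (nat_lit 781) (nat_lit 0) (nat_lit 0),Row.mk (nat_lit 12936) (nat_lit 57596) (nat_lit 39619) (nat_lit 57783) (nat_lit 781) (nat_lit 0) (nat_lit 0),Row.mk (nat_lit 13104) (nat_lit 57596) (nat_lit 39619) (nat_lit 57783) (nat_lit 781) (nat_lit 0) (nat_lit 0),Row.mk (nat_lit 13272) (nat_lit 57596) (nat_lit 39619) (nat_lit 57783) (nat_lit 781) (nat_lit 0) (nat_lit 0),Row.mk (nat_lit 13440) (nat_lit 57596) (nat_lit 39619) (nat_lit 57783) (nat_lit 781) (nat_lit 0) (nat_lit 0),Row.mk (nat_lit 13608) (nat_lit 57596)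 (nat_lit 39619) (nat_lit 57783) (nat_lit 781) (nat_lit 0) (nat_lit 0),Row.mk (nat_lit 13776) (nat_lit 57596) (nat_lit 39619) (nat_lit 57783) (nat_lit 781) (nat_lit 0) (nat_lit 0),Row.mk (nat_lit 13944) (nat_lit 57596) (nat_lit 39619) (nat_lit 57783) (nat_lit 781) (nat_lit 0) (nat_lit 0),Row.mk (nat_lit 14112) (nat_lit 57596) (nat_lit 39619) (nat_lit 57783) (nat_lit 781) (nat_lit 0) (nat_lit 0),Row.mk (nat_lit 14280) (nat_lit 57596) (nat_lit 39619) (nat_lit 57783) (nat_lit 781) (nat_lit 0) (nat_lit 0),Row.mk (nat_lit 14448) (nat_lit 57596) (nat_lit 39619) (nat_lit 57783) (nat_lit 781) (nat_lit 0) (nat_lit 0),Row.mk (nat_lit 14616) (nat_lit 57596) (nat_lit 39619) (nat_lit 57783) (nat_lit 781) (nat_lit 0) (nat_lit 0),Row.mk (nat_lit 14784) (nat_lit 57596) (nat_lit 39619) (nat_lit 57783) (nat_lit 781) (nat_lit 0) (nat_lit 0),Row.mk (nat_lit 14952) (nat_lit 57596) (nat_lit 39619) (nat_lit 57783) (nat_lit 781) (nat_lit 0) (nat_lit 0),Row.mk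 (nat_lit 15120) (nat_lit 57596) (nat_lit 39619) (nat_lit 57783) (nat_lit 781) (nat_lit 0) (nat_lit 0),Row.mk (nat_lit 15288) (nat_lit 57596) (nat_lit 39619) (nat_lit 57783) (nat_lit 781) (nat_lit 0) (nat_lit 0),Row.mk (nat_lit 15456) (nat_lit 57596) (nat_lit 39619) (nat_lit 57783) (nat_lit 781) (nat_lit 0) (nat_lit 0),Row.mk (nat_lit 15624) (nat_lit 57596) (nat_lit 39619) (nat_lit 57783) (nat_lit 781) (nat_lit 0) (nat_lit 0),Row.mk (nat_lit 15792) (nat_lit 57596) (nat_lit 39619) (nat_lit 57783) (nat_lit 781) (nat_lit 0) (nat_lit 0),Row.mk (nat_lit 15960) (nat_lit 57596) (nat_lit 39619) (nat_lit 57783) (nat_lit 781) (nat_lit 0) (nat_lit 0),Row.mk (nat_lit 16128) (nat_lit 57596) (nat_lit 39619) (nat_lit 57783) (nat_lit 781) (nat_lit 0) (nat_lit 0),Row.mk (nat_lit 16296) (nat_lit 57596) (nat_lit 39619) (nat_lit 57783) (nat_lit 781) (nat_lit 0) (nat_lit 0),Row.mk (nat_lit 16464) (nat_lit 57596) (nat_lit 39619) (nat_lit 57783) (nat_lit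 781) (nat_lit 0) (nat_lit 0),Row.mk (nat_lit 16632) (nat_lit 57596) (nat_lit 39619) (nat_lit 57783) (nat_lit 781) (nat_lit 0) (nat_lit 0),Row.mk (nat_lit 16800) (nat_lit 57596) (nat_lit 39619) (nat_lit 57783) (nat_lit 781) (nat_lit 0) (nat_lit 0),Row.mk (nat_lit 16968) (nat_lit 57596) (nat_lit 39619) (nat_lit 57783) (nat_lit 781) (nat_lit 0) (nat_lit 0),Row.mk (nat_lit 17136) (nat_lit 57596) (nat_lit 39619) (nat_lit 57783) (nat_lit 781) (nat_lit 0) (nat_lit 0),Row.mk (nat_lit 17304) (nat_lit 57596) (nat_lit 39619) (nat_lit 57783) (nat_lit 781) (nat_lit 0) (nat_lit 0),Row.mk (nat_lit 17472) (nat_lit 57596) (nat_lit 39619) (nat_lit 57783) (nat_lit 781) (nat_lit 0) (nat_lit 0),Row.mk (nat_lit 17640) (nat_lit 57596) (nat_lit 39619) (nat_lit 57783) (nat_lit 781) (nat_lit 0) (nat_lit 0),Row.mk (nat_lit 17808) (nat_lit 57596) (nat_lit 39619) (nat_lit 57783) (nat_lit 781) (nat_lit 0) (nat_lit 0),Row.mk (nat_lit 17976) (nat_lit 57596) (nat_lit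 39619) (nat_lit 57783) (nat_lit 781) (nat_lit 0) (nat_lit 0),Row.mk (nat_lit 18144) (nat_lit 57596) (nat_lit 39619) (nat_lit 57783) (nat_lit 781) (nat_lit 0) (nat_lit 0),Row.mk (nat_lit 18312) (nat_lit 57596) (nat_lit 39619) (nat_lit 57783) (nat_lit 781) (nat_lit 0) (nat_lit 0),Row.mk (nat_lit 18480) (nat_lit 57596) (nat_lit 39619) (nat_lit 57783) (nat_lit 781) (nat_lit 0) (nat_lit 0),Row.mk (nat_lit 18648) (nat_lit 57596) (nat_lit 39619) (nat_lit 57783) (nat_lit 781) (nat_lit 0) (nat_lit 0),Row.mk (nat_lit 18816) (nat_lit 57596) (nat_lit 39619) (nat_lit 57783) (nat_lit 781) (nat_lit 0) (nat_lit 0),Row.mk (nat_lit 18984) (nat_lit 57596) (nat_lit 39619) (nat_lit 57783) (nat_lit 781) (nat_lit 0) (nat_lit 0),Row.mk (nat_lit 19152) (nat_lit 57596) (nat_lit 39619) (nat_lit 57783) (nat_lit 781) (nat_lit 0) (nat_lit 0),Row.mk (nat_lit 19320) (nat_lit 57596) (nat_lit 39619) (nat_lit 57783) (nat_lit 781) (nat_lit 0) (nat_lit 0),Row.mk (nat_lit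 19488) (nat_lit 57596) (nat_lit 39619) (nat_lit 57783) (nat_lit 781) (nat_lit 0) (nat_lit 0),Row.mk (nat_lit 19656) (nat_lit 57596) (nat_lit 39619) (nat_lit 57783) (nat_lit 781) (nat_lit 0) (nat_lit 0),Row.mk (nat_lit 19824) (nat_lit 57596) (nat_lit 39619) (nat_lit 57783) (nat_lit 781) (nat_lit 0) (nat_lit 0),Row.mk (nat_lit 19992) (nat_lit 57596) (nat_lit 39619) (nat_lit 57783) (nat_lit 781) (nat_lit 0) (nat_lit 0),Row.mk (nat_lit 20160) (nat_lit 57596) (nat_lit 39619) (nat_lit 57783) (nat_lit 781) (nat_lit 0) (nat_lit 0),Row.mk (nat_lit 20328) (nat_lit 57596) (nat_lit 39619) (nat_lit 57783) (nat_lit 781) (nat_lit 0) (nat_lit 0),Row.mk (nat_lit 20496) (nat_lit 57596) (nat_lit 39619) (nat_lit 57783) (nat_lit 781) (nat_lit 0) (nat_lit 0),Row.mk (nat_lit 20664) (nat_lit 57596) (nat_lit 39619) (nat_lit 57783) (nat_lit 781) (nat_lit 0) (nat_lit 0),Row.mk (nat_lit 20832) (nat_lit 57596) (nat_lit 39619) (nat_lit 57783) (nat_lit 781) (nat_lit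 0) (nat_lit 0),Row.mk (nat_lit 21000) (nat_lit 57596) (nat_lit 39619) (nat_lit 57783) (nat_lit 781) (nat_lit 0) (nat_lit 0),Row.mk (nat_lit 21168) (nat_lit 57596) (nat_lit 39619) (nat_lit 57783) (nat_lit 781) (nat_lit 0) (nat_lit 0),Row.mk (nat_lit 21336) (nat_lit 57596) (nat_lit 39619) (nat_lit 57783) (nat_lit 781) (nat_lit 0) (nat_lit 0),Row.mk (nat_lit 21504) (nat_lit 57596) (nat_lit 39619) (nat_lit 57783) (nat_lit 781) (nat_lit 0) (nat_lit 0),Row.mk (nat_lit 21672) (nat_lit 57596) (nat_lit 39619) (nat_lit 57783) (nat_lit 781) (nat_lit 0) (nat_lit 0),Row.mk (nat_lit 21840) (nat_lit 57596) (nat_lit 39619) (nat_lit 57783) (nat_lit 781) (nat_lit 0) (nat_lit 0),Row.mk (nat_lit 22008) (nat_lit 57596) (nat_lit 39619) (nat_lit 57783) (nat_lit 781) (nat_lit 0) (nat_lit 0),Row.mk (nat_lit 22176) (nat_lit 57596) (nat_lit 39619) (nat_lit 57783) (nat_lit 781) (nat_lit 0) (nat_lit 0),Row.mk (nat_lit 22344) (nat_lit 57596) (nat_lit 39619) (nat_lit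 57783) (nat_lit 781) (nat_lit 0) (nat_lit 0),Row.mk (nat_lit 22512) (nat_lit 57596) (nat_lit 39619) (nat_lit 57783) (nat_lit 781) (nat_lit 0) (nat_lit 0),Row.mk (nat_lit 22680) (nat_lit 57596) (nat_lit 39619) (nat_lit 57783) (nat_lit 781) (nat_lit 0) (nat_lit 0),Row.mk (nat_lit 22848) (nat_lit 57596) (nat_lit 39619) (nat_lit 57783) (nat_lit 781) (nat_lit 0) (nat_lit 0),Row.mk (nat_lit 23016) (nat_lit 57596) (nat_lit 39619) (nat_lit 57783) (nat_lit 781) (nat_lit 0) (nat_lit 0),Row.mk (nat_lit 23184) (nat_lit 57596) (nat_lit 39619) (nat_lit 57783) (nat_lit 781) (nat_lit 0) (nat_lit 0),Row.mk (nat_lit 23352) (nat_lit 57596) (nat_lit 39619) (nat_lit 57783) (nat_lit 781) (nat_lit 0) (nat_lit 0),Row.mk (nat_lit 23520) (nat_lit 57596) (nat_lit 39619) (nat_lit 57783) (nat_lit 781) (nat_lit 0) (nat_lit 0),Row.mk (nat_lit 23688) (nat_lit 57596) (nat_lit 39619) (nat_lit 57783) (nat_lit 781) (nat_lit 0) (nat_lit 0),Row.mk (nat_lit 23856) (nat_lit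 57596) (nat_lit 39619) (nat_lit 57783) (nat_lit 781) (nat_lit 0) (nat_lit 0),Row.mk (nat_lit 24024) (nat_lit 57596) (nat_lit 39619) (nat_lit 57783) (nat_lit 781) (nat_lit 0) (nat_lit 0),Row.mk (nat_lit 24192) (nat_lit 57596) (nat_lit 39619) (nat_lit 57783) (nat_lit 781) (nat_lit 0) (nat_lit 0),Row.mk (nat_lit 24360) (nat_lit 57596) (nat_lit 39619) (nat_lit 57783) (nat_lit 781) (nat_lit 0) (nat_lit 0),Row.mk (nat_lit 24528) (nat_lit 57596) (nat_lit 39619) (nat_lit 57783) (nat_lit 781) (nat_lit 0) (nat_lit 0),Row.mk (nat_lit 24696) (nat_lit 57596) (nat_lit 39619) (nat_lit 57783) (nat_lit 781) (nat_lit 0) (nat_lit 0),Row.mk (nat_lit 24864) (nat_lit 57596) (nat_lit 39619) (nat_lit 57783) (nat_lit 781) (nat_lit 0) (nat_lit 0)],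
[Row.mk (nat_lit 10752) (nat_lit 57035) (nat_lit 49240) (nat_lit 57222) (nat_lit 1219) (nat_lit 0) (nat_lit 0),Row.mk (nat_lit 10920) (nat_lit 57035) (nat_lit 49240) (nat_lit 57222) (nat_lit 1219) (nat_lit 0) (nat_lit 0),Row.mk (nat_lit 11088) (nat_lit 57035) (nat_lit 49240) (nat_lit 57222) (nat_lit 1219) (nat_lit 0) (nat_lit 0),Row.mk (nat_lit 11256) (nat_lit 57035) (nat_lit 49240) (nat_lit 57222) (nat_lit 1219) (nat_lit 0) (nat_lit 0),Row.mk (nat_lit 11424) (nat_lit 57035) (nat_lit 49240) (nat_lit 57222) (nat_lit 1219) (nat_lit 0) (nat_lit 0),Row.mk (nat_lit 11592) (nat_lit 57035) (nat_lit 49240) (nat_lit 57222) (nat_lit 1219) (nat_lit 0) (nat_lit 0),Row.mk (nat_lit 11760) (nat_lit 57035) (nat_lit 49240) (nat_lit 57222) (nat_lit 1219) (nat_lit 0) (nat_lit 0),Row.mk (nat_lit 11928) (nat_lit 57035) (nat_lit 49240) (nat_lit 57222) (nat_lit 1219) (nat_lit 0) (nat_lit 0),Row.mk (nat_lit 12096) (nat_lit 57035) (nat_lit 49240) (nat_lit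 57222) (nat_lit 1219) (nat_lit 0) (nat_lit 0),Row.mk (nat_lit 12264) (nat_lit 57035) (nat_lit 49240) (nat_lit 57222) (nat_lit 1219) (nat_lit 0) (nat_lit 0),Row.mk (nat_lit 12432) (nat_lit 57035) (nat_lit 49240) (nat_lit 57222) (nat_lit 1219) (nat_lit 0) (nat_lit 0),Row.mk (nat_lit 12600) (nat_lit 57035) (nat_lit 49240) (nat_lit 57222) (nat_lit 1219) (nat_lit 0) (nat_lit 0),Row.mk (nat_lit 12768) (nat_lit 57035) (nat_lit 49240) (nat_lit 57222) (nat_lit 1219) (nat_lit 0) (nat_lit 0),Row.mk (nat_lit 12936) (nat_lit 57035) (nat_lit 49240) (nat_lit 57222) (nat_lit 1219) (nat_lit 0) (nat_lit 0),Row.mk (nat_lit 13104) (nat_lit 57035) (nat_lit 49240) (nat_lit 57222) (nat_lit 1219) (nat_lit 0) (nat_lit 0),Row.mk (nat_lit 13272) (nat_lit 57035) (nat_lit 49240) (nat_lit 57222) (nat_lit 1219) (nat_lit 0) (nat_lit 0),Row.mk (nat_lit 13440) (nat_lit 57035) (nat_lit 49240) (nat_lit 57222) (nat_lit 1219) (nat_lit 0) (nat_lit 0),Row.mk (nat_lit 13608)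 (nat_lit 57035) (nat_lit 49240) (nat_lit 57222) (nat_lit 1219) (nat_lit 0) (nat_lit 0),Row.mk (nat_lit 13776) (nat_lit 57035) (nat_lit 49240) (nat_lit 57222) (nat_lit 1219) (nat_lit 0) (nat_lit 0),Row.mk (nat_lit 13944) (nat_lit 57035) (nat_lit 49240) (nat_lit 57222) (nat_lit 1219) (nat_lit 0) (nat_lit 0),Row.mk (nat_lit 14112) (nat_lit 57035) (nat_lit 49240) (nat_lit 57222) (nat_lit 1219) (nat_lit 0) (nat_lit 0),Row.mk (nat_lit 14280) (nat_lit 57035) (nat_lit 49240) (nat_lit 57222) (nat_lit 1219) (nat_lit 0) (nat_lit 0),Row.mk (nat_lit 14448) (nat_lit 57035) (nat_lit 49240) (nat_lit 57222) (nat_lit 1219) (nat_lit 0) (nat_lit 0),Row.mk (nat_lit 14616) (nat_lit 57035) (nat_lit 49240) (nat_lit 57222) (nat_lit 1219) (nat_lit 0) (nat_lit 0),Row.mk (nat_lit 14784) (nat_lit 57035) (nat_lit 49240) (nat_lit 57222) (nat_lit 1219) (nat_lit 0) (nat_lit 0),Row.mk (nat_lit 14952) (nat_lit 57035) (nat_lit 49240) (nat_lit 57222) (nat_lit 1219) (nat_lit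 0) (nat_lit 0),Row.mk (nat_lit 15120) (nat_lit 57035) (nat_lit 49240) (nat_lit 57222) (nat_lit 1219) (nat_lit 0) (nat_lit 0),Row.mk (nat_lit 15288) (nat_lit 57035) (nat_lit 49240) (nat_lit 57222) (nat_lit 1219) (nat_lit 0) (nat_lit 0),Row.mk (nat_lit 15456) (nat_lit 57035) (nat_lit 49240) (nat_lit 57222) (nat_lit 1219) (nat_lit 0) (nat_lit 0),Row.mk (nat_lit 15624) (nat_lit 57035) (nat_lit 49240) (nat_lit 57222) (nat_lit 1219) (nat_lit 0) (nat_lit 0),Row.mk (nat_lit 15792) (nat_lit 57035) (nat_lit 49240) (nat_lit 57222) (nat_lit 1219) (nat_lit 0) (nat_lit 0),Row.mk (nat_lit 15960) (nat_lit 57035) (nat_lit 49240) (nat_lit 57222) (nat_lit 1219) (nat_lit 0) (nat_lit 0),Row.mk (nat_lit 16128) (nat_lit 57035) (nat_lit 49240) (nat_lit 57222) (nat_lit 1219) (nat_lit 0) (nat_lit 0),Row.mk (nat_lit 16296) (nat_lit 57035) (nat_lit 49240) (nat_lit 57222) (nat_lit 1219) (nat_lit 0) (nat_lit 0),Row.mk (nat_lit 16464) (nat_lit 57035) (nat_lit 49240)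 (nat_lit 57222) (nat_lit 1219) (nat_lit 0) (nat_lit 0),Row.mk (nat_lit 16632) (nat_lit 57035) (nat_lit 49240) (nat_lit 57222) (nat_lit 1219) (nat_lit 0) (nat_lit 0),Row.mk (nat_lit 16800) (nat_lit 57035) (nat_lit 49240) (nat_lit 57222) (nat_lit 1219) (nat_lit 0) (nat_lit 0),Row.mk (nat_lit 16968) (nat_lit 57035) (nat_lit 49240) (nat_lit 57222) (nat_lit 1219) (nat_lit 0) (nat_lit 0),Row.mk (nat_lit 17136) (nat_lit 57035) (nat_lit 49240) (nat_lit 57222) (nat_lit 1219) (nat_lit 0) (nat_lit 0),Row.mk (nat_lit 17304) (nat_lit 57035) (nat_lit 49240) (nat_lit 57222) (nat_lit 1219) (nat_lit 0) (nat_lit 0),Row.mk (nat_lit 17472) (nat_lit 57035) (nat_lit 49240) (nat_lit 57222) (nat_lit 1219) (nat_lit 0) (nat_lit 0),Row.mk (nat_lit 17640) (nat_lit 57035) (nat_lit 49240) (nat_lit 57222) (nat_lit 1219) (nat_lit 0) (nat_lit 0),Row.mk (nat_lit 17808) (nat_lit 57035) (nat_lit 49240) (nat_lit 57222) (nat_lit 1219) (nat_lit 0) (nat_lit 0),Row.mk (nat_lit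 17976) (nat_lit 57035) (nat_lit 49240) (nat_lit 57222) (nat_lit 1219) (nat_lit 0) (nat_lit 0),Row.mk (nat_lit 18144) (nat_lit 57035) (nat_lit 49240) (nat_lit 57222) (nat_lit 1219) (nat_lit 0) (nat_lit 0),Row.mk (nat_lit 18312) (nat_lit 57035) (nat_lit 49240) (nat_lit 57222) (nat_lit 1219) (nat_lit 0) (nat_lit 0),Row.mk (nat_lit 18480) (nat_lit 57035) (nat_lit 49240) (nat_lit 57222) (nat_lit 1219) (nat_lit 0) (nat_lit 0),Row.mk (nat_lit 18648) (nat_lit 57035) (nat_lit 49240) (nat_lit 57222) (nat_lit 1219) (nat_lit 0) (nat_lit 0),Row.mk (nat_lit 18816) (nat_lit 57035) (nat_lit 49240) (nat_lit 57222) (nat_lit 1219) (nat_lit 0) (nat_lit 0),Row.mk (nat_lit 18984) (nat_lit 57035) (nat_lit 49240) (nat_lit 57222) (nat_lit 1219) (nat_lit 0) (nat_lit 0),Row.mk (nat_lit 19152) (nat_lit 57035) (nat_lit 49240) (nat_lit 57222) (nat_lit 1219) (nat_lit 0) (nat_lit 0),Row.mk (nat_lit 19320) (nat_lit 57035) (nat_lit 49240) (nat_lit 57222) (nat_lit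 1219) (nat_lit 0) (nat_lit 0),Row.mk (nat_lit 19488) (nat_lit 57035) (nat_lit 49240) (nat_lit 57222) (nat_lit 1219) (nat_lit 0) (nat_lit 0),Row.mk (nat_lit 19656) (nat_lit 57035) (nat_lit 49240) (nat_lit 57222) (nat_lit 1219) (nat_lit 0) (nat_lit 0),Row.mk (nat_lit 19824) (nat_lit 57035) (nat_lit 49240) (nat_lit 57222) (nat_lit 1219) (nat_lit 0) (nat_lit 0),Row.mk (nat_lit 19992) (nat_lit 57035) (nat_lit 49240) (nat_lit 57222) (nat_lit 1219) (nat_lit 0) (nat_lit 0),Row.mk (nat_lit 20160) (nat_lit 57035) (nat_lit 49240) (nat_lit 57222) (nat_lit 1219) (nat_lit 0) (nat_lit 0),Row.mk (nat_lit 20328) (nat_lit 57035) (nat_lit 49240) (nat_lit 57222) (nat_lit 1219) (nat_lit 0) (nat_lit 0),Row.mk (nat_lit 20496) (nat_lit 57035) (nat_lit 49240) (nat_lit 57222) (nat_lit 1219) (nat_lit 0) (nat_lit 0),Row.mk (nat_lit 20664) (nat_lit 57035) (nat_lit 49240) (nat_lit 57222) (nat_lit 1219) (nat_lit 0) (nat_lit 0),Row.mk (nat_lit 20832) (nat_lit 57035)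 (nat_lit 49240) (nat_lit 57222) (nat_lit 1219) (nat_lit 0) (nat_lit 0),Row.mk (nat_lit 21000) (nat_lit 57035) (nat_lit 49240) (nat_lit 57222) (nat_lit 1219) (nat_lit 0) (nat_lit 0),Row.mk (nat_lit 21168) (nat_lit 57035) (nat_lit 49240) (nat_lit 57222) (nat_lit 1219) (nat_lit 0) (nat_lit 0),Row.mk (nat_lit 21336) (nat_lit 57035) (nat_lit 49240) (nat_lit 57222) (nat_lit 1219) (nat_lit 0) (nat_lit 0),Row.mk (nat_lit 21504) (nat_lit 57035) (nat_lit 49240) (nat_lit 57222) (nat_lit 1219) (nat_lit 0) (nat_lit 0),Row.mk (nat_lit 21672) (nat_lit 57035) (nat_lit 49240) (nat_lit 57222) (nat_lit 1219) (nat_lit 0) (nat_lit 0),Row.mk (nat_lit 21840) (nat_lit 57035) (nat_lit 49240) (nat_lit 57222) (nat_lit 1219) (nat_lit 0) (nat_lit 0),Row.mk (nat_lit 22008) (nat_lit 57035) (nat_lit 49240) (nat_lit 57222) (nat_lit 1219) (nat_lit 0) (nat_lit 0),Row.mk (nat_lit 22176) (nat_lit 57035) (nat_lit 49240) (nat_lit 57222) (nat_lit 1219) (nat_lit 0) (nat_lit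 0),Row.mk (nat_lit 22344) (nat_lit 57035) (nat_lit 49240) (nat_lit 57222) (nat_lit 1219) (nat_lit 0) (nat_lit 0),Row.mk (nat_lit 22512) (nat_lit 57035) (nat_lit 49240) (nat_lit 57222) (nat_lit 1219) (nat_lit 0) (nat_lit 0),Row.mk (nat_lit 22680) (nat_lit 57035) (nat_lit 49240) (nat_lit 57222) (nat_lit 1219) (nat_lit 0) (nat_lit 0),Row.mk (nat_lit 22848) (nat_lit 57035) (nat_lit 49240) (nat_lit 57222) (nat_lit 1219) (nat_lit 0) (nat_lit 0),Row.mk (nat_lit 23016) (nat_lit 57035) (nat_lit 49240) (nat_lit 57222) (nat_lit 1219) (nat_lit 0) (nat_lit 0),Row.mk (nat_lit 23184) (nat_lit 57035) (nat_lit 49240) (nat_lit 57222) (nat_lit 1219) (nat_lit 0) (nat_lit 0),Row.mk (nat_lit 23352) (nat_lit 57035) (nat_lit 49240) (nat_lit 57222) (nat_lit 1219) (nat_lit 0) (nat_lit 0),Row.mk (nat_lit 23520) (nat_lit 57035) (nat_lit 49240) (nat_lit 57222) (nat_lit 1219) (nat_lit 0) (nat_lit 0),Row.mk (nat_lit 23688) (nat_lit 57035) (nat_lit 49240) (nat_lit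 57222) (nat_lit 1219) (nat_lit 0) (nat_lit 0),Row.mk (nat_lit 23856) (nat_lit 57035) (nat_lit 49240) (nat_lit 57222) (nat_lit 1219) (nat_lit 0) (nat_lit 0),Row.mk (nat_lit 24024) (nat_lit 57035) (nat_lit 49240) (nat_lit 57222) (nat_lit 1219) (nat_lit 0) (nat_lit 0),Row.mk (nat_lit 24192) (nat_lit 57035) (nat_lit 49240) (nat_lit 57222) (nat_lit 1219) (nat_lit 0) (nat_lit 0),Row.mk (nat_lit 24360) (nat_lit 57035) (nat_lit 49240) (nat_lit 57222) (nat_lit 1219) (nat_lit 0) (nat_lit 0),Row.mk (nat_lit 24528) (nat_lit 57035) (nat_lit 49240) (nat_lit 57222) (nat_lit 1219) (nat_lit 0) (nat_lit 0),Row.mk (nat_lit 24696) (nat_lit 57035) (nat_lit 49240) (nat_lit 57222) (nat_lit 1219) (nat_lit 0) (nat_lit 0),Row.mk (nat_lit 24864) (nat_lit 57035) (nat_lit 49240) (nat_lit 57222) (nat_lit 1219) (nat_lit 0) (nat_lit 0),Row.mk (nat_lit 25032) (nat_lit 57035) (nat_lit 49240) (nat_lit 57222) (nat_lit 1219) (nat_lit 0) (nat_lit 0)],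
[Row.mk (nat_lit 10752) (nat_lit 56474) (nat_lit 61121) (nat_lit 56661) (nat_lit 1901) (nat_lit 0) (nat_lit 0),Row.mk (nat_lit 10920) (nat_lit 56474) (nat_lit 61121) (nat_lit 56661) (nat_lit 1901) (nat_lit 0) (nat_lit 0),Row.mk (nat_lit 11088) (nat_lit 56474) (nat_lit 61121) (nat_lit 56661) (nat_lit 1901) (nat_lit 0) (nat_lit 0),Row.mk (nat_lit 11256) (nat_lit 56474) (nat_lit 61121) (nat_lit 56661) (nat_lit 1901) (nat_lit 0) (nat_lit 0),Row.mk (nat_lit 11424) (nat_lit 56474) (nat_lit 61121) (nat_lit 56661) (nat_lit 1901) (nat_lit 0) (nat_lit 0),Row.mk (nat_lit 11592) (nat_lit 56474) (nat_lit 61121) (nat_lit 56661) (nat_lit 1901) (nat_lit 0) (nat_lit 0),Row.mk (nat_lit 11760) (nat_lit 56474) (nat_lit 61121) (nat_lit 56661) (nat_lit 1901) (nat_lit 0) (nat_lit 0),Row.mk (nat_lit 11928) (nat_lit 56474) (nat_lit 61121) (nat_lit 56661) (nat_lit 1901) (nat_lit 0) (nat_lit 0),Row.mk (nat_lit 12096) (nat_lit 56474) (nat_lit 61121) (nat_lit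 56661) (nat_lit 1901) (nat_lit 0) (nat_lit 0),Row.mk (nat_lit 12264) (nat_lit 56474) (nat_lit 61121) (nat_lit 56661) (nat_lit 1901) (nat_lit 0) (nat_lit 0),Row.mk (nat_lit 12432) (nat_lit 56474) (nat_lit 61121) (nat_lit 56661) (nat_lit 1901) (nat_lit 0) (nat_lit 0),Row.mk (nat_lit 12600) (nat_lit 56474) (nat_lit 61121) (nat_lit 56661) (nat_lit 1901) (nat_lit 0) (nat_lit 0),Row.mk (nat_lit 12768) (nat_lit 56474) (nat_lit 61121) (nat_lit 56661) (nat_lit 1901) (nat_lit 0) (nat_lit 0),Row.mk (nat_lit 12936) (nat_lit 56474) (nat_lit 61121) (nat_lit 56661) (nat_lit 1901) (nat_lit 0) (nat_lit 0),Row.mk (nat_lit 13104) (nat_lit 56474) (nat_lit 61121) (nat_lit 56661) (nat_lit 1901) (nat_lit 0) (nat_lit 0),Row.mk (nat_lit 13272) (nat_lit 56474) (nat_lit 61121) (nat_lit 56661) (nat_lit 1901) (nat_lit 0) (nat_lit 0),Row.mk (nat_lit 13440) (nat_lit 56474) (nat_lit 61121) (nat_lit 56661) (nat_lit 1901) (nat_lit 0) (nat_lit 0),Row.mk (nat_lit 13608)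 (nat_lit 56474) (nat_lit 61121) (nat_lit 56661) (nat_lit 1901) (nat_lit 0) (nat_lit 0),Row.mk (nat_lit 13776) (nat_lit 56474) (nat_lit 61121) (nat_lit 56661) (nat_lit 1901) (nat_lit 0) (nat_lit 0),Row.mk (nat_lit 13944) (nat_lit 56474) (nat_lit 61121) (nat_lit 56661) (nat_lit 1901) (nat_lit 0) (nat_lit 0),Row.mk (nat_lit 14112) (nat_lit 56474) (nat_lit 61121) (nat_lit 56661) (nat_lit 1901) (nat_lit 0) (nat_lit 0),Row.mk (nat_lit 14280) (nat_lit 56474) (nat_lit 61121) (nat_lit 56661) (nat_lit 1901) (nat_lit 0) (nat_lit 0),Row.mk (nat_lit 14448) (nat_lit 56474) (nat_lit 61121) (nat_lit 56661) (nat_lit 1901) (nat_lit 0) (nat_lit 0),Row.mk (nat_lit 14616) (nat_lit 56474) (nat_lit 61121) (nat_lit 56661) (nat_lit 1901) (nat_lit 0) (nat_lit 0),Row.mk (nat_lit 14784) (nat_lit 56474) (nat_lit 61121) (nat_lit 56661) (nat_lit 1901) (nat_lit 0) (nat_lit 0),Row.mk (nat_lit 14952) (nat_lit 56474) (nat_lit 61121) (nat_lit 56661) (nat_lit 1901) (nat_lit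 0) (nat_lit 0),Row.mk (nat_lit 15120) (nat_lit 56474) (nat_lit 61121) (nat_lit 56661) (nat_lit 1901) (nat_lit 0) (nat_lit 0),Row.mk (nat_lit 15288) (nat_lit 56474) (nat_lit 61121) (nat_lit 56661) (nat_lit 1901) (nat_lit 0) (nat_lit 0),Row.mk (nat_lit 15456) (nat_lit 56474) (nat_lit 61121) (nat_lit 56661) (nat_lit 1901) (nat_lit 0) (nat_lit 0),Row.mk (nat_lit 15624) (nat_lit 56474) (nat_lit 61121) (nat_lit 56661) (nat_lit 1901) (nat_lit 0) (nat_lit 0),Row.mk (nat_lit 15792) (nat_lit 56474) (nat_lit 61121) (nat_lit 56661) (nat_lit 1901) (nat_lit 0) (nat_lit 0),Row.mk (nat_lit 15960) (nat_lit 56474) (nat_lit 61121) (nat_lit 56661) (nat_lit 1901) (nat_lit 0) (nat_lit 0),Row.mk (nat_lit 16128) (nat_lit 56474) (nat_lit 61121) (nat_lit 56661) (nat_lit 1901) (nat_lit 0) (nat_lit 0),Row.mk (nat_lit 16296) (nat_lit 56474) (nat_lit 61121) (nat_lit 56661) (nat_lit 1901) (nat_lit 0) (nat_lit 0),Row.mk (nat_lit 16464) (nat_lit 56474) (nat_lit 61121)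 (nat_lit 56661) (nat_lit 1901) (nat_lit 0) (nat_lit 0),Row.mk (nat_lit 16632) (nat_lit 56474) (nat_lit 61121) (nat_lit 56661) (nat_lit 1901) (nat_lit 0) (nat_lit 0),Row.mk (nat_lit 16800) (nat_lit 56474) (nat_lit 61121) (nat_lit 56661) (nat_lit 1901) (nat_lit 0) (nat_lit 0),Row.mk (nat_lit 16968) (nat_lit 56474) (nat_lit 61121) (nat_lit 56661) (nat_lit 1901) (nat_lit 0) (nat_lit 0),Row.mk (nat_lit 17136) (nat_lit 56474) (nat_lit 61121) (nat_lit 56661) (nat_lit 1901) (nat_lit 0) (nat_lit 0),Row.mk (nat_lit 17304) (nat_lit 56474) (nat_lit 61121) (nat_lit 56661) (nat_lit 1901) (nat_lit 0) (nat_lit 0),Row.mk (nat_lit 17472) (nat_lit 56474) (nat_lit 61121) (nat_lit 56661) (nat_lit 1901) (nat_lit 0) (nat_lit 0),Row.mk (nat_lit 17640) (nat_lit 56474) (nat_lit 61121) (nat_lit 56661) (nat_lit 1901) (nat_lit 0) (nat_lit 0),Row.mk (nat_lit 17808) (nat_lit 56474) (nat_lit 61121) (nat_lit 56661) (nat_lit 1901) (nat_lit 0) (nat_lit 0),Row.mk (nat_lit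 17976) (nat_lit 56474) (nat_lit 61121) (nat_lit 56661) (nat_lit 1901) (nat_lit 0) (nat_lit 0),Row.mk (nat_lit 18144) (nat_lit 56474) (nat_lit 61121) (nat_lit 56661) (nat_lit 1901) (nat_lit 0) (nat_lit 0),Row.mk (nat_lit 18312) (nat_lit 56474) (nat_lit 61121) (nat_lit 56661) (nat_lit 1901) (nat_lit 0) (nat_lit 0),Row.mk (nat_lit 18480) (nat_lit 56474) (nat_lit 61121) (nat_lit 56661) (nat_lit 1901) (nat_lit 0) (nat_lit 0),Row.mk (nat_lit 18648) (nat_lit 56474) (nat_lit 61121) (nat_lit 56661) (nat_lit 1901) (nat_lit 0) (nat_lit 0),Row.mk (nat_lit 18816) (nat_lit 56474) (nat_lit 61121) (nat_lit 56661) (nat_lit 1901) (nat_lit 0) (nat_lit 0),Row.mk (nat_lit 18984) (nat_lit 56474) (nat_lit 61121) (nat_lit 56661) (nat_lit 1901) (nat_lit 0) (nat_lit 0),Row.mk (nat_lit 19152) (nat_lit 56474) (nat_lit 61121) (nat_lit 56661) (nat_lit 1901) (nat_lit 0) (nat_lit 0),Row.mk (nat_lit 19320) (nat_lit 56474) (nat_lit 61121) (nat_lit 56661) (nat_lit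 1901) (nat_lit 0) (nat_lit 0),Row.mk (nat_lit 19488) (nat_lit 56474) (nat_lit 61121) (nat_lit 56661) (nat_lit 1901) (nat_lit 0) (nat_lit 0),Row.mk (nat_lit 19656) (nat_lit 56474) (nat_lit 61121) (nat_lit 56661) (nat_lit 1901) (nat_lit 0) (nat_lit 0),Row.mk (nat_lit 19824) (nat_lit 56474) (nat_lit 61121) (nat_lit 56661) (nat_lit 1901) (nat_lit 0) (nat_lit 0),Row.mk (nat_lit 19992) (nat_lit 56474) (nat_lit 61121) (nat_lit 56661) (nat_lit 1901) (nat_lit 0) (nat_lit 0),Row.mk (nat_lit 20160) (nat_lit 56474) (nat_lit 61121) (nat_lit 56661) (nat_lit 1901) (nat_lit 0) (nat_lit 0),Row.mk (nat_lit 20328) (nat_lit 56474) (nat_lit 61121) (nat_lit 56661) (nat_lit 1901) (nat_lit 0) (nat_lit 0),Row.mk (nat_lit 20496) (nat_lit 56474) (nat_lit 61121) (nat_lit 56661) (nat_lit 1901) (nat_lit 0) (nat_lit 0),Row.mk (nat_lit 20664) (nat_lit 56474) (nat_lit 61121) (nat_lit 56661) (nat_lit 1901) (nat_lit 0) (nat_lit 0),Row.mk (nat_lit 20832) (nat_lit 56474)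 (nat_lit 61121) (nat_lit 56661) (nat_lit 1901) (nat_lit 0) (nat_lit 0),Row.mk (nat_lit 21000) (nat_lit 56474) (nat_lit 61121) (nat_lit 56661) (nat_lit 1901) (nat_lit 0) (nat_lit 0),Row.mk (nat_lit 21168) (nat_lit 56474) (nat_lit 61121) (nat_lit 56661) (nat_lit 1901) (nat_lit 0) (nat_lit 0),Row.mk (nat_lit 21336) (nat_lit 56474) (nat_lit 61121) (nat_lit 56661) (nat_lit 1901) (nat_lit 0) (nat_lit 0),Row.mk (nat_lit 21504) (nat_lit 56474) (nat_lit 61121) (nat_lit 56661) (nat_lit 1901) (nat_lit 0) (nat_lit 0),Row.mk (nat_lit 21672) (nat_lit 56474) (nat_lit 61121) (nat_lit 56661) (nat_lit 1901) (nat_lit 0) (nat_lit 0),Row.mk (nat_lit 21840) (nat_lit 56474) (nat_lit 61121) (nat_lit 56661) (nat_lit 1901) (nat_lit 0) (nat_lit 0),Row.mk (nat_lit 22008) (nat_lit 56474) (nat_lit 61121) (nat_lit 56661) (nat_lit 1901) (nat_lit 0) (nat_lit 0),Row.mk (nat_lit 22176) (nat_lit 56474) (nat_lit 61121) (nat_lit 56661) (nat_lit 1901) (nat_lit 0) (nat_lit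 0),Row.mk (nat_lit 22344) (nat_lit 56474) (nat_lit 61121) (nat_lit 56661) (nat_lit 1901) (nat_lit 0) (nat_lit 0),Row.mk (nat_lit 22512) (nat_lit 56474) (nat_lit 61121) (nat_lit 56661) (nat_lit 1901) (nat_lit 0) (nat_lit 0),Row.mk (nat_lit 22680) (nat_lit 56474) (nat_lit 61121) (nat_lit 56661) (nat_lit 1901) (nat_lit 0) (nat_lit 0),Row.mk (nat_lit 22848) (nat_lit 56474) (nat_lit 61121) (nat_lit 56661) (nat_lit 1901) (nat_lit 0) (nat_lit 0),Row.mk (nat_lit 23016) (nat_lit 56474) (nat_lit 61121) (nat_lit 56661) (nat_lit 1901) (nat_lit 0) (nat_lit 0),Row.mk (nat_lit 23184) (nat_lit 56474) (nat_lit 61121) (nat_lit 56661) (nat_lit 1901) (nat_lit 0) (nat_lit 0),Row.mk (nat_lit 23352) (nat_lit 56474) (nat_lit 61121) (nat_lit 56661) (nat_lit 1901) (nat_lit 0) (nat_lit 0),Row.mk (nat_lit 23520) (nat_lit 56474) (nat_lit 61121) (nat_lit 56661) (nat_lit 1901) (nat_lit 0) (nat_lit 0),Row.mk (nat_lit 23688) (nat_lit 56474) (nat_lit 61121) (nat_lit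 56661) (nat_lit 1901) (nat_lit 0) (nat_lit 0),Row.mk (nat_lit 23856) (nat_lit 56474) (nat_lit 61121) (nat_lit 56661) (nat_lit 1901) (nat_lit 0) (nat_lit 0),Row.mk (nat_lit 24024) (nat_lit 56474) (nat_lit 61121) (nat_lit 56661) (nat_lit 1901) (nat_lit 0) (nat_lit 0),Row.mk (nat_lit 24192) (nat_lit 56474) (nat_lit 61121) (nat_lit 56661) (nat_lit 1901) (nat_lit 0) (nat_lit 0),Row.mk (nat_lit 24360) (nat_lit 56474) (nat_lit 61121) (nat_lit 56661) (nat_lit 1901) (nat_lit 0) (nat_lit 0),Row.mk (nat_lit 24528) (nat_lit 56474) (nat_lit 61121) (nat_lit 56661) (nat_lit 1901) (nat_lit 0) (nat_lit 0),Row.mk (nat_lit 24696) (nat_lit 56474) (nat_lit 61121) (nat_lit 56661) (nat_lit 1901) (nat_lit 0) (nat_lit 0),Row.mk (nat_lit 24864) (nat_lit 56474) (nat_lit 61121) (nat_lit 56661) (nat_lit 1901) (nat_lit 0) (nat_lit 0),Row.mk (nat_lit 25032) (nat_lit 56474) (nat_lit 61121) (nat_lit 56661) (nat_lit 1901) (nat_lit 0) (nat_lit 0)],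
[Row.mk (nat_lit 10752) (nat_lit 55913) (nat_lit 75747) (nat_lit 56100) (nat_lit 2966) (nat_lit 0) (nat_lit 0),Row.mk (nat_lit 10920) (nat_lit 55913) (nat_lit 75747) (nat_lit 56100) (nat_lit 2966) (nat_lit 0) (nat_lit 0),Row.mk (nat_lit 11088) (nat_lit 55913) (nat_lit 75747) (nat_lit 56100) (nat_lit 2966) (nat_lit 0) (nat_lit 0),Row.mk (nat_lit 11256) (nat_lit 55913) (nat_lit 75747) (nat_lit 56100) (nat_lit 2966) (nat_lit 0) (nat_lit 0),Row.mk (nat_lit 11424) (nat_lit 55913) (nat_lit 75747) (nat_lit 56100) (nat_lit 2966) (nat_lit 0) (nat_lit 0),Row.mk (nat_lit 11592) (nat_lit 55913) (nat_lit 75747) (nat_lit 56100) (nat_lit 2966) (nat_lit 0) (nat_lit 0),Row.mk (nat_lit 11760) (nat_lit 55913) (nat_lit 75747) (nat_lit 56100) (nat_lit 2966) (nat_lit 0) (nat_lit 0),Row.mk (nat_lit 11928) (nat_lit 55913) (nat_lit 75747) (nat_lit 56100) (nat_lit 2966) (nat_lit 0) (nat_lit 0),Row.mk (nat_lit 12096) (nat_lit 55913) (nat_lit 75747) (nat_lit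 56100) (nat_lit 2966) (nat_lit 0) (nat_lit 0),Row.mk (nat_lit 12264) (nat_lit 55913) (nat_lit 75747) (nat_lit 56100) (nat_lit 2966) (nat_lit 0) (nat_lit 0),Row.mk (nat_lit 12432) (nat_lit 55913) (nat_lit 75747) (nat_lit 56100) (nat_lit 2966) (nat_lit 0) (nat_lit 0),Row.mk (nat_lit 12600) (nat_lit 55913) (nat_lit 75747) (nat_lit 56100) (nat_lit 2966) (nat_lit 0) (nat_lit 0),Row.mk (nat_lit 12768) (nat_lit 55913) (nat_lit 75747) (nat_lit 56100) (nat_lit 2966) (nat_lit 0) (nat_lit 0),Row.mk (nat_lit 12936) (nat_lit 55913) (nat_lit 75747) (nat_lit 56100) (nat_lit 2966) (nat_lit 0) (nat_lit 0),Row.mk (nat_lit 13104) (nat_lit 55913) (nat_lit 75747) (nat_lit 56100) (nat_lit 2966) (nat_lit 0) (nat_lit 0),Row.mk (nat_lit 13272) (nat_lit 55913) (nat_lit 75747) (nat_lit 56100) (nat_lit 2966) (nat_lit 0) (nat_lit 0),Row.mk (nat_lit 13440) (nat_lit 55913) (nat_lit 75747) (nat_lit 56100) (nat_lit 2966) (nat_lit 0) (nat_lit 0),Row.mk (nat_lit 13608)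 (nat_lit 55913) (nat_lit 75747) (nat_lit 56100) (nat_lit 2966) (nat_lit 0) (nat_lit 0),Row.mk (nat_lit 13776) (nat_lit 55913) (nat_lit 75747) (nat_lit 56100) (nat_lit 2966) (nat_lit 0) (nat_lit 0),Row.mk (nat_lit 13944) (nat_lit 55913) (nat_lit 75747) (nat_lit 56100) (nat_lit 2966) (nat_lit 0) (nat_lit 0),Row.mk (nat_lit 14112) (nat_lit 55913) (nat_lit 75747) (nat_lit 56100) (nat_lit 2966) (nat_lit 0) (nat_lit 0),Row.mk (nat_lit 14280) (nat_lit 55913) (nat_lit 75747) (nat_lit 56100) (nat_lit 2966) (nat_lit 0) (nat_lit 0),Row.mk (nat_lit 14448) (nat_lit 55913) (nat_lit 75747) (nat_lit 56100) (nat_lit 2966) (nat_lit 0) (nat_lit 0),Row.mk (nat_lit 14616) (nat_lit 55913) (nat_lit 75747) (nat_lit 56100) (nat_lit 2966) (nat_lit 0) (nat_lit 0),Row.mk (nat_lit 14784) (nat_lit 55913) (nat_lit 75747) (nat_lit 56100) (nat_lit 2966) (nat_lit 0) (nat_lit 0),Row.mk (nat_lit 14952) (nat_lit 55913) (nat_lit 75747) (nat_lit 56100) (nat_lit 2966) (nat_lit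 0) (nat_lit 0),Row.mk (nat_lit 15120) (nat_lit 55913) (nat_lit 75747) (nat_lit 56100) (nat_lit 2966) (nat_lit 0) (nat_lit 0),Row.mk (nat_lit 15288) (nat_lit 55913) (nat_lit 75747) (nat_lit 56100) (nat_lit 2966) (nat_lit 0) (nat_lit 0),Row.mk (nat_lit 15456) (nat_lit 55913) (nat_lit 75747) (nat_lit 56100) (nat_lit 2966) (nat_lit 0) (nat_lit 0),Row.mk (nat_lit 15624) (nat_lit 55913) (nat_lit 75747) (nat_lit 56100) (nat_lit 2966) (nat_lit 0) (nat_lit 0),Row.mk (nat_lit 15792) (nat_lit 55913) (nat_lit 75747) (nat_lit 56100) (nat_lit 2966) (nat_lit 0) (nat_lit 0),Row.mk (nat_lit 15960) (nat_lit 55913) (nat_lit 75747) (nat_lit 56100) (nat_lit 2966) (nat_lit 0) (nat_lit 0),Row.mk (nat_lit 16128) (nat_lit 55913) (nat_lit 75747) (nat_lit 56100) (nat_lit 2966) (nat_lit 0) (nat_lit 0),Row.mk (nat_lit 16296) (nat_lit 55913) (nat_lit 75747) (nat_lit 56100) (nat_lit 2966) (nat_lit 0) (nat_lit 0),Row.mk (nat_lit 16464) (nat_lit 55913) (nat_lit 75747)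 (nat_lit 56100) (nat_lit 2966) (nat_lit 0) (nat_lit 0),Row.mk (nat_lit 16632) (nat_lit 55913) (nat_lit 75747) (nat_lit 56100) (nat_lit 2966) (nat_lit 0) (nat_lit 0),Row.mk (nat_lit 16800) (nat_lit 55913) (nat_lit 75747) (nat_lit 56100) (nat_lit 2966) (nat_lit 0) (nat_lit 0),Row.mk (nat_lit 16968) (nat_lit 55913) (nat_lit 75747) (nat_lit 56100) (nat_lit 2966) (nat_lit 0) (nat_lit 0),Row.mk (nat_lit 17136) (nat_lit 55913) (nat_lit 75747) (nat_lit 56100) (nat_lit 2966) (nat_lit 0) (nat_lit 0),Row.mk (nat_lit 17304) (nat_lit 55913) (nat_lit 75747) (nat_lit 56100) (nat_lit 2966) (nat_lit 0) (nat_lit 0),Row.mk (nat_lit 17472) (nat_lit 55913) (nat_lit 75747) (nat_lit 56100) (nat_lit 2966) (nat_lit 0) (nat_lit 0),Row.mk (nat_lit 17640) (nat_lit 55913) (nat_lit 75747) (nat_lit 56100) (nat_lit 2966) (nat_lit 0) (nat_lit 0),Row.mk (nat_lit 17808) (nat_lit 55913) (nat_lit 75747) (nat_lit 56100) (nat_lit 2966) (nat_lit 0) (nat_lit 0),Row.mk (nat_lit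 17976) (nat_lit 55913) (nat_lit 75747) (nat_lit 56100) (nat_lit 2966) (nat_lit 0) (nat_lit 0),Row.mk (nat_lit 18144) (nat_lit 55913) (nat_lit 75747) (nat_lit 56100) (nat_lit 2966) (nat_lit 0) (nat_lit 0),Row.mk (nat_lit 18312) (nat_lit 55913) (nat_lit 75747) (nat_lit 56100) (nat_lit 2966) (nat_lit 0) (nat_lit 0),Row.mk (nat_lit 18480) (nat_lit 55913) (nat_lit 75747) (nat_lit 56100) (nat_lit 2966) (nat_lit 0) (nat_lit 0),Row.mk (nat_lit 18648) (nat_lit 55913) (nat_lit 75747) (nat_lit 56100) (nat_lit 2966) (nat_lit 0) (nat_lit 0),Row.mk (nat_lit 18816) (nat_lit 55913) (nat_lit 75747) (nat_lit 56100) (nat_lit 2966) (nat_lit 0) (nat_lit 0),Row.mk (nat_lit 18984) (nat_lit 55913) (nat_lit 75747) (nat_lit 56100) (nat_lit 2966) (nat_lit 0) (nat_lit 0),Row.mk (nat_lit 19152) (nat_lit 55913) (nat_lit 75747) (nat_lit 56100) (nat_lit 2966) (nat_lit 0) (nat_lit 0),Row.mk (nat_lit 19320) (nat_lit 55913) (nat_lit 75747) (nat_lit 56100) (nat_lit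 2966) (nat_lit 0) (nat_lit 0),Row.mk (nat_lit 19488) (nat_lit 55913) (nat_lit 75747) (nat_lit 56100) (nat_lit 2966) (nat_lit 0) (nat_lit 0),Row.mk (nat_lit 19656) (nat_lit 55913) (nat_lit 75747) (nat_lit 56100) (nat_lit 2966) (nat_lit 0) (nat_lit 0),Row.mk (nat_lit 19824) (nat_lit 55913) (nat_lit 75747) (nat_lit 56100) (nat_lit 2966) (nat_lit 0) (nat_lit 0),Row.mk (nat_lit 19992) (nat_lit 55913) (nat_lit 75747) (nat_lit 56100) (nat_lit 2966) (nat_lit 0) (nat_lit 0),Row.mk (nat_lit 20160) (nat_lit 55913) (nat_lit 75747) (nat_lit 56100) (nat_lit 2966) (nat_lit 0) (nat_lit 0),Row.mk (nat_lit 20328) (nat_lit 55913) (nat_lit 75747) (nat_lit 56100) (nat_lit 2966) (nat_lit 0) (nat_lit 0),Row.mk (nat_lit 20496) (nat_lit 55913) (nat_lit 75747) (nat_lit 56100) (nat_lit 2966) (nat_lit 0) (nat_lit 0),Row.mk (nat_lit 20664) (nat_lit 55913) (nat_lit 75747) (nat_lit 56100) (nat_lit 2966) (nat_lit 0) (nat_lit 0),Row.mk (nat_lit 20832) (nat_lit 55913)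 (nat_lit 75747) (nat_lit 56100) (nat_lit 2966) (nat_lit 0) (nat_lit 0),Row.mk (nat_lit 21000) (nat_lit 55913) (nat_lit 75747) (nat_lit 56100) (nat_lit 2966) (nat_lit 0) (nat_lit 0),Row.mk (nat_lit 21168) (nat_lit 55913) (nat_lit 75747) (nat_lit 56100) (nat_lit 2966) (nat_lit 0) (nat_lit 0),Row.mk (nat_lit 21336) (nat_lit 55913) (nat_lit 75747) (nat_lit 56100) (nat_lit 2966) (nat_lit 0) (nat_lit 0),Row.mk (nat_lit 21504) (nat_lit 55913) (nat_lit 75747) (nat_lit 56100) (nat_lit 2966) (nat_lit 0) (nat_lit 0),Row.mk (nat_lit 21672) (nat_lit 55913) (nat_lit 75747) (nat_lit 56100) (nat_lit 2966) (nat_lit 0) (nat_lit 0),Row.mk (nat_lit 21840) (nat_lit 55913) (nat_lit 75747) (nat_lit 56100) (nat_lit 2966) (nat_lit 0) (nat_lit 0),Row.mk (nat_lit 22008) (nat_lit 55913) (nat_lit 75747) (nat_lit 56100) (nat_lit 2966) (nat_lit 0) (nat_lit 0),Row.mk (nat_lit 22176) (nat_lit 55913) (nat_lit 75747) (nat_lit 56100) (nat_lit 2966) (nat_lit 0) (nat_lit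 0),Row.mk (nat_lit 22344) (nat_lit 55913) (nat_lit 75747) (nat_lit 56100) (nat_lit 2966) (nat_lit 0) (nat_lit 0),Row.mk (nat_lit 22512) (nat_lit 55913) (nat_lit 75747) (nat_lit 56100) (nat_lit 2966) (nat_lit 0) (nat_lit 0),Row.mk (nat_lit 22680) (nat_lit 55913) (nat_lit 75747) (nat_lit 56100) (nat_lit 2966) (nat_lit 0) (nat_lit 0),Row.mk (nat_lit 22848) (nat_lit 55913) (nat_lit 75747) (nat_lit 56100) (nat_lit 2966) (nat_lit 0) (nat_lit 0),Row.mk (nat_lit 23016) (nat_lit 55913) (nat_lit 75747) (nat_lit 56100) (nat_lit 2966) (nat_lit 0) (nat_lit 0),Row.mk (nat_lit 23184) (nat_lit 55913) (nat_lit 75747) (nat_lit 56100) (nat_lit 2966) (nat_lit 0) (nat_lit 0),Row.mk (nat_lit 23352) (nat_lit 55913) (nat_lit 75747) (nat_lit 56100) (nat_lit 2966) (nat_lit 0) (nat_lit 0),Row.mk (nat_lit 23520) (nat_lit 55913) (nat_lit 75747) (nat_lit 56100) (nat_lit 2966) (nat_lit 0) (nat_lit 0),Row.mk (nat_lit 23688) (nat_lit 55913) (nat_lit 75747) (nat_lit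 56100) (nat_lit 2966) (nat_lit 0) (nat_lit 0),Row.mk (nat_lit 23856) (nat_lit 55913) (nat_lit 75747) (nat_lit 56100) (nat_lit 2966) (nat_lit 0) (nat_lit 0),Row.mk (nat_lit 24024) (nat_lit 55913) (nat_lit 75747) (nat_lit 56100) (nat_lit 2966) (nat_lit 0) (nat_lit 0),Row.mk (nat_lit 24192) (nat_lit 55913) (nat_lit 75747) (nat_lit 56100) (nat_lit 2966) (nat_lit 0) (nat_lit 0),Row.mk (nat_lit 24360) (nat_lit 55913) (nat_lit 75747) (nat_lit 56100) (nat_lit 2966) (nat_lit 0) (nat_lit 0),Row.mk (nat_lit 24528) (nat_lit 55913) (nat_lit 75747) (nat_lit 56100) (nat_lit 2966) (nat_lit 0) (nat_lit 0),Row.mk (nat_lit 24696) (nat_lit 55913) (nat_lit 75747) (nat_lit 56100) (nat_lit 2966) (nat_lit 0) (nat_lit 0),Row.mk (nat_lit 24864) (nat_lit 55913) (nat_lit 75747) (nat_lit 56100) (nat_lit 2966) (nat_lit 0) (nat_lit 0),Row.mk (nat_lit 25032) (nat_lit 55913) (nat_lit 75747) (nat_lit 56100) (nat_lit 2966) (nat_lit 0) (nat_lit 0)],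
[Row.mk (nat_lit 10752) (nat_lit 55352) (nat_lit 93684) (nat_lit 55539) (nat_lit 4627) (nat_lit 0) (nat_lit 0),Row.mk (nat_lit 10920) (nat_lit 55352) (nat_lit 93684) (nat_lit 55539) (nat_lit 4627) (nat_lit 0) (nat_lit 0),Row.mk (nat_lit 11088) (nat_lit 55352) (nat_lit 93684) (nat_lit 55539) (nat_lit 4627) (nat_lit 0) (nat_lit 0),Row.mk (nat_lit 11256) (nat_lit 55352) (nat_lit 93684) (nat_lit 55539) (nat_lit 4627) (nat_lit 0) (nat_lit 0),Row.mk (nat_lit 11424) (nat_lit 55352) (nat_lit 93684) (nat_lit 55539) (nat_lit 4627) (nat_lit 0) (nat_lit 0),Row.mk (nat_lit 11592) (nat_lit 55352) (nat_lit 93684) (nat_lit 55539) (nat_lit 4627) (nat_lit 0) (nat_lit 0),Row.mk (nat_lit 11760) (nat_lit 55352) (nat_lit 93684) (nat_lit 55539) (nat_lit 4627) (nat_lit 0) (nat_lit 0),Row.mk (nat_lit 11928) (nat_lit 55352) (nat_lit 93684) (nat_lit 55539) (nat_lit 4627) (nat_lit 0) (nat_lit 0),Row.mk (nat_lit 12096) (nat_lit 55352) (nat_lit 93684) (nat_lit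 55539) (nat_lit 4627) (nat_lit 0) (nat_lit 0),Row.mk (nat_lit 12264) (nat_lit 55352) (nat_lit 93684) (nat_lit 55539) (nat_lit 4627) (nat_lit 0) (nat_lit 0),Row.mk (nat_lit 12432) (nat_lit 55352) (nat_lit 93684) (nat_lit 55539) (nat_lit 4627) (nat_lit 0) (nat_lit 0),Row.mk (nat_lit 12600) (nat_lit 55352) (nat_lit 93684) (nat_lit 55539) (nat_lit 4627) (nat_lit 0) (nat_lit 0),Row.mk (nat_lit 12768) (nat_lit 55352) (nat_lit 93684) (nat_lit 55539) (nat_lit 4627) (nat_lit 0) (nat_lit 0),Row.mk (nat_lit 12936) (nat_lit 55352) (nat_lit 93684) (nat_lit 55539) (nat_lit 4627) (nat_lit 0) (nat_lit 0),Row.mk (nat_lit 13104) (nat_lit 55352) (nat_lit 93684) (nat_lit 55539) (nat_lit 4627) (nat_lit 0) (nat_lit 0),Row.mk (nat_lit 13272) (nat_lit 55352) (nat_lit 93684) (nat_lit 55539) (nat_lit 4627) (nat_lit 0) (nat_lit 0),Row.mk (nat_lit 13440) (nat_lit 55352) (nat_lit 93684) (nat_lit 55539) (nat_lit 4627) (nat_lit 0) (nat_lit 0),Row.mk (nat_lit 13608)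 (nat_lit 55352) (nat_lit 93684) (nat_lit 55539) (nat_lit 4627) (nat_lit 0) (nat_lit 0),Row.mk (nat_lit 13776) (nat_lit 55352) (nat_lit 93684) (nat_lit 55539) (nat_lit 4627) (nat_lit 0) (nat_lit 0),Row.mk (nat_lit 13944) (nat_lit 55352) (nat_lit 93684) (nat_lit 55539) (nat_lit 4627) (nat_lit 0) (nat_lit 0),Row.mk (nat_lit 14112) (nat_lit 55352) (nat_lit 93684) (nat_lit 55539) (nat_lit 4627) (nat_lit 0) (nat_lit 0),Row.mk (nat_lit 14280) (nat_lit 55352) (nat_lit 93684) (nat_lit 55539) (nat_lit 4627) (nat_lit 0) (nat_lit 0),Row.mk (nat_lit 14448) (nat_lit 55352) (nat_lit 93684) (nat_lit 55539) (nat_lit 4627) (nat_lit 0) (nat_lit 0),Row.mk (nat_lit 14616) (nat_lit 55352) (nat_lit 93684) (nat_lit 55539) (nat_lit 4627) (nat_lit 0) (nat_lit 0),Row.mk (nat_lit 14784) (nat_lit 55352) (nat_lit 93684) (nat_lit 55539) (nat_lit 4627) (nat_lit 0) (nat_lit 0),Row.mk (nat_lit 14952) (nat_lit 55352) (nat_lit 93684) (nat_lit 55539) (nat_lit 4627) (nat_lit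 0) (nat_lit 0),Row.mk (nat_lit 15120) (nat_lit 55352) (nat_lit 93684) (nat_lit 55539) (nat_lit 4627) (nat_lit 0) (nat_lit 0),Row.mk (nat_lit 15288) (nat_lit 55352) (nat_lit 93684) (nat_lit 55539) (nat_lit 4627) (nat_lit 0) (nat_lit 0),Row.mk (nat_lit 15456) (nat_lit 55352) (nat_lit 93684) (nat_lit 55539) (nat_lit 4627) (nat_lit 0) (nat_lit 0),Row.mk (nat_lit 15624) (nat_lit 55352) (nat_lit 93684) (nat_lit 55539) (nat_lit 4627) (nat_lit 0) (nat_lit 0),Row.mk (nat_lit 15792) (nat_lit 55352) (nat_lit 93684) (nat_lit 55539) (nat_lit 4627) (nat_lit 0) (nat_lit 0),Row.mk (nat_lit 15960) (nat_lit 55352) (nat_lit 93684) (nat_lit 55539) (nat_lit 4627) (nat_lit 0) (nat_lit 0),Row.mk (nat_lit 16128) (nat_lit 55352) (nat_lit 93684) (nat_lit 55539) (nat_lit 4627) (nat_lit 0) (nat_lit 0),Row.mk (nat_lit 16296) (nat_lit 55352) (nat_lit 93684) (nat_lit 55539) (nat_lit 4627) (nat_lit 0) (nat_lit 0),Row.mk (nat_lit 16464) (nat_lit 55352) (nat_lit 93684)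 (nat_lit 55539) (nat_lit 4627) (nat_lit 0) (nat_lit 0),Row.mk (nat_lit 16632) (nat_lit 55352) (nat_lit 93684) (nat_lit 55539) (nat_lit 4627) (nat_lit 0) (nat_lit 0),Row.mk (nat_lit 16800) (nat_lit 55352) (nat_lit 93684) (nat_lit 55539) (nat_lit 4627) (nat_lit 0) (nat_lit 0),Row.mk (nat_lit 16968) (nat_lit 55352) (nat_lit 93684) (nat_lit 55539) (nat_lit 4627) (nat_lit 0) (nat_lit 0),Row.mk (nat_lit 17136) (nat_lit 55352) (nat_lit 93684) (nat_lit 55539) (nat_lit 4627) (nat_lit 0) (nat_lit 0),Row.mk (nat_lit 17304) (nat_lit 55352) (nat_lit 93684) (nat_lit 55539) (nat_lit 4627) (nat_lit 0) (nat_lit 0),Row.mk (nat_lit 17472) (nat_lit 55352) (nat_lit 93684) (nat_lit 55539) (nat_lit 4627) (nat_lit 0) (nat_lit 0),Row.mk (nat_lit 17640) (nat_lit 55352) (nat_lit 93684) (nat_lit 55539) (nat_lit 4627) (nat_lit 0) (nat_lit 0),Row.mk (nat_lit 17808) (nat_lit 55352) (nat_lit 93684) (nat_lit 55539) (nat_lit 4627) (nat_lit 0) (nat_lit 0),Row.mk (nat_lit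 17976) (nat_lit 55352) (nat_lit 93684) (nat_lit 55539) (nat_lit 4627) (nat_lit 0) (nat_lit 0),Row.mk (nat_lit 18144) (nat_lit 55352) (nat_lit 93684) (nat_lit 55539) (nat_lit 4627) (nat_lit 0) (nat_lit 0),Row.mk (nat_lit 18312) (nat_lit 55352) (nat_lit 93684) (nat_lit 55539) (nat_lit 4627) (nat_lit 0) (nat_lit 0),Row.mk (nat_lit 18480) (nat_lit 55352) (nat_lit 93684) (nat_lit 55539) (nat_lit 4627) (nat_lit 0) (nat_lit 0),Row.mk (nat_lit 18648) (nat_lit 55352) (nat_lit 93684) (nat_lit 55539) (nat_lit 4627) (nat_lit 0) (nat_lit 0),Row.mk (nat_lit 18816) (nat_lit 55352) (nat_lit 93684) (nat_lit 55539) (nat_lit 4627) (nat_lit 0) (nat_lit 0),Row.mk (nat_lit 18984) (nat_lit 55352) (nat_lit 93684) (nat_lit 55539) (nat_lit 4627) (nat_lit 0) (nat_lit 0),Row.mk (nat_lit 19152) (nat_lit 55352) (nat_lit 93684) (nat_lit 55539) (nat_lit 4627) (nat_lit 0) (nat_lit 0),Row.mk (nat_lit 19320) (nat_lit 55352) (nat_lit 93684) (nat_lit 55539) (nat_lit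 4627) (nat_lit 0) (nat_lit 0),Row.mk (nat_lit 19488) (nat_lit 55352) (nat_lit 93684) (nat_lit 55539) (nat_lit 4627) (nat_lit 0) (nat_lit 0),Row.mk (nat_lit 19656) (nat_lit 55352) (nat_lit 93684) (nat_lit 55539) (nat_lit 4627) (nat_lit 0) (nat_lit 0),Row.mk (nat_lit 19824) (nat_lit 55352) (nat_lit 93684) (nat_lit 55539) (nat_lit 4627) (nat_lit 0) (nat_lit 0),Row.mk (nat_lit 19992) (nat_lit 55352) (nat_lit 93684) (nat_lit 55539) (nat_lit 4627) (nat_lit 0) (nat_lit 0),Row.mk (nat_lit 20160) (nat_lit 55352) (nat_lit 93684) (nat_lit 55539) (nat_lit 4627) (nat_lit 0) (nat_lit 0),Row.mk (nat_lit 20328) (nat_lit 55352) (nat_lit 93684) (nat_lit 55539) (nat_lit 4627) (nat_lit 0) (nat_lit 0),Row.mk (nat_lit 20496) (nat_lit 55352) (nat_lit 93684) (nat_lit 55539) (nat_lit 4627) (nat_lit 0) (nat_lit 0),Row.mk (nat_lit 20664) (nat_lit 55352) (nat_lit 93684) (nat_lit 55539) (nat_lit 4627) (nat_lit 0) (nat_lit 0),Row.mk (nat_lit 20832) (nat_lit 55352)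 (nat_lit 93684) (nat_lit 55539) (nat_lit 4627) (nat_lit 0) (nat_lit 0),Row.mk (nat_lit 21000) (nat_lit 55352) (nat_lit 93684) (nat_lit 55539) (nat_lit 4627) (nat_lit 0) (nat_lit 0),Row.mk (nat_lit 21168) (nat_lit 55352) (nat_lit 93684) (nat_lit 55539) (nat_lit 4627) (nat_lit 0) (nat_lit 0),Row.mk (nat_lit 21336) (nat_lit 55352) (nat_lit 93684) (nat_lit 55539) (nat_lit 4627) (nat_lit 0) (nat_lit 0),Row.mk (nat_lit 21504) (nat_lit 55352) (nat_lit 93684) (nat_lit 55539) (nat_lit 4627) (nat_lit 0) (nat_lit 0),Row.mk (nat_lit 21672) (nat_lit 55352) (nat_lit 93684) (nat_lit 55539) (nat_lit 4627) (nat_lit 0) (nat_lit 0),Row.mk (nat_lit 21840) (nat_lit 55352) (nat_lit 93684) (nat_lit 55539) (nat_lit 4627) (nat_lit 0) (nat_lit 0),Row.mk (nat_lit 22008) (nat_lit 55352) (nat_lit 93684) (nat_lit 55539) (nat_lit 4627) (nat_lit 0) (nat_lit 0),Row.mk (nat_lit 22176) (nat_lit 55352) (nat_lit 93684) (nat_lit 55539) (nat_lit 4627) (nat_lit 0) (nat_lit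 0),Row.mk (nat_lit 22344) (nat_lit 55352) (nat_lit 93684) (nat_lit 55539) (nat_lit 4627) (nat_lit 0) (nat_lit 0),Row.mk (nat_lit 22512) (nat_lit 55352) (nat_lit 93684) (nat_lit 55539) (nat_lit 4627) (nat_lit 0) (nat_lit 0),Row.mk (nat_lit 22680) (nat_lit 55352) (nat_lit 93684) (nat_lit 55539) (nat_lit 4627) (nat_lit 0) (nat_lit 0),Row.mk (nat_lit 22848) (nat_lit 55352) (nat_lit 93684) (nat_lit 55539) (nat_lit 4627) (nat_lit 0) (nat_lit 0),Row.mk (nat_lit 23016) (nat_lit 55352) (nat_lit 93684) (nat_lit 55539) (nat_lit 4627) (nat_lit 0) (nat_lit 0),Row.mk (nat_lit 23184) (nat_lit 55352) (nat_lit 93684) (nat_lit 55539) (nat_lit 4627) (nat_lit 0) (nat_lit 0),Row.mk (nat_lit 23352) (nat_lit 55352) (nat_lit 93684) (nat_lit 55539) (nat_lit 4627) (nat_lit 0) (nat_lit 0),Row.mk (nat_lit 23520) (nat_lit 55352) (nat_lit 93684) (nat_lit 55539) (nat_lit 4627) (nat_lit 0) (nat_lit 0),Row.mk (nat_lit 23688) (nat_lit 55352) (nat_lit 93684) (nat_lit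 55539) (nat_lit 4627) (nat_lit 0) (nat_lit 0),Row.mk (nat_lit 23856) (nat_lit 55352) (nat_lit 93684) (nat_lit 55539) (nat_lit 4627) (nat_lit 0) (nat_lit 0),Row.mk (nat_lit 24024) (nat_lit 55352) (nat_lit 93684) (nat_lit 55539) (nat_lit 4627) (nat_lit 0) (nat_lit 0),Row.mk (nat_lit 24192) (nat_lit 55352) (nat_lit 93684) (nat_lit 55539) (nat_lit 4627) (nat_lit 0) (nat_lit 0),Row.mk (nat_lit 24360) (nat_lit 55352) (nat_lit 93684) (nat_lit 55539) (nat_lit 4627) (nat_lit 0) (nat_lit 0),Row.mk (nat_lit 24528) (nat_lit 55352) (nat_lit 93684) (nat_lit 55539) (nat_lit 4627) (nat_lit 0) (nat_lit 0),Row.mk (nat_lit 24696) (nat_lit 55352) (nat_lit 93684) (nat_lit 55539) (nat_lit 4627) (nat_lit 0) (nat_lit 0),Row.mk (nat_lit 24864) (nat_lit 55352) (nat_lit 93684) (nat_lit 55539) (nat_lit 4627) (nat_lit 0) (nat_lit 0),Row.mk (nat_lit 25032) (nat_lit 55352) (nat_lit 93684) (nat_lit 55539) (nat_lit 4627) (nat_lit 0) (nat_lit 0),Row.mk (nat_lit 25200)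 (nat_lit 55352) (nat_lit 93684) (nat_lit 55539) (nat_lit 4627) (nat_lit 0) (nat_lit 0)],
[Row.mk (nat_lit 10752) (nat_lit 54791) (nat_lit 115570) (nat_lit 54978) (nat_lit 7219) (nat_lit 0) (nat_lit 0),Row.mk (nat_lit 10920) (nat_lit 54791) (nat_lit 115570) (nat_lit 54978) (nat_lit 7219) (nat_lit 0) (nat_lit 0),Row.mk (nat_lit 11088) (nat_lit 54791) (nat_lit 115570) (nat_lit 54978) (nat_lit 7219) (nat_lit 0) (nat_lit 0),Row.mk (nat_lit 11256) (nat_lit 54791) (nat_lit 115570) (nat_lit 54978) (nat_lit 7219) (nat_lit 0) (nat_lit 0),Row.mk (nat_lit 11424) (nat_lit 54791) (nat_lit 115570) (nat_lit 54978) (nat_lit 7219) (nat_lit 0) (nat_lit 0),Row.mk (nat_lit 11592) (nat_lit 54791) (nat_lit 115570) (nat_lit 54978) (nat_lit 7219) (nat_lit 0) (nat_lit 0),Row.mk (nat_lit 11760) (nat_lit 54791) (nat_lit 115570) (nat_lit 54978) (nat_lit 7219) (nat_lit 0) (nat_lit 0),Row.mk (nat_lit 11928) (nat_lit 54791) (nat_lit 115570) (nat_lit 54978) (nat_lit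 7219) (nat_lit 0) (nat_lit 0),Row.mk (nat_lit 12096) (nat_lit 54791) (nat_lit 115570) (nat_lit 54978) (nat_lit 7219) (nat_lit 0) (nat_lit 0),Row.mk (nat_lit 12264) (nat_lit 54791) (nat_lit 115570) (nat_lit 54978) (nat_lit 7219) (nat_lit 0) (nat_lit 0),Row.mk (nat_lit 12432) (nat_lit 54791) (nat_lit 115570) (nat_lit 54978) (nat_lit 7219) (nat_lit 0) (nat_lit 0),Row.mk (nat_lit 12600) (nat_lit 54791) (nat_lit 115570) (nat_lit 54978) (nat_lit 7219) (nat_lit 0) (nat_lit 0),Row.mk (nat_lit 12768) (nat_lit 54791) (nat_lit 115570) (nat_lit 54978) (nat_lit 7219) (nat_lit 0) (nat_lit 0),Row.mk (nat_lit 12936) (nat_lit 54791) (nat_lit 115570) (nat_lit 54978) (nat_lit 7219) (nat_lit 0) (nat_lit 0),Row.mk (nat_lit 13104) (nat_lit 54791) (nat_lit 115570) (nat_lit 54978) (nat_lit 7219) (nat_lit 0) (nat_lit 0),Row.mk (nat_lit 13272) (nat_lit 54791) (nat_lit 115570) (nat_lit 54978) (nat_lit 7219) (nat_lit 0) (nat_lit 0),Row.mk (nat_lit 13440) (nat_lit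 54791) (nat_lit 115570) (nat_lit 54978) (nat_lit 7219) (nat_lit 0) (nat_lit 0),Row.mk (nat_lit 13608) (nat_lit 54791) (nat_lit 115570) (nat_lit 54978) (nat_lit 7219) (nat_lit 0) (nat_lit 0),Row.mk (nat_lit 13776) (nat_lit 54791) (nat_lit 115570) (nat_lit 54978) (nat_lit 7219) (nat_lit 0) (nat_lit 0),Row.mk (nat_lit 13944) (nat_lit 54791) (nat_lit 115570) (nat_lit 54978) (nat_lit 7219) (nat_lit 0) (nat_lit 0),Row.mk (nat_lit 14112) (nat_lit 54791) (nat_lit 115570) (nat_lit 54978) (nat_lit 7219) (nat_lit 0) (nat_lit 0),Row.mk (nat_lit 14280) (nat_lit 54791) (nat_lit 115570) (nat_lit 54978) (nat_lit 7219) (nat_lit 0) (nat_lit 0),Row.mk (nat_lit 14448) (nat_lit 54791) (nat_lit 115570) (nat_lit 54978) (nat_lit 7219) (nat_lit 0) (nat_lit 0),Row.mk (nat_lit 14616) (nat_lit 54791) (nat_lit 115570) (nat_lit 54978) (nat_lit 7219) (nat_lit 0) (nat_lit 0),Row.mk (nat_lit 14784) (nat_lit 54791) (nat_lit 115570) (nat_lit 54978) (nat_lit 7219) (nat_lit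 0) (nat_lit 0),Row.mk (nat_lit 14952) (nat_lit 54791) (nat_lit 115570) (nat_lit 54978) (nat_lit 7219) (nat_lit 0) (nat_lit 0),Row.mk (nat_lit 15120) (nat_lit 54791) (nat_lit 115570) (nat_lit 54978) (nat_lit 7219) (nat_lit 0) (nat_lit 0),Row.mk (nat_lit 15288) (nat_lit 54791) (nat_lit 115570) (nat_lit 54978) (nat_lit 7219) (nat_lit 0) (nat_lit 0),Row.mk (nat_lit 15456) (nat_lit 54791) (nat_lit 115570) (nat_lit 54978) (nat_lit 7219) (nat_lit 0) (nat_lit 0),Row.mk (nat_lit 15624) (nat_lit 54791) (nat_lit 115570) (nat_lit 54978) (nat_lit 7219) (nat_lit 0) (nat_lit 0),Row.mk (nat_lit 15792) (nat_lit 54791) (nat_lit 115570) (nat_lit 54978) (nat_lit 7219) (nat_lit 0) (nat_lit 0),Row.mk (nat_lit 15960) (nat_lit 54791) (nat_lit 115570) (nat_lit 54978) (nat_lit 7219) (nat_lit 0) (nat_lit 0),Row.mk (nat_lit 16128) (nat_lit 54791) (nat_lit 115570) (nat_lit 54978) (nat_lit 7219) (nat_lit 0) (nat_lit 0),Row.mk (nat_lit 16296) (nat_lit 54791) (nat_lit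 115570) (nat_lit 54978) (nat_lit 7219) (nat_lit 0) (nat_lit 0),Row.mk (nat_lit 16464) (nat_lit 54791) (nat_lit 115570) (nat_lit 54978) (nat_lit 7219) (nat_lit 0) (nat_lit 0),Row.mk (nat_lit 16632) (nat_lit 54791) (nat_lit 115570) (nat_lit 54978) (nat_lit 7219) (nat_lit 0) (nat_lit 0),Row.mk (nat_lit 16800) (nat_lit 54791) (nat_lit 115570) (nat_lit 54978) (nat_lit 7219) (nat_lit 0) (nat_lit 0),Row.mk (nat_lit 16968) (nat_lit 54791) (nat_lit 115570) (nat_lit 54978) (nat_lit 7219) (nat_lit 0) (nat_lit 0),Row.mk (nat_lit 17136) (nat_lit 54791) (nat_lit 115570) (nat_lit 54978) (nat_lit 7219) (nat_lit 0) (nat_lit 0),Row.mk (nat_lit 17304) (nat_lit 54791) (nat_lit 115570) (nat_lit 54978) (nat_lit 7219) (nat_lit 0) (nat_lit 0),Row.mk (nat_lit 17472) (nat_lit 54791) (nat_lit 115570) (nat_lit 54978) (nat_lit 7219) (nat_lit 0) (nat_lit 0),Row.mk (nat_lit 17640) (nat_lit 54791) (nat_lit 115570) (nat_lit 54978) (nat_lit 7219) (nat_lit 0) (nat_lit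 0),Row.mk (nat_lit 17808) (nat_lit 54791) (nat_lit 115570) (nat_lit 54978) (nat_lit 7219) (nat_lit 0) (nat_lit 0),Row.mk (nat_lit 17976) (nat_lit 54791) (nat_lit 115570) (nat_lit 54978) (nat_lit 7219) (nat_lit 0) (nat_lit 0),Row.mk (nat_lit 18144) (nat_lit 54791) (nat_lit 115570) (nat_lit 54978) (nat_lit 7219) (nat_lit 0) (nat_lit 0),Row.mk (nat_lit 18312) (nat_lit 54791) (nat_lit 115570) (nat_lit 54978) (nat_lit 7219) (nat_lit 0) (nat_lit 0),Row.mk (nat_lit 18480) (nat_lit 54791) (nat_lit 115570) (nat_lit 54978) (nat_lit 7219) (nat_lit 0) (nat_lit 0),Row.mk (nat_lit 18648) (nat_lit 54791) (nat_lit 115570) (nat_lit 54978) (nat_lit 7219) (nat_lit 0) (nat_lit 0),Row.mk (nat_lit 18816) (nat_lit 54791) (nat_lit 115570) (nat_lit 54978) (nat_lit 7219) (nat_lit 0) (nat_lit 0),Row.mk (nat_lit 18984) (nat_lit 54791) (nat_lit 115570) (nat_lit 54978) (nat_lit 7219) (nat_lit 0) (nat_lit 0),Row.mk (nat_lit 19152) (nat_lit 54791) (nat_lit 115570)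 (nat_lit 54978) (nat_lit 7219) (nat_lit 0) (nat_lit 0),Row.mk (nat_lit 19320) (nat_lit 54791) (nat_lit 115570) (nat_lit 54978) (nat_lit 7219) (nat_lit 0) (nat_lit 0),Row.mk (nat_lit 19488) (nat_lit 54791) (nat_lit 115570) (nat_lit 54978) (nat_lit 7219) (nat_lit 0) (nat_lit 0),Row.mk (nat_lit 19656) (nat_lit 54791) (nat_lit 115570) (nat_lit 54978) (nat_lit 7219) (nat_lit 0) (nat_lit 0),Row.mk (nat_lit 19824) (nat_lit 54791) (nat_lit 115570) (nat_lit 54978) (nat_lit 7219) (nat_lit 0) (nat_lit 0),Row.mk (nat_lit 19992) (nat_lit 54791) (nat_lit 115570) (nat_lit 54978) (nat_lit 7219) (nat_lit 0) (nat_lit 0),Row.mk (nat_lit 20160) (nat_lit 54791) (nat_lit 115570) (nat_lit 54978) (nat_lit 7219) (nat_lit 0) (nat_lit 0),Row.mk (nat_lit 20328) (nat_lit 54791) (nat_lit 115570) (nat_lit 54978) (nat_lit 7219) (nat_lit 0) (nat_lit 0),Row.mk (nat_lit 20496) (nat_lit 54791) (nat_lit 115570) (nat_lit 54978) (nat_lit 7219) (nat_lit 0) (nat_lit 0),Row.mk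 (nat_lit 20664) (nat_lit 54791) (nat_lit 115570) (nat_lit 54978) (nat_lit 7219) (nat_lit 0) (nat_lit 0),Row.mk (nat_lit 20832) (nat_lit 54791) (nat_lit 115570) (nat_lit 54978) (nat_lit 7219) (nat_lit 0) (nat_lit 0),Row.mk (nat_lit 21000) (nat_lit 54791) (nat_lit 115570) (nat_lit 54978) (nat_lit 7219) (nat_lit 0) (nat_lit 0),Row.mk (nat_lit 21168) (nat_lit 54791) (nat_lit 115570) (nat_lit 54978) (nat_lit 7219) (nat_lit 0) (nat_lit 0),Row.mk (nat_lit 21336) (nat_lit 54791) (nat_lit 115570) (nat_lit 54978) (nat_lit 7219) (nat_lit 0) (nat_lit 0),Row.mk (nat_lit 21504) (nat_lit 54791) (nat_lit 115570) (nat_lit 54978) (nat_lit 7219) (nat_lit 0) (nat_lit 0),Row.mk (nat_lit 21672) (nat_lit 54791) (nat_lit 115570) (nat_lit 54978) (nat_lit 7219) (nat_lit 0) (nat_lit 0),Row.mk (nat_lit 21840) (nat_lit 54791) (nat_lit 115570) (nat_lit 54978) (nat_lit 7219) (nat_lit 0) (nat_lit 0),Row.mk (nat_lit 22008) (nat_lit 54791) (nat_lit 115570) (nat_lit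 54978) (nat_lit 7219) (nat_lit 0) (nat_lit 0),Row.mk (nat_lit 22176) (nat_lit 54791) (nat_lit 115570) (nat_lit 54978) (nat_lit 7219) (nat_lit 0) (nat_lit 0),Row.mk (nat_lit 22344) (nat_lit 54791) (nat_lit 115570) (nat_lit 54978) (nat_lit 7219) (nat_lit 0) (nat_lit 0),Row.mk (nat_lit 22512) (nat_lit 54791) (nat_lit 115570) (nat_lit 54978) (nat_lit 7219) (nat_lit 0) (nat_lit 0),Row.mk (nat_lit 22680) (nat_lit 54791) (nat_lit 115570) (nat_lit 54978) (nat_lit 7219) (nat_lit 0) (nat_lit 0),Row.mk (nat_lit 22848) (nat_lit 54791) (nat_lit 115570) (nat_lit 54978) (nat_lit 7219) (nat_lit 0) (nat_lit 0),Row.mk (nat_lit 23016) (nat_lit 54791) (nat_lit 115570) (nat_lit 54978) (nat_lit 7219) (nat_lit 0) (nat_lit 0),Row.mk (nat_lit 23184) (nat_lit 54791) (nat_lit 115570) (nat_lit 54978) (nat_lit 7219) (nat_lit 0) (nat_lit 0),Row.mk (nat_lit 23352) (nat_lit 54791) (nat_lit 115570) (nat_lit 54978) (nat_lit 7219) (nat_lit 0) (nat_lit 0),Row.mk (nat_lit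 23520) (nat_lit 54791) (nat_lit 115570) (nat_lit 54978) (nat_lit 7219) (nat_lit 0) (nat_lit 0),Row.mk (nat_lit 23688) (nat_lit 54791) (nat_lit 115570) (nat_lit 54978) (nat_lit 7219) (nat_lit 0) (nat_lit 0),Row.mk (nat_lit 23856) (nat_lit 54791) (nat_lit 115570) (nat_lit 54978) (nat_lit 7219) (nat_lit 0) (nat_lit 0),Row.mk (nat_lit 24024) (nat_lit 54791) (nat_lit 115570) (nat_lit 54978) (nat_lit 7219) (nat_lit 0) (nat_lit 0),Row.mk (nat_lit 24192) (nat_lit 54791) (nat_lit 115570) (nat_lit 54978) (nat_lit 7219) (nat_lit 0) (nat_lit 0),Row.mk (nat_lit 24360) (nat_lit 54791) (nat_lit 115570) (nat_lit 54978) (nat_lit 7219) (nat_lit 0) (nat_lit 0),Row.mk (nat_lit 24528) (nat_lit 54791) (nat_lit 115570) (nat_lit 54978) (nat_lit 7219) (nat_lit 0) (nat_lit 0),Row.mk (nat_lit 24696) (nat_lit 54791) (nat_lit 115570) (nat_lit 54978) (nat_lit 7219) (nat_lit 0) (nat_lit 0),Row.mk (nat_lit 24864) (nat_lit 54791) (nat_lit 115570) (nat_lit 54978)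 (nat_lit 7219) (nat_lit 0) (nat_lit 0),Row.mk (nat_lit 25032) (nat_lit 54791) (nat_lit 115570) (nat_lit 54978) (nat_lit 7219) (nat_lit 0) (nat_lit 0),Row.mk (nat_lit 25200) (nat_lit 54791) (nat_lit 115570) (nat_lit 54978) (nat_lit 7219) (nat_lit 0) (nat_lit 0)],
[Row.mk (nat_lit 10752) (nat_lit 54230) (nat_lit 142100) (nat_lit 54417) (nat_lit 11261) (nat_lit 0) (nat_lit 0),Row.mk (nat_lit 10920) (nat_lit 54230) (nat_lit 142100) (nat_lit 54417) (nat_lit 11261) (nat_lit 0) (nat_lit 0),Row.mk (nat_lit 11088) (nat_lit 54230) (nat_lit 142100) (nat_lit 54417) (nat_lit 11261) (nat_lit 0) (nat_lit 0),Row.mk (nat_lit 11256) (nat_lit 54230) (nat_lit 142100) (nat_lit 54417) (nat_lit 11261) (nat_lit 0) (nat_lit 0),Row.mk (nat_lit 11424) (nat_lit 54230) (nat_lit 142100) (nat_lit 54417) (nat_lit 11261) (nat_lit 0) (nat_lit 0),Row.mk (nat_lit 11592) (nat_lit 54230) (nat_lit 142100) (nat_lit 54417) (nat_lit 11261) (nat_lit 0) (nat_lit 0),Row.mk (nat_lit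 11760) (nat_lit 54230) (nat_lit 142100) (nat_lit 54417) (nat_lit 11261) (nat_lit 0) (nat_lit 0),Row.mk (nat_lit 11928) (nat_lit 54230) (nat_lit 142100) (nat_lit 54417) (nat_lit 11261) (nat_lit 0) (nat_lit 0),Row.mk (nat_lit 12096) (nat_lit 54230) (nat_lit 142100) (nat_lit 54417) (nat_lit 11261) (nat_lit 0) (nat_lit 0),Row.mk (nat_lit 12264) (nat_lit 54230) (nat_lit 142100) (nat_lit 54417) (nat_lit 11261) (nat_lit 0) (nat_lit 0),Row.mk (nat_lit 12432) (nat_lit 54230) (nat_lit 142100) (nat_lit 54417) (nat_lit 11261) (nat_lit 0) (nat_lit 0),Row.mk (nat_lit 12600) (nat_lit 54230) (nat_lit 142100) (nat_lit 54417) (nat_lit 11261) (nat_lit 0) (nat_lit 0),Row.mk (nat_lit 12768) (nat_lit 54230) (nat_lit 142100) (nat_lit 54417) (nat_lit 11261) (nat_lit 0) (nat_lit 0),Row.mk (nat_lit 12936) (nat_lit 54230) (nat_lit 142100) (nat_lit 54417) (nat_lit 11261) (nat_lit 0) (nat_lit 0),Row.mk (nat_lit 13104) (nat_lit 54230) (nat_lit 142100) (nat_lit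 54417) (nat_lit 11261) (nat_lit 0) (nat_lit 0),Row.mk (nat_lit 13272) (nat_lit 54230) (nat_lit 142100) (nat_lit 54417) (nat_lit 11261) (nat_lit 0) (nat_lit 0),Row.mk (nat_lit 13440) (nat_lit 54230) (nat_lit 142100) (nat_lit 54417) (nat_lit 11261) (nat_lit 0) (nat_lit 0),Row.mk (nat_lit 13608) (nat_lit 54230) (nat_lit 142100) (nat_lit 54417) (nat_lit 11261) (nat_lit 0) (nat_lit 0),Row.mk (nat_lit 13776) (nat_lit 54230) (nat_lit 142100) (nat_lit 54417) (nat_lit 11261) (nat_lit 0) (nat_lit 0),Row.mk (nat_lit 13944) (nat_lit 54230) (nat_lit 142100) (nat_lit 54417) (nat_lit 11261) (nat_lit 0) (nat_lit 0),Row.mk (nat_lit 14112) (nat_lit 54230) (nat_lit 142100) (nat_lit 54417) (nat_lit 11261) (nat_lit 0) (nat_lit 0),Row.mk (nat_lit 14280) (nat_lit 54230) (nat_lit 142100) (nat_lit 54417) (nat_lit 11261) (nat_lit 0) (nat_lit 0),Row.mk (nat_lit 14448) (nat_lit 54230) (nat_lit 142100) (nat_lit 54417) (nat_lit 11261) (nat_lit 0) (nat_lit 0),Row.mk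 (nat_lit 14616) (nat_lit 54230) (nat_lit 142100) (nat_lit 54417) (nat_lit 11261) (nat_lit 0) (nat_lit 0),Row.mk (nat_lit 14784) (nat_lit 54230) (nat_lit 142100) (nat_lit 54417) (nat_lit 11261) (nat_lit 0) (nat_lit 0),Row.mk (nat_lit 14952) (nat_lit 54230) (nat_lit 142100) (nat_lit 54417) (nat_lit 11261) (nat_lit 0) (nat_lit 0),Row.mk (nat_lit 15120) (nat_lit 54230) (nat_lit 142100) (nat_lit 54417) (nat_lit 11261) (nat_lit 0) (nat_lit 0),Row.mk (nat_lit 15288) (nat_lit 54230) (nat_lit 142100) (nat_lit 54417) (nat_lit 11261) (nat_lit 0) (nat_lit 0),Row.mk (nat_lit 15456) (nat_lit 54230) (nat_lit 142100) (nat_lit 54417) (nat_lit 11261) (nat_lit 0) (nat_lit 0),Row.mk (nat_lit 15624) (nat_lit 54230) (nat_lit 142100) (nat_lit 54417) (nat_lit 11261) (nat_lit 0) (nat_lit 0),Row.mk (nat_lit 15792) (nat_lit 54230) (nat_lit 142100) (nat_lit 54417) (nat_lit 11261) (nat_lit 0) (nat_lit 0),Row.mk (nat_lit 15960) (nat_lit 54230) (nat_lit 142100)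 (nat_lit 54417) (nat_lit 11261) (nat_lit 0) (nat_lit 0),Row.mk (nat_lit 16128) (nat_lit 54230) (nat_lit 142100) (nat_lit 54417) (nat_lit 11261) (nat_lit 0) (nat_lit 0),Row.mk (nat_lit 16296) (nat_lit 54230) (nat_lit 142100) (nat_lit 54417) (nat_lit 11261) (nat_lit 0) (nat_lit 0),Row.mk (nat_lit 16464) (nat_lit 54230) (nat_lit 142100) (nat_lit 54417) (nat_lit 11261) (nat_lit 0) (nat_lit 0),Row.mk (nat_lit 16632) (nat_lit 54230) (nat_lit 142100) (nat_lit 54417) (nat_lit 11261) (nat_lit 0) (nat_lit 0),Row.mk (nat_lit 16800) (nat_lit 54230) (nat_lit 142100) (nat_lit 54417) (nat_lit 11261) (nat_lit 0) (nat_lit 0),Row.mk (nat_lit 16968) (nat_lit 54230) (nat_lit 142100) (nat_lit 54417) (nat_lit 11261) (nat_lit 0) (nat_lit 0),Row.mk (nat_lit 17136) (nat_lit 54230) (nat_lit 142100) (nat_lit 54417) (nat_lit 11261) (nat_lit 0) (nat_lit 0),Row.mk (nat_lit 17304) (nat_lit 54230) (nat_lit 142100) (nat_lit 54417) (nat_lit 11261) (nat_lit 0) (nat_lit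 0),Row.mk (nat_lit 17472) (nat_lit 54230) (nat_lit 142100) (nat_lit 54417) (nat_lit 11261) (nat_lit 0) (nat_lit 0),Row.mk (nat_lit 17640) (nat_lit 54230) (nat_lit 142100) (nat_lit 54417) (nat_lit 11261) (nat_lit 0) (nat_lit 0),Row.mk (nat_lit 17808) (nat_lit 54230) (nat_lit 142100) (nat_lit 54417) (nat_lit 11261) (nat_lit 0) (nat_lit 0),Row.mk (nat_lit 17976) (nat_lit 54230) (nat_lit 142100) (nat_lit 54417) (nat_lit 11261) (nat_lit 0) (nat_lit 0),Row.mk (nat_lit 18144) (nat_lit 54230) (nat_lit 142100) (nat_lit 54417) (nat_lit 11261) (nat_lit 0) (nat_lit 0),Row.mk (nat_lit 18312) (nat_lit 54230) (nat_lit 142100) (nat_lit 54417) (nat_lit 11261) (nat_lit 0) (nat_lit 0),Row.mk (nat_lit 18480) (nat_lit 54230) (nat_lit 142100) (nat_lit 54417) (nat_lit 11261) (nat_lit 0) (nat_lit 0),Row.mk (nat_lit 18648) (nat_lit 54230) (nat_lit 142100) (nat_lit 54417) (nat_lit 11261) (nat_lit 0) (nat_lit 0),Row.mk (nat_lit 18816) (nat_lit 54230) (nat_lit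 142100) (nat_lit 54417) (nat_lit 11261) (nat_lit 0) (nat_lit 0),Row.mk (nat_lit 18984) (nat_lit 54230) (nat_lit 142100) (nat_lit 54417) (nat_lit 11261) (nat_lit 0) (nat_lit 0),Row.mk (nat_lit 19152) (nat_lit 54230) (nat_lit 142100) (nat_lit 54417) (nat_lit 11261) (nat_lit 0) (nat_lit 0),Row.mk (nat_lit 19320) (nat_lit 54230) (nat_lit 142100) (nat_lit 54417) (nat_lit 11261) (nat_lit 0) (nat_lit 0),Row.mk (nat_lit 19488) (nat_lit 54230) (nat_lit 142100) (nat_lit 54417) (nat_lit 11261) (nat_lit 0) (nat_lit 0),Row.mk (nat_lit 19656) (nat_lit 54230) (nat_lit 142100) (nat_lit 54417) (nat_lit 11261) (nat_lit 0) (nat_lit 0),Row.mk (nat_lit 19824) (nat_lit 54230) (nat_lit 142100) (nat_lit 54417) (nat_lit 11261) (nat_lit 0) (nat_lit 0),Row.mk (nat_lit 19992) (nat_lit 54230) (nat_lit 142100) (nat_lit 54417) (nat_lit 11261) (nat_lit 0) (nat_lit 0),Row.mk (nat_lit 20160) (nat_lit 54230) (nat_lit 142100) (nat_lit 54417) (nat_lit 11261) (nat_lit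 0) (nat_lit 0),Row.mk (nat_lit 20328) (nat_lit 54230) (nat_lit 142100) (nat_lit 54417) (nat_lit 11261) (nat_lit 0) (nat_lit 0),Row.mk (nat_lit 20496) (nat_lit 54230) (nat_lit 142100) (nat_lit 54417) (nat_lit 11261) (nat_lit 0) (nat_lit 0),Row.mk (nat_lit 20664) (nat_lit 54230) (nat_lit 142100) (nat_lit 54417) (nat_lit 11261) (nat_lit 0) (nat_lit 0),Row.mk (nat_lit 20832) (nat_lit 54230) (nat_lit 142100) (nat_lit 54417) (nat_lit 11261) (nat_lit 0) (nat_lit 0),Row.mk (nat_lit 21000) (nat_lit 54230) (nat_lit 142100) (nat_lit 54417) (nat_lit 11261) (nat_lit 0) (nat_lit 0),Row.mk (nat_lit 21168) (nat_lit 54230) (nat_lit 142100) (nat_lit 54417) (nat_lit 11261) (nat_lit 0) (nat_lit 0),Row.mk (nat_lit 21336) (nat_lit 54230) (nat_lit 142100) (nat_lit 54417) (nat_lit 11261) (nat_lit 0) (nat_lit 0),Row.mk (nat_lit 21504) (nat_lit 54230) (nat_lit 142100) (nat_lit 54417) (nat_lit 11261) (nat_lit 0) (nat_lit 0),Row.mk (nat_lit 21672) (nat_lit 54230)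 (nat_lit 142100) (nat_lit 54417) (nat_lit 11261) (nat_lit 0) (nat_lit 0),Row.mk (nat_lit 21840) (nat_lit 54230) (nat_lit 142100) (nat_lit 54417) (nat_lit 11261) (nat_lit 0) (nat_lit 0),Row.mk (nat_lit 22008) (nat_lit 54230) (nat_lit 142100) (nat_lit 54417) (nat_lit 11261) (nat_lit 0) (nat_lit 0),Row.mk (nat_lit 22176) (nat_lit 54230) (nat_lit 142100) (nat_lit 54417) (nat_lit 11261) (nat_lit 0) (nat_lit 0),Row.mk (nat_lit 22344) (nat_lit 54230) (nat_lit 142100) (nat_lit 54417) (nat_lit 11261) (nat_lit 0) (nat_lit 0),Row.mk (nat_lit 22512) (nat_lit 54230) (nat_lit 142100) (nat_lit 54417) (nat_lit 11261) (nat_lit 0) (nat_lit 0),Row.mk (nat_lit 22680) (nat_lit 54230) (nat_lit 142100) (nat_lit 54417) (nat_lit 11261) (nat_lit 0) (nat_lit 0),Row.mk (nat_lit 22848) (nat_lit 54230) (nat_lit 142100) (nat_lit 54417) (nat_lit 11261) (nat_lit 0) (nat_lit 0),Row.mk (nat_lit 23016) (nat_lit 54230) (nat_lit 142100) (nat_lit 54417) (nat_lit 11261)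 (nat_lit 0) (nat_lit 0),Row.mk (nat_lit 23184) (nat_lit 54230) (nat_lit 142100) (nat_lit 54417) (nat_lit 11261) (nat_lit 0) (nat_lit 0),Row.mk (nat_lit 23352) (nat_lit 54230) (nat_lit 142100) (nat_lit 54417) (nat_lit 11261) (nat_lit 0) (nat_lit 0),Row.mk (nat_lit 23520) (nat_lit 54230) (nat_lit 142100) (nat_lit 54417) (nat_lit 11261) (nat_lit 0) (nat_lit 0),Row.mk (nat_lit 23688) (nat_lit 54230) (nat_lit 142100) (nat_lit 54417) (nat_lit 11261) (nat_lit 0) (nat_lit 0),Row.mk (nat_lit 23856) (nat_lit 54230) (nat_lit 142100) (nat_lit 54417) (nat_lit 11261) (nat_lit 0) (nat_lit 0),Row.mk (nat_lit 24024) (nat_lit 54230) (nat_lit 142100) (nat_lit 54417) (nat_lit 11261) (nat_lit 0) (nat_lit 0),Row.mk (nat_lit 24192) (nat_lit 54230) (nat_lit 142100) (nat_lit 54417) (nat_lit 11261) (nat_lit 0) (nat_lit 0),Row.mk (nat_lit 24360) (nat_lit 54230) (nat_lit 142100) (nat_lit 54417) (nat_lit 11261) (nat_lit 0) (nat_lit 0),Row.mk (nat_lit 24528) (nat_lit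 54230) (nat_lit 142100) (nat_lit 54417) (nat_lit 11261) (nat_lit 0) (nat_lit 0),Row.mk (nat_lit 24696) (nat_lit 54230) (nat_lit 142100) (nat_lit 54417) (nat_lit 11261) (nat_lit 0) (nat_lit 0),Row.mk (nat_lit 24864) (nat_lit 54230) (nat_lit 142100) (nat_lit 54417) (nat_lit 11261) (nat_lit 0) (nat_lit 0),Row.mk (nat_lit 25032) (nat_lit 54230) (nat_lit 142100) (nat_lit 54417) (nat_lit 11261) (nat_lit 0) (nat_lit 0),Row.mk (nat_lit 25200) (nat_lit 54230) (nat_lit 142100) (nat_lit 54417) (nat_lit 11261) (nat_lit 0) (nat_lit 0)],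
[Row.mk (nat_lit 10752) (nat_lit 53669) (nat_lit 173978) (nat_lit 53856) (nat_lit 17566) (nat_lit 0) (nat_lit 0),Row.mk (nat_lit 10920) (nat_lit 53669) (nat_lit 173978) (nat_lit 53856) (nat_lit 17566) (nat_lit 0) (nat_lit 0),Row.mk (nat_lit 11088) (nat_lit 53669) (nat_lit 173978) (nat_lit 53856) (nat_lit 17566) (nat_lit 0) (nat_lit 0),Row.mk (nat_lit 11256) (nat_lit 53669) (nat_lit 173978) (nat_lit 53856) (nat_lit 17566) (nat_lit 0) (nat_lit 0),Row.mk (nat_lit 11424) (nat_lit 53669) (nat_lit 173978) (nat_lit 53856) (nat_lit 17566) (nat_lit 0) (nat_lit 0),Row.mk (nat_lit 11592) (nat_lit 53669) (nat_lit 173978) (nat_lit 53856) (nat_lit 17566) (nat_lit 0) (nat_lit 0),Row.mk (nat_lit 11760) (nat_lit 53669) (nat_lit 173978) (nat_lit 53856) (nat_lit 17566) (nat_lit 0) (nat_lit 0),Row.mk (nat_lit 11928) (nat_lit 53669) (nat_lit 173978) (nat_lit 53856) (nat_lit 17566) (nat_lit 0) (nat_lit 0),Row.mk (nat_lit 12096) (nat_lit 53669) (nat_lit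 173978) (nat_lit 53856) (nat_lit 17566) (nat_lit 0) (nat_lit 0),Row.mk (nat_lit 12264) (nat_lit 53669) (nat_lit 173978) (nat_lit 53856) (nat_lit 17566) (nat_lit 0) (nat_lit 0),Row.mk (nat_lit 12432) (nat_lit 53669) (nat_lit 173978) (nat_lit 53856) (nat_lit 17566) (nat_lit 0) (nat_lit 0),Row.mk (nat_lit 12600) (nat_lit 53669) (nat_lit 173978) (nat_lit 53856) (nat_lit 17566) (nat_lit 0) (nat_lit 0),Row.mk (nat_lit 12768) (nat_lit 53669) (nat_lit 173978) (nat_lit 53856) (nat_lit 17566) (nat_lit 0) (nat_lit 0),Row.mk (nat_lit 12936) (nat_lit 53669) (nat_lit 173978) (nat_lit 53856) (nat_lit 17566) (nat_lit 0) (nat_lit 0),Row.mk (nat_lit 13104) (nat_lit 53669) (nat_lit 173978) (nat_lit 53856) (nat_lit 17566) (nat_lit 0) (nat_lit 0),Row.mk (nat_lit 13272) (nat_lit 53669) (nat_lit 173978) (nat_lit 53856) (nat_lit 17566) (nat_lit 0) (nat_lit 0),Row.mk (nat_lit 13440) (nat_lit 53669) (nat_lit 173978) (nat_lit 53856) (nat_lit 17566) (nat_lit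 0) (nat_lit 0),Row.mk (nat_lit 13608) (nat_lit 53669) (nat_lit 173978) (nat_lit 53856) (nat_lit 17566) (nat_lit 0) (nat_lit 0),Row.mk (nat_lit 13776) (nat_lit 53669) (nat_lit 173978) (nat_lit 53856) (nat_lit 17566) (nat_lit 0) (nat_lit 0),Row.mk (nat_lit 13944) (nat_lit 53669) (nat_lit 173978) (nat_lit 53856) (nat_lit 17566) (nat_lit 0) (nat_lit 0),Row.mk (nat_lit 14112) (nat_lit 53669) (nat_lit 173978) (nat_lit 53856) (nat_lit 17566) (nat_lit 0) (nat_lit 0),Row.mk (nat_lit 14280) (nat_lit 53669) (nat_lit 173978) (nat_lit 53856) (nat_lit 17566) (nat_lit 0) (nat_lit 0),Row.mk (nat_lit 14448) (nat_lit 53669) (nat_lit 173978) (nat_lit 53856) (nat_lit 17566) (nat_lit 0) (nat_lit 0),Row.mk (nat_lit 14616) (nat_lit 53669) (nat_lit 173978) (nat_lit 53856) (nat_lit 17566) (nat_lit 0) (nat_lit 0),Row.mk (nat_lit 14784) (nat_lit 53669) (nat_lit 173978) (nat_lit 53856) (nat_lit 17566) (nat_lit 0) (nat_lit 0),Row.mk (nat_lit 14952) (nat_lit 53669)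 (nat_lit 173978) (nat_lit 53856) (nat_lit 17566) (nat_lit 0) (nat_lit 0),Row.mk (nat_lit 15120) (nat_lit 53669) (nat_lit 173978) (nat_lit 53856) (nat_lit 17566) (nat_lit 0) (nat_lit 0),Row.mk (nat_lit 15288) (nat_lit 53669) (nat_lit 173978) (nat_lit 53856) (nat_lit 17566) (nat_lit 0) (nat_lit 0),Row.mk (nat_lit 15456) (nat_lit 53669) (nat_lit 173978) (nat_lit 53856) (nat_lit 17566) (nat_lit 0) (nat_lit 0),Row.mk (nat_lit 15624) (nat_lit 53669) (nat_lit 173978) (nat_lit 53856) (nat_lit 17566) (nat_lit 0) (nat_lit 0),Row.mk (nat_lit 15792) (nat_lit 53669) (nat_lit 173978) (nat_lit 53856) (nat_lit 17566) (nat_lit 0) (nat_lit 0),Row.mk (nat_lit 15960) (nat_lit 53669) (nat_lit 173978) (nat_lit 53856) (nat_lit 17566) (nat_lit 0) (nat_lit 0),Row.mk (nat_lit 16128) (nat_lit 53669) (nat_lit 173978) (nat_lit 53856) (nat_lit 17566) (nat_lit 0) (nat_lit 0),Row.mk (nat_lit 16296) (nat_lit 53669) (nat_lit 173978) (nat_lit 53856) (nat_lit 17566)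 (nat_lit 0) (nat_lit 0),Row.mk (nat_lit 16464) (nat_lit 53669) (nat_lit 173978) (nat_lit 53856) (nat_lit 17566) (nat_lit 0) (nat_lit 0),Row.mk (nat_lit 16632) (nat_lit 53669) (nat_lit 173978) (nat_lit 53856) (nat_lit 17566) (nat_lit 0) (nat_lit 0),Row.mk (nat_lit 16800) (nat_lit 53669) (nat_lit 173978) (nat_lit 53856) (nat_lit 17566) (nat_lit 0) (nat_lit 0),Row.mk (nat_lit 16968) (nat_lit 53669) (nat_lit 173978) (nat_lit 53856) (nat_lit 17566) (nat_lit 0) (nat_lit 0),Row.mk (nat_lit 17136) (nat_lit 53669) (nat_lit 173978) (nat_lit 53856) (nat_lit 17566) (nat_lit 0) (nat_lit 0),Row.mk (nat_lit 17304) (nat_lit 53669) (nat_lit 173978) (nat_lit 53856) (nat_lit 17566) (nat_lit 0) (nat_lit 0),Row.mk (nat_lit 17472) (nat_lit 53669) (nat_lit 173978) (nat_lit 53856) (nat_lit 17566) (nat_lit 0) (nat_lit 0),Row.mk (nat_lit 17640) (nat_lit 53669) (nat_lit 173978) (nat_lit 53856) (nat_lit 17566) (nat_lit 0) (nat_lit 0),Row.mk (nat_lit 17808) (nat_lit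 53669) (nat_lit 173978) (nat_lit 53856) (nat_lit 17566) (nat_lit 0) (nat_lit 0),Row.mk (nat_lit 17976) (nat_lit 53669) (nat_lit 173978) (nat_lit 53856) (nat_lit 17566) (nat_lit 0) (nat_lit 0),Row.mk (nat_lit 18144) (nat_lit 53669) (nat_lit 173978) (nat_lit 53856) (nat_lit 17566) (nat_lit 0) (nat_lit 0),Row.mk (nat_lit 18312) (nat_lit 53669) (nat_lit 173978) (nat_lit 53856) (nat_lit 17566) (nat_lit 0) (nat_lit 0),Row.mk (nat_lit 18480) (nat_lit 53669) (nat_lit 173978) (nat_lit 53856) (nat_lit 17566) (nat_lit 0) (nat_lit 0),Row.mk (nat_lit 18648) (nat_lit 53669) (nat_lit 173978) (nat_lit 53856) (nat_lit 17566) (nat_lit 0) (nat_lit 0),Row.mk (nat_lit 18816) (nat_lit 53669) (nat_lit 173978) (nat_lit 53856) (nat_lit 17566) (nat_lit 0) (nat_lit 0),Row.mk (nat_lit 18984) (nat_lit 53669) (nat_lit 173978) (nat_lit 53856) (nat_lit 17566) (nat_lit 0) (nat_lit 0),Row.mk (nat_lit 19152) (nat_lit 53669) (nat_lit 173978) (nat_lit 53856) (nat_lit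 17566) (nat_lit 0) (nat_lit 0),Row.mk (nat_lit 19320) (nat_lit 53669) (nat_lit 173978) (nat_lit 53856) (nat_lit 17566) (nat_lit 0) (nat_lit 0),Row.mk (nat_lit 19488) (nat_lit 53669) (nat_lit 173978) (nat_lit 53856) (nat_lit 17566) (nat_lit 0) (nat_lit 0),Row.mk (nat_lit 19656) (nat_lit 53669) (nat_lit 173978) (nat_lit 53856) (nat_lit 17566) (nat_lit 0) (nat_lit 0),Row.mk (nat_lit 19824) (nat_lit 53669) (nat_lit 173978) (nat_lit 53856) (nat_lit 17566) (nat_lit 0) (nat_lit 0),Row.mk (nat_lit 19992) (nat_lit 53669) (nat_lit 173978) (nat_lit 53856) (nat_lit 17566) (nat_lit 0) (nat_lit 0),Row.mk (nat_lit 20160) (nat_lit 53669) (nat_lit 173978) (nat_lit 53856) (nat_lit 17566) (nat_lit 0) (nat_lit 0),Row.mk (nat_lit 20328) (nat_lit 53669) (nat_lit 173978) (nat_lit 53856) (nat_lit 17566) (nat_lit 0) (nat_lit 0),Row.mk (nat_lit 20496) (nat_lit 53669) (nat_lit 173978) (nat_lit 53856) (nat_lit 17566) (nat_lit 0) (nat_lit 0),Row.mk (nat_lit 20664)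 (nat_lit 53669) (nat_lit 173978) (nat_lit 53856) (nat_lit 17566) (nat_lit 0) (nat_lit 0),Row.mk (nat_lit 20832) (nat_lit 53669) (nat_lit 173978) (nat_lit 53856) (nat_lit 17566) (nat_lit 0) (nat_lit 0),Row.mk (nat_lit 21000) (nat_lit 53669) (nat_lit 173978) (nat_lit 53856) (nat_lit 17566) (nat_lit 0) (nat_lit 0),Row.mk (nat_lit 21168) (nat_lit 53669) (nat_lit 173978) (nat_lit 53856) (nat_lit 17566) (nat_lit 0) (nat_lit 0),Row.mk (nat_lit 21336) (nat_lit 53669) (nat_lit 173978) (nat_lit 53856) (nat_lit 17566) (nat_lit 0) (nat_lit 0),Row.mk (nat_lit 21504) (nat_lit 53669) (nat_lit 173978) (nat_lit 53856) (nat_lit 17566) (nat_lit 0) (nat_lit 0),Row.mk (nat_lit 21672) (nat_lit 53669) (nat_lit 173978) (nat_lit 53856) (nat_lit 17566) (nat_lit 0) (nat_lit 0),Row.mk (nat_lit 21840) (nat_lit 53669) (nat_lit 173978) (nat_lit 53856) (nat_lit 17566) (nat_lit 0) (nat_lit 0),Row.mk (nat_lit 22008) (nat_lit 53669) (nat_lit 173978) (nat_lit 53856)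 (nat_lit 17566) (nat_lit 0) (nat_lit 0),Row.mk (nat_lit 22176) (nat_lit 53669) (nat_lit 173978) (nat_lit 53856) (nat_lit 17566) (nat_lit 0) (nat_lit 0),Row.mk (nat_lit 22344) (nat_lit 53669) (nat_lit 173978) (nat_lit 53856) (nat_lit 17566) (nat_lit 0) (nat_lit 0),Row.mk (nat_lit 22512) (nat_lit 53669) (nat_lit 173978) (nat_lit 53856) (nat_lit 17566) (nat_lit 0) (nat_lit 0),Row.mk (nat_lit 22680) (nat_lit 53669) (nat_lit 173978) (nat_lit 53856) (nat_lit 17566) (nat_lit 0) (nat_lit 0),Row.mk (nat_lit 22848) (nat_lit 53669) (nat_lit 173978) (nat_lit 53856) (nat_lit 17566) (nat_lit 0) (nat_lit 0),Row.mk (nat_lit 23016) (nat_lit 53669) (nat_lit 173978) (nat_lit 53856) (nat_lit 17566) (nat_lit 0) (nat_lit 0),Row.mk (nat_lit 23184) (nat_lit 53669) (nat_lit 173978) (nat_lit 53856) (nat_lit 17566) (nat_lit 0) (nat_lit 0),Row.mk (nat_lit 23352) (nat_lit 53669) (nat_lit 173978) (nat_lit 53856) (nat_lit 17566) (nat_lit 0) (nat_lit 0),Row.mk (nat_lit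 23520) (nat_lit 53669) (nat_lit 173978) (nat_lit 53856) (nat_lit 17566) (nat_lit 0) (nat_lit 0),Row.mk (nat_lit 23688) (nat_lit 53669) (nat_lit 173978) (nat_lit 53856) (nat_lit 17566) (nat_lit 0) (nat_lit 0),Row.mk (nat_lit 23856) (nat_lit 53669) (nat_lit 173978) (nat_lit 53856) (nat_lit 17566) (nat_lit 0) (nat_lit 0),Row.mk (nat_lit 24024) (nat_lit 53669) (nat_lit 173978) (nat_lit 53856) (nat_lit 17566) (nat_lit 0) (nat_lit 0),Row.mk (nat_lit 24192) (nat_lit 53669) (nat_lit 173978) (nat_lit 53856) (nat_lit 17566) (nat_lit 0) (nat_lit 0),Row.mk (nat_lit 24360) (nat_lit 53669) (nat_lit 173978) (nat_lit 53856) (nat_lit 17566) (nat_lit 0) (nat_lit 0),Row.mk (nat_lit 24528) (nat_lit 53669) (nat_lit 173978) (nat_lit 53856) (nat_lit 17566) (nat_lit 0) (nat_lit 0),Row.mk (nat_lit 24696) (nat_lit 53669) (nat_lit 173978) (nat_lit 53856) (nat_lit 17566) (nat_lit 0) (nat_lit 0),Row.mk (nat_lit 24864) (nat_lit 53669) (nat_lit 173978) (nat_lit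 53856) (nat_lit 17566) (nat_lit 0) (nat_lit 0),Row.mk (nat_lit 25032) (nat_lit 53669) (nat_lit 173978) (nat_lit 53856) (nat_lit 17566) (nat_lit 0) (nat_lit 0),Row.mk (nat_lit 25200) (nat_lit 53669) (nat_lit 173978) (nat_lit 53856) (nat_lit 17566) (nat_lit 0) (nat_lit 0),Row.mk (nat_lit 25368) (nat_lit 53669) (nat_lit 173978) (nat_lit 53856) (nat_lit 17566) (nat_lit 0) (nat_lit 0)],
[Row.mk (nat_lit 10752) (nat_lit 53108) (nat_lit 211831) (nat_lit 53295) (nat_lit 27403) (nat_lit 0) (nat_lit 0),Row.mk (nat_lit 10920) (nat_lit 53108) (nat_lit 211831) (nat_lit 53295) (nat_lit 27403) (nat_lit 0) (nat_lit 0),Row.mk (nat_lit 11088) (nat_lit 53108) (nat_lit 211831) (nat_lit 53295) (nat_lit 27403) (nat_lit 0) (nat_lit 0),Row.mk (nat_lit 11256) (nat_lit 53108) (nat_lit 211831) (nat_lit 53295) (nat_lit 27403) (nat_lit 0) (nat_lit 0),Row.mk (nat_lit 11424) (nat_lit 53108) (nat_lit 211831) (nat_lit 53295) (nat_lit 27403) (nat_lit 0) (nat_lit 0),Row.mk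 (nat_lit 11592) (nat_lit 53108) (nat_lit 211831) (nat_lit 53295) (nat_lit 27403) (nat_lit 0) (nat_lit 0),Row.mk (nat_lit 11760) (nat_lit 53108) (nat_lit 211831) (nat_lit 53295) (nat_lit 27403) (nat_lit 0) (nat_lit 0),Row.mk (nat_lit 11928) (nat_lit 53108) (nat_lit 211831) (nat_lit 53295) (nat_lit 27403) (nat_lit 0) (nat_lit 0),Row.mk (nat_lit 12096) (nat_lit 53108) (nat_lit 211831) (nat_lit 53295) (nat_lit 27403) (nat_lit 0) (nat_lit 0),Row.mk (nat_lit 12264) (nat_lit 53108) (nat_lit 211831) (nat_lit 53295) (nat_lit 27403) (nat_lit 0) (nat_lit 0),Row.mk (nat_lit 12432) (nat_lit 53108) (nat_lit 211831) (nat_lit 53295) (nat_lit 27403) (nat_lit 0) (nat_lit 0),Row.mk (nat_lit 12600) (nat_lit 53108) (nat_lit 211831) (nat_lit 53295) (nat_lit 27403) (nat_lit 0) (nat_lit 0),Row.mk (nat_lit 12768) (nat_lit 53108) (nat_lit 211831) (nat_lit 53295) (nat_lit 27403) (nat_lit 0) (nat_lit 0),Row.mk (nat_lit 12936) (nat_lit 53108) (nat_lit 211831)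 (nat_lit 53295) (nat_lit 27403) (nat_lit 0) (nat_lit 0),Row.mk (nat_lit 13104) (nat_lit 53108) (nat_lit 211831) (nat_lit 53295) (nat_lit 27403) (nat_lit 0) (nat_lit 0),Row.mk (nat_lit 13272) (nat_lit 53108) (nat_lit 211831) (nat_lit 53295) (nat_lit 27403) (nat_lit 0) (nat_lit 0),Row.mk (nat_lit 13440) (nat_lit 53108) (nat_lit 211831) (nat_lit 53295) (nat_lit 27403) (nat_lit 0) (nat_lit 0),Row.mk (nat_lit 13608) (nat_lit 53108) (nat_lit 211831) (nat_lit 53295) (nat_lit 27403) (nat_lit 0) (nat_lit 0),Row.mk (nat_lit 13776) (nat_lit 53108) (nat_lit 211831) (nat_lit 53295) (nat_lit 27403) (nat_lit 0) (nat_lit 0),Row.mk (nat_lit 13944) (nat_lit 53108) (nat_lit 211831) (nat_lit 53295) (nat_lit 27403) (nat_lit 0) (nat_lit 0),Row.mk (nat_lit 14112) (nat_lit 53108) (nat_lit 211831) (nat_lit 53295) (nat_lit 27403) (nat_lit 0) (nat_lit 0),Row.mk (nat_lit 14280) (nat_lit 53108) (nat_lit 211831) (nat_lit 53295) (nat_lit 27403) (nat_lit 0) (nat_lit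 0),Row.mk (nat_lit 14448) (nat_lit 53108) (nat_lit 211831) (nat_lit 53295) (nat_lit 27403) (nat_lit 0) (nat_lit 0),Row.mk (nat_lit 14616) (nat_lit 53108) (nat_lit 211831) (nat_lit 53295) (nat_lit 27403) (nat_lit 0) (nat_lit 0),Row.mk (nat_lit 14784) (nat_lit 53108) (nat_lit 211831) (nat_lit 53295) (nat_lit 27403) (nat_lit 0) (nat_lit 0),Row.mk (nat_lit 14952) (nat_lit 53108) (nat_lit 211831) (nat_lit 53295) (nat_lit 27403) (nat_lit 0) (nat_lit 0),Row.mk (nat_lit 15120) (nat_lit 53108) (nat_lit 211831) (nat_lit 53295) (nat_lit 27403) (nat_lit 0) (nat_lit 0),Row.mk (nat_lit 15288) (nat_lit 53108) (nat_lit 211831) (nat_lit 53295) (nat_lit 27403) (nat_lit 0) (nat_lit 0),Row.mk (nat_lit 15456) (nat_lit 53108) (nat_lit 211831) (nat_lit 53295) (nat_lit 27403) (nat_lit 0) (nat_lit 0),Row.mk (nat_lit 15624) (nat_lit 53108) (nat_lit 211831) (nat_lit 53295) (nat_lit 27403) (nat_lit 0) (nat_lit 0),Row.mk (nat_lit 15792) (nat_lit 53108) (nat_lit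 211831) (nat_lit 53295) (nat_lit 27403) (nat_lit 0) (nat_lit 0),Row.mk (nat_lit 15960) (nat_lit 53108) (nat_lit 211831) (nat_lit 53295) (nat_lit 27403) (nat_lit 0) (nat_lit 0),Row.mk (nat_lit 16128) (nat_lit 53108) (nat_lit 211831) (nat_lit 53295) (nat_lit 27403) (nat_lit 0) (nat_lit 0),Row.mk (nat_lit 16296) (nat_lit 53108) (nat_lit 211831) (nat_lit 53295) (nat_lit 27403) (nat_lit 0) (nat_lit 0),Row.mk (nat_lit 16464) (nat_lit 53108) (nat_lit 211831) (nat_lit 53295) (nat_lit 27403) (nat_lit 0) (nat_lit 0),Row.mk (nat_lit 16632) (nat_lit 53108) (nat_lit 211831) (nat_lit 53295) (nat_lit 27403) (nat_lit 0) (nat_lit 0),Row.mk (nat_lit 16800) (nat_lit 53108) (nat_lit 211831) (nat_lit 53295) (nat_lit 27403) (nat_lit 0) (nat_lit 0),Row.mk (nat_lit 16968) (nat_lit 53108) (nat_lit 211831) (nat_lit 53295) (nat_lit 27403) (nat_lit 0) (nat_lit 0),Row.mk (nat_lit 17136) (nat_lit 53108) (nat_lit 211831) (nat_lit 53295) (nat_lit 27403) (nat_lit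 0) (nat_lit 0),Row.mk (nat_lit 17304) (nat_lit 53108) (nat_lit 211831) (nat_lit 53295) (nat_lit 27403) (nat_lit 0) (nat_lit 0),Row.mk (nat_lit 17472) (nat_lit 53108) (nat_lit 211831) (nat_lit 53295) (nat_lit 27403) (nat_lit 0) (nat_lit 0),Row.mk (nat_lit 17640) (nat_lit 53108) (nat_lit 211831) (nat_lit 53295) (nat_lit 27403) (nat_lit 0) (nat_lit 0),Row.mk (nat_lit 17808) (nat_lit 53108) (nat_lit 211831) (nat_lit 53295) (nat_lit 27403) (nat_lit 0) (nat_lit 0),Row.mk (nat_lit 17976) (nat_lit 53108) (nat_lit 211831) (nat_lit 53295) (nat_lit 27403) (nat_lit 0) (nat_lit 0),Row.mk (nat_lit 18144) (nat_lit 53108) (nat_lit 211831) (nat_lit 53295) (nat_lit 27403) (nat_lit 0) (nat_lit 0),Row.mk (nat_lit 18312) (nat_lit 53108) (nat_lit 211831) (nat_lit 53295) (nat_lit 27403) (nat_lit 0) (nat_lit 0),Row.mk (nat_lit 18480) (nat_lit 53108) (nat_lit 211831) (nat_lit 53295) (nat_lit 27403) (nat_lit 0) (nat_lit 0),Row.mk (nat_lit 18648) (nat_lit 53108)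 (nat_lit 211831) (nat_lit 53295) (nat_lit 27403) (nat_lit 0) (nat_lit 0),Row.mk (nat_lit 18816) (nat_lit 53108) (nat_lit 211831) (nat_lit 53295) (nat_lit 27403) (nat_lit 0) (nat_lit 0),Row.mk (nat_lit 18984) (nat_lit 53108) (nat_lit 211831) (nat_lit 53295) (nat_lit 27403) (nat_lit 0) (nat_lit 0),Row.mk (nat_lit 19152) (nat_lit 53108) (nat_lit 211831) (nat_lit 53295) (nat_lit 27403) (nat_lit 0) (nat_lit 0),Row.mk (nat_lit 19320) (nat_lit 53108) (nat_lit 211831) (nat_lit 53295) (nat_lit 27403) (nat_lit 0) (nat_lit 0),Row.mk (nat_lit 19488) (nat_lit 53108) (nat_lit 211831) (nat_lit 53295) (nat_lit 27403) (nat_lit 0) (nat_lit 0),Row.mk (nat_lit 19656) (nat_lit 53108) (nat_lit 211831) (nat_lit 53295) (nat_lit 27403) (nat_lit 0) (nat_lit 0),Row.mk (nat_lit 19824) (nat_lit 53108) (nat_lit 211831) (nat_lit 53295) (nat_lit 27403) (nat_lit 0) (nat_lit 0),Row.mk (nat_lit 19992) (nat_lit 53108) (nat_lit 211831) (nat_lit 53295) (nat_lit 27403)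 (nat_lit 0) (nat_lit 0),Row.mk (nat_lit 20160) (nat_lit 53108) (nat_lit 211831) (nat_lit 53295) (nat_lit 27403) (nat_lit 0) (nat_lit 0),Row.mk (nat_lit 20328) (nat_lit 53108) (nat_lit 211831) (nat_lit 53295) (nat_lit 27403) (nat_lit 0) (nat_lit 0),Row.mk (nat_lit 20496) (nat_lit 53108) (nat_lit 211831) (nat_lit 53295) (nat_lit 27403) (nat_lit 0) (nat_lit 0),Row.mk (nat_lit 20664) (nat_lit 53108) (nat_lit 211831) (nat_lit 53295) (nat_lit 27403) (nat_lit 0) (nat_lit 0),Row.mk (nat_lit 20832) (nat_lit 53108) (nat_lit 211831) (nat_lit 53295) (nat_lit 27403) (nat_lit 0) (nat_lit 0),Row.mk (nat_lit 21000) (nat_lit 53108) (nat_lit 211831) (nat_lit 53295) (nat_lit 27403) (nat_lit 0) (nat_lit 0),Row.mk (nat_lit 21168) (nat_lit 53108) (nat_lit 211831) (nat_lit 53295) (nat_lit 27403) (nat_lit 0) (nat_lit 0),Row.mk (nat_lit 21336) (nat_lit 53108) (nat_lit 211831) (nat_lit 53295) (nat_lit 27403) (nat_lit 0) (nat_lit 0),Row.mk (nat_lit 21504) (nat_lit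 53108) (nat_lit 211831) (nat_lit 53295) (nat_lit 27403) (nat_lit 0) (nat_lit 0),Row.mk (nat_lit 21672) (nat_lit 53108) (nat_lit 211831) (nat_lit 53295) (nat_lit 27403) (nat_lit 0) (nat_lit 0),Row.mk (nat_lit 21840) (nat_lit 53108) (nat_lit 211831) (nat_lit 53295) (nat_lit 27403) (nat_lit 0) (nat_lit 0),Row.mk (nat_lit 22008) (nat_lit 53108) (nat_lit 211831) (nat_lit 53295) (nat_lit 27403) (nat_lit 0) (nat_lit 0),Row.mk (nat_lit 22176) (nat_lit 53108) (nat_lit 211831) (nat_lit 53295) (nat_lit 27403) (nat_lit 0) (nat_lit 0),Row.mk (nat_lit 22344) (nat_lit 53108) (nat_lit 211831) (nat_lit 53295) (nat_lit 27403) (nat_lit 0) (nat_lit 0),Row.mk (nat_lit 22512) (nat_lit 53108) (nat_lit 211831) (nat_lit 53295) (nat_lit 27403) (nat_lit 0) (nat_lit 0),Row.mk (nat_lit 22680) (nat_lit 53108) (nat_lit 211831) (nat_lit 53295) (nat_lit 27403) (nat_lit 0) (nat_lit 0),Row.mk (nat_lit 22848) (nat_lit 53108) (nat_lit 211831) (nat_lit 53295) (nat_lit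 27403) (nat_lit 0) (nat_lit 0),Row.mk (nat_lit 23016) (nat_lit 53108) (nat_lit 211831) (nat_lit 53295) (nat_lit 27403) (nat_lit 0) (nat_lit 0),Row.mk (nat_lit 23184) (nat_lit 53108) (nat_lit 211831) (nat_lit 53295) (nat_lit 27403) (nat_lit 0) (nat_lit 0),Row.mk (nat_lit 23352) (nat_lit 53108) (nat_lit 211831) (nat_lit 53295) (nat_lit 27403) (nat_lit 0) (nat_lit 0),Row.mk (nat_lit 23520) (nat_lit 53108) (nat_lit 211831) (nat_lit 53295) (nat_lit 27403) (nat_lit 0) (nat_lit 0),Row.mk (nat_lit 23688) (nat_lit 53108) (nat_lit 211831) (nat_lit 53295) (nat_lit 27403) (nat_lit 0) (nat_lit 0),Row.mk (nat_lit 23856) (nat_lit 53108) (nat_lit 211831) (nat_lit 53295) (nat_lit 27403) (nat_lit 0) (nat_lit 0),Row.mk (nat_lit 24024) (nat_lit 53108) (nat_lit 211831) (nat_lit 53295) (nat_lit 27403) (nat_lit 0) (nat_lit 0),Row.mk (nat_lit 24192) (nat_lit 53108) (nat_lit 211831) (nat_lit 53295) (nat_lit 27403) (nat_lit 0) (nat_lit 0),Row.mk (nat_lit 24360)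 (nat_lit 53108) (nat_lit 211831) (nat_lit 53295) (nat_lit 27403) (nat_lit 0) (nat_lit 0),Row.mk (nat_lit 24528) (nat_lit 53108) (nat_lit 211831) (nat_lit 53295) (nat_lit 27403) (nat_lit 0) (nat_lit 0),Row.mk (nat_lit 24696) (nat_lit 53108) (nat_lit 211831) (nat_lit 53295) (nat_lit 27403) (nat_lit 0) (nat_lit 0),Row.mk (nat_lit 24864) (nat_lit 53108) (nat_lit 211831) (nat_lit 53295) (nat_lit 27403) (nat_lit 0) (nat_lit 0),Row.mk (nat_lit 25032) (nat_lit 53108) (nat_lit 211831) (nat_lit 53295) (nat_lit 27403) (nat_lit 0) (nat_lit 0),Row.mk (nat_lit 25200) (nat_lit 53108) (nat_lit 211831) (nat_lit 53295) (nat_lit 27403) (nat_lit 0) (nat_lit 0),Row.mk (nat_lit 25368) (nat_lit 53108) (nat_lit 211831) (nat_lit 53295) (nat_lit 27403) (nat_lit 0) (nat_lit 0)],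
[Row.mk (nat_lit 10752) (nat_lit 52547) (nat_lit 256051) (nat_lit 52734) (nat_lit 42747) (nat_lit 0) (nat_lit 0),Row.mk (nat_lit 10920) (nat_lit 52547) (nat_lit 256051) (nat_lit 52734) (nat_lit 42747) (nat_lit 0) (nat_lit 0),Row.mk (nat_lit 11088) (nat_lit 52547) (nat_lit 256051) (nat_lit 52734) (nat_lit 42747) (nat_lit 0) (nat_lit 0),Row.mk (nat_lit 11256) (nat_lit 52547) (nat_lit 256051) (nat_lit 52734) (nat_lit 42747) (nat_lit 0) (nat_lit 0),Row.mk (nat_lit 11424) (nat_lit 52547) (nat_lit 256051) (nat_lit 52734) (nat_lit 42747) (nat_lit 0) (nat_lit 0),Row.mk (nat_lit 11592) (nat_lit 52547) (nat_lit 256051) (nat_lit 52734) (nat_lit 42747) (nat_lit 0) (nat_lit 0),Row.mk (nat_lit 11760) (nat_lit 52547) (nat_lit 256051) (nat_lit 52734) (nat_lit 42747) (nat_lit 0) (nat_lit 0),Row.mk (nat_lit 11928) (nat_lit 52547) (nat_lit 256051) (nat_lit 52734) (nat_lit 42747) (nat_lit 0) (nat_lit 0),Row.mk (nat_lit 12096) (nat_lit 52547) (nat_lit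 256051) (nat_lit 52734) (nat_lit 42747) (nat_lit 0) (nat_lit 0),Row.mk (nat_lit 12264) (nat_lit 52547) (nat_lit 256051) (nat_lit 52734) (nat_lit 42747) (nat_lit 0) (nat_lit 0),Row.mk (nat_lit 12432) (nat_lit 52547) (nat_lit 256051) (nat_lit 52734) (nat_lit 42747) (nat_lit 0) (nat_lit 0),Row.mk (nat_lit 12600) (nat_lit 52547) (nat_lit 256051) (nat_lit 52734) (nat_lit 42747) (nat_lit 0) (nat_lit 0),Row.mk (nat_lit 12768) (nat_lit 52547) (nat_lit 256051) (nat_lit 52734) (nat_lit 42747) (nat_lit 0) (nat_lit 0),Row.mk (nat_lit 12936) (nat_lit 52547) (nat_lit 256051) (nat_lit 52734) (nat_lit 42747) (nat_lit 0) (nat_lit 0),Row.mk (nat_lit 13104) (nat_lit 52547) (nat_lit 256051) (nat_lit 52734) (nat_lit 42747) (nat_lit 0) (nat_lit 0),Row.mk (nat_lit 13272) (nat_lit 52547) (nat_lit 256051) (nat_lit 52734) (nat_lit 42747) (nat_lit 0) (nat_lit 0),Row.mk (nat_lit 13440) (nat_lit 52547) (nat_lit 256051) (nat_lit 52734) (nat_lit 42747) (nat_lit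 0) (nat_lit 0),Row.mk (nat_lit 13608) (nat_lit 52547) (nat_lit 256051) (nat_lit 52734) (nat_lit 42747) (nat_lit 0) (nat_lit 0),Row.mk (nat_lit 13776) (nat_lit 52547) (nat_lit 256051) (nat_lit 52734) (nat_lit 42747) (nat_lit 0) (nat_lit 0),Row.mk (nat_lit 13944) (nat_lit 52547) (nat_lit 256051) (nat_lit 52734) (nat_lit 42747) (nat_lit 0) (nat_lit 0),Row.mk (nat_lit 14112) (nat_lit 52547) (nat_lit 256051) (nat_lit 52734) (nat_lit 42747) (nat_lit 0) (nat_lit 0),Row.mk (nat_lit 14280) (nat_lit 52547) (nat_lit 256051) (nat_lit 52734) (nat_lit 42747) (nat_lit 0) (nat_lit 0),Row.mk (nat_lit 14448) (nat_lit 52547) (nat_lit 256051) (nat_lit 52734) (nat_lit 42747) (nat_lit 0) (nat_lit 0),Row.mk (nat_lit 14616) (nat_lit 52547) (nat_lit 256051) (nat_lit 52734) (nat_lit 42747) (nat_lit 0) (nat_lit 0),Row.mk (nat_lit 14784) (nat_lit 52547) (nat_lit 256051) (nat_lit 52734) (nat_lit 42747) (nat_lit 0) (nat_lit 0),Row.mk (nat_lit 14952) (nat_lit 52547)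 (nat_lit 256051) (nat_lit 52734) (nat_lit 42747) (nat_lit 0) (nat_lit 0),Row.mk (nat_lit 15120) (nat_lit 52547) (nat_lit 256051) (nat_lit 52734) (nat_lit 42747) (nat_lit 0) (nat_lit 0),Row.mk (nat_lit 15288) (nat_lit 52547) (nat_lit 256051) (nat_lit 52734) (nat_lit 42747) (nat_lit 0) (nat_lit 0),Row.mk (nat_lit 15456) (nat_lit 52547) (nat_lit 256051) (nat_lit 52734) (nat_lit 42747) (nat_lit 0) (nat_lit 0),Row.mk (nat_lit 15624) (nat_lit 52547) (nat_lit 256051) (nat_lit 52734) (nat_lit 42747) (nat_lit 0) (nat_lit 0),Row.mk (nat_lit 15792) (nat_lit 52547) (nat_lit 256051) (nat_lit 52734) (nat_lit 42747) (nat_lit 0) (nat_lit 0),Row.mk (nat_lit 15960) (nat_lit 52547) (nat_lit 256051) (nat_lit 52734) (nat_lit 42747) (nat_lit 0) (nat_lit 0),Row.mk (nat_lit 16128) (nat_lit 52547) (nat_lit 256051) (nat_lit 52734) (nat_lit 42747) (nat_lit 0) (nat_lit 0),Row.mk (nat_lit 16296) (nat_lit 52547) (nat_lit 256051) (nat_lit 52734) (nat_lit 42747)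 (nat_lit 0) (nat_lit 0),Row.mk (nat_lit 16464) (nat_lit 52547) (nat_lit 256051) (nat_lit 52734) (nat_lit 42747) (nat_lit 0) (nat_lit 0),Row.mk (nat_lit 16632) (nat_lit 52547) (nat_lit 256051) (nat_lit 52734) (nat_lit 42747) (nat_lit 0) (nat_lit 0),Row.mk (nat_lit 16800) (nat_lit 52547) (nat_lit 256051) (nat_lit 52734) (nat_lit 42747) (nat_lit 0) (nat_lit 0),Row.mk (nat_lit 16968) (nat_lit 52547) (nat_lit 256051) (nat_lit 52734) (nat_lit 42747) (nat_lit 0) (nat_lit 0),Row.mk (nat_lit 17136) (nat_lit 52547) (nat_lit 256051) (nat_lit 52734) (nat_lit 42747) (nat_lit 0) (nat_lit 0),Row.mk (nat_lit 17304) (nat_lit 52547) (nat_lit 256051) (nat_lit 52734) (nat_lit 42747) (nat_lit 0) (nat_lit 0),Row.mk (nat_lit 17472) (nat_lit 52547) (nat_lit 256051) (nat_lit 52734) (nat_lit 42747) (nat_lit 0) (nat_lit 0),Row.mk (nat_lit 17640) (nat_lit 52547) (nat_lit 256051) (nat_lit 52734) (nat_lit 42747) (nat_lit 0) (nat_lit 0),Row.mk (nat_lit 17808) (nat_lit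 52547) (nat_lit 256051) (nat_lit 52734) (nat_lit 42747) (nat_lit 0) (nat_lit 0),Row.mk (nat_lit 17976) (nat_lit 52547) (nat_lit 256051) (nat_lit 52734) (nat_lit 42747) (nat_lit 0) (nat_lit 0),Row.mk (nat_lit 18144) (nat_lit 52547) (nat_lit 256051) (nat_lit 52734) (nat_lit 42747) (nat_lit 0) (nat_lit 0),Row.mk (nat_lit 18312) (nat_lit 52547) (nat_lit 256051) (nat_lit 52734) (nat_lit 42747) (nat_lit 0) (nat_lit 0),Row.mk (nat_lit 18480) (nat_lit 52547) (nat_lit 256051) (nat_lit 52734) (nat_lit 42747) (nat_lit 0) (nat_lit 0),Row.mk (nat_lit 18648) (nat_lit 52547) (nat_lit 256051) (nat_lit 52734) (nat_lit 42747) (nat_lit 0) (nat_lit 0),Row.mk (nat_lit 18816) (nat_lit 52547) (nat_lit 256051) (nat_lit 52734) (nat_lit 42747) (nat_lit 0) (nat_lit 0),Row.mk (nat_lit 18984) (nat_lit 52547) (nat_lit 256051) (nat_lit 52734) (nat_lit 42747) (nat_lit 0) (nat_lit 0),Row.mk (nat_lit 19152) (nat_lit 52547) (nat_lit 256051) (nat_lit 52734) (nat_lit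 42747) (nat_lit 0) (nat_lit 0),Row.mk (nat_lit 19320) (nat_lit 52547) (nat_lit 256051) (nat_lit 52734) (nat_lit 42747) (nat_lit 0) (nat_lit 0),Row.mk (nat_lit 19488) (nat_lit 52547) (nat_lit 256051) (nat_lit 52734) (nat_lit 42747) (nat_lit 0) (nat_lit 0),Row.mk (nat_lit 19656) (nat_lit 52547) (nat_lit 256051) (nat_lit 52734) (nat_lit 42747) (nat_lit 0) (nat_lit 0),Row.mk (nat_lit 19824) (nat_lit 52547) (nat_lit 256051) (nat_lit 52734) (nat_lit 42747) (nat_lit 0) (nat_lit 0),Row.mk (nat_lit 19992) (nat_lit 52547) (nat_lit 256051) (nat_lit 52734) (nat_lit 42747) (nat_lit 0) (nat_lit 0),Row.mk (nat_lit 20160) (nat_lit 52547) (nat_lit 256051) (nat_lit 52734) (nat_lit 42747) (nat_lit 0) (nat_lit 0),Row.mk (nat_lit 20328) (nat_lit 52547) (nat_lit 256051) (nat_lit 52734) (nat_lit 42747) (nat_lit 0) (nat_lit 0),Row.mk (nat_lit 20496) (nat_lit 52547) (nat_lit 256051) (nat_lit 52734) (nat_lit 42747) (nat_lit 0) (nat_lit 0),Row.mk (nat_lit 20664)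 (nat_lit 52547) (nat_lit 256051) (nat_lit 52734) (nat_lit 42747) (nat_lit 0) (nat_lit 0),Row.mk (nat_lit 20832) (nat_lit 52547) (nat_lit 256051) (nat_lit 52734) (nat_lit 42747) (nat_lit 0) (nat_lit 0),Row.mk (nat_lit 21000) (nat_lit 52547) (nat_lit 256051) (nat_lit 52734) (nat_lit 42747) (nat_lit 0) (nat_lit 0),Row.mk (nat_lit 21168) (nat_lit 52547) (nat_lit 256051) (nat_lit 52734) (nat_lit 42747) (nat_lit 0) (nat_lit 0),Row.mk (nat_lit 21336) (nat_lit 52547) (nat_lit 256051) (nat_lit 52734) (nat_lit 42747) (nat_lit 0) (nat_lit 0),Row.mk (nat_lit 21504) (nat_lit 52547) (nat_lit 256051) (nat_lit 52734) (nat_lit 42747) (nat_lit 0) (nat_lit 0),Row.mk (nat_lit 21672) (nat_lit 52547) (nat_lit 256051) (nat_lit 52734) (nat_lit 42747) (nat_lit 0) (nat_lit 0),Row.mk (nat_lit 21840) (nat_lit 52547) (nat_lit 256051) (nat_lit 52734) (nat_lit 42747) (nat_lit 0) (nat_lit 0),Row.mk (nat_lit 22008) (nat_lit 52547) (nat_lit 256051) (nat_lit 52734)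 (nat_lit 42747) (nat_lit 0) (nat_lit 0),Row.mk (nat_lit 22176) (nat_lit 52547) (nat_lit 256051) (nat_lit 52734) (nat_lit 42747) (nat_lit 0) (nat_lit 0),Row.mk (nat_lit 22344) (nat_lit 52547) (nat_lit 256051) (nat_lit 52734) (nat_lit 42747) (nat_lit 0) (nat_lit 0),Row.mk (nat_lit 22512) (nat_lit 52547) (nat_lit 256051) (nat_lit 52734) (nat_lit 42747) (nat_lit 0) (nat_lit 0),Row.mk (nat_lit 22680) (nat_lit 52547) (nat_lit 256051) (nat_lit 52734) (nat_lit 42747) (nat_lit 0) (nat_lit 0),Row.mk (nat_lit 22848) (nat_lit 52547) (nat_lit 256051) (nat_lit 52734) (nat_lit 42747) (nat_lit 0) (nat_lit 0),Row.mk (nat_lit 23016) (nat_lit 52547) (nat_lit 256051) (nat_lit 52734) (nat_lit 42747) (nat_lit 0) (nat_lit 0),Row.mk (nat_lit 23184) (nat_lit 52547) (nat_lit 256051) (nat_lit 52734) (nat_lit 42747) (nat_lit 0) (nat_lit 0),Row.mk (nat_lit 23352) (nat_lit 52547) (nat_lit 256051) (nat_lit 52734) (nat_lit 42747) (nat_lit 0) (nat_lit 0),Row.mk (nat_lit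 23520) (nat_lit 52547) (nat_lit 256051) (nat_lit 52734) (nat_lit 42747) (nat_lit 0) (nat_lit 0),Row.mk (nat_lit 23688) (nat_lit 52547) (nat_lit 256051) (nat_lit 52734) (nat_lit 42747) (nat_lit 0) (nat_lit 0),Row.mk (nat_lit 23856) (nat_lit 52547) (nat_lit 256051) (nat_lit 52734) (nat_lit 42747) (nat_lit 0) (nat_lit 0),Row.mk (nat_lit 24024) (nat_lit 52547) (nat_lit 256051) (nat_lit 52734) (nat_lit 42747) (nat_lit 0) (nat_lit 0),Row.mk (nat_lit 24192) (nat_lit 52547) (nat_lit 256051) (nat_lit 52734) (nat_lit 42747) (nat_lit 0) (nat_lit 0),Row.mk (nat_lit 24360) (nat_lit 52547) (nat_lit 256051) (nat_lit 52734) (nat_lit 42747) (nat_lit 0) (nat_lit 0),Row.mk (nat_lit 24528) (nat_lit 52547) (nat_lit 256051) (nat_lit 52734) (nat_lit 42747) (nat_lit 0) (nat_lit 0),Row.mk (nat_lit 24696) (nat_lit 52547) (nat_lit 256051) (nat_lit 52734) (nat_lit 42747) (nat_lit 0) (nat_lit 0),Row.mk (nat_lit 24864) (nat_lit 52547) (nat_lit 256051) (nat_lit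 52734) (nat_lit 42747) (nat_lit 0) (nat_lit 0),Row.mk (nat_lit 25032) (nat_lit 52547) (nat_lit 256051) (nat_lit 52734) (nat_lit 42747) (nat_lit 0) (nat_lit 0),Row.mk (nat_lit 25200) (nat_lit 52547) (nat_lit 256051) (nat_lit 52734) (nat_lit 42747) (nat_lit 0) (nat_lit 0),Row.mk (nat_lit 25368) (nat_lit 52547) (nat_lit 256051) (nat_lit 52734) (nat_lit 42747) (nat_lit 0) (nat_lit 0)],
[Row.mk (nat_lit 10752) (nat_lit 51986) (nat_lit 306509) (nat_lit 52173) (nat_lit 66683) (nat_lit 0) (nat_lit 0),Row.mk (nat_lit 10920) (nat_lit 51986) (nat_lit 306509) (nat_lit 52173) (nat_lit 66683) (nat_lit 0) (nat_lit 0),Row.mk (nat_lit 11088) (nat_lit 51986) (nat_lit 306509) (nat_lit 52173) (nat_lit 66683) (nat_lit 0) (nat_lit 0),Row.mk (nat_lit 11256) (nat_lit 51986) (nat_lit 306509) (nat_lit 52173) (nat_lit 66683) (nat_lit 0) (nat_lit 0),Row.mk (nat_lit 11424) (nat_lit 51986) (nat_lit 306509) (nat_lit 52173) (nat_lit 66683) (nat_lit 0) (nat_lit 0),Row.mk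 (nat_lit 11592) (nat_lit 51986) (nat_lit 306509) (nat_lit 52173) (nat_lit 66683) (nat_lit 0) (nat_lit 0),Row.mk (nat_lit 11760) (nat_lit 51986) (nat_lit 306509) (nat_lit 52173) (nat_lit 66683) (nat_lit 0) (nat_lit 0),Row.mk (nat_lit 11928) (nat_lit 51986) (nat_lit 306509) (nat_lit 52173) (nat_lit 66683) (nat_lit 0) (nat_lit 0),Row.mk (nat_lit 12096) (nat_lit 51986) (nat_lit 306509) (nat_lit 52173) (nat_lit 66683) (nat_lit 0) (nat_lit 0),Row.mk (nat_lit 12264) (nat_lit 51986) (nat_lit 306509) (nat_lit 52173) (nat_lit 66683) (nat_lit 0) (nat_lit 0),Row.mk (nat_lit 12432) (nat_lit 51986) (nat_lit 306509) (nat_lit 52173) (nat_lit 66683) (nat_lit 0) (nat_lit 0),Row.mk (nat_lit 12600) (nat_lit 51986) (nat_lit 306509) (nat_lit 52173) (nat_lit 66683) (nat_lit 0) (nat_lit 0),Row.mk (nat_lit 12768) (nat_lit 51986) (nat_lit 306509) (nat_lit 52173) (nat_lit 66683) (nat_lit 0) (nat_lit 0),Row.mk (nat_lit 12936) (nat_lit 51986) (nat_lit 306509)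 (nat_lit 52173) (nat_lit 66683) (nat_lit 0) (nat_lit 0),Row.mk (nat_lit 13104) (nat_lit 51986) (nat_lit 306509) (nat_lit 52173) (nat_lit 66683) (nat_lit 0) (nat_lit 0),Row.mk (nat_lit 13272) (nat_lit 51986) (nat_lit 306509) (nat_lit 52173) (nat_lit 66683) (nat_lit 0) (nat_lit 0),Row.mk (nat_lit 13440) (nat_lit 51986) (nat_lit 306509) (nat_lit 52173) (nat_lit 66683) (nat_lit 0) (nat_lit 0),Row.mk (nat_lit 13608) (nat_lit 51986) (nat_lit 306509) (nat_lit 52173) (nat_lit 66683) (nat_lit 0) (nat_lit 0),Row.mk (nat_lit 13776) (nat_lit 51986) (nat_lit 306509) (nat_lit 52173) (nat_lit 66683) (nat_lit 0) (nat_lit 0),Row.mk (nat_lit 13944) (nat_lit 51986) (nat_lit 306509) (nat_lit 52173) (nat_lit 66683) (nat_lit 0) (nat_lit 0),Row.mk (nat_lit 14112) (nat_lit 51986) (nat_lit 306509) (nat_lit 52173) (nat_lit 66683) (nat_lit 0) (nat_lit 0),Row.mk (nat_lit 14280) (nat_lit 51986) (nat_lit 306509) (nat_lit 52173) (nat_lit 66683) (nat_lit 0) (nat_lit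 0),Row.mk (nat_lit 14448) (nat_lit 51986) (nat_lit 306509) (nat_lit 52173) (nat_lit 66683) (nat_lit 0) (nat_lit 0),Row.mk (nat_lit 14616) (nat_lit 51986) (nat_lit 306509) (nat_lit 52173) (nat_lit 66683) (nat_lit 0) (nat_lit 0),Row.mk (nat_lit 14784) (nat_lit 51986) (nat_lit 306509) (nat_lit 52173) (nat_lit 66683) (nat_lit 0) (nat_lit 0),Row.mk (nat_lit 14952) (nat_lit 51986) (nat_lit 306509) (nat_lit 52173) (nat_lit 66683) (nat_lit 0) (nat_lit 0),Row.mk (nat_lit 15120) (nat_lit 51986) (nat_lit 306509) (nat_lit 52173) (nat_lit 66683) (nat_lit 0) (nat_lit 0),Row.mk (nat_lit 15288) (nat_lit 51986) (nat_lit 306509) (nat_lit 52173) (nat_lit 66683) (nat_lit 0) (nat_lit 0),Row.mk (nat_lit 15456) (nat_lit 51986) (nat_lit 306509) (nat_lit 52173) (nat_lit 66683) (nat_lit 0) (nat_lit 0),Row.mk (nat_lit 15624) (nat_lit 51986) (nat_lit 306509) (nat_lit 52173) (nat_lit 66683) (nat_lit 0) (nat_lit 0),Row.mk (nat_lit 15792) (nat_lit 51986) (nat_lit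 306509) (nat_lit 52173) (nat_lit 66683) (nat_lit 0) (nat_lit 0),Row.mk (nat_lit 15960) (nat_lit 51986) (nat_lit 306509) (nat_lit 52173) (nat_lit 66683) (nat_lit 0) (nat_lit 0),Row.mk (nat_lit 16128) (nat_lit 51986) (nat_lit 306509) (nat_lit 52173) (nat_lit 66683) (nat_lit 0) (nat_lit 0),Row.mk (nat_lit 16296) (nat_lit 51986) (nat_lit 306509) (nat_lit 52173) (nat_lit 66683) (nat_lit 0) (nat_lit 0),Row.mk (nat_lit 16464) (nat_lit 51986) (nat_lit 306509) (nat_lit 52173) (nat_lit 66683) (nat_lit 0) (nat_lit 0),Row.mk (nat_lit 16632) (nat_lit 51986) (nat_lit 306509) (nat_lit 52173) (nat_lit 66683) (nat_lit 0) (nat_lit 0),Row.mk (nat_lit 16800) (nat_lit 51986) (nat_lit 306509) (nat_lit 52173) (nat_lit 66683) (nat_lit 0) (nat_lit 0),Row.mk (nat_lit 16968) (nat_lit 51986) (nat_lit 306509) (nat_lit 52173) (nat_lit 66683) (nat_lit 0) (nat_lit 0),Row.mk (nat_lit 17136) (nat_lit 51986) (nat_lit 306509) (nat_lit 52173) (nat_lit 66683) (nat_lit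 0) (nat_lit 0),Row.mk (nat_lit 17304) (nat_lit 51986) (nat_lit 306509) (nat_lit 52173) (nat_lit 66683) (nat_lit 0) (nat_lit 0),Row.mk (nat_lit 17472) (nat_lit 51986) (nat_lit 306509) (nat_lit 52173) (nat_lit 66683) (nat_lit 0) (nat_lit 0),Row.mk (nat_lit 17640) (nat_lit 51986) (nat_lit 306509) (nat_lit 52173) (nat_lit 66683) (nat_lit 0) (nat_lit 0),Row.mk (nat_lit 17808) (nat_lit 51986) (nat_lit 306509) (nat_lit 52173) (nat_lit 66683) (nat_lit 0) (nat_lit 0),Row.mk (nat_lit 17976) (nat_lit 51986) (nat_lit 306509) (nat_lit 52173) (nat_lit 66683) (nat_lit 0) (nat_lit 0),Row.mk (nat_lit 18144) (nat_lit 51986) (nat_lit 306509) (nat_lit 52173) (nat_lit 66683) (nat_lit 0) (nat_lit 0),Row.mk (nat_lit 18312) (nat_lit 51986) (nat_lit 306509) (nat_lit 52173) (nat_lit 66683) (nat_lit 0) (nat_lit 0),Row.mk (nat_lit 18480) (nat_lit 51986) (nat_lit 306509) (nat_lit 52173) (nat_lit 66683) (nat_lit 0) (nat_lit 0),Row.mk (nat_lit 18648) (nat_lit 51986)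 (nat_lit 306509) (nat_lit 52173) (nat_lit 66683) (nat_lit 0) (nat_lit 0),Row.mk (nat_lit 18816) (nat_lit 51986) (nat_lit 306509) (nat_lit 52173) (nat_lit 66683) (nat_lit 0) (nat_lit 0),Row.mk (nat_lit 18984) (nat_lit 51986) (nat_lit 306509) (nat_lit 52173) (nat_lit 66683) (nat_lit 0) (nat_lit 0),Row.mk (nat_lit 19152) (nat_lit 51986) (nat_lit 306509) (nat_lit 52173) (nat_lit 66683) (nat_lit 0) (nat_lit 0),Row.mk (nat_lit 19320) (nat_lit 51986) (nat_lit 306509) (nat_lit 52173) (nat_lit 66683) (nat_lit 0) (nat_lit 0),Row.mk (nat_lit 19488) (nat_lit 51986) (nat_lit 306509) (nat_lit 52173) (nat_lit 66683) (nat_lit 0) (nat_lit 0),Row.mk (nat_lit 19656) (nat_lit 51986) (nat_lit 306509) (nat_lit 52173) (nat_lit 66683) (nat_lit 0) (nat_lit 0),Row.mk (nat_lit 19824) (nat_lit 51986) (nat_lit 306509) (nat_lit 52173) (nat_lit 66683) (nat_lit 0) (nat_lit 0),Row.mk (nat_lit 19992) (nat_lit 51986) (nat_lit 306509) (nat_lit 52173) (nat_lit 66683)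 (nat_lit 0) (nat_lit 0),Row.mk (nat_lit 20160) (nat_lit 51986) (nat_lit 306509) (nat_lit 52173) (nat_lit 66683) (nat_lit 0) (nat_lit 0),Row.mk (nat_lit 20328) (nat_lit 51986) (nat_lit 306509) (nat_lit 52173) (nat_lit 66683) (nat_lit 0) (nat_lit 0),Row.mk (nat_lit 20496) (nat_lit 51986) (nat_lit 306509) (nat_lit 52173) (nat_lit 66683) (nat_lit 0) (nat_lit 0),Row.mk (nat_lit 20664) (nat_lit 51986) (nat_lit 306509) (nat_lit 52173) (nat_lit 66683) (nat_lit 0) (nat_lit 0),Row.mk (nat_lit 20832) (nat_lit 51986) (nat_lit 306509) (nat_lit 52173) (nat_lit 66683) (nat_lit 0) (nat_lit 0),Row.mk (nat_lit 21000) (nat_lit 51986) (nat_lit 306509) (nat_lit 52173) (nat_lit 66683) (nat_lit 0) (nat_lit 0),Row.mk (nat_lit 21168) (nat_lit 51986) (nat_lit 306509) (nat_lit 52173) (nat_lit 66683) (nat_lit 0) (nat_lit 0),Row.mk (nat_lit 21336) (nat_lit 51986) (nat_lit 306509) (nat_lit 52173) (nat_lit 66683) (nat_lit 0) (nat_lit 0),Row.mk (nat_lit 21504) (nat_lit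 51986) (nat_lit 306509) (nat_lit 52173) (nat_lit 66683) (nat_lit 0) (nat_lit 0),Row.mk (nat_lit 21672) (nat_lit 51986) (nat_lit 306509) (nat_lit 52173) (nat_lit 66683) (nat_lit 0) (nat_lit 0),Row.mk (nat_lit 21840) (nat_lit 51986) (nat_lit 306509) (nat_lit 52173) (nat_lit 66683) (nat_lit 0) (nat_lit 0),Row.mk (nat_lit 22008) (nat_lit 51986) (nat_lit 306509) (nat_lit 52173) (nat_lit 66683) (nat_lit 0) (nat_lit 0),Row.mk (nat_lit 22176) (nat_lit 51986) (nat_lit 306509) (nat_lit 52173) (nat_lit 66683) (nat_lit 0) (nat_lit 0),Row.mk (nat_lit 22344) (nat_lit 51986) (nat_lit 306509) (nat_lit 52173) (nat_lit 66683) (nat_lit 0) (nat_lit 0),Row.mk (nat_lit 22512) (nat_lit 51986) (nat_lit 306509) (nat_lit 52173) (nat_lit 66683) (nat_lit 0) (nat_lit 0),Row.mk (nat_lit 22680) (nat_lit 51986) (nat_lit 306509) (nat_lit 52173) (nat_lit 66683) (nat_lit 0) (nat_lit 0),Row.mk (nat_lit 22848) (nat_lit 51986) (nat_lit 306509) (nat_lit 52173) (nat_lit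 66683) (nat_lit 0) (nat_lit 0),Row.mk (nat_lit 23016) (nat_lit 51986) (nat_lit 306509) (nat_lit 52173) (nat_lit 66683) (nat_lit 0) (nat_lit 0),Row.mk (nat_lit 23184) (nat_lit 51986) (nat_lit 306509) (nat_lit 52173) (nat_lit 66683) (nat_lit 0) (nat_lit 0),Row.mk (nat_lit 23352) (nat_lit 51986) (nat_lit 306509) (nat_lit 52173) (nat_lit 66683) (nat_lit 0) (nat_lit 0),Row.mk (nat_lit 23520) (nat_lit 51986) (nat_lit 306509) (nat_lit 52173) (nat_lit 66683) (nat_lit 0) (nat_lit 0),Row.mk (nat_lit 23688) (nat_lit 51986) (nat_lit 306509) (nat_lit 52173) (nat_lit 66683) (nat_lit 0) (nat_lit 0),Row.mk (nat_lit 23856) (nat_lit 51986) (nat_lit 306509) (nat_lit 52173) (nat_lit 66683) (nat_lit 0) (nat_lit 0),Row.mk (nat_lit 24024) (nat_lit 51986) (nat_lit 306509) (nat_lit 52173) (nat_lit 66683) (nat_lit 0) (nat_lit 0),Row.mk (nat_lit 24192) (nat_lit 51986) (nat_lit 306509) (nat_lit 52173) (nat_lit 66683) (nat_lit 0) (nat_lit 0),Row.mk (nat_lit 24360)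 (nat_lit 51986) (nat_lit 306509) (nat_lit 52173) (nat_lit 66683) (nat_lit 0) (nat_lit 0),Row.mk (nat_lit 24528) (nat_lit 51986) (nat_lit 306509) (nat_lit 52173) (nat_lit 66683) (nat_lit 0) (nat_lit 0),Row.mk (nat_lit 24696) (nat_lit 51986) (nat_lit 306509) (nat_lit 52173) (nat_lit 66683) (nat_lit 0) (nat_lit 0),Row.mk (nat_lit 24864) (nat_lit 51986) (nat_lit 306509) (nat_lit 52173) (nat_lit 66683) (nat_lit 0) (nat_lit 0),Row.mk (nat_lit 25032) (nat_lit 51986) (nat_lit 306509) (nat_lit 52173) (nat_lit 66683) (nat_lit 0) (nat_lit 0),Row.mk (nat_lit 25200) (nat_lit 51986) (nat_lit 306509) (nat_lit 52173) (nat_lit 66683) (nat_lit 0) (nat_lit 0),Row.mk (nat_lit 25368) (nat_lit 51986) (nat_lit 306509) (nat_lit 52173) (nat_lit 66683) (nat_lit 0) (nat_lit 0)],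
[Row.mk (nat_lit 10752) (nat_lit 51425) (nat_lit 362086) (nat_lit 51612) (nat_lit 104022) (nat_lit 0) (nat_lit 0),Row.mk (nat_lit 10920) (nat_lit 51425) (nat_lit 362086) (nat_lit 51612) (nat_lit 104022) (nat_lit 0) (nat_lit 0),Row.mk (nat_lit 11088) (nat_lit 51425) (nat_lit 362086) (nat_lit 51612) (nat_lit 104022) (nat_lit 0) (nat_lit 0),Row.mk (nat_lit 11256) (nat_lit 51425) (nat_lit 362086) (nat_lit 51612) (nat_lit 104022) (nat_lit 0) (nat_lit 0),Row.mk (nat_lit 11424) (nat_lit 51425) (nat_lit 362086) (nat_lit 51612) (nat_lit 104022) (nat_lit 0) (nat_lit 0),Row.mk (nat_lit 11592) (nat_lit 51425) (nat_lit 362086) (nat_lit 51612) (nat_lit 104022) (nat_lit 0) (nat_lit 0),Row.mk (nat_lit 11760) (nat_lit 51425) (nat_lit 362086) (nat_lit 51612) (nat_lit 104022) (nat_lit 0) (nat_lit 0),Row.mk (nat_lit 11928) (nat_lit 51425) (nat_lit 362086) (nat_lit 51612) (nat_lit 104022) (nat_lit 0) (nat_lit 0),Row.mk (nat_lit 12096) (nat_lit 51425)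 (nat_lit 362086) (nat_lit 51612) (nat_lit 104022) (nat_lit 0) (nat_lit 0),Row.mk (nat_lit 12264) (nat_lit 51425) (nat_lit 362086) (nat_lit 51612) (nat_lit 104022) (nat_lit 0) (nat_lit 0),Row.mk (nat_lit 12432) (nat_lit 51425) (nat_lit 362086) (nat_lit 51612) (nat_lit 104022) (nat_lit 0) (nat_lit 0),Row.mk (nat_lit 12600) (nat_lit 51425) (nat_lit 362086) (nat_lit 51612) (nat_lit 104022) (nat_lit 0) (nat_lit 0),Row.mk (nat_lit 12768) (nat_lit 51425) (nat_lit 362086) (nat_lit 51612) (nat_lit 104022) (nat_lit 0) (nat_lit 0),Row.mk (nat_lit 12936) (nat_lit 51425) (nat_lit 362086) (nat_lit 51612) (nat_lit 104022) (nat_lit 0) (nat_lit 0),Row.mk (nat_lit 13104) (nat_lit 51425) (nat_lit 362086) (nat_lit 51612) (nat_lit 104022) (nat_lit 0) (nat_lit 0),Row.mk (nat_lit 13272) (nat_lit 51425) (nat_lit 362086) (nat_lit 51612) (nat_lit 104022) (nat_lit 0) (nat_lit 0),Row.mk (nat_lit 13440) (nat_lit 51425) (nat_lit 362086) (nat_lit 51612) (nat_lit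 104022) (nat_lit 0) (nat_lit 0),Row.mk (nat_lit 13608) (nat_lit 51425) (nat_lit 362086) (nat_lit 51612) (nat_lit 104022) (nat_lit 0) (nat_lit 0),Row.mk (nat_lit 13776) (nat_lit 51425) (nat_lit 362086) (nat_lit 51612) (nat_lit 104022) (nat_lit 0) (nat_lit 0),Row.mk (nat_lit 13944) (nat_lit 51425) (nat_lit 362086) (nat_lit 51612) (nat_lit 104022) (nat_lit 0) (nat_lit 0),Row.mk (nat_lit 14112) (nat_lit 51425) (nat_lit 362086) (nat_lit 51612) (nat_lit 104022) (nat_lit 0) (nat_lit 0),Row.mk (nat_lit 14280) (nat_lit 51425) (nat_lit 362086) (nat_lit 51612) (nat_lit 104022) (nat_lit 0) (nat_lit 0),Row.mk (nat_lit 14448) (nat_lit 51425) (nat_lit 362086) (nat_lit 51612) (nat_lit 104022) (nat_lit 0) (nat_lit 0),Row.mk (nat_lit 14616) (nat_lit 51425) (nat_lit 362086) (nat_lit 51612) (nat_lit 104022) (nat_lit 0) (nat_lit 0),Row.mk (nat_lit 14784) (nat_lit 51425) (nat_lit 362086) (nat_lit 51612) (nat_lit 104022) (nat_lit 0) (nat_lit 0),Row.mk (nat_lit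 14952) (nat_lit 51425) (nat_lit 362086) (nat_lit 51612) (nat_lit 104022) (nat_lit 0) (nat_lit 0),Row.mk (nat_lit 15120) (nat_lit 51425) (nat_lit 362086) (nat_lit 51612) (nat_lit 104022) (nat_lit 0) (nat_lit 0),Row.mk (nat_lit 15288) (nat_lit 51425) (nat_lit 362086) (nat_lit 51612) (nat_lit 104022) (nat_lit 0) (nat_lit 0),Row.mk (nat_lit 15456) (nat_lit 51425) (nat_lit 362086) (nat_lit 51612) (nat_lit 104022) (nat_lit 0) (nat_lit 0),Row.mk (nat_lit 15624) (nat_lit 51425) (nat_lit 362086) (nat_lit 51612) (nat_lit 104022) (nat_lit 0) (nat_lit 0),Row.mk (nat_lit 15792) (nat_lit 51425) (nat_lit 362086) (nat_lit 51612) (nat_lit 104022) (nat_lit 0) (nat_lit 0),Row.mk (nat_lit 15960) (nat_lit 51425) (nat_lit 362086) (nat_lit 51612) (nat_lit 104022) (nat_lit 0) (nat_lit 0),Row.mk (nat_lit 16128) (nat_lit 51425) (nat_lit 362086) (nat_lit 51612) (nat_lit 104022) (nat_lit 0) (nat_lit 0),Row.mk (nat_lit 16296) (nat_lit 51425) (nat_lit 362086)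 (nat_lit 51612) (nat_lit 104022) (nat_lit 0) (nat_lit 0),Row.mk (nat_lit 16464) (nat_lit 51425) (nat_lit 362086) (nat_lit 51612) (nat_lit 104022) (nat_lit 0) (nat_lit 0),Row.mk (nat_lit 16632) (nat_lit 51425) (nat_lit 362086) (nat_lit 51612) (nat_lit 104022) (nat_lit 0) (nat_lit 0),Row.mk (nat_lit 16800) (nat_lit 51425) (nat_lit 362086) (nat_lit 51612) (nat_lit 104022) (nat_lit 0) (nat_lit 0),Row.mk (nat_lit 16968) (nat_lit 51425) (nat_lit 362086) (nat_lit 51612) (nat_lit 104022) (nat_lit 0) (nat_lit 0),Row.mk (nat_lit 17136) (nat_lit 51425) (nat_lit 362086) (nat_lit 51612) (nat_lit 104022) (nat_lit 0) (nat_lit 0),Row.mk (nat_lit 17304) (nat_lit 51425) (nat_lit 362086) (nat_lit 51612) (nat_lit 104022) (nat_lit 0) (nat_lit 0),Row.mk (nat_lit 17472) (nat_lit 51425) (nat_lit 362086) (nat_lit 51612) (nat_lit 104022) (nat_lit 0) (nat_lit 0),Row.mk (nat_lit 17640) (nat_lit 51425) (nat_lit 362086) (nat_lit 51612) (nat_lit 104022) (nat_lit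 0) (nat_lit 0),Row.mk (nat_lit 17808) (nat_lit 51425) (nat_lit 362086) (nat_lit 51612) (nat_lit 104022) (nat_lit 0) (nat_lit 0),Row.mk (nat_lit 17976) (nat_lit 51425) (nat_lit 362086) (nat_lit 51612) (nat_lit 104022) (nat_lit 0) (nat_lit 0),Row.mk (nat_lit 18144) (nat_lit 51425) (nat_lit 362086) (nat_lit 51612) (nat_lit 104022) (nat_lit 0) (nat_lit 0),Row.mk (nat_lit 18312) (nat_lit 51425) (nat_lit 362086) (nat_lit 51612) (nat_lit 104022) (nat_lit 0) (nat_lit 0),Row.mk (nat_lit 18480) (nat_lit 51425) (nat_lit 362086) (nat_lit 51612) (nat_lit 104022) (nat_lit 0) (nat_lit 0),Row.mk (nat_lit 18648) (nat_lit 51425) (nat_lit 362086) (nat_lit 51612) (nat_lit 104022) (nat_lit 0) (nat_lit 0),Row.mk (nat_lit 18816) (nat_lit 51425) (nat_lit 362086) (nat_lit 51612) (nat_lit 104022) (nat_lit 0) (nat_lit 0),Row.mk (nat_lit 18984) (nat_lit 51425) (nat_lit 362086) (nat_lit 51612) (nat_lit 104022) (nat_lit 0) (nat_lit 0),Row.mk (nat_lit 19152) (nat_lit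 51425) (nat_lit 362086) (nat_lit 51612) (nat_lit 104022) (nat_lit 0) (nat_lit 0),Row.mk (nat_lit 19320) (nat_lit 51425) (nat_lit 362086) (nat_lit 51612) (nat_lit 104022) (nat_lit 0) (nat_lit 0),Row.mk (nat_lit 19488) (nat_lit 51425) (nat_lit 362086) (nat_lit 51612) (nat_lit 104022) (nat_lit 0) (nat_lit 0),Row.mk (nat_lit 19656) (nat_lit 51425) (nat_lit 362086) (nat_lit 51612) (nat_lit 104022) (nat_lit 0) (nat_lit 0),Row.mk (nat_lit 19824) (nat_lit 51425) (nat_lit 362086) (nat_lit 51612) (nat_lit 104022) (nat_lit 0) (nat_lit 0),Row.mk (nat_lit 19992) (nat_lit 51425) (nat_lit 362086) (nat_lit 51612) (nat_lit 104022) (nat_lit 0) (nat_lit 0),Row.mk (nat_lit 20160) (nat_lit 51425) (nat_lit 362086) (nat_lit 51612) (nat_lit 104022) (nat_lit 0) (nat_lit 0),Row.mk (nat_lit 20328) (nat_lit 51425) (nat_lit 362086) (nat_lit 51612) (nat_lit 104022) (nat_lit 0) (nat_lit 0),Row.mk (nat_lit 20496) (nat_lit 51425) (nat_lit 362086) (nat_lit 51612)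 (nat_lit 104022) (nat_lit 0) (nat_lit 0),Row.mk (nat_lit 20664) (nat_lit 51425) (nat_lit 362086) (nat_lit 51612) (nat_lit 104022) (nat_lit 0) (nat_lit 0),Row.mk (nat_lit 20832) (nat_lit 51425) (nat_lit 362086) (nat_lit 51612) (nat_lit 104022) (nat_lit 0) (nat_lit 0),Row.mk (nat_lit 21000) (nat_lit 51425) (nat_lit 362086) (nat_lit 51612) (nat_lit 104022) (nat_lit 0) (nat_lit 0),Row.mk (nat_lit 21168) (nat_lit 51425) (nat_lit 362086) (nat_lit 51612) (nat_lit 104022) (nat_lit 0) (nat_lit 0),Row.mk (nat_lit 21336) (nat_lit 51425) (nat_lit 362086) (nat_lit 51612) (nat_lit 104022) (nat_lit 0) (nat_lit 0),Row.mk (nat_lit 21504) (nat_lit 51425) (nat_lit 362086) (nat_lit 51612) (nat_lit 104022) (nat_lit 0) (nat_lit 0),Row.mk (nat_lit 21672) (nat_lit 51425) (nat_lit 362086) (nat_lit 51612) (nat_lit 104022) (nat_lit 0) (nat_lit 0),Row.mk (nat_lit 21840) (nat_lit 51425) (nat_lit 362086) (nat_lit 51612) (nat_lit 104022) (nat_lit 0) (nat_lit 0),Row.mk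 (nat_lit 22008) (nat_lit 51425) (nat_lit 362086) (nat_lit 51612) (nat_lit 104022) (nat_lit 0) (nat_lit 0),Row.mk (nat_lit 22176) (nat_lit 51425) (nat_lit 362086) (nat_lit 51612) (nat_lit 104022) (nat_lit 0) (nat_lit 0),Row.mk (nat_lit 22344) (nat_lit 51425) (nat_lit 362086) (nat_lit 51612) (nat_lit 104022) (nat_lit 0) (nat_lit 0),Row.mk (nat_lit 22512) (nat_lit 51425) (nat_lit 362086) (nat_lit 51612) (nat_lit 104022) (nat_lit 0) (nat_lit 0),Row.mk (nat_lit 22680) (nat_lit 51425) (nat_lit 362086) (nat_lit 51612) (nat_lit 104022) (nat_lit 0) (nat_lit 0),Row.mk (nat_lit 22848) (nat_lit 51425) (nat_lit 362086) (nat_lit 51612) (nat_lit 104022) (nat_lit 0) (nat_lit 0),Row.mk (nat_lit 23016) (nat_lit 51425) (nat_lit 362086) (nat_lit 51612) (nat_lit 104022) (nat_lit 0) (nat_lit 0),Row.mk (nat_lit 23184) (nat_lit 51425) (nat_lit 362086) (nat_lit 51612) (nat_lit 104022) (nat_lit 0) (nat_lit 0),Row.mk (nat_lit 23352) (nat_lit 51425) (nat_lit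 362086) (nat_lit 51612) (nat_lit 104022) (nat_lit 0) (nat_lit 0),Row.mk (nat_lit 23520) (nat_lit 51425) (nat_lit 362086) (nat_lit 51612) (nat_lit 104022) (nat_lit 0) (nat_lit 0),Row.mk (nat_lit 23688) (nat_lit 51425) (nat_lit 362086) (nat_lit 51612) (nat_lit 104022) (nat_lit 0) (nat_lit 0),Row.mk (nat_lit 23856) (nat_lit 51425) (nat_lit 362086) (nat_lit 51612) (nat_lit 104022) (nat_lit 0) (nat_lit 0),Row.mk (nat_lit 24024) (nat_lit 51425) (nat_lit 362086) (nat_lit 51612) (nat_lit 104022) (nat_lit 0) (nat_lit 0),Row.mk (nat_lit 24192) (nat_lit 51425) (nat_lit 362086) (nat_lit 51612) (nat_lit 104022) (nat_lit 0) (nat_lit 0),Row.mk (nat_lit 24360) (nat_lit 51425) (nat_lit 362086) (nat_lit 51612) (nat_lit 104022) (nat_lit 0) (nat_lit 0),Row.mk (nat_lit 24528) (nat_lit 51425) (nat_lit 362086) (nat_lit 51612) (nat_lit 104022) (nat_lit 0) (nat_lit 0),Row.mk (nat_lit 24696) (nat_lit 51425) (nat_lit 362086) (nat_lit 51612) (nat_lit 104022)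 (nat_lit 0) (nat_lit 0),Row.mk (nat_lit 24864) (nat_lit 51425) (nat_lit 362086) (nat_lit 51612) (nat_lit 104022) (nat_lit 0) (nat_lit 0),Row.mk (nat_lit 25032) (nat_lit 51425) (nat_lit 362086) (nat_lit 51612) (nat_lit 104022) (nat_lit 0) (nat_lit 0),Row.mk (nat_lit 25200) (nat_lit 51425) (nat_lit 362086) (nat_lit 51612) (nat_lit 104022) (nat_lit 0) (nat_lit 0),Row.mk (nat_lit 25368) (nat_lit 51425) (nat_lit 362086) (nat_lit 51612) (nat_lit 104022) (nat_lit 0) (nat_lit 0),Row.mk (nat_lit 25536) (nat_lit 51425) (nat_lit 362086) (nat_lit 51612) (nat_lit 104022) (nat_lit 0) (nat_lit 0)],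
[Row.mk (nat_lit 10584) (nat_lit 50864) (nat_lit 419889) (nat_lit 51051) (nat_lit 162268) (nat_lit 0) (nat_lit 0),Row.mk (nat_lit 10752) (nat_lit 50864) (nat_lit 419889) (nat_lit 51051) (nat_lit 162268) (nat_lit 0) (nat_lit 0),Row.mk (nat_lit 10920) (nat_lit 50864) (nat_lit 419889) (nat_lit 51051) (nat_lit 162268) (nat_lit 0) (nat_lit 0),Row.mk (nat_lit 11088) (nat_lit 50864) (nat_lit 419889) (nat_lit 51051) (nat_lit 162268) (nat_lit 0) (nat_lit 0),Row.mk (nat_lit 11256) (nat_lit 50864) (nat_lit 419889) (nat_lit 51051) (nat_lit 162268) (nat_lit 0) (nat_lit 0),Row.mk (nat_lit 11424) (nat_lit 50864) (nat_lit 419889) (nat_lit 51051) (nat_lit 162268) (nat_lit 0) (nat_lit 0),Row.mk (nat_lit 11592) (nat_lit 50864) (nat_lit 419889) (nat_lit 51051) (nat_lit 162268) (nat_lit 0) (nat_lit 0),Row.mk (nat_lit 11760) (nat_lit 50864) (nat_lit 419889) (nat_lit 51051) (nat_lit 162268) (nat_lit 0) (nat_lit 0),Row.mk (nat_lit 11928) (nat_lit 50864)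 (nat_lit 419889) (nat_lit 51051) (nat_lit 162268) (nat_lit 0) (nat_lit 0),Row.mk (nat_lit 12096) (nat_lit 50864) (nat_lit 419889) (nat_lit 51051) (nat_lit 162268) (nat_lit 0) (nat_lit 0),Row.mk (nat_lit 12264) (nat_lit 50864) (nat_lit 419889) (nat_lit 51051) (nat_lit 162268) (nat_lit 0) (nat_lit 0),Row.mk (nat_lit 12432) (nat_lit 50864) (nat_lit 419889) (nat_lit 51051) (nat_lit 162268) (nat_lit 0) (nat_lit 0),Row.mk (nat_lit 12600) (nat_lit 50864) (nat_lit 419889) (nat_lit 51051) (nat_lit 162268) (nat_lit 0) (nat_lit 0),Row.mk (nat_lit 12768) (nat_lit 50864) (nat_lit 419889) (nat_lit 51051) (nat_lit 162268) (nat_lit 0) (nat_lit 0),Row.mk (nat_lit 12936) (nat_lit 50864) (nat_lit 419889) (nat_lit 51051) (nat_lit 162268) (nat_lit 0) (nat_lit 0),Row.mk (nat_lit 13104) (nat_lit 50864) (nat_lit 419889) (nat_lit 51051) (nat_lit 162268) (nat_lit 0) (nat_lit 0),Row.mk (nat_lit 13272) (nat_lit 50864) (nat_lit 419889) (nat_lit 51051) (nat_lit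 162268) (nat_lit 0) (nat_lit 0),Row.mk (nat_lit 13440) (nat_lit 50864) (nat_lit 419889) (nat_lit 51051) (nat_lit 162268) (nat_lit 0) (nat_lit 0),Row.mk (nat_lit 13608) (nat_lit 50864) (nat_lit 419889) (nat_lit 51051) (nat_lit 162268) (nat_lit 0) (nat_lit 0),Row.mk (nat_lit 13776) (nat_lit 50864) (nat_lit 419889) (nat_lit 51051) (nat_lit 162268) (nat_lit 0) (nat_lit 0),Row.mk (nat_lit 13944) (nat_lit 50864) (nat_lit 419889) (nat_lit 51051) (nat_lit 162268) (nat_lit 0) (nat_lit 0),Row.mk (nat_lit 14112) (nat_lit 50864) (nat_lit 419889) (nat_lit 51051) (nat_lit 162268) (nat_lit 0) (nat_lit 0),Row.mk (nat_lit 14280) (nat_lit 50864) (nat_lit 419889) (nat_lit 51051) (nat_lit 162268) (nat_lit 0) (nat_lit 0),Row.mk (nat_lit 14448) (nat_lit 50864) (nat_lit 419889) (nat_lit 51051) (nat_lit 162268) (nat_lit 0) (nat_lit 0),Row.mk (nat_lit 14616) (nat_lit 50864) (nat_lit 419889) (nat_lit 51051) (nat_lit 162268) (nat_lit 0) (nat_lit 0),Row.mk (nat_lit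 14784) (nat_lit 50864) (nat_lit 419889) (nat_lit 51051) (nat_lit 162268) (nat_lit 0) (nat_lit 0),Row.mk (nat_lit 14952) (nat_lit 50864) (nat_lit 419889) (nat_lit 51051) (nat_lit 162268) (nat_lit 0) (nat_lit 0),Row.mk (nat_lit 15120) (nat_lit 50864) (nat_lit 419889) (nat_lit 51051) (nat_lit 162268) (nat_lit 0) (nat_lit 0),Row.mk (nat_lit 15288) (nat_lit 50864) (nat_lit 419889) (nat_lit 51051) (nat_lit 162268) (nat_lit 0) (nat_lit 0),Row.mk (nat_lit 15456) (nat_lit 50864) (nat_lit 419889) (nat_lit 51051) (nat_lit 162268) (nat_lit 0) (nat_lit 0),Row.mk (nat_lit 15624) (nat_lit 50864) (nat_lit 419889) (nat_lit 51051) (nat_lit 162268) (nat_lit 0) (nat_lit 0),Row.mk (nat_lit 15792) (nat_lit 50864) (nat_lit 419889) (nat_lit 51051) (nat_lit 162268) (nat_lit 0) (nat_lit 0),Row.mk (nat_lit 15960) (nat_lit 50864) (nat_lit 419889) (nat_lit 51051) (nat_lit 162268) (nat_lit 0) (nat_lit 0),Row.mk (nat_lit 16128) (nat_lit 50864) (nat_lit 419889)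 (nat_lit 51051) (nat_lit 162268) (nat_lit 0) (nat_lit 0),Row.mk (nat_lit 16296) (nat_lit 50864) (nat_lit 419889) (nat_lit 51051) (nat_lit 162268) (nat_lit 0) (nat_lit 0),Row.mk (nat_lit 16464) (nat_lit 50864) (nat_lit 419889) (nat_lit 51051) (nat_lit 162268) (nat_lit 0) (nat_lit 0),Row.mk (nat_lit 16632) (nat_lit 50864) (nat_lit 419889) (nat_lit 51051) (nat_lit 162268) (nat_lit 0) (nat_lit 0),Row.mk (nat_lit 16800) (nat_lit 50864) (nat_lit 419889) (nat_lit 51051) (nat_lit 162268) (nat_lit 0) (nat_lit 0),Row.mk (nat_lit 16968) (nat_lit 50864) (nat_lit 419889) (nat_lit 51051) (nat_lit 162268) (nat_lit 0) (nat_lit 0),Row.mk (nat_lit 17136) (nat_lit 50864) (nat_lit 419889) (nat_lit 51051) (nat_lit 162268) (nat_lit 0) (nat_lit 0),Row.mk (nat_lit 17304) (nat_lit 50864) (nat_lit 419889) (nat_lit 51051) (nat_lit 162268) (nat_lit 0) (nat_lit 0),Row.mk (nat_lit 17472) (nat_lit 50864) (nat_lit 419889) (nat_lit 51051) (nat_lit 162268) (nat_lit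 0) (nat_lit 0),Row.mk (nat_lit 17640) (nat_lit 50864) (nat_lit 419889) (nat_lit 51051) (nat_lit 162268) (nat_lit 0) (nat_lit 0),Row.mk (nat_lit 17808) (nat_lit 50864) (nat_lit 419889) (nat_lit 51051) (nat_lit 162268) (nat_lit 0) (nat_lit 0),Row.mk (nat_lit 17976) (nat_lit 50864) (nat_lit 419889) (nat_lit 51051) (nat_lit 162268) (nat_lit 0) (nat_lit 0),Row.mk (nat_lit 18144) (nat_lit 50864) (nat_lit 419889) (nat_lit 51051) (nat_lit 162268) (nat_lit 0) (nat_lit 0),Row.mk (nat_lit 18312) (nat_lit 50864) (nat_lit 419889) (nat_lit 51051) (nat_lit 162268) (nat_lit 0) (nat_lit 0),Row.mk (nat_lit 18480) (nat_lit 50864) (nat_lit 419889) (nat_lit 51051) (nat_lit 162268) (nat_lit 0) (nat_lit 0),Row.mk (nat_lit 18648) (nat_lit 50864) (nat_lit 419889) (nat_lit 51051) (nat_lit 162268) (nat_lit 0) (nat_lit 0),Row.mk (nat_lit 18816) (nat_lit 50864) (nat_lit 419889) (nat_lit 51051) (nat_lit 162268) (nat_lit 0) (nat_lit 0),Row.mk (nat_lit 18984) (nat_lit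 50864) (nat_lit 419889) (nat_lit 51051) (nat_lit 162268) (nat_lit 0) (nat_lit 0),Row.mk (nat_lit 19152) (nat_lit 50864) (nat_lit 419889) (nat_lit 51051) (nat_lit 162268) (nat_lit 0) (nat_lit 0),Row.mk (nat_lit 19320) (nat_lit 50864) (nat_lit 419889) (nat_lit 51051) (nat_lit 162268) (nat_lit 0) (nat_lit 0),Row.mk (nat_lit 19488) (nat_lit 50864) (nat_lit 419889) (nat_lit 51051) (nat_lit 162268) (nat_lit 0) (nat_lit 0),Row.mk (nat_lit 19656) (nat_lit 50864) (nat_lit 419889) (nat_lit 51051) (nat_lit 162268) (nat_lit 0) (nat_lit 0),Row.mk (nat_lit 19824) (nat_lit 50864) (nat_lit 419889) (nat_lit 51051) (nat_lit 162268) (nat_lit 0) (nat_lit 0),Row.mk (nat_lit 19992) (nat_lit 50864) (nat_lit 419889) (nat_lit 51051) (nat_lit 162268) (nat_lit 0) (nat_lit 0),Row.mk (nat_lit 20160) (nat_lit 50864) (nat_lit 419889) (nat_lit 51051) (nat_lit 162268) (nat_lit 0) (nat_lit 0),Row.mk (nat_lit 20328) (nat_lit 50864) (nat_lit 419889) (nat_lit 51051)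 (nat_lit 162268) (nat_lit 0) (nat_lit 0),Row.mk (nat_lit 20496) (nat_lit 50864) (nat_lit 419889) (nat_lit 51051) (nat_lit 162268) (nat_lit 0) (nat_lit 0),Row.mk (nat_lit 20664) (nat_lit 50864) (nat_lit 419889) (nat_lit 51051) (nat_lit 162268) (nat_lit 0) (nat_lit 0),Row.mk (nat_lit 20832) (nat_lit 50864) (nat_lit 419889) (nat_lit 51051) (nat_lit 162268) (nat_lit 0) (nat_lit 0),Row.mk (nat_lit 21000) (nat_lit 50864) (nat_lit 419889) (nat_lit 51051) (nat_lit 162268) (nat_lit 0) (nat_lit 0),Row.mk (nat_lit 21168) (nat_lit 50864) (nat_lit 419889) (nat_lit 51051) (nat_lit 162268) (nat_lit 0) (nat_lit 0),Row.mk (nat_lit 21336) (nat_lit 50864) (nat_lit 419889) (nat_lit 51051) (nat_lit 162268) (nat_lit 0) (nat_lit 0),Row.mk (nat_lit 21504) (nat_lit 50864) (nat_lit 419889) (nat_lit 51051) (nat_lit 162268) (nat_lit 0) (nat_lit 0),Row.mk (nat_lit 21672) (nat_lit 50864) (nat_lit 419889) (nat_lit 51051) (nat_lit 162268) (nat_lit 0) (nat_lit 0),Row.mk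 (nat_lit 21840) (nat_lit 50864) (nat_lit 419889) (nat_lit 51051) (nat_lit 162268) (nat_lit 0) (nat_lit 0),Row.mk (nat_lit 22008) (nat_lit 50864) (nat_lit 419889) (nat_lit 51051) (nat_lit 162268) (nat_lit 0) (nat_lit 0),Row.mk (nat_lit 22176) (nat_lit 50864) (nat_lit 419889) (nat_lit 51051) (nat_lit 162268) (nat_lit 0) (nat_lit 0),Row.mk (nat_lit 22344) (nat_lit 50864) (nat_lit 419889) (nat_lit 51051) (nat_lit 162268) (nat_lit 0) (nat_lit 0),Row.mk (nat_lit 22512) (nat_lit 50864) (nat_lit 419889) (nat_lit 51051) (nat_lit 162268) (nat_lit 0) (nat_lit 0),Row.mk (nat_lit 22680) (nat_lit 50864) (nat_lit 419889) (nat_lit 51051) (nat_lit 162268) (nat_lit 0) (nat_lit 0),Row.mk (nat_lit 22848) (nat_lit 50864) (nat_lit 419889) (nat_lit 51051) (nat_lit 162268) (nat_lit 0) (nat_lit 0),Row.mk (nat_lit 23016) (nat_lit 50864) (nat_lit 419889) (nat_lit 51051) (nat_lit 162268) (nat_lit 0) (nat_lit 0),Row.mk (nat_lit 23184) (nat_lit 50864) (nat_lit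 419889) (nat_lit 51051) (nat_lit 162268) (nat_lit 0) (nat_lit 0),Row.mk (nat_lit 23352) (nat_lit 50864) (nat_lit 419889) (nat_lit 51051) (nat_lit 162268) (nat_lit 0) (nat_lit 0),Row.mk (nat_lit 23520) (nat_lit 50864) (nat_lit 419889) (nat_lit 51051) (nat_lit 162268) (nat_lit 0) (nat_lit 0),Row.mk (nat_lit 23688) (nat_lit 50864) (nat_lit 419889) (nat_lit 51051) (nat_lit 162268) (nat_lit 0) (nat_lit 0),Row.mk (nat_lit 23856) (nat_lit 50864) (nat_lit 419889) (nat_lit 51051) (nat_lit 162268) (nat_lit 0) (nat_lit 0),Row.mk (nat_lit 24024) (nat_lit 50864) (nat_lit 419889) (nat_lit 51051) (nat_lit 162268) (nat_lit 0) (nat_lit 0),Row.mk (nat_lit 24192) (nat_lit 50864) (nat_lit 419889) (nat_lit 51051) (nat_lit 162268) (nat_lit 0) (nat_lit 0),Row.mk (nat_lit 24360) (nat_lit 50864) (nat_lit 419889) (nat_lit 51051) (nat_lit 162268) (nat_lit 0) (nat_lit 0),Row.mk (nat_lit 24528) (nat_lit 50864) (nat_lit 419889) (nat_lit 51051) (nat_lit 162268)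 (nat_lit 0) (nat_lit 0),Row.mk (nat_lit 24696) (nat_lit 50864) (nat_lit 419889) (nat_lit 51051) (nat_lit 162268) (nat_lit 0) (nat_lit 0),Row.mk (nat_lit 24864) (nat_lit 50864) (nat_lit 419889) (nat_lit 51051) (nat_lit 162268) (nat_lit 0) (nat_lit 0),Row.mk (nat_lit 25032) (nat_lit 50864) (nat_lit 419889) (nat_lit 51051) (nat_lit 162268) (nat_lit 0) (nat_lit 0),Row.mk (nat_lit 25200) (nat_lit 50864) (nat_lit 419889) (nat_lit 51051) (nat_lit 162268) (nat_lit 0) (nat_lit 0),Row.mk (nat_lit 25368) (nat_lit 50864) (nat_lit 419889) (nat_lit 51051) (nat_lit 162268) (nat_lit 0) (nat_lit 0),Row.mk (nat_lit 25536) (nat_lit 50864) (nat_lit 419889) (nat_lit 51051) (nat_lit 162268) (nat_lit 0) (nat_lit 0)],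
[Row.mk (nat_lit 10584) (nat_lit 50303) (nat_lit 473972) (nat_lit 50490) (nat_lit 253129) (nat_lit 0) (nat_lit 0),Row.mk (nat_lit 10752) (nat_lit 50303) (nat_lit 473972) (nat_lit 50490) (nat_lit 253129) (nat_lit 0) (nat_lit 0),Row.mk (nat_lit 10920) (nat_lit 50303) (nat_lit 473972) (nat_lit 50490) (nat_lit 253129) (nat_lit 0) (nat_lit 0),Row.mk (nat_lit 11088) (nat_lit 50303) (nat_lit 473972) (nat_lit 50490) (nat_lit 253129) (nat_lit 0) (nat_lit 0),Row.mk (nat_lit 11256) (nat_lit 50303) (nat_lit 473972) (nat_lit 50490) (nat_lit 253129) (nat_lit 0) (nat_lit 0),Row.mk (nat_lit 11424) (nat_lit 50303) (nat_lit 473972) (nat_lit 50490) (nat_lit 253129) (nat_lit 0) (nat_lit 0),Row.mk (nat_lit 11592) (nat_lit 50303) (nat_lit 473972) (nat_lit 50490) (nat_lit 253129) (nat_lit 0) (nat_lit 0),Row.mk (nat_lit 11760) (nat_lit 50303) (nat_lit 473972) (nat_lit 50490) (nat_lit 253129) (nat_lit 0) (nat_lit 0),Row.mk (nat_lit 11928) (nat_lit 50303)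 (nat_lit 473972) (nat_lit 50490) (nat_lit 253129) (nat_lit 0) (nat_lit 0),Row.mk (nat_lit 12096) (nat_lit 50303) (nat_lit 473972) (nat_lit 50490) (nat_lit 253129) (nat_lit 0) (nat_lit 0),Row.mk (nat_lit 12264) (nat_lit 50303) (nat_lit 473972) (nat_lit 50490) (nat_lit 253129) (nat_lit 0) (nat_lit 0),Row.mk (nat_lit 12432) (nat_lit 50303) (nat_lit 473972) (nat_lit 50490) (nat_lit 253129) (nat_lit 0) (nat_lit 0),Row.mk (nat_lit 12600) (nat_lit 50303) (nat_lit 473972) (nat_lit 50490) (nat_lit 253129) (nat_lit 0) (nat_lit 0),Row.mk (nat_lit 12768) (nat_lit 50303) (nat_lit 473972) (nat_lit 50490) (nat_lit 253129) (nat_lit 0) (nat_lit 0),Row.mk (nat_lit 12936) (nat_lit 50303) (nat_lit 473972) (nat_lit 50490) (nat_lit 253129) (nat_lit 0) (nat_lit 0),Row.mk (nat_lit 13104) (nat_lit 50303) (nat_lit 473972) (nat_lit 50490) (nat_lit 253129) (nat_lit 0) (nat_lit 0),Row.mk (nat_lit 13272) (nat_lit 50303) (nat_lit 473972) (nat_lit 50490) (nat_lit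 253129) (nat_lit 0) (nat_lit 0),Row.mk (nat_lit 13440) (nat_lit 50303) (nat_lit 473972) (nat_lit 50490) (nat_lit 253129) (nat_lit 0) (nat_lit 0),Row.mk (nat_lit 13608) (nat_lit 50303) (nat_lit 473972) (nat_lit 50490) (nat_lit 253129) (nat_lit 0) (nat_lit 0),Row.mk (nat_lit 13776) (nat_lit 50303) (nat_lit 473972) (nat_lit 50490) (nat_lit 253129) (nat_lit 0) (nat_lit 0),Row.mk (nat_lit 13944) (nat_lit 50303) (nat_lit 473972) (nat_lit 50490) (nat_lit 253129) (nat_lit 0) (nat_lit 0),Row.mk (nat_lit 14112) (nat_lit 50303) (nat_lit 473972) (nat_lit 50490) (nat_lit 253129) (nat_lit 0) (nat_lit 0),Row.mk (nat_lit 14280) (nat_lit 50303) (nat_lit 473972) (nat_lit 50490) (nat_lit 253129) (nat_lit 0) (nat_lit 0),Row.mk (nat_lit 14448) (nat_lit 50303) (nat_lit 473972) (nat_lit 50490) (nat_lit 253129) (nat_lit 0) (nat_lit 0),Row.mk (nat_lit 14616) (nat_lit 50303) (nat_lit 473972) (nat_lit 50490) (nat_lit 253129) (nat_lit 0) (nat_lit 0),Row.mk (nat_lit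 14784) (nat_lit 50303) (nat_lit 473972) (nat_lit 50490) (nat_lit 253129) (nat_lit 0) (nat_lit 0),Row.mk (nat_lit 14952) (nat_lit 50303) (nat_lit 473972) (nat_lit 50490) (nat_lit 253129) (nat_lit 0) (nat_lit 0),Row.mk (nat_lit 15120) (nat_lit 50303) (nat_lit 473972) (nat_lit 50490) (nat_lit 253129) (nat_lit 0) (nat_lit 0),Row.mk (nat_lit 15288) (nat_lit 50303) (nat_lit 473972) (nat_lit 50490) (nat_lit 253129) (nat_lit 0) (nat_lit 0),Row.mk (nat_lit 15456) (nat_lit 50303) (nat_lit 473972) (nat_lit 50490) (nat_lit 253129) (nat_lit 0) (nat_lit 0),Row.mk (nat_lit 15624) (nat_lit 50303) (nat_lit 473972) (nat_lit 50490) (nat_lit 253129) (nat_lit 0) (nat_lit 0),Row.mk (nat_lit 15792) (nat_lit 50303) (nat_lit 473972) (nat_lit 50490) (nat_lit 253129) (nat_lit 0) (nat_lit 0),Row.mk (nat_lit 15960) (nat_lit 50303) (nat_lit 473972) (nat_lit 50490) (nat_lit 253129) (nat_lit 0) (nat_lit 0),Row.mk (nat_lit 16128) (nat_lit 50303) (nat_lit 473972)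 (nat_lit 50490) (nat_lit 253129) (nat_lit 0) (nat_lit 0),Row.mk (nat_lit 16296) (nat_lit 50303) (nat_lit 473972) (nat_lit 50490) (nat_lit 253129) (nat_lit 0) (nat_lit 0),Row.mk (nat_lit 16464) (nat_lit 50303) (nat_lit 473972) (nat_lit 50490) (nat_lit 253129) (nat_lit 0) (nat_lit 0),Row.mk (nat_lit 16632) (nat_lit 50303) (nat_lit 473972) (nat_lit 50490) (nat_lit 253129) (nat_lit 0) (nat_lit 0),Row.mk (nat_lit 16800) (nat_lit 50303) (nat_lit 473972) (nat_lit 50490) (nat_lit 253129) (nat_lit 0) (nat_lit 0),Row.mk (nat_lit 16968) (nat_lit 50303) (nat_lit 473972) (nat_lit 50490) (nat_lit 253129) (nat_lit 0) (nat_lit 0),Row.mk (nat_lit 17136) (nat_lit 50303) (nat_lit 473972) (nat_lit 50490) (nat_lit 253129) (nat_lit 0) (nat_lit 0),Row.mk (nat_lit 17304) (nat_lit 50303) (nat_lit 473972) (nat_lit 50490) (nat_lit 253129) (nat_lit 0) (nat_lit 0),Row.mk (nat_lit 17472) (nat_lit 50303) (nat_lit 473972) (nat_lit 50490) (nat_lit 253129) (nat_lit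 0) (nat_lit 0),Row.mk (nat_lit 17640) (nat_lit 50303) (nat_lit 473972) (nat_lit 50490) (nat_lit 253129) (nat_lit 0) (nat_lit 0),Row.mk (nat_lit 17808) (nat_lit 50303) (nat_lit 473972) (nat_lit 50490) (nat_lit 253129) (nat_lit 0) (nat_lit 0),Row.mk (nat_lit 17976) (nat_lit 50303) (nat_lit 473972) (nat_lit 50490) (nat_lit 253129) (nat_lit 0) (nat_lit 0),Row.mk (nat_lit 18144) (nat_lit 50303) (nat_lit 473972) (nat_lit 50490) (nat_lit 253129) (nat_lit 0) (nat_lit 0),Row.mk (nat_lit 18312) (nat_lit 50303) (nat_lit 473972) (nat_lit 50490) (nat_lit 253129) (nat_lit 0) (nat_lit 0),Row.mk (nat_lit 18480) (nat_lit 50303) (nat_lit 473972) (nat_lit 50490) (nat_lit 253129) (nat_lit 0) (nat_lit 0),Row.mk (nat_lit 18648) (nat_lit 50303) (nat_lit 473972) (nat_lit 50490) (nat_lit 253129) (nat_lit 0) (nat_lit 0),Row.mk (nat_lit 18816) (nat_lit 50303) (nat_lit 473972) (nat_lit 50490) (nat_lit 253129) (nat_lit 0) (nat_lit 0),Row.mk (nat_lit 18984) (nat_lit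 50303) (nat_lit 473972) (nat_lit 50490) (nat_lit 253129) (nat_lit 0) (nat_lit 0),Row.mk (nat_lit 19152) (nat_lit 50303) (nat_lit 473972) (nat_lit 50490) (nat_lit 253129) (nat_lit 0) (nat_lit 0),Row.mk (nat_lit 19320) (nat_lit 50303) (nat_lit 473972) (nat_lit 50490) (nat_lit 253129) (nat_lit 0) (nat_lit 0),Row.mk (nat_lit 19488) (nat_lit 50303) (nat_lit 473972) (nat_lit 50490) (nat_lit 253129) (nat_lit 0) (nat_lit 0),Row.mk (nat_lit 19656) (nat_lit 50303) (nat_lit 473972) (nat_lit 50490) (nat_lit 253129) (nat_lit 0) (nat_lit 0),Row.mk (nat_lit 19824) (nat_lit 50303) (nat_lit 473972) (nat_lit 50490) (nat_lit 253129) (nat_lit 0) (nat_lit 0),Row.mk (nat_lit 19992) (nat_lit 50303) (nat_lit 473972) (nat_lit 50490) (nat_lit 253129) (nat_lit 0) (nat_lit 0),Row.mk (nat_lit 20160) (nat_lit 50303) (nat_lit 473972) (nat_lit 50490) (nat_lit 253129) (nat_lit 0) (nat_lit 0),Row.mk (nat_lit 20328) (nat_lit 50303) (nat_lit 473972) (nat_lit 50490)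 (nat_lit 253129) (nat_lit 0) (nat_lit 0),Row.mk (nat_lit 20496) (nat_lit 50303) (nat_lit 473972) (nat_lit 50490) (nat_lit 253129) (nat_lit 0) (nat_lit 0),Row.mk (nat_lit 20664) (nat_lit 50303) (nat_lit 473972) (nat_lit 50490) (nat_lit 253129) (nat_lit 0) (nat_lit 0),Row.mk (nat_lit 20832) (nat_lit 50303) (nat_lit 473972) (nat_lit 50490) (nat_lit 253129) (nat_lit 0) (nat_lit 0),Row.mk (nat_lit 21000) (nat_lit 50303) (nat_lit 473972) (nat_lit 50490) (nat_lit 253129) (nat_lit 0) (nat_lit 0),Row.mk (nat_lit 21168) (nat_lit 50303) (nat_lit 473972) (nat_lit 50490) (nat_lit 253129) (nat_lit 0) (nat_lit 0),Row.mk (nat_lit 21336) (nat_lit 50303) (nat_lit 473972) (nat_lit 50490) (nat_lit 253129) (nat_lit 0) (nat_lit 0),Row.mk (nat_lit 21504) (nat_lit 50303) (nat_lit 473972) (nat_lit 50490) (nat_lit 253129) (nat_lit 0) (nat_lit 0),Row.mk (nat_lit 21672) (nat_lit 50303) (nat_lit 473972) (nat_lit 50490) (nat_lit 253129) (nat_lit 0) (nat_lit 0),Row.mk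 (nat_lit 21840) (nat_lit 50303) (nat_lit 473972) (nat_lit 50490) (nat_lit 253129) (nat_lit 0) (nat_lit 0),Row.mk (nat_lit 22008) (nat_lit 50303) (nat_lit 473972) (nat_lit 50490) (nat_lit 253129) (nat_lit 0) (nat_lit 0),Row.mk (nat_lit 22176) (nat_lit 50303) (nat_lit 473972) (nat_lit 50490) (nat_lit 253129) (nat_lit 0) (nat_lit 0),Row.mk (nat_lit 22344) (nat_lit 50303) (nat_lit 473972) (nat_lit 50490) (nat_lit 253129) (nat_lit 0) (nat_lit 0),Row.mk (nat_lit 22512) (nat_lit 50303) (nat_lit 473972) (nat_lit 50490) (nat_lit 253129) (nat_lit 0) (nat_lit 0),Row.mk (nat_lit 22680) (nat_lit 50303) (nat_lit 473972) (nat_lit 50490) (nat_lit 253129) (nat_lit 0) (nat_lit 0),Row.mk (nat_lit 22848) (nat_lit 50303) (nat_lit 473972) (nat_lit 50490) (nat_lit 253129) (nat_lit 0) (nat_lit 0),Row.mk (nat_lit 23016) (nat_lit 50303) (nat_lit 473972) (nat_lit 50490) (nat_lit 253129) (nat_lit 0) (nat_lit 0),Row.mk (nat_lit 23184) (nat_lit 50303) (nat_lit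 473972) (nat_lit 50490) (nat_lit 253129) (nat_lit 0) (nat_lit 0),Row.mk (nat_lit 23352) (nat_lit 50303) (nat_lit 473972) (nat_lit 50490) (nat_lit 253129) (nat_lit 0) (nat_lit 0),Row.mk (nat_lit 23520) (nat_lit 50303) (nat_lit 473972) (nat_lit 50490) (nat_lit 253129) (nat_lit 0) (nat_lit 0),Row.mk (nat_lit 23688) (nat_lit 50303) (nat_lit 473972) (nat_lit 50490) (nat_lit 253129) (nat_lit 0) (nat_lit 0),Row.mk (nat_lit 23856) (nat_lit 50303) (nat_lit 473972) (nat_lit 50490) (nat_lit 253129) (nat_lit 0) (nat_lit 0),Row.mk (nat_lit 24024) (nat_lit 50303) (nat_lit 473972) (nat_lit 50490) (nat_lit 253129) (nat_lit 0) (nat_lit 0),Row.mk (nat_lit 24192) (nat_lit 50303) (nat_lit 473972) (nat_lit 50490) (nat_lit 253129) (nat_lit 0) (nat_lit 0),Row.mk (nat_lit 24360) (nat_lit 50303) (nat_lit 473972) (nat_lit 50490) (nat_lit 253129) (nat_lit 0) (nat_lit 0),Row.mk (nat_lit 24528) (nat_lit 50303) (nat_lit 473972) (nat_lit 50490) (nat_lit 253129)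 (nat_lit 0) (nat_lit 0),Row.mk (nat_lit 24696) (nat_lit 50303) (nat_lit 473972) (nat_lit 50490) (nat_lit 253129) (nat_lit 0) (nat_lit 0),Row.mk (nat_lit 24864) (nat_lit 50303) (nat_lit 473972) (nat_lit 50490) (nat_lit 253129) (nat_lit 0) (nat_lit 0),Row.mk (nat_lit 25032) (nat_lit 50303) (nat_lit 473972) (nat_lit 50490) (nat_lit 253129) (nat_lit 0) (nat_lit 0),Row.mk (nat_lit 25200) (nat_lit 50303) (nat_lit 473972) (nat_lit 50490) (nat_lit 253129) (nat_lit 0) (nat_lit 0),Row.mk (nat_lit 25368) (nat_lit 50303) (nat_lit 473972) (nat_lit 50490) (nat_lit 253129) (nat_lit 0) (nat_lit 0),Row.mk (nat_lit 25536) (nat_lit 50303) (nat_lit 473972) (nat_lit 50490) (nat_lit 253129) (nat_lit 0) (nat_lit 0)],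
[Row.mk (nat_lit 10584) (nat_lit 49742) (nat_lit 513265) (nat_lit 49929) (nat_lit 394867) (nat_lit 0) (nat_lit 0),Row.mk (nat_lit 10752) (nat_lit 49742) (nat_lit 513265) (nat_lit 49929) (nat_lit 394867) (nat_lit 0) (nat_lit 0),Row.mk (nat_lit 10920) (nat_lit 49742) (nat_lit 513265) (nat_lit 49929) (nat_lit 394867) (nat_lit 0) (nat_lit 0),Row.mk (nat_lit 11088) (nat_lit 49742) (nat_lit 513265) (nat_lit 49929) (nat_lit 394867) (nat_lit 0) (nat_lit 0),Row.mk (nat_lit 11256) (nat_lit 49742) (nat_lit 513265) (nat_lit 49929) (nat_lit 394867) (nat_lit 0) (nat_lit 0),Row.mk (nat_lit 11424) (nat_lit 49742) (nat_lit 513265) (nat_lit 49929) (nat_lit 394867) (nat_lit 0) (nat_lit 0),Row.mk (nat_lit 11592) (nat_lit 49742) (nat_lit 513265) (nat_lit 49929) (nat_lit 394867) (nat_lit 0) (nat_lit 0),Row.mk (nat_lit 11760) (nat_lit 49742) (nat_lit 513265) (nat_lit 49929) (nat_lit 394867) (nat_lit 0) (nat_lit 0),Row.mk (nat_lit 11928) (nat_lit 49742)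 (nat_lit 513265) (nat_lit 49929) (nat_lit 394867) (nat_lit 0) (nat_lit 0),Row.mk (nat_lit 12096) (nat_lit 49742) (nat_lit 513265) (nat_lit 49929) (nat_lit 394867) (nat_lit 0) (nat_lit 0),Row.mk (nat_lit 12264) (nat_lit 49742) (nat_lit 513265) (nat_lit 49929) (nat_lit 394867) (nat_lit 0) (nat_lit 0),Row.mk (nat_lit 12432) (nat_lit 49742) (nat_lit 513265) (nat_lit 49929) (nat_lit 394867) (nat_lit 0) (nat_lit 0),Row.mk (nat_lit 12600) (nat_lit 49742) (nat_lit 513265) (nat_lit 49929) (nat_lit 394867) (nat_lit 0) (nat_lit 0),Row.mk (nat_lit 12768) (nat_lit 49742) (nat_lit 513265) (nat_lit 49929) (nat_lit 394867) (nat_lit 0) (nat_lit 0),Row.mk (nat_lit 12936) (nat_lit 49742) (nat_lit 513265) (nat_lit 49929) (nat_lit 394867) (nat_lit 0) (nat_lit 0),Row.mk (nat_lit 13104) (nat_lit 49742) (nat_lit 513265) (nat_lit 49929) (nat_lit 394867) (nat_lit 0) (nat_lit 0),Row.mk (nat_lit 13272) (nat_lit 49742) (nat_lit 513265) (nat_lit 49929) (nat_lit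 394867) (nat_lit 0) (nat_lit 0),Row.mk (nat_lit 13440) (nat_lit 49742) (nat_lit 513265) (nat_lit 49929) (nat_lit 394867) (nat_lit 0) (nat_lit 0),Row.mk (nat_lit 13608) (nat_lit 49742) (nat_lit 513265) (nat_lit 49929) (nat_lit 394867) (nat_lit 0) (nat_lit 0),Row.mk (nat_lit 13776) (nat_lit 49742) (nat_lit 513265) (nat_lit 49929) (nat_lit 394867) (nat_lit 0) (nat_lit 0),Row.mk (nat_lit 13944) (nat_lit 49742) (nat_lit 513265) (nat_lit 49929) (nat_lit 394867) (nat_lit 0) (nat_lit 0),Row.mk (nat_lit 14112) (nat_lit 49742) (nat_lit 513265) (nat_lit 49929) (nat_lit 394867) (nat_lit 0) (nat_lit 0),Row.mk (nat_lit 14280) (nat_lit 49742) (nat_lit 513265) (nat_lit 49929) (nat_lit 394867) (nat_lit 0) (nat_lit 0),Row.mk (nat_lit 14448) (nat_lit 49742) (nat_lit 513265) (nat_lit 49929) (nat_lit 394867) (nat_lit 0) (nat_lit 0),Row.mk (nat_lit 14616) (nat_lit 49742) (nat_lit 513265) (nat_lit 49929) (nat_lit 394867) (nat_lit 0) (nat_lit 0),Row.mk (nat_lit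 14784) (nat_lit 49742) (nat_lit 513265) (nat_lit 49929) (nat_lit 394867) (nat_lit 0) (nat_lit 0),Row.mk (nat_lit 14952) (nat_lit 49742) (nat_lit 513265) (nat_lit 49929) (nat_lit 394867) (nat_lit 0) (nat_lit 0),Row.mk (nat_lit 15120) (nat_lit 49742) (nat_lit 513265) (nat_lit 49929) (nat_lit 394867) (nat_lit 0) (nat_lit 0),Row.mk (nat_lit 15288) (nat_lit 49742) (nat_lit 513265) (nat_lit 49929) (nat_lit 394867) (nat_lit 0) (nat_lit 0),Row.mk (nat_lit 15456) (nat_lit 49742) (nat_lit 513265) (nat_lit 49929) (nat_lit 394867) (nat_lit 0) (nat_lit 0),Row.mk (nat_lit 15624) (nat_lit 49742) (nat_lit 513265) (nat_lit 49929) (nat_lit 394867) (nat_lit 0) (nat_lit 0),Row.mk (nat_lit 15792) (nat_lit 49742) (nat_lit 513265) (nat_lit 49929) (nat_lit 394867) (nat_lit 0) (nat_lit 0),Row.mk (nat_lit 15960) (nat_lit 49742) (nat_lit 513265) (nat_lit 49929) (nat_lit 394867) (nat_lit 0) (nat_lit 0),Row.mk (nat_lit 16128) (nat_lit 49742) (nat_lit 513265)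 (nat_lit 49929) (nat_lit 394867) (nat_lit 0) (nat_lit 0),Row.mk (nat_lit 16296) (nat_lit 49742) (nat_lit 513265) (nat_lit 49929) (nat_lit 394867) (nat_lit 0) (nat_lit 0),Row.mk (nat_lit 16464) (nat_lit 49742) (nat_lit 513265) (nat_lit 49929) (nat_lit 394867) (nat_lit 0) (nat_lit 0),Row.mk (nat_lit 16632) (nat_lit 49742) (nat_lit 513265) (nat_lit 49929) (nat_lit 394867) (nat_lit 0) (nat_lit 0),Row.mk (nat_lit 16800) (nat_lit 49742) (nat_lit 513265) (nat_lit 49929) (nat_lit 394867) (nat_lit 0) (nat_lit 0),Row.mk (nat_lit 16968) (nat_lit 49742) (nat_lit 513265) (nat_lit 49929) (nat_lit 394867) (nat_lit 0) (nat_lit 0),Row.mk (nat_lit 17136) (nat_lit 49742) (nat_lit 513265) (nat_lit 49929) (nat_lit 394867) (nat_lit 0) (nat_lit 0),Row.mk (nat_lit 17304) (nat_lit 49742) (nat_lit 513265) (nat_lit 49929) (nat_lit 394867) (nat_lit 0) (nat_lit 0),Row.mk (nat_lit 17472) (nat_lit 49742) (nat_lit 513265) (nat_lit 49929) (nat_lit 394867) (nat_lit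 0) (nat_lit 0),Row.mk (nat_lit 17640) (nat_lit 49742) (nat_lit 513265) (nat_lit 49929) (nat_lit 394867) (nat_lit 0) (nat_lit 0),Row.mk (nat_lit 17808) (nat_lit 49742) (nat_lit 513265) (nat_lit 49929) (nat_lit 394867) (nat_lit 0) (nat_lit 0),Row.mk (nat_lit 17976) (nat_lit 49742) (nat_lit 513265) (nat_lit 49929) (nat_lit 394867) (nat_lit 0) (nat_lit 0),Row.mk (nat_lit 18144) (nat_lit 49742) (nat_lit 513265) (nat_lit 49929) (nat_lit 394867) (nat_lit 0) (nat_lit 0),Row.mk (nat_lit 18312) (nat_lit 49742) (nat_lit 513265) (nat_lit 49929) (nat_lit 394867) (nat_lit 0) (nat_lit 0),Row.mk (nat_lit 18480) (nat_lit 49742) (nat_lit 513265) (nat_lit 49929) (nat_lit 394867) (nat_lit 0) (nat_lit 0),Row.mk (nat_lit 18648) (nat_lit 49742) (nat_lit 513265) (nat_lit 49929) (nat_lit 394867) (nat_lit 0) (nat_lit 0),Row.mk (nat_lit 18816) (nat_lit 49742) (nat_lit 513265) (nat_lit 49929) (nat_lit 394867) (nat_lit 0) (nat_lit 0),Row.mk (nat_lit 18984) (nat_lit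 49742) (nat_lit 513265) (nat_lit 49929) (nat_lit 394867) (nat_lit 0) (nat_lit 0),Row.mk (nat_lit 19152) (nat_lit 49742) (nat_lit 513265) (nat_lit 49929) (nat_lit 394867) (nat_lit 0) (nat_lit 0),Row.mk (nat_lit 19320) (nat_lit 49742) (nat_lit 513265) (nat_lit 49929) (nat_lit 394867) (nat_lit 0) (nat_lit 0),Row.mk (nat_lit 19488) (nat_lit 49742) (nat_lit 513265) (nat_lit 49929) (nat_lit 394867) (nat_lit 0) (nat_lit 0),Row.mk (nat_lit 19656) (nat_lit 49742) (nat_lit 513265) (nat_lit 49929) (nat_lit 394867) (nat_lit 0) (nat_lit 0),Row.mk (nat_lit 19824) (nat_lit 49742) (nat_lit 513265) (nat_lit 49929) (nat_lit 394867) (nat_lit 0) (nat_lit 0),Row.mk (nat_lit 19992) (nat_lit 49742) (nat_lit 513265) (nat_lit 49929) (nat_lit 394867) (nat_lit 0) (nat_lit 0),Row.mk (nat_lit 20160) (nat_lit 49742) (nat_lit 513265) (nat_lit 49929) (nat_lit 394867) (nat_lit 0) (nat_lit 0),Row.mk (nat_lit 20328) (nat_lit 49742) (nat_lit 513265) (nat_lit 49929)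 (nat_lit 394867) (nat_lit 0) (nat_lit 0),Row.mk (nat_lit 20496) (nat_lit 49742) (nat_lit 513265) (nat_lit 49929) (nat_lit 394867) (nat_lit 0) (nat_lit 0),Row.mk (nat_lit 20664) (nat_lit 49742) (nat_lit 513265) (nat_lit 49929) (nat_lit 394867) (nat_lit 0) (nat_lit 0),Row.mk (nat_lit 20832) (nat_lit 49742) (nat_lit 513265) (nat_lit 49929) (nat_lit 394867) (nat_lit 0) (nat_lit 0),Row.mk (nat_lit 21000) (nat_lit 49742) (nat_lit 513265) (nat_lit 49929) (nat_lit 394867) (nat_lit 0) (nat_lit 0),Row.mk (nat_lit 21168) (nat_lit 49742) (nat_lit 513265) (nat_lit 49929) (nat_lit 394867) (nat_lit 0) (nat_lit 0),Row.mk (nat_lit 21336) (nat_lit 49742) (nat_lit 513265) (nat_lit 49929) (nat_lit 394867) (nat_lit 0) (nat_lit 0),Row.mk (nat_lit 21504) (nat_lit 49742) (nat_lit 513265) (nat_lit 49929) (nat_lit 394867) (nat_lit 0) (nat_lit 0),Row.mk (nat_lit 21672) (nat_lit 49742) (nat_lit 513265) (nat_lit 49929) (nat_lit 394867) (nat_lit 0) (nat_lit 0),Row.mk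 (nat_lit 21840) (nat_lit 49742) (nat_lit 513265) (nat_lit 49929) (nat_lit 394867) (nat_lit 0) (nat_lit 0),Row.mk (nat_lit 22008) (nat_lit 49742) (nat_lit 513265) (nat_lit 49929) (nat_lit 394867) (nat_lit 0) (nat_lit 0),Row.mk (nat_lit 22176) (nat_lit 49742) (nat_lit 513265) (nat_lit 49929) (nat_lit 394867) (nat_lit 0) (nat_lit 0),Row.mk (nat_lit 22344) (nat_lit 49742) (nat_lit 513265) (nat_lit 49929) (nat_lit 394867) (nat_lit 0) (nat_lit 0),Row.mk (nat_lit 22512) (nat_lit 49742) (nat_lit 513265) (nat_lit 49929) (nat_lit 394867) (nat_lit 0) (nat_lit 0),Row.mk (nat_lit 22680) (nat_lit 49742) (nat_lit 513265) (nat_lit 49929) (nat_lit 394867) (nat_lit 0) (nat_lit 0),Row.mk (nat_lit 22848) (nat_lit 49742) (nat_lit 513265) (nat_lit 49929) (nat_lit 394867) (nat_lit 0) (nat_lit 0),Row.mk (nat_lit 23016) (nat_lit 49742) (nat_lit 513265) (nat_lit 49929) (nat_lit 394867) (nat_lit 0) (nat_lit 0),Row.mk (nat_lit 23184) (nat_lit 49742) (nat_lit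 513265) (nat_lit 49929) (nat_lit 394867) (nat_lit 0) (nat_lit 0),Row.mk (nat_lit 23352) (nat_lit 49742) (nat_lit 513265) (nat_lit 49929) (nat_lit 394867) (nat_lit 0) (nat_lit 0),Row.mk (nat_lit 23520) (nat_lit 49742) (nat_lit 513265) (nat_lit 49929) (nat_lit 394867) (nat_lit 0) (nat_lit 0),Row.mk (nat_lit 23688) (nat_lit 49742) (nat_lit 513265) (nat_lit 49929) (nat_lit 394867) (nat_lit 0) (nat_lit 0),Row.mk (nat_lit 23856) (nat_lit 49742) (nat_lit 513265) (nat_lit 49929) (nat_lit 394867) (nat_lit 0) (nat_lit 0),Row.mk (nat_lit 24024) (nat_lit 49742) (nat_lit 513265) (nat_lit 49929) (nat_lit 394867) (nat_lit 0) (nat_lit 0),Row.mk (nat_lit 24192) (nat_lit 49742) (nat_lit 513265) (nat_lit 49929) (nat_lit 394867) (nat_lit 0) (nat_lit 0),Row.mk (nat_lit 24360) (nat_lit 49742) (nat_lit 513265) (nat_lit 49929) (nat_lit 394867) (nat_lit 0) (nat_lit 0),Row.mk (nat_lit 24528) (nat_lit 49742) (nat_lit 513265) (nat_lit 49929) (nat_lit 394867)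 (nat_lit 0) (nat_lit 0),Row.mk (nat_lit 24696) (nat_lit 49742) (nat_lit 513265) (nat_lit 49929) (nat_lit 394867) (nat_lit 0) (nat_lit 0),Row.mk (nat_lit 24864) (nat_lit 49742) (nat_lit 513265) (nat_lit 49929) (nat_lit 394867) (nat_lit 0) (nat_lit 0),Row.mk (nat_lit 25032) (nat_lit 49742) (nat_lit 513265) (nat_lit 49929) (nat_lit 394867) (nat_lit 0) (nat_lit 0),Row.mk (nat_lit 25200) (nat_lit 49742) (nat_lit 513265) (nat_lit 49929) (nat_lit 394867) (nat_lit 0) (nat_lit 0),Row.mk (nat_lit 25368) (nat_lit 49742) (nat_lit 513265) (nat_lit 49929) (nat_lit 394867) (nat_lit 0) (nat_lit 0),Row.mk (nat_lit 25536) (nat_lit 49742) (nat_lit 513265) (nat_lit 49929) (nat_lit 394867) (nat_lit 0) (nat_lit 0)],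
[Row.mk (nat_lit 10584) (nat_lit 49181) (nat_lit 518265) (nat_lit 49368) (nat_lit 615970) (nat_lit 0) (nat_lit 0),Row.mk (nat_lit 10752) (nat_lit 49181) (nat_lit 518265) (nat_lit 49368) (nat_lit 615970) (nat_lit 0) (nat_lit 0),Row.mk (nat_lit 10920) (nat_lit 49181) (nat_lit 518265) (nat_lit 49368) (nat_lit 615970) (nat_lit 0) (nat_lit 0),Row.mk (nat_lit 11088) (nat_lit 49181) (nat_lit 518265) (nat_lit 49368) (nat_lit 615970) (nat_lit 0) (nat_lit 0),Row.mk (nat_lit 11256) (nat_lit 49181) (nat_lit 518265) (nat_lit 49368) (nat_lit 615970) (nat_lit 0) (nat_lit 0),Row.mk (nat_lit 11424) (nat_lit 49181) (nat_lit 518265) (nat_lit 49368) (nat_lit 615970) (nat_lit 0) (nat_lit 0),Row.mk (nat_lit 11592) (nat_lit 49181) (nat_lit 518265) (nat_lit 49368) (nat_lit 615970) (nat_lit 0) (nat_lit 0),Row.mk (nat_lit 11760) (nat_lit 49181) (nat_lit 518265) (nat_lit 49368) (nat_lit 615970) (nat_lit 0) (nat_lit 0),Row.mk (nat_lit 11928) (nat_lit 49181)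 (nat_lit 518265) (nat_lit 49368) (nat_lit 615970) (nat_lit 0) (nat_lit 0),Row.mk (nat_lit 12096) (nat_lit 49181) (nat_lit 518265) (nat_lit 49368) (nat_lit 615970) (nat_lit 0) (nat_lit 0),Row.mk (nat_lit 12264) (nat_lit 49181) (nat_lit 518265) (nat_lit 49368) (nat_lit 615970) (nat_lit 0) (nat_lit 0),Row.mk (nat_lit 12432) (nat_lit 49181) (nat_lit 518265) (nat_lit 49368) (nat_lit 615970) (nat_lit 0) (nat_lit 0),Row.mk (nat_lit 12600) (nat_lit 49181) (nat_lit 518265) (nat_lit 49368) (nat_lit 615970) (nat_lit 0) (nat_lit 0),Row.mk (nat_lit 12768) (nat_lit 49181) (nat_lit 518265) (nat_lit 49368) (nat_lit 615970) (nat_lit 0) (nat_lit 0),Row.mk (nat_lit 12936) (nat_lit 49181) (nat_lit 518265) (nat_lit 49368) (nat_lit 615970) (nat_lit 0) (nat_lit 0),Row.mk (nat_lit 13104) (nat_lit 49181) (nat_lit 518265) (nat_lit 49368) (nat_lit 615970) (nat_lit 0) (nat_lit 0),Row.mk (nat_lit 13272) (nat_lit 49181) (nat_lit 518265) (nat_lit 49368) (nat_lit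 615970) (nat_lit 0) (nat_lit 0),Row.mk (nat_lit 13440) (nat_lit 49181) (nat_lit 518265) (nat_lit 49368) (nat_lit 615970) (nat_lit 0) (nat_lit 0),Row.mk (nat_lit 13608) (nat_lit 49181) (nat_lit 518265) (nat_lit 49368) (nat_lit 615970) (nat_lit 0) (nat_lit 0),Row.mk (nat_lit 13776) (nat_lit 49181) (nat_lit 518265) (nat_lit 49368) (nat_lit 615970) (nat_lit 0) (nat_lit 0),Row.mk (nat_lit 13944) (nat_lit 49181) (nat_lit 518265) (nat_lit 49368) (nat_lit 615970) (nat_lit 0) (nat_lit 0),Row.mk (nat_lit 14112) (nat_lit 49181) (nat_lit 518265) (nat_lit 49368) (nat_lit 615970) (nat_lit 0) (nat_lit 0),Row.mk (nat_lit 14280) (nat_lit 49181) (nat_lit 518265) (nat_lit 49368) (nat_lit 615970) (nat_lit 0) (nat_lit 0),Row.mk (nat_lit 14448) (nat_lit 49181) (nat_lit 518265) (nat_lit 49368) (nat_lit 615970) (nat_lit 0) (nat_lit 0),Row.mk (nat_lit 14616) (nat_lit 49181) (nat_lit 518265) (nat_lit 49368) (nat_lit 615970) (nat_lit 0) (nat_lit 0),Row.mk (nat_lit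 14784) (nat_lit 49181) (nat_lit 518265) (nat_lit 49368) (nat_lit 615970) (nat_lit 0) (nat_lit 0),Row.mk (nat_lit 14952) (nat_lit 49181) (nat_lit 518265) (nat_lit 49368) (nat_lit 615970) (nat_lit 0) (nat_lit 0),Row.mk (nat_lit 15120) (nat_lit 49181) (nat_lit 518265) (nat_lit 49368) (nat_lit 615970) (nat_lit 0) (nat_lit 0),Row.mk (nat_lit 15288) (nat_lit 49181) (nat_lit 518265) (nat_lit 49368) (nat_lit 615970) (nat_lit 0) (nat_lit 0),Row.mk (nat_lit 15456) (nat_lit 49181) (nat_lit 518265) (nat_lit 49368) (nat_lit 615970) (nat_lit 0) (nat_lit 0),Row.mk (nat_lit 15624) (nat_lit 49181) (nat_lit 518265) (nat_lit 49368) (nat_lit 615970) (nat_lit 0) (nat_lit 0),Row.mk (nat_lit 15792) (nat_lit 49181) (nat_lit 518265) (nat_lit 49368) (nat_lit 615970) (nat_lit 0) (nat_lit 0),Row.mk (nat_lit 15960) (nat_lit 49181) (nat_lit 518265) (nat_lit 49368) (nat_lit 615970) (nat_lit 0) (nat_lit 0),Row.mk (nat_lit 16128) (nat_lit 49181) (nat_lit 518265)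 (nat_lit 49368) (nat_lit 615970) (nat_lit 0) (nat_lit 0),Row.mk (nat_lit 16296) (nat_lit 49181) (nat_lit 518265) (nat_lit 49368) (nat_lit 615970) (nat_lit 0) (nat_lit 0),Row.mk (nat_lit 16464) (nat_lit 49181) (nat_lit 518265) (nat_lit 49368) (nat_lit 615970) (nat_lit 0) (nat_lit 0),Row.mk (nat_lit 16632) (nat_lit 49181) (nat_lit 518265) (nat_lit 49368) (nat_lit 615970) (nat_lit 0) (nat_lit 0),Row.mk (nat_lit 16800) (nat_lit 49181) (nat_lit 518265) (nat_lit 49368) (nat_lit 615970) (nat_lit 0) (nat_lit 0),Row.mk (nat_lit 16968) (nat_lit 49181) (nat_lit 518265) (nat_lit 49368) (nat_lit 615970) (nat_lit 0) (nat_lit 0),Row.mk (nat_lit 17136) (nat_lit 49181) (nat_lit 518265) (nat_lit 49368) (nat_lit 615970) (nat_lit 0) (nat_lit 0),Row.mk (nat_lit 17304) (nat_lit 49181) (nat_lit 518265) (nat_lit 49368) (nat_lit 615970) (nat_lit 0) (nat_lit 0),Row.mk (nat_lit 17472) (nat_lit 49181) (nat_lit 518265) (nat_lit 49368) (nat_lit 615970) (nat_lit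 0) (nat_lit 0),Row.mk (nat_lit 17640) (nat_lit 49181) (nat_lit 518265) (nat_lit 49368) (nat_lit 615970) (nat_lit 0) (nat_lit 0),Row.mk (nat_lit 17808) (nat_lit 49181) (nat_lit 518265) (nat_lit 49368) (nat_lit 615970) (nat_lit 0) (nat_lit 0),Row.mk (nat_lit 17976) (nat_lit 49181) (nat_lit 518265) (nat_lit 49368) (nat_lit 615970) (nat_lit 0) (nat_lit 0),Row.mk (nat_lit 18144) (nat_lit 49181) (nat_lit 518265) (nat_lit 49368) (nat_lit 615970) (nat_lit 0) (nat_lit 0),Row.mk (nat_lit 18312) (nat_lit 49181) (nat_lit 518265) (nat_lit 49368) (nat_lit 615970) (nat_lit 0) (nat_lit 0),Row.mk (nat_lit 18480) (nat_lit 49181) (nat_lit 518265) (nat_lit 49368) (nat_lit 615970) (nat_lit 0) (nat_lit 0),Row.mk (nat_lit 18648) (nat_lit 49181) (nat_lit 518265) (nat_lit 49368) (nat_lit 615970) (nat_lit 0) (nat_lit 0),Row.mk (nat_lit 18816) (nat_lit 49181) (nat_lit 518265) (nat_lit 49368) (nat_lit 615970) (nat_lit 0) (nat_lit 0),Row.mk (nat_lit 18984) (nat_lit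 49181) (nat_lit 518265) (nat_lit 49368) (nat_lit 615970) (nat_lit 0) (nat_lit 0),Row.mk (nat_lit 19152) (nat_lit 49181) (nat_lit 518265) (nat_lit 49368) (nat_lit 615970) (nat_lit 0) (nat_lit 0),Row.mk (nat_lit 19320) (nat_lit 49181) (nat_lit 518265) (nat_lit 49368) (nat_lit 615970) (nat_lit 0) (nat_lit 0),Row.mk (nat_lit 19488) (nat_lit 49181) (nat_lit 518265) (nat_lit 49368) (nat_lit 615970) (nat_lit 0) (nat_lit 0),Row.mk (nat_lit 19656) (nat_lit 49181) (nat_lit 518265) (nat_lit 49368) (nat_lit 615970) (nat_lit 0) (nat_lit 0),Row.mk (nat_lit 19824) (nat_lit 49181) (nat_lit 518265) (nat_lit 49368) (nat_lit 615970) (nat_lit 0) (nat_lit 0),Row.mk (nat_lit 19992) (nat_lit 49181) (nat_lit 518265) (nat_lit 49368) (nat_lit 615970) (nat_lit 0) (nat_lit 0),Row.mk (nat_lit 20160) (nat_lit 49181) (nat_lit 518265) (nat_lit 49368) (nat_lit 615970) (nat_lit 0) (nat_lit 0),Row.mk (nat_lit 20328) (nat_lit 49181) (nat_lit 518265) (nat_lit 49368)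 (nat_lit 615970) (nat_lit 0) (nat_lit 0),Row.mk (nat_lit 20496) (nat_lit 49181) (nat_lit 518265) (nat_lit 49368) (nat_lit 615970) (nat_lit 0) (nat_lit 0),Row.mk (nat_lit 20664) (nat_lit 49181) (nat_lit 518265) (nat_lit 49368) (nat_lit 615970) (nat_lit 0) (nat_lit 0),Row.mk (nat_lit 20832) (nat_lit 49181) (nat_lit 518265) (nat_lit 49368) (nat_lit 615970) (nat_lit 0) (nat_lit 0),Row.mk (nat_lit 21000) (nat_lit 49181) (nat_lit 518265) (nat_lit 49368) (nat_lit 615970) (nat_lit 0) (nat_lit 0),Row.mk (nat_lit 21168) (nat_lit 49181) (nat_lit 518265) (nat_lit 49368) (nat_lit 615970) (nat_lit 0) (nat_lit 0),Row.mk (nat_lit 21336) (nat_lit 49181) (nat_lit 518265) (nat_lit 49368) (nat_lit 615970) (nat_lit 0) (nat_lit 0),Row.mk (nat_lit 21504) (nat_lit 49181) (nat_lit 518265) (nat_lit 49368) (nat_lit 615970) (nat_lit 0) (nat_lit 0),Row.mk (nat_lit 21672) (nat_lit 49181) (nat_lit 518265) (nat_lit 49368) (nat_lit 615970) (nat_lit 0) (nat_lit 0),Row.mk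 (nat_lit 21840) (nat_lit 49181) (nat_lit 518265) (nat_lit 49368) (nat_lit 615970) (nat_lit 0) (nat_lit 0),Row.mk (nat_lit 22008) (nat_lit 49181) (nat_lit 518265) (nat_lit 49368) (nat_lit 615970) (nat_lit 0) (nat_lit 0),Row.mk (nat_lit 22176) (nat_lit 49181) (nat_lit 518265) (nat_lit 49368) (nat_lit 615970) (nat_lit 0) (nat_lit 0),Row.mk (nat_lit 22344) (nat_lit 49181) (nat_lit 518265) (nat_lit 49368) (nat_lit 615970) (nat_lit 0) (nat_lit 0),Row.mk (nat_lit 22512) (nat_lit 49181) (nat_lit 518265) (nat_lit 49368) (nat_lit 615970) (nat_lit 0) (nat_lit 0),Row.mk (nat_lit 22680) (nat_lit 49181) (nat_lit 518265) (nat_lit 49368) (nat_lit 615970) (nat_lit 0) (nat_lit 0),Row.mk (nat_lit 22848) (nat_lit 49181) (nat_lit 518265) (nat_lit 49368) (nat_lit 615970) (nat_lit 0) (nat_lit 0),Row.mk (nat_lit 23016) (nat_lit 49181) (nat_lit 518265) (nat_lit 49368) (nat_lit 615970) (nat_lit 0) (nat_lit 0),Row.mk (nat_lit 23184) (nat_lit 49181) (nat_lit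 518265) (nat_lit 49368) (nat_lit 615970) (nat_lit 0) (nat_lit 0),Row.mk (nat_lit 23352) (nat_lit 49181) (nat_lit 518265) (nat_lit 49368) (nat_lit 615970) (nat_lit 0) (nat_lit 0),Row.mk (nat_lit 23520) (nat_lit 49181) (nat_lit 518265) (nat_lit 49368) (nat_lit 615970) (nat_lit 0) (nat_lit 0),Row.mk (nat_lit 23688) (nat_lit 49181) (nat_lit 518265) (nat_lit 49368) (nat_lit 615970) (nat_lit 0) (nat_lit 0),Row.mk (nat_lit 23856) (nat_lit 49181) (nat_lit 518265) (nat_lit 49368) (nat_lit 615970) (nat_lit 0) (nat_lit 0),Row.mk (nat_lit 24024) (nat_lit 49181) (nat_lit 518265) (nat_lit 49368) (nat_lit 615970) (nat_lit 0) (nat_lit 0),Row.mk (nat_lit 24192) (nat_lit 49181) (nat_lit 518265) (nat_lit 49368) (nat_lit 615970) (nat_lit 0) (nat_lit 0),Row.mk (nat_lit 24360) (nat_lit 49181) (nat_lit 518265) (nat_lit 49368) (nat_lit 615970) (nat_lit 0) (nat_lit 0),Row.mk (nat_lit 24528) (nat_lit 49181) (nat_lit 518265) (nat_lit 49368) (nat_lit 615970)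 (nat_lit 0) (nat_lit 0),Row.mk (nat_lit 24696) (nat_lit 49181) (nat_lit 518265) (nat_lit 49368) (nat_lit 615970) (nat_lit 0) (nat_lit 0),Row.mk (nat_lit 24864) (nat_lit 49181) (nat_lit 518265) (nat_lit 49368) (nat_lit 615970) (nat_lit 0) (nat_lit 0),Row.mk (nat_lit 25032) (nat_lit 49181) (nat_lit 518265) (nat_lit 49368) (nat_lit 615970) (nat_lit 0) (nat_lit 0),Row.mk (nat_lit 25200) (nat_lit 49181) (nat_lit 518265) (nat_lit 49368) (nat_lit 615970) (nat_lit 0) (nat_lit 0),Row.mk (nat_lit 25368) (nat_lit 49181) (nat_lit 518265) (nat_lit 49368) (nat_lit 615970) (nat_lit 0) (nat_lit 0),Row.mk (nat_lit 25536) (nat_lit 49181) (nat_lit 518265) (nat_lit 49368) (nat_lit 615970) (nat_lit 0) (nat_lit 0),Row.mk (nat_lit 25704) (nat_lit 49181) (nat_lit 518265) (nat_lit 49368) (nat_lit 615970) (nat_lit 0) (nat_lit 0)],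
[Row.mk (nat_lit 10584) (nat_lit 48620) (nat_lit 455756) (nat_lit 48807) (nat_lit 960877) (nat_lit 0) (nat_lit 0),Row.mk (nat_lit 10752) (nat_lit 48620) (nat_lit 455756) (nat_lit 48807) (nat_lit 960877) (nat_lit 0) (nat_lit 0),Row.mk (nat_lit 10920) (nat_lit 48620) (nat_lit 455756) (nat_lit 48807) (nat_lit 960877) (nat_lit 0) (nat_lit 0),Row.mk (nat_lit 11088) (nat_lit 48620) (nat_lit 455756) (nat_lit 48807) (nat_lit 960877) (nat_lit 0) (nat_lit 0),Row.mk (nat_lit 11256) (nat_lit 48620) (nat_lit 455756) (nat_lit 48807) (nat_lit 960877) (nat_lit 0) (nat_lit 0),Row.mk (nat_lit 11424) (nat_lit 48620) (nat_lit 455756) (nat_lit 48807) (nat_lit 960877) (nat_lit 0) (nat_lit 0),Row.mk (nat_lit 11592) (nat_lit 48620) (nat_lit 455756) (nat_lit 48807) (nat_lit 960877) (nat_lit 0) (nat_lit 0),Row.mk (nat_lit 11760) (nat_lit 48620) (nat_lit 455756) (nat_lit 48807) (nat_lit 960877) (nat_lit 0) (nat_lit 0),Row.mk (nat_lit 11928) (nat_lit 48620)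 (nat_lit 455756) (nat_lit 48807) (nat_lit 960877) (nat_lit 0) (nat_lit 0),Row.mk (nat_lit 12096) (nat_lit 48620) (nat_lit 455756) (nat_lit 48807) (nat_lit 960877) (nat_lit 0) (nat_lit 0),Row.mk (nat_lit 12264) (nat_lit 48620) (nat_lit 455756) (nat_lit 48807) (nat_lit 960877) (nat_lit 0) (nat_lit 0),Row.mk (nat_lit 12432) (nat_lit 48620) (nat_lit 455756) (nat_lit 48807) (nat_lit 960877) (nat_lit 0) (nat_lit 0),Row.mk (nat_lit 12600) (nat_lit 48620) (nat_lit 455756) (nat_lit 48807) (nat_lit 960877) (nat_lit 0) (nat_lit 0),Row.mk (nat_lit 12768) (nat_lit 48620) (nat_lit 455756) (nat_lit 48807) (nat_lit 960877) (nat_lit 0) (nat_lit 0),Row.mk (nat_lit 12936) (nat_lit 48620) (nat_lit 455756) (nat_lit 48807) (nat_lit 960877) (nat_lit 0) (nat_lit 0),Row.mk (nat_lit 13104) (nat_lit 48620) (nat_lit 455756) (nat_lit 48807) (nat_lit 960877) (nat_lit 0) (nat_lit 0),Row.mk (nat_lit 13272) (nat_lit 48620) (nat_lit 455756) (nat_lit 48807) (nat_lit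 960877) (nat_lit 0) (nat_lit 0),Row.mk (nat_lit 13440) (nat_lit 48620) (nat_lit 455756) (nat_lit 48807) (nat_lit 960877) (nat_lit 0) (nat_lit 0),Row.mk (nat_lit 13608) (nat_lit 48620) (nat_lit 455756) (nat_lit 48807) (nat_lit 960877) (nat_lit 0) (nat_lit 0),Row.mk (nat_lit 13776) (nat_lit 48620) (nat_lit 455756) (nat_lit 48807) (nat_lit 960877) (nat_lit 0) (nat_lit 0),Row.mk (nat_lit 13944) (nat_lit 48620) (nat_lit 455756) (nat_lit 48807) (nat_lit 960877) (nat_lit 0) (nat_lit 0),Row.mk (nat_lit 14112) (nat_lit 48620) (nat_lit 455756) (nat_lit 48807) (nat_lit 960877) (nat_lit 0) (nat_lit 0),Row.mk (nat_lit 14280) (nat_lit 48620) (nat_lit 455756) (nat_lit 48807) (nat_lit 960877) (nat_lit 0) (nat_lit 0),Row.mk (nat_lit 14448) (nat_lit 48620) (nat_lit 455756) (nat_lit 48807) (nat_lit 960877) (nat_lit 0) (nat_lit 0),Row.mk (nat_lit 14616) (nat_lit 48620) (nat_lit 455756) (nat_lit 48807) (nat_lit 960877) (nat_lit 0) (nat_lit 0),Row.mk (nat_lit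 14784) (nat_lit 48620) (nat_lit 455756) (nat_lit 48807) (nat_lit 960877) (nat_lit 0) (nat_lit 0),Row.mk (nat_lit 14952) (nat_lit 48620) (nat_lit 455756) (nat_lit 48807) (nat_lit 960877) (nat_lit 0) (nat_lit 0),Row.mk (nat_lit 15120) (nat_lit 48620) (nat_lit 455756) (nat_lit 48807) (nat_lit 960877) (nat_lit 0) (nat_lit 0),Row.mk (nat_lit 15288) (nat_lit 48620) (nat_lit 455756) (nat_lit 48807) (nat_lit 960877) (nat_lit 0) (nat_lit 0),Row.mk (nat_lit 15456) (nat_lit 48620) (nat_lit 455756) (nat_lit 48807) (nat_lit 960877) (nat_lit 0) (nat_lit 0),Row.mk (nat_lit 15624) (nat_lit 48620) (nat_lit 455756) (nat_lit 48807) (nat_lit 960877) (nat_lit 0) (nat_lit 0),Row.mk (nat_lit 15792) (nat_lit 48620) (nat_lit 455756) (nat_lit 48807) (nat_lit 960877) (nat_lit 0) (nat_lit 0),Row.mk (nat_lit 15960) (nat_lit 48620) (nat_lit 455756) (nat_lit 48807) (nat_lit 960877) (nat_lit 0) (nat_lit 0),Row.mk (nat_lit 16128) (nat_lit 48620) (nat_lit 455756)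 (nat_lit 48807) (nat_lit 960877) (nat_lit 0) (nat_lit 0),Row.mk (nat_lit 16296) (nat_lit 48620) (nat_lit 455756) (nat_lit 48807) (nat_lit 960877) (nat_lit 0) (nat_lit 0),Row.mk (nat_lit 16464) (nat_lit 48620) (nat_lit 455756) (nat_lit 48807) (nat_lit 960877) (nat_lit 0) (nat_lit 0),Row.mk (nat_lit 16632) (nat_lit 48620) (nat_lit 455756) (nat_lit 48807) (nat_lit 960877) (nat_lit 0) (nat_lit 0),Row.mk (nat_lit 16800) (nat_lit 48620) (nat_lit 455756) (nat_lit 48807) (nat_lit 960877) (nat_lit 0) (nat_lit 0),Row.mk (nat_lit 16968) (nat_lit 48620) (nat_lit 455756) (nat_lit 48807) (nat_lit 960877) (nat_lit 0) (nat_lit 0),Row.mk (nat_lit 17136) (nat_lit 48620) (nat_lit 455756) (nat_lit 48807) (nat_lit 960877) (nat_lit 0) (nat_lit 0),Row.mk (nat_lit 17304) (nat_lit 48620) (nat_lit 455756) (nat_lit 48807) (nat_lit 960877) (nat_lit 0) (nat_lit 0),Row.mk (nat_lit 17472) (nat_lit 48620) (nat_lit 455756) (nat_lit 48807) (nat_lit 960877) (nat_lit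 0) (nat_lit 0),Row.mk (nat_lit 17640) (nat_lit 48620) (nat_lit 455756) (nat_lit 48807) (nat_lit 960877) (nat_lit 0) (nat_lit 0),Row.mk (nat_lit 17808) (nat_lit 48620) (nat_lit 455756) (nat_lit 48807) (nat_lit 960877) (nat_lit 0) (nat_lit 0),Row.mk (nat_lit 17976) (nat_lit 48620) (nat_lit 455756) (nat_lit 48807) (nat_lit 960877) (nat_lit 0) (nat_lit 0),Row.mk (nat_lit 18144) (nat_lit 48620) (nat_lit 455756) (nat_lit 48807) (nat_lit 960877) (nat_lit 0) (nat_lit 0),Row.mk (nat_lit 18312) (nat_lit 48620) (nat_lit 455756) (nat_lit 48807) (nat_lit 960877) (nat_lit 0) (nat_lit 0),Row.mk (nat_lit 18480) (nat_lit 48620) (nat_lit 455756) (nat_lit 48807) (nat_lit 960877) (nat_lit 0) (nat_lit 0),Row.mk (nat_lit 18648) (nat_lit 48620) (nat_lit 455756) (nat_lit 48807) (nat_lit 960877) (nat_lit 0) (nat_lit 0),Row.mk (nat_lit 18816) (nat_lit 48620) (nat_lit 455756) (nat_lit 48807) (nat_lit 960877) (nat_lit 0) (nat_lit 0),Row.mk (nat_lit 18984) (nat_lit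 48620) (nat_lit 455756) (nat_lit 48807) (nat_lit 960877) (nat_lit 0) (nat_lit 0),Row.mk (nat_lit 19152) (nat_lit 48620) (nat_lit 455756) (nat_lit 48807) (nat_lit 960877) (nat_lit 0) (nat_lit 0),Row.mk (nat_lit 19320) (nat_lit 48620) (nat_lit 455756) (nat_lit 48807) (nat_lit 960877) (nat_lit 0) (nat_lit 0),Row.mk (nat_lit 19488) (nat_lit 48620) (nat_lit 455756) (nat_lit 48807) (nat_lit 960877) (nat_lit 0) (nat_lit 0),Row.mk (nat_lit 19656) (nat_lit 48620) (nat_lit 455756) (nat_lit 48807) (nat_lit 960877) (nat_lit 0) (nat_lit 0),Row.mk (nat_lit 19824) (nat_lit 48620) (nat_lit 455756) (nat_lit 48807) (nat_lit 960877) (nat_lit 0) (nat_lit 0),Row.mk (nat_lit 19992) (nat_lit 48620) (nat_lit 455756) (nat_lit 48807) (nat_lit 960877) (nat_lit 0) (nat_lit 0),Row.mk (nat_lit 20160) (nat_lit 48620) (nat_lit 455756) (nat_lit 48807) (nat_lit 960877) (nat_lit 0) (nat_lit 0),Row.mk (nat_lit 20328) (nat_lit 48620) (nat_lit 455756) (nat_lit 48807)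 (nat_lit 960877) (nat_lit 0) (nat_lit 0),Row.mk (nat_lit 20496) (nat_lit 48620) (nat_lit 455756) (nat_lit 48807) (nat_lit 960877) (nat_lit 0) (nat_lit 0),Row.mk (nat_lit 20664) (nat_lit 48620) (nat_lit 455756) (nat_lit 48807) (nat_lit 960877) (nat_lit 0) (nat_lit 0),Row.mk (nat_lit 20832) (nat_lit 48620) (nat_lit 455756) (nat_lit 48807) (nat_lit 960877) (nat_lit 0) (nat_lit 0),Row.mk (nat_lit 21000) (nat_lit 48620) (nat_lit 455756) (nat_lit 48807) (nat_lit 960877) (nat_lit 0) (nat_lit 0),Row.mk (nat_lit 21168) (nat_lit 48620) (nat_lit 455756) (nat_lit 48807) (nat_lit 960877) (nat_lit 0) (nat_lit 0),Row.mk (nat_lit 21336) (nat_lit 48620) (nat_lit 455756) (nat_lit 48807) (nat_lit 960877) (nat_lit 0) (nat_lit 0),Row.mk (nat_lit 21504) (nat_lit 48620) (nat_lit 455756) (nat_lit 48807) (nat_lit 960877) (nat_lit 0) (nat_lit 0),Row.mk (nat_lit 21672) (nat_lit 48620) (nat_lit 455756) (nat_lit 48807) (nat_lit 960877) (nat_lit 0) (nat_lit 0),Row.mk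 (nat_lit 21840) (nat_lit 48620) (nat_lit 455756) (nat_lit 48807) (nat_lit 960877) (nat_lit 0) (nat_lit 0),Row.mk (nat_lit 22008) (nat_lit 48620) (nat_lit 455756) (nat_lit 48807) (nat_lit 960877) (nat_lit 0) (nat_lit 0),Row.mk (nat_lit 22176) (nat_lit 48620) (nat_lit 455756) (nat_lit 48807) (nat_lit 960877) (nat_lit 0) (nat_lit 0),Row.mk (nat_lit 22344) (nat_lit 48620) (nat_lit 455756) (nat_lit 48807) (nat_lit 960877) (nat_lit 0) (nat_lit 0),Row.mk (nat_lit 22512) (nat_lit 48620) (nat_lit 455756) (nat_lit 48807) (nat_lit 960877) (nat_lit 0) (nat_lit 0),Row.mk (nat_lit 22680) (nat_lit 48620) (nat_lit 455756) (nat_lit 48807) (nat_lit 960877) (nat_lit 0) (nat_lit 0),Row.mk (nat_lit 22848) (nat_lit 48620) (nat_lit 455756) (nat_lit 48807) (nat_lit 960877) (nat_lit 0) (nat_lit 0),Row.mk (nat_lit 23016) (nat_lit 48620) (nat_lit 455756) (nat_lit 48807) (nat_lit 960877) (nat_lit 0) (nat_lit 0),Row.mk (nat_lit 23184) (nat_lit 48620) (nat_lit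 455756) (nat_lit 48807) (nat_lit 960877) (nat_lit 0) (nat_lit 0),Row.mk (nat_lit 23352) (nat_lit 48620) (nat_lit 455756) (nat_lit 48807) (nat_lit 960877) (nat_lit 0) (nat_lit 0),Row.mk (nat_lit 23520) (nat_lit 48620) (nat_lit 455756) (nat_lit 48807) (nat_lit 960877) (nat_lit 0) (nat_lit 0),Row.mk (nat_lit 23688) (nat_lit 48620) (nat_lit 455756) (nat_lit 48807) (nat_lit 960877) (nat_lit 0) (nat_lit 0),Row.mk (nat_lit 23856) (nat_lit 48620) (nat_lit 455756) (nat_lit 48807) (nat_lit 960877) (nat_lit 0) (nat_lit 0),Row.mk (nat_lit 24024) (nat_lit 48620) (nat_lit 455756) (nat_lit 48807) (nat_lit 960877) (nat_lit 0) (nat_lit 0),Row.mk (nat_lit 24192) (nat_lit 48620) (nat_lit 455756) (nat_lit 48807) (nat_lit 960877) (nat_lit 0) (nat_lit 0),Row.mk (nat_lit 24360) (nat_lit 48620) (nat_lit 455756) (nat_lit 48807) (nat_lit 960877) (nat_lit 0) (nat_lit 0),Row.mk (nat_lit 24528) (nat_lit 48620) (nat_lit 455756) (nat_lit 48807) (nat_lit 960877)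 (nat_lit 0) (nat_lit 0),Row.mk (nat_lit 24696) (nat_lit 48620) (nat_lit 455756) (nat_lit 48807) (nat_lit 960877) (nat_lit 0) (nat_lit 0),Row.mk (nat_lit 24864) (nat_lit 48620) (nat_lit 455756) (nat_lit 48807) (nat_lit 960877) (nat_lit 0) (nat_lit 0),Row.mk (nat_lit 25032) (nat_lit 48620) (nat_lit 455756) (nat_lit 48807) (nat_lit 960877) (nat_lit 0) (nat_lit 0),Row.mk (nat_lit 25200) (nat_lit 48620) (nat_lit 455756) (nat_lit 48807) (nat_lit 960877) (nat_lit 0) (nat_lit 0),Row.mk (nat_lit 25368) (nat_lit 48620) (nat_lit 455756) (nat_lit 48807) (nat_lit 960877) (nat_lit 0) (nat_lit 0),Row.mk (nat_lit 25536) (nat_lit 48620) (nat_lit 455756) (nat_lit 48807) (nat_lit 960877) (nat_lit 0) (nat_lit 0),Row.mk (nat_lit 25704) (nat_lit 48620) (nat_lit 455756) (nat_lit 48807) (nat_lit 960877) (nat_lit 0) (nat_lit 0)],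
[Row.mk (nat_lit 10416) (nat_lit 47872) (nat_lit 270429) (nat_lit 48059) (nat_lit 1498911) (nat_lit 0) (nat_lit 0),Row.mk (nat_lit 10584) (nat_lit 47872) (nat_lit 270429) (nat_lit 48059) (nat_lit 1498911) (nat_lit 0) (nat_lit 0),Row.mk (nat_lit 10752) (nat_lit 47872) (nat_lit 270429) (nat_lit 48059) (nat_lit 1498911) (nat_lit 0) (nat_lit 0),Row.mk (nat_lit 10920) (nat_lit 47872) (nat_lit 270429) (nat_lit 48059) (nat_lit 1498911) (nat_lit 0) (nat_lit 0),Row.mk (nat_lit 11088) (nat_lit 47872) (nat_lit 270429) (nat_lit 48059) (nat_lit 1498911) (nat_lit 0) (nat_lit 0),Row.mk (nat_lit 11256) (nat_lit 47872) (nat_lit 270429) (nat_lit 48059) (nat_lit 1498911) (nat_lit 0) (nat_lit 0),Row.mk (nat_lit 11424) (nat_lit 47872) (nat_lit 270429) (nat_lit 48059) (nat_lit 1498911) (nat_lit 0) (nat_lit 0),Row.mk (nat_lit 11592) (nat_lit 47872) (nat_lit 270429) (nat_lit 48059) (nat_lit 1498911) (nat_lit 0) (nat_lit 0),Row.mk (nat_lit 11760) (nat_lit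 47872) (nat_lit 270429) (nat_lit 48059) (nat_lit 1498911) (nat_lit 0) (nat_lit 0),Row.mk (nat_lit 11928) (nat_lit 47872) (nat_lit 270429) (nat_lit 48059) (nat_lit 1498911) (nat_lit 0) (nat_lit 0),Row.mk (nat_lit 12096) (nat_lit 47872) (nat_lit 270429) (nat_lit 48059) (nat_lit 1498911) (nat_lit 0) (nat_lit 0),Row.mk (nat_lit 12264) (nat_lit 47872) (nat_lit 270429) (nat_lit 48059) (nat_lit 1498911) (nat_lit 0) (nat_lit 0),Row.mk (nat_lit 12432) (nat_lit 47872) (nat_lit 270429) (nat_lit 48059) (nat_lit 1498911) (nat_lit 0) (nat_lit 0),Row.mk (nat_lit 12600) (nat_lit 47872) (nat_lit 270429) (nat_lit 48059) (nat_lit 1498911) (nat_lit 0) (nat_lit 0),Row.mk (nat_lit 12768) (nat_lit 47872) (nat_lit 270429) (nat_lit 48059) (nat_lit 1498911) (nat_lit 0) (nat_lit 0),Row.mk (nat_lit 12936) (nat_lit 47872) (nat_lit 270429) (nat_lit 48059) (nat_lit 1498911) (nat_lit 0) (nat_lit 0),Row.mk (nat_lit 13104) (nat_lit 47872) (nat_lit 270429) (nat_lit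 48059) (nat_lit 1498911) (nat_lit 0) (nat_lit 0),Row.mk (nat_lit 13272) (nat_lit 47872) (nat_lit 270429) (nat_lit 48059) (nat_lit 1498911) (nat_lit 0) (nat_lit 0),Row.mk (nat_lit 13440) (nat_lit 47872) (nat_lit 270429) (nat_lit 48059) (nat_lit 1498911) (nat_lit 0) (nat_lit 0),Row.mk (nat_lit 13608) (nat_lit 47872) (nat_lit 270429) (nat_lit 48059) (nat_lit 1498911) (nat_lit 0) (nat_lit 0),Row.mk (nat_lit 13776) (nat_lit 47872) (nat_lit 270429) (nat_lit 48059) (nat_lit 1498911) (nat_lit 0) (nat_lit 0),Row.mk (nat_lit 13944) (nat_lit 47872) (nat_lit 270429) (nat_lit 48059) (nat_lit 1498911) (nat_lit 0) (nat_lit 0),Row.mk (nat_lit 14112) (nat_lit 47872) (nat_lit 270429) (nat_lit 48059) (nat_lit 1498911) (nat_lit 0) (nat_lit 0),Row.mk (nat_lit 14280) (nat_lit 47872) (nat_lit 270429) (nat_lit 48059) (nat_lit 1498911) (nat_lit 0) (nat_lit 0),Row.mk (nat_lit 14448) (nat_lit 47872) (nat_lit 270429) (nat_lit 48059) (nat_lit 1498911) (nat_lit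 0) (nat_lit 0),Row.mk (nat_lit 14616) (nat_lit 47872) (nat_lit 270429) (nat_lit 48059) (nat_lit 1498911) (nat_lit 0) (nat_lit 0),Row.mk (nat_lit 14784) (nat_lit 47872) (nat_lit 270429) (nat_lit 48059) (nat_lit 1498911) (nat_lit 0) (nat_lit 0),Row.mk (nat_lit 14952) (nat_lit 47872) (nat_lit 270429) (nat_lit 48059) (nat_lit 1498911) (nat_lit 0) (nat_lit 0),Row.mk (nat_lit 15120) (nat_lit 47872) (nat_lit 270429) (nat_lit 48059) (nat_lit 1498911) (nat_lit 0) (nat_lit 0),Row.mk (nat_lit 15288) (nat_lit 47872) (nat_lit 270429) (nat_lit 48059) (nat_lit 1498911) (nat_lit 0) (nat_lit 0),Row.mk (nat_lit 15456) (nat_lit 47872) (nat_lit 270429) (nat_lit 48059) (nat_lit 1498911) (nat_lit 0) (nat_lit 0),Row.mk (nat_lit 15624) (nat_lit 47872) (nat_lit 270429) (nat_lit 48059) (nat_lit 1498911) (nat_lit 0) (nat_lit 0),Row.mk (nat_lit 15792) (nat_lit 47872) (nat_lit 270429) (nat_lit 48059) (nat_lit 1498911) (nat_lit 0) (nat_lit 0),Row.mk (nat_lit 15960)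 (nat_lit 47872) (nat_lit 270429) (nat_lit 48059) (nat_lit 1498911) (nat_lit 0) (nat_lit 0),Row.mk (nat_lit 16128) (nat_lit 47872) (nat_lit 270429) (nat_lit 48059) (nat_lit 1498911) (nat_lit 0) (nat_lit 0),Row.mk (nat_lit 16296) (nat_lit 47872) (nat_lit 270429) (nat_lit 48059) (nat_lit 1498911) (nat_lit 0) (nat_lit 0),Row.mk (nat_lit 16464) (nat_lit 47872) (nat_lit 270429) (nat_lit 48059) (nat_lit 1498911) (nat_lit 0) (nat_lit 0),Row.mk (nat_lit 16632) (nat_lit 47872) (nat_lit 270429) (nat_lit 48059) (nat_lit 1498911) (nat_lit 0) (nat_lit 0),Row.mk (nat_lit 16800) (nat_lit 47872) (nat_lit 270429) (nat_lit 48059) (nat_lit 1498911) (nat_lit 0) (nat_lit 0),Row.mk (nat_lit 16968) (nat_lit 47872) (nat_lit 270429) (nat_lit 48059) (nat_lit 1498911) (nat_lit 0) (nat_lit 0),Row.mk (nat_lit 17136) (nat_lit 47872) (nat_lit 270429) (nat_lit 48059) (nat_lit 1498911) (nat_lit 0) (nat_lit 0),Row.mk (nat_lit 17304) (nat_lit 47872) (nat_lit 270429)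 (nat_lit 48059) (nat_lit 1498911) (nat_lit 0) (nat_lit 0),Row.mk (nat_lit 17472) (nat_lit 47872) (nat_lit 270429) (nat_lit 48059) (nat_lit 1498911) (nat_lit 0) (nat_lit 0),Row.mk (nat_lit 17640) (nat_lit 47872) (nat_lit 270429) (nat_lit 48059) (nat_lit 1498911) (nat_lit 0) (nat_lit 0),Row.mk (nat_lit 17808) (nat_lit 47872) (nat_lit 270429) (nat_lit 48059) (nat_lit 1498911) (nat_lit 0) (nat_lit 0),Row.mk (nat_lit 17976) (nat_lit 47872) (nat_lit 270429) (nat_lit 48059) (nat_lit 1498911) (nat_lit 0) (nat_lit 0),Row.mk (nat_lit 18144) (nat_lit 47872) (nat_lit 270429) (nat_lit 48059) (nat_lit 1498911) (nat_lit 0) (nat_lit 0),Row.mk (nat_lit 18312) (nat_lit 47872) (nat_lit 270429) (nat_lit 48059) (nat_lit 1498911) (nat_lit 0) (nat_lit 0),Row.mk (nat_lit 18480) (nat_lit 47872) (nat_lit 270429) (nat_lit 48059) (nat_lit 1498911) (nat_lit 0) (nat_lit 0),Row.mk (nat_lit 18648) (nat_lit 47872) (nat_lit 270429) (nat_lit 48059) (nat_lit 1498911)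 (nat_lit 0) (nat_lit 0),Row.mk (nat_lit 18816) (nat_lit 47872) (nat_lit 270429) (nat_lit 48059) (nat_lit 1498911) (nat_lit 0) (nat_lit 0),Row.mk (nat_lit 18984) (nat_lit 47872) (nat_lit 270429) (nat_lit 48059) (nat_lit 1498911) (nat_lit 0) (nat_lit 0),Row.mk (nat_lit 19152) (nat_lit 47872) (nat_lit 270429) (nat_lit 48059) (nat_lit 1498911) (nat_lit 0) (nat_lit 0),Row.mk (nat_lit 19320) (nat_lit 47872) (nat_lit 270429) (nat_lit 48059) (nat_lit 1498911) (nat_lit 0) (nat_lit 0),Row.mk (nat_lit 19488) (nat_lit 47872) (nat_lit 270429) (nat_lit 48059) (nat_lit 1498911) (nat_lit 0) (nat_lit 0),Row.mk (nat_lit 19656) (nat_lit 47872) (nat_lit 270429) (nat_lit 48059) (nat_lit 1498911) (nat_lit 0) (nat_lit 0),Row.mk (nat_lit 19824) (nat_lit 47872) (nat_lit 270429) (nat_lit 48059) (nat_lit 1498911) (nat_lit 0) (nat_lit 0),Row.mk (nat_lit 19992) (nat_lit 47872) (nat_lit 270429) (nat_lit 48059) (nat_lit 1498911) (nat_lit 0) (nat_lit 0),Row.mk (nat_lit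 20160) (nat_lit 47872) (nat_lit 270429) (nat_lit 48059) (nat_lit 1498911) (nat_lit 0) (nat_lit 0),Row.mk (nat_lit 20328) (nat_lit 47872) (nat_lit 270429) (nat_lit 48059) (nat_lit 1498911) (nat_lit 0) (nat_lit 0),Row.mk (nat_lit 20496) (nat_lit 47872) (nat_lit 270429) (nat_lit 48059) (nat_lit 1498911) (nat_lit 0) (nat_lit 0),Row.mk (nat_lit 20664) (nat_lit 47872) (nat_lit 270429) (nat_lit 48059) (nat_lit 1498911) (nat_lit 0) (nat_lit 0),Row.mk (nat_lit 20832) (nat_lit 47872) (nat_lit 270429) (nat_lit 48059) (nat_lit 1498911) (nat_lit 0) (nat_lit 0),Row.mk (nat_lit 21000) (nat_lit 47872) (nat_lit 270429) (nat_lit 48059) (nat_lit 1498911) (nat_lit 0) (nat_lit 0),Row.mk (nat_lit 21168) (nat_lit 47872) (nat_lit 270429) (nat_lit 48059) (nat_lit 1498911) (nat_lit 0) (nat_lit 0),Row.mk (nat_lit 21336) (nat_lit 47872) (nat_lit 270429) (nat_lit 48059) (nat_lit 1498911) (nat_lit 0) (nat_lit 0),Row.mk (nat_lit 21504) (nat_lit 47872) (nat_lit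 270429) (nat_lit 48059) (nat_lit 1498911) (nat_lit 0) (nat_lit 0),Row.mk (nat_lit 21672) (nat_lit 47872) (nat_lit 270429) (nat_lit 48059) (nat_lit 1498911) (nat_lit 0) (nat_lit 0),Row.mk (nat_lit 21840) (nat_lit 47872) (nat_lit 270429) (nat_lit 48059) (nat_lit 1498911) (nat_lit 0) (nat_lit 0),Row.mk (nat_lit 22008) (nat_lit 47872) (nat_lit 270429) (nat_lit 48059) (nat_lit 1498911) (nat_lit 0) (nat_lit 0),Row.mk (nat_lit 22176) (nat_lit 47872) (nat_lit 270429) (nat_lit 48059) (nat_lit 1498911) (nat_lit 0) (nat_lit 0),Row.mk (nat_lit 22344) (nat_lit 47872) (nat_lit 270429) (nat_lit 48059) (nat_lit 1498911) (nat_lit 0) (nat_lit 0),Row.mk (nat_lit 22512) (nat_lit 47872) (nat_lit 270429) (nat_lit 48059) (nat_lit 1498911) (nat_lit 0) (nat_lit 0),Row.mk (nat_lit 22680) (nat_lit 47872) (nat_lit 270429) (nat_lit 48059) (nat_lit 1498911) (nat_lit 0) (nat_lit 0),Row.mk (nat_lit 22848) (nat_lit 47872) (nat_lit 270429) (nat_lit 48059) (nat_lit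 1498911) (nat_lit 0) (nat_lit 0),Row.mk (nat_lit 23016) (nat_lit 47872) (nat_lit 270429) (nat_lit 48059) (nat_lit 1498911) (nat_lit 0) (nat_lit 0),Row.mk (nat_lit 23184) (nat_lit 47872) (nat_lit 270429) (nat_lit 48059) (nat_lit 1498911) (nat_lit 0) (nat_lit 0),Row.mk (nat_lit 23352) (nat_lit 47872) (nat_lit 270429) (nat_lit 48059) (nat_lit 1498911) (nat_lit 0) (nat_lit 0),Row.mk (nat_lit 23520) (nat_lit 47872) (nat_lit 270429) (nat_lit 48059) (nat_lit 1498911) (nat_lit 0) (nat_lit 0),Row.mk (nat_lit 23688) (nat_lit 47872) (nat_lit 270429) (nat_lit 48059) (nat_lit 1498911) (nat_lit 0) (nat_lit 0),Row.mk (nat_lit 23856) (nat_lit 47872) (nat_lit 270429) (nat_lit 48059) (nat_lit 1498911) (nat_lit 0) (nat_lit 0),Row.mk (nat_lit 24024) (nat_lit 47872) (nat_lit 270429) (nat_lit 48059) (nat_lit 1498911) (nat_lit 0) (nat_lit 0),Row.mk (nat_lit 24192) (nat_lit 47872) (nat_lit 270429) (nat_lit 48059) (nat_lit 1498911) (nat_lit 0) (nat_lit 0),Row.mk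 (nat_lit 24360) (nat_lit 47872) (nat_lit 270429) (nat_lit 48059) (nat_lit 1498911) (nat_lit 0) (nat_lit 0),Row.mk (nat_lit 24528) (nat_lit 47872) (nat_lit 270429) (nat_lit 48059) (nat_lit 1498911) (nat_lit 0) (nat_lit 0),Row.mk (nat_lit 24696) (nat_lit 47872) (nat_lit 270429) (nat_lit 48059) (nat_lit 1498911) (nat_lit 0) (nat_lit 0),Row.mk (nat_lit 24864) (nat_lit 47872) (nat_lit 270429) (nat_lit 48059) (nat_lit 1498911) (nat_lit 0) (nat_lit 0),Row.mk (nat_lit 25032) (nat_lit 47872) (nat_lit 270429) (nat_lit 48059) (nat_lit 1498911) (nat_lit 0) (nat_lit 0),Row.mk (nat_lit 25200) (nat_lit 47872) (nat_lit 270429) (nat_lit 48059) (nat_lit 1498911) (nat_lit 0) (nat_lit 0),Row.mk (nat_lit 25368) (nat_lit 47872) (nat_lit 270429) (nat_lit 48059) (nat_lit 1498911) (nat_lit 0) (nat_lit 0),Row.mk (nat_lit 25536) (nat_lit 47872) (nat_lit 270429) (nat_lit 48059) (nat_lit 1498911) (nat_lit 0) (nat_lit 0),Row.mk (nat_lit 25704) (nat_lit 47872)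 (nat_lit 270429) (nat_lit 48059) (nat_lit 1498911) (nat_lit 0) (nat_lit 0)],
[Row.mk (nat_lit 10416) (nat_lit 47124) (nat_lit 2107101) (nat_lit 47311) (nat_lit 102763) (nat_lit 0) (nat_lit 0),Row.mk (nat_lit 10584) (nat_lit 47124) (nat_lit 2107101) (nat_lit 47311) (nat_lit 102763) (nat_lit 0) (nat_lit 0),Row.mk (nat_lit 10752) (nat_lit 47124) (nat_lit 2107101) (nat_lit 47311) (nat_lit 102763) (nat_lit 0) (nat_lit 0),Row.mk (nat_lit 10920) (nat_lit 47124) (nat_lit 2107101) (nat_lit 47311) (nat_lit 102763) (nat_lit 0) (nat_lit 0),Row.mk (nat_lit 11088) (nat_lit 47124) (nat_lit 2107101) (nat_lit 47311) (nat_lit 102763) (nat_lit 0) (nat_lit 0),Row.mk (nat_lit 11256) (nat_lit 47124) (nat_lit 2107101) (nat_lit 47311) (nat_lit 102763) (nat_lit 0) (nat_lit 0),Row.mk (nat_lit 11424) (nat_lit 47124) (nat_lit 2107101) (nat_lit 47311) (nat_lit 102763) (nat_lit 0) (nat_lit 0),Row.mk (nat_lit 11592) (nat_lit 47124) (nat_lit 2107101) (nat_lit 47311)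 (nat_lit 102763) (nat_lit 0) (nat_lit 0),Row.mk (nat_lit 11760) (nat_lit 47124) (nat_lit 2107101) (nat_lit 47311) (nat_lit 102763) (nat_lit 0) (nat_lit 0),Row.mk (nat_lit 11928) (nat_lit 47124) (nat_lit 2107101) (nat_lit 47311) (nat_lit 102763) (nat_lit 0) (nat_lit 0),Row.mk (nat_lit 12096) (nat_lit 47124) (nat_lit 2107101) (nat_lit 47311) (nat_lit 102763) (nat_lit 0) (nat_lit 0),Row.mk (nat_lit 12264) (nat_lit 47124) (nat_lit 2107101) (nat_lit 47311) (nat_lit 102763) (nat_lit 0) (nat_lit 0),Row.mk (nat_lit 12432) (nat_lit 47124) (nat_lit 2107101) (nat_lit 47311) (nat_lit 102763) (nat_lit 0) (nat_lit 0),Row.mk (nat_lit 12600) (nat_lit 47124) (nat_lit 2107101) (nat_lit 47311) (nat_lit 102763) (nat_lit 0) (nat_lit 0),Row.mk (nat_lit 12768) (nat_lit 47124) (nat_lit 2107101) (nat_lit 47311) (nat_lit 102763) (nat_lit 0) (nat_lit 0),Row.mk (nat_lit 12936) (nat_lit 47124) (nat_lit 2107101) (nat_lit 47311) (nat_lit 102763) (nat_lit 0) (nat_lit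 0),Row.mk (nat_lit 13104) (nat_lit 47124) (nat_lit 2107101) (nat_lit 47311) (nat_lit 102763) (nat_lit 0) (nat_lit 0),Row.mk (nat_lit 13272) (nat_lit 47124) (nat_lit 2107101) (nat_lit 47311) (nat_lit 102763) (nat_lit 0) (nat_lit 0),Row.mk (nat_lit 13440) (nat_lit 47124) (nat_lit 2107101) (nat_lit 47311) (nat_lit 102763) (nat_lit 0) (nat_lit 0),Row.mk (nat_lit 13608) (nat_lit 47124) (nat_lit 2107101) (nat_lit 47311) (nat_lit 102763) (nat_lit 0) (nat_lit 0),Row.mk (nat_lit 13776) (nat_lit 47124) (nat_lit 2107101) (nat_lit 47311) (nat_lit 102763) (nat_lit 0) (nat_lit 0),Row.mk (nat_lit 13944) (nat_lit 47124) (nat_lit 2107101) (nat_lit 47311) (nat_lit 102763) (nat_lit 0) (nat_lit 0),Row.mk (nat_lit 14112) (nat_lit 47124) (nat_lit 2107101) (nat_lit 47311) (nat_lit 102763) (nat_lit 0) (nat_lit 0),Row.mk (nat_lit 14280) (nat_lit 47124) (nat_lit 2107101) (nat_lit 47311) (nat_lit 102763) (nat_lit 0) (nat_lit 0),Row.mk (nat_lit 14448) (nat_lit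 47124) (nat_lit 2107101) (nat_lit 47311) (nat_lit 102763) (nat_lit 0) (nat_lit 0),Row.mk (nat_lit 14616) (nat_lit 47124) (nat_lit 2107101) (nat_lit 47311) (nat_lit 102763) (nat_lit 0) (nat_lit 0),Row.mk (nat_lit 14784) (nat_lit 47124) (nat_lit 2107101) (nat_lit 47311) (nat_lit 102763) (nat_lit 0) (nat_lit 0),Row.mk (nat_lit 14952) (nat_lit 47124) (nat_lit 2107101) (nat_lit 47311) (nat_lit 102763) (nat_lit 0) (nat_lit 0),Row.mk (nat_lit 15120) (nat_lit 47124) (nat_lit 2107101) (nat_lit 47311) (nat_lit 102763) (nat_lit 0) (nat_lit 0),Row.mk (nat_lit 15288) (nat_lit 47124) (nat_lit 2107101) (nat_lit 47311) (nat_lit 102763) (nat_lit 0) (nat_lit 0),Row.mk (nat_lit 15456) (nat_lit 47124) (nat_lit 2107101) (nat_lit 47311) (nat_lit 102763) (nat_lit 0) (nat_lit 0),Row.mk (nat_lit 15624) (nat_lit 47124) (nat_lit 2107101) (nat_lit 47311) (nat_lit 102763) (nat_lit 0) (nat_lit 0),Row.mk (nat_lit 15792) (nat_lit 47124) (nat_lit 2107101) (nat_lit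 47311) (nat_lit 102763) (nat_lit 0) (nat_lit 0),Row.mk (nat_lit 15960) (nat_lit 47124) (nat_lit 2107101) (nat_lit 47311) (nat_lit 102763) (nat_lit 0) (nat_lit 0),Row.mk (nat_lit 16128) (nat_lit 47124) (nat_lit 2107101) (nat_lit 47311) (nat_lit 102763) (nat_lit 0) (nat_lit 0),Row.mk (nat_lit 16296) (nat_lit 47124) (nat_lit 2107101) (nat_lit 47311) (nat_lit 102763) (nat_lit 0) (nat_lit 0),Row.mk (nat_lit 16464) (nat_lit 47124) (nat_lit 2107101) (nat_lit 47311) (nat_lit 102763) (nat_lit 0) (nat_lit 0),Row.mk (nat_lit 16632) (nat_lit 47124) (nat_lit 2107101) (nat_lit 47311) (nat_lit 102763) (nat_lit 0) (nat_lit 0),Row.mk (nat_lit 16800) (nat_lit 47124) (nat_lit 2107101) (nat_lit 47311) (nat_lit 102763) (nat_lit 0) (nat_lit 0),Row.mk (nat_lit 16968) (nat_lit 47124) (nat_lit 2107101) (nat_lit 47311) (nat_lit 102763) (nat_lit 0) (nat_lit 0),Row.mk (nat_lit 17136) (nat_lit 47124) (nat_lit 2107101) (nat_lit 47311) (nat_lit 102763) (nat_lit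 0) (nat_lit 0),Row.mk (nat_lit 17304) (nat_lit 47124) (nat_lit 2107101) (nat_lit 47311) (nat_lit 102763) (nat_lit 0) (nat_lit 0),Row.mk (nat_lit 17472) (nat_lit 47124) (nat_lit 2107101) (nat_lit 47311) (nat_lit 102763) (nat_lit 0) (nat_lit 0),Row.mk (nat_lit 17640) (nat_lit 47124) (nat_lit 2107101) (nat_lit 47311) (nat_lit 102763) (nat_lit 0) (nat_lit 0),Row.mk (nat_lit 17808) (nat_lit 47124) (nat_lit 2107101) (nat_lit 47311) (nat_lit 102763) (nat_lit 0) (nat_lit 0),Row.mk (nat_lit 17976) (nat_lit 47124) (nat_lit 2107101) (nat_lit 47311) (nat_lit 102763) (nat_lit 0) (nat_lit 0),Row.mk (nat_lit 18144) (nat_lit 47124) (nat_lit 2107101) (nat_lit 47311) (nat_lit 102763) (nat_lit 0) (nat_lit 0),Row.mk (nat_lit 18312) (nat_lit 47124) (nat_lit 2107101) (nat_lit 47311) (nat_lit 102763) (nat_lit 0) (nat_lit 0),Row.mk (nat_lit 18480) (nat_lit 47124) (nat_lit 2107101) (nat_lit 47311) (nat_lit 102763) (nat_lit 0) (nat_lit 0),Row.mk (nat_lit 18648)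 (nat_lit 47124) (nat_lit 2107101) (nat_lit 47311) (nat_lit 102763) (nat_lit 0) (nat_lit 0),Row.mk (nat_lit 18816) (nat_lit 47124) (nat_lit 2107101) (nat_lit 47311) (nat_lit 102763) (nat_lit 0) (nat_lit 0),Row.mk (nat_lit 18984) (nat_lit 47124) (nat_lit 2107101) (nat_lit 47311) (nat_lit 102763) (nat_lit 0) (nat_lit 0),Row.mk (nat_lit 19152) (nat_lit 47124) (nat_lit 2107101) (nat_lit 47311) (nat_lit 102763) (nat_lit 0) (nat_lit 0),Row.mk (nat_lit 19320) (nat_lit 47124) (nat_lit 2107101) (nat_lit 47311) (nat_lit 102763) (nat_lit 0) (nat_lit 0),Row.mk (nat_lit 19488) (nat_lit 47124) (nat_lit 2107101) (nat_lit 47311) (nat_lit 102763) (nat_lit 0) (nat_lit 0),Row.mk (nat_lit 19656) (nat_lit 47124) (nat_lit 2107101) (nat_lit 47311) (nat_lit 102763) (nat_lit 0) (nat_lit 0),Row.mk (nat_lit 19824) (nat_lit 47124) (nat_lit 2107101) (nat_lit 47311) (nat_lit 102763) (nat_lit 0) (nat_lit 0),Row.mk (nat_lit 19992) (nat_lit 47124) (nat_lit 2107101)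 (nat_lit 47311) (nat_lit 102763) (nat_lit 0) (nat_lit 0),Row.mk (nat_lit 20160) (nat_lit 47124) (nat_lit 2107101) (nat_lit 47311) (nat_lit 102763) (nat_lit 0) (nat_lit 0),Row.mk (nat_lit 20328) (nat_lit 47124) (nat_lit 2107101) (nat_lit 47311) (nat_lit 102763) (nat_lit 0) (nat_lit 0),Row.mk (nat_lit 20496) (nat_lit 47124) (nat_lit 2107101) (nat_lit 47311) (nat_lit 102763) (nat_lit 0) (nat_lit 0),Row.mk (nat_lit 20664) (nat_lit 47124) (nat_lit 2107101) (nat_lit 47311) (nat_lit 102763) (nat_lit 0) (nat_lit 0),Row.mk (nat_lit 20832) (nat_lit 47124) (nat_lit 2107101) (nat_lit 47311) (nat_lit 102763) (nat_lit 0) (nat_lit 0),Row.mk (nat_lit 21000) (nat_lit 47124) (nat_lit 2107101) (nat_lit 47311) (nat_lit 102763) (nat_lit 0) (nat_lit 0),Row.mk (nat_lit 21168) (nat_lit 47124) (nat_lit 2107101) (nat_lit 47311) (nat_lit 102763) (nat_lit 0) (nat_lit 0),Row.mk (nat_lit 21336) (nat_lit 47124) (nat_lit 2107101) (nat_lit 47311) (nat_lit 102763)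 (nat_lit 0) (nat_lit 0),Row.mk (nat_lit 21504) (nat_lit 47124) (nat_lit 2107101) (nat_lit 47311) (nat_lit 102763) (nat_lit 0) (nat_lit 0),Row.mk (nat_lit 21672) (nat_lit 47124) (nat_lit 2107101) (nat_lit 47311) (nat_lit 102763) (nat_lit 0) (nat_lit 0),Row.mk (nat_lit 21840) (nat_lit 47124) (nat_lit 2107101) (nat_lit 47311) (nat_lit 102763) (nat_lit 0) (nat_lit 0),Row.mk (nat_lit 22008) (nat_lit 47124) (nat_lit 2107101) (nat_lit 47311) (nat_lit 102763) (nat_lit 0) (nat_lit 0),Row.mk (nat_lit 22176) (nat_lit 47124) (nat_lit 2107101) (nat_lit 47311) (nat_lit 102763) (nat_lit 0) (nat_lit 0),Row.mk (nat_lit 22344) (nat_lit 47124) (nat_lit 2107101) (nat_lit 47311) (nat_lit 102763) (nat_lit 0) (nat_lit 0),Row.mk (nat_lit 22512) (nat_lit 47124) (nat_lit 2107101) (nat_lit 47311) (nat_lit 102763) (nat_lit 0) (nat_lit 0),Row.mk (nat_lit 22680) (nat_lit 47124) (nat_lit 2107101) (nat_lit 47311) (nat_lit 102763) (nat_lit 0) (nat_lit 0),Row.mk (nat_lit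 22848) (nat_lit 47124) (nat_lit 2107101) (nat_lit 47311) (nat_lit 102763) (nat_lit 0) (nat_lit 0),Row.mk (nat_lit 23016) (nat_lit 47124) (nat_lit 2107101) (nat_lit 47311) (nat_lit 102763) (nat_lit 0) (nat_lit 0),Row.mk (nat_lit 23184) (nat_lit 47124) (nat_lit 2107101) (nat_lit 47311) (nat_lit 102763) (nat_lit 0) (nat_lit 0),Row.mk (nat_lit 23352) (nat_lit 47124) (nat_lit 2107101) (nat_lit 47311) (nat_lit 102763) (nat_lit 0) (nat_lit 0),Row.mk (nat_lit 23520) (nat_lit 47124) (nat_lit 2107101) (nat_lit 47311) (nat_lit 102763) (nat_lit 0) (nat_lit 0),Row.mk (nat_lit 23688) (nat_lit 47124) (nat_lit 2107101) (nat_lit 47311) (nat_lit 102763) (nat_lit 0) (nat_lit 0),Row.mk (nat_lit 23856) (nat_lit 47124) (nat_lit 2107101) (nat_lit 47311) (nat_lit 102763) (nat_lit 0) (nat_lit 0),Row.mk (nat_lit 24024) (nat_lit 47124) (nat_lit 2107101) (nat_lit 47311) (nat_lit 102763) (nat_lit 0) (nat_lit 0),Row.mk (nat_lit 24192) (nat_lit 47124) (nat_lit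 2107101) (nat_lit 47311) (nat_lit 102763) (nat_lit 0) (nat_lit 0),Row.mk (nat_lit 24360) (nat_lit 47124) (nat_lit 2107101) (nat_lit 47311) (nat_lit 102763) (nat_lit 0) (nat_lit 0),Row.mk (nat_lit 24528) (nat_lit 47124) (nat_lit 2107101) (nat_lit 47311) (nat_lit 102763) (nat_lit 0) (nat_lit 0),Row.mk (nat_lit 24696) (nat_lit 47124) (nat_lit 2107101) (nat_lit 47311) (nat_lit 102763) (nat_lit 0) (nat_lit 0),Row.mk (nat_lit 24864) (nat_lit 47124) (nat_lit 2107101) (nat_lit 47311) (nat_lit 102763) (nat_lit 0) (nat_lit 0),Row.mk (nat_lit 25032) (nat_lit 47124) (nat_lit 2107101) (nat_lit 47311) (nat_lit 102763) (nat_lit 0) (nat_lit 0),Row.mk (nat_lit 25200) (nat_lit 47124) (nat_lit 2107101) (nat_lit 47311) (nat_lit 102763) (nat_lit 0) (nat_lit 0),Row.mk (nat_lit 25368) (nat_lit 47124) (nat_lit 2107101) (nat_lit 47311) (nat_lit 102763) (nat_lit 0) (nat_lit 0),Row.mk (nat_lit 25536) (nat_lit 47124) (nat_lit 2107101) (nat_lit 47311) (nat_lit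 102763) (nat_lit 0) (nat_lit 0),Row.mk (nat_lit 25704) (nat_lit 47124) (nat_lit 2107101) (nat_lit 47311) (nat_lit 102763) (nat_lit 0) (nat_lit 0)],
[Row.mk (nat_lit 10248) (nat_lit 46189) (nat_lit 2049560) (nat_lit 46376) (nat_lit 710507) (nat_lit 0) (nat_lit 0),Row.mk (nat_lit 10416) (nat_lit 46189) (nat_lit 2049560) (nat_lit 46376) (nat_lit 710507) (nat_lit 0) (nat_lit 0),Row.mk (nat_lit 10584) (nat_lit 46189) (nat_lit 2049560) (nat_lit 46376) (nat_lit 710507) (nat_lit 0) (nat_lit 0),Row.mk (nat_lit 10752) (nat_lit 46189) (nat_lit 2049560) (nat_lit 46376) (nat_lit 710507) (nat_lit 0) (nat_lit 0),Row.mk (nat_lit 10920) (nat_lit 46189) (nat_lit 2049560) (nat_lit 46376) (nat_lit 710507) (nat_lit 0) (nat_lit 0),Row.mk (nat_lit 11088) (nat_lit 46189) (nat_lit 2049560) (nat_lit 46376) (nat_lit 710507) (nat_lit 0) (nat_lit 0),Row.mk (nat_lit 11256) (nat_lit 46189) (nat_lit 2049560) (nat_lit 46376) (nat_lit 710507) (nat_lit 0) (nat_lit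 0),Row.mk (nat_lit 11424) (nat_lit 46189) (nat_lit 2049560) (nat_lit 46376) (nat_lit 710507) (nat_lit 0) (nat_lit 0),Row.mk (nat_lit 11592) (nat_lit 46189) (nat_lit 2049560) (nat_lit 46376) (nat_lit 710507) (nat_lit 0) (nat_lit 0),Row.mk (nat_lit 11760) (nat_lit 46189) (nat_lit 2049560) (nat_lit 46376) (nat_lit 710507) (nat_lit 0) (nat_lit 0),Row.mk (nat_lit 11928) (nat_lit 46189) (nat_lit 2049560) (nat_lit 46376) (nat_lit 710507) (nat_lit 0) (nat_lit 0),Row.mk (nat_lit 12096) (nat_lit 46189) (nat_lit 2049560) (nat_lit 46376) (nat_lit 710507) (nat_lit 0) (nat_lit 0),Row.mk (nat_lit 12264) (nat_lit 46189) (nat_lit 2049560) (nat_lit 46376) (nat_lit 710507) (nat_lit 0) (nat_lit 0),Row.mk (nat_lit 12432) (nat_lit 46189) (nat_lit 2049560) (nat_lit 46376) (nat_lit 710507) (nat_lit 0) (nat_lit 0),Row.mk (nat_lit 12600) (nat_lit 46189) (nat_lit 2049560) (nat_lit 46376) (nat_lit 710507) (nat_lit 0) (nat_lit 0),Row.mk (nat_lit 12768) (nat_lit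 46189) (nat_lit 2049560) (nat_lit 46376) (nat_lit 710507) (nat_lit 0) (nat_lit 0),Row.mk (nat_lit 12936) (nat_lit 46189) (nat_lit 2049560) (nat_lit 46376) (nat_lit 710507) (nat_lit 0) (nat_lit 0),Row.mk (nat_lit 13104) (nat_lit 46189) (nat_lit 2049560) (nat_lit 46376) (nat_lit 710507) (nat_lit 0) (nat_lit 0),Row.mk (nat_lit 13272) (nat_lit 46189) (nat_lit 2049560) (nat_lit 46376) (nat_lit 710507) (nat_lit 0) (nat_lit 0),Row.mk (nat_lit 13440) (nat_lit 46189) (nat_lit 2049560) (nat_lit 46376) (nat_lit 710507) (nat_lit 0) (nat_lit 0),Row.mk (nat_lit 13608) (nat_lit 46189) (nat_lit 2049560) (nat_lit 46376) (nat_lit 710507) (nat_lit 0) (nat_lit 0),Row.mk (nat_lit 13776) (nat_lit 46189) (nat_lit 2049560) (nat_lit 46376) (nat_lit 710507) (nat_lit 0) (nat_lit 0),Row.mk (nat_lit 13944) (nat_lit 46189) (nat_lit 2049560) (nat_lit 46376) (nat_lit 710507) (nat_lit 0) (nat_lit 0),Row.mk (nat_lit 14112) (nat_lit 46189) (nat_lit 2049560) (nat_lit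 46376) (nat_lit 710507) (nat_lit 0) (nat_lit 0),Row.mk (nat_lit 14280) (nat_lit 46189) (nat_lit 2049560) (nat_lit 46376) (nat_lit 710507) (nat_lit 0) (nat_lit 0),Row.mk (nat_lit 14448) (nat_lit 46189) (nat_lit 2049560) (nat_lit 46376) (nat_lit 710507) (nat_lit 0) (nat_lit 0),Row.mk (nat_lit 14616) (nat_lit 46189) (nat_lit 2049560) (nat_lit 46376) (nat_lit 710507) (nat_lit 0) (nat_lit 0),Row.mk (nat_lit 14784) (nat_lit 46189) (nat_lit 2049560) (nat_lit 46376) (nat_lit 710507) (nat_lit 0) (nat_lit 0),Row.mk (nat_lit 14952) (nat_lit 46189) (nat_lit 2049560) (nat_lit 46376) (nat_lit 710507) (nat_lit 0) (nat_lit 0),Row.mk (nat_lit 15120) (nat_lit 46189) (nat_lit 2049560) (nat_lit 46376) (nat_lit 710507) (nat_lit 0) (nat_lit 0),Row.mk (nat_lit 15288) (nat_lit 46189) (nat_lit 2049560) (nat_lit 46376) (nat_lit 710507) (nat_lit 0) (nat_lit 0),Row.mk (nat_lit 15456) (nat_lit 46189) (nat_lit 2049560) (nat_lit 46376) (nat_lit 710507) (nat_lit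 0) (nat_lit 0),Row.mk (nat_lit 15624) (nat_lit 46189) (nat_lit 2049560) (nat_lit 46376) (nat_lit 710507) (nat_lit 0) (nat_lit 0),Row.mk (nat_lit 15792) (nat_lit 46189) (nat_lit 2049560) (nat_lit 46376) (nat_lit 710507) (nat_lit 0) (nat_lit 0),Row.mk (nat_lit 15960) (nat_lit 46189) (nat_lit 2049560) (nat_lit 46376) (nat_lit 710507) (nat_lit 0) (nat_lit 0),Row.mk (nat_lit 16128) (nat_lit 46189) (nat_lit 2049560) (nat_lit 46376) (nat_lit 710507) (nat_lit 0) (nat_lit 0),Row.mk (nat_lit 16296) (nat_lit 46189) (nat_lit 2049560) (nat_lit 46376) (nat_lit 710507) (nat_lit 0) (nat_lit 0),Row.mk (nat_lit 16464) (nat_lit 46189) (nat_lit 2049560) (nat_lit 46376) (nat_lit 710507) (nat_lit 0) (nat_lit 0),Row.mk (nat_lit 16632) (nat_lit 46189) (nat_lit 2049560) (nat_lit 46376) (nat_lit 710507) (nat_lit 0) (nat_lit 0),Row.mk (nat_lit 16800) (nat_lit 46189) (nat_lit 2049560) (nat_lit 46376) (nat_lit 710507) (nat_lit 0) (nat_lit 0),Row.mk (nat_lit 16968)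 (nat_lit 46189) (nat_lit 2049560) (nat_lit 46376) (nat_lit 710507) (nat_lit 0) (nat_lit 0),Row.mk (nat_lit 17136) (nat_lit 46189) (nat_lit 2049560) (nat_lit 46376) (nat_lit 710507) (nat_lit 0) (nat_lit 0),Row.mk (nat_lit 17304) (nat_lit 46189) (nat_lit 2049560) (nat_lit 46376) (nat_lit 710507) (nat_lit 0) (nat_lit 0),Row.mk (nat_lit 17472) (nat_lit 46189) (nat_lit 2049560) (nat_lit 46376) (nat_lit 710507) (nat_lit 0) (nat_lit 0),Row.mk (nat_lit 17640) (nat_lit 46189) (nat_lit 2049560) (nat_lit 46376) (nat_lit 710507) (nat_lit 0) (nat_lit 0),Row.mk (nat_lit 17808) (nat_lit 46189) (nat_lit 2049560) (nat_lit 46376) (nat_lit 710507) (nat_lit 0) (nat_lit 0),Row.mk (nat_lit 17976) (nat_lit 46189) (nat_lit 2049560) (nat_lit 46376) (nat_lit 710507) (nat_lit 0) (nat_lit 0),Row.mk (nat_lit 18144) (nat_lit 46189) (nat_lit 2049560) (nat_lit 46376) (nat_lit 710507) (nat_lit 0) (nat_lit 0),Row.mk (nat_lit 18312) (nat_lit 46189) (nat_lit 2049560)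 (nat_lit 46376) (nat_lit 710507) (nat_lit 0) (nat_lit 0),Row.mk (nat_lit 18480) (nat_lit 46189) (nat_lit 2049560) (nat_lit 46376) (nat_lit 710507) (nat_lit 0) (nat_lit 0),Row.mk (nat_lit 18648) (nat_lit 46189) (nat_lit 2049560) (nat_lit 46376) (nat_lit 710507) (nat_lit 0) (nat_lit 0),Row.mk (nat_lit 18816) (nat_lit 46189) (nat_lit 2049560) (nat_lit 46376) (nat_lit 710507) (nat_lit 0) (nat_lit 0),Row.mk (nat_lit 18984) (nat_lit 46189) (nat_lit 2049560) (nat_lit 46376) (nat_lit 710507) (nat_lit 0) (nat_lit 0),Row.mk (nat_lit 19152) (nat_lit 46189) (nat_lit 2049560) (nat_lit 46376) (nat_lit 710507) (nat_lit 0) (nat_lit 0),Row.mk (nat_lit 19320) (nat_lit 46189) (nat_lit 2049560) (nat_lit 46376) (nat_lit 710507) (nat_lit 0) (nat_lit 0),Row.mk (nat_lit 19488) (nat_lit 46189) (nat_lit 2049560) (nat_lit 46376) (nat_lit 710507) (nat_lit 0) (nat_lit 0),Row.mk (nat_lit 19656) (nat_lit 46189) (nat_lit 2049560) (nat_lit 46376) (nat_lit 710507)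 (nat_lit 0) (nat_lit 0),Row.mk (nat_lit 19824) (nat_lit 46189) (nat_lit 2049560) (nat_lit 46376) (nat_lit 710507) (nat_lit 0) (nat_lit 0),Row.mk (nat_lit 19992) (nat_lit 46189) (nat_lit 2049560) (nat_lit 46376) (nat_lit 710507) (nat_lit 0) (nat_lit 0),Row.mk (nat_lit 20160) (nat_lit 46189) (nat_lit 2049560) (nat_lit 46376) (nat_lit 710507) (nat_lit 0) (nat_lit 0),Row.mk (nat_lit 20328) (nat_lit 46189) (nat_lit 2049560) (nat_lit 46376) (nat_lit 710507) (nat_lit 0) (nat_lit 0),Row.mk (nat_lit 20496) (nat_lit 46189) (nat_lit 2049560) (nat_lit 46376) (nat_lit 710507) (nat_lit 0) (nat_lit 0),Row.mk (nat_lit 20664) (nat_lit 46189) (nat_lit 2049560) (nat_lit 46376) (nat_lit 710507) (nat_lit 0) (nat_lit 0),Row.mk (nat_lit 20832) (nat_lit 46189) (nat_lit 2049560) (nat_lit 46376) (nat_lit 710507) (nat_lit 0) (nat_lit 0),Row.mk (nat_lit 21000) (nat_lit 46189) (nat_lit 2049560) (nat_lit 46376) (nat_lit 710507) (nat_lit 0) (nat_lit 0),Row.mk (nat_lit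 21168) (nat_lit 46189) (nat_lit 2049560) (nat_lit 46376) (nat_lit 710507) (nat_lit 0) (nat_lit 0),Row.mk (nat_lit 21336) (nat_lit 46189) (nat_lit 2049560) (nat_lit 46376) (nat_lit 710507) (nat_lit 0) (nat_lit 0),Row.mk (nat_lit 21504) (nat_lit 46189) (nat_lit 2049560) (nat_lit 46376) (nat_lit 710507) (nat_lit 0) (nat_lit 0),Row.mk (nat_lit 21672) (nat_lit 46189) (nat_lit 2049560) (nat_lit 46376) (nat_lit 710507) (nat_lit 0) (nat_lit 0),Row.mk (nat_lit 21840) (nat_lit 46189) (nat_lit 2049560) (nat_lit 46376) (nat_lit 710507) (nat_lit 0) (nat_lit 0),Row.mk (nat_lit 22008) (nat_lit 46189) (nat_lit 2049560) (nat_lit 46376) (nat_lit 710507) (nat_lit 0) (nat_lit 0),Row.mk (nat_lit 22176) (nat_lit 46189) (nat_lit 2049560) (nat_lit 46376) (nat_lit 710507) (nat_lit 0) (nat_lit 0),Row.mk (nat_lit 22344) (nat_lit 46189) (nat_lit 2049560) (nat_lit 46376) (nat_lit 710507) (nat_lit 0) (nat_lit 0),Row.mk (nat_lit 22512) (nat_lit 46189) (nat_lit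 2049560) (nat_lit 46376) (nat_lit 710507) (nat_lit 0) (nat_lit 0),Row.mk (nat_lit 22680) (nat_lit 46189) (nat_lit 2049560) (nat_lit 46376) (nat_lit 710507) (nat_lit 0) (nat_lit 0),Row.mk (nat_lit 22848) (nat_lit 46189) (nat_lit 2049560) (nat_lit 46376) (nat_lit 710507) (nat_lit 0) (nat_lit 0),Row.mk (nat_lit 23016) (nat_lit 46189) (nat_lit 2049560) (nat_lit 46376) (nat_lit 710507) (nat_lit 0) (nat_lit 0),Row.mk (nat_lit 23184) (nat_lit 46189) (nat_lit 2049560) (nat_lit 46376) (nat_lit 710507) (nat_lit 0) (nat_lit 0),Row.mk (nat_lit 23352) (nat_lit 46189) (nat_lit 2049560) (nat_lit 46376) (nat_lit 710507) (nat_lit 0) (nat_lit 0),Row.mk (nat_lit 23520) (nat_lit 46189) (nat_lit 2049560) (nat_lit 46376) (nat_lit 710507) (nat_lit 0) (nat_lit 0),Row.mk (nat_lit 23688) (nat_lit 46189) (nat_lit 2049560) (nat_lit 46376) (nat_lit 710507) (nat_lit 0) (nat_lit 0),Row.mk (nat_lit 23856) (nat_lit 46189) (nat_lit 2049560) (nat_lit 46376) (nat_lit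 710507) (nat_lit 0) (nat_lit 0),Row.mk (nat_lit 24024) (nat_lit 46189) (nat_lit 2049560) (nat_lit 46376) (nat_lit 710507) (nat_lit 0) (nat_lit 0),Row.mk (nat_lit 24192) (nat_lit 46189) (nat_lit 2049560) (nat_lit 46376) (nat_lit 710507) (nat_lit 0) (nat_lit 0),Row.mk (nat_lit 24360) (nat_lit 46189) (nat_lit 2049560) (nat_lit 46376) (nat_lit 710507) (nat_lit 0) (nat_lit 0),Row.mk (nat_lit 24528) (nat_lit 46189) (nat_lit 2049560) (nat_lit 46376) (nat_lit 710507) (nat_lit 0) (nat_lit 0),Row.mk (nat_lit 24696) (nat_lit 46189) (nat_lit 2049560) (nat_lit 46376) (nat_lit 710507) (nat_lit 0) (nat_lit 0),Row.mk (nat_lit 24864) (nat_lit 46189) (nat_lit 2049560) (nat_lit 46376) (nat_lit 710507) (nat_lit 0) (nat_lit 0),Row.mk (nat_lit 25032) (nat_lit 46189) (nat_lit 2049560) (nat_lit 46376) (nat_lit 710507) (nat_lit 0) (nat_lit 0),Row.mk (nat_lit 25200) (nat_lit 46189) (nat_lit 2049560) (nat_lit 46376) (nat_lit 710507) (nat_lit 0) (nat_lit 0),Row.mk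 (nat_lit 25368) (nat_lit 46189) (nat_lit 2049560) (nat_lit 46376) (nat_lit 710507) (nat_lit 0) (nat_lit 0),Row.mk (nat_lit 25536) (nat_lit 46189) (nat_lit 2049560) (nat_lit 46376) (nat_lit 710507) (nat_lit 0) (nat_lit 0),Row.mk (nat_lit 25704) (nat_lit 46189) (nat_lit 2049560) (nat_lit 46376) (nat_lit 710507) (nat_lit 0) (nat_lit 0),Row.mk (nat_lit 25872) (nat_lit 46189) (nat_lit 2049560) (nat_lit 46376) (nat_lit 710507) (nat_lit 0) (nat_lit 0)],
[Row.mk (nat_lit 10080) (nat_lit 45067) (nat_lit 1651718) (nat_lit 45254) (nat_lit 1795539) (nat_lit 0) (nat_lit 0),Row.mk (nat_lit 10248) (nat_lit 45067) (nat_lit 1651718) (nat_lit 45254) (nat_lit 1795539) (nat_lit 0) (nat_lit 0),Row.mk (nat_lit 10416) (nat_lit 45067) (nat_lit 1651718) (nat_lit 45254) (nat_lit 1795539) (nat_lit 0) (nat_lit 0),Row.mk (nat_lit 10584) (nat_lit 45067) (nat_lit 1651718) (nat_lit 45254) (nat_lit 1795539) (nat_lit 0) (nat_lit 0),Row.mk (nat_lit 10752) (nat_lit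 45067) (nat_lit 1651718) (nat_lit 45254) (nat_lit 1795539) (nat_lit 0) (nat_lit 0),Row.mk (nat_lit 10920) (nat_lit 45067) (nat_lit 1651718) (nat_lit 45254) (nat_lit 1795539) (nat_lit 0) (nat_lit 0),Row.mk (nat_lit 11088) (nat_lit 45067) (nat_lit 1651718) (nat_lit 45254) (nat_lit 1795539) (nat_lit 0) (nat_lit 0),Row.mk (nat_lit 11256) (nat_lit 45067) (nat_lit 1651718) (nat_lit 45254) (nat_lit 1795539) (nat_lit 0) (nat_lit 0),Row.mk (nat_lit 11424) (nat_lit 45067) (nat_lit 1651718) (nat_lit 45254) (nat_lit 1795539) (nat_lit 0) (nat_lit 0),Row.mk (nat_lit 11592) (nat_lit 45067) (nat_lit 1651718) (nat_lit 45254) (nat_lit 1795539) (nat_lit 0) (nat_lit 0),Row.mk (nat_lit 11760) (nat_lit 45067) (nat_lit 1651718) (nat_lit 45254) (nat_lit 1795539) (nat_lit 0) (nat_lit 0),Row.mk (nat_lit 11928) (nat_lit 45067) (nat_lit 1651718) (nat_lit 45254) (nat_lit 1795539) (nat_lit 0) (nat_lit 0),Row.mk (nat_lit 12096) (nat_lit 45067) (nat_lit 1651718)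 (nat_lit 45254) (nat_lit 1795539) (nat_lit 0) (nat_lit 0),Row.mk (nat_lit 12264) (nat_lit 45067) (nat_lit 1651718) (nat_lit 45254) (nat_lit 1795539) (nat_lit 0) (nat_lit 0),Row.mk (nat_lit 12432) (nat_lit 45067) (nat_lit 1651718) (nat_lit 45254) (nat_lit 1795539) (nat_lit 0) (nat_lit 0),Row.mk (nat_lit 12600) (nat_lit 45067) (nat_lit 1651718) (nat_lit 45254) (nat_lit 1795539) (nat_lit 0) (nat_lit 0),Row.mk (nat_lit 12768) (nat_lit 45067) (nat_lit 1651718) (nat_lit 45254) (nat_lit 1795539) (nat_lit 0) (nat_lit 0),Row.mk (nat_lit 12936) (nat_lit 45067) (nat_lit 1651718) (nat_lit 45254) (nat_lit 1795539) (nat_lit 0) (nat_lit 0),Row.mk (nat_lit 13104) (nat_lit 45067) (nat_lit 1651718) (nat_lit 45254) (nat_lit 1795539) (nat_lit 0) (nat_lit 0),Row.mk (nat_lit 13272) (nat_lit 45067) (nat_lit 1651718) (nat_lit 45254) (nat_lit 1795539) (nat_lit 0) (nat_lit 0),Row.mk (nat_lit 13440) (nat_lit 45067) (nat_lit 1651718) (nat_lit 45254) (nat_lit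 1795539) (nat_lit 0) (nat_lit 0),Row.mk (nat_lit 13608) (nat_lit 45067) (nat_lit 1651718) (nat_lit 45254) (nat_lit 1795539) (nat_lit 0) (nat_lit 0),Row.mk (nat_lit 13776) (nat_lit 45067) (nat_lit 1651718) (nat_lit 45254) (nat_lit 1795539) (nat_lit 0) (nat_lit 0),Row.mk (nat_lit 13944) (nat_lit 45067) (nat_lit 1651718) (nat_lit 45254) (nat_lit 1795539) (nat_lit 0) (nat_lit 0),Row.mk (nat_lit 14112) (nat_lit 45067) (nat_lit 1651718) (nat_lit 45254) (nat_lit 1795539) (nat_lit 0) (nat_lit 0),Row.mk (nat_lit 14280) (nat_lit 45067) (nat_lit 1651718) (nat_lit 45254) (nat_lit 1795539) (nat_lit 0) (nat_lit 0),Row.mk (nat_lit 14448) (nat_lit 45067) (nat_lit 1651718) (nat_lit 45254) (nat_lit 1795539) (nat_lit 0) (nat_lit 0),Row.mk (nat_lit 14616) (nat_lit 45067) (nat_lit 1651718) (nat_lit 45254) (nat_lit 1795539) (nat_lit 0) (nat_lit 0),Row.mk (nat_lit 14784) (nat_lit 45067) (nat_lit 1651718) (nat_lit 45254) (nat_lit 1795539) (nat_lit 0) (nat_lit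 0),Row.mk (nat_lit 14952) (nat_lit 45067) (nat_lit 1651718) (nat_lit 45254) (nat_lit 1795539) (nat_lit 0) (nat_lit 0),Row.mk (nat_lit 15120) (nat_lit 45067) (nat_lit 1651718) (nat_lit 45254) (nat_lit 1795539) (nat_lit 0) (nat_lit 0),Row.mk (nat_lit 15288) (nat_lit 45067) (nat_lit 1651718) (nat_lit 45254) (nat_lit 1795539) (nat_lit 0) (nat_lit 0),Row.mk (nat_lit 15456) (nat_lit 45067) (nat_lit 1651718) (nat_lit 45254) (nat_lit 1795539) (nat_lit 0) (nat_lit 0),Row.mk (nat_lit 15624) (nat_lit 45067) (nat_lit 1651718) (nat_lit 45254) (nat_lit 1795539) (nat_lit 0) (nat_lit 0),Row.mk (nat_lit 15792) (nat_lit 45067) (nat_lit 1651718) (nat_lit 45254) (nat_lit 1795539) (nat_lit 0) (nat_lit 0),Row.mk (nat_lit 15960) (nat_lit 45067) (nat_lit 1651718) (nat_lit 45254) (nat_lit 1795539) (nat_lit 0) (nat_lit 0),Row.mk (nat_lit 16128) (nat_lit 45067) (nat_lit 1651718) (nat_lit 45254) (nat_lit 1795539) (nat_lit 0) (nat_lit 0),Row.mk (nat_lit 16296)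 (nat_lit 45067) (nat_lit 1651718) (nat_lit 45254) (nat_lit 1795539) (nat_lit 0) (nat_lit 0),Row.mk (nat_lit 16464) (nat_lit 45067) (nat_lit 1651718) (nat_lit 45254) (nat_lit 1795539) (nat_lit 0) (nat_lit 0),Row.mk (nat_lit 16632) (nat_lit 45067) (nat_lit 1651718) (nat_lit 45254) (nat_lit 1795539) (nat_lit 0) (nat_lit 0),Row.mk (nat_lit 16800) (nat_lit 45067) (nat_lit 1651718) (nat_lit 45254) (nat_lit 1795539) (nat_lit 0) (nat_lit 0),Row.mk (nat_lit 16968) (nat_lit 45067) (nat_lit 1651718) (nat_lit 45254) (nat_lit 1795539) (nat_lit 0) (nat_lit 0),Row.mk (nat_lit 17136) (nat_lit 45067) (nat_lit 1651718) (nat_lit 45254) (nat_lit 1795539) (nat_lit 0) (nat_lit 0),Row.mk (nat_lit 17304) (nat_lit 45067) (nat_lit 1651718) (nat_lit 45254) (nat_lit 1795539) (nat_lit 0) (nat_lit 0),Row.mk (nat_lit 17472) (nat_lit 45067) (nat_lit 1651718) (nat_lit 45254) (nat_lit 1795539) (nat_lit 0) (nat_lit 0),Row.mk (nat_lit 17640) (nat_lit 45067) (nat_lit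 1651718) (nat_lit 45254) (nat_lit 1795539) (nat_lit 0) (nat_lit 0),Row.mk (nat_lit 17808) (nat_lit 45067) (nat_lit 1651718) (nat_lit 45254) (nat_lit 1795539) (nat_lit 0) (nat_lit 0),Row.mk (nat_lit 17976) (nat_lit 45067) (nat_lit 1651718) (nat_lit 45254) (nat_lit 1795539) (nat_lit 0) (nat_lit 0),Row.mk (nat_lit 18144) (nat_lit 45067) (nat_lit 1651718) (nat_lit 45254) (nat_lit 1795539) (nat_lit 0) (nat_lit 0),Row.mk (nat_lit 18312) (nat_lit 45067) (nat_lit 1651718) (nat_lit 45254) (nat_lit 1795539) (nat_lit 0) (nat_lit 0),Row.mk (nat_lit 18480) (nat_lit 45067) (nat_lit 1651718) (nat_lit 45254) (nat_lit 1795539) (nat_lit 0) (nat_lit 0),Row.mk (nat_lit 18648) (nat_lit 45067) (nat_lit 1651718) (nat_lit 45254) (nat_lit 1795539) (nat_lit 0) (nat_lit 0),Row.mk (nat_lit 18816) (nat_lit 45067) (nat_lit 1651718) (nat_lit 45254) (nat_lit 1795539) (nat_lit 0) (nat_lit 0),Row.mk (nat_lit 18984) (nat_lit 45067) (nat_lit 1651718) (nat_lit 45254)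 (nat_lit 1795539) (nat_lit 0) (nat_lit 0),Row.mk (nat_lit 19152) (nat_lit 45067) (nat_lit 1651718) (nat_lit 45254) (nat_lit 1795539) (nat_lit 0) (nat_lit 0),Row.mk (nat_lit 19320) (nat_lit 45067) (nat_lit 1651718) (nat_lit 45254) (nat_lit 1795539) (nat_lit 0) (nat_lit 0),Row.mk (nat_lit 19488) (nat_lit 45067) (nat_lit 1651718) (nat_lit 45254) (nat_lit 1795539) (nat_lit 0) (nat_lit 0),Row.mk (nat_lit 19656) (nat_lit 45067) (nat_lit 1651718) (nat_lit 45254) (nat_lit 1795539) (nat_lit 0) (nat_lit 0),Row.mk (nat_lit 19824) (nat_lit 45067) (nat_lit 1651718) (nat_lit 45254) (nat_lit 1795539) (nat_lit 0) (nat_lit 0),Row.mk (nat_lit 19992) (nat_lit 45067) (nat_lit 1651718) (nat_lit 45254) (nat_lit 1795539) (nat_lit 0) (nat_lit 0),Row.mk (nat_lit 20160) (nat_lit 45067) (nat_lit 1651718) (nat_lit 45254) (nat_lit 1795539) (nat_lit 0) (nat_lit 0),Row.mk (nat_lit 20328) (nat_lit 45067) (nat_lit 1651718) (nat_lit 45254) (nat_lit 1795539) (nat_lit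 0) (nat_lit 0),Row.mk (nat_lit 20496) (nat_lit 45067) (nat_lit 1651718) (nat_lit 45254) (nat_lit 1795539) (nat_lit 0) (nat_lit 0),Row.mk (nat_lit 20664) (nat_lit 45067) (nat_lit 1651718) (nat_lit 45254) (nat_lit 1795539) (nat_lit 0) (nat_lit 0),Row.mk (nat_lit 20832) (nat_lit 45067) (nat_lit 1651718) (nat_lit 45254) (nat_lit 1795539) (nat_lit 0) (nat_lit 0),Row.mk (nat_lit 21000) (nat_lit 45067) (nat_lit 1651718) (nat_lit 45254) (nat_lit 1795539) (nat_lit 0) (nat_lit 0),Row.mk (nat_lit 21168) (nat_lit 45067) (nat_lit 1651718) (nat_lit 45254) (nat_lit 1795539) (nat_lit 0) (nat_lit 0),Row.mk (nat_lit 21336) (nat_lit 45067) (nat_lit 1651718) (nat_lit 45254) (nat_lit 1795539) (nat_lit 0) (nat_lit 0),Row.mk (nat_lit 21504) (nat_lit 45067) (nat_lit 1651718) (nat_lit 45254) (nat_lit 1795539) (nat_lit 0) (nat_lit 0),Row.mk (nat_lit 21672) (nat_lit 45067) (nat_lit 1651718) (nat_lit 45254) (nat_lit 1795539) (nat_lit 0) (nat_lit 0),Row.mk (nat_lit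 21840) (nat_lit 45067) (nat_lit 1651718) (nat_lit 45254) (nat_lit 1795539) (nat_lit 0) (nat_lit 0),Row.mk (nat_lit 22008) (nat_lit 45067) (nat_lit 1651718) (nat_lit 45254) (nat_lit 1795539) (nat_lit 0) (nat_lit 0),Row.mk (nat_lit 22176) (nat_lit 45067) (nat_lit 1651718) (nat_lit 45254) (nat_lit 1795539) (nat_lit 0) (nat_lit 0),Row.mk (nat_lit 22344) (nat_lit 45067) (nat_lit 1651718) (nat_lit 45254) (nat_lit 1795539) (nat_lit 0) (nat_lit 0),Row.mk (nat_lit 22512) (nat_lit 45067) (nat_lit 1651718) (nat_lit 45254) (nat_lit 1795539) (nat_lit 0) (nat_lit 0),Row.mk (nat_lit 22680) (nat_lit 45067) (nat_lit 1651718) (nat_lit 45254) (nat_lit 1795539) (nat_lit 0) (nat_lit 0),Row.mk (nat_lit 22848) (nat_lit 45067) (nat_lit 1651718) (nat_lit 45254) (nat_lit 1795539) (nat_lit 0) (nat_lit 0),Row.mk (nat_lit 23016) (nat_lit 45067) (nat_lit 1651718) (nat_lit 45254) (nat_lit 1795539) (nat_lit 0) (nat_lit 0),Row.mk (nat_lit 23184) (nat_lit 45067) (nat_lit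 1651718) (nat_lit 45254) (nat_lit 1795539) (nat_lit 0) (nat_lit 0),Row.mk (nat_lit 23352) (nat_lit 45067) (nat_lit 1651718) (nat_lit 45254) (nat_lit 1795539) (nat_lit 0) (nat_lit 0),Row.mk (nat_lit 23520) (nat_lit 45067) (nat_lit 1651718) (nat_lit 45254) (nat_lit 1795539) (nat_lit 0) (nat_lit 0),Row.mk (nat_lit 23688) (nat_lit 45067) (nat_lit 1651718) (nat_lit 45254) (nat_lit 1795539) (nat_lit 0) (nat_lit 0),Row.mk (nat_lit 23856) (nat_lit 45067) (nat_lit 1651718) (nat_lit 45254) (nat_lit 1795539) (nat_lit 0) (nat_lit 0),Row.mk (nat_lit 24024) (nat_lit 45067) (nat_lit 1651718) (nat_lit 45254) (nat_lit 1795539) (nat_lit 0) (nat_lit 0),Row.mk (nat_lit 24192) (nat_lit 45067) (nat_lit 1651718) (nat_lit 45254) (nat_lit 1795539) (nat_lit 0) (nat_lit 0),Row.mk (nat_lit 24360) (nat_lit 45067) (nat_lit 1651718) (nat_lit 45254) (nat_lit 1795539) (nat_lit 0) (nat_lit 0),Row.mk (nat_lit 24528) (nat_lit 45067) (nat_lit 1651718) (nat_lit 45254)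 (nat_lit 1795539) (nat_lit 0) (nat_lit 0),Row.mk (nat_lit 24696) (nat_lit 45067) (nat_lit 1651718) (nat_lit 45254) (nat_lit 1795539) (nat_lit 0) (nat_lit 0),Row.mk (nat_lit 24864) (nat_lit 45067) (nat_lit 1651718) (nat_lit 45254) (nat_lit 1795539) (nat_lit 0) (nat_lit 0),Row.mk (nat_lit 25032) (nat_lit 45067) (nat_lit 1651718) (nat_lit 45254) (nat_lit 1795539) (nat_lit 0) (nat_lit 0),Row.mk (nat_lit 25200) (nat_lit 45067) (nat_lit 1651718) (nat_lit 45254) (nat_lit 1795539) (nat_lit 0) (nat_lit 0),Row.mk (nat_lit 25368) (nat_lit 45067) (nat_lit 1651718) (nat_lit 45254) (nat_lit 1795539) (nat_lit 0) (nat_lit 0),Row.mk (nat_lit 25536) (nat_lit 45067) (nat_lit 1651718) (nat_lit 45254) (nat_lit 1795539) (nat_lit 0) (nat_lit 0),Row.mk (nat_lit 25704) (nat_lit 45067) (nat_lit 1651718) (nat_lit 45254) (nat_lit 1795539) (nat_lit 0) (nat_lit 0),Row.mk (nat_lit 25872) (nat_lit 45067) (nat_lit 1651718) (nat_lit 45254) (nat_lit 1795539) (nat_lit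 0) (nat_lit 0)],
[Row.mk (nat_lit 9912) (nat_lit 43758) (nat_lit 646322) (nat_lit 43945) (nat_lit 3659218) (nat_lit 0) (nat_lit 0),Row.mk (nat_lit 10080) (nat_lit 43758) (nat_lit 646322) (nat_lit 43945) (nat_lit 3659218) (nat_lit 0) (nat_lit 0),Row.mk (nat_lit 10248) (nat_lit 43758) (nat_lit 646322) (nat_lit 43945) (nat_lit 3659218) (nat_lit 0) (nat_lit 0),Row.mk (nat_lit 10416) (nat_lit 43758) (nat_lit 646322) (nat_lit 43945) (nat_lit 3659218) (nat_lit 0) (nat_lit 0),Row.mk (nat_lit 10584) (nat_lit 43758) (nat_lit 646322) (nat_lit 43945) (nat_lit 3659218) (nat_lit 0) (nat_lit 0),Row.mk (nat_lit 10752) (nat_lit 43758) (nat_lit 646322) (nat_lit 43945) (nat_lit 3659218) (nat_lit 0) (nat_lit 0),Row.mk (nat_lit 10920) (nat_lit 43758) (nat_lit 646322) (nat_lit 43945) (nat_lit 3659218) (nat_lit 0) (nat_lit 0),Row.mk (nat_lit 11088) (nat_lit 43758) (nat_lit 646322) (nat_lit 43945) (nat_lit 3659218) (nat_lit 0) (nat_lit 0),Row.mk (nat_lit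 11256) (nat_lit 43758) (nat_lit 646322) (nat_lit 43945) (nat_lit 3659218) (nat_lit 0) (nat_lit 0),Row.mk (nat_lit 11424) (nat_lit 43758) (nat_lit 646322) (nat_lit 43945) (nat_lit 3659218) (nat_lit 0) (nat_lit 0),Row.mk (nat_lit 11592) (nat_lit 43758) (nat_lit 646322) (nat_lit 43945) (nat_lit 3659218) (nat_lit 0) (nat_lit 0),Row.mk (nat_lit 11760) (nat_lit 43758) (nat_lit 646322) (nat_lit 43945) (nat_lit 3659218) (nat_lit 0) (nat_lit 0),Row.mk (nat_lit 11928) (nat_lit 43758) (nat_lit 646322) (nat_lit 43945) (nat_lit 3659218) (nat_lit 0) (nat_lit 0),Row.mk (nat_lit 12096) (nat_lit 43758) (nat_lit 646322) (nat_lit 43945) (nat_lit 3659218) (nat_lit 0) (nat_lit 0),Row.mk (nat_lit 12264) (nat_lit 43758) (nat_lit 646322) (nat_lit 43945) (nat_lit 3659218) (nat_lit 0) (nat_lit 0),Row.mk (nat_lit 12432) (nat_lit 43758) (nat_lit 646322) (nat_lit 43945) (nat_lit 3659218) (nat_lit 0) (nat_lit 0),Row.mk (nat_lit 12600) (nat_lit 43758) (nat_lit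 646322) (nat_lit 43945) (nat_lit 3659218) (nat_lit 0) (nat_lit 0),Row.mk (nat_lit 12768) (nat_lit 43758) (nat_lit 646322) (nat_lit 43945) (nat_lit 3659218) (nat_lit 0) (nat_lit 0),Row.mk (nat_lit 12936) (nat_lit 43758) (nat_lit 646322) (nat_lit 43945) (nat_lit 3659218) (nat_lit 0) (nat_lit 0),Row.mk (nat_lit 13104) (nat_lit 43758) (nat_lit 646322) (nat_lit 43945) (nat_lit 3659218) (nat_lit 0) (nat_lit 0),Row.mk (nat_lit 13272) (nat_lit 43758) (nat_lit 646322) (nat_lit 43945) (nat_lit 3659218) (nat_lit 0) (nat_lit 0),Row.mk (nat_lit 13440) (nat_lit 43758) (nat_lit 646322) (nat_lit 43945) (nat_lit 3659218) (nat_lit 0) (nat_lit 0),Row.mk (nat_lit 13608) (nat_lit 43758) (nat_lit 646322) (nat_lit 43945) (nat_lit 3659218) (nat_lit 0) (nat_lit 0),Row.mk (nat_lit 13776) (nat_lit 43758) (nat_lit 646322) (nat_lit 43945) (nat_lit 3659218) (nat_lit 0) (nat_lit 0),Row.mk (nat_lit 13944) (nat_lit 43758) (nat_lit 646322) (nat_lit 43945) (nat_lit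 3659218) (nat_lit 0) (nat_lit 0),Row.mk (nat_lit 14112) (nat_lit 43758) (nat_lit 646322) (nat_lit 43945) (nat_lit 3659218) (nat_lit 0) (nat_lit 0),Row.mk (nat_lit 14280) (nat_lit 43758) (nat_lit 646322) (nat_lit 43945) (nat_lit 3659218) (nat_lit 0) (nat_lit 0),Row.mk (nat_lit 14448) (nat_lit 43758) (nat_lit 646322) (nat_lit 43945) (nat_lit 3659218) (nat_lit 0) (nat_lit 0),Row.mk (nat_lit 14616) (nat_lit 43758) (nat_lit 646322) (nat_lit 43945) (nat_lit 3659218) (nat_lit 0) (nat_lit 0),Row.mk (nat_lit 14784) (nat_lit 43758) (nat_lit 646322) (nat_lit 43945) (nat_lit 3659218) (nat_lit 0) (nat_lit 0),Row.mk (nat_lit 14952) (nat_lit 43758) (nat_lit 646322) (nat_lit 43945) (nat_lit 3659218) (nat_lit 0) (nat_lit 0),Row.mk (nat_lit 15120) (nat_lit 43758) (nat_lit 646322) (nat_lit 43945) (nat_lit 3659218) (nat_lit 0) (nat_lit 0),Row.mk (nat_lit 15288) (nat_lit 43758) (nat_lit 646322) (nat_lit 43945) (nat_lit 3659218) (nat_lit 0) (nat_lit 0),Row.mk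 (nat_lit 15456) (nat_lit 43758) (nat_lit 646322) (nat_lit 43945) (nat_lit 3659218) (nat_lit 0) (nat_lit 0),Row.mk (nat_lit 15624) (nat_lit 43758) (nat_lit 646322) (nat_lit 43945) (nat_lit 3659218) (nat_lit 0) (nat_lit 0),Row.mk (nat_lit 15792) (nat_lit 43758) (nat_lit 646322) (nat_lit 43945) (nat_lit 3659218) (nat_lit 0) (nat_lit 0),Row.mk (nat_lit 15960) (nat_lit 43758) (nat_lit 646322) (nat_lit 43945) (nat_lit 3659218) (nat_lit 0) (nat_lit 0),Row.mk (nat_lit 16128) (nat_lit 43758) (nat_lit 646322) (nat_lit 43945) (nat_lit 3659218) (nat_lit 0) (nat_lit 0),Row.mk (nat_lit 16296) (nat_lit 43758) (nat_lit 646322) (nat_lit 43945) (nat_lit 3659218) (nat_lit 0) (nat_lit 0),Row.mk (nat_lit 16464) (nat_lit 43758) (nat_lit 646322) (nat_lit 43945) (nat_lit 3659218) (nat_lit 0) (nat_lit 0),Row.mk (nat_lit 16632) (nat_lit 43758) (nat_lit 646322) (nat_lit 43945) (nat_lit 3659218) (nat_lit 0) (nat_lit 0),Row.mk (nat_lit 16800) (nat_lit 43758)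 (nat_lit 646322) (nat_lit 43945) (nat_lit 3659218) (nat_lit 0) (nat_lit 0),Row.mk (nat_lit 16968) (nat_lit 43758) (nat_lit 646322) (nat_lit 43945) (nat_lit 3659218) (nat_lit 0) (nat_lit 0),Row.mk (nat_lit 17136) (nat_lit 43758) (nat_lit 646322) (nat_lit 43945) (nat_lit 3659218) (nat_lit 0) (nat_lit 0),Row.mk (nat_lit 17304) (nat_lit 43758) (nat_lit 646322) (nat_lit 43945) (nat_lit 3659218) (nat_lit 0) (nat_lit 0),Row.mk (nat_lit 17472) (nat_lit 43758) (nat_lit 646322) (nat_lit 43945) (nat_lit 3659218) (nat_lit 0) (nat_lit 0),Row.mk (nat_lit 17640) (nat_lit 43758) (nat_lit 646322) (nat_lit 43945) (nat_lit 3659218) (nat_lit 0) (nat_lit 0),Row.mk (nat_lit 17808) (nat_lit 43758) (nat_lit 646322) (nat_lit 43945) (nat_lit 3659218) (nat_lit 0) (nat_lit 0),Row.mk (nat_lit 17976) (nat_lit 43758) (nat_lit 646322) (nat_lit 43945) (nat_lit 3659218) (nat_lit 0) (nat_lit 0),Row.mk (nat_lit 18144) (nat_lit 43758) (nat_lit 646322) (nat_lit 43945)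 (nat_lit 3659218) (nat_lit 0) (nat_lit 0),Row.mk (nat_lit 18312) (nat_lit 43758) (nat_lit 646322) (nat_lit 43945) (nat_lit 3659218) (nat_lit 0) (nat_lit 0),Row.mk (nat_lit 18480) (nat_lit 43758) (nat_lit 646322) (nat_lit 43945) (nat_lit 3659218) (nat_lit 0) (nat_lit 0),Row.mk (nat_lit 18648) (nat_lit 43758) (nat_lit 646322) (nat_lit 43945) (nat_lit 3659218) (nat_lit 0) (nat_lit 0),Row.mk (nat_lit 18816) (nat_lit 43758) (nat_lit 646322) (nat_lit 43945) (nat_lit 3659218) (nat_lit 0) (nat_lit 0),Row.mk (nat_lit 18984) (nat_lit 43758) (nat_lit 646322) (nat_lit 43945) (nat_lit 3659218) (nat_lit 0) (nat_lit 0),Row.mk (nat_lit 19152) (nat_lit 43758) (nat_lit 646322) (nat_lit 43945) (nat_lit 3659218) (nat_lit 0) (nat_lit 0),Row.mk (nat_lit 19320) (nat_lit 43758) (nat_lit 646322) (nat_lit 43945) (nat_lit 3659218) (nat_lit 0) (nat_lit 0),Row.mk (nat_lit 19488) (nat_lit 43758) (nat_lit 646322) (nat_lit 43945) (nat_lit 3659218) (nat_lit 0) (nat_lit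 0),Row.mk (nat_lit 19656) (nat_lit 43758) (nat_lit 646322) (nat_lit 43945) (nat_lit 3659218) (nat_lit 0) (nat_lit 0),Row.mk (nat_lit 19824) (nat_lit 43758) (nat_lit 646322) (nat_lit 43945) (nat_lit 3659218) (nat_lit 0) (nat_lit 0),Row.mk (nat_lit 19992) (nat_lit 43758) (nat_lit 646322) (nat_lit 43945) (nat_lit 3659218) (nat_lit 0) (nat_lit 0),Row.mk (nat_lit 20160) (nat_lit 43758) (nat_lit 646322) (nat_lit 43945) (nat_lit 3659218) (nat_lit 0) (nat_lit 0),Row.mk (nat_lit 20328) (nat_lit 43758) (nat_lit 646322) (nat_lit 43945) (nat_lit 3659218) (nat_lit 0) (nat_lit 0),Row.mk (nat_lit 20496) (nat_lit 43758) (nat_lit 646322) (nat_lit 43945) (nat_lit 3659218) (nat_lit 0) (nat_lit 0),Row.mk (nat_lit 20664) (nat_lit 43758) (nat_lit 646322) (nat_lit 43945) (nat_lit 3659218) (nat_lit 0) (nat_lit 0),Row.mk (nat_lit 20832) (nat_lit 43758) (nat_lit 646322) (nat_lit 43945) (nat_lit 3659218) (nat_lit 0) (nat_lit 0),Row.mk (nat_lit 21000) (nat_lit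 43758) (nat_lit 646322) (nat_lit 43945) (nat_lit 3659218) (nat_lit 0) (nat_lit 0),Row.mk (nat_lit 21168) (nat_lit 43758) (nat_lit 646322) (nat_lit 43945) (nat_lit 3659218) (nat_lit 0) (nat_lit 0),Row.mk (nat_lit 21336) (nat_lit 43758) (nat_lit 646322) (nat_lit 43945) (nat_lit 3659218) (nat_lit 0) (nat_lit 0),Row.mk (nat_lit 21504) (nat_lit 43758) (nat_lit 646322) (nat_lit 43945) (nat_lit 3659218) (nat_lit 0) (nat_lit 0),Row.mk (nat_lit 21672) (nat_lit 43758) (nat_lit 646322) (nat_lit 43945) (nat_lit 3659218) (nat_lit 0) (nat_lit 0),Row.mk (nat_lit 21840) (nat_lit 43758) (nat_lit 646322) (nat_lit 43945) (nat_lit 3659218) (nat_lit 0) (nat_lit 0),Row.mk (nat_lit 22008) (nat_lit 43758) (nat_lit 646322) (nat_lit 43945) (nat_lit 3659218) (nat_lit 0) (nat_lit 0),Row.mk (nat_lit 22176) (nat_lit 43758) (nat_lit 646322) (nat_lit 43945) (nat_lit 3659218) (nat_lit 0) (nat_lit 0),Row.mk (nat_lit 22344) (nat_lit 43758) (nat_lit 646322) (nat_lit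 43945) (nat_lit 3659218) (nat_lit 0) (nat_lit 0),Row.mk (nat_lit 22512) (nat_lit 43758) (nat_lit 646322) (nat_lit 43945) (nat_lit 3659218) (nat_lit 0) (nat_lit 0),Row.mk (nat_lit 22680) (nat_lit 43758) (nat_lit 646322) (nat_lit 43945) (nat_lit 3659218) (nat_lit 0) (nat_lit 0),Row.mk (nat_lit 22848) (nat_lit 43758) (nat_lit 646322) (nat_lit 43945) (nat_lit 3659218) (nat_lit 0) (nat_lit 0),Row.mk (nat_lit 23016) (nat_lit 43758) (nat_lit 646322) (nat_lit 43945) (nat_lit 3659218) (nat_lit 0) (nat_lit 0),Row.mk (nat_lit 23184) (nat_lit 43758) (nat_lit 646322) (nat_lit 43945) (nat_lit 3659218) (nat_lit 0) (nat_lit 0),Row.mk (nat_lit 23352) (nat_lit 43758) (nat_lit 646322) (nat_lit 43945) (nat_lit 3659218) (nat_lit 0) (nat_lit 0),Row.mk (nat_lit 23520) (nat_lit 43758) (nat_lit 646322) (nat_lit 43945) (nat_lit 3659218) (nat_lit 0) (nat_lit 0),Row.mk (nat_lit 23688) (nat_lit 43758) (nat_lit 646322) (nat_lit 43945) (nat_lit 3659218) (nat_lit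 0) (nat_lit 0),Row.mk (nat_lit 23856) (nat_lit 43758) (nat_lit 646322) (nat_lit 43945) (nat_lit 3659218) (nat_lit 0) (nat_lit 0),Row.mk (nat_lit 24024) (nat_lit 43758) (nat_lit 646322) (nat_lit 43945) (nat_lit 3659218) (nat_lit 0) (nat_lit 0),Row.mk (nat_lit 24192) (nat_lit 43758) (nat_lit 646322) (nat_lit 43945) (nat_lit 3659218) (nat_lit 0) (nat_lit 0),Row.mk (nat_lit 24360) (nat_lit 43758) (nat_lit 646322) (nat_lit 43945) (nat_lit 3659218) (nat_lit 0) (nat_lit 0),Row.mk (nat_lit 24528) (nat_lit 43758) (nat_lit 646322) (nat_lit 43945) (nat_lit 3659218) (nat_lit 0) (nat_lit 0),Row.mk (nat_lit 24696) (nat_lit 43758) (nat_lit 646322) (nat_lit 43945) (nat_lit 3659218) (nat_lit 0) (nat_lit 0),Row.mk (nat_lit 24864) (nat_lit 43758) (nat_lit 646322) (nat_lit 43945) (nat_lit 3659218) (nat_lit 0) (nat_lit 0),Row.mk (nat_lit 25032) (nat_lit 43758) (nat_lit 646322) (nat_lit 43945) (nat_lit 3659218) (nat_lit 0) (nat_lit 0),Row.mk (nat_lit 25200)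 (nat_lit 43758) (nat_lit 646322) (nat_lit 43945) (nat_lit 3659218) (nat_lit 0) (nat_lit 0),Row.mk (nat_lit 25368) (nat_lit 43758) (nat_lit 646322) (nat_lit 43945) (nat_lit 3659218) (nat_lit 0) (nat_lit 0),Row.mk (nat_lit 25536) (nat_lit 43758) (nat_lit 646322) (nat_lit 43945) (nat_lit 3659218) (nat_lit 0) (nat_lit 0),Row.mk (nat_lit 25704) (nat_lit 43758) (nat_lit 646322) (nat_lit 43945) (nat_lit 3659218) (nat_lit 0) (nat_lit 0),Row.mk (nat_lit 25872) (nat_lit 43758) (nat_lit 646322) (nat_lit 43945) (nat_lit 3659218) (nat_lit 0) (nat_lit 0)],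
[Row.mk (nat_lit 8568) (nat_lit 42262) (nat_lit 4254498) (nat_lit 42449) (nat_lit 1123018) (nat_lit 0) (nat_lit 0),Row.mk (nat_lit 8736) (nat_lit 42262) (nat_lit 4254498) (nat_lit 42449) (nat_lit 1123018) (nat_lit 0) (nat_lit 0),Row.mk (nat_lit 8904) (nat_lit 42262) (nat_lit 4254498) (nat_lit 42449) (nat_lit 1123018) (nat_lit 0) (nat_lit 0),Row.mk (nat_lit 9072) (nat_lit 42262) (nat_lit 4254498) (nat_lit 42449) (nat_lit 1123018) (nat_lit 0) (nat_lit 0),Row.mk (nat_lit 9240) (nat_lit 42262) (nat_lit 4254498) (nat_lit 42449) (nat_lit 1123018) (nat_lit 0) (nat_lit 0),Row.mk (nat_lit 9408) (nat_lit 42262) (nat_lit 4254498) (nat_lit 42449) (nat_lit 1123018) (nat_lit 0) (nat_lit 0),Row.mk (nat_lit 9576) (nat_lit 42262) (nat_lit 4254498) (nat_lit 42449) (nat_lit 1123018) (nat_lit 0) (nat_lit 0),Row.mk (nat_lit 9744) (nat_lit 42262) (nat_lit 4254498) (nat_lit 42449) (nat_lit 1123018) (nat_lit 0) (nat_lit 0),Row.mk (nat_lit 9912) (nat_lit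 42262) (nat_lit 4254498) (nat_lit 42449) (nat_lit 1123018) (nat_lit 0) (nat_lit 0),Row.mk (nat_lit 10080) (nat_lit 42262) (nat_lit 4254498) (nat_lit 42449) (nat_lit 1123018) (nat_lit 0) (nat_lit 0),Row.mk (nat_lit 10248) (nat_lit 42262) (nat_lit 4254498) (nat_lit 42449) (nat_lit 1123018) (nat_lit 0) (nat_lit 0),Row.mk (nat_lit 10416) (nat_lit 42262) (nat_lit 4254498) (nat_lit 42449) (nat_lit 1123018) (nat_lit 0) (nat_lit 0),Row.mk (nat_lit 10584) (nat_lit 42262) (nat_lit 4254498) (nat_lit 42449) (nat_lit 1123018) (nat_lit 0) (nat_lit 0),Row.mk (nat_lit 10752) (nat_lit 42262) (nat_lit 4254498) (nat_lit 42449) (nat_lit 1123018) (nat_lit 0) (nat_lit 0),Row.mk (nat_lit 10920) (nat_lit 42262) (nat_lit 4254498) (nat_lit 42449) (nat_lit 1123018) (nat_lit 0) (nat_lit 0),Row.mk (nat_lit 11088) (nat_lit 42262) (nat_lit 4254498) (nat_lit 42449) (nat_lit 1123018) (nat_lit 0) (nat_lit 0),Row.mk (nat_lit 11256) (nat_lit 42262) (nat_lit 4254498)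 (nat_lit 42449) (nat_lit 1123018) (nat_lit 0) (nat_lit 0),Row.mk (nat_lit 11424) (nat_lit 42262) (nat_lit 4254498) (nat_lit 42449) (nat_lit 1123018) (nat_lit 0) (nat_lit 0),Row.mk (nat_lit 11592) (nat_lit 42262) (nat_lit 4254498) (nat_lit 42449) (nat_lit 1123018) (nat_lit 0) (nat_lit 0),Row.mk (nat_lit 11760) (nat_lit 42262) (nat_lit 4254498) (nat_lit 42449) (nat_lit 1123018) (nat_lit 0) (nat_lit 0),Row.mk (nat_lit 11928) (nat_lit 42262) (nat_lit 4254498) (nat_lit 42449) (nat_lit 1123018) (nat_lit 0) (nat_lit 0),Row.mk (nat_lit 12096) (nat_lit 42262) (nat_lit 4254498) (nat_lit 42449) (nat_lit 1123018) (nat_lit 0) (nat_lit 0),Row.mk (nat_lit 12264) (nat_lit 42262) (nat_lit 4254498) (nat_lit 42449) (nat_lit 1123018) (nat_lit 0) (nat_lit 0),Row.mk (nat_lit 12432) (nat_lit 42262) (nat_lit 4254498) (nat_lit 42449) (nat_lit 1123018) (nat_lit 0) (nat_lit 0),Row.mk (nat_lit 12600) (nat_lit 42262) (nat_lit 4254498) (nat_lit 42449) (nat_lit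 1123018) (nat_lit 0) (nat_lit 0),Row.mk (nat_lit 12768) (nat_lit 42262) (nat_lit 4254498) (nat_lit 42449) (nat_lit 1123018) (nat_lit 0) (nat_lit 0),Row.mk (nat_lit 12936) (nat_lit 42262) (nat_lit 4254498) (nat_lit 42449) (nat_lit 1123018) (nat_lit 0) (nat_lit 0),Row.mk (nat_lit 13104) (nat_lit 42262) (nat_lit 4254498) (nat_lit 42449) (nat_lit 1123018) (nat_lit 0) (nat_lit 0),Row.mk (nat_lit 13272) (nat_lit 42262) (nat_lit 4254498) (nat_lit 42449) (nat_lit 1123018) (nat_lit 0) (nat_lit 0),Row.mk (nat_lit 13440) (nat_lit 42262) (nat_lit 4254498) (nat_lit 42449) (nat_lit 1123018) (nat_lit 0) (nat_lit 0),Row.mk (nat_lit 13608) (nat_lit 42262) (nat_lit 4254498) (nat_lit 42449) (nat_lit 1123018) (nat_lit 0) (nat_lit 0),Row.mk (nat_lit 13776) (nat_lit 42262) (nat_lit 4254498) (nat_lit 42449) (nat_lit 1123018) (nat_lit 0) (nat_lit 0),Row.mk (nat_lit 13944) (nat_lit 42262) (nat_lit 4254498) (nat_lit 42449) (nat_lit 1123018) (nat_lit 0) (nat_lit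 0),Row.mk (nat_lit 14112) (nat_lit 42262) (nat_lit 4254498) (nat_lit 42449) (nat_lit 1123018) (nat_lit 0) (nat_lit 0),Row.mk (nat_lit 14280) (nat_lit 42262) (nat_lit 4254498) (nat_lit 42449) (nat_lit 1123018) (nat_lit 0) (nat_lit 0),Row.mk (nat_lit 14448) (nat_lit 42262) (nat_lit 4254498) (nat_lit 42449) (nat_lit 1123018) (nat_lit 0) (nat_lit 0),Row.mk (nat_lit 14616) (nat_lit 42262) (nat_lit 4254498) (nat_lit 42449) (nat_lit 1123018) (nat_lit 0) (nat_lit 0),Row.mk (nat_lit 14784) (nat_lit 42262) (nat_lit 4254498) (nat_lit 42449) (nat_lit 1123018) (nat_lit 0) (nat_lit 0),Row.mk (nat_lit 14952) (nat_lit 42262) (nat_lit 4254498) (nat_lit 42449) (nat_lit 1123018) (nat_lit 0) (nat_lit 0),Row.mk (nat_lit 15120) (nat_lit 42262) (nat_lit 4254498) (nat_lit 42449) (nat_lit 1123018) (nat_lit 0) (nat_lit 0),Row.mk (nat_lit 15288) (nat_lit 42262) (nat_lit 4254498) (nat_lit 42449) (nat_lit 1123018) (nat_lit 0) (nat_lit 0),Row.mk (nat_lit 15456)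 (nat_lit 42262) (nat_lit 4254498) (nat_lit 42449) (nat_lit 1123018) (nat_lit 0) (nat_lit 0),Row.mk (nat_lit 15624) (nat_lit 42262) (nat_lit 4254498) (nat_lit 42449) (nat_lit 1123018) (nat_lit 0) (nat_lit 0),Row.mk (nat_lit 15792) (nat_lit 42262) (nat_lit 4254498) (nat_lit 42449) (nat_lit 1123018) (nat_lit 0) (nat_lit 0),Row.mk (nat_lit 15960) (nat_lit 42262) (nat_lit 4254498) (nat_lit 42449) (nat_lit 1123018) (nat_lit 0) (nat_lit 0),Row.mk (nat_lit 16128) (nat_lit 42262) (nat_lit 4254498) (nat_lit 42449) (nat_lit 1123018) (nat_lit 0) (nat_lit 0),Row.mk (nat_lit 16296) (nat_lit 42262) (nat_lit 4254498) (nat_lit 42449) (nat_lit 1123018) (nat_lit 0) (nat_lit 0),Row.mk (nat_lit 16464) (nat_lit 42262) (nat_lit 4254498) (nat_lit 42449) (nat_lit 1123018) (nat_lit 0) (nat_lit 0),Row.mk (nat_lit 16632) (nat_lit 42262) (nat_lit 4254498) (nat_lit 42449) (nat_lit 1123018) (nat_lit 0) (nat_lit 0),Row.mk (nat_lit 16800) (nat_lit 42262) (nat_lit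 4254498) (nat_lit 42449) (nat_lit 1123018) (nat_lit 0) (nat_lit 0),Row.mk (nat_lit 16968) (nat_lit 42262) (nat_lit 4254498) (nat_lit 42449) (nat_lit 1123018) (nat_lit 0) (nat_lit 0),Row.mk (nat_lit 17136) (nat_lit 42262) (nat_lit 4254498) (nat_lit 42449) (nat_lit 1123018) (nat_lit 0) (nat_lit 0),Row.mk (nat_lit 17304) (nat_lit 42262) (nat_lit 4254498) (nat_lit 42449) (nat_lit 1123018) (nat_lit 0) (nat_lit 0),Row.mk (nat_lit 17472) (nat_lit 42262) (nat_lit 4254498) (nat_lit 42449) (nat_lit 1123018) (nat_lit 0) (nat_lit 0),Row.mk (nat_lit 17640) (nat_lit 42262) (nat_lit 4254498) (nat_lit 42449) (nat_lit 1123018) (nat_lit 0) (nat_lit 0),Row.mk (nat_lit 17808) (nat_lit 42262) (nat_lit 4254498) (nat_lit 42449) (nat_lit 1123018) (nat_lit 0) (nat_lit 0),Row.mk (nat_lit 17976) (nat_lit 42262) (nat_lit 4254498) (nat_lit 42449) (nat_lit 1123018) (nat_lit 0) (nat_lit 0),Row.mk (nat_lit 18144) (nat_lit 42262) (nat_lit 4254498) (nat_lit 42449)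 (nat_lit 1123018) (nat_lit 0) (nat_lit 0),Row.mk (nat_lit 18312) (nat_lit 42262) (nat_lit 4254498) (nat_lit 42449) (nat_lit 1123018) (nat_lit 0) (nat_lit 0),Row.mk (nat_lit 18480) (nat_lit 42262) (nat_lit 4254498) (nat_lit 42449) (nat_lit 1123018) (nat_lit 0) (nat_lit 0),Row.mk (nat_lit 18648) (nat_lit 42262) (nat_lit 4254498) (nat_lit 42449) (nat_lit 1123018) (nat_lit 0) (nat_lit 0),Row.mk (nat_lit 18816) (nat_lit 42262) (nat_lit 4254498) (nat_lit 42449) (nat_lit 1123018) (nat_lit 0) (nat_lit 0),Row.mk (nat_lit 18984) (nat_lit 42262) (nat_lit 4254498) (nat_lit 42449) (nat_lit 1123018) (nat_lit 0) (nat_lit 0),Row.mk (nat_lit 19152) (nat_lit 42262) (nat_lit 4254498) (nat_lit 42449) (nat_lit 1123018) (nat_lit 0) (nat_lit 0),Row.mk (nat_lit 19320) (nat_lit 42262) (nat_lit 4254498) (nat_lit 42449) (nat_lit 1123018) (nat_lit 0) (nat_lit 0),Row.mk (nat_lit 19488) (nat_lit 42262) (nat_lit 4254498) (nat_lit 42449) (nat_lit 1123018) (nat_lit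 0) (nat_lit 0),Row.mk (nat_lit 19656) (nat_lit 42262) (nat_lit 4254498) (nat_lit 42449) (nat_lit 1123018) (nat_lit 0) (nat_lit 0),Row.mk (nat_lit 19824) (nat_lit 42262) (nat_lit 4254498) (nat_lit 42449) (nat_lit 1123018) (nat_lit 0) (nat_lit 0),Row.mk (nat_lit 19992) (nat_lit 42262) (nat_lit 4254498) (nat_lit 42449) (nat_lit 1123018) (nat_lit 0) (nat_lit 0),Row.mk (nat_lit 20160) (nat_lit 42262) (nat_lit 4254498) (nat_lit 42449) (nat_lit 1123018) (nat_lit 0) (nat_lit 0),Row.mk (nat_lit 20328) (nat_lit 42262) (nat_lit 4254498) (nat_lit 42449) (nat_lit 1123018) (nat_lit 0) (nat_lit 0),Row.mk (nat_lit 20496) (nat_lit 42262) (nat_lit 4254498) (nat_lit 42449) (nat_lit 1123018) (nat_lit 0) (nat_lit 0),Row.mk (nat_lit 20664) (nat_lit 42262) (nat_lit 4254498) (nat_lit 42449) (nat_lit 1123018) (nat_lit 0) (nat_lit 0),Row.mk (nat_lit 20832) (nat_lit 42262) (nat_lit 4254498) (nat_lit 42449) (nat_lit 1123018) (nat_lit 0) (nat_lit 0),Row.mk (nat_lit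 21000) (nat_lit 42262) (nat_lit 4254498) (nat_lit 42449) (nat_lit 1123018) (nat_lit 0) (nat_lit 0),Row.mk (nat_lit 21168) (nat_lit 42262) (nat_lit 4254498) (nat_lit 42449) (nat_lit 1123018) (nat_lit 0) (nat_lit 0),Row.mk (nat_lit 21336) (nat_lit 42262) (nat_lit 4254498) (nat_lit 42449) (nat_lit 1123018) (nat_lit 0) (nat_lit 0),Row.mk (nat_lit 21504) (nat_lit 42262) (nat_lit 4254498) (nat_lit 42449) (nat_lit 1123018) (nat_lit 0) (nat_lit 0),Row.mk (nat_lit 21672) (nat_lit 42262) (nat_lit 4254498) (nat_lit 42449) (nat_lit 1123018) (nat_lit 0) (nat_lit 0),Row.mk (nat_lit 21840) (nat_lit 42262) (nat_lit 4254498) (nat_lit 42449) (nat_lit 1123018) (nat_lit 0) (nat_lit 0),Row.mk (nat_lit 22008) (nat_lit 42262) (nat_lit 4254498) (nat_lit 42449) (nat_lit 1123018) (nat_lit 0) (nat_lit 0),Row.mk (nat_lit 22176) (nat_lit 42262) (nat_lit 4254498) (nat_lit 42449) (nat_lit 1123018) (nat_lit 0) (nat_lit 0),Row.mk (nat_lit 22344) (nat_lit 42262) (nat_lit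 4254498) (nat_lit 42449) (nat_lit 1123018) (nat_lit 0) (nat_lit 0),Row.mk (nat_lit 22512) (nat_lit 42262) (nat_lit 4254498) (nat_lit 42449) (nat_lit 1123018) (nat_lit 0) (nat_lit 0),Row.mk (nat_lit 22680) (nat_lit 42262) (nat_lit 4254498) (nat_lit 42449) (nat_lit 1123018) (nat_lit 0) (nat_lit 0),Row.mk (nat_lit 22848) (nat_lit 42262) (nat_lit 4254498) (nat_lit 42449) (nat_lit 1123018) (nat_lit 0) (nat_lit 0),Row.mk (nat_lit 23016) (nat_lit 42262) (nat_lit 4254498) (nat_lit 42449) (nat_lit 1123018) (nat_lit 0) (nat_lit 0),Row.mk (nat_lit 23184) (nat_lit 42262) (nat_lit 4254498) (nat_lit 42449) (nat_lit 1123018) (nat_lit 0) (nat_lit 0),Row.mk (nat_lit 23352) (nat_lit 42262) (nat_lit 4254498) (nat_lit 42449) (nat_lit 1123018) (nat_lit 0) (nat_lit 0),Row.mk (nat_lit 23520) (nat_lit 42262) (nat_lit 4254498) (nat_lit 42449) (nat_lit 1123018) (nat_lit 0) (nat_lit 0),Row.mk (nat_lit 23688) (nat_lit 42262) (nat_lit 4254498) (nat_lit 42449)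 (nat_lit 1123018) (nat_lit 0) (nat_lit 0),Row.mk (nat_lit 23856) (nat_lit 42262) (nat_lit 4254498) (nat_lit 42449) (nat_lit 1123018) (nat_lit 0) (nat_lit 0),Row.mk (nat_lit 24024) (nat_lit 42262) (nat_lit 4254498) (nat_lit 42449) (nat_lit 1123018) (nat_lit 0) (nat_lit 0),Row.mk (nat_lit 24192) (nat_lit 42262) (nat_lit 4254498) (nat_lit 42449) (nat_lit 1123018) (nat_lit 0) (nat_lit 0),Row.mk (nat_lit 24360) (nat_lit 42262) (nat_lit 4254498) (nat_lit 42449) (nat_lit 1123018) (nat_lit 0) (nat_lit 0),Row.mk (nat_lit 24528) (nat_lit 42262) (nat_lit 4254498) (nat_lit 42449) (nat_lit 1123018) (nat_lit 0) (nat_lit 0),Row.mk (nat_lit 24696) (nat_lit 42262) (nat_lit 4254498) (nat_lit 42449) (nat_lit 1123018) (nat_lit 0) (nat_lit 0),Row.mk (nat_lit 24864) (nat_lit 42262) (nat_lit 4254498) (nat_lit 42449) (nat_lit 1123018) (nat_lit 0) (nat_lit 0),Row.mk (nat_lit 25032) (nat_lit 42262) (nat_lit 4254498) (nat_lit 42449) (nat_lit 1123018) (nat_lit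 0) (nat_lit 0),Row.mk (nat_lit 25200) (nat_lit 42262) (nat_lit 4254498) (nat_lit 42449) (nat_lit 1123018) (nat_lit 0) (nat_lit 0),Row.mk (nat_lit 25368) (nat_lit 42262) (nat_lit 4254498) (nat_lit 42449) (nat_lit 1123018) (nat_lit 0) (nat_lit 0),Row.mk (nat_lit 25536) (nat_lit 42262) (nat_lit 4254498) (nat_lit 42449) (nat_lit 1123018) (nat_lit 0) (nat_lit 0),Row.mk (nat_lit 25704) (nat_lit 42262) (nat_lit 4254498) (nat_lit 42449) (nat_lit 1123018) (nat_lit 0) (nat_lit 0),Row.mk (nat_lit 25872) (nat_lit 42262) (nat_lit 4254498) (nat_lit 42449) (nat_lit 1123018) (nat_lit 0) (nat_lit 0)],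
[Row.mk (nat_lit 6552) (nat_lit 40018) (nat_lit 2553699) (nat_lit 40205) (nat_lit 4162689) (nat_lit 0) (nat_lit 0),Row.mk (nat_lit 6720) (nat_lit 40018) (nat_lit 2553699) (nat_lit 40205) (nat_lit 4162689) (nat_lit 0) (nat_lit 0),Row.mk (nat_lit 6888) (nat_lit 40018) (nat_lit 2553699) (nat_lit 40205) (nat_lit 4162689) (nat_lit 0) (nat_lit 0),Row.mk (nat_lit 7056) (nat_lit 40018) (nat_lit 2553699) (nat_lit 40205) (nat_lit 4162689) (nat_lit 0) (nat_lit 0),Row.mk (nat_lit 7224) (nat_lit 40018) (nat_lit 2553699) (nat_lit 40205) (nat_lit 4162689) (nat_lit 0) (nat_lit 0),Row.mk (nat_lit 7392) (nat_lit 40018) (nat_lit 2553699) (nat_lit 40205) (nat_lit 4162689) (nat_lit 0) (nat_lit 0),Row.mk (nat_lit 7560) (nat_lit 40018) (nat_lit 2553699) (nat_lit 40205) (nat_lit 4162689) (nat_lit 0) (nat_lit 0),Row.mk (nat_lit 7728) (nat_lit 40018) (nat_lit 2553699) (nat_lit 40205) (nat_lit 4162689) (nat_lit 0) (nat_lit 0),Row.mk (nat_lit 7896) (nat_lit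 40018) (nat_lit 2553699) (nat_lit 40205) (nat_lit 4162689) (nat_lit 0) (nat_lit 0),Row.mk (nat_lit 8064) (nat_lit 40018) (nat_lit 2553699) (nat_lit 40205) (nat_lit 4162689) (nat_lit 0) (nat_lit 0),Row.mk (nat_lit 8232) (nat_lit 40018) (nat_lit 2553699) (nat_lit 40205) (nat_lit 4162689) (nat_lit 0) (nat_lit 0),Row.mk (nat_lit 8400) (nat_lit 40018) (nat_lit 2553699) (nat_lit 40205) (nat_lit 4162689) (nat_lit 0) (nat_lit 0),Row.mk (nat_lit 8568) (nat_lit 40018) (nat_lit 2553699) (nat_lit 40205) (nat_lit 4162689) (nat_lit 0) (nat_lit 0),Row.mk (nat_lit 8736) (nat_lit 40018) (nat_lit 2553699) (nat_lit 40205) (nat_lit 4162689) (nat_lit 0) (nat_lit 0),Row.mk (nat_lit 8904) (nat_lit 40018) (nat_lit 2553699) (nat_lit 40205) (nat_lit 4162689) (nat_lit 0) (nat_lit 0),Row.mk (nat_lit 9072) (nat_lit 40018) (nat_lit 2553699) (nat_lit 40205) (nat_lit 4162689) (nat_lit 0) (nat_lit 0),Row.mk (nat_lit 9240) (nat_lit 40018) (nat_lit 2553699) (nat_lit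 40205) (nat_lit 4162689) (nat_lit 0) (nat_lit 0),Row.mk (nat_lit 9408) (nat_lit 40018) (nat_lit 2553699) (nat_lit 40205) (nat_lit 4162689) (nat_lit 0) (nat_lit 0),Row.mk (nat_lit 9576) (nat_lit 40018) (nat_lit 2553699) (nat_lit 40205) (nat_lit 4162689) (nat_lit 0) (nat_lit 0),Row.mk (nat_lit 9744) (nat_lit 40018) (nat_lit 2553699) (nat_lit 40205) (nat_lit 4162689) (nat_lit 0) (nat_lit 0),Row.mk (nat_lit 9912) (nat_lit 40018) (nat_lit 2553699) (nat_lit 40205) (nat_lit 4162689) (nat_lit 0) (nat_lit 0),Row.mk (nat_lit 10080) (nat_lit 40018) (nat_lit 2553699) (nat_lit 40205) (nat_lit 4162689) (nat_lit 0) (nat_lit 0),Row.mk (nat_lit 10248) (nat_lit 40018) (nat_lit 2553699) (nat_lit 40205) (nat_lit 4162689) (nat_lit 0) (nat_lit 0),Row.mk (nat_lit 10416) (nat_lit 40018) (nat_lit 2553699) (nat_lit 40205) (nat_lit 4162689) (nat_lit 0) (nat_lit 0),Row.mk (nat_lit 10584) (nat_lit 40018) (nat_lit 2553699) (nat_lit 40205) (nat_lit 4162689) (nat_lit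 0) (nat_lit 0),Row.mk (nat_lit 10752) (nat_lit 40018) (nat_lit 2553699) (nat_lit 40205) (nat_lit 4162689) (nat_lit 0) (nat_lit 0),Row.mk (nat_lit 10920) (nat_lit 40018) (nat_lit 2553699) (nat_lit 40205) (nat_lit 4162689) (nat_lit 0) (nat_lit 0),Row.mk (nat_lit 11088) (nat_lit 40018) (nat_lit 2553699) (nat_lit 40205) (nat_lit 4162689) (nat_lit 0) (nat_lit 0),Row.mk (nat_lit 11256) (nat_lit 40018) (nat_lit 2553699) (nat_lit 40205) (nat_lit 4162689) (nat_lit 0) (nat_lit 0),Row.mk (nat_lit 11424) (nat_lit 40018) (nat_lit 2553699) (nat_lit 40205) (nat_lit 4162689) (nat_lit 0) (nat_lit 0),Row.mk (nat_lit 11592) (nat_lit 40018) (nat_lit 2553699) (nat_lit 40205) (nat_lit 4162689) (nat_lit 0) (nat_lit 0),Row.mk (nat_lit 11760) (nat_lit 40018) (nat_lit 2553699) (nat_lit 40205) (nat_lit 4162689) (nat_lit 0) (nat_lit 0),Row.mk (nat_lit 11928) (nat_lit 40018) (nat_lit 2553699) (nat_lit 40205) (nat_lit 4162689) (nat_lit 0) (nat_lit 0),Row.mk (nat_lit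 12096) (nat_lit 40018) (nat_lit 2553699) (nat_lit 40205) (nat_lit 4162689) (nat_lit 0) (nat_lit 0),Row.mk (nat_lit 12264) (nat_lit 40018) (nat_lit 2553699) (nat_lit 40205) (nat_lit 4162689) (nat_lit 0) (nat_lit 0),Row.mk (nat_lit 12432) (nat_lit 40018) (nat_lit 2553699) (nat_lit 40205) (nat_lit 4162689) (nat_lit 0) (nat_lit 0),Row.mk (nat_lit 12600) (nat_lit 40018) (nat_lit 2553699) (nat_lit 40205) (nat_lit 4162689) (nat_lit 0) (nat_lit 0),Row.mk (nat_lit 12768) (nat_lit 40018) (nat_lit 2553699) (nat_lit 40205) (nat_lit 4162689) (nat_lit 0) (nat_lit 0),Row.mk (nat_lit 12936) (nat_lit 40018) (nat_lit 2553699) (nat_lit 40205) (nat_lit 4162689) (nat_lit 0) (nat_lit 0),Row.mk (nat_lit 13104) (nat_lit 40018) (nat_lit 2553699) (nat_lit 40205) (nat_lit 4162689) (nat_lit 0) (nat_lit 0),Row.mk (nat_lit 13272) (nat_lit 40018) (nat_lit 2553699) (nat_lit 40205) (nat_lit 4162689) (nat_lit 0) (nat_lit 0),Row.mk (nat_lit 13440) (nat_lit 40018) (nat_lit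 2553699) (nat_lit 40205) (nat_lit 4162689) (nat_lit 0) (nat_lit 0),Row.mk (nat_lit 13608) (nat_lit 40018) (nat_lit 2553699) (nat_lit 40205) (nat_lit 4162689) (nat_lit 0) (nat_lit 0),Row.mk (nat_lit 13776) (nat_lit 40018) (nat_lit 2553699) (nat_lit 40205) (nat_lit 4162689) (nat_lit 0) (nat_lit 0),Row.mk (nat_lit 13944) (nat_lit 40018) (nat_lit 2553699) (nat_lit 40205) (nat_lit 4162689) (nat_lit 0) (nat_lit 0),Row.mk (nat_lit 14112) (nat_lit 40018) (nat_lit 2553699) (nat_lit 40205) (nat_lit 4162689) (nat_lit 0) (nat_lit 0),Row.mk (nat_lit 14280) (nat_lit 40018) (nat_lit 2553699) (nat_lit 40205) (nat_lit 4162689) (nat_lit 0) (nat_lit 0),Row.mk (nat_lit 14448) (nat_lit 40018) (nat_lit 2553699) (nat_lit 40205) (nat_lit 4162689) (nat_lit 0) (nat_lit 0),Row.mk (nat_lit 14616) (nat_lit 40018) (nat_lit 2553699) (nat_lit 40205) (nat_lit 4162689) (nat_lit 0) (nat_lit 0),Row.mk (nat_lit 14784) (nat_lit 40018) (nat_lit 2553699) (nat_lit 40205)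 (nat_lit 4162689) (nat_lit 0) (nat_lit 0),Row.mk (nat_lit 14952) (nat_lit 40018) (nat_lit 2553699) (nat_lit 40205) (nat_lit 4162689) (nat_lit 0) (nat_lit 0),Row.mk (nat_lit 15120) (nat_lit 40018) (nat_lit 2553699) (nat_lit 40205) (nat_lit 4162689) (nat_lit 0) (nat_lit 0),Row.mk (nat_lit 15288) (nat_lit 40018) (nat_lit 2553699) (nat_lit 40205) (nat_lit 4162689) (nat_lit 0) (nat_lit 0),Row.mk (nat_lit 15456) (nat_lit 40018) (nat_lit 2553699) (nat_lit 40205) (nat_lit 4162689) (nat_lit 0) (nat_lit 0),Row.mk (nat_lit 15624) (nat_lit 40018) (nat_lit 2553699) (nat_lit 40205) (nat_lit 4162689) (nat_lit 0) (nat_lit 0),Row.mk (nat_lit 15792) (nat_lit 40018) (nat_lit 2553699) (nat_lit 40205) (nat_lit 4162689) (nat_lit 0) (nat_lit 0),Row.mk (nat_lit 15960) (nat_lit 40018) (nat_lit 2553699) (nat_lit 40205) (nat_lit 4162689) (nat_lit 0) (nat_lit 0),Row.mk (nat_lit 16128) (nat_lit 40018) (nat_lit 2553699) (nat_lit 40205) (nat_lit 4162689) (nat_lit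 0) (nat_lit 0),Row.mk (nat_lit 16296) (nat_lit 40018) (nat_lit 2553699) (nat_lit 40205) (nat_lit 4162689) (nat_lit 0) (nat_lit 0),Row.mk (nat_lit 16464) (nat_lit 40018) (nat_lit 2553699) (nat_lit 40205) (nat_lit 4162689) (nat_lit 0) (nat_lit 0),Row.mk (nat_lit 16632) (nat_lit 40018) (nat_lit 2553699) (nat_lit 40205) (nat_lit 4162689) (nat_lit 0) (nat_lit 0),Row.mk (nat_lit 16800) (nat_lit 40018) (nat_lit 2553699) (nat_lit 40205) (nat_lit 4162689) (nat_lit 0) (nat_lit 0),Row.mk (nat_lit 16968) (nat_lit 40018) (nat_lit 2553699) (nat_lit 40205) (nat_lit 4162689) (nat_lit 0) (nat_lit 0),Row.mk (nat_lit 17136) (nat_lit 40018) (nat_lit 2553699) (nat_lit 40205) (nat_lit 4162689) (nat_lit 0) (nat_lit 0),Row.mk (nat_lit 17304) (nat_lit 40018) (nat_lit 2553699) (nat_lit 40205) (nat_lit 4162689) (nat_lit 0) (nat_lit 0),Row.mk (nat_lit 17472) (nat_lit 40018) (nat_lit 2553699) (nat_lit 40205) (nat_lit 4162689) (nat_lit 0) (nat_lit 0),Row.mk (nat_lit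 17640) (nat_lit 40018) (nat_lit 2553699) (nat_lit 40205) (nat_lit 4162689) (nat_lit 0) (nat_lit 0),Row.mk (nat_lit 17808) (nat_lit 40018) (nat_lit 2553699) (nat_lit 40205) (nat_lit 4162689) (nat_lit 0) (nat_lit 0),Row.mk (nat_lit 17976) (nat_lit 40018) (nat_lit 2553699) (nat_lit 40205) (nat_lit 4162689) (nat_lit 0) (nat_lit 0),Row.mk (nat_lit 18144) (nat_lit 40018) (nat_lit 2553699) (nat_lit 40205) (nat_lit 4162689) (nat_lit 0) (nat_lit 0),Row.mk (nat_lit 18312) (nat_lit 40018) (nat_lit 2553699) (nat_lit 40205) (nat_lit 4162689) (nat_lit 0) (nat_lit 0),Row.mk (nat_lit 18480) (nat_lit 40018) (nat_lit 2553699) (nat_lit 40205) (nat_lit 4162689) (nat_lit 0) (nat_lit 0),Row.mk (nat_lit 18648) (nat_lit 40018) (nat_lit 2553699) (nat_lit 40205) (nat_lit 4162689) (nat_lit 0) (nat_lit 0),Row.mk (nat_lit 18816) (nat_lit 40018) (nat_lit 2553699) (nat_lit 40205) (nat_lit 4162689) (nat_lit 0) (nat_lit 0),Row.mk (nat_lit 18984) (nat_lit 40018) (nat_lit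 2553699) (nat_lit 40205) (nat_lit 4162689) (nat_lit 0) (nat_lit 0),Row.mk (nat_lit 19152) (nat_lit 40018) (nat_lit 2553699) (nat_lit 40205) (nat_lit 4162689) (nat_lit 0) (nat_lit 0),Row.mk (nat_lit 19320) (nat_lit 40018) (nat_lit 2553699) (nat_lit 40205) (nat_lit 4162689) (nat_lit 0) (nat_lit 0),Row.mk (nat_lit 19488) (nat_lit 40018) (nat_lit 2553699) (nat_lit 40205) (nat_lit 4162689) (nat_lit 0) (nat_lit 0),Row.mk (nat_lit 19656) (nat_lit 40018) (nat_lit 2553699) (nat_lit 40205) (nat_lit 4162689) (nat_lit 0) (nat_lit 0),Row.mk (nat_lit 19824) (nat_lit 40018) (nat_lit 2553699) (nat_lit 40205) (nat_lit 4162689) (nat_lit 0) (nat_lit 0),Row.mk (nat_lit 19992) (nat_lit 40018) (nat_lit 2553699) (nat_lit 40205) (nat_lit 4162689) (nat_lit 0) (nat_lit 0),Row.mk (nat_lit 20160) (nat_lit 40018) (nat_lit 2553699) (nat_lit 40205) (nat_lit 4162689) (nat_lit 0) (nat_lit 0),Row.mk (nat_lit 20328) (nat_lit 40018) (nat_lit 2553699) (nat_lit 40205)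 (nat_lit 4162689) (nat_lit 0) (nat_lit 0),Row.mk (nat_lit 20496) (nat_lit 40018) (nat_lit 2553699) (nat_lit 40205) (nat_lit 4162689) (nat_lit 0) (nat_lit 0),Row.mk (nat_lit 20664) (nat_lit 40018) (nat_lit 2553699) (nat_lit 40205) (nat_lit 4162689) (nat_lit 0) (nat_lit 0),Row.mk (nat_lit 20832) (nat_lit 40018) (nat_lit 2553699) (nat_lit 40205) (nat_lit 4162689) (nat_lit 0) (nat_lit 0),Row.mk (nat_lit 21000) (nat_lit 40018) (nat_lit 2553699) (nat_lit 40205) (nat_lit 4162689) (nat_lit 0) (nat_lit 0),Row.mk (nat_lit 21168) (nat_lit 40018) (nat_lit 2553699) (nat_lit 40205) (nat_lit 4162689) (nat_lit 0) (nat_lit 0),Row.mk (nat_lit 21336) (nat_lit 40018) (nat_lit 2553699) (nat_lit 40205) (nat_lit 4162689) (nat_lit 0) (nat_lit 0),Row.mk (nat_lit 21504) (nat_lit 40018) (nat_lit 2553699) (nat_lit 40205) (nat_lit 4162689) (nat_lit 0) (nat_lit 0),Row.mk (nat_lit 21672) (nat_lit 40018) (nat_lit 2553699) (nat_lit 40205) (nat_lit 4162689) (nat_lit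 0) (nat_lit 0),Row.mk (nat_lit 21840) (nat_lit 40018) (nat_lit 2553699) (nat_lit 40205) (nat_lit 4162689) (nat_lit 0) (nat_lit 0),Row.mk (nat_lit 22008) (nat_lit 40018) (nat_lit 2553699) (nat_lit 40205) (nat_lit 4162689) (nat_lit 0) (nat_lit 0),Row.mk (nat_lit 22176) (nat_lit 40018) (nat_lit 2553699) (nat_lit 40205) (nat_lit 4162689) (nat_lit 0) (nat_lit 0),Row.mk (nat_lit 22344) (nat_lit 40018) (nat_lit 2553699) (nat_lit 40205) (nat_lit 4162689) (nat_lit 0) (nat_lit 0),Row.mk (nat_lit 22512) (nat_lit 40018) (nat_lit 2553699) (nat_lit 40205) (nat_lit 4162689) (nat_lit 0) (nat_lit 0),Row.mk (nat_lit 22680) (nat_lit 40018) (nat_lit 2553699) (nat_lit 40205) (nat_lit 4162689) (nat_lit 0) (nat_lit 0),Row.mk (nat_lit 22848) (nat_lit 40018) (nat_lit 2553699) (nat_lit 40205) (nat_lit 4162689) (nat_lit 0) (nat_lit 0),Row.mk (nat_lit 23016) (nat_lit 40018) (nat_lit 2553699) (nat_lit 40205) (nat_lit 4162689) (nat_lit 0) (nat_lit 0),Row.mk (nat_lit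 23184) (nat_lit 40018) (nat_lit 2553699) (nat_lit 40205) (nat_lit 4162689) (nat_lit 0) (nat_lit 0),Row.mk (nat_lit 23352) (nat_lit 40018) (nat_lit 2553699) (nat_lit 40205) (nat_lit 4162689) (nat_lit 0) (nat_lit 0),Row.mk (nat_lit 23520) (nat_lit 40018) (nat_lit 2553699) (nat_lit 40205) (nat_lit 4162689) (nat_lit 0) (nat_lit 0),Row.mk (nat_lit 23688) (nat_lit 40018) (nat_lit 2553699) (nat_lit 40205) (nat_lit 4162689) (nat_lit 0) (nat_lit 0),Row.mk (nat_lit 23856) (nat_lit 40018) (nat_lit 2553699) (nat_lit 40205) (nat_lit 4162689) (nat_lit 0) (nat_lit 0),Row.mk (nat_lit 24024) (nat_lit 40018) (nat_lit 2553699) (nat_lit 40205) (nat_lit 4162689) (nat_lit 0) (nat_lit 0),Row.mk (nat_lit 24192) (nat_lit 40018) (nat_lit 2553699) (nat_lit 40205) (nat_lit 4162689) (nat_lit 0) (nat_lit 0),Row.mk (nat_lit 24360) (nat_lit 40018) (nat_lit 2553699) (nat_lit 40205) (nat_lit 4162689) (nat_lit 0) (nat_lit 0),Row.mk (nat_lit 24528) (nat_lit 40018) (nat_lit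 2553699) (nat_lit 40205) (nat_lit 4162689) (nat_lit 0) (nat_lit 0),Row.mk (nat_lit 24696) (nat_lit 40018) (nat_lit 2553699) (nat_lit 40205) (nat_lit 4162689) (nat_lit 0) (nat_lit 0),Row.mk (nat_lit 24864) (nat_lit 40018) (nat_lit 2553699) (nat_lit 40205) (nat_lit 4162689) (nat_lit 0) (nat_lit 0),Row.mk (nat_lit 25032) (nat_lit 40018) (nat_lit 2553699) (nat_lit 40205) (nat_lit 4162689) (nat_lit 0) (nat_lit 0),Row.mk (nat_lit 25200) (nat_lit 40018) (nat_lit 2553699) (nat_lit 40205) (nat_lit 4162689) (nat_lit 0) (nat_lit 0),Row.mk (nat_lit 25368) (nat_lit 40018) (nat_lit 2553699) (nat_lit 40205) (nat_lit 4162689) (nat_lit 0) (nat_lit 0),Row.mk (nat_lit 25536) (nat_lit 40018) (nat_lit 2553699) (nat_lit 40205) (nat_lit 4162689) (nat_lit 0) (nat_lit 0),Row.mk (nat_lit 25704) (nat_lit 40018) (nat_lit 2553699) (nat_lit 40205) (nat_lit 4162689) (nat_lit 0) (nat_lit 0),Row.mk (nat_lit 25872) (nat_lit 40018) (nat_lit 2553699) (nat_lit 40205)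 (nat_lit 4162689) (nat_lit 0) (nat_lit 0),Row.mk (nat_lit 26040) (nat_lit 40018) (nat_lit 2553699) (nat_lit 40205) (nat_lit 4162689) (nat_lit 0) (nat_lit 0)],
[Row.mk (nat_lit 5880) (nat_lit 33473) (nat_lit 7495049) (nat_lit 33660) (nat_lit 893558) (nat_lit 0) (nat_lit 0),Row.mk (nat_lit 6048) (nat_lit 33473) (nat_lit 7495049) (nat_lit 33660) (nat_lit 893558) (nat_lit 0) (nat_lit 0),Row.mk (nat_lit 6216) (nat_lit 33473) (nat_lit 7495049) (nat_lit 33660) (nat_lit 893558) (nat_lit 0) (nat_lit 0),Row.mk (nat_lit 6384) (nat_lit 33473) (nat_lit 7495049) (nat_lit 33660) (nat_lit 893558) (nat_lit 0) (nat_lit 0),Row.mk (nat_lit 6552) (nat_lit 33473) (nat_lit 7495049) (nat_lit 33660) (nat_lit 893558) (nat_lit 0) (nat_lit 0),Row.mk (nat_lit 6720) (nat_lit 33473) (nat_lit 7495049) (nat_lit 33660) (nat_lit 893558) (nat_lit 0) (nat_lit 0),Row.mk (nat_lit 6888) (nat_lit 33473) (nat_lit 7495049) (nat_lit 33660) (nat_lit 893558) (nat_lit 0) (nat_lit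 0),Row.mk (nat_lit 7056) (nat_lit 33473) (nat_lit 7495049) (nat_lit 33660) (nat_lit 893558) (nat_lit 0) (nat_lit 0),Row.mk (nat_lit 7224) (nat_lit 33473) (nat_lit 7495049) (nat_lit 33660) (nat_lit 893558) (nat_lit 0) (nat_lit 0),Row.mk (nat_lit 7392) (nat_lit 33473) (nat_lit 7495049) (nat_lit 33660) (nat_lit 893558) (nat_lit 0) (nat_lit 0),Row.mk (nat_lit 7560) (nat_lit 33473) (nat_lit 7495049) (nat_lit 33660) (nat_lit 893558) (nat_lit 0) (nat_lit 0),Row.mk (nat_lit 7728) (nat_lit 33473) (nat_lit 7495049) (nat_lit 33660) (nat_lit 893558) (nat_lit 0) (nat_lit 0),Row.mk (nat_lit 7896) (nat_lit 33473) (nat_lit 7495049) (nat_lit 33660) (nat_lit 893558) (nat_lit 0) (nat_lit 0),Row.mk (nat_lit 8064) (nat_lit 33473) (nat_lit 7495049) (nat_lit 33660) (nat_lit 893558) (nat_lit 0) (nat_lit 0),Row.mk (nat_lit 8232) (nat_lit 33473) (nat_lit 7495049) (nat_lit 33660) (nat_lit 893558) (nat_lit 0) (nat_lit 0),Row.mk (nat_lit 8400) (nat_lit 33473)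 (nat_lit 7495049) (nat_lit 33660) (nat_lit 893558) (nat_lit 0) (nat_lit 0),Row.mk (nat_lit 8568) (nat_lit 33473) (nat_lit 7495049) (nat_lit 33660) (nat_lit 893558) (nat_lit 0) (nat_lit 0),Row.mk (nat_lit 8736) (nat_lit 33473) (nat_lit 7495049) (nat_lit 33660) (nat_lit 893558) (nat_lit 0) (nat_lit 0),Row.mk (nat_lit 8904) (nat_lit 33473) (nat_lit 7495049) (nat_lit 33660) (nat_lit 893558) (nat_lit 0) (nat_lit 0),Row.mk (nat_lit 9072) (nat_lit 33473) (nat_lit 7495049) (nat_lit 33660) (nat_lit 893558) (nat_lit 0) (nat_lit 0),Row.mk (nat_lit 9240) (nat_lit 33473) (nat_lit 7495049) (nat_lit 33660) (nat_lit 893558) (nat_lit 0) (nat_lit 0),Row.mk (nat_lit 9408) (nat_lit 33473) (nat_lit 7495049) (nat_lit 33660) (nat_lit 893558) (nat_lit 0) (nat_lit 0),Row.mk (nat_lit 9576) (nat_lit 33473) (nat_lit 7495049) (nat_lit 33660) (nat_lit 893558) (nat_lit 0) (nat_lit 0),Row.mk (nat_lit 9744) (nat_lit 33473) (nat_lit 7495049) (nat_lit 33660) (nat_lit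 893558) (nat_lit 0) (nat_lit 0),Row.mk (nat_lit 9912) (nat_lit 33473) (nat_lit 7495049) (nat_lit 33660) (nat_lit 893558) (nat_lit 0) (nat_lit 0),Row.mk (nat_lit 10080) (nat_lit 33473) (nat_lit 7495049) (nat_lit 33660) (nat_lit 893558) (nat_lit 0) (nat_lit 0),Row.mk (nat_lit 10248) (nat_lit 33473) (nat_lit 7495049) (nat_lit 33660) (nat_lit 893558) (nat_lit 0) (nat_lit 0),Row.mk (nat_lit 10416) (nat_lit 33473) (nat_lit 7495049) (nat_lit 33660) (nat_lit 893558) (nat_lit 0) (nat_lit 0),Row.mk (nat_lit 10584) (nat_lit 33473) (nat_lit 7495049) (nat_lit 33660) (nat_lit 893558) (nat_lit 0) (nat_lit 0),Row.mk (nat_lit 10752) (nat_lit 33473) (nat_lit 7495049) (nat_lit 33660) (nat_lit 893558) (nat_lit 0) (nat_lit 0),Row.mk (nat_lit 10920) (nat_lit 33473) (nat_lit 7495049) (nat_lit 33660) (nat_lit 893558) (nat_lit 0) (nat_lit 0),Row.mk (nat_lit 11088) (nat_lit 33473) (nat_lit 7495049) (nat_lit 33660) (nat_lit 893558) (nat_lit 0) (nat_lit 0),Row.mk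 (nat_lit 11256) (nat_lit 33473) (nat_lit 7495049) (nat_lit 33660) (nat_lit 893558) (nat_lit 0) (nat_lit 0),Row.mk (nat_lit 11424) (nat_lit 33473) (nat_lit 7495049) (nat_lit 33660) (nat_lit 893558) (nat_lit 0) (nat_lit 0),Row.mk (nat_lit 11592) (nat_lit 33473) (nat_lit 7495049) (nat_lit 33660) (nat_lit 893558) (nat_lit 0) (nat_lit 0),Row.mk (nat_lit 11760) (nat_lit 33473) (nat_lit 7495049) (nat_lit 33660) (nat_lit 893558) (nat_lit 0) (nat_lit 0),Row.mk (nat_lit 11928) (nat_lit 33473) (nat_lit 7495049) (nat_lit 33660) (nat_lit 893558) (nat_lit 0) (nat_lit 0),Row.mk (nat_lit 12096) (nat_lit 33473) (nat_lit 7495049) (nat_lit 33660) (nat_lit 893558) (nat_lit 0) (nat_lit 0),Row.mk (nat_lit 12264) (nat_lit 33473) (nat_lit 7495049) (nat_lit 33660) (nat_lit 893558) (nat_lit 0) (nat_lit 0),Row.mk (nat_lit 12432) (nat_lit 33473) (nat_lit 7495049) (nat_lit 33660) (nat_lit 893558) (nat_lit 0) (nat_lit 0),Row.mk (nat_lit 12600) (nat_lit 33473)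 (nat_lit 7495049) (nat_lit 33660) (nat_lit 893558) (nat_lit 0) (nat_lit 0),Row.mk (nat_lit 12768) (nat_lit 33473) (nat_lit 7495049) (nat_lit 33660) (nat_lit 893558) (nat_lit 0) (nat_lit 0),Row.mk (nat_lit 12936) (nat_lit 33473) (nat_lit 7495049) (nat_lit 33660) (nat_lit 893558) (nat_lit 0) (nat_lit 0),Row.mk (nat_lit 13104) (nat_lit 33473) (nat_lit 7495049) (nat_lit 33660) (nat_lit 893558) (nat_lit 0) (nat_lit 0),Row.mk (nat_lit 13272) (nat_lit 33473) (nat_lit 7495049) (nat_lit 33660) (nat_lit 893558) (nat_lit 0) (nat_lit 0),Row.mk (nat_lit 13440) (nat_lit 33473) (nat_lit 7495049) (nat_lit 33660) (nat_lit 893558) (nat_lit 0) (nat_lit 0),Row.mk (nat_lit 13608) (nat_lit 33473) (nat_lit 7495049) (nat_lit 33660) (nat_lit 893558) (nat_lit 0) (nat_lit 0),Row.mk (nat_lit 13776) (nat_lit 33473) (nat_lit 7495049) (nat_lit 33660) (nat_lit 893558) (nat_lit 0) (nat_lit 0),Row.mk (nat_lit 13944) (nat_lit 33473) (nat_lit 7495049) (nat_lit 33660)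 (nat_lit 893558) (nat_lit 0) (nat_lit 0),Row.mk (nat_lit 14112) (nat_lit 33473) (nat_lit 7495049) (nat_lit 33660) (nat_lit 893558) (nat_lit 0) (nat_lit 0),Row.mk (nat_lit 14280) (nat_lit 33473) (nat_lit 7495049) (nat_lit 33660) (nat_lit 893558) (nat_lit 0) (nat_lit 0),Row.mk (nat_lit 14448) (nat_lit 33473) (nat_lit 7495049) (nat_lit 33660) (nat_lit 893558) (nat_lit 0) (nat_lit 0),Row.mk (nat_lit 14616) (nat_lit 33473) (nat_lit 7495049) (nat_lit 33660) (nat_lit 893558) (nat_lit 0) (nat_lit 0),Row.mk (nat_lit 14784) (nat_lit 33473) (nat_lit 7495049) (nat_lit 33660) (nat_lit 893558) (nat_lit 0) (nat_lit 0),Row.mk (nat_lit 14952) (nat_lit 33473) (nat_lit 7495049) (nat_lit 33660) (nat_lit 893558) (nat_lit 0) (nat_lit 0),Row.mk (nat_lit 15120) (nat_lit 33473) (nat_lit 7495049) (nat_lit 33660) (nat_lit 893558) (nat_lit 0) (nat_lit 0),Row.mk (nat_lit 15288) (nat_lit 33473) (nat_lit 7495049) (nat_lit 33660) (nat_lit 893558) (nat_lit 0) (nat_lit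 0),Row.mk (nat_lit 15456) (nat_lit 33473) (nat_lit 7495049) (nat_lit 33660) (nat_lit 893558) (nat_lit 0) (nat_lit 0),Row.mk (nat_lit 15624) (nat_lit 33473) (nat_lit 7495049) (nat_lit 33660) (nat_lit 893558) (nat_lit 0) (nat_lit 0),Row.mk (nat_lit 15792) (nat_lit 33473) (nat_lit 7495049) (nat_lit 33660) (nat_lit 893558) (nat_lit 0) (nat_lit 0),Row.mk (nat_lit 15960) (nat_lit 33473) (nat_lit 7495049) (nat_lit 33660) (nat_lit 893558) (nat_lit 0) (nat_lit 0),Row.mk (nat_lit 16128) (nat_lit 33473) (nat_lit 7495049) (nat_lit 33660) (nat_lit 893558) (nat_lit 0) (nat_lit 0),Row.mk (nat_lit 16296) (nat_lit 33473) (nat_lit 7495049) (nat_lit 33660) (nat_lit 893558) (nat_lit 0) (nat_lit 0),Row.mk (nat_lit 16464) (nat_lit 33473) (nat_lit 7495049) (nat_lit 33660) (nat_lit 893558) (nat_lit 0) (nat_lit 0),Row.mk (nat_lit 16632) (nat_lit 33473) (nat_lit 7495049) (nat_lit 33660) (nat_lit 893558) (nat_lit 0) (nat_lit 0),Row.mk (nat_lit 16800) (nat_lit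 33473) (nat_lit 7495049) (nat_lit 33660) (nat_lit 893558) (nat_lit 0) (nat_lit 0),Row.mk (nat_lit 16968) (nat_lit 33473) (nat_lit 7495049) (nat_lit 33660) (nat_lit 893558) (nat_lit 0) (nat_lit 0),Row.mk (nat_lit 17136) (nat_lit 33473) (nat_lit 7495049) (nat_lit 33660) (nat_lit 893558) (nat_lit 0) (nat_lit 0),Row.mk (nat_lit 17304) (nat_lit 33473) (nat_lit 7495049) (nat_lit 33660) (nat_lit 893558) (nat_lit 0) (nat_lit 0),Row.mk (nat_lit 17472) (nat_lit 33473) (nat_lit 7495049) (nat_lit 33660) (nat_lit 893558) (nat_lit 0) (nat_lit 0),Row.mk (nat_lit 17640) (nat_lit 33473) (nat_lit 7495049) (nat_lit 33660) (nat_lit 893558) (nat_lit 0) (nat_lit 0),Row.mk (nat_lit 17808) (nat_lit 33473) (nat_lit 7495049) (nat_lit 33660) (nat_lit 893558) (nat_lit 0) (nat_lit 0),Row.mk (nat_lit 17976) (nat_lit 33473) (nat_lit 7495049) (nat_lit 33660) (nat_lit 893558) (nat_lit 0) (nat_lit 0),Row.mk (nat_lit 18144) (nat_lit 33473) (nat_lit 7495049) (nat_lit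 33660) (nat_lit 893558) (nat_lit 0) (nat_lit 0),Row.mk (nat_lit 18312) (nat_lit 33473) (nat_lit 7495049) (nat_lit 33660) (nat_lit 893558) (nat_lit 0) (nat_lit 0),Row.mk (nat_lit 18480) (nat_lit 33473) (nat_lit 7495049) (nat_lit 33660) (nat_lit 893558) (nat_lit 0) (nat_lit 0),Row.mk (nat_lit 18648) (nat_lit 33473) (nat_lit 7495049) (nat_lit 33660) (nat_lit 893558) (nat_lit 0) (nat_lit 0),Row.mk (nat_lit 18816) (nat_lit 33473) (nat_lit 7495049) (nat_lit 33660) (nat_lit 893558) (nat_lit 0) (nat_lit 0),Row.mk (nat_lit 18984) (nat_lit 33473) (nat_lit 7495049) (nat_lit 33660) (nat_lit 893558) (nat_lit 0) (nat_lit 0),Row.mk (nat_lit 19152) (nat_lit 33473) (nat_lit 7495049) (nat_lit 33660) (nat_lit 893558) (nat_lit 0) (nat_lit 0),Row.mk (nat_lit 19320) (nat_lit 33473) (nat_lit 7495049) (nat_lit 33660) (nat_lit 893558) (nat_lit 0) (nat_lit 0),Row.mk (nat_lit 19488) (nat_lit 33473) (nat_lit 7495049) (nat_lit 33660) (nat_lit 893558) (nat_lit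 0) (nat_lit 0),Row.mk (nat_lit 19656) (nat_lit 33473) (nat_lit 7495049) (nat_lit 33660) (nat_lit 893558) (nat_lit 0) (nat_lit 0),Row.mk (nat_lit 19824) (nat_lit 33473) (nat_lit 7495049) (nat_lit 33660) (nat_lit 893558) (nat_lit 0) (nat_lit 0),Row.mk (nat_lit 19992) (nat_lit 33473) (nat_lit 7495049) (nat_lit 33660) (nat_lit 893558) (nat_lit 0) (nat_lit 0),Row.mk (nat_lit 20160) (nat_lit 33473) (nat_lit 7495049) (nat_lit 33660) (nat_lit 893558) (nat_lit 0) (nat_lit 0),Row.mk (nat_lit 20328) (nat_lit 33473) (nat_lit 7495049) (nat_lit 33660) (nat_lit 893558) (nat_lit 0) (nat_lit 0),Row.mk (nat_lit 20496) (nat_lit 33473) (nat_lit 7495049) (nat_lit 33660) (nat_lit 893558) (nat_lit 0) (nat_lit 0),Row.mk (nat_lit 20664) (nat_lit 33473) (nat_lit 7495049) (nat_lit 33660) (nat_lit 893558) (nat_lit 0) (nat_lit 0),Row.mk (nat_lit 20832) (nat_lit 33473) (nat_lit 7495049) (nat_lit 33660) (nat_lit 893558) (nat_lit 0) (nat_lit 0),Row.mk (nat_lit 21000)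 (nat_lit 33473) (nat_lit 7495049) (nat_lit 33660) (nat_lit 893558) (nat_lit 0) (nat_lit 0),Row.mk (nat_lit 21168) (nat_lit 33473) (nat_lit 7495049) (nat_lit 33660) (nat_lit 893558) (nat_lit 0) (nat_lit 0),Row.mk (nat_lit 21336) (nat_lit 33473) (nat_lit 7495049) (nat_lit 33660) (nat_lit 893558) (nat_lit 0) (nat_lit 0),Row.mk (nat_lit 21504) (nat_lit 33473) (nat_lit 7495049) (nat_lit 33660) (nat_lit 893558) (nat_lit 0) (nat_lit 0),Row.mk (nat_lit 21672) (nat_lit 33473) (nat_lit 7495049) (nat_lit 33660) (nat_lit 893558) (nat_lit 0) (nat_lit 0),Row.mk (nat_lit 21840) (nat_lit 33473) (nat_lit 7495049) (nat_lit 33660) (nat_lit 893558) (nat_lit 0) (nat_lit 0),Row.mk (nat_lit 22008) (nat_lit 33473) (nat_lit 7495049) (nat_lit 33660) (nat_lit 893558) (nat_lit 0) (nat_lit 0),Row.mk (nat_lit 22176) (nat_lit 33473) (nat_lit 7495049) (nat_lit 33660) (nat_lit 893558) (nat_lit 0) (nat_lit 0),Row.mk (nat_lit 22344) (nat_lit 33473) (nat_lit 7495049)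 (nat_lit 33660) (nat_lit 893558) (nat_lit 0) (nat_lit 0),Row.mk (nat_lit 22512) (nat_lit 33473) (nat_lit 7495049) (nat_lit 33660) (nat_lit 893558) (nat_lit 0) (nat_lit 0),Row.mk (nat_lit 22680) (nat_lit 33473) (nat_lit 7495049) (nat_lit 33660) (nat_lit 893558) (nat_lit 0) (nat_lit 0),Row.mk (nat_lit 22848) (nat_lit 33473) (nat_lit 7495049) (nat_lit 33660) (nat_lit 893558) (nat_lit 0) (nat_lit 0),Row.mk (nat_lit 23016) (nat_lit 33473) (nat_lit 7495049) (nat_lit 33660) (nat_lit 893558) (nat_lit 0) (nat_lit 0),Row.mk (nat_lit 23184) (nat_lit 33473) (nat_lit 7495049) (nat_lit 33660) (nat_lit 893558) (nat_lit 0) (nat_lit 0),Row.mk (nat_lit 23352) (nat_lit 33473) (nat_lit 7495049) (nat_lit 33660) (nat_lit 893558) (nat_lit 0) (nat_lit 0),Row.mk (nat_lit 23520) (nat_lit 33473) (nat_lit 7495049) (nat_lit 33660) (nat_lit 893558) (nat_lit 0) (nat_lit 0),Row.mk (nat_lit 23688) (nat_lit 33473) (nat_lit 7495049) (nat_lit 33660) (nat_lit 893558)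 (nat_lit 0) (nat_lit 0),Row.mk (nat_lit 23856) (nat_lit 33473) (nat_lit 7495049) (nat_lit 33660) (nat_lit 893558) (nat_lit 0) (nat_lit 0),Row.mk (nat_lit 24024) (nat_lit 33473) (nat_lit 7495049) (nat_lit 33660) (nat_lit 893558) (nat_lit 0) (nat_lit 0),Row.mk (nat_lit 24192) (nat_lit 33473) (nat_lit 7495049) (nat_lit 33660) (nat_lit 893558) (nat_lit 0) (nat_lit 0),Row.mk (nat_lit 24360) (nat_lit 33473) (nat_lit 7495049) (nat_lit 33660) (nat_lit 893558) (nat_lit 0) (nat_lit 0),Row.mk (nat_lit 24528) (nat_lit 33473) (nat_lit 7495049) (nat_lit 33660) (nat_lit 893558) (nat_lit 0) (nat_lit 0),Row.mk (nat_lit 24696) (nat_lit 33473) (nat_lit 7495049) (nat_lit 33660) (nat_lit 893558) (nat_lit 0) (nat_lit 0),Row.mk (nat_lit 24864) (nat_lit 33473) (nat_lit 7495049) (nat_lit 33660) (nat_lit 893558) (nat_lit 0) (nat_lit 0),Row.mk (nat_lit 25032) (nat_lit 33473) (nat_lit 7495049) (nat_lit 33660) (nat_lit 893558) (nat_lit 0) (nat_lit 0),Row.mk (nat_lit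 25200) (nat_lit 33473) (nat_lit 7495049) (nat_lit 33660) (nat_lit 893558) (nat_lit 0) (nat_lit 0),Row.mk (nat_lit 25368) (nat_lit 33473) (nat_lit 7495049) (nat_lit 33660) (nat_lit 893558) (nat_lit 0) (nat_lit 0),Row.mk (nat_lit 25536) (nat_lit 33473) (nat_lit 7495049) (nat_lit 33660) (nat_lit 893558) (nat_lit 0) (nat_lit 0),Row.mk (nat_lit 25704) (nat_lit 33473) (nat_lit 7495049) (nat_lit 33660) (nat_lit 893558) (nat_lit 0) (nat_lit 0),Row.mk (nat_lit 25872) (nat_lit 33473) (nat_lit 7495049) (nat_lit 33660) (nat_lit 893558) (nat_lit 0) (nat_lit 0),Row.mk (nat_lit 26040) (nat_lit 33473) (nat_lit 7495049) (nat_lit 33660) (nat_lit 893558) (nat_lit 0) (nat_lit 0)],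
[Row.mk (nat_lit 6552) (nat_lit 26928) (nat_lit 3983619) (nat_lit 27115) (nat_lit 6493549) (nat_lit 0) (nat_lit 0),Row.mk (nat_lit 6720) (nat_lit 26928) (nat_lit 3983619) (nat_lit 27115) (nat_lit 6493549) (nat_lit 0) (nat_lit 0),Row.mk (nat_lit 6888) (nat_lit 26928) (nat_lit 3983619) (nat_lit 27115) (nat_lit 6493549) (nat_lit 0) (nat_lit 0),Row.mk (nat_lit 7056) (nat_lit 26928) (nat_lit 3983619) (nat_lit 27115) (nat_lit 6493549) (nat_lit 0) (nat_lit 0),Row.mk (nat_lit 7224) (nat_lit 26928) (nat_lit 3983619) (nat_lit 27115) (nat_lit 6493549) (nat_lit 0) (nat_lit 0),Row.mk (nat_lit 7392) (nat_lit 26928) (nat_lit 3983619) (nat_lit 27115) (nat_lit 6493549) (nat_lit 0) (nat_lit 0),Row.mk (nat_lit 7560) (nat_lit 26928) (nat_lit 3983619) (nat_lit 27115) (nat_lit 6493549) (nat_lit 0) (nat_lit 0),Row.mk (nat_lit 7728) (nat_lit 26928) (nat_lit 3983619) (nat_lit 27115) (nat_lit 6493549) (nat_lit 0) (nat_lit 0),Row.mk (nat_lit 7896) (nat_lit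 26928) (nat_lit 3983619) (nat_lit 27115) (nat_lit 6493549) (nat_lit 0) (nat_lit 0),Row.mk (nat_lit 8064) (nat_lit 26928) (nat_lit 3983619) (nat_lit 27115) (nat_lit 6493549) (nat_lit 0) (nat_lit 0),Row.mk (nat_lit 8232) (nat_lit 26928) (nat_lit 3983619) (nat_lit 27115) (nat_lit 6493549) (nat_lit 0) (nat_lit 0),Row.mk (nat_lit 8400) (nat_lit 26928) (nat_lit 3983619) (nat_lit 27115) (nat_lit 6493549) (nat_lit 0) (nat_lit 0),Row.mk (nat_lit 8568) (nat_lit 26928) (nat_lit 3983619) (nat_lit 27115) (nat_lit 6493549) (nat_lit 0) (nat_lit 0),Row.mk (nat_lit 8736) (nat_lit 26928) (nat_lit 3983619) (nat_lit 27115) (nat_lit 6493549) (nat_lit 0) (nat_lit 0),Row.mk (nat_lit 8904) (nat_lit 26928) (nat_lit 3983619) (nat_lit 27115) (nat_lit 6493549) (nat_lit 0) (nat_lit 0),Row.mk (nat_lit 9072) (nat_lit 26928) (nat_lit 3983619) (nat_lit 27115) (nat_lit 6493549) (nat_lit 0) (nat_lit 0),Row.mk (nat_lit 9240) (nat_lit 26928) (nat_lit 3983619) (nat_lit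 27115) (nat_lit 6493549) (nat_lit 0) (nat_lit 0),Row.mk (nat_lit 9408) (nat_lit 26928) (nat_lit 3983619) (nat_lit 27115) (nat_lit 6493549) (nat_lit 0) (nat_lit 0),Row.mk (nat_lit 9576) (nat_lit 26928) (nat_lit 3983619) (nat_lit 27115) (nat_lit 6493549) (nat_lit 0) (nat_lit 0),Row.mk (nat_lit 9744) (nat_lit 26928) (nat_lit 3983619) (nat_lit 27115) (nat_lit 6493549) (nat_lit 0) (nat_lit 0),Row.mk (nat_lit 9912) (nat_lit 26928) (nat_lit 3983619) (nat_lit 27115) (nat_lit 6493549) (nat_lit 0) (nat_lit 0),Row.mk (nat_lit 10080) (nat_lit 26928) (nat_lit 3983619) (nat_lit 27115) (nat_lit 6493549) (nat_lit 0) (nat_lit 0),Row.mk (nat_lit 10248) (nat_lit 26928) (nat_lit 3983619) (nat_lit 27115) (nat_lit 6493549) (nat_lit 0) (nat_lit 0),Row.mk (nat_lit 10416) (nat_lit 26928) (nat_lit 3983619) (nat_lit 27115) (nat_lit 6493549) (nat_lit 0) (nat_lit 0),Row.mk (nat_lit 10584) (nat_lit 26928) (nat_lit 3983619) (nat_lit 27115) (nat_lit 6493549) (nat_lit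 0) (nat_lit 0),Row.mk (nat_lit 10752) (nat_lit 26928) (nat_lit 3983619) (nat_lit 27115) (nat_lit 6493549) (nat_lit 0) (nat_lit 0),Row.mk (nat_lit 10920) (nat_lit 26928) (nat_lit 3983619) (nat_lit 27115) (nat_lit 6493549) (nat_lit 0) (nat_lit 0),Row.mk (nat_lit 11088) (nat_lit 26928) (nat_lit 3983619) (nat_lit 27115) (nat_lit 6493549) (nat_lit 0) (nat_lit 0),Row.mk (nat_lit 11256) (nat_lit 26928) (nat_lit 3983619) (nat_lit 27115) (nat_lit 6493549) (nat_lit 0) (nat_lit 0),Row.mk (nat_lit 11424) (nat_lit 26928) (nat_lit 3983619) (nat_lit 27115) (nat_lit 6493549) (nat_lit 0) (nat_lit 0),Row.mk (nat_lit 11592) (nat_lit 26928) (nat_lit 3983619) (nat_lit 27115) (nat_lit 6493549) (nat_lit 0) (nat_lit 0),Row.mk (nat_lit 11760) (nat_lit 26928) (nat_lit 3983619) (nat_lit 27115) (nat_lit 6493549) (nat_lit 0) (nat_lit 0),Row.mk (nat_lit 11928) (nat_lit 26928) (nat_lit 3983619) (nat_lit 27115) (nat_lit 6493549) (nat_lit 0) (nat_lit 0),Row.mk (nat_lit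 12096) (nat_lit 26928) (nat_lit 3983619) (nat_lit 27115) (nat_lit 6493549) (nat_lit 0) (nat_lit 0),Row.mk (nat_lit 12264) (nat_lit 26928) (nat_lit 3983619) (nat_lit 27115) (nat_lit 6493549) (nat_lit 0) (nat_lit 0),Row.mk (nat_lit 12432) (nat_lit 26928) (nat_lit 3983619) (nat_lit 27115) (nat_lit 6493549) (nat_lit 0) (nat_lit 0),Row.mk (nat_lit 12600) (nat_lit 26928) (nat_lit 3983619) (nat_lit 27115) (nat_lit 6493549) (nat_lit 0) (nat_lit 0),Row.mk (nat_lit 12768) (nat_lit 26928) (nat_lit 3983619) (nat_lit 27115) (nat_lit 6493549) (nat_lit 0) (nat_lit 0),Row.mk (nat_lit 12936) (nat_lit 26928) (nat_lit 3983619) (nat_lit 27115) (nat_lit 6493549) (nat_lit 0) (nat_lit 0),Row.mk (nat_lit 13104) (nat_lit 26928) (nat_lit 3983619) (nat_lit 27115) (nat_lit 6493549) (nat_lit 0) (nat_lit 0),Row.mk (nat_lit 13272) (nat_lit 26928) (nat_lit 3983619) (nat_lit 27115) (nat_lit 6493549) (nat_lit 0) (nat_lit 0),Row.mk (nat_lit 13440) (nat_lit 26928) (nat_lit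 3983619) (nat_lit 27115) (nat_lit 6493549) (nat_lit 0) (nat_lit 0),Row.mk (nat_lit 13608) (nat_lit 26928) (nat_lit 3983619) (nat_lit 27115) (nat_lit 6493549) (nat_lit 0) (nat_lit 0),Row.mk (nat_lit 13776) (nat_lit 26928) (nat_lit 3983619) (nat_lit 27115) (nat_lit 6493549) (nat_lit 0) (nat_lit 0),Row.mk (nat_lit 13944) (nat_lit 26928) (nat_lit 3983619) (nat_lit 27115) (nat_lit 6493549) (nat_lit 0) (nat_lit 0),Row.mk (nat_lit 14112) (nat_lit 26928) (nat_lit 3983619) (nat_lit 27115) (nat_lit 6493549) (nat_lit 0) (nat_lit 0),Row.mk (nat_lit 14280) (nat_lit 26928) (nat_lit 3983619) (nat_lit 27115) (nat_lit 6493549) (nat_lit 0) (nat_lit 0),Row.mk (nat_lit 14448) (nat_lit 26928) (nat_lit 3983619) (nat_lit 27115) (nat_lit 6493549) (nat_lit 0) (nat_lit 0),Row.mk (nat_lit 14616) (nat_lit 26928) (nat_lit 3983619) (nat_lit 27115) (nat_lit 6493549) (nat_lit 0) (nat_lit 0),Row.mk (nat_lit 14784) (nat_lit 26928) (nat_lit 3983619) (nat_lit 27115)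 (nat_lit 6493549) (nat_lit 0) (nat_lit 0),Row.mk (nat_lit 14952) (nat_lit 26928) (nat_lit 3983619) (nat_lit 27115) (nat_lit 6493549) (nat_lit 0) (nat_lit 0),Row.mk (nat_lit 15120) (nat_lit 26928) (nat_lit 3983619) (nat_lit 27115) (nat_lit 6493549) (nat_lit 0) (nat_lit 0),Row.mk (nat_lit 15288) (nat_lit 26928) (nat_lit 3983619) (nat_lit 27115) (nat_lit 6493549) (nat_lit 0) (nat_lit 0),Row.mk (nat_lit 15456) (nat_lit 26928) (nat_lit 3983619) (nat_lit 27115) (nat_lit 6493549) (nat_lit 0) (nat_lit 0),Row.mk (nat_lit 15624) (nat_lit 26928) (nat_lit 3983619) (nat_lit 27115) (nat_lit 6493549) (nat_lit 0) (nat_lit 0),Row.mk (nat_lit 15792) (nat_lit 26928) (nat_lit 3983619) (nat_lit 27115) (nat_lit 6493549) (nat_lit 0) (nat_lit 0),Row.mk (nat_lit 15960) (nat_lit 26928) (nat_lit 3983619) (nat_lit 27115) (nat_lit 6493549) (nat_lit 0) (nat_lit 0),Row.mk (nat_lit 16128) (nat_lit 26928) (nat_lit 3983619) (nat_lit 27115) (nat_lit 6493549) (nat_lit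 0) (nat_lit 0),Row.mk (nat_lit 16296) (nat_lit 26928) (nat_lit 3983619) (nat_lit 27115) (nat_lit 6493549) (nat_lit 0) (nat_lit 0),Row.mk (nat_lit 16464) (nat_lit 26928) (nat_lit 3983619) (nat_lit 27115) (nat_lit 6493549) (nat_lit 0) (nat_lit 0),Row.mk (nat_lit 16632) (nat_lit 26928) (nat_lit 3983619) (nat_lit 27115) (nat_lit 6493549) (nat_lit 0) (nat_lit 0),Row.mk (nat_lit 16800) (nat_lit 26928) (nat_lit 3983619) (nat_lit 27115) (nat_lit 6493549) (nat_lit 0) (nat_lit 0),Row.mk (nat_lit 16968) (nat_lit 26928) (nat_lit 3983619) (nat_lit 27115) (nat_lit 6493549) (nat_lit 0) (nat_lit 0),Row.mk (nat_lit 17136) (nat_lit 26928) (nat_lit 3983619) (nat_lit 27115) (nat_lit 6493549) (nat_lit 0) (nat_lit 0),Row.mk (nat_lit 17304) (nat_lit 26928) (nat_lit 3983619) (nat_lit 27115) (nat_lit 6493549) (nat_lit 0) (nat_lit 0),Row.mk (nat_lit 17472) (nat_lit 26928) (nat_lit 3983619) (nat_lit 27115) (nat_lit 6493549) (nat_lit 0) (nat_lit 0),Row.mk (nat_lit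 17640) (nat_lit 26928) (nat_lit 3983619) (nat_lit 27115) (nat_lit 6493549) (nat_lit 0) (nat_lit 0),Row.mk (nat_lit 17808) (nat_lit 26928) (nat_lit 3983619) (nat_lit 27115) (nat_lit 6493549) (nat_lit 0) (nat_lit 0),Row.mk (nat_lit 17976) (nat_lit 26928) (nat_lit 3983619) (nat_lit 27115) (nat_lit 6493549) (nat_lit 0) (nat_lit 0),Row.mk (nat_lit 18144) (nat_lit 26928) (nat_lit 3983619) (nat_lit 27115) (nat_lit 6493549) (nat_lit 0) (nat_lit 0),Row.mk (nat_lit 18312) (nat_lit 26928) (nat_lit 3983619) (nat_lit 27115) (nat_lit 6493549) (nat_lit 0) (nat_lit 0),Row.mk (nat_lit 18480) (nat_lit 26928) (nat_lit 3983619) (nat_lit 27115) (nat_lit 6493549) (nat_lit 0) (nat_lit 0),Row.mk (nat_lit 18648) (nat_lit 26928) (nat_lit 3983619) (nat_lit 27115) (nat_lit 6493549) (nat_lit 0) (nat_lit 0),Row.mk (nat_lit 18816) (nat_lit 26928) (nat_lit 3983619) (nat_lit 27115) (nat_lit 6493549) (nat_lit 0) (nat_lit 0),Row.mk (nat_lit 18984) (nat_lit 26928) (nat_lit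 3983619) (nat_lit 27115) (nat_lit 6493549) (nat_lit 0) (nat_lit 0),Row.mk (nat_lit 19152) (nat_lit 26928) (nat_lit 3983619) (nat_lit 27115) (nat_lit 6493549) (nat_lit 0) (nat_lit 0),Row.mk (nat_lit 19320) (nat_lit 26928) (nat_lit 3983619) (nat_lit 27115) (nat_lit 6493549) (nat_lit 0) (nat_lit 0),Row.mk (nat_lit 19488) (nat_lit 26928) (nat_lit 3983619) (nat_lit 27115) (nat_lit 6493549) (nat_lit 0) (nat_lit 0),Row.mk (nat_lit 19656) (nat_lit 26928) (nat_lit 3983619) (nat_lit 27115) (nat_lit 6493549) (nat_lit 0) (nat_lit 0),Row.mk (nat_lit 19824) (nat_lit 26928) (nat_lit 3983619) (nat_lit 27115) (nat_lit 6493549) (nat_lit 0) (nat_lit 0),Row.mk (nat_lit 19992) (nat_lit 26928) (nat_lit 3983619) (nat_lit 27115) (nat_lit 6493549) (nat_lit 0) (nat_lit 0),Row.mk (nat_lit 20160) (nat_lit 26928) (nat_lit 3983619) (nat_lit 27115) (nat_lit 6493549) (nat_lit 0) (nat_lit 0),Row.mk (nat_lit 20328) (nat_lit 26928) (nat_lit 3983619) (nat_lit 27115)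 (nat_lit 6493549) (nat_lit 0) (nat_lit 0),Row.mk (nat_lit 20496) (nat_lit 26928) (nat_lit 3983619) (nat_lit 27115) (nat_lit 6493549) (nat_lit 0) (nat_lit 0),Row.mk (nat_lit 20664) (nat_lit 26928) (nat_lit 3983619) (nat_lit 27115) (nat_lit 6493549) (nat_lit 0) (nat_lit 0),Row.mk (nat_lit 20832) (nat_lit 26928) (nat_lit 3983619) (nat_lit 27115) (nat_lit 6493549) (nat_lit 0) (nat_lit 0),Row.mk (nat_lit 21000) (nat_lit 26928) (nat_lit 3983619) (nat_lit 27115) (nat_lit 6493549) (nat_lit 0) (nat_lit 0),Row.mk (nat_lit 21168) (nat_lit 26928) (nat_lit 3983619) (nat_lit 27115) (nat_lit 6493549) (nat_lit 0) (nat_lit 0),Row.mk (nat_lit 21336) (nat_lit 26928) (nat_lit 3983619) (nat_lit 27115) (nat_lit 6493549) (nat_lit 0) (nat_lit 0),Row.mk (nat_lit 21504) (nat_lit 26928) (nat_lit 3983619) (nat_lit 27115) (nat_lit 6493549) (nat_lit 0) (nat_lit 0),Row.mk (nat_lit 21672) (nat_lit 26928) (nat_lit 3983619) (nat_lit 27115) (nat_lit 6493549) (nat_lit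 0) (nat_lit 0),Row.mk (nat_lit 21840) (nat_lit 26928) (nat_lit 3983619) (nat_lit 27115) (nat_lit 6493549) (nat_lit 0) (nat_lit 0),Row.mk (nat_lit 22008) (nat_lit 26928) (nat_lit 3983619) (nat_lit 27115) (nat_lit 6493549) (nat_lit 0) (nat_lit 0),Row.mk (nat_lit 22176) (nat_lit 26928) (nat_lit 3983619) (nat_lit 27115) (nat_lit 6493549) (nat_lit 0) (nat_lit 0),Row.mk (nat_lit 22344) (nat_lit 26928) (nat_lit 3983619) (nat_lit 27115) (nat_lit 6493549) (nat_lit 0) (nat_lit 0),Row.mk (nat_lit 22512) (nat_lit 26928) (nat_lit 3983619) (nat_lit 27115) (nat_lit 6493549) (nat_lit 0) (nat_lit 0),Row.mk (nat_lit 22680) (nat_lit 26928) (nat_lit 3983619) (nat_lit 27115) (nat_lit 6493549) (nat_lit 0) (nat_lit 0),Row.mk (nat_lit 22848) (nat_lit 26928) (nat_lit 3983619) (nat_lit 27115) (nat_lit 6493549) (nat_lit 0) (nat_lit 0),Row.mk (nat_lit 23016) (nat_lit 26928) (nat_lit 3983619) (nat_lit 27115) (nat_lit 6493549) (nat_lit 0) (nat_lit 0),Row.mk (nat_lit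 23184) (nat_lit 26928) (nat_lit 3983619) (nat_lit 27115) (nat_lit 6493549) (nat_lit 0) (nat_lit 0),Row.mk (nat_lit 23352) (nat_lit 26928) (nat_lit 3983619) (nat_lit 27115) (nat_lit 6493549) (nat_lit 0) (nat_lit 0),Row.mk (nat_lit 23520) (nat_lit 26928) (nat_lit 3983619) (nat_lit 27115) (nat_lit 6493549) (nat_lit 0) (nat_lit 0),Row.mk (nat_lit 23688) (nat_lit 26928) (nat_lit 3983619) (nat_lit 27115) (nat_lit 6493549) (nat_lit 0) (nat_lit 0),Row.mk (nat_lit 23856) (nat_lit 26928) (nat_lit 3983619) (nat_lit 27115) (nat_lit 6493549) (nat_lit 0) (nat_lit 0),Row.mk (nat_lit 24024) (nat_lit 26928) (nat_lit 3983619) (nat_lit 27115) (nat_lit 6493549) (nat_lit 0) (nat_lit 0),Row.mk (nat_lit 24192) (nat_lit 26928) (nat_lit 3983619) (nat_lit 27115) (nat_lit 6493549) (nat_lit 0) (nat_lit 0),Row.mk (nat_lit 24360) (nat_lit 26928) (nat_lit 3983619) (nat_lit 27115) (nat_lit 6493549) (nat_lit 0) (nat_lit 0),Row.mk (nat_lit 24528) (nat_lit 26928) (nat_lit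 3983619) (nat_lit 27115) (nat_lit 6493549) (nat_lit 0) (nat_lit 0),Row.mk (nat_lit 24696) (nat_lit 26928) (nat_lit 3983619) (nat_lit 27115) (nat_lit 6493549) (nat_lit 0) (nat_lit 0),Row.mk (nat_lit 24864) (nat_lit 26928) (nat_lit 3983619) (nat_lit 27115) (nat_lit 6493549) (nat_lit 0) (nat_lit 0),Row.mk (nat_lit 25032) (nat_lit 26928) (nat_lit 3983619) (nat_lit 27115) (nat_lit 6493549) (nat_lit 0) (nat_lit 0),Row.mk (nat_lit 25200) (nat_lit 26928) (nat_lit 3983619) (nat_lit 27115) (nat_lit 6493549) (nat_lit 0) (nat_lit 0),Row.mk (nat_lit 25368) (nat_lit 26928) (nat_lit 3983619) (nat_lit 27115) (nat_lit 6493549) (nat_lit 0) (nat_lit 0),Row.mk (nat_lit 25536) (nat_lit 26928) (nat_lit 3983619) (nat_lit 27115) (nat_lit 6493549) (nat_lit 0) (nat_lit 0),Row.mk (nat_lit 25704) (nat_lit 26928) (nat_lit 3983619) (nat_lit 27115) (nat_lit 6493549) (nat_lit 0) (nat_lit 0),Row.mk (nat_lit 25872) (nat_lit 26928) (nat_lit 3983619) (nat_lit 27115)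 (nat_lit 6493549) (nat_lit 0) (nat_lit 0),Row.mk (nat_lit 26040) (nat_lit 26928) (nat_lit 3983619) (nat_lit 27115) (nat_lit 6493549) (nat_lit 0) (nat_lit 0),Row.mk (nat_lit 26208) (nat_lit 26928) (nat_lit 3983619) (nat_lit 27115) (nat_lit 6493549) (nat_lit 0) (nat_lit 0)],
[Row.mk (nat_lit 8736) (nat_lit 20570) (nat_lit 10352961) (nat_lit 20757) (nat_lit 2732769) (nat_lit 0) (nat_lit 0),Row.mk (nat_lit 8904) (nat_lit 20570) (nat_lit 10352961) (nat_lit 20757) (nat_lit 2732769) (nat_lit 0) (nat_lit 0),Row.mk (nat_lit 9072) (nat_lit 20570) (nat_lit 10352961) (nat_lit 20757) (nat_lit 2732769) (nat_lit 0) (nat_lit 0),Row.mk (nat_lit 9240) (nat_lit 20570) (nat_lit 10352961) (nat_lit 20757) (nat_lit 2732769) (nat_lit 0) (nat_lit 0),Row.mk (nat_lit 9408) (nat_lit 20570) (nat_lit 10352961) (nat_lit 20757) (nat_lit 2732769) (nat_lit 0) (nat_lit 0),Row.mk (nat_lit 9576) (nat_lit 20570) (nat_lit 10352961) (nat_lit 20757) (nat_lit 2732769) (nat_lit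 0) (nat_lit 0),Row.mk (nat_lit 9744) (nat_lit 20570) (nat_lit 10352961) (nat_lit 20757) (nat_lit 2732769) (nat_lit 0) (nat_lit 0),Row.mk (nat_lit 9912) (nat_lit 20570) (nat_lit 10352961) (nat_lit 20757) (nat_lit 2732769) (nat_lit 0) (nat_lit 0),Row.mk (nat_lit 10080) (nat_lit 20570) (nat_lit 10352961) (nat_lit 20757) (nat_lit 2732769) (nat_lit 0) (nat_lit 0),Row.mk (nat_lit 10248) (nat_lit 20570) (nat_lit 10352961) (nat_lit 20757) (nat_lit 2732769) (nat_lit 0) (nat_lit 0),Row.mk (nat_lit 10416) (nat_lit 20570) (nat_lit 10352961) (nat_lit 20757) (nat_lit 2732769) (nat_lit 0) (nat_lit 0),Row.mk (nat_lit 10584) (nat_lit 20570) (nat_lit 10352961) (nat_lit 20757) (nat_lit 2732769) (nat_lit 0) (nat_lit 0),Row.mk (nat_lit 10752) (nat_lit 20570) (nat_lit 10352961) (nat_lit 20757) (nat_lit 2732769) (nat_lit 0) (nat_lit 0),Row.mk (nat_lit 10920) (nat_lit 20570) (nat_lit 10352961) (nat_lit 20757) (nat_lit 2732769) (nat_lit 0) (nat_lit 0),Row.mk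 (nat_lit 11088) (nat_lit 20570) (nat_lit 10352961) (nat_lit 20757) (nat_lit 2732769) (nat_lit 0) (nat_lit 0),Row.mk (nat_lit 11256) (nat_lit 20570) (nat_lit 10352961) (nat_lit 20757) (nat_lit 2732769) (nat_lit 0) (nat_lit 0),Row.mk (nat_lit 11424) (nat_lit 20570) (nat_lit 10352961) (nat_lit 20757) (nat_lit 2732769) (nat_lit 0) (nat_lit 0),Row.mk (nat_lit 11592) (nat_lit 20570) (nat_lit 10352961) (nat_lit 20757) (nat_lit 2732769) (nat_lit 0) (nat_lit 0),Row.mk (nat_lit 11760) (nat_lit 20570) (nat_lit 10352961) (nat_lit 20757) (nat_lit 2732769) (nat_lit 0) (nat_lit 0),Row.mk (nat_lit 11928) (nat_lit 20570) (nat_lit 10352961) (nat_lit 20757) (nat_lit 2732769) (nat_lit 0) (nat_lit 0),Row.mk (nat_lit 12096) (nat_lit 20570) (nat_lit 10352961) (nat_lit 20757) (nat_lit 2732769) (nat_lit 0) (nat_lit 0),Row.mk (nat_lit 12264) (nat_lit 20570) (nat_lit 10352961) (nat_lit 20757) (nat_lit 2732769) (nat_lit 0) (nat_lit 0),Row.mk (nat_lit 12432)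 (nat_lit 20570) (nat_lit 10352961) (nat_lit 20757) (nat_lit 2732769) (nat_lit 0) (nat_lit 0),Row.mk (nat_lit 12600) (nat_lit 20570) (nat_lit 10352961) (nat_lit 20757) (nat_lit 2732769) (nat_lit 0) (nat_lit 0),Row.mk (nat_lit 12768) (nat_lit 20570) (nat_lit 10352961) (nat_lit 20757) (nat_lit 2732769) (nat_lit 0) (nat_lit 0),Row.mk (nat_lit 12936) (nat_lit 20570) (nat_lit 10352961) (nat_lit 20757) (nat_lit 2732769) (nat_lit 0) (nat_lit 0),Row.mk (nat_lit 13104) (nat_lit 20570) (nat_lit 10352961) (nat_lit 20757) (nat_lit 2732769) (nat_lit 0) (nat_lit 0),Row.mk (nat_lit 13272) (nat_lit 20570) (nat_lit 10352961) (nat_lit 20757) (nat_lit 2732769) (nat_lit 0) (nat_lit 0),Row.mk (nat_lit 13440) (nat_lit 20570) (nat_lit 10352961) (nat_lit 20757) (nat_lit 2732769) (nat_lit 0) (nat_lit 0),Row.mk (nat_lit 13608) (nat_lit 20570) (nat_lit 10352961) (nat_lit 20757) (nat_lit 2732769) (nat_lit 0) (nat_lit 0),Row.mk (nat_lit 13776) (nat_lit 20570)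 (nat_lit 10352961) (nat_lit 20757) (nat_lit 2732769) (nat_lit 0) (nat_lit 0),Row.mk (nat_lit 13944) (nat_lit 20570) (nat_lit 10352961) (nat_lit 20757) (nat_lit 2732769) (nat_lit 0) (nat_lit 0),Row.mk (nat_lit 14112) (nat_lit 20570) (nat_lit 10352961) (nat_lit 20757) (nat_lit 2732769) (nat_lit 0) (nat_lit 0),Row.mk (nat_lit 14280) (nat_lit 20570) (nat_lit 10352961) (nat_lit 20757) (nat_lit 2732769) (nat_lit 0) (nat_lit 0),Row.mk (nat_lit 14448) (nat_lit 20570) (nat_lit 10352961) (nat_lit 20757) (nat_lit 2732769) (nat_lit 0) (nat_lit 0),Row.mk (nat_lit 14616) (nat_lit 20570) (nat_lit 10352961) (nat_lit 20757) (nat_lit 2732769) (nat_lit 0) (nat_lit 0),Row.mk (nat_lit 14784) (nat_lit 20570) (nat_lit 10352961) (nat_lit 20757) (nat_lit 2732769) (nat_lit 0) (nat_lit 0),Row.mk (nat_lit 14952) (nat_lit 20570) (nat_lit 10352961) (nat_lit 20757) (nat_lit 2732769) (nat_lit 0) (nat_lit 0),Row.mk (nat_lit 15120) (nat_lit 20570) (nat_lit 10352961)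 (nat_lit 20757) (nat_lit 2732769) (nat_lit 0) (nat_lit 0),Row.mk (nat_lit 15288) (nat_lit 20570) (nat_lit 10352961) (nat_lit 20757) (nat_lit 2732769) (nat_lit 0) (nat_lit 0),Row.mk (nat_lit 15456) (nat_lit 20570) (nat_lit 10352961) (nat_lit 20757) (nat_lit 2732769) (nat_lit 0) (nat_lit 0),Row.mk (nat_lit 15624) (nat_lit 20570) (nat_lit 10352961) (nat_lit 20757) (nat_lit 2732769) (nat_lit 0) (nat_lit 0),Row.mk (nat_lit 15792) (nat_lit 20570) (nat_lit 10352961) (nat_lit 20757) (nat_lit 2732769) (nat_lit 0) (nat_lit 0),Row.mk (nat_lit 15960) (nat_lit 20570) (nat_lit 10352961) (nat_lit 20757) (nat_lit 2732769) (nat_lit 0) (nat_lit 0),Row.mk (nat_lit 16128) (nat_lit 20570) (nat_lit 10352961) (nat_lit 20757) (nat_lit 2732769) (nat_lit 0) (nat_lit 0),Row.mk (nat_lit 16296) (nat_lit 20570) (nat_lit 10352961) (nat_lit 20757) (nat_lit 2732769) (nat_lit 0) (nat_lit 0),Row.mk (nat_lit 16464) (nat_lit 20570) (nat_lit 10352961) (nat_lit 20757)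 (nat_lit 2732769) (nat_lit 0) (nat_lit 0),Row.mk (nat_lit 16632) (nat_lit 20570) (nat_lit 10352961) (nat_lit 20757) (nat_lit 2732769) (nat_lit 0) (nat_lit 0),Row.mk (nat_lit 16800) (nat_lit 20570) (nat_lit 10352961) (nat_lit 20757) (nat_lit 2732769) (nat_lit 0) (nat_lit 0),Row.mk (nat_lit 16968) (nat_lit 20570) (nat_lit 10352961) (nat_lit 20757) (nat_lit 2732769) (nat_lit 0) (nat_lit 0),Row.mk (nat_lit 17136) (nat_lit 20570) (nat_lit 10352961) (nat_lit 20757) (nat_lit 2732769) (nat_lit 0) (nat_lit 0),Row.mk (nat_lit 17304) (nat_lit 20570) (nat_lit 10352961) (nat_lit 20757) (nat_lit 2732769) (nat_lit 0) (nat_lit 0),Row.mk (nat_lit 17472) (nat_lit 20570) (nat_lit 10352961) (nat_lit 20757) (nat_lit 2732769) (nat_lit 0) (nat_lit 0),Row.mk (nat_lit 17640) (nat_lit 20570) (nat_lit 10352961) (nat_lit 20757) (nat_lit 2732769) (nat_lit 0) (nat_lit 0),Row.mk (nat_lit 17808) (nat_lit 20570) (nat_lit 10352961) (nat_lit 20757) (nat_lit 2732769)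 (nat_lit 0) (nat_lit 0),Row.mk (nat_lit 17976) (nat_lit 20570) (nat_lit 10352961) (nat_lit 20757) (nat_lit 2732769) (nat_lit 0) (nat_lit 0),Row.mk (nat_lit 18144) (nat_lit 20570) (nat_lit 10352961) (nat_lit 20757) (nat_lit 2732769) (nat_lit 0) (nat_lit 0),Row.mk (nat_lit 18312) (nat_lit 20570) (nat_lit 10352961) (nat_lit 20757) (nat_lit 2732769) (nat_lit 0) (nat_lit 0),Row.mk (nat_lit 18480) (nat_lit 20570) (nat_lit 10352961) (nat_lit 20757) (nat_lit 2732769) (nat_lit 0) (nat_lit 0),Row.mk (nat_lit 18648) (nat_lit 20570) (nat_lit 10352961) (nat_lit 20757) (nat_lit 2732769) (nat_lit 0) (nat_lit 0),Row.mk (nat_lit 18816) (nat_lit 20570) (nat_lit 10352961) (nat_lit 20757) (nat_lit 2732769) (nat_lit 0) (nat_lit 0),Row.mk (nat_lit 18984) (nat_lit 20570) (nat_lit 10352961) (nat_lit 20757) (nat_lit 2732769) (nat_lit 0) (nat_lit 0),Row.mk (nat_lit 19152) (nat_lit 20570) (nat_lit 10352961) (nat_lit 20757) (nat_lit 2732769) (nat_lit 0) (nat_lit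 0),Row.mk (nat_lit 19320) (nat_lit 20570) (nat_lit 10352961) (nat_lit 20757) (nat_lit 2732769) (nat_lit 0) (nat_lit 0),Row.mk (nat_lit 19488) (nat_lit 20570) (nat_lit 10352961) (nat_lit 20757) (nat_lit 2732769) (nat_lit 0) (nat_lit 0),Row.mk (nat_lit 19656) (nat_lit 20570) (nat_lit 10352961) (nat_lit 20757) (nat_lit 2732769) (nat_lit 0) (nat_lit 0),Row.mk (nat_lit 19824) (nat_lit 20570) (nat_lit 10352961) (nat_lit 20757) (nat_lit 2732769) (nat_lit 0) (nat_lit 0),Row.mk (nat_lit 19992) (nat_lit 20570) (nat_lit 10352961) (nat_lit 20757) (nat_lit 2732769) (nat_lit 0) (nat_lit 0),Row.mk (nat_lit 20160) (nat_lit 20570) (nat_lit 10352961) (nat_lit 20757) (nat_lit 2732769) (nat_lit 0) (nat_lit 0),Row.mk (nat_lit 20328) (nat_lit 20570) (nat_lit 10352961) (nat_lit 20757) (nat_lit 2732769) (nat_lit 0) (nat_lit 0),Row.mk (nat_lit 20496) (nat_lit 20570) (nat_lit 10352961) (nat_lit 20757) (nat_lit 2732769) (nat_lit 0) (nat_lit 0),Row.mk (nat_lit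 20664) (nat_lit 20570) (nat_lit 10352961) (nat_lit 20757) (nat_lit 2732769) (nat_lit 0) (nat_lit 0),Row.mk (nat_lit 20832) (nat_lit 20570) (nat_lit 10352961) (nat_lit 20757) (nat_lit 2732769) (nat_lit 0) (nat_lit 0),Row.mk (nat_lit 21000) (nat_lit 20570) (nat_lit 10352961) (nat_lit 20757) (nat_lit 2732769) (nat_lit 0) (nat_lit 0),Row.mk (nat_lit 21168) (nat_lit 20570) (nat_lit 10352961) (nat_lit 20757) (nat_lit 2732769) (nat_lit 0) (nat_lit 0),Row.mk (nat_lit 21336) (nat_lit 20570) (nat_lit 10352961) (nat_lit 20757) (nat_lit 2732769) (nat_lit 0) (nat_lit 0),Row.mk (nat_lit 21504) (nat_lit 20570) (nat_lit 10352961) (nat_lit 20757) (nat_lit 2732769) (nat_lit 0) (nat_lit 0),Row.mk (nat_lit 21672) (nat_lit 20570) (nat_lit 10352961) (nat_lit 20757) (nat_lit 2732769) (nat_lit 0) (nat_lit 0),Row.mk (nat_lit 21840) (nat_lit 20570) (nat_lit 10352961) (nat_lit 20757) (nat_lit 2732769) (nat_lit 0) (nat_lit 0),Row.mk (nat_lit 22008) (nat_lit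 20570) (nat_lit 10352961) (nat_lit 20757) (nat_lit 2732769) (nat_lit 0) (nat_lit 0),Row.mk (nat_lit 22176) (nat_lit 20570) (nat_lit 10352961) (nat_lit 20757) (nat_lit 2732769) (nat_lit 0) (nat_lit 0),Row.mk (nat_lit 22344) (nat_lit 20570) (nat_lit 10352961) (nat_lit 20757) (nat_lit 2732769) (nat_lit 0) (nat_lit 0),Row.mk (nat_lit 22512) (nat_lit 20570) (nat_lit 10352961) (nat_lit 20757) (nat_lit 2732769) (nat_lit 0) (nat_lit 0),Row.mk (nat_lit 22680) (nat_lit 20570) (nat_lit 10352961) (nat_lit 20757) (nat_lit 2732769) (nat_lit 0) (nat_lit 0),Row.mk (nat_lit 22848) (nat_lit 20570) (nat_lit 10352961) (nat_lit 20757) (nat_lit 2732769) (nat_lit 0) (nat_lit 0),Row.mk (nat_lit 23016) (nat_lit 20570) (nat_lit 10352961) (nat_lit 20757) (nat_lit 2732769) (nat_lit 0) (nat_lit 0),Row.mk (nat_lit 23184) (nat_lit 20570) (nat_lit 10352961) (nat_lit 20757) (nat_lit 2732769) (nat_lit 0) (nat_lit 0),Row.mk (nat_lit 23352) (nat_lit 20570) (nat_lit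 10352961) (nat_lit 20757) (nat_lit 2732769) (nat_lit 0) (nat_lit 0),Row.mk (nat_lit 23520) (nat_lit 20570) (nat_lit 10352961) (nat_lit 20757) (nat_lit 2732769) (nat_lit 0) (nat_lit 0),Row.mk (nat_lit 23688) (nat_lit 20570) (nat_lit 10352961) (nat_lit 20757) (nat_lit 2732769) (nat_lit 0) (nat_lit 0),Row.mk (nat_lit 23856) (nat_lit 20570) (nat_lit 10352961) (nat_lit 20757) (nat_lit 2732769) (nat_lit 0) (nat_lit 0),Row.mk (nat_lit 24024) (nat_lit 20570) (nat_lit 10352961) (nat_lit 20757) (nat_lit 2732769) (nat_lit 0) (nat_lit 0),Row.mk (nat_lit 24192) (nat_lit 20570) (nat_lit 10352961) (nat_lit 20757) (nat_lit 2732769) (nat_lit 0) (nat_lit 0),Row.mk (nat_lit 24360) (nat_lit 20570) (nat_lit 10352961) (nat_lit 20757) (nat_lit 2732769) (nat_lit 0) (nat_lit 0),Row.mk (nat_lit 24528) (nat_lit 20570) (nat_lit 10352961) (nat_lit 20757) (nat_lit 2732769) (nat_lit 0) (nat_lit 0),Row.mk (nat_lit 24696) (nat_lit 20570) (nat_lit 10352961) (nat_lit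 20757) (nat_lit 2732769) (nat_lit 0) (nat_lit 0),Row.mk (nat_lit 24864) (nat_lit 20570) (nat_lit 10352961) (nat_lit 20757) (nat_lit 2732769) (nat_lit 0) (nat_lit 0),Row.mk (nat_lit 25032) (nat_lit 20570) (nat_lit 10352961) (nat_lit 20757) (nat_lit 2732769) (nat_lit 0) (nat_lit 0),Row.mk (nat_lit 25200) (nat_lit 20570) (nat_lit 10352961) (nat_lit 20757) (nat_lit 2732769) (nat_lit 0) (nat_lit 0),Row.mk (nat_lit 25368) (nat_lit 20570) (nat_lit 10352961) (nat_lit 20757) (nat_lit 2732769) (nat_lit 0) (nat_lit 0),Row.mk (nat_lit 25536) (nat_lit 20570) (nat_lit 10352961) (nat_lit 20757) (nat_lit 2732769) (nat_lit 0) (nat_lit 0),Row.mk (nat_lit 25704) (nat_lit 20570) (nat_lit 10352961) (nat_lit 20757) (nat_lit 2732769) (nat_lit 0) (nat_lit 0),Row.mk (nat_lit 25872) (nat_lit 20570) (nat_lit 10352961) (nat_lit 20757) (nat_lit 2732769) (nat_lit 0) (nat_lit 0),Row.mk (nat_lit 26040) (nat_lit 20570) (nat_lit 10352961) (nat_lit 20757) (nat_lit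 2732769) (nat_lit 0) (nat_lit 0),Row.mk (nat_lit 26208) (nat_lit 20570) (nat_lit 10352961) (nat_lit 20757) (nat_lit 2732769) (nat_lit 0) (nat_lit 0)],
[Row.mk (nat_lit 10416) (nat_lit 18326) (nat_lit 2453430) (nat_lit 18513) (nat_lit 13890332) (nat_lit 0) (nat_lit 0),Row.mk (nat_lit 10584) (nat_lit 18326) (nat_lit 2453430) (nat_lit 18513) (nat_lit 13890332) (nat_lit 0) (nat_lit 0),Row.mk (nat_lit 10752) (nat_lit 18326) (nat_lit 2453430) (nat_lit 18513) (nat_lit 13890332) (nat_lit 0) (nat_lit 0),Row.mk (nat_lit 10920) (nat_lit 18326) (nat_lit 2453430) (nat_lit 18513) (nat_lit 13890332) (nat_lit 0) (nat_lit 0),Row.mk (nat_lit 11088) (nat_lit 18326) (nat_lit 2453430) (nat_lit 18513) (nat_lit 13890332) (nat_lit 0) (nat_lit 0),Row.mk (nat_lit 11256) (nat_lit 18326) (nat_lit 2453430) (nat_lit 18513) (nat_lit 13890332) (nat_lit 0) (nat_lit 0),Row.mk (nat_lit 11424) (nat_lit 18326) (nat_lit 2453430) (nat_lit 18513) (nat_lit 13890332) (nat_lit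 0) (nat_lit 0),Row.mk (nat_lit 11592) (nat_lit 18326) (nat_lit 2453430) (nat_lit 18513) (nat_lit 13890332) (nat_lit 0) (nat_lit 0),Row.mk (nat_lit 11760) (nat_lit 18326) (nat_lit 2453430) (nat_lit 18513) (nat_lit 13890332) (nat_lit 0) (nat_lit 0),Row.mk (nat_lit 11928) (nat_lit 18326) (nat_lit 2453430) (nat_lit 18513) (nat_lit 13890332) (nat_lit 0) (nat_lit 0),Row.mk (nat_lit 12096) (nat_lit 18326) (nat_lit 2453430) (nat_lit 18513) (nat_lit 13890332) (nat_lit 0) (nat_lit 0),Row.mk (nat_lit 12264) (nat_lit 18326) (nat_lit 2453430) (nat_lit 18513) (nat_lit 13890332) (nat_lit 0) (nat_lit 0),Row.mk (nat_lit 12432) (nat_lit 18326) (nat_lit 2453430) (nat_lit 18513) (nat_lit 13890332) (nat_lit 0) (nat_lit 0),Row.mk (nat_lit 12600) (nat_lit 18326) (nat_lit 2453430) (nat_lit 18513) (nat_lit 13890332) (nat_lit 0) (nat_lit 0),Row.mk (nat_lit 12768) (nat_lit 18326) (nat_lit 2453430) (nat_lit 18513) (nat_lit 13890332) (nat_lit 0) (nat_lit 0),Row.mk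 (nat_lit 12936) (nat_lit 18326) (nat_lit 2453430) (nat_lit 18513) (nat_lit 13890332) (nat_lit 0) (nat_lit 0),Row.mk (nat_lit 13104) (nat_lit 18326) (nat_lit 2453430) (nat_lit 18513) (nat_lit 13890332) (nat_lit 0) (nat_lit 0),Row.mk (nat_lit 13272) (nat_lit 18326) (nat_lit 2453430) (nat_lit 18513) (nat_lit 13890332) (nat_lit 0) (nat_lit 0),Row.mk (nat_lit 13440) (nat_lit 18326) (nat_lit 2453430) (nat_lit 18513) (nat_lit 13890332) (nat_lit 0) (nat_lit 0),Row.mk (nat_lit 13608) (nat_lit 18326) (nat_lit 2453430) (nat_lit 18513) (nat_lit 13890332) (nat_lit 0) (nat_lit 0),Row.mk (nat_lit 13776) (nat_lit 18326) (nat_lit 2453430) (nat_lit 18513) (nat_lit 13890332) (nat_lit 0) (nat_lit 0),Row.mk (nat_lit 13944) (nat_lit 18326) (nat_lit 2453430) (nat_lit 18513) (nat_lit 13890332) (nat_lit 0) (nat_lit 0),Row.mk (nat_lit 14112) (nat_lit 18326) (nat_lit 2453430) (nat_lit 18513) (nat_lit 13890332) (nat_lit 0) (nat_lit 0),Row.mk (nat_lit 14280)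 (nat_lit 18326) (nat_lit 2453430) (nat_lit 18513) (nat_lit 13890332) (nat_lit 0) (nat_lit 0),Row.mk (nat_lit 14448) (nat_lit 18326) (nat_lit 2453430) (nat_lit 18513) (nat_lit 13890332) (nat_lit 0) (nat_lit 0),Row.mk (nat_lit 14616) (nat_lit 18326) (nat_lit 2453430) (nat_lit 18513) (nat_lit 13890332) (nat_lit 0) (nat_lit 0),Row.mk (nat_lit 14784) (nat_lit 18326) (nat_lit 2453430) (nat_lit 18513) (nat_lit 13890332) (nat_lit 0) (nat_lit 0),Row.mk (nat_lit 14952) (nat_lit 18326) (nat_lit 2453430) (nat_lit 18513) (nat_lit 13890332) (nat_lit 0) (nat_lit 0),Row.mk (nat_lit 15120) (nat_lit 18326) (nat_lit 2453430) (nat_lit 18513) (nat_lit 13890332) (nat_lit 0) (nat_lit 0),Row.mk (nat_lit 15288) (nat_lit 18326) (nat_lit 2453430) (nat_lit 18513) (nat_lit 13890332) (nat_lit 0) (nat_lit 0),Row.mk (nat_lit 15456) (nat_lit 18326) (nat_lit 2453430) (nat_lit 18513) (nat_lit 13890332) (nat_lit 0) (nat_lit 0),Row.mk (nat_lit 15624) (nat_lit 18326)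 (nat_lit 2453430) (nat_lit 18513) (nat_lit 13890332) (nat_lit 0) (nat_lit 0),Row.mk (nat_lit 15792) (nat_lit 18326) (nat_lit 2453430) (nat_lit 18513) (nat_lit 13890332) (nat_lit 0) (nat_lit 0),Row.mk (nat_lit 15960) (nat_lit 18326) (nat_lit 2453430) (nat_lit 18513) (nat_lit 13890332) (nat_lit 0) (nat_lit 0),Row.mk (nat_lit 16128) (nat_lit 18326) (nat_lit 2453430) (nat_lit 18513) (nat_lit 13890332) (nat_lit 0) (nat_lit 0),Row.mk (nat_lit 16296) (nat_lit 18326) (nat_lit 2453430) (nat_lit 18513) (nat_lit 13890332) (nat_lit 0) (nat_lit 0),Row.mk (nat_lit 16464) (nat_lit 18326) (nat_lit 2453430) (nat_lit 18513) (nat_lit 13890332) (nat_lit 0) (nat_lit 0),Row.mk (nat_lit 16632) (nat_lit 18326) (nat_lit 2453430) (nat_lit 18513) (nat_lit 13890332) (nat_lit 0) (nat_lit 0),Row.mk (nat_lit 16800) (nat_lit 18326) (nat_lit 2453430) (nat_lit 18513) (nat_lit 13890332) (nat_lit 0) (nat_lit 0),Row.mk (nat_lit 16968) (nat_lit 18326) (nat_lit 2453430)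 (nat_lit 18513) (nat_lit 13890332) (nat_lit 0) (nat_lit 0),Row.mk (nat_lit 17136) (nat_lit 18326) (nat_lit 2453430) (nat_lit 18513) (nat_lit 13890332) (nat_lit 0) (nat_lit 0),Row.mk (nat_lit 17304) (nat_lit 18326) (nat_lit 2453430) (nat_lit 18513) (nat_lit 13890332) (nat_lit 0) (nat_lit 0),Row.mk (nat_lit 17472) (nat_lit 18326) (nat_lit 2453430) (nat_lit 18513) (nat_lit 13890332) (nat_lit 0) (nat_lit 0),Row.mk (nat_lit 17640) (nat_lit 18326) (nat_lit 2453430) (nat_lit 18513) (nat_lit 13890332) (nat_lit 0) (nat_lit 0),Row.mk (nat_lit 17808) (nat_lit 18326) (nat_lit 2453430) (nat_lit 18513) (nat_lit 13890332) (nat_lit 0) (nat_lit 0),Row.mk (nat_lit 17976) (nat_lit 18326) (nat_lit 2453430) (nat_lit 18513) (nat_lit 13890332) (nat_lit 0) (nat_lit 0),Row.mk (nat_lit 18144) (nat_lit 18326) (nat_lit 2453430) (nat_lit 18513) (nat_lit 13890332) (nat_lit 0) (nat_lit 0),Row.mk (nat_lit 18312) (nat_lit 18326) (nat_lit 2453430) (nat_lit 18513)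 (nat_lit 13890332) (nat_lit 0) (nat_lit 0),Row.mk (nat_lit 18480) (nat_lit 18326) (nat_lit 2453430) (nat_lit 18513) (nat_lit 13890332) (nat_lit 0) (nat_lit 0),Row.mk (nat_lit 18648) (nat_lit 18326) (nat_lit 2453430) (nat_lit 18513) (nat_lit 13890332) (nat_lit 0) (nat_lit 0),Row.mk (nat_lit 18816) (nat_lit 18326) (nat_lit 2453430) (nat_lit 18513) (nat_lit 13890332) (nat_lit 0) (nat_lit 0),Row.mk (nat_lit 18984) (nat_lit 18326) (nat_lit 2453430) (nat_lit 18513) (nat_lit 13890332) (nat_lit 0) (nat_lit 0),Row.mk (nat_lit 19152) (nat_lit 18326) (nat_lit 2453430) (nat_lit 18513) (nat_lit 13890332) (nat_lit 0) (nat_lit 0),Row.mk (nat_lit 19320) (nat_lit 18326) (nat_lit 2453430) (nat_lit 18513) (nat_lit 13890332) (nat_lit 0) (nat_lit 0),Row.mk (nat_lit 19488) (nat_lit 18326) (nat_lit 2453430) (nat_lit 18513) (nat_lit 13890332) (nat_lit 0) (nat_lit 0),Row.mk (nat_lit 19656) (nat_lit 18326) (nat_lit 2453430) (nat_lit 18513) (nat_lit 13890332)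 (nat_lit 0) (nat_lit 0),Row.mk (nat_lit 19824) (nat_lit 18326) (nat_lit 2453430) (nat_lit 18513) (nat_lit 13890332) (nat_lit 0) (nat_lit 0),Row.mk (nat_lit 19992) (nat_lit 18326) (nat_lit 2453430) (nat_lit 18513) (nat_lit 13890332) (nat_lit 0) (nat_lit 0),Row.mk (nat_lit 20160) (nat_lit 18326) (nat_lit 2453430) (nat_lit 18513) (nat_lit 13890332) (nat_lit 0) (nat_lit 0),Row.mk (nat_lit 20328) (nat_lit 18326) (nat_lit 2453430) (nat_lit 18513) (nat_lit 13890332) (nat_lit 0) (nat_lit 0),Row.mk (nat_lit 20496) (nat_lit 18326) (nat_lit 2453430) (nat_lit 18513) (nat_lit 13890332) (nat_lit 0) (nat_lit 0),Row.mk (nat_lit 20664) (nat_lit 18326) (nat_lit 2453430) (nat_lit 18513) (nat_lit 13890332) (nat_lit 0) (nat_lit 0),Row.mk (nat_lit 20832) (nat_lit 18326) (nat_lit 2453430) (nat_lit 18513) (nat_lit 13890332) (nat_lit 0) (nat_lit 0),Row.mk (nat_lit 21000) (nat_lit 18326) (nat_lit 2453430) (nat_lit 18513) (nat_lit 13890332) (nat_lit 0) (nat_lit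 0),Row.mk (nat_lit 21168) (nat_lit 18326) (nat_lit 2453430) (nat_lit 18513) (nat_lit 13890332) (nat_lit 0) (nat_lit 0),Row.mk (nat_lit 21336) (nat_lit 18326) (nat_lit 2453430) (nat_lit 18513) (nat_lit 13890332) (nat_lit 0) (nat_lit 0),Row.mk (nat_lit 21504) (nat_lit 18326) (nat_lit 2453430) (nat_lit 18513) (nat_lit 13890332) (nat_lit 0) (nat_lit 0),Row.mk (nat_lit 21672) (nat_lit 18326) (nat_lit 2453430) (nat_lit 18513) (nat_lit 13890332) (nat_lit 0) (nat_lit 0),Row.mk (nat_lit 21840) (nat_lit 18326) (nat_lit 2453430) (nat_lit 18513) (nat_lit 13890332) (nat_lit 0) (nat_lit 0),Row.mk (nat_lit 22008) (nat_lit 18326) (nat_lit 2453430) (nat_lit 18513) (nat_lit 13890332) (nat_lit 0) (nat_lit 0),Row.mk (nat_lit 22176) (nat_lit 18326) (nat_lit 2453430) (nat_lit 18513) (nat_lit 13890332) (nat_lit 0) (nat_lit 0),Row.mk (nat_lit 22344) (nat_lit 18326) (nat_lit 2453430) (nat_lit 18513) (nat_lit 13890332) (nat_lit 0) (nat_lit 0),Row.mk (nat_lit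 22512) (nat_lit 18326) (nat_lit 2453430) (nat_lit 18513) (nat_lit 13890332) (nat_lit 0) (nat_lit 0),Row.mk (nat_lit 22680) (nat_lit 18326) (nat_lit 2453430) (nat_lit 18513) (nat_lit 13890332) (nat_lit 0) (nat_lit 0),Row.mk (nat_lit 22848) (nat_lit 18326) (nat_lit 2453430) (nat_lit 18513) (nat_lit 13890332) (nat_lit 0) (nat_lit 0),Row.mk (nat_lit 23016) (nat_lit 18326) (nat_lit 2453430) (nat_lit 18513) (nat_lit 13890332) (nat_lit 0) (nat_lit 0),Row.mk (nat_lit 23184) (nat_lit 18326) (nat_lit 2453430) (nat_lit 18513) (nat_lit 13890332) (nat_lit 0) (nat_lit 0),Row.mk (nat_lit 23352) (nat_lit 18326) (nat_lit 2453430) (nat_lit 18513) (nat_lit 13890332) (nat_lit 0) (nat_lit 0),Row.mk (nat_lit 23520) (nat_lit 18326) (nat_lit 2453430) (nat_lit 18513) (nat_lit 13890332) (nat_lit 0) (nat_lit 0),Row.mk (nat_lit 23688) (nat_lit 18326) (nat_lit 2453430) (nat_lit 18513) (nat_lit 13890332) (nat_lit 0) (nat_lit 0),Row.mk (nat_lit 23856) (nat_lit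 18326) (nat_lit 2453430) (nat_lit 18513) (nat_lit 13890332) (nat_lit 0) (nat_lit 0),Row.mk (nat_lit 24024) (nat_lit 18326) (nat_lit 2453430) (nat_lit 18513) (nat_lit 13890332) (nat_lit 0) (nat_lit 0),Row.mk (nat_lit 24192) (nat_lit 18326) (nat_lit 2453430) (nat_lit 18513) (nat_lit 13890332) (nat_lit 0) (nat_lit 0),Row.mk (nat_lit 24360) (nat_lit 18326) (nat_lit 2453430) (nat_lit 18513) (nat_lit 13890332) (nat_lit 0) (nat_lit 0),Row.mk (nat_lit 24528) (nat_lit 18326) (nat_lit 2453430) (nat_lit 18513) (nat_lit 13890332) (nat_lit 0) (nat_lit 0),Row.mk (nat_lit 24696) (nat_lit 18326) (nat_lit 2453430) (nat_lit 18513) (nat_lit 13890332) (nat_lit 0) (nat_lit 0),Row.mk (nat_lit 24864) (nat_lit 18326) (nat_lit 2453430) (nat_lit 18513) (nat_lit 13890332) (nat_lit 0) (nat_lit 0),Row.mk (nat_lit 25032) (nat_lit 18326) (nat_lit 2453430) (nat_lit 18513) (nat_lit 13890332) (nat_lit 0) (nat_lit 0),Row.mk (nat_lit 25200) (nat_lit 18326) (nat_lit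 2453430) (nat_lit 18513) (nat_lit 13890332) (nat_lit 0) (nat_lit 0),Row.mk (nat_lit 25368) (nat_lit 18326) (nat_lit 2453430) (nat_lit 18513) (nat_lit 13890332) (nat_lit 0) (nat_lit 0),Row.mk (nat_lit 25536) (nat_lit 18326) (nat_lit 2453430) (nat_lit 18513) (nat_lit 13890332) (nat_lit 0) (nat_lit 0),Row.mk (nat_lit 25704) (nat_lit 18326) (nat_lit 2453430) (nat_lit 18513) (nat_lit 13890332) (nat_lit 0) (nat_lit 0),Row.mk (nat_lit 25872) (nat_lit 18326) (nat_lit 2453430) (nat_lit 18513) (nat_lit 13890332) (nat_lit 0) (nat_lit 0),Row.mk (nat_lit 26040) (nat_lit 18326) (nat_lit 2453430) (nat_lit 18513) (nat_lit 13890332) (nat_lit 0) (nat_lit 0),Row.mk (nat_lit 26208) (nat_lit 18326) (nat_lit 2453430) (nat_lit 18513) (nat_lit 13890332) (nat_lit 0) (nat_lit 0),Row.mk (nat_lit 26376) (nat_lit 18326) (nat_lit 2453430) (nat_lit 18513) (nat_lit 13890332) (nat_lit 0) (nat_lit 0)],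
[Row.mk (nat_lit 10752) (nat_lit 16830) (nat_lit 9780664) (nat_lit 17017) (nat_lit 10632301) (nat_lit 0) (nat_lit 0),Row.mk (nat_lit 10920) (nat_lit 16830) (nat_lit 9780664) (nat_lit 17017) (nat_lit 10632301) (nat_lit 0) (nat_lit 0),Row.mk (nat_lit 11088) (nat_lit 16830) (nat_lit 9780664) (nat_lit 17017) (nat_lit 10632301) (nat_lit 0) (nat_lit 0),Row.mk (nat_lit 11256) (nat_lit 16830) (nat_lit 9780664) (nat_lit 17017) (nat_lit 10632301) (nat_lit 0) (nat_lit 0),Row.mk (nat_lit 11424) (nat_lit 16830) (nat_lit 9780664) (nat_lit 17017) (nat_lit 10632301) (nat_lit 0) (nat_lit 0),Row.mk (nat_lit 11592) (nat_lit 16830) (nat_lit 9780664) (nat_lit 17017) (nat_lit 10632301) (nat_lit 0) (nat_lit 0),Row.mk (nat_lit 11760) (nat_lit 16830) (nat_lit 9780664) (nat_lit 17017) (nat_lit 10632301) (nat_lit 0) (nat_lit 0),Row.mk (nat_lit 11928) (nat_lit 16830) (nat_lit 9780664) (nat_lit 17017) (nat_lit 10632301) (nat_lit 0) (nat_lit 0),Row.mk (nat_lit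 12096) (nat_lit 16830) (nat_lit 9780664) (nat_lit 17017) (nat_lit 10632301) (nat_lit 0) (nat_lit 0),Row.mk (nat_lit 12264) (nat_lit 16830) (nat_lit 9780664) (nat_lit 17017) (nat_lit 10632301) (nat_lit 0) (nat_lit 0),Row.mk (nat_lit 12432) (nat_lit 16830) (nat_lit 9780664) (nat_lit 17017) (nat_lit 10632301) (nat_lit 0) (nat_lit 0),Row.mk (nat_lit 12600) (nat_lit 16830) (nat_lit 9780664) (nat_lit 17017) (nat_lit 10632301) (nat_lit 0) (nat_lit 0),Row.mk (nat_lit 12768) (nat_lit 16830) (nat_lit 9780664) (nat_lit 17017) (nat_lit 10632301) (nat_lit 0) (nat_lit 0),Row.mk (nat_lit 12936) (nat_lit 16830) (nat_lit 9780664) (nat_lit 17017) (nat_lit 10632301) (nat_lit 0) (nat_lit 0),Row.mk (nat_lit 13104) (nat_lit 16830) (nat_lit 9780664) (nat_lit 17017) (nat_lit 10632301) (nat_lit 0) (nat_lit 0),Row.mk (nat_lit 13272) (nat_lit 16830) (nat_lit 9780664) (nat_lit 17017) (nat_lit 10632301) (nat_lit 0) (nat_lit 0),Row.mk (nat_lit 13440) (nat_lit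 16830) (nat_lit 9780664) (nat_lit 17017) (nat_lit 10632301) (nat_lit 0) (nat_lit 0),Row.mk (nat_lit 13608) (nat_lit 16830) (nat_lit 9780664) (nat_lit 17017) (nat_lit 10632301) (nat_lit 0) (nat_lit 0),Row.mk (nat_lit 13776) (nat_lit 16830) (nat_lit 9780664) (nat_lit 17017) (nat_lit 10632301) (nat_lit 0) (nat_lit 0),Row.mk (nat_lit 13944) (nat_lit 16830) (nat_lit 9780664) (nat_lit 17017) (nat_lit 10632301) (nat_lit 0) (nat_lit 0),Row.mk (nat_lit 14112) (nat_lit 16830) (nat_lit 9780664) (nat_lit 17017) (nat_lit 10632301) (nat_lit 0) (nat_lit 0),Row.mk (nat_lit 14280) (nat_lit 16830) (nat_lit 9780664) (nat_lit 17017) (nat_lit 10632301) (nat_lit 0) (nat_lit 0),Row.mk (nat_lit 14448) (nat_lit 16830) (nat_lit 9780664) (nat_lit 17017) (nat_lit 10632301) (nat_lit 0) (nat_lit 0),Row.mk (nat_lit 14616) (nat_lit 16830) (nat_lit 9780664) (nat_lit 17017) (nat_lit 10632301) (nat_lit 0) (nat_lit 0),Row.mk (nat_lit 14784) (nat_lit 16830) (nat_lit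 9780664) (nat_lit 17017) (nat_lit 10632301) (nat_lit 0) (nat_lit 0),Row.mk (nat_lit 14952) (nat_lit 16830) (nat_lit 9780664) (nat_lit 17017) (nat_lit 10632301) (nat_lit 0) (nat_lit 0),Row.mk (nat_lit 15120) (nat_lit 16830) (nat_lit 9780664) (nat_lit 17017) (nat_lit 10632301) (nat_lit 0) (nat_lit 0),Row.mk (nat_lit 15288) (nat_lit 16830) (nat_lit 9780664) (nat_lit 17017) (nat_lit 10632301) (nat_lit 0) (nat_lit 0),Row.mk (nat_lit 15456) (nat_lit 16830) (nat_lit 9780664) (nat_lit 17017) (nat_lit 10632301) (nat_lit 0) (nat_lit 0),Row.mk (nat_lit 15624) (nat_lit 16830) (nat_lit 9780664) (nat_lit 17017) (nat_lit 10632301) (nat_lit 0) (nat_lit 0),Row.mk (nat_lit 15792) (nat_lit 16830) (nat_lit 9780664) (nat_lit 17017) (nat_lit 10632301) (nat_lit 0) (nat_lit 0),Row.mk (nat_lit 15960) (nat_lit 16830) (nat_lit 9780664) (nat_lit 17017) (nat_lit 10632301) (nat_lit 0) (nat_lit 0),Row.mk (nat_lit 16128) (nat_lit 16830) (nat_lit 9780664) (nat_lit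 17017) (nat_lit 10632301) (nat_lit 0) (nat_lit 0),Row.mk (nat_lit 16296) (nat_lit 16830) (nat_lit 9780664) (nat_lit 17017) (nat_lit 10632301) (nat_lit 0) (nat_lit 0),Row.mk (nat_lit 16464) (nat_lit 16830) (nat_lit 9780664) (nat_lit 17017) (nat_lit 10632301) (nat_lit 0) (nat_lit 0),Row.mk (nat_lit 16632) (nat_lit 16830) (nat_lit 9780664) (nat_lit 17017) (nat_lit 10632301) (nat_lit 0) (nat_lit 0),Row.mk (nat_lit 16800) (nat_lit 16830) (nat_lit 9780664) (nat_lit 17017) (nat_lit 10632301) (nat_lit 0) (nat_lit 0),Row.mk (nat_lit 16968) (nat_lit 16830) (nat_lit 9780664) (nat_lit 17017) (nat_lit 10632301) (nat_lit 0) (nat_lit 0),Row.mk (nat_lit 17136) (nat_lit 16830) (nat_lit 9780664) (nat_lit 17017) (nat_lit 10632301) (nat_lit 0) (nat_lit 0),Row.mk (nat_lit 17304) (nat_lit 16830) (nat_lit 9780664) (nat_lit 17017) (nat_lit 10632301) (nat_lit 0) (nat_lit 0),Row.mk (nat_lit 17472) (nat_lit 16830) (nat_lit 9780664) (nat_lit 17017) (nat_lit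 10632301) (nat_lit 0) (nat_lit 0),Row.mk (nat_lit 17640) (nat_lit 16830) (nat_lit 9780664) (nat_lit 17017) (nat_lit 10632301) (nat_lit 0) (nat_lit 0),Row.mk (nat_lit 17808) (nat_lit 16830) (nat_lit 9780664) (nat_lit 17017) (nat_lit 10632301) (nat_lit 0) (nat_lit 0),Row.mk (nat_lit 17976) (nat_lit 16830) (nat_lit 9780664) (nat_lit 17017) (nat_lit 10632301) (nat_lit 0) (nat_lit 0),Row.mk (nat_lit 18144) (nat_lit 16830) (nat_lit 9780664) (nat_lit 17017) (nat_lit 10632301) (nat_lit 0) (nat_lit 0),Row.mk (nat_lit 18312) (nat_lit 16830) (nat_lit 9780664) (nat_lit 17017) (nat_lit 10632301) (nat_lit 0) (nat_lit 0),Row.mk (nat_lit 18480) (nat_lit 16830) (nat_lit 9780664) (nat_lit 17017) (nat_lit 10632301) (nat_lit 0) (nat_lit 0),Row.mk (nat_lit 18648) (nat_lit 16830) (nat_lit 9780664) (nat_lit 17017) (nat_lit 10632301) (nat_lit 0) (nat_lit 0),Row.mk (nat_lit 18816) (nat_lit 16830) (nat_lit 9780664) (nat_lit 17017) (nat_lit 10632301) (nat_lit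 0) (nat_lit 0),Row.mk (nat_lit 18984) (nat_lit 16830) (nat_lit 9780664) (nat_lit 17017) (nat_lit 10632301) (nat_lit 0) (nat_lit 0),Row.mk (nat_lit 19152) (nat_lit 16830) (nat_lit 9780664) (nat_lit 17017) (nat_lit 10632301) (nat_lit 0) (nat_lit 0),Row.mk (nat_lit 19320) (nat_lit 16830) (nat_lit 9780664) (nat_lit 17017) (nat_lit 10632301) (nat_lit 0) (nat_lit 0),Row.mk (nat_lit 19488) (nat_lit 16830) (nat_lit 9780664) (nat_lit 17017) (nat_lit 10632301) (nat_lit 0) (nat_lit 0),Row.mk (nat_lit 19656) (nat_lit 16830) (nat_lit 9780664) (nat_lit 17017) (nat_lit 10632301) (nat_lit 0) (nat_lit 0),Row.mk (nat_lit 19824) (nat_lit 16830) (nat_lit 9780664) (nat_lit 17017) (nat_lit 10632301) (nat_lit 0) (nat_lit 0),Row.mk (nat_lit 19992) (nat_lit 16830) (nat_lit 9780664) (nat_lit 17017) (nat_lit 10632301) (nat_lit 0) (nat_lit 0),Row.mk (nat_lit 20160) (nat_lit 16830) (nat_lit 9780664) (nat_lit 17017) (nat_lit 10632301) (nat_lit 0) (nat_lit 0),Row.mk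 (nat_lit 20328) (nat_lit 16830) (nat_lit 9780664) (nat_lit 17017) (nat_lit 10632301) (nat_lit 0) (nat_lit 0),Row.mk (nat_lit 20496) (nat_lit 16830) (nat_lit 9780664) (nat_lit 17017) (nat_lit 10632301) (nat_lit 0) (nat_lit 0),Row.mk (nat_lit 20664) (nat_lit 16830) (nat_lit 9780664) (nat_lit 17017) (nat_lit 10632301) (nat_lit 0) (nat_lit 0),Row.mk (nat_lit 20832) (nat_lit 16830) (nat_lit 9780664) (nat_lit 17017) (nat_lit 10632301) (nat_lit 0) (nat_lit 0),Row.mk (nat_lit 21000) (nat_lit 16830) (nat_lit 9780664) (nat_lit 17017) (nat_lit 10632301) (nat_lit 0) (nat_lit 0),Row.mk (nat_lit 21168) (nat_lit 16830) (nat_lit 9780664) (nat_lit 17017) (nat_lit 10632301) (nat_lit 0) (nat_lit 0),Row.mk (nat_lit 21336) (nat_lit 16830) (nat_lit 9780664) (nat_lit 17017) (nat_lit 10632301) (nat_lit 0) (nat_lit 0),Row.mk (nat_lit 21504) (nat_lit 16830) (nat_lit 9780664) (nat_lit 17017) (nat_lit 10632301) (nat_lit 0) (nat_lit 0),Row.mk (nat_lit 21672)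 (nat_lit 16830) (nat_lit 9780664) (nat_lit 17017) (nat_lit 10632301) (nat_lit 0) (nat_lit 0),Row.mk (nat_lit 21840) (nat_lit 16830) (nat_lit 9780664) (nat_lit 17017) (nat_lit 10632301) (nat_lit 0) (nat_lit 0),Row.mk (nat_lit 22008) (nat_lit 16830) (nat_lit 9780664) (nat_lit 17017) (nat_lit 10632301) (nat_lit 0) (nat_lit 0),Row.mk (nat_lit 22176) (nat_lit 16830) (nat_lit 9780664) (nat_lit 17017) (nat_lit 10632301) (nat_lit 0) (nat_lit 0),Row.mk (nat_lit 22344) (nat_lit 16830) (nat_lit 9780664) (nat_lit 17017) (nat_lit 10632301) (nat_lit 0) (nat_lit 0),Row.mk (nat_lit 22512) (nat_lit 16830) (nat_lit 9780664) (nat_lit 17017) (nat_lit 10632301) (nat_lit 0) (nat_lit 0),Row.mk (nat_lit 22680) (nat_lit 16830) (nat_lit 9780664) (nat_lit 17017) (nat_lit 10632301) (nat_lit 0) (nat_lit 0),Row.mk (nat_lit 22848) (nat_lit 16830) (nat_lit 9780664) (nat_lit 17017) (nat_lit 10632301) (nat_lit 0) (nat_lit 0),Row.mk (nat_lit 23016) (nat_lit 16830)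 (nat_lit 9780664) (nat_lit 17017) (nat_lit 10632301) (nat_lit 0) (nat_lit 0),Row.mk (nat_lit 23184) (nat_lit 16830) (nat_lit 9780664) (nat_lit 17017) (nat_lit 10632301) (nat_lit 0) (nat_lit 0),Row.mk (nat_lit 23352) (nat_lit 16830) (nat_lit 9780664) (nat_lit 17017) (nat_lit 10632301) (nat_lit 0) (nat_lit 0),Row.mk (nat_lit 23520) (nat_lit 16830) (nat_lit 9780664) (nat_lit 17017) (nat_lit 10632301) (nat_lit 0) (nat_lit 0),Row.mk (nat_lit 23688) (nat_lit 16830) (nat_lit 9780664) (nat_lit 17017) (nat_lit 10632301) (nat_lit 0) (nat_lit 0),Row.mk (nat_lit 23856) (nat_lit 16830) (nat_lit 9780664) (nat_lit 17017) (nat_lit 10632301) (nat_lit 0) (nat_lit 0),Row.mk (nat_lit 24024) (nat_lit 16830) (nat_lit 9780664) (nat_lit 17017) (nat_lit 10632301) (nat_lit 0) (nat_lit 0),Row.mk (nat_lit 24192) (nat_lit 16830) (nat_lit 9780664) (nat_lit 17017) (nat_lit 10632301) (nat_lit 0) (nat_lit 0),Row.mk (nat_lit 24360) (nat_lit 16830) (nat_lit 9780664)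 (nat_lit 17017) (nat_lit 10632301) (nat_lit 0) (nat_lit 0),Row.mk (nat_lit 24528) (nat_lit 16830) (nat_lit 9780664) (nat_lit 17017) (nat_lit 10632301) (nat_lit 0) (nat_lit 0),Row.mk (nat_lit 24696) (nat_lit 16830) (nat_lit 9780664) (nat_lit 17017) (nat_lit 10632301) (nat_lit 0) (nat_lit 0),Row.mk (nat_lit 24864) (nat_lit 16830) (nat_lit 9780664) (nat_lit 17017) (nat_lit 10632301) (nat_lit 0) (nat_lit 0),Row.mk (nat_lit 25032) (nat_lit 16830) (nat_lit 9780664) (nat_lit 17017) (nat_lit 10632301) (nat_lit 0) (nat_lit 0),Row.mk (nat_lit 25200) (nat_lit 16830) (nat_lit 9780664) (nat_lit 17017) (nat_lit 10632301) (nat_lit 0) (nat_lit 0),Row.mk (nat_lit 25368) (nat_lit 16830) (nat_lit 9780664) (nat_lit 17017) (nat_lit 10632301) (nat_lit 0) (nat_lit 0),Row.mk (nat_lit 25536) (nat_lit 16830) (nat_lit 9780664) (nat_lit 17017) (nat_lit 10632301) (nat_lit 0) (nat_lit 0),Row.mk (nat_lit 25704) (nat_lit 16830) (nat_lit 9780664) (nat_lit 17017)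 (nat_lit 10632301) (nat_lit 0) (nat_lit 0),Row.mk (nat_lit 25872) (nat_lit 16830) (nat_lit 9780664) (nat_lit 17017) (nat_lit 10632301) (nat_lit 0) (nat_lit 0),Row.mk (nat_lit 26040) (nat_lit 16830) (nat_lit 9780664) (nat_lit 17017) (nat_lit 10632301) (nat_lit 0) (nat_lit 0),Row.mk (nat_lit 26208) (nat_lit 16830) (nat_lit 9780664) (nat_lit 17017) (nat_lit 10632301) (nat_lit 0) (nat_lit 0),Row.mk (nat_lit 26376) (nat_lit 16830) (nat_lit 9780664) (nat_lit 17017) (nat_lit 10632301) (nat_lit 0) (nat_lit 0),Row.mk (nat_lit 26544) (nat_lit 16830) (nat_lit 9780664) (nat_lit 17017) (nat_lit 10632301) (nat_lit 0) (nat_lit 0)],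
[Row.mk (nat_lit 11088) (nat_lit 15521) (nat_lit 18932203) (nat_lit 15708) (nat_lit 6563098) (nat_lit 0) (nat_lit 0),Row.mk (nat_lit 11256) (nat_lit 15521) (nat_lit 18932203) (nat_lit 15708) (nat_lit 6563098) (nat_lit 0) (nat_lit 0),Row.mk (nat_lit 11424) (nat_lit 15521) (nat_lit 18932203) (nat_lit 15708) (nat_lit 6563098) (nat_lit 0) (nat_lit 0),Row.mk (nat_lit 11592) (nat_lit 15521) (nat_lit 18932203) (nat_lit 15708) (nat_lit 6563098) (nat_lit 0) (nat_lit 0),Row.mk (nat_lit 11760) (nat_lit 15521) (nat_lit 18932203) (nat_lit 15708) (nat_lit 6563098) (nat_lit 0) (nat_lit 0),Row.mk (nat_lit 11928) (nat_lit 15521) (nat_lit 18932203) (nat_lit 15708) (nat_lit 6563098) (nat_lit 0) (nat_lit 0),Row.mk (nat_lit 12096) (nat_lit 15521) (nat_lit 18932203) (nat_lit 15708) (nat_lit 6563098) (nat_lit 0) (nat_lit 0),Row.mk (nat_lit 12264) (nat_lit 15521) (nat_lit 18932203) (nat_lit 15708) (nat_lit 6563098) (nat_lit 0) (nat_lit 0),Row.mk (nat_lit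 12432) (nat_lit 15521) (nat_lit 18932203) (nat_lit 15708) (nat_lit 6563098) (nat_lit 0) (nat_lit 0),Row.mk (nat_lit 12600) (nat_lit 15521) (nat_lit 18932203) (nat_lit 15708) (nat_lit 6563098) (nat_lit 0) (nat_lit 0),Row.mk (nat_lit 12768) (nat_lit 15521) (nat_lit 18932203) (nat_lit 15708) (nat_lit 6563098) (nat_lit 0) (nat_lit 0),Row.mk (nat_lit 12936) (nat_lit 15521) (nat_lit 18932203) (nat_lit 15708) (nat_lit 6563098) (nat_lit 0) (nat_lit 0),Row.mk (nat_lit 13104) (nat_lit 15521) (nat_lit 18932203) (nat_lit 15708) (nat_lit 6563098) (nat_lit 0) (nat_lit 0),Row.mk (nat_lit 13272) (nat_lit 15521) (nat_lit 18932203) (nat_lit 15708) (nat_lit 6563098) (nat_lit 0) (nat_lit 0),Row.mk (nat_lit 13440) (nat_lit 15521) (nat_lit 18932203) (nat_lit 15708) (nat_lit 6563098) (nat_lit 0) (nat_lit 0),Row.mk (nat_lit 13608) (nat_lit 15521) (nat_lit 18932203) (nat_lit 15708) (nat_lit 6563098) (nat_lit 0) (nat_lit 0),Row.mk (nat_lit 13776) (nat_lit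 15521) (nat_lit 18932203) (nat_lit 15708) (nat_lit 6563098) (nat_lit 0) (nat_lit 0),Row.mk (nat_lit 13944) (nat_lit 15521) (nat_lit 18932203) (nat_lit 15708) (nat_lit 6563098) (nat_lit 0) (nat_lit 0),Row.mk (nat_lit 14112) (nat_lit 15521) (nat_lit 18932203) (nat_lit 15708) (nat_lit 6563098) (nat_lit 0) (nat_lit 0),Row.mk (nat_lit 14280) (nat_lit 15521) (nat_lit 18932203) (nat_lit 15708) (nat_lit 6563098) (nat_lit 0) (nat_lit 0),Row.mk (nat_lit 14448) (nat_lit 15521) (nat_lit 18932203) (nat_lit 15708) (nat_lit 6563098) (nat_lit 0) (nat_lit 0),Row.mk (nat_lit 14616) (nat_lit 15521) (nat_lit 18932203) (nat_lit 15708) (nat_lit 6563098) (nat_lit 0) (nat_lit 0),Row.mk (nat_lit 14784) (nat_lit 15521) (nat_lit 18932203) (nat_lit 15708) (nat_lit 6563098) (nat_lit 0) (nat_lit 0),Row.mk (nat_lit 14952) (nat_lit 15521) (nat_lit 18932203) (nat_lit 15708) (nat_lit 6563098) (nat_lit 0) (nat_lit 0),Row.mk (nat_lit 15120) (nat_lit 15521) (nat_lit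 18932203) (nat_lit 15708) (nat_lit 6563098) (nat_lit 0) (nat_lit 0),Row.mk (nat_lit 15288) (nat_lit 15521) (nat_lit 18932203) (nat_lit 15708) (nat_lit 6563098) (nat_lit 0) (nat_lit 0),Row.mk (nat_lit 15456) (nat_lit 15521) (nat_lit 18932203) (nat_lit 15708) (nat_lit 6563098) (nat_lit 0) (nat_lit 0),Row.mk (nat_lit 15624) (nat_lit 15521) (nat_lit 18932203) (nat_lit 15708) (nat_lit 6563098) (nat_lit 0) (nat_lit 0),Row.mk (nat_lit 15792) (nat_lit 15521) (nat_lit 18932203) (nat_lit 15708) (nat_lit 6563098) (nat_lit 0) (nat_lit 0),Row.mk (nat_lit 15960) (nat_lit 15521) (nat_lit 18932203) (nat_lit 15708) (nat_lit 6563098) (nat_lit 0) (nat_lit 0),Row.mk (nat_lit 16128) (nat_lit 15521) (nat_lit 18932203) (nat_lit 15708) (nat_lit 6563098) (nat_lit 0) (nat_lit 0),Row.mk (nat_lit 16296) (nat_lit 15521) (nat_lit 18932203) (nat_lit 15708) (nat_lit 6563098) (nat_lit 0) (nat_lit 0),Row.mk (nat_lit 16464) (nat_lit 15521) (nat_lit 18932203) (nat_lit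 15708) (nat_lit 6563098) (nat_lit 0) (nat_lit 0),Row.mk (nat_lit 16632) (nat_lit 15521) (nat_lit 18932203) (nat_lit 15708) (nat_lit 6563098) (nat_lit 0) (nat_lit 0),Row.mk (nat_lit 16800) (nat_lit 15521) (nat_lit 18932203) (nat_lit 15708) (nat_lit 6563098) (nat_lit 0) (nat_lit 0),Row.mk (nat_lit 16968) (nat_lit 15521) (nat_lit 18932203) (nat_lit 15708) (nat_lit 6563098) (nat_lit 0) (nat_lit 0),Row.mk (nat_lit 17136) (nat_lit 15521) (nat_lit 18932203) (nat_lit 15708) (nat_lit 6563098) (nat_lit 0) (nat_lit 0),Row.mk (nat_lit 17304) (nat_lit 15521) (nat_lit 18932203) (nat_lit 15708) (nat_lit 6563098) (nat_lit 0) (nat_lit 0),Row.mk (nat_lit 17472) (nat_lit 15521) (nat_lit 18932203) (nat_lit 15708) (nat_lit 6563098) (nat_lit 0) (nat_lit 0),Row.mk (nat_lit 17640) (nat_lit 15521) (nat_lit 18932203) (nat_lit 15708) (nat_lit 6563098) (nat_lit 0) (nat_lit 0),Row.mk (nat_lit 17808) (nat_lit 15521) (nat_lit 18932203) (nat_lit 15708) (nat_lit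 6563098) (nat_lit 0) (nat_lit 0),Row.mk (nat_lit 17976) (nat_lit 15521) (nat_lit 18932203) (nat_lit 15708) (nat_lit 6563098) (nat_lit 0) (nat_lit 0),Row.mk (nat_lit 18144) (nat_lit 15521) (nat_lit 18932203) (nat_lit 15708) (nat_lit 6563098) (nat_lit 0) (nat_lit 0),Row.mk (nat_lit 18312) (nat_lit 15521) (nat_lit 18932203) (nat_lit 15708) (nat_lit 6563098) (nat_lit 0) (nat_lit 0),Row.mk (nat_lit 18480) (nat_lit 15521) (nat_lit 18932203) (nat_lit 15708) (nat_lit 6563098) (nat_lit 0) (nat_lit 0),Row.mk (nat_lit 18648) (nat_lit 15521) (nat_lit 18932203) (nat_lit 15708) (nat_lit 6563098) (nat_lit 0) (nat_lit 0),Row.mk (nat_lit 18816) (nat_lit 15521) (nat_lit 18932203) (nat_lit 15708) (nat_lit 6563098) (nat_lit 0) (nat_lit 0),Row.mk (nat_lit 18984) (nat_lit 15521) (nat_lit 18932203) (nat_lit 15708) (nat_lit 6563098) (nat_lit 0) (nat_lit 0),Row.mk (nat_lit 19152) (nat_lit 15521) (nat_lit 18932203) (nat_lit 15708) (nat_lit 6563098) (nat_lit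 0) (nat_lit 0),Row.mk (nat_lit 19320) (nat_lit 15521) (nat_lit 18932203) (nat_lit 15708) (nat_lit 6563098) (nat_lit 0) (nat_lit 0),Row.mk (nat_lit 19488) (nat_lit 15521) (nat_lit 18932203) (nat_lit 15708) (nat_lit 6563098) (nat_lit 0) (nat_lit 0),Row.mk (nat_lit 19656) (nat_lit 15521) (nat_lit 18932203) (nat_lit 15708) (nat_lit 6563098) (nat_lit 0) (nat_lit 0),Row.mk (nat_lit 19824) (nat_lit 15521) (nat_lit 18932203) (nat_lit 15708) (nat_lit 6563098) (nat_lit 0) (nat_lit 0),Row.mk (nat_lit 19992) (nat_lit 15521) (nat_lit 18932203) (nat_lit 15708) (nat_lit 6563098) (nat_lit 0) (nat_lit 0),Row.mk (nat_lit 20160) (nat_lit 15521) (nat_lit 18932203) (nat_lit 15708) (nat_lit 6563098) (nat_lit 0) (nat_lit 0),Row.mk (nat_lit 20328) (nat_lit 15521) (nat_lit 18932203) (nat_lit 15708) (nat_lit 6563098) (nat_lit 0) (nat_lit 0),Row.mk (nat_lit 20496) (nat_lit 15521) (nat_lit 18932203) (nat_lit 15708) (nat_lit 6563098) (nat_lit 0) (nat_lit 0),Row.mk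 (nat_lit 20664) (nat_lit 15521) (nat_lit 18932203) (nat_lit 15708) (nat_lit 6563098) (nat_lit 0) (nat_lit 0),Row.mk (nat_lit 20832) (nat_lit 15521) (nat_lit 18932203) (nat_lit 15708) (nat_lit 6563098) (nat_lit 0) (nat_lit 0),Row.mk (nat_lit 21000) (nat_lit 15521) (nat_lit 18932203) (nat_lit 15708) (nat_lit 6563098) (nat_lit 0) (nat_lit 0),Row.mk (nat_lit 21168) (nat_lit 15521) (nat_lit 18932203) (nat_lit 15708) (nat_lit 6563098) (nat_lit 0) (nat_lit 0),Row.mk (nat_lit 21336) (nat_lit 15521) (nat_lit 18932203) (nat_lit 15708) (nat_lit 6563098) (nat_lit 0) (nat_lit 0),Row.mk (nat_lit 21504) (nat_lit 15521) (nat_lit 18932203) (nat_lit 15708) (nat_lit 6563098) (nat_lit 0) (nat_lit 0),Row.mk (nat_lit 21672) (nat_lit 15521) (nat_lit 18932203) (nat_lit 15708) (nat_lit 6563098) (nat_lit 0) (nat_lit 0),Row.mk (nat_lit 21840) (nat_lit 15521) (nat_lit 18932203) (nat_lit 15708) (nat_lit 6563098) (nat_lit 0) (nat_lit 0),Row.mk (nat_lit 22008)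 (nat_lit 15521) (nat_lit 18932203) (nat_lit 15708) (nat_lit 6563098) (nat_lit 0) (nat_lit 0),Row.mk (nat_lit 22176) (nat_lit 15521) (nat_lit 18932203) (nat_lit 15708) (nat_lit 6563098) (nat_lit 0) (nat_lit 0),Row.mk (nat_lit 22344) (nat_lit 15521) (nat_lit 18932203) (nat_lit 15708) (nat_lit 6563098) (nat_lit 0) (nat_lit 0),Row.mk (nat_lit 22512) (nat_lit 15521) (nat_lit 18932203) (nat_lit 15708) (nat_lit 6563098) (nat_lit 0) (nat_lit 0),Row.mk (nat_lit 22680) (nat_lit 15521) (nat_lit 18932203) (nat_lit 15708) (nat_lit 6563098) (nat_lit 0) (nat_lit 0),Row.mk (nat_lit 22848) (nat_lit 15521) (nat_lit 18932203) (nat_lit 15708) (nat_lit 6563098) (nat_lit 0) (nat_lit 0),Row.mk (nat_lit 23016) (nat_lit 15521) (nat_lit 18932203) (nat_lit 15708) (nat_lit 6563098) (nat_lit 0) (nat_lit 0),Row.mk (nat_lit 23184) (nat_lit 15521) (nat_lit 18932203) (nat_lit 15708) (nat_lit 6563098) (nat_lit 0) (nat_lit 0),Row.mk (nat_lit 23352) (nat_lit 15521)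 (nat_lit 18932203) (nat_lit 15708) (nat_lit 6563098) (nat_lit 0) (nat_lit 0),Row.mk (nat_lit 23520) (nat_lit 15521) (nat_lit 18932203) (nat_lit 15708) (nat_lit 6563098) (nat_lit 0) (nat_lit 0),Row.mk (nat_lit 23688) (nat_lit 15521) (nat_lit 18932203) (nat_lit 15708) (nat_lit 6563098) (nat_lit 0) (nat_lit 0),Row.mk (nat_lit 23856) (nat_lit 15521) (nat_lit 18932203) (nat_lit 15708) (nat_lit 6563098) (nat_lit 0) (nat_lit 0),Row.mk (nat_lit 24024) (nat_lit 15521) (nat_lit 18932203) (nat_lit 15708) (nat_lit 6563098) (nat_lit 0) (nat_lit 0),Row.mk (nat_lit 24192) (nat_lit 15521) (nat_lit 18932203) (nat_lit 15708) (nat_lit 6563098) (nat_lit 0) (nat_lit 0),Row.mk (nat_lit 24360) (nat_lit 15521) (nat_lit 18932203) (nat_lit 15708) (nat_lit 6563098) (nat_lit 0) (nat_lit 0),Row.mk (nat_lit 24528) (nat_lit 15521) (nat_lit 18932203) (nat_lit 15708) (nat_lit 6563098) (nat_lit 0) (nat_lit 0),Row.mk (nat_lit 24696) (nat_lit 15521) (nat_lit 18932203)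 (nat_lit 15708) (nat_lit 6563098) (nat_lit 0) (nat_lit 0),Row.mk (nat_lit 24864) (nat_lit 15521) (nat_lit 18932203) (nat_lit 15708) (nat_lit 6563098) (nat_lit 0) (nat_lit 0),Row.mk (nat_lit 25032) (nat_lit 15521) (nat_lit 18932203) (nat_lit 15708) (nat_lit 6563098) (nat_lit 0) (nat_lit 0),Row.mk (nat_lit 25200) (nat_lit 15521) (nat_lit 18932203) (nat_lit 15708) (nat_lit 6563098) (nat_lit 0) (nat_lit 0),Row.mk (nat_lit 25368) (nat_lit 15521) (nat_lit 18932203) (nat_lit 15708) (nat_lit 6563098) (nat_lit 0) (nat_lit 0),Row.mk (nat_lit 25536) (nat_lit 15521) (nat_lit 18932203) (nat_lit 15708) (nat_lit 6563098) (nat_lit 0) (nat_lit 0),Row.mk (nat_lit 25704) (nat_lit 15521) (nat_lit 18932203) (nat_lit 15708) (nat_lit 6563098) (nat_lit 0) (nat_lit 0),Row.mk (nat_lit 25872) (nat_lit 15521) (nat_lit 18932203) (nat_lit 15708) (nat_lit 6563098) (nat_lit 0) (nat_lit 0),Row.mk (nat_lit 26040) (nat_lit 15521) (nat_lit 18932203) (nat_lit 15708)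 (nat_lit 6563098) (nat_lit 0) (nat_lit 0),Row.mk (nat_lit 26208) (nat_lit 15521) (nat_lit 18932203) (nat_lit 15708) (nat_lit 6563098) (nat_lit 0) (nat_lit 0),Row.mk (nat_lit 26376) (nat_lit 15521) (nat_lit 18932203) (nat_lit 15708) (nat_lit 6563098) (nat_lit 0) (nat_lit 0),Row.mk (nat_lit 26544) (nat_lit 15521) (nat_lit 18932203) (nat_lit 15708) (nat_lit 6563098) (nat_lit 0) (nat_lit 0)],
[Row.mk (nat_lit 11424) (nat_lit 14399) (nat_lit 30362254) (nat_lit 14586) (nat_lit 1480762) (nat_lit 0) (nat_lit 0),Row.mk (nat_lit 11592) (nat_lit 14399) (nat_lit 30362254) (nat_lit 14586) (nat_lit 1480762) (nat_lit 0) (nat_lit 0),Row.mk (nat_lit 11760) (nat_lit 14399) (nat_lit 30362254) (nat_lit 14586) (nat_lit 1480762) (nat_lit 0) (nat_lit 0),Row.mk (nat_lit 11928) (nat_lit 14399) (nat_lit 30362254) (nat_lit 14586) (nat_lit 1480762) (nat_lit 0) (nat_lit 0),Row.mk (nat_lit 12096) (nat_lit 14399) (nat_lit 30362254) (nat_lit 14586) (nat_lit 1480762)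 (nat_lit 0) (nat_lit 0),Row.mk (nat_lit 12264) (nat_lit 14399) (nat_lit 30362254) (nat_lit 14586) (nat_lit 1480762) (nat_lit 0) (nat_lit 0),Row.mk (nat_lit 12432) (nat_lit 14399) (nat_lit 30362254) (nat_lit 14586) (nat_lit 1480762) (nat_lit 0) (nat_lit 0),Row.mk (nat_lit 12600) (nat_lit 14399) (nat_lit 30362254) (nat_lit 14586) (nat_lit 1480762) (nat_lit 0) (nat_lit 0),Row.mk (nat_lit 12768) (nat_lit 14399) (nat_lit 30362254) (nat_lit 14586) (nat_lit 1480762) (nat_lit 0) (nat_lit 0),Row.mk (nat_lit 12936) (nat_lit 14399) (nat_lit 30362254) (nat_lit 14586) (nat_lit 1480762) (nat_lit 0) (nat_lit 0),Row.mk (nat_lit 13104) (nat_lit 14399) (nat_lit 30362254) (nat_lit 14586) (nat_lit 1480762) (nat_lit 0) (nat_lit 0),Row.mk (nat_lit 13272) (nat_lit 14399) (nat_lit 30362254) (nat_lit 14586) (nat_lit 1480762) (nat_lit 0) (nat_lit 0),Row.mk (nat_lit 13440) (nat_lit 14399) (nat_lit 30362254) (nat_lit 14586) (nat_lit 1480762) (nat_lit 0) (nat_lit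 0),Row.mk (nat_lit 13608) (nat_lit 14399) (nat_lit 30362254) (nat_lit 14586) (nat_lit 1480762) (nat_lit 0) (nat_lit 0),Row.mk (nat_lit 13776) (nat_lit 14399) (nat_lit 30362254) (nat_lit 14586) (nat_lit 1480762) (nat_lit 0) (nat_lit 0),Row.mk (nat_lit 13944) (nat_lit 14399) (nat_lit 30362254) (nat_lit 14586) (nat_lit 1480762) (nat_lit 0) (nat_lit 0),Row.mk (nat_lit 14112) (nat_lit 14399) (nat_lit 30362254) (nat_lit 14586) (nat_lit 1480762) (nat_lit 0) (nat_lit 0),Row.mk (nat_lit 14280) (nat_lit 14399) (nat_lit 30362254) (nat_lit 14586) (nat_lit 1480762) (nat_lit 0) (nat_lit 0),Row.mk (nat_lit 14448) (nat_lit 14399) (nat_lit 30362254) (nat_lit 14586) (nat_lit 1480762) (nat_lit 0) (nat_lit 0),Row.mk (nat_lit 14616) (nat_lit 14399) (nat_lit 30362254) (nat_lit 14586) (nat_lit 1480762) (nat_lit 0) (nat_lit 0),Row.mk (nat_lit 14784) (nat_lit 14399) (nat_lit 30362254) (nat_lit 14586) (nat_lit 1480762) (nat_lit 0) (nat_lit 0),Row.mk (nat_lit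 14952) (nat_lit 14399) (nat_lit 30362254) (nat_lit 14586) (nat_lit 1480762) (nat_lit 0) (nat_lit 0),Row.mk (nat_lit 15120) (nat_lit 14399) (nat_lit 30362254) (nat_lit 14586) (nat_lit 1480762) (nat_lit 0) (nat_lit 0),Row.mk (nat_lit 15288) (nat_lit 14399) (nat_lit 30362254) (nat_lit 14586) (nat_lit 1480762) (nat_lit 0) (nat_lit 0),Row.mk (nat_lit 15456) (nat_lit 14399) (nat_lit 30362254) (nat_lit 14586) (nat_lit 1480762) (nat_lit 0) (nat_lit 0),Row.mk (nat_lit 15624) (nat_lit 14399) (nat_lit 30362254) (nat_lit 14586) (nat_lit 1480762) (nat_lit 0) (nat_lit 0),Row.mk (nat_lit 15792) (nat_lit 14399) (nat_lit 30362254) (nat_lit 14586) (nat_lit 1480762) (nat_lit 0) (nat_lit 0),Row.mk (nat_lit 15960) (nat_lit 14399) (nat_lit 30362254) (nat_lit 14586) (nat_lit 1480762) (nat_lit 0) (nat_lit 0),Row.mk (nat_lit 16128) (nat_lit 14399) (nat_lit 30362254) (nat_lit 14586) (nat_lit 1480762) (nat_lit 0) (nat_lit 0),Row.mk (nat_lit 16296) (nat_lit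 14399) (nat_lit 30362254) (nat_lit 14586) (nat_lit 1480762) (nat_lit 0) (nat_lit 0),Row.mk (nat_lit 16464) (nat_lit 14399) (nat_lit 30362254) (nat_lit 14586) (nat_lit 1480762) (nat_lit 0) (nat_lit 0),Row.mk (nat_lit 16632) (nat_lit 14399) (nat_lit 30362254) (nat_lit 14586) (nat_lit 1480762) (nat_lit 0) (nat_lit 0),Row.mk (nat_lit 16800) (nat_lit 14399) (nat_lit 30362254) (nat_lit 14586) (nat_lit 1480762) (nat_lit 0) (nat_lit 0),Row.mk (nat_lit 16968) (nat_lit 14399) (nat_lit 30362254) (nat_lit 14586) (nat_lit 1480762) (nat_lit 0) (nat_lit 0),Row.mk (nat_lit 17136) (nat_lit 14399) (nat_lit 30362254) (nat_lit 14586) (nat_lit 1480762) (nat_lit 0) (nat_lit 0),Row.mk (nat_lit 17304) (nat_lit 14399) (nat_lit 30362254) (nat_lit 14586) (nat_lit 1480762) (nat_lit 0) (nat_lit 0),Row.mk (nat_lit 17472) (nat_lit 14399) (nat_lit 30362254) (nat_lit 14586) (nat_lit 1480762) (nat_lit 0) (nat_lit 0),Row.mk (nat_lit 17640) (nat_lit 14399) (nat_lit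 30362254) (nat_lit 14586) (nat_lit 1480762) (nat_lit 0) (nat_lit 0),Row.mk (nat_lit 17808) (nat_lit 14399) (nat_lit 30362254) (nat_lit 14586) (nat_lit 1480762) (nat_lit 0) (nat_lit 0),Row.mk (nat_lit 17976) (nat_lit 14399) (nat_lit 30362254) (nat_lit 14586) (nat_lit 1480762) (nat_lit 0) (nat_lit 0),Row.mk (nat_lit 18144) (nat_lit 14399) (nat_lit 30362254) (nat_lit 14586) (nat_lit 1480762) (nat_lit 0) (nat_lit 0),Row.mk (nat_lit 18312) (nat_lit 14399) (nat_lit 30362254) (nat_lit 14586) (nat_lit 1480762) (nat_lit 0) (nat_lit 0),Row.mk (nat_lit 18480) (nat_lit 14399) (nat_lit 30362254) (nat_lit 14586) (nat_lit 1480762) (nat_lit 0) (nat_lit 0),Row.mk (nat_lit 18648) (nat_lit 14399) (nat_lit 30362254) (nat_lit 14586) (nat_lit 1480762) (nat_lit 0) (nat_lit 0),Row.mk (nat_lit 18816) (nat_lit 14399) (nat_lit 30362254) (nat_lit 14586) (nat_lit 1480762) (nat_lit 0) (nat_lit 0),Row.mk (nat_lit 18984) (nat_lit 14399) (nat_lit 30362254) (nat_lit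 14586) (nat_lit 1480762) (nat_lit 0) (nat_lit 0),Row.mk (nat_lit 19152) (nat_lit 14399) (nat_lit 30362254) (nat_lit 14586) (nat_lit 1480762) (nat_lit 0) (nat_lit 0),Row.mk (nat_lit 19320) (nat_lit 14399) (nat_lit 30362254) (nat_lit 14586) (nat_lit 1480762) (nat_lit 0) (nat_lit 0),Row.mk (nat_lit 19488) (nat_lit 14399) (nat_lit 30362254) (nat_lit 14586) (nat_lit 1480762) (nat_lit 0) (nat_lit 0),Row.mk (nat_lit 19656) (nat_lit 14399) (nat_lit 30362254) (nat_lit 14586) (nat_lit 1480762) (nat_lit 0) (nat_lit 0),Row.mk (nat_lit 19824) (nat_lit 14399) (nat_lit 30362254) (nat_lit 14586) (nat_lit 1480762) (nat_lit 0) (nat_lit 0),Row.mk (nat_lit 19992) (nat_lit 14399) (nat_lit 30362254) (nat_lit 14586) (nat_lit 1480762) (nat_lit 0) (nat_lit 0),Row.mk (nat_lit 20160) (nat_lit 14399) (nat_lit 30362254) (nat_lit 14586) (nat_lit 1480762) (nat_lit 0) (nat_lit 0),Row.mk (nat_lit 20328) (nat_lit 14399) (nat_lit 30362254) (nat_lit 14586) (nat_lit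 1480762) (nat_lit 0) (nat_lit 0),Row.mk (nat_lit 20496) (nat_lit 14399) (nat_lit 30362254) (nat_lit 14586) (nat_lit 1480762) (nat_lit 0) (nat_lit 0),Row.mk (nat_lit 20664) (nat_lit 14399) (nat_lit 30362254) (nat_lit 14586) (nat_lit 1480762) (nat_lit 0) (nat_lit 0),Row.mk (nat_lit 20832) (nat_lit 14399) (nat_lit 30362254) (nat_lit 14586) (nat_lit 1480762) (nat_lit 0) (nat_lit 0),Row.mk (nat_lit 21000) (nat_lit 14399) (nat_lit 30362254) (nat_lit 14586) (nat_lit 1480762) (nat_lit 0) (nat_lit 0),Row.mk (nat_lit 21168) (nat_lit 14399) (nat_lit 30362254) (nat_lit 14586) (nat_lit 1480762) (nat_lit 0) (nat_lit 0),Row.mk (nat_lit 21336) (nat_lit 14399) (nat_lit 30362254) (nat_lit 14586) (nat_lit 1480762) (nat_lit 0) (nat_lit 0),Row.mk (nat_lit 21504) (nat_lit 14399) (nat_lit 30362254) (nat_lit 14586) (nat_lit 1480762) (nat_lit 0) (nat_lit 0),Row.mk (nat_lit 21672) (nat_lit 14399) (nat_lit 30362254) (nat_lit 14586) (nat_lit 1480762) (nat_lit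 0) (nat_lit 0),Row.mk (nat_lit 21840) (nat_lit 14399) (nat_lit 30362254) (nat_lit 14586) (nat_lit 1480762) (nat_lit 0) (nat_lit 0),Row.mk (nat_lit 22008) (nat_lit 14399) (nat_lit 30362254) (nat_lit 14586) (nat_lit 1480762) (nat_lit 0) (nat_lit 0),Row.mk (nat_lit 22176) (nat_lit 14399) (nat_lit 30362254) (nat_lit 14586) (nat_lit 1480762) (nat_lit 0) (nat_lit 0),Row.mk (nat_lit 22344) (nat_lit 14399) (nat_lit 30362254) (nat_lit 14586) (nat_lit 1480762) (nat_lit 0) (nat_lit 0),Row.mk (nat_lit 22512) (nat_lit 14399) (nat_lit 30362254) (nat_lit 14586) (nat_lit 1480762) (nat_lit 0) (nat_lit 0),Row.mk (nat_lit 22680) (nat_lit 14399) (nat_lit 30362254) (nat_lit 14586) (nat_lit 1480762) (nat_lit 0) (nat_lit 0),Row.mk (nat_lit 22848) (nat_lit 14399) (nat_lit 30362254) (nat_lit 14586) (nat_lit 1480762) (nat_lit 0) (nat_lit 0),Row.mk (nat_lit 23016) (nat_lit 14399) (nat_lit 30362254) (nat_lit 14586) (nat_lit 1480762) (nat_lit 0) (nat_lit 0),Row.mk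 (nat_lit 23184) (nat_lit 14399) (nat_lit 30362254) (nat_lit 14586) (nat_lit 1480762) (nat_lit 0) (nat_lit 0),Row.mk (nat_lit 23352) (nat_lit 14399) (nat_lit 30362254) (nat_lit 14586) (nat_lit 1480762) (nat_lit 0) (nat_lit 0),Row.mk (nat_lit 23520) (nat_lit 14399) (nat_lit 30362254) (nat_lit 14586) (nat_lit 1480762) (nat_lit 0) (nat_lit 0),Row.mk (nat_lit 23688) (nat_lit 14399) (nat_lit 30362254) (nat_lit 14586) (nat_lit 1480762) (nat_lit 0) (nat_lit 0),Row.mk (nat_lit 23856) (nat_lit 14399) (nat_lit 30362254) (nat_lit 14586) (nat_lit 1480762) (nat_lit 0) (nat_lit 0),Row.mk (nat_lit 24024) (nat_lit 14399) (nat_lit 30362254) (nat_lit 14586) (nat_lit 1480762) (nat_lit 0) (nat_lit 0),Row.mk (nat_lit 24192) (nat_lit 14399) (nat_lit 30362254) (nat_lit 14586) (nat_lit 1480762) (nat_lit 0) (nat_lit 0),Row.mk (nat_lit 24360) (nat_lit 14399) (nat_lit 30362254) (nat_lit 14586) (nat_lit 1480762) (nat_lit 0) (nat_lit 0),Row.mk (nat_lit 24528)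 (nat_lit 14399) (nat_lit 30362254) (nat_lit 14586) (nat_lit 1480762) (nat_lit 0) (nat_lit 0),Row.mk (nat_lit 24696) (nat_lit 14399) (nat_lit 30362254) (nat_lit 14586) (nat_lit 1480762) (nat_lit 0) (nat_lit 0),Row.mk (nat_lit 24864) (nat_lit 14399) (nat_lit 30362254) (nat_lit 14586) (nat_lit 1480762) (nat_lit 0) (nat_lit 0),Row.mk (nat_lit 25032) (nat_lit 14399) (nat_lit 30362254) (nat_lit 14586) (nat_lit 1480762) (nat_lit 0) (nat_lit 0),Row.mk (nat_lit 25200) (nat_lit 14399) (nat_lit 30362254) (nat_lit 14586) (nat_lit 1480762) (nat_lit 0) (nat_lit 0),Row.mk (nat_lit 25368) (nat_lit 14399) (nat_lit 30362254) (nat_lit 14586) (nat_lit 1480762) (nat_lit 0) (nat_lit 0),Row.mk (nat_lit 25536) (nat_lit 14399) (nat_lit 30362254) (nat_lit 14586) (nat_lit 1480762) (nat_lit 0) (nat_lit 0),Row.mk (nat_lit 25704) (nat_lit 14399) (nat_lit 30362254) (nat_lit 14586) (nat_lit 1480762) (nat_lit 0) (nat_lit 0),Row.mk (nat_lit 25872) (nat_lit 14399)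 (nat_lit 30362254) (nat_lit 14586) (nat_lit 1480762) (nat_lit 0) (nat_lit 0),Row.mk (nat_lit 26040) (nat_lit 14399) (nat_lit 30362254) (nat_lit 14586) (nat_lit 1480762) (nat_lit 0) (nat_lit 0),Row.mk (nat_lit 26208) (nat_lit 14399) (nat_lit 30362254) (nat_lit 14586) (nat_lit 1480762) (nat_lit 0) (nat_lit 0),Row.mk (nat_lit 26376) (nat_lit 14399) (nat_lit 30362254) (nat_lit 14586) (nat_lit 1480762) (nat_lit 0) (nat_lit 0),Row.mk (nat_lit 26544) (nat_lit 14399) (nat_lit 30362254) (nat_lit 14586) (nat_lit 1480762) (nat_lit 0) (nat_lit 0),Row.mk (nat_lit 26712) (nat_lit 14399) (nat_lit 30362254) (nat_lit 14586) (nat_lit 1480762) (nat_lit 0) (nat_lit 0)],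
[Row.mk (nat_lit 11592) (nat_lit 13464) (nat_lit 6078706) (nat_lit 13651) (nat_lit 33692452) (nat_lit 0) (nat_lit 0),Row.mk (nat_lit 11760) (nat_lit 13464) (nat_lit 6078706) (nat_lit 13651) (nat_lit 33692452) (nat_lit 0) (nat_lit 0),Row.mk (nat_lit 11928) (nat_lit 13464) (nat_lit 6078706) (nat_lit 13651) (nat_lit 33692452) (nat_lit 0) (nat_lit 0),Row.mk (nat_lit 12096) (nat_lit 13464) (nat_lit 6078706) (nat_lit 13651) (nat_lit 33692452) (nat_lit 0) (nat_lit 0),Row.mk (nat_lit 12264) (nat_lit 13464) (nat_lit 6078706) (nat_lit 13651) (nat_lit 33692452) (nat_lit 0) (nat_lit 0),Row.mk (nat_lit 12432) (nat_lit 13464) (nat_lit 6078706) (nat_lit 13651) (nat_lit 33692452) (nat_lit 0) (nat_lit 0),Row.mk (nat_lit 12600) (nat_lit 13464) (nat_lit 6078706) (nat_lit 13651) (nat_lit 33692452) (nat_lit 0) (nat_lit 0),Row.mk (nat_lit 12768) (nat_lit 13464) (nat_lit 6078706) (nat_lit 13651) (nat_lit 33692452) (nat_lit 0) (nat_lit 0),Row.mk (nat_lit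 12936) (nat_lit 13464) (nat_lit 6078706) (nat_lit 13651) (nat_lit 33692452) (nat_lit 0) (nat_lit 0),Row.mk (nat_lit 13104) (nat_lit 13464) (nat_lit 6078706) (nat_lit 13651) (nat_lit 33692452) (nat_lit 0) (nat_lit 0),Row.mk (nat_lit 13272) (nat_lit 13464) (nat_lit 6078706) (nat_lit 13651) (nat_lit 33692452) (nat_lit 0) (nat_lit 0),Row.mk (nat_lit 13440) (nat_lit 13464) (nat_lit 6078706) (nat_lit 13651) (nat_lit 33692452) (nat_lit 0) (nat_lit 0),Row.mk (nat_lit 13608) (nat_lit 13464) (nat_lit 6078706) (nat_lit 13651) (nat_lit 33692452) (nat_lit 0) (nat_lit 0),Row.mk (nat_lit 13776) (nat_lit 13464) (nat_lit 6078706) (nat_lit 13651) (nat_lit 33692452) (nat_lit 0) (nat_lit 0),Row.mk (nat_lit 13944) (nat_lit 13464) (nat_lit 6078706) (nat_lit 13651) (nat_lit 33692452) (nat_lit 0) (nat_lit 0),Row.mk (nat_lit 14112) (nat_lit 13464) (nat_lit 6078706) (nat_lit 13651) (nat_lit 33692452) (nat_lit 0) (nat_lit 0),Row.mk (nat_lit 14280) (nat_lit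 13464) (nat_lit 6078706) (nat_lit 13651) (nat_lit 33692452) (nat_lit 0) (nat_lit 0),Row.mk (nat_lit 14448) (nat_lit 13464) (nat_lit 6078706) (nat_lit 13651) (nat_lit 33692452) (nat_lit 0) (nat_lit 0),Row.mk (nat_lit 14616) (nat_lit 13464) (nat_lit 6078706) (nat_lit 13651) (nat_lit 33692452) (nat_lit 0) (nat_lit 0),Row.mk (nat_lit 14784) (nat_lit 13464) (nat_lit 6078706) (nat_lit 13651) (nat_lit 33692452) (nat_lit 0) (nat_lit 0),Row.mk (nat_lit 14952) (nat_lit 13464) (nat_lit 6078706) (nat_lit 13651) (nat_lit 33692452) (nat_lit 0) (nat_lit 0),Row.mk (nat_lit 15120) (nat_lit 13464) (nat_lit 6078706) (nat_lit 13651) (nat_lit 33692452) (nat_lit 0) (nat_lit 0),Row.mk (nat_lit 15288) (nat_lit 13464) (nat_lit 6078706) (nat_lit 13651) (nat_lit 33692452) (nat_lit 0) (nat_lit 0),Row.mk (nat_lit 15456) (nat_lit 13464) (nat_lit 6078706) (nat_lit 13651) (nat_lit 33692452) (nat_lit 0) (nat_lit 0),Row.mk (nat_lit 15624) (nat_lit 13464) (nat_lit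 6078706) (nat_lit 13651) (nat_lit 33692452) (nat_lit 0) (nat_lit 0),Row.mk (nat_lit 15792) (nat_lit 13464) (nat_lit 6078706) (nat_lit 13651) (nat_lit 33692452) (nat_lit 0) (nat_lit 0),Row.mk (nat_lit 15960) (nat_lit 13464) (nat_lit 6078706) (nat_lit 13651) (nat_lit 33692452) (nat_lit 0) (nat_lit 0),Row.mk (nat_lit 16128) (nat_lit 13464) (nat_lit 6078706) (nat_lit 13651) (nat_lit 33692452) (nat_lit 0) (nat_lit 0),Row.mk (nat_lit 16296) (nat_lit 13464) (nat_lit 6078706) (nat_lit 13651) (nat_lit 33692452) (nat_lit 0) (nat_lit 0),Row.mk (nat_lit 16464) (nat_lit 13464) (nat_lit 6078706) (nat_lit 13651) (nat_lit 33692452) (nat_lit 0) (nat_lit 0),Row.mk (nat_lit 16632) (nat_lit 13464) (nat_lit 6078706) (nat_lit 13651) (nat_lit 33692452) (nat_lit 0) (nat_lit 0),Row.mk (nat_lit 16800) (nat_lit 13464) (nat_lit 6078706) (nat_lit 13651) (nat_lit 33692452) (nat_lit 0) (nat_lit 0),Row.mk (nat_lit 16968) (nat_lit 13464) (nat_lit 6078706) (nat_lit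 13651) (nat_lit 33692452) (nat_lit 0) (nat_lit 0),Row.mk (nat_lit 17136) (nat_lit 13464) (nat_lit 6078706) (nat_lit 13651) (nat_lit 33692452) (nat_lit 0) (nat_lit 0),Row.mk (nat_lit 17304) (nat_lit 13464) (nat_lit 6078706) (nat_lit 13651) (nat_lit 33692452) (nat_lit 0) (nat_lit 0),Row.mk (nat_lit 17472) (nat_lit 13464) (nat_lit 6078706) (nat_lit 13651) (nat_lit 33692452) (nat_lit 0) (nat_lit 0),Row.mk (nat_lit 17640) (nat_lit 13464) (nat_lit 6078706) (nat_lit 13651) (nat_lit 33692452) (nat_lit 0) (nat_lit 0),Row.mk (nat_lit 17808) (nat_lit 13464) (nat_lit 6078706) (nat_lit 13651) (nat_lit 33692452) (nat_lit 0) (nat_lit 0),Row.mk (nat_lit 17976) (nat_lit 13464) (nat_lit 6078706) (nat_lit 13651) (nat_lit 33692452) (nat_lit 0) (nat_lit 0),Row.mk (nat_lit 18144) (nat_lit 13464) (nat_lit 6078706) (nat_lit 13651) (nat_lit 33692452) (nat_lit 0) (nat_lit 0),Row.mk (nat_lit 18312) (nat_lit 13464) (nat_lit 6078706) (nat_lit 13651) (nat_lit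 33692452) (nat_lit 0) (nat_lit 0),Row.mk (nat_lit 18480) (nat_lit 13464) (nat_lit 6078706) (nat_lit 13651) (nat_lit 33692452) (nat_lit 0) (nat_lit 0),Row.mk (nat_lit 18648) (nat_lit 13464) (nat_lit 6078706) (nat_lit 13651) (nat_lit 33692452) (nat_lit 0) (nat_lit 0),Row.mk (nat_lit 18816) (nat_lit 13464) (nat_lit 6078706) (nat_lit 13651) (nat_lit 33692452) (nat_lit 0) (nat_lit 0),Row.mk (nat_lit 18984) (nat_lit 13464) (nat_lit 6078706) (nat_lit 13651) (nat_lit 33692452) (nat_lit 0) (nat_lit 0),Row.mk (nat_lit 19152) (nat_lit 13464) (nat_lit 6078706) (nat_lit 13651) (nat_lit 33692452) (nat_lit 0) (nat_lit 0),Row.mk (nat_lit 19320) (nat_lit 13464) (nat_lit 6078706) (nat_lit 13651) (nat_lit 33692452) (nat_lit 0) (nat_lit 0),Row.mk (nat_lit 19488) (nat_lit 13464) (nat_lit 6078706) (nat_lit 13651) (nat_lit 33692452) (nat_lit 0) (nat_lit 0),Row.mk (nat_lit 19656) (nat_lit 13464) (nat_lit 6078706) (nat_lit 13651) (nat_lit 33692452) (nat_lit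 0) (nat_lit 0),Row.mk (nat_lit 19824) (nat_lit 13464) (nat_lit 6078706) (nat_lit 13651) (nat_lit 33692452) (nat_lit 0) (nat_lit 0),Row.mk (nat_lit 19992) (nat_lit 13464) (nat_lit 6078706) (nat_lit 13651) (nat_lit 33692452) (nat_lit 0) (nat_lit 0),Row.mk (nat_lit 20160) (nat_lit 13464) (nat_lit 6078706) (nat_lit 13651) (nat_lit 33692452) (nat_lit 0) (nat_lit 0),Row.mk (nat_lit 20328) (nat_lit 13464) (nat_lit 6078706) (nat_lit 13651) (nat_lit 33692452) (nat_lit 0) (nat_lit 0),Row.mk (nat_lit 20496) (nat_lit 13464) (nat_lit 6078706) (nat_lit 13651) (nat_lit 33692452) (nat_lit 0) (nat_lit 0),Row.mk (nat_lit 20664) (nat_lit 13464) (nat_lit 6078706) (nat_lit 13651) (nat_lit 33692452) (nat_lit 0) (nat_lit 0),Row.mk (nat_lit 20832) (nat_lit 13464) (nat_lit 6078706) (nat_lit 13651) (nat_lit 33692452) (nat_lit 0) (nat_lit 0),Row.mk (nat_lit 21000) (nat_lit 13464) (nat_lit 6078706) (nat_lit 13651) (nat_lit 33692452) (nat_lit 0) (nat_lit 0),Row.mk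 (nat_lit 21168) (nat_lit 13464) (nat_lit 6078706) (nat_lit 13651) (nat_lit 33692452) (nat_lit 0) (nat_lit 0),Row.mk (nat_lit 21336) (nat_lit 13464) (nat_lit 6078706) (nat_lit 13651) (nat_lit 33692452) (nat_lit 0) (nat_lit 0),Row.mk (nat_lit 21504) (nat_lit 13464) (nat_lit 6078706) (nat_lit 13651) (nat_lit 33692452) (nat_lit 0) (nat_lit 0),Row.mk (nat_lit 21672) (nat_lit 13464) (nat_lit 6078706) (nat_lit 13651) (nat_lit 33692452) (nat_lit 0) (nat_lit 0),Row.mk (nat_lit 21840) (nat_lit 13464) (nat_lit 6078706) (nat_lit 13651) (nat_lit 33692452) (nat_lit 0) (nat_lit 0),Row.mk (nat_lit 22008) (nat_lit 13464) (nat_lit 6078706) (nat_lit 13651) (nat_lit 33692452) (nat_lit 0) (nat_lit 0),Row.mk (nat_lit 22176) (nat_lit 13464) (nat_lit 6078706) (nat_lit 13651) (nat_lit 33692452) (nat_lit 0) (nat_lit 0),Row.mk (nat_lit 22344) (nat_lit 13464) (nat_lit 6078706) (nat_lit 13651) (nat_lit 33692452) (nat_lit 0) (nat_lit 0),Row.mk (nat_lit 22512)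 (nat_lit 13464) (nat_lit 6078706) (nat_lit 13651) (nat_lit 33692452) (nat_lit 0) (nat_lit 0),Row.mk (nat_lit 22680) (nat_lit 13464) (nat_lit 6078706) (nat_lit 13651) (nat_lit 33692452) (nat_lit 0) (nat_lit 0),Row.mk (nat_lit 22848) (nat_lit 13464) (nat_lit 6078706) (nat_lit 13651) (nat_lit 33692452) (nat_lit 0) (nat_lit 0),Row.mk (nat_lit 23016) (nat_lit 13464) (nat_lit 6078706) (nat_lit 13651) (nat_lit 33692452) (nat_lit 0) (nat_lit 0),Row.mk (nat_lit 23184) (nat_lit 13464) (nat_lit 6078706) (nat_lit 13651) (nat_lit 33692452) (nat_lit 0) (nat_lit 0),Row.mk (nat_lit 23352) (nat_lit 13464) (nat_lit 6078706) (nat_lit 13651) (nat_lit 33692452) (nat_lit 0) (nat_lit 0),Row.mk (nat_lit 23520) (nat_lit 13464) (nat_lit 6078706) (nat_lit 13651) (nat_lit 33692452) (nat_lit 0) (nat_lit 0),Row.mk (nat_lit 23688) (nat_lit 13464) (nat_lit 6078706) (nat_lit 13651) (nat_lit 33692452) (nat_lit 0) (nat_lit 0),Row.mk (nat_lit 23856) (nat_lit 13464)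 (nat_lit 6078706) (nat_lit 13651) (nat_lit 33692452) (nat_lit 0) (nat_lit 0),Row.mk (nat_lit 24024) (nat_lit 13464) (nat_lit 6078706) (nat_lit 13651) (nat_lit 33692452) (nat_lit 0) (nat_lit 0),Row.mk (nat_lit 24192) (nat_lit 13464) (nat_lit 6078706) (nat_lit 13651) (nat_lit 33692452) (nat_lit 0) (nat_lit 0),Row.mk (nat_lit 24360) (nat_lit 13464) (nat_lit 6078706) (nat_lit 13651) (nat_lit 33692452) (nat_lit 0) (nat_lit 0),Row.mk (nat_lit 24528) (nat_lit 13464) (nat_lit 6078706) (nat_lit 13651) (nat_lit 33692452) (nat_lit 0) (nat_lit 0),Row.mk (nat_lit 24696) (nat_lit 13464) (nat_lit 6078706) (nat_lit 13651) (nat_lit 33692452) (nat_lit 0) (nat_lit 0),Row.mk (nat_lit 24864) (nat_lit 13464) (nat_lit 6078706) (nat_lit 13651) (nat_lit 33692452) (nat_lit 0) (nat_lit 0),Row.mk (nat_lit 25032) (nat_lit 13464) (nat_lit 6078706) (nat_lit 13651) (nat_lit 33692452) (nat_lit 0) (nat_lit 0),Row.mk (nat_lit 25200) (nat_lit 13464) (nat_lit 6078706)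 (nat_lit 13651) (nat_lit 33692452) (nat_lit 0) (nat_lit 0),Row.mk (nat_lit 25368) (nat_lit 13464) (nat_lit 6078706) (nat_lit 13651) (nat_lit 33692452) (nat_lit 0) (nat_lit 0),Row.mk (nat_lit 25536) (nat_lit 13464) (nat_lit 6078706) (nat_lit 13651) (nat_lit 33692452) (nat_lit 0) (nat_lit 0),Row.mk (nat_lit 25704) (nat_lit 13464) (nat_lit 6078706) (nat_lit 13651) (nat_lit 33692452) (nat_lit 0) (nat_lit 0),Row.mk (nat_lit 25872) (nat_lit 13464) (nat_lit 6078706) (nat_lit 13651) (nat_lit 33692452) (nat_lit 0) (nat_lit 0),Row.mk (nat_lit 26040) (nat_lit 13464) (nat_lit 6078706) (nat_lit 13651) (nat_lit 33692452) (nat_lit 0) (nat_lit 0),Row.mk (nat_lit 26208) (nat_lit 13464) (nat_lit 6078706) (nat_lit 13651) (nat_lit 33692452) (nat_lit 0) (nat_lit 0),Row.mk (nat_lit 26376) (nat_lit 13464) (nat_lit 6078706) (nat_lit 13651) (nat_lit 33692452) (nat_lit 0) (nat_lit 0),Row.mk (nat_lit 26544) (nat_lit 13464) (nat_lit 6078706) (nat_lit 13651)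 (nat_lit 33692452) (nat_lit 0) (nat_lit 0),Row.mk (nat_lit 26712) (nat_lit 13464) (nat_lit 6078706) (nat_lit 13651) (nat_lit 33692452) (nat_lit 0) (nat_lit 0),Row.mk (nat_lit 26880) (nat_lit 13464) (nat_lit 6078706) (nat_lit 13651) (nat_lit 33692452) (nat_lit 0) (nat_lit 0)],
[Row.mk (nat_lit 11928) (nat_lit 12716) (nat_lit 15980765) (nat_lit 12903) (nat_lit 33692452) (nat_lit 0) (nat_lit 0),Row.mk (nat_lit 12096) (nat_lit 12716) (nat_lit 15980765) (nat_lit 12903) (nat_lit 33692452) (nat_lit 0) (nat_lit 0),Row.mk (nat_lit 12264) (nat_lit 12716) (nat_lit 15980765) (nat_lit 12903) (nat_lit 33692452) (nat_lit 0) (nat_lit 0),Row.mk (nat_lit 12432) (nat_lit 12716) (nat_lit 15980765) (nat_lit 12903) (nat_lit 33692452) (nat_lit 0) (nat_lit 0),Row.mk (nat_lit 12600) (nat_lit 12716) (nat_lit 15980765) (nat_lit 12903) (nat_lit 33692452) (nat_lit 0) (nat_lit 0),Row.mk (nat_lit 12768) (nat_lit 12716) (nat_lit 15980765) (nat_lit 12903) (nat_lit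 33692452) (nat_lit 0) (nat_lit 0),Row.mk (nat_lit 12936) (nat_lit 12716) (nat_lit 15980765) (nat_lit 12903) (nat_lit 33692452) (nat_lit 0) (nat_lit 0),Row.mk (nat_lit 13104) (nat_lit 12716) (nat_lit 15980765) (nat_lit 12903) (nat_lit 33692452) (nat_lit 0) (nat_lit 0),Row.mk (nat_lit 13272) (nat_lit 12716) (nat_lit 15980765) (nat_lit 12903) (nat_lit 33692452) (nat_lit 0) (nat_lit 0),Row.mk (nat_lit 13440) (nat_lit 12716) (nat_lit 15980765) (nat_lit 12903) (nat_lit 33692452) (nat_lit 0) (nat_lit 0),Row.mk (nat_lit 13608) (nat_lit 12716) (nat_lit 15980765) (nat_lit 12903) (nat_lit 33692452) (nat_lit 0) (nat_lit 0),Row.mk (nat_lit 13776) (nat_lit 12716) (nat_lit 15980765) (nat_lit 12903) (nat_lit 33692452) (nat_lit 0) (nat_lit 0),Row.mk (nat_lit 13944) (nat_lit 12716) (nat_lit 15980765) (nat_lit 12903) (nat_lit 33692452) (nat_lit 0) (nat_lit 0),Row.mk (nat_lit 14112) (nat_lit 12716) (nat_lit 15980765) (nat_lit 12903) (nat_lit 33692452)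 (nat_lit 0) (nat_lit 0),Row.mk (nat_lit 14280) (nat_lit 12716) (nat_lit 15980765) (nat_lit 12903) (nat_lit 33692452) (nat_lit 0) (nat_lit 0),Row.mk (nat_lit 14448) (nat_lit 12716) (nat_lit 15980765) (nat_lit 12903) (nat_lit 33692452) (nat_lit 0) (nat_lit 0),Row.mk (nat_lit 14616) (nat_lit 12716) (nat_lit 15980765) (nat_lit 12903) (nat_lit 33692452) (nat_lit 0) (nat_lit 0),Row.mk (nat_lit 14784) (nat_lit 12716) (nat_lit 15980765) (nat_lit 12903) (nat_lit 33692452) (nat_lit 0) (nat_lit 0),Row.mk (nat_lit 14952) (nat_lit 12716) (nat_lit 15980765) (nat_lit 12903) (nat_lit 33692452) (nat_lit 0) (nat_lit 0),Row.mk (nat_lit 15120) (nat_lit 12716) (nat_lit 15980765) (nat_lit 12903) (nat_lit 33692452) (nat_lit 0) (nat_lit 0),Row.mk (nat_lit 15288) (nat_lit 12716) (nat_lit 15980765) (nat_lit 12903) (nat_lit 33692452) (nat_lit 0) (nat_lit 0),Row.mk (nat_lit 15456) (nat_lit 12716) (nat_lit 15980765) (nat_lit 12903) (nat_lit 33692452) (nat_lit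 0) (nat_lit 0),Row.mk (nat_lit 15624) (nat_lit 12716) (nat_lit 15980765) (nat_lit 12903) (nat_lit 33692452) (nat_lit 0) (nat_lit 0),Row.mk (nat_lit 15792) (nat_lit 12716) (nat_lit 15980765) (nat_lit 12903) (nat_lit 33692452) (nat_lit 0) (nat_lit 0),Row.mk (nat_lit 15960) (nat_lit 12716) (nat_lit 15980765) (nat_lit 12903) (nat_lit 33692452) (nat_lit 0) (nat_lit 0),Row.mk (nat_lit 16128) (nat_lit 12716) (nat_lit 15980765) (nat_lit 12903) (nat_lit 33692452) (nat_lit 0) (nat_lit 0),Row.mk (nat_lit 16296) (nat_lit 12716) (nat_lit 15980765) (nat_lit 12903) (nat_lit 33692452) (nat_lit 0) (nat_lit 0),Row.mk (nat_lit 16464) (nat_lit 12716) (nat_lit 15980765) (nat_lit 12903) (nat_lit 33692452) (nat_lit 0) (nat_lit 0),Row.mk (nat_lit 16632) (nat_lit 12716) (nat_lit 15980765) (nat_lit 12903) (nat_lit 33692452) (nat_lit 0) (nat_lit 0),Row.mk (nat_lit 16800) (nat_lit 12716) (nat_lit 15980765) (nat_lit 12903) (nat_lit 33692452) (nat_lit 0) (nat_lit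 0),Row.mk (nat_lit 16968) (nat_lit 12716) (nat_lit 15980765) (nat_lit 12903) (nat_lit 33692452) (nat_lit 0) (nat_lit 0),Row.mk (nat_lit 17136) (nat_lit 12716) (nat_lit 15980765) (nat_lit 12903) (nat_lit 33692452) (nat_lit 0) (nat_lit 0),Row.mk (nat_lit 17304) (nat_lit 12716) (nat_lit 15980765) (nat_lit 12903) (nat_lit 33692452) (nat_lit 0) (nat_lit 0),Row.mk (nat_lit 17472) (nat_lit 12716) (nat_lit 15980765) (nat_lit 12903) (nat_lit 33692452) (nat_lit 0) (nat_lit 0),Row.mk (nat_lit 17640) (nat_lit 12716) (nat_lit 15980765) (nat_lit 12903) (nat_lit 33692452) (nat_lit 0) (nat_lit 0),Row.mk (nat_lit 17808) (nat_lit 12716) (nat_lit 15980765) (nat_lit 12903) (nat_lit 33692452) (nat_lit 0) (nat_lit 0),Row.mk (nat_lit 17976) (nat_lit 12716) (nat_lit 15980765) (nat_lit 12903) (nat_lit 33692452) (nat_lit 0) (nat_lit 0),Row.mk (nat_lit 18144) (nat_lit 12716) (nat_lit 15980765) (nat_lit 12903) (nat_lit 33692452) (nat_lit 0) (nat_lit 0),Row.mk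 (nat_lit 18312) (nat_lit 12716) (nat_lit 15980765) (nat_lit 12903) (nat_lit 33692452) (nat_lit 0) (nat_lit 0),Row.mk (nat_lit 18480) (nat_lit 12716) (nat_lit 15980765) (nat_lit 12903) (nat_lit 33692452) (nat_lit 0) (nat_lit 0),Row.mk (nat_lit 18648) (nat_lit 12716) (nat_lit 15980765) (nat_lit 12903) (nat_lit 33692452) (nat_lit 0) (nat_lit 0),Row.mk (nat_lit 18816) (nat_lit 12716) (nat_lit 15980765) (nat_lit 12903) (nat_lit 33692452) (nat_lit 0) (nat_lit 0),Row.mk (nat_lit 18984) (nat_lit 12716) (nat_lit 15980765) (nat_lit 12903) (nat_lit 33692452) (nat_lit 0) (nat_lit 0),Row.mk (nat_lit 19152) (nat_lit 12716) (nat_lit 15980765) (nat_lit 12903) (nat_lit 33692452) (nat_lit 0) (nat_lit 0),Row.mk (nat_lit 19320) (nat_lit 12716) (nat_lit 15980765) (nat_lit 12903) (nat_lit 33692452) (nat_lit 0) (nat_lit 0),Row.mk (nat_lit 19488) (nat_lit 12716) (nat_lit 15980765) (nat_lit 12903) (nat_lit 33692452) (nat_lit 0) (nat_lit 0),Row.mk (nat_lit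 19656) (nat_lit 12716) (nat_lit 15980765) (nat_lit 12903) (nat_lit 33692452) (nat_lit 0) (nat_lit 0),Row.mk (nat_lit 19824) (nat_lit 12716) (nat_lit 15980765) (nat_lit 12903) (nat_lit 33692452) (nat_lit 0) (nat_lit 0),Row.mk (nat_lit 19992) (nat_lit 12716) (nat_lit 15980765) (nat_lit 12903) (nat_lit 33692452) (nat_lit 0) (nat_lit 0),Row.mk (nat_lit 20160) (nat_lit 12716) (nat_lit 15980765) (nat_lit 12903) (nat_lit 33692452) (nat_lit 0) (nat_lit 0),Row.mk (nat_lit 20328) (nat_lit 12716) (nat_lit 15980765) (nat_lit 12903) (nat_lit 33692452) (nat_lit 0) (nat_lit 0),Row.mk (nat_lit 20496) (nat_lit 12716) (nat_lit 15980765) (nat_lit 12903) (nat_lit 33692452) (nat_lit 0) (nat_lit 0),Row.mk (nat_lit 20664) (nat_lit 12716) (nat_lit 15980765) (nat_lit 12903) (nat_lit 33692452) (nat_lit 0) (nat_lit 0),Row.mk (nat_lit 20832) (nat_lit 12716) (nat_lit 15980765) (nat_lit 12903) (nat_lit 33692452) (nat_lit 0) (nat_lit 0),Row.mk (nat_lit 21000) (nat_lit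 12716) (nat_lit 15980765) (nat_lit 12903) (nat_lit 33692452) (nat_lit 0) (nat_lit 0),Row.mk (nat_lit 21168) (nat_lit 12716) (nat_lit 15980765) (nat_lit 12903) (nat_lit 33692452) (nat_lit 0) (nat_lit 0),Row.mk (nat_lit 21336) (nat_lit 12716) (nat_lit 15980765) (nat_lit 12903) (nat_lit 33692452) (nat_lit 0) (nat_lit 0),Row.mk (nat_lit 21504) (nat_lit 12716) (nat_lit 15980765) (nat_lit 12903) (nat_lit 33692452) (nat_lit 0) (nat_lit 0),Row.mk (nat_lit 21672) (nat_lit 12716) (nat_lit 15980765) (nat_lit 12903) (nat_lit 33692452) (nat_lit 0) (nat_lit 0),Row.mk (nat_lit 21840) (nat_lit 12716) (nat_lit 15980765) (nat_lit 12903) (nat_lit 33692452) (nat_lit 0) (nat_lit 0),Row.mk (nat_lit 22008) (nat_lit 12716) (nat_lit 15980765) (nat_lit 12903) (nat_lit 33692452) (nat_lit 0) (nat_lit 0),Row.mk (nat_lit 22176) (nat_lit 12716) (nat_lit 15980765) (nat_lit 12903) (nat_lit 33692452) (nat_lit 0) (nat_lit 0),Row.mk (nat_lit 22344) (nat_lit 12716) (nat_lit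 15980765) (nat_lit 12903) (nat_lit 33692452) (nat_lit 0) (nat_lit 0),Row.mk (nat_lit 22512) (nat_lit 12716) (nat_lit 15980765) (nat_lit 12903) (nat_lit 33692452) (nat_lit 0) (nat_lit 0),Row.mk (nat_lit 22680) (nat_lit 12716) (nat_lit 15980765) (nat_lit 12903) (nat_lit 33692452) (nat_lit 0) (nat_lit 0),Row.mk (nat_lit 22848) (nat_lit 12716) (nat_lit 15980765) (nat_lit 12903) (nat_lit 33692452) (nat_lit 0) (nat_lit 0),Row.mk (nat_lit 23016) (nat_lit 12716) (nat_lit 15980765) (nat_lit 12903) (nat_lit 33692452) (nat_lit 0) (nat_lit 0),Row.mk (nat_lit 23184) (nat_lit 12716) (nat_lit 15980765) (nat_lit 12903) (nat_lit 33692452) (nat_lit 0) (nat_lit 0),Row.mk (nat_lit 23352) (nat_lit 12716) (nat_lit 15980765) (nat_lit 12903) (nat_lit 33692452) (nat_lit 0) (nat_lit 0),Row.mk (nat_lit 23520) (nat_lit 12716) (nat_lit 15980765) (nat_lit 12903) (nat_lit 33692452) (nat_lit 0) (nat_lit 0),Row.mk (nat_lit 23688) (nat_lit 12716) (nat_lit 15980765)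 (nat_lit 12903) (nat_lit 33692452) (nat_lit 0) (nat_lit 0),Row.mk (nat_lit 23856) (nat_lit 12716) (nat_lit 15980765) (nat_lit 12903) (nat_lit 33692452) (nat_lit 0) (nat_lit 0),Row.mk (nat_lit 24024) (nat_lit 12716) (nat_lit 15980765) (nat_lit 12903) (nat_lit 33692452) (nat_lit 0) (nat_lit 0),Row.mk (nat_lit 24192) (nat_lit 12716) (nat_lit 15980765) (nat_lit 12903) (nat_lit 33692452) (nat_lit 0) (nat_lit 0),Row.mk (nat_lit 24360) (nat_lit 12716) (nat_lit 15980765) (nat_lit 12903) (nat_lit 33692452) (nat_lit 0) (nat_lit 0),Row.mk (nat_lit 24528) (nat_lit 12716) (nat_lit 15980765) (nat_lit 12903) (nat_lit 33692452) (nat_lit 0) (nat_lit 0),Row.mk (nat_lit 24696) (nat_lit 12716) (nat_lit 15980765) (nat_lit 12903) (nat_lit 33692452) (nat_lit 0) (nat_lit 0),Row.mk (nat_lit 24864) (nat_lit 12716) (nat_lit 15980765) (nat_lit 12903) (nat_lit 33692452) (nat_lit 0) (nat_lit 0),Row.mk (nat_lit 25032) (nat_lit 12716) (nat_lit 15980765) (nat_lit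 12903) (nat_lit 33692452) (nat_lit 0) (nat_lit 0),Row.mk (nat_lit 25200) (nat_lit 12716) (nat_lit 15980765) (nat_lit 12903) (nat_lit 33692452) (nat_lit 0) (nat_lit 0),Row.mk (nat_lit 25368) (nat_lit 12716) (nat_lit 15980765) (nat_lit 12903) (nat_lit 33692452) (nat_lit 0) (nat_lit 0),Row.mk (nat_lit 25536) (nat_lit 12716) (nat_lit 15980765) (nat_lit 12903) (nat_lit 33692452) (nat_lit 0) (nat_lit 0),Row.mk (nat_lit 25704) (nat_lit 12716) (nat_lit 15980765) (nat_lit 12903) (nat_lit 33692452) (nat_lit 0) (nat_lit 0),Row.mk (nat_lit 25872) (nat_lit 12716) (nat_lit 15980765) (nat_lit 12903) (nat_lit 33692452) (nat_lit 0) (nat_lit 0),Row.mk (nat_lit 26040) (nat_lit 12716) (nat_lit 15980765) (nat_lit 12903) (nat_lit 33692452) (nat_lit 0) (nat_lit 0),Row.mk (nat_lit 26208) (nat_lit 12716) (nat_lit 15980765) (nat_lit 12903) (nat_lit 33692452) (nat_lit 0) (nat_lit 0),Row.mk (nat_lit 26376) (nat_lit 12716) (nat_lit 15980765) (nat_lit 12903) (nat_lit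 33692452) (nat_lit 0) (nat_lit 0),Row.mk (nat_lit 26544) (nat_lit 12716) (nat_lit 15980765) (nat_lit 12903) (nat_lit 33692452) (nat_lit 0) (nat_lit 0),Row.mk (nat_lit 26712) (nat_lit 12716) (nat_lit 15980765) (nat_lit 12903) (nat_lit 33692452) (nat_lit 0) (nat_lit 0),Row.mk (nat_lit 26880) (nat_lit 12716) (nat_lit 15980765) (nat_lit 12903) (nat_lit 33692452) (nat_lit 0) (nat_lit 0),Row.mk (nat_lit 27048) (nat_lit 12716) (nat_lit 15980765) (nat_lit 12903) (nat_lit 33692452) (nat_lit 0) (nat_lit 0)],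
[Row.mk (nat_lit 12096) (nat_lit 11968) (nat_lit 28348198) (nat_lit 12155) (nat_lit 33692452) (nat_lit 0) (nat_lit 0),Row.mk (nat_lit 12264) (nat_lit 11968) (nat_lit 28348198) (nat_lit 12155) (nat_lit 33692452) (nat_lit 0) (nat_lit 0),Row.mk (nat_lit 12432) (nat_lit 11968) (nat_lit 28348198) (nat_lit 12155) (nat_lit 33692452) (nat_lit 0) (nat_lit 0),Row.mk (nat_lit 12600) (nat_lit 11968) (nat_lit 28348198) (nat_lit 12155) (nat_lit 33692452) (nat_lit 0) (nat_lit 0),Row.mk (nat_lit 12768) (nat_lit 11968) (nat_lit 28348198) (nat_lit 12155) (nat_lit 33692452) (nat_lit 0) (nat_lit 0),Row.mk (nat_lit 12936) (nat_lit 11968) (nat_lit 28348198) (nat_lit 12155) (nat_lit 33692452) (nat_lit 0) (nat_lit 0),Row.mk (nat_lit 13104) (nat_lit 11968) (nat_lit 28348198) (nat_lit 12155) (nat_lit 33692452) (nat_lit 0) (nat_lit 0),Row.mk (nat_lit 13272) (nat_lit 11968) (nat_lit 28348198) (nat_lit 12155) (nat_lit 33692452) (nat_lit 0) (nat_lit 0),Row.mk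 (nat_lit 13440) (nat_lit 11968) (nat_lit 28348198) (nat_lit 12155) (nat_lit 33692452) (nat_lit 0) (nat_lit 0),Row.mk (nat_lit 13608) (nat_lit 11968) (nat_lit 28348198) (nat_lit 12155) (nat_lit 33692452) (nat_lit 0) (nat_lit 0),Row.mk (nat_lit 13776) (nat_lit 11968) (nat_lit 28348198) (nat_lit 12155) (nat_lit 33692452) (nat_lit 0) (nat_lit 0),Row.mk (nat_lit 13944) (nat_lit 11968) (nat_lit 28348198) (nat_lit 12155) (nat_lit 33692452) (nat_lit 0) (nat_lit 0),Row.mk (nat_lit 14112) (nat_lit 11968) (nat_lit 28348198) (nat_lit 12155) (nat_lit 33692452) (nat_lit 0) (nat_lit 0),Row.mk (nat_lit 14280) (nat_lit 11968) (nat_lit 28348198) (nat_lit 12155) (nat_lit 33692452) (nat_lit 0) (nat_lit 0),Row.mk (nat_lit 14448) (nat_lit 11968) (nat_lit 28348198) (nat_lit 12155) (nat_lit 33692452) (nat_lit 0) (nat_lit 0),Row.mk (nat_lit 14616) (nat_lit 11968) (nat_lit 28348198) (nat_lit 12155) (nat_lit 33692452) (nat_lit 0) (nat_lit 0),Row.mk (nat_lit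 14784) (nat_lit 11968) (nat_lit 28348198) (nat_lit 12155) (nat_lit 33692452) (nat_lit 0) (nat_lit 0),Row.mk (nat_lit 14952) (nat_lit 11968) (nat_lit 28348198) (nat_lit 12155) (nat_lit 33692452) (nat_lit 0) (nat_lit 0),Row.mk (nat_lit 15120) (nat_lit 11968) (nat_lit 28348198) (nat_lit 12155) (nat_lit 33692452) (nat_lit 0) (nat_lit 0),Row.mk (nat_lit 15288) (nat_lit 11968) (nat_lit 28348198) (nat_lit 12155) (nat_lit 33692452) (nat_lit 0) (nat_lit 0),Row.mk (nat_lit 15456) (nat_lit 11968) (nat_lit 28348198) (nat_lit 12155) (nat_lit 33692452) (nat_lit 0) (nat_lit 0),Row.mk (nat_lit 15624) (nat_lit 11968) (nat_lit 28348198) (nat_lit 12155) (nat_lit 33692452) (nat_lit 0) (nat_lit 0),Row.mk (nat_lit 15792) (nat_lit 11968) (nat_lit 28348198) (nat_lit 12155) (nat_lit 33692452) (nat_lit 0) (nat_lit 0),Row.mk (nat_lit 15960) (nat_lit 11968) (nat_lit 28348198) (nat_lit 12155) (nat_lit 33692452) (nat_lit 0) (nat_lit 0),Row.mk (nat_lit 16128) (nat_lit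 11968) (nat_lit 28348198) (nat_lit 12155) (nat_lit 33692452) (nat_lit 0) (nat_lit 0),Row.mk (nat_lit 16296) (nat_lit 11968) (nat_lit 28348198) (nat_lit 12155) (nat_lit 33692452) (nat_lit 0) (nat_lit 0),Row.mk (nat_lit 16464) (nat_lit 11968) (nat_lit 28348198) (nat_lit 12155) (nat_lit 33692452) (nat_lit 0) (nat_lit 0),Row.mk (nat_lit 16632) (nat_lit 11968) (nat_lit 28348198) (nat_lit 12155) (nat_lit 33692452) (nat_lit 0) (nat_lit 0),Row.mk (nat_lit 16800) (nat_lit 11968) (nat_lit 28348198) (nat_lit 12155) (nat_lit 33692452) (nat_lit 0) (nat_lit 0),Row.mk (nat_lit 16968) (nat_lit 11968) (nat_lit 28348198) (nat_lit 12155) (nat_lit 33692452) (nat_lit 0) (nat_lit 0),Row.mk (nat_lit 17136) (nat_lit 11968) (nat_lit 28348198) (nat_lit 12155) (nat_lit 33692452) (nat_lit 0) (nat_lit 0),Row.mk (nat_lit 17304) (nat_lit 11968) (nat_lit 28348198) (nat_lit 12155) (nat_lit 33692452) (nat_lit 0) (nat_lit 0),Row.mk (nat_lit 17472) (nat_lit 11968) (nat_lit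 28348198) (nat_lit 12155) (nat_lit 33692452) (nat_lit 0) (nat_lit 0),Row.mk (nat_lit 17640) (nat_lit 11968) (nat_lit 28348198) (nat_lit 12155) (nat_lit 33692452) (nat_lit 0) (nat_lit 0),Row.mk (nat_lit 17808) (nat_lit 11968) (nat_lit 28348198) (nat_lit 12155) (nat_lit 33692452) (nat_lit 0) (nat_lit 0),Row.mk (nat_lit 17976) (nat_lit 11968) (nat_lit 28348198) (nat_lit 12155) (nat_lit 33692452) (nat_lit 0) (nat_lit 0),Row.mk (nat_lit 18144) (nat_lit 11968) (nat_lit 28348198) (nat_lit 12155) (nat_lit 33692452) (nat_lit 0) (nat_lit 0),Row.mk (nat_lit 18312) (nat_lit 11968) (nat_lit 28348198) (nat_lit 12155) (nat_lit 33692452) (nat_lit 0) (nat_lit 0),Row.mk (nat_lit 18480) (nat_lit 11968) (nat_lit 28348198) (nat_lit 12155) (nat_lit 33692452) (nat_lit 0) (nat_lit 0),Row.mk (nat_lit 18648) (nat_lit 11968) (nat_lit 28348198) (nat_lit 12155) (nat_lit 33692452) (nat_lit 0) (nat_lit 0),Row.mk (nat_lit 18816) (nat_lit 11968) (nat_lit 28348198)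 (nat_lit 12155) (nat_lit 33692452) (nat_lit 0) (nat_lit 0),Row.mk (nat_lit 18984) (nat_lit 11968) (nat_lit 28348198) (nat_lit 12155) (nat_lit 33692452) (nat_lit 0) (nat_lit 0),Row.mk (nat_lit 19152) (nat_lit 11968) (nat_lit 28348198) (nat_lit 12155) (nat_lit 33692452) (nat_lit 0) (nat_lit 0),Row.mk (nat_lit 19320) (nat_lit 11968) (nat_lit 28348198) (nat_lit 12155) (nat_lit 33692452) (nat_lit 0) (nat_lit 0),Row.mk (nat_lit 19488) (nat_lit 11968) (nat_lit 28348198) (nat_lit 12155) (nat_lit 33692452) (nat_lit 0) (nat_lit 0),Row.mk (nat_lit 19656) (nat_lit 11968) (nat_lit 28348198) (nat_lit 12155) (nat_lit 33692452) (nat_lit 0) (nat_lit 0),Row.mk (nat_lit 19824) (nat_lit 11968) (nat_lit 28348198) (nat_lit 12155) (nat_lit 33692452) (nat_lit 0) (nat_lit 0),Row.mk (nat_lit 19992) (nat_lit 11968) (nat_lit 28348198) (nat_lit 12155) (nat_lit 33692452) (nat_lit 0) (nat_lit 0),Row.mk (nat_lit 20160) (nat_lit 11968) (nat_lit 28348198) (nat_lit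 12155) (nat_lit 33692452) (nat_lit 0) (nat_lit 0),Row.mk (nat_lit 20328) (nat_lit 11968) (nat_lit 28348198) (nat_lit 12155) (nat_lit 33692452) (nat_lit 0) (nat_lit 0),Row.mk (nat_lit 20496) (nat_lit 11968) (nat_lit 28348198) (nat_lit 12155) (nat_lit 33692452) (nat_lit 0) (nat_lit 0),Row.mk (nat_lit 20664) (nat_lit 11968) (nat_lit 28348198) (nat_lit 12155) (nat_lit 33692452) (nat_lit 0) (nat_lit 0),Row.mk (nat_lit 20832) (nat_lit 11968) (nat_lit 28348198) (nat_lit 12155) (nat_lit 33692452) (nat_lit 0) (nat_lit 0),Row.mk (nat_lit 21000) (nat_lit 11968) (nat_lit 28348198) (nat_lit 12155) (nat_lit 33692452) (nat_lit 0) (nat_lit 0),Row.mk (nat_lit 21168) (nat_lit 11968) (nat_lit 28348198) (nat_lit 12155) (nat_lit 33692452) (nat_lit 0) (nat_lit 0),Row.mk (nat_lit 21336) (nat_lit 11968) (nat_lit 28348198) (nat_lit 12155) (nat_lit 33692452) (nat_lit 0) (nat_lit 0),Row.mk (nat_lit 21504) (nat_lit 11968) (nat_lit 28348198) (nat_lit 12155) (nat_lit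 33692452) (nat_lit 0) (nat_lit 0),Row.mk (nat_lit 21672) (nat_lit 11968) (nat_lit 28348198) (nat_lit 12155) (nat_lit 33692452) (nat_lit 0) (nat_lit 0),Row.mk (nat_lit 21840) (nat_lit 11968) (nat_lit 28348198) (nat_lit 12155) (nat_lit 33692452) (nat_lit 0) (nat_lit 0),Row.mk (nat_lit 22008) (nat_lit 11968) (nat_lit 28348198) (nat_lit 12155) (nat_lit 33692452) (nat_lit 0) (nat_lit 0),Row.mk (nat_lit 22176) (nat_lit 11968) (nat_lit 28348198) (nat_lit 12155) (nat_lit 33692452) (nat_lit 0) (nat_lit 0),Row.mk (nat_lit 22344) (nat_lit 11968) (nat_lit 28348198) (nat_lit 12155) (nat_lit 33692452) (nat_lit 0) (nat_lit 0),Row.mk (nat_lit 22512) (nat_lit 11968) (nat_lit 28348198) (nat_lit 12155) (nat_lit 33692452) (nat_lit 0) (nat_lit 0),Row.mk (nat_lit 22680) (nat_lit 11968) (nat_lit 28348198) (nat_lit 12155) (nat_lit 33692452) (nat_lit 0) (nat_lit 0),Row.mk (nat_lit 22848) (nat_lit 11968) (nat_lit 28348198) (nat_lit 12155) (nat_lit 33692452)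 (nat_lit 0) (nat_lit 0),Row.mk (nat_lit 23016) (nat_lit 11968) (nat_lit 28348198) (nat_lit 12155) (nat_lit 33692452) (nat_lit 0) (nat_lit 0),Row.mk (nat_lit 23184) (nat_lit 11968) (nat_lit 28348198) (nat_lit 12155) (nat_lit 33692452) (nat_lit 0) (nat_lit 0),Row.mk (nat_lit 23352) (nat_lit 11968) (nat_lit 28348198) (nat_lit 12155) (nat_lit 33692452) (nat_lit 0) (nat_lit 0),Row.mk (nat_lit 23520) (nat_lit 11968) (nat_lit 28348198) (nat_lit 12155) (nat_lit 33692452) (nat_lit 0) (nat_lit 0),Row.mk (nat_lit 23688) (nat_lit 11968) (nat_lit 28348198) (nat_lit 12155) (nat_lit 33692452) (nat_lit 0) (nat_lit 0),Row.mk (nat_lit 23856) (nat_lit 11968) (nat_lit 28348198) (nat_lit 12155) (nat_lit 33692452) (nat_lit 0) (nat_lit 0),Row.mk (nat_lit 24024) (nat_lit 11968) (nat_lit 28348198) (nat_lit 12155) (nat_lit 33692452) (nat_lit 0) (nat_lit 0),Row.mk (nat_lit 24192) (nat_lit 11968) (nat_lit 28348198) (nat_lit 12155) (nat_lit 33692452) (nat_lit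 0) (nat_lit 0),Row.mk (nat_lit 24360) (nat_lit 11968) (nat_lit 28348198) (nat_lit 12155) (nat_lit 33692452) (nat_lit 0) (nat_lit 0),Row.mk (nat_lit 24528) (nat_lit 11968) (nat_lit 28348198) (nat_lit 12155) (nat_lit 33692452) (nat_lit 0) (nat_lit 0),Row.mk (nat_lit 24696) (nat_lit 11968) (nat_lit 28348198) (nat_lit 12155) (nat_lit 33692452) (nat_lit 0) (nat_lit 0),Row.mk (nat_lit 24864) (nat_lit 11968) (nat_lit 28348198) (nat_lit 12155) (nat_lit 33692452) (nat_lit 0) (nat_lit 0),Row.mk (nat_lit 25032) (nat_lit 11968) (nat_lit 28348198) (nat_lit 12155) (nat_lit 33692452) (nat_lit 0) (nat_lit 0),Row.mk (nat_lit 25200) (nat_lit 11968) (nat_lit 28348198) (nat_lit 12155) (nat_lit 33692452) (nat_lit 0) (nat_lit 0),Row.mk (nat_lit 25368) (nat_lit 11968) (nat_lit 28348198) (nat_lit 12155) (nat_lit 33692452) (nat_lit 0) (nat_lit 0),Row.mk (nat_lit 25536) (nat_lit 11968) (nat_lit 28348198) (nat_lit 12155) (nat_lit 33692452) (nat_lit 0) (nat_lit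 0),Row.mk (nat_lit 25704) (nat_lit 11968) (nat_lit 28348198) (nat_lit 12155) (nat_lit 33692452) (nat_lit 0) (nat_lit 0),Row.mk (nat_lit 25872) (nat_lit 11968) (nat_lit 28348198) (nat_lit 12155) (nat_lit 33692452) (nat_lit 0) (nat_lit 0),Row.mk (nat_lit 26040) (nat_lit 11968) (nat_lit 28348198) (nat_lit 12155) (nat_lit 33692452) (nat_lit 0) (nat_lit 0),Row.mk (nat_lit 26208) (nat_lit 11968) (nat_lit 28348198) (nat_lit 12155) (nat_lit 33692452) (nat_lit 0) (nat_lit 0),Row.mk (nat_lit 26376) (nat_lit 11968) (nat_lit 28348198) (nat_lit 12155) (nat_lit 33692452) (nat_lit 0) (nat_lit 0),Row.mk (nat_lit 26544) (nat_lit 11968) (nat_lit 28348198) (nat_lit 12155) (nat_lit 33692452) (nat_lit 0) (nat_lit 0),Row.mk (nat_lit 26712) (nat_lit 11968) (nat_lit 28348198) (nat_lit 12155) (nat_lit 33692452) (nat_lit 0) (nat_lit 0),Row.mk (nat_lit 26880) (nat_lit 11968) (nat_lit 28348198) (nat_lit 12155) (nat_lit 33692452) (nat_lit 0) (nat_lit 0),Row.mk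 (nat_lit 27048) (nat_lit 11968) (nat_lit 28348198) (nat_lit 12155) (nat_lit 33692452) (nat_lit 0) (nat_lit 0),Row.mk (nat_lit 27216) (nat_lit 11968) (nat_lit 28348198) (nat_lit 12155) (nat_lit 33692452) (nat_lit 0) (nat_lit 0)],
[Row.mk (nat_lit 12264) (nat_lit 11407) (nat_lit 43794824) (nat_lit 11594) (nat_lit 33692452) (nat_lit 0) (nat_lit 0),Row.mk (nat_lit 12432) (nat_lit 11407) (nat_lit 43794824) (nat_lit 11594) (nat_lit 33692452) (nat_lit 0) (nat_lit 0),Row.mk (nat_lit 12600) (nat_lit 11407) (nat_lit 43794824) (nat_lit 11594) (nat_lit 33692452) (nat_lit 0) (nat_lit 0),Row.mk (nat_lit 12768) (nat_lit 11407) (nat_lit 43794824) (nat_lit 11594) (nat_lit 33692452) (nat_lit 0) (nat_lit 0),Row.mk (nat_lit 12936) (nat_lit 11407) (nat_lit 43794824) (nat_lit 11594) (nat_lit 33692452) (nat_lit 0) (nat_lit 0),Row.mk (nat_lit 13104) (nat_lit 11407) (nat_lit 43794824) (nat_lit 11594) (nat_lit 33692452) (nat_lit 0) (nat_lit 0),Row.mk (nat_lit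 13272) (nat_lit 11407) (nat_lit 43794824) (nat_lit 11594) (nat_lit 33692452) (nat_lit 0) (nat_lit 0),Row.mk (nat_lit 13440) (nat_lit 11407) (nat_lit 43794824) (nat_lit 11594) (nat_lit 33692452) (nat_lit 0) (nat_lit 0),Row.mk (nat_lit 13608) (nat_lit 11407) (nat_lit 43794824) (nat_lit 11594) (nat_lit 33692452) (nat_lit 0) (nat_lit 0),Row.mk (nat_lit 13776) (nat_lit 11407) (nat_lit 43794824) (nat_lit 11594) (nat_lit 33692452) (nat_lit 0) (nat_lit 0),Row.mk (nat_lit 13944) (nat_lit 11407) (nat_lit 43794824) (nat_lit 11594) (nat_lit 33692452) (nat_lit 0) (nat_lit 0),Row.mk (nat_lit 14112) (nat_lit 11407) (nat_lit 43794824) (nat_lit 11594) (nat_lit 33692452) (nat_lit 0) (nat_lit 0),Row.mk (nat_lit 14280) (nat_lit 11407) (nat_lit 43794824) (nat_lit 11594) (nat_lit 33692452) (nat_lit 0) (nat_lit 0),Row.mk (nat_lit 14448) (nat_lit 11407) (nat_lit 43794824) (nat_lit 11594) (nat_lit 33692452) (nat_lit 0) (nat_lit 0),Row.mk (nat_lit 14616) (nat_lit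 11407) (nat_lit 43794824) (nat_lit 11594) (nat_lit 33692452) (nat_lit 0) (nat_lit 0),Row.mk (nat_lit 14784) (nat_lit 11407) (nat_lit 43794824) (nat_lit 11594) (nat_lit 33692452) (nat_lit 0) (nat_lit 0),Row.mk (nat_lit 14952) (nat_lit 11407) (nat_lit 43794824) (nat_lit 11594) (nat_lit 33692452) (nat_lit 0) (nat_lit 0),Row.mk (nat_lit 15120) (nat_lit 11407) (nat_lit 43794824) (nat_lit 11594) (nat_lit 33692452) (nat_lit 0) (nat_lit 0),Row.mk (nat_lit 15288) (nat_lit 11407) (nat_lit 43794824) (nat_lit 11594) (nat_lit 33692452) (nat_lit 0) (nat_lit 0),Row.mk (nat_lit 15456) (nat_lit 11407) (nat_lit 43794824) (nat_lit 11594) (nat_lit 33692452) (nat_lit 0) (nat_lit 0),Row.mk (nat_lit 15624) (nat_lit 11407) (nat_lit 43794824) (nat_lit 11594) (nat_lit 33692452) (nat_lit 0) (nat_lit 0),Row.mk (nat_lit 15792) (nat_lit 11407) (nat_lit 43794824) (nat_lit 11594) (nat_lit 33692452) (nat_lit 0) (nat_lit 0),Row.mk (nat_lit 15960) (nat_lit 11407) (nat_lit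 43794824) (nat_lit 11594) (nat_lit 33692452) (nat_lit 0) (nat_lit 0),Row.mk (nat_lit 16128) (nat_lit 11407) (nat_lit 43794824) (nat_lit 11594) (nat_lit 33692452) (nat_lit 0) (nat_lit 0),Row.mk (nat_lit 16296) (nat_lit 11407) (nat_lit 43794824) (nat_lit 11594) (nat_lit 33692452) (nat_lit 0) (nat_lit 0),Row.mk (nat_lit 16464) (nat_lit 11407) (nat_lit 43794824) (nat_lit 11594) (nat_lit 33692452) (nat_lit 0) (nat_lit 0),Row.mk (nat_lit 16632) (nat_lit 11407) (nat_lit 43794824) (nat_lit 11594) (nat_lit 33692452) (nat_lit 0) (nat_lit 0),Row.mk (nat_lit 16800) (nat_lit 11407) (nat_lit 43794824) (nat_lit 11594) (nat_lit 33692452) (nat_lit 0) (nat_lit 0),Row.mk (nat_lit 16968) (nat_lit 11407) (nat_lit 43794824) (nat_lit 11594) (nat_lit 33692452) (nat_lit 0) (nat_lit 0),Row.mk (nat_lit 17136) (nat_lit 11407) (nat_lit 43794824) (nat_lit 11594) (nat_lit 33692452) (nat_lit 0) (nat_lit 0),Row.mk (nat_lit 17304) (nat_lit 11407) (nat_lit 43794824)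 (nat_lit 11594) (nat_lit 33692452) (nat_lit 0) (nat_lit 0),Row.mk (nat_lit 17472) (nat_lit 11407) (nat_lit 43794824) (nat_lit 11594) (nat_lit 33692452) (nat_lit 0) (nat_lit 0),Row.mk (nat_lit 17640) (nat_lit 11407) (nat_lit 43794824) (nat_lit 11594) (nat_lit 33692452) (nat_lit 0) (nat_lit 0),Row.mk (nat_lit 17808) (nat_lit 11407) (nat_lit 43794824) (nat_lit 11594) (nat_lit 33692452) (nat_lit 0) (nat_lit 0),Row.mk (nat_lit 17976) (nat_lit 11407) (nat_lit 43794824) (nat_lit 11594) (nat_lit 33692452) (nat_lit 0) (nat_lit 0),Row.mk (nat_lit 18144) (nat_lit 11407) (nat_lit 43794824) (nat_lit 11594) (nat_lit 33692452) (nat_lit 0) (nat_lit 0),Row.mk (nat_lit 18312) (nat_lit 11407) (nat_lit 43794824) (nat_lit 11594) (nat_lit 33692452) (nat_lit 0) (nat_lit 0),Row.mk (nat_lit 18480) (nat_lit 11407) (nat_lit 43794824) (nat_lit 11594) (nat_lit 33692452) (nat_lit 0) (nat_lit 0),Row.mk (nat_lit 18648) (nat_lit 11407) (nat_lit 43794824) (nat_lit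 11594) (nat_lit 33692452) (nat_lit 0) (nat_lit 0),Row.mk (nat_lit 18816) (nat_lit 11407) (nat_lit 43794824) (nat_lit 11594) (nat_lit 33692452) (nat_lit 0) (nat_lit 0),Row.mk (nat_lit 18984) (nat_lit 11407) (nat_lit 43794824) (nat_lit 11594) (nat_lit 33692452) (nat_lit 0) (nat_lit 0),Row.mk (nat_lit 19152) (nat_lit 11407) (nat_lit 43794824) (nat_lit 11594) (nat_lit 33692452) (nat_lit 0) (nat_lit 0),Row.mk (nat_lit 19320) (nat_lit 11407) (nat_lit 43794824) (nat_lit 11594) (nat_lit 33692452) (nat_lit 0) (nat_lit 0),Row.mk (nat_lit 19488) (nat_lit 11407) (nat_lit 43794824) (nat_lit 11594) (nat_lit 33692452) (nat_lit 0) (nat_lit 0),Row.mk (nat_lit 19656) (nat_lit 11407) (nat_lit 43794824) (nat_lit 11594) (nat_lit 33692452) (nat_lit 0) (nat_lit 0),Row.mk (nat_lit 19824) (nat_lit 11407) (nat_lit 43794824) (nat_lit 11594) (nat_lit 33692452) (nat_lit 0) (nat_lit 0),Row.mk (nat_lit 19992) (nat_lit 11407) (nat_lit 43794824) (nat_lit 11594) (nat_lit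 33692452) (nat_lit 0) (nat_lit 0),Row.mk (nat_lit 20160) (nat_lit 11407) (nat_lit 43794824) (nat_lit 11594) (nat_lit 33692452) (nat_lit 0) (nat_lit 0),Row.mk (nat_lit 20328) (nat_lit 11407) (nat_lit 43794824) (nat_lit 11594) (nat_lit 33692452) (nat_lit 0) (nat_lit 0),Row.mk (nat_lit 20496) (nat_lit 11407) (nat_lit 43794824) (nat_lit 11594) (nat_lit 33692452) (nat_lit 0) (nat_lit 0),Row.mk (nat_lit 20664) (nat_lit 11407) (nat_lit 43794824) (nat_lit 11594) (nat_lit 33692452) (nat_lit 0) (nat_lit 0),Row.mk (nat_lit 20832) (nat_lit 11407) (nat_lit 43794824) (nat_lit 11594) (nat_lit 33692452) (nat_lit 0) (nat_lit 0),Row.mk (nat_lit 21000) (nat_lit 11407) (nat_lit 43794824) (nat_lit 11594) (nat_lit 33692452) (nat_lit 0) (nat_lit 0),Row.mk (nat_lit 21168) (nat_lit 11407) (nat_lit 43794824) (nat_lit 11594) (nat_lit 33692452) (nat_lit 0) (nat_lit 0),Row.mk (nat_lit 21336) (nat_lit 11407) (nat_lit 43794824) (nat_lit 11594) (nat_lit 33692452)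 (nat_lit 0) (nat_lit 0),Row.mk (nat_lit 21504) (nat_lit 11407) (nat_lit 43794824) (nat_lit 11594) (nat_lit 33692452) (nat_lit 0) (nat_lit 0),Row.mk (nat_lit 21672) (nat_lit 11407) (nat_lit 43794824) (nat_lit 11594) (nat_lit 33692452) (nat_lit 0) (nat_lit 0),Row.mk (nat_lit 21840) (nat_lit 11407) (nat_lit 43794824) (nat_lit 11594) (nat_lit 33692452) (nat_lit 0) (nat_lit 0),Row.mk (nat_lit 22008) (nat_lit 11407) (nat_lit 43794824) (nat_lit 11594) (nat_lit 33692452) (nat_lit 0) (nat_lit 0),Row.mk (nat_lit 22176) (nat_lit 11407) (nat_lit 43794824) (nat_lit 11594) (nat_lit 33692452) (nat_lit 0) (nat_lit 0),Row.mk (nat_lit 22344) (nat_lit 11407) (nat_lit 43794824) (nat_lit 11594) (nat_lit 33692452) (nat_lit 0) (nat_lit 0),Row.mk (nat_lit 22512) (nat_lit 11407) (nat_lit 43794824) (nat_lit 11594) (nat_lit 33692452) (nat_lit 0) (nat_lit 0),Row.mk (nat_lit 22680) (nat_lit 11407) (nat_lit 43794824) (nat_lit 11594) (nat_lit 33692452) (nat_lit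 0) (nat_lit 0),Row.mk (nat_lit 22848) (nat_lit 11407) (nat_lit 43794824) (nat_lit 11594) (nat_lit 33692452) (nat_lit 0) (nat_lit 0),Row.mk (nat_lit 23016) (nat_lit 11407) (nat_lit 43794824) (nat_lit 11594) (nat_lit 33692452) (nat_lit 0) (nat_lit 0),Row.mk (nat_lit 23184) (nat_lit 11407) (nat_lit 43794824) (nat_lit 11594) (nat_lit 33692452) (nat_lit 0) (nat_lit 0),Row.mk (nat_lit 23352) (nat_lit 11407) (nat_lit 43794824) (nat_lit 11594) (nat_lit 33692452) (nat_lit 0) (nat_lit 0),Row.mk (nat_lit 23520) (nat_lit 11407) (nat_lit 43794824) (nat_lit 11594) (nat_lit 33692452) (nat_lit 0) (nat_lit 0),Row.mk (nat_lit 23688) (nat_lit 11407) (nat_lit 43794824) (nat_lit 11594) (nat_lit 33692452) (nat_lit 0) (nat_lit 0),Row.mk (nat_lit 23856) (nat_lit 11407) (nat_lit 43794824) (nat_lit 11594) (nat_lit 33692452) (nat_lit 0) (nat_lit 0),Row.mk (nat_lit 24024) (nat_lit 11407) (nat_lit 43794824) (nat_lit 11594) (nat_lit 33692452) (nat_lit 0) (nat_lit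 0),Row.mk (nat_lit 24192) (nat_lit 11407) (nat_lit 43794824) (nat_lit 11594) (nat_lit 33692452) (nat_lit 0) (nat_lit 0),Row.mk (nat_lit 24360) (nat_lit 11407) (nat_lit 43794824) (nat_lit 11594) (nat_lit 33692452) (nat_lit 0) (nat_lit 0),Row.mk (nat_lit 24528) (nat_lit 11407) (nat_lit 43794824) (nat_lit 11594) (nat_lit 33692452) (nat_lit 0) (nat_lit 0),Row.mk (nat_lit 24696) (nat_lit 11407) (nat_lit 43794824) (nat_lit 11594) (nat_lit 33692452) (nat_lit 0) (nat_lit 0),Row.mk (nat_lit 24864) (nat_lit 11407) (nat_lit 43794824) (nat_lit 11594) (nat_lit 33692452) (nat_lit 0) (nat_lit 0),Row.mk (nat_lit 25032) (nat_lit 11407) (nat_lit 43794824) (nat_lit 11594) (nat_lit 33692452) (nat_lit 0) (nat_lit 0),Row.mk (nat_lit 25200) (nat_lit 11407) (nat_lit 43794824) (nat_lit 11594) (nat_lit 33692452) (nat_lit 0) (nat_lit 0),Row.mk (nat_lit 25368) (nat_lit 11407) (nat_lit 43794824) (nat_lit 11594) (nat_lit 33692452) (nat_lit 0) (nat_lit 0),Row.mk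 (nat_lit 25536) (nat_lit 11407) (nat_lit 43794824) (nat_lit 11594) (nat_lit 33692452) (nat_lit 0) (nat_lit 0),Row.mk (nat_lit 25704) (nat_lit 11407) (nat_lit 43794824) (nat_lit 11594) (nat_lit 33692452) (nat_lit 0) (nat_lit 0),Row.mk (nat_lit 25872) (nat_lit 11407) (nat_lit 43794824) (nat_lit 11594) (nat_lit 33692452) (nat_lit 0) (nat_lit 0),Row.mk (nat_lit 26040) (nat_lit 11407) (nat_lit 43794824) (nat_lit 11594) (nat_lit 33692452) (nat_lit 0) (nat_lit 0),Row.mk (nat_lit 26208) (nat_lit 11407) (nat_lit 43794824) (nat_lit 11594) (nat_lit 33692452) (nat_lit 0) (nat_lit 0),Row.mk (nat_lit 26376) (nat_lit 11407) (nat_lit 43794824) (nat_lit 11594) (nat_lit 33692452) (nat_lit 0) (nat_lit 0),Row.mk (nat_lit 26544) (nat_lit 11407) (nat_lit 43794824) (nat_lit 11594) (nat_lit 33692452) (nat_lit 0) (nat_lit 0),Row.mk (nat_lit 26712) (nat_lit 11407) (nat_lit 43794824) (nat_lit 11594) (nat_lit 33692452) (nat_lit 0) (nat_lit 0),Row.mk (nat_lit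 26880) (nat_lit 11407) (nat_lit 43794824) (nat_lit 11594) (nat_lit 33692452) (nat_lit 0) (nat_lit 0),Row.mk (nat_lit 27048) (nat_lit 11407) (nat_lit 43794824) (nat_lit 11594) (nat_lit 33692452) (nat_lit 0) (nat_lit 0),Row.mk (nat_lit 27216) (nat_lit 11407) (nat_lit 43794824) (nat_lit 11594) (nat_lit 33692452) (nat_lit 0) (nat_lit 0),Row.mk (nat_lit 27384) (nat_lit 11407) (nat_lit 43794824) (nat_lit 11594) (nat_lit 33692452) (nat_lit 0) (nat_lit 0)],
[Row.mk (nat_lit 12432) (nat_lit 10846) (nat_lit 63087287) (nat_lit 11033) (nat_lit 33692452) (nat_lit 0) (nat_lit 0),Row.mk (nat_lit 12600) (nat_lit 10846) (nat_lit 63087287) (nat_lit 11033) (nat_lit 33692452) (nat_lit 0) (nat_lit 0),Row.mk (nat_lit 12768) (nat_lit 10846) (nat_lit 63087287) (nat_lit 11033) (nat_lit 33692452) (nat_lit 0) (nat_lit 0),Row.mk (nat_lit 12936) (nat_lit 10846) (nat_lit 63087287) (nat_lit 11033) (nat_lit 33692452) (nat_lit 0) (nat_lit 0),Row.mk (nat_lit 13104)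 (nat_lit 10846) (nat_lit 63087287) (nat_lit 11033) (nat_lit 33692452) (nat_lit 0) (nat_lit 0),Row.mk (nat_lit 13272) (nat_lit 10846) (nat_lit 63087287) (nat_lit 11033) (nat_lit 33692452) (nat_lit 0) (nat_lit 0),Row.mk (nat_lit 13440) (nat_lit 10846) (nat_lit 63087287) (nat_lit 11033) (nat_lit 33692452) (nat_lit 0) (nat_lit 0),Row.mk (nat_lit 13608) (nat_lit 10846) (nat_lit 63087287) (nat_lit 11033) (nat_lit 33692452) (nat_lit 0) (nat_lit 0),Row.mk (nat_lit 13776) (nat_lit 10846) (nat_lit 63087287) (nat_lit 11033) (nat_lit 33692452) (nat_lit 0) (nat_lit 0),Row.mk (nat_lit 13944) (nat_lit 10846) (nat_lit 63087287) (nat_lit 11033) (nat_lit 33692452) (nat_lit 0) (nat_lit 0),Row.mk (nat_lit 14112) (nat_lit 10846) (nat_lit 63087287) (nat_lit 11033) (nat_lit 33692452) (nat_lit 0) (nat_lit 0),Row.mk (nat_lit 14280) (nat_lit 10846) (nat_lit 63087287) (nat_lit 11033) (nat_lit 33692452) (nat_lit 0) (nat_lit 0),Row.mk (nat_lit 14448) (nat_lit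 10846) (nat_lit 63087287) (nat_lit 11033) (nat_lit 33692452) (nat_lit 0) (nat_lit 0),Row.mk (nat_lit 14616) (nat_lit 10846) (nat_lit 63087287) (nat_lit 11033) (nat_lit 33692452) (nat_lit 0) (nat_lit 0),Row.mk (nat_lit 14784) (nat_lit 10846) (nat_lit 63087287) (nat_lit 11033) (nat_lit 33692452) (nat_lit 0) (nat_lit 0),Row.mk (nat_lit 14952) (nat_lit 10846) (nat_lit 63087287) (nat_lit 11033) (nat_lit 33692452) (nat_lit 0) (nat_lit 0),Row.mk (nat_lit 15120) (nat_lit 10846) (nat_lit 63087287) (nat_lit 11033) (nat_lit 33692452) (nat_lit 0) (nat_lit 0),Row.mk (nat_lit 15288) (nat_lit 10846) (nat_lit 63087287) (nat_lit 11033) (nat_lit 33692452) (nat_lit 0) (nat_lit 0),Row.mk (nat_lit 15456) (nat_lit 10846) (nat_lit 63087287) (nat_lit 11033) (nat_lit 33692452) (nat_lit 0) (nat_lit 0),Row.mk (nat_lit 15624) (nat_lit 10846) (nat_lit 63087287) (nat_lit 11033) (nat_lit 33692452) (nat_lit 0) (nat_lit 0),Row.mk (nat_lit 15792) (nat_lit 10846) (nat_lit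 63087287) (nat_lit 11033) (nat_lit 33692452) (nat_lit 0) (nat_lit 0),Row.mk (nat_lit 15960) (nat_lit 10846) (nat_lit 63087287) (nat_lit 11033) (nat_lit 33692452) (nat_lit 0) (nat_lit 0),Row.mk (nat_lit 16128) (nat_lit 10846) (nat_lit 63087287) (nat_lit 11033) (nat_lit 33692452) (nat_lit 0) (nat_lit 0),Row.mk (nat_lit 16296) (nat_lit 10846) (nat_lit 63087287) (nat_lit 11033) (nat_lit 33692452) (nat_lit 0) (nat_lit 0),Row.mk (nat_lit 16464) (nat_lit 10846) (nat_lit 63087287) (nat_lit 11033) (nat_lit 33692452) (nat_lit 0) (nat_lit 0),Row.mk (nat_lit 16632) (nat_lit 10846) (nat_lit 63087287) (nat_lit 11033) (nat_lit 33692452) (nat_lit 0) (nat_lit 0),Row.mk (nat_lit 16800) (nat_lit 10846) (nat_lit 63087287) (nat_lit 11033) (nat_lit 33692452) (nat_lit 0) (nat_lit 0),Row.mk (nat_lit 16968) (nat_lit 10846) (nat_lit 63087287) (nat_lit 11033) (nat_lit 33692452) (nat_lit 0) (nat_lit 0),Row.mk (nat_lit 17136) (nat_lit 10846) (nat_lit 63087287)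 (nat_lit 11033) (nat_lit 33692452) (nat_lit 0) (nat_lit 0),Row.mk (nat_lit 17304) (nat_lit 10846) (nat_lit 63087287) (nat_lit 11033) (nat_lit 33692452) (nat_lit 0) (nat_lit 0),Row.mk (nat_lit 17472) (nat_lit 10846) (nat_lit 63087287) (nat_lit 11033) (nat_lit 33692452) (nat_lit 0) (nat_lit 0),Row.mk (nat_lit 17640) (nat_lit 10846) (nat_lit 63087287) (nat_lit 11033) (nat_lit 33692452) (nat_lit 0) (nat_lit 0),Row.mk (nat_lit 17808) (nat_lit 10846) (nat_lit 63087287) (nat_lit 11033) (nat_lit 33692452) (nat_lit 0) (nat_lit 0),Row.mk (nat_lit 17976) (nat_lit 10846) (nat_lit 63087287) (nat_lit 11033) (nat_lit 33692452) (nat_lit 0) (nat_lit 0),Row.mk (nat_lit 18144) (nat_lit 10846) (nat_lit 63087287) (nat_lit 11033) (nat_lit 33692452) (nat_lit 0) (nat_lit 0),Row.mk (nat_lit 18312) (nat_lit 10846) (nat_lit 63087287) (nat_lit 11033) (nat_lit 33692452) (nat_lit 0) (nat_lit 0),Row.mk (nat_lit 18480) (nat_lit 10846) (nat_lit 63087287) (nat_lit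 11033) (nat_lit 33692452) (nat_lit 0) (nat_lit 0),Row.mk (nat_lit 18648) (nat_lit 10846) (nat_lit 63087287) (nat_lit 11033) (nat_lit 33692452) (nat_lit 0) (nat_lit 0),Row.mk (nat_lit 18816) (nat_lit 10846) (nat_lit 63087287) (nat_lit 11033) (nat_lit 33692452) (nat_lit 0) (nat_lit 0),Row.mk (nat_lit 18984) (nat_lit 10846) (nat_lit 63087287) (nat_lit 11033) (nat_lit 33692452) (nat_lit 0) (nat_lit 0),Row.mk (nat_lit 19152) (nat_lit 10846) (nat_lit 63087287) (nat_lit 11033) (nat_lit 33692452) (nat_lit 0) (nat_lit 0),Row.mk (nat_lit 19320) (nat_lit 10846) (nat_lit 63087287) (nat_lit 11033) (nat_lit 33692452) (nat_lit 0) (nat_lit 0),Row.mk (nat_lit 19488) (nat_lit 10846) (nat_lit 63087287) (nat_lit 11033) (nat_lit 33692452) (nat_lit 0) (nat_lit 0),Row.mk (nat_lit 19656) (nat_lit 10846) (nat_lit 63087287) (nat_lit 11033) (nat_lit 33692452) (nat_lit 0) (nat_lit 0),Row.mk (nat_lit 19824) (nat_lit 10846) (nat_lit 63087287) (nat_lit 11033) (nat_lit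 33692452) (nat_lit 0) (nat_lit 0),Row.mk (nat_lit 19992) (nat_lit 10846) (nat_lit 63087287) (nat_lit 11033) (nat_lit 33692452) (nat_lit 0) (nat_lit 0),Row.mk (nat_lit 20160) (nat_lit 10846) (nat_lit 63087287) (nat_lit 11033) (nat_lit 33692452) (nat_lit 0) (nat_lit 0),Row.mk (nat_lit 20328) (nat_lit 10846) (nat_lit 63087287) (nat_lit 11033) (nat_lit 33692452) (nat_lit 0) (nat_lit 0),Row.mk (nat_lit 20496) (nat_lit 10846) (nat_lit 63087287) (nat_lit 11033) (nat_lit 33692452) (nat_lit 0) (nat_lit 0),Row.mk (nat_lit 20664) (nat_lit 10846) (nat_lit 63087287) (nat_lit 11033) (nat_lit 33692452) (nat_lit 0) (nat_lit 0),Row.mk (nat_lit 20832) (nat_lit 10846) (nat_lit 63087287) (nat_lit 11033) (nat_lit 33692452) (nat_lit 0) (nat_lit 0),Row.mk (nat_lit 21000) (nat_lit 10846) (nat_lit 63087287) (nat_lit 11033) (nat_lit 33692452) (nat_lit 0) (nat_lit 0),Row.mk (nat_lit 21168) (nat_lit 10846) (nat_lit 63087287) (nat_lit 11033) (nat_lit 33692452)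 (nat_lit 0) (nat_lit 0),Row.mk (nat_lit 21336) (nat_lit 10846) (nat_lit 63087287) (nat_lit 11033) (nat_lit 33692452) (nat_lit 0) (nat_lit 0),Row.mk (nat_lit 21504) (nat_lit 10846) (nat_lit 63087287) (nat_lit 11033) (nat_lit 33692452) (nat_lit 0) (nat_lit 0),Row.mk (nat_lit 21672) (nat_lit 10846) (nat_lit 63087287) (nat_lit 11033) (nat_lit 33692452) (nat_lit 0) (nat_lit 0),Row.mk (nat_lit 21840) (nat_lit 10846) (nat_lit 63087287) (nat_lit 11033) (nat_lit 33692452) (nat_lit 0) (nat_lit 0),Row.mk (nat_lit 22008) (nat_lit 10846) (nat_lit 63087287) (nat_lit 11033) (nat_lit 33692452) (nat_lit 0) (nat_lit 0),Row.mk (nat_lit 22176) (nat_lit 10846) (nat_lit 63087287) (nat_lit 11033) (nat_lit 33692452) (nat_lit 0) (nat_lit 0),Row.mk (nat_lit 22344) (nat_lit 10846) (nat_lit 63087287) (nat_lit 11033) (nat_lit 33692452) (nat_lit 0) (nat_lit 0),Row.mk (nat_lit 22512) (nat_lit 10846) (nat_lit 63087287) (nat_lit 11033) (nat_lit 33692452) (nat_lit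 0) (nat_lit 0),Row.mk (nat_lit 22680) (nat_lit 10846) (nat_lit 63087287) (nat_lit 11033) (nat_lit 33692452) (nat_lit 0) (nat_lit 0),Row.mk (nat_lit 22848) (nat_lit 10846) (nat_lit 63087287) (nat_lit 11033) (nat_lit 33692452) (nat_lit 0) (nat_lit 0),Row.mk (nat_lit 23016) (nat_lit 10846) (nat_lit 63087287) (nat_lit 11033) (nat_lit 33692452) (nat_lit 0) (nat_lit 0),Row.mk (nat_lit 23184) (nat_lit 10846) (nat_lit 63087287) (nat_lit 11033) (nat_lit 33692452) (nat_lit 0) (nat_lit 0),Row.mk (nat_lit 23352) (nat_lit 10846) (nat_lit 63087287) (nat_lit 11033) (nat_lit 33692452) (nat_lit 0) (nat_lit 0),Row.mk (nat_lit 23520) (nat_lit 10846) (nat_lit 63087287) (nat_lit 11033) (nat_lit 33692452) (nat_lit 0) (nat_lit 0),Row.mk (nat_lit 23688) (nat_lit 10846) (nat_lit 63087287) (nat_lit 11033) (nat_lit 33692452) (nat_lit 0) (nat_lit 0),Row.mk (nat_lit 23856) (nat_lit 10846) (nat_lit 63087287) (nat_lit 11033) (nat_lit 33692452) (nat_lit 0) (nat_lit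 0),Row.mk (nat_lit 24024) (nat_lit 10846) (nat_lit 63087287) (nat_lit 11033) (nat_lit 33692452) (nat_lit 0) (nat_lit 0),Row.mk (nat_lit 24192) (nat_lit 10846) (nat_lit 63087287) (nat_lit 11033) (nat_lit 33692452) (nat_lit 0) (nat_lit 0),Row.mk (nat_lit 24360) (nat_lit 10846) (nat_lit 63087287) (nat_lit 11033) (nat_lit 33692452) (nat_lit 0) (nat_lit 0),Row.mk (nat_lit 24528) (nat_lit 10846) (nat_lit 63087287) (nat_lit 11033) (nat_lit 33692452) (nat_lit 0) (nat_lit 0),Row.mk (nat_lit 24696) (nat_lit 10846) (nat_lit 63087287) (nat_lit 11033) (nat_lit 33692452) (nat_lit 0) (nat_lit 0),Row.mk (nat_lit 24864) (nat_lit 10846) (nat_lit 63087287) (nat_lit 11033) (nat_lit 33692452) (nat_lit 0) (nat_lit 0),Row.mk (nat_lit 25032) (nat_lit 10846) (nat_lit 63087287) (nat_lit 11033) (nat_lit 33692452) (nat_lit 0) (nat_lit 0),Row.mk (nat_lit 25200) (nat_lit 10846) (nat_lit 63087287) (nat_lit 11033) (nat_lit 33692452) (nat_lit 0) (nat_lit 0),Row.mk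 (nat_lit 25368) (nat_lit 10846) (nat_lit 63087287) (nat_lit 11033) (nat_lit 33692452) (nat_lit 0) (nat_lit 0),Row.mk (nat_lit 25536) (nat_lit 10846) (nat_lit 63087287) (nat_lit 11033) (nat_lit 33692452) (nat_lit 0) (nat_lit 0),Row.mk (nat_lit 25704) (nat_lit 10846) (nat_lit 63087287) (nat_lit 11033) (nat_lit 33692452) (nat_lit 0) (nat_lit 0),Row.mk (nat_lit 25872) (nat_lit 10846) (nat_lit 63087287) (nat_lit 11033) (nat_lit 33692452) (nat_lit 0) (nat_lit 0),Row.mk (nat_lit 26040) (nat_lit 10846) (nat_lit 63087287) (nat_lit 11033) (nat_lit 33692452) (nat_lit 0) (nat_lit 0),Row.mk (nat_lit 26208) (nat_lit 10846) (nat_lit 63087287) (nat_lit 11033) (nat_lit 33692452) (nat_lit 0) (nat_lit 0),Row.mk (nat_lit 26376) (nat_lit 10846) (nat_lit 63087287) (nat_lit 11033) (nat_lit 33692452) (nat_lit 0) (nat_lit 0),Row.mk (nat_lit 26544) (nat_lit 10846) (nat_lit 63087287) (nat_lit 11033) (nat_lit 33692452) (nat_lit 0) (nat_lit 0),Row.mk (nat_lit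 26712) (nat_lit 10846) (nat_lit 63087287) (nat_lit 11033) (nat_lit 33692452) (nat_lit 0) (nat_lit 0),Row.mk (nat_lit 26880) (nat_lit 10846) (nat_lit 63087287) (nat_lit 11033) (nat_lit 33692452) (nat_lit 0) (nat_lit 0),Row.mk (nat_lit 27048) (nat_lit 10846) (nat_lit 63087287) (nat_lit 11033) (nat_lit 33692452) (nat_lit 0) (nat_lit 0),Row.mk (nat_lit 27216) (nat_lit 10846) (nat_lit 63087287) (nat_lit 11033) (nat_lit 33692452) (nat_lit 0) (nat_lit 0),Row.mk (nat_lit 27384) (nat_lit 10846) (nat_lit 63087287) (nat_lit 11033) (nat_lit 33692452) (nat_lit 0) (nat_lit 0)],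
[Row.mk (nat_lit 12600) (nat_lit 10285) (nat_lit 87183107) (nat_lit 10472) (nat_lit 33692452) (nat_lit 0) (nat_lit 0),Row.mk (nat_lit 12768) (nat_lit 10285) (nat_lit 87183107) (nat_lit 10472) (nat_lit 33692452) (nat_lit 0) (nat_lit 0),Row.mk (nat_lit 12936) (nat_lit 10285) (nat_lit 87183107) (nat_lit 10472) (nat_lit 33692452) (nat_lit 0) (nat_lit 0),Row.mk (nat_lit 13104) (nat_lit 10285) (nat_lit 87183107) (nat_lit 10472) (nat_lit 33692452) (nat_lit 0) (nat_lit 0),Row.mk (nat_lit 13272) (nat_lit 10285) (nat_lit 87183107) (nat_lit 10472) (nat_lit 33692452) (nat_lit 0) (nat_lit 0),Row.mk (nat_lit 13440) (nat_lit 10285) (nat_lit 87183107) (nat_lit 10472) (nat_lit 33692452) (nat_lit 0) (nat_lit 0),Row.mk (nat_lit 13608) (nat_lit 10285) (nat_lit 87183107) (nat_lit 10472) (nat_lit 33692452) (nat_lit 0) (nat_lit 0),Row.mk (nat_lit 13776) (nat_lit 10285) (nat_lit 87183107) (nat_lit 10472) (nat_lit 33692452) (nat_lit 0) (nat_lit 0),Row.mk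 (nat_lit 13944) (nat_lit 10285) (nat_lit 87183107) (nat_lit 10472) (nat_lit 33692452) (nat_lit 0) (nat_lit 0),Row.mk (nat_lit 14112) (nat_lit 10285) (nat_lit 87183107) (nat_lit 10472) (nat_lit 33692452) (nat_lit 0) (nat_lit 0),Row.mk (nat_lit 14280) (nat_lit 10285) (nat_lit 87183107) (nat_lit 10472) (nat_lit 33692452) (nat_lit 0) (nat_lit 0),Row.mk (nat_lit 14448) (nat_lit 10285) (nat_lit 87183107) (nat_lit 10472) (nat_lit 33692452) (nat_lit 0) (nat_lit 0),Row.mk (nat_lit 14616) (nat_lit 10285) (nat_lit 87183107) (nat_lit 10472) (nat_lit 33692452) (nat_lit 0) (nat_lit 0),Row.mk (nat_lit 14784) (nat_lit 10285) (nat_lit 87183107) (nat_lit 10472) (nat_lit 33692452) (nat_lit 0) (nat_lit 0),Row.mk (nat_lit 14952) (nat_lit 10285) (nat_lit 87183107) (nat_lit 10472) (nat_lit 33692452) (nat_lit 0) (nat_lit 0),Row.mk (nat_lit 15120) (nat_lit 10285) (nat_lit 87183107) (nat_lit 10472) (nat_lit 33692452) (nat_lit 0) (nat_lit 0),Row.mk (nat_lit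 15288) (nat_lit 10285) (nat_lit 87183107) (nat_lit 10472) (nat_lit 33692452) (nat_lit 0) (nat_lit 0),Row.mk (nat_lit 15456) (nat_lit 10285) (nat_lit 87183107) (nat_lit 10472) (nat_lit 33692452) (nat_lit 0) (nat_lit 0),Row.mk (nat_lit 15624) (nat_lit 10285) (nat_lit 87183107) (nat_lit 10472) (nat_lit 33692452) (nat_lit 0) (nat_lit 0),Row.mk (nat_lit 15792) (nat_lit 10285) (nat_lit 87183107) (nat_lit 10472) (nat_lit 33692452) (nat_lit 0) (nat_lit 0),Row.mk (nat_lit 15960) (nat_lit 10285) (nat_lit 87183107) (nat_lit 10472) (nat_lit 33692452) (nat_lit 0) (nat_lit 0),Row.mk (nat_lit 16128) (nat_lit 10285) (nat_lit 87183107) (nat_lit 10472) (nat_lit 33692452) (nat_lit 0) (nat_lit 0),Row.mk (nat_lit 16296) (nat_lit 10285) (nat_lit 87183107) (nat_lit 10472) (nat_lit 33692452) (nat_lit 0) (nat_lit 0),Row.mk (nat_lit 16464) (nat_lit 10285) (nat_lit 87183107) (nat_lit 10472) (nat_lit 33692452) (nat_lit 0) (nat_lit 0),Row.mk (nat_lit 16632) (nat_lit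 10285) (nat_lit 87183107) (nat_lit 10472) (nat_lit 33692452) (nat_lit 0) (nat_lit 0),Row.mk (nat_lit 16800) (nat_lit 10285) (nat_lit 87183107) (nat_lit 10472) (nat_lit 33692452) (nat_lit 0) (nat_lit 0),Row.mk (nat_lit 16968) (nat_lit 10285) (nat_lit 87183107) (nat_lit 10472) (nat_lit 33692452) (nat_lit 0) (nat_lit 0),Row.mk (nat_lit 17136) (nat_lit 10285) (nat_lit 87183107) (nat_lit 10472) (nat_lit 33692452) (nat_lit 0) (nat_lit 0),Row.mk (nat_lit 17304) (nat_lit 10285) (nat_lit 87183107) (nat_lit 10472) (nat_lit 33692452) (nat_lit 0) (nat_lit 0),Row.mk (nat_lit 17472) (nat_lit 10285) (nat_lit 87183107) (nat_lit 10472) (nat_lit 33692452) (nat_lit 0) (nat_lit 0),Row.mk (nat_lit 17640) (nat_lit 10285) (nat_lit 87183107) (nat_lit 10472) (nat_lit 33692452) (nat_lit 0) (nat_lit 0),Row.mk (nat_lit 17808) (nat_lit 10285) (nat_lit 87183107) (nat_lit 10472) (nat_lit 33692452) (nat_lit 0) (nat_lit 0),Row.mk (nat_lit 17976) (nat_lit 10285) (nat_lit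 87183107) (nat_lit 10472) (nat_lit 33692452) (nat_lit 0) (nat_lit 0),Row.mk (nat_lit 18144) (nat_lit 10285) (nat_lit 87183107) (nat_lit 10472) (nat_lit 33692452) (nat_lit 0) (nat_lit 0),Row.mk (nat_lit 18312) (nat_lit 10285) (nat_lit 87183107) (nat_lit 10472) (nat_lit 33692452) (nat_lit 0) (nat_lit 0),Row.mk (nat_lit 18480) (nat_lit 10285) (nat_lit 87183107) (nat_lit 10472) (nat_lit 33692452) (nat_lit 0) (nat_lit 0),Row.mk (nat_lit 18648) (nat_lit 10285) (nat_lit 87183107) (nat_lit 10472) (nat_lit 33692452) (nat_lit 0) (nat_lit 0),Row.mk (nat_lit 18816) (nat_lit 10285) (nat_lit 87183107) (nat_lit 10472) (nat_lit 33692452) (nat_lit 0) (nat_lit 0),Row.mk (nat_lit 18984) (nat_lit 10285) (nat_lit 87183107) (nat_lit 10472) (nat_lit 33692452) (nat_lit 0) (nat_lit 0),Row.mk (nat_lit 19152) (nat_lit 10285) (nat_lit 87183107) (nat_lit 10472) (nat_lit 33692452) (nat_lit 0) (nat_lit 0),Row.mk (nat_lit 19320) (nat_lit 10285) (nat_lit 87183107)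 (nat_lit 10472) (nat_lit 33692452) (nat_lit 0) (nat_lit 0),Row.mk (nat_lit 19488) (nat_lit 10285) (nat_lit 87183107) (nat_lit 10472) (nat_lit 33692452) (nat_lit 0) (nat_lit 0),Row.mk (nat_lit 19656) (nat_lit 10285) (nat_lit 87183107) (nat_lit 10472) (nat_lit 33692452) (nat_lit 0) (nat_lit 0),Row.mk (nat_lit 19824) (nat_lit 10285) (nat_lit 87183107) (nat_lit 10472) (nat_lit 33692452) (nat_lit 0) (nat_lit 0),Row.mk (nat_lit 19992) (nat_lit 10285) (nat_lit 87183107) (nat_lit 10472) (nat_lit 33692452) (nat_lit 0) (nat_lit 0),Row.mk (nat_lit 20160) (nat_lit 10285) (nat_lit 87183107) (nat_lit 10472) (nat_lit 33692452) (nat_lit 0) (nat_lit 0),Row.mk (nat_lit 20328) (nat_lit 10285) (nat_lit 87183107) (nat_lit 10472) (nat_lit 33692452) (nat_lit 0) (nat_lit 0),Row.mk (nat_lit 20496) (nat_lit 10285) (nat_lit 87183107) (nat_lit 10472) (nat_lit 33692452) (nat_lit 0) (nat_lit 0),Row.mk (nat_lit 20664) (nat_lit 10285) (nat_lit 87183107) (nat_lit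 10472) (nat_lit 33692452) (nat_lit 0) (nat_lit 0),Row.mk (nat_lit 20832) (nat_lit 10285) (nat_lit 87183107) (nat_lit 10472) (nat_lit 33692452) (nat_lit 0) (nat_lit 0),Row.mk (nat_lit 21000) (nat_lit 10285) (nat_lit 87183107) (nat_lit 10472) (nat_lit 33692452) (nat_lit 0) (nat_lit 0),Row.mk (nat_lit 21168) (nat_lit 10285) (nat_lit 87183107) (nat_lit 10472) (nat_lit 33692452) (nat_lit 0) (nat_lit 0),Row.mk (nat_lit 21336) (nat_lit 10285) (nat_lit 87183107) (nat_lit 10472) (nat_lit 33692452) (nat_lit 0) (nat_lit 0),Row.mk (nat_lit 21504) (nat_lit 10285) (nat_lit 87183107) (nat_lit 10472) (nat_lit 33692452) (nat_lit 0) (nat_lit 0),Row.mk (nat_lit 21672) (nat_lit 10285) (nat_lit 87183107) (nat_lit 10472) (nat_lit 33692452) (nat_lit 0) (nat_lit 0),Row.mk (nat_lit 21840) (nat_lit 10285) (nat_lit 87183107) (nat_lit 10472) (nat_lit 33692452) (nat_lit 0) (nat_lit 0),Row.mk (nat_lit 22008) (nat_lit 10285) (nat_lit 87183107) (nat_lit 10472) (nat_lit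 33692452) (nat_lit 0) (nat_lit 0),Row.mk (nat_lit 22176) (nat_lit 10285) (nat_lit 87183107) (nat_lit 10472) (nat_lit 33692452) (nat_lit 0) (nat_lit 0),Row.mk (nat_lit 22344) (nat_lit 10285) (nat_lit 87183107) (nat_lit 10472) (nat_lit 33692452) (nat_lit 0) (nat_lit 0),Row.mk (nat_lit 22512) (nat_lit 10285) (nat_lit 87183107) (nat_lit 10472) (nat_lit 33692452) (nat_lit 0) (nat_lit 0),Row.mk (nat_lit 22680) (nat_lit 10285) (nat_lit 87183107) (nat_lit 10472) (nat_lit 33692452) (nat_lit 0) (nat_lit 0),Row.mk (nat_lit 22848) (nat_lit 10285) (nat_lit 87183107) (nat_lit 10472) (nat_lit 33692452) (nat_lit 0) (nat_lit 0),Row.mk (nat_lit 23016) (nat_lit 10285) (nat_lit 87183107) (nat_lit 10472) (nat_lit 33692452) (nat_lit 0) (nat_lit 0),Row.mk (nat_lit 23184) (nat_lit 10285) (nat_lit 87183107) (nat_lit 10472) (nat_lit 33692452) (nat_lit 0) (nat_lit 0),Row.mk (nat_lit 23352) (nat_lit 10285) (nat_lit 87183107) (nat_lit 10472) (nat_lit 33692452)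 (nat_lit 0) (nat_lit 0),Row.mk (nat_lit 23520) (nat_lit 10285) (nat_lit 87183107) (nat_lit 10472) (nat_lit 33692452) (nat_lit 0) (nat_lit 0),Row.mk (nat_lit 23688) (nat_lit 10285) (nat_lit 87183107) (nat_lit 10472) (nat_lit 33692452) (nat_lit 0) (nat_lit 0),Row.mk (nat_lit 23856) (nat_lit 10285) (nat_lit 87183107) (nat_lit 10472) (nat_lit 33692452) (nat_lit 0) (nat_lit 0),Row.mk (nat_lit 24024) (nat_lit 10285) (nat_lit 87183107) (nat_lit 10472) (nat_lit 33692452) (nat_lit 0) (nat_lit 0),Row.mk (nat_lit 24192) (nat_lit 10285) (nat_lit 87183107) (nat_lit 10472) (nat_lit 33692452) (nat_lit 0) (nat_lit 0),Row.mk (nat_lit 24360) (nat_lit 10285) (nat_lit 87183107) (nat_lit 10472) (nat_lit 33692452) (nat_lit 0) (nat_lit 0),Row.mk (nat_lit 24528) (nat_lit 10285) (nat_lit 87183107) (nat_lit 10472) (nat_lit 33692452) (nat_lit 0) (nat_lit 0),Row.mk (nat_lit 24696) (nat_lit 10285) (nat_lit 87183107) (nat_lit 10472) (nat_lit 33692452) (nat_lit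 0) (nat_lit 0),Row.mk (nat_lit 24864) (nat_lit 10285) (nat_lit 87183107) (nat_lit 10472) (nat_lit 33692452) (nat_lit 0) (nat_lit 0),Row.mk (nat_lit 25032) (nat_lit 10285) (nat_lit 87183107) (nat_lit 10472) (nat_lit 33692452) (nat_lit 0) (nat_lit 0),Row.mk (nat_lit 25200) (nat_lit 10285) (nat_lit 87183107) (nat_lit 10472) (nat_lit 33692452) (nat_lit 0) (nat_lit 0),Row.mk (nat_lit 25368) (nat_lit 10285) (nat_lit 87183107) (nat_lit 10472) (nat_lit 33692452) (nat_lit 0) (nat_lit 0),Row.mk (nat_lit 25536) (nat_lit 10285) (nat_lit 87183107) (nat_lit 10472) (nat_lit 33692452) (nat_lit 0) (nat_lit 0),Row.mk (nat_lit 25704) (nat_lit 10285) (nat_lit 87183107) (nat_lit 10472) (nat_lit 33692452) (nat_lit 0) (nat_lit 0),Row.mk (nat_lit 25872) (nat_lit 10285) (nat_lit 87183107) (nat_lit 10472) (nat_lit 33692452) (nat_lit 0) (nat_lit 0),Row.mk (nat_lit 26040) (nat_lit 10285) (nat_lit 87183107) (nat_lit 10472) (nat_lit 33692452) (nat_lit 0) (nat_lit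 0),Row.mk (nat_lit 26208) (nat_lit 10285) (nat_lit 87183107) (nat_lit 10472) (nat_lit 33692452) (nat_lit 0) (nat_lit 0),Row.mk (nat_lit 26376) (nat_lit 10285) (nat_lit 87183107) (nat_lit 10472) (nat_lit 33692452) (nat_lit 0) (nat_lit 0),Row.mk (nat_lit 26544) (nat_lit 10285) (nat_lit 87183107) (nat_lit 10472) (nat_lit 33692452) (nat_lit 0) (nat_lit 0),Row.mk (nat_lit 26712) (nat_lit 10285) (nat_lit 87183107) (nat_lit 10472) (nat_lit 33692452) (nat_lit 0) (nat_lit 0),Row.mk (nat_lit 26880) (nat_lit 10285) (nat_lit 87183107) (nat_lit 10472) (nat_lit 33692452) (nat_lit 0) (nat_lit 0),Row.mk (nat_lit 27048) (nat_lit 10285) (nat_lit 87183107) (nat_lit 10472) (nat_lit 33692452) (nat_lit 0) (nat_lit 0),Row.mk (nat_lit 27216) (nat_lit 10285) (nat_lit 87183107) (nat_lit 10472) (nat_lit 33692452) (nat_lit 0) (nat_lit 0),Row.mk (nat_lit 27384) (nat_lit 10285) (nat_lit 87183107) (nat_lit 10472) (nat_lit 33692452) (nat_lit 0) (nat_lit 0),Row.mk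 (nat_lit 27552) (nat_lit 10285) (nat_lit 87183107) (nat_lit 10472) (nat_lit 33692452) (nat_lit 0) (nat_lit 0)],
[Row.mk (nat_lit 12936) (nat_lit 9724) (nat_lit 117278206) (nat_lit 9911) (nat_lit 33692452) (nat_lit 0) (nat_lit 0),Row.mk (nat_lit 13104) (nat_lit 9724) (nat_lit 117278206) (nat_lit 9911) (nat_lit 33692452) (nat_lit 0) (nat_lit 0),Row.mk (nat_lit 13272) (nat_lit 9724) (nat_lit 117278206) (nat_lit 9911) (nat_lit 33692452) (nat_lit 0) (nat_lit 0),Row.mk (nat_lit 13440) (nat_lit 9724) (nat_lit 117278206) (nat_lit 9911) (nat_lit 33692452) (nat_lit 0) (nat_lit 0),Row.mk (nat_lit 13608) (nat_lit 9724) (nat_lit 117278206) (nat_lit 9911) (nat_lit 33692452) (nat_lit 0) (nat_lit 0),Row.mk (nat_lit 13776) (nat_lit 9724) (nat_lit 117278206) (nat_lit 9911) (nat_lit 33692452) (nat_lit 0) (nat_lit 0),Row.mk (nat_lit 13944) (nat_lit 9724) (nat_lit 117278206) (nat_lit 9911) (nat_lit 33692452) (nat_lit 0) (nat_lit 0),Row.mk (nat_lit 14112)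 (nat_lit 9724) (nat_lit 117278206) (nat_lit 9911) (nat_lit 33692452) (nat_lit 0) (nat_lit 0),Row.mk (nat_lit 14280) (nat_lit 9724) (nat_lit 117278206) (nat_lit 9911) (nat_lit 33692452) (nat_lit 0) (nat_lit 0),Row.mk (nat_lit 14448) (nat_lit 9724) (nat_lit 117278206) (nat_lit 9911) (nat_lit 33692452) (nat_lit 0) (nat_lit 0),Row.mk (nat_lit 14616) (nat_lit 9724) (nat_lit 117278206) (nat_lit 9911) (nat_lit 33692452) (nat_lit 0) (nat_lit 0),Row.mk (nat_lit 14784) (nat_lit 9724) (nat_lit 117278206) (nat_lit 9911) (nat_lit 33692452) (nat_lit 0) (nat_lit 0),Row.mk (nat_lit 14952) (nat_lit 9724) (nat_lit 117278206) (nat_lit 9911) (nat_lit 33692452) (nat_lit 0) (nat_lit 0),Row.mk (nat_lit 15120) (nat_lit 9724) (nat_lit 117278206) (nat_lit 9911) (nat_lit 33692452) (nat_lit 0) (nat_lit 0),Row.mk (nat_lit 15288) (nat_lit 9724) (nat_lit 117278206) (nat_lit 9911) (nat_lit 33692452) (nat_lit 0) (nat_lit 0),Row.mk (nat_lit 15456) (nat_lit 9724) (nat_lit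 117278206) (nat_lit 9911) (nat_lit 33692452) (nat_lit 0) (nat_lit 0),Row.mk (nat_lit 15624) (nat_lit 9724) (nat_lit 117278206) (nat_lit 9911) (nat_lit 33692452) (nat_lit 0) (nat_lit 0),Row.mk (nat_lit 15792) (nat_lit 9724) (nat_lit 117278206) (nat_lit 9911) (nat_lit 33692452) (nat_lit 0) (nat_lit 0),Row.mk (nat_lit 15960) (nat_lit 9724) (nat_lit 117278206) (nat_lit 9911) (nat_lit 33692452) (nat_lit 0) (nat_lit 0),Row.mk (nat_lit 16128) (nat_lit 9724) (nat_lit 117278206) (nat_lit 9911) (nat_lit 33692452) (nat_lit 0) (nat_lit 0),Row.mk (nat_lit 16296) (nat_lit 9724) (nat_lit 117278206) (nat_lit 9911) (nat_lit 33692452) (nat_lit 0) (nat_lit 0),Row.mk (nat_lit 16464) (nat_lit 9724) (nat_lit 117278206) (nat_lit 9911) (nat_lit 33692452) (nat_lit 0) (nat_lit 0),Row.mk (nat_lit 16632) (nat_lit 9724) (nat_lit 117278206) (nat_lit 9911) (nat_lit 33692452) (nat_lit 0) (nat_lit 0),Row.mk (nat_lit 16800) (nat_lit 9724) (nat_lit 117278206) (nat_lit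 9911) (nat_lit 33692452) (nat_lit 0) (nat_lit 0),Row.mk (nat_lit 16968) (nat_lit 9724) (nat_lit 117278206) (nat_lit 9911) (nat_lit 33692452) (nat_lit 0) (nat_lit 0),Row.mk (nat_lit 17136) (nat_lit 9724) (nat_lit 117278206) (nat_lit 9911) (nat_lit 33692452) (nat_lit 0) (nat_lit 0),Row.mk (nat_lit 17304) (nat_lit 9724) (nat_lit 117278206) (nat_lit 9911) (nat_lit 33692452) (nat_lit 0) (nat_lit 0),Row.mk (nat_lit 17472) (nat_lit 9724) (nat_lit 117278206) (nat_lit 9911) (nat_lit 33692452) (nat_lit 0) (nat_lit 0),Row.mk (nat_lit 17640) (nat_lit 9724) (nat_lit 117278206) (nat_lit 9911) (nat_lit 33692452) (nat_lit 0) (nat_lit 0),Row.mk (nat_lit 17808) (nat_lit 9724) (nat_lit 117278206) (nat_lit 9911) (nat_lit 33692452) (nat_lit 0) (nat_lit 0),Row.mk (nat_lit 17976) (nat_lit 9724) (nat_lit 117278206) (nat_lit 9911) (nat_lit 33692452) (nat_lit 0) (nat_lit 0),Row.mk (nat_lit 18144) (nat_lit 9724) (nat_lit 117278206) (nat_lit 9911) (nat_lit 33692452)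 (nat_lit 0) (nat_lit 0),Row.mk (nat_lit 18312) (nat_lit 9724) (nat_lit 117278206) (nat_lit 9911) (nat_lit 33692452) (nat_lit 0) (nat_lit 0),Row.mk (nat_lit 18480) (nat_lit 9724) (nat_lit 117278206) (nat_lit 9911) (nat_lit 33692452) (nat_lit 0) (nat_lit 0),Row.mk (nat_lit 18648) (nat_lit 9724) (nat_lit 117278206) (nat_lit 9911) (nat_lit 33692452) (nat_lit 0) (nat_lit 0),Row.mk (nat_lit 18816) (nat_lit 9724) (nat_lit 117278206) (nat_lit 9911) (nat_lit 33692452) (nat_lit 0) (nat_lit 0),Row.mk (nat_lit 18984) (nat_lit 9724) (nat_lit 117278206) (nat_lit 9911) (nat_lit 33692452) (nat_lit 0) (nat_lit 0),Row.mk (nat_lit 19152) (nat_lit 9724) (nat_lit 117278206) (nat_lit 9911) (nat_lit 33692452) (nat_lit 0) (nat_lit 0),Row.mk (nat_lit 19320) (nat_lit 9724) (nat_lit 117278206) (nat_lit 9911) (nat_lit 33692452) (nat_lit 0) (nat_lit 0),Row.mk (nat_lit 19488) (nat_lit 9724) (nat_lit 117278206) (nat_lit 9911) (nat_lit 33692452) (nat_lit 0) (nat_lit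 0),Row.mk (nat_lit 19656) (nat_lit 9724) (nat_lit 117278206) (nat_lit 9911) (nat_lit 33692452) (nat_lit 0) (nat_lit 0),Row.mk (nat_lit 19824) (nat_lit 9724) (nat_lit 117278206) (nat_lit 9911) (nat_lit 33692452) (nat_lit 0) (nat_lit 0),Row.mk (nat_lit 19992) (nat_lit 9724) (nat_lit 117278206) (nat_lit 9911) (nat_lit 33692452) (nat_lit 0) (nat_lit 0),Row.mk (nat_lit 20160) (nat_lit 9724) (nat_lit 117278206) (nat_lit 9911) (nat_lit 33692452) (nat_lit 0) (nat_lit 0),Row.mk (nat_lit 20328) (nat_lit 9724) (nat_lit 117278206) (nat_lit 9911) (nat_lit 33692452) (nat_lit 0) (nat_lit 0),Row.mk (nat_lit 20496) (nat_lit 9724) (nat_lit 117278206) (nat_lit 9911) (nat_lit 33692452) (nat_lit 0) (nat_lit 0),Row.mk (nat_lit 20664) (nat_lit 9724) (nat_lit 117278206) (nat_lit 9911) (nat_lit 33692452) (nat_lit 0) (nat_lit 0),Row.mk (nat_lit 20832) (nat_lit 9724) (nat_lit 117278206) (nat_lit 9911) (nat_lit 33692452) (nat_lit 0) (nat_lit 0),Row.mk (nat_lit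 21000) (nat_lit 9724) (nat_lit 117278206) (nat_lit 9911) (nat_lit 33692452) (nat_lit 0) (nat_lit 0),Row.mk (nat_lit 21168) (nat_lit 9724) (nat_lit 117278206) (nat_lit 9911) (nat_lit 33692452) (nat_lit 0) (nat_lit 0),Row.mk (nat_lit 21336) (nat_lit 9724) (nat_lit 117278206) (nat_lit 9911) (nat_lit 33692452) (nat_lit 0) (nat_lit 0),Row.mk (nat_lit 21504) (nat_lit 9724) (nat_lit 117278206) (nat_lit 9911) (nat_lit 33692452) (nat_lit 0) (nat_lit 0),Row.mk (nat_lit 21672) (nat_lit 9724) (nat_lit 117278206) (nat_lit 9911) (nat_lit 33692452) (nat_lit 0) (nat_lit 0),Row.mk (nat_lit 21840) (nat_lit 9724) (nat_lit 117278206) (nat_lit 9911) (nat_lit 33692452) (nat_lit 0) (nat_lit 0),Row.mk (nat_lit 22008) (nat_lit 9724) (nat_lit 117278206) (nat_lit 9911) (nat_lit 33692452) (nat_lit 0) (nat_lit 0),Row.mk (nat_lit 22176) (nat_lit 9724) (nat_lit 117278206) (nat_lit 9911) (nat_lit 33692452) (nat_lit 0) (nat_lit 0),Row.mk (nat_lit 22344) (nat_lit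 9724) (nat_lit 117278206) (nat_lit 9911) (nat_lit 33692452) (nat_lit 0) (nat_lit 0),Row.mk (nat_lit 22512) (nat_lit 9724) (nat_lit 117278206) (nat_lit 9911) (nat_lit 33692452) (nat_lit 0) (nat_lit 0),Row.mk (nat_lit 22680) (nat_lit 9724) (nat_lit 117278206) (nat_lit 9911) (nat_lit 33692452) (nat_lit 0) (nat_lit 0),Row.mk (nat_lit 22848) (nat_lit 9724) (nat_lit 117278206) (nat_lit 9911) (nat_lit 33692452) (nat_lit 0) (nat_lit 0),Row.mk (nat_lit 23016) (nat_lit 9724) (nat_lit 117278206) (nat_lit 9911) (nat_lit 33692452) (nat_lit 0) (nat_lit 0),Row.mk (nat_lit 23184) (nat_lit 9724) (nat_lit 117278206) (nat_lit 9911) (nat_lit 33692452) (nat_lit 0) (nat_lit 0),Row.mk (nat_lit 23352) (nat_lit 9724) (nat_lit 117278206) (nat_lit 9911) (nat_lit 33692452) (nat_lit 0) (nat_lit 0),Row.mk (nat_lit 23520) (nat_lit 9724) (nat_lit 117278206) (nat_lit 9911) (nat_lit 33692452) (nat_lit 0) (nat_lit 0),Row.mk (nat_lit 23688) (nat_lit 9724) (nat_lit 117278206)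 (nat_lit 9911) (nat_lit 33692452) (nat_lit 0) (nat_lit 0),Row.mk (nat_lit 23856) (nat_lit 9724) (nat_lit 117278206) (nat_lit 9911) (nat_lit 33692452) (nat_lit 0) (nat_lit 0),Row.mk (nat_lit 24024) (nat_lit 9724) (nat_lit 117278206) (nat_lit 9911) (nat_lit 33692452) (nat_lit 0) (nat_lit 0),Row.mk (nat_lit 24192) (nat_lit 9724) (nat_lit 117278206) (nat_lit 9911) (nat_lit 33692452) (nat_lit 0) (nat_lit 0),Row.mk (nat_lit 24360) (nat_lit 9724) (nat_lit 117278206) (nat_lit 9911) (nat_lit 33692452) (nat_lit 0) (nat_lit 0),Row.mk (nat_lit 24528) (nat_lit 9724) (nat_lit 117278206) (nat_lit 9911) (nat_lit 33692452) (nat_lit 0) (nat_lit 0),Row.mk (nat_lit 24696) (nat_lit 9724) (nat_lit 117278206) (nat_lit 9911) (nat_lit 33692452) (nat_lit 0) (nat_lit 0),Row.mk (nat_lit 24864) (nat_lit 9724) (nat_lit 117278206) (nat_lit 9911) (nat_lit 33692452) (nat_lit 0) (nat_lit 0),Row.mk (nat_lit 25032) (nat_lit 9724) (nat_lit 117278206) (nat_lit 9911) (nat_lit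 33692452) (nat_lit 0) (nat_lit 0),Row.mk (nat_lit 25200) (nat_lit 9724) (nat_lit 117278206) (nat_lit 9911) (nat_lit 33692452) (nat_lit 0) (nat_lit 0),Row.mk (nat_lit 25368) (nat_lit 9724) (nat_lit 117278206) (nat_lit 9911) (nat_lit 33692452) (nat_lit 0) (nat_lit 0),Row.mk (nat_lit 25536) (nat_lit 9724) (nat_lit 117278206) (nat_lit 9911) (nat_lit 33692452) (nat_lit 0) (nat_lit 0),Row.mk (nat_lit 25704) (nat_lit 9724) (nat_lit 117278206) (nat_lit 9911) (nat_lit 33692452) (nat_lit 0) (nat_lit 0),Row.mk (nat_lit 25872) (nat_lit 9724) (nat_lit 117278206) (nat_lit 9911) (nat_lit 33692452) (nat_lit 0) (nat_lit 0),Row.mk (nat_lit 26040) (nat_lit 9724) (nat_lit 117278206) (nat_lit 9911) (nat_lit 33692452) (nat_lit 0) (nat_lit 0),Row.mk (nat_lit 26208) (nat_lit 9724) (nat_lit 117278206) (nat_lit 9911) (nat_lit 33692452) (nat_lit 0) (nat_lit 0),Row.mk (nat_lit 26376) (nat_lit 9724) (nat_lit 117278206) (nat_lit 9911) (nat_lit 33692452) (nat_lit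 0) (nat_lit 0),Row.mk (nat_lit 26544) (nat_lit 9724) (nat_lit 117278206) (nat_lit 9911) (nat_lit 33692452) (nat_lit 0) (nat_lit 0),Row.mk (nat_lit 26712) (nat_lit 9724) (nat_lit 117278206) (nat_lit 9911) (nat_lit 33692452) (nat_lit 0) (nat_lit 0),Row.mk (nat_lit 26880) (nat_lit 9724) (nat_lit 117278206) (nat_lit 9911) (nat_lit 33692452) (nat_lit 0) (nat_lit 0),Row.mk (nat_lit 27048) (nat_lit 9724) (nat_lit 117278206) (nat_lit 9911) (nat_lit 33692452) (nat_lit 0) (nat_lit 0),Row.mk (nat_lit 27216) (nat_lit 9724) (nat_lit 117278206) (nat_lit 9911) (nat_lit 33692452) (nat_lit 0) (nat_lit 0),Row.mk (nat_lit 27384) (nat_lit 9724) (nat_lit 117278206) (nat_lit 9911) (nat_lit 33692452) (nat_lit 0) (nat_lit 0),Row.mk (nat_lit 27552) (nat_lit 9724) (nat_lit 117278206) (nat_lit 9911) (nat_lit 33692452) (nat_lit 0) (nat_lit 0),Row.mk (nat_lit 27720) (nat_lit 9724) (nat_lit 117278206) (nat_lit 9911) (nat_lit 33692452) (nat_lit 0) (nat_lit 0)],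
[Row.mk (nat_lit 13104) (nat_lit 9163) (nat_lit 154866258) (nat_lit 9350) (nat_lit 33692452) (nat_lit 0) (nat_lit 0),Row.mk (nat_lit 13272) (nat_lit 9163) (nat_lit 154866258) (nat_lit 9350) (nat_lit 33692452) (nat_lit 0) (nat_lit 0),Row.mk (nat_lit 13440) (nat_lit 9163) (nat_lit 154866258) (nat_lit 9350) (nat_lit 33692452) (nat_lit 0) (nat_lit 0),Row.mk (nat_lit 13608) (nat_lit 9163) (nat_lit 154866258) (nat_lit 9350) (nat_lit 33692452) (nat_lit 0) (nat_lit 0),Row.mk (nat_lit 13776) (nat_lit 9163) (nat_lit 154866258) (nat_lit 9350) (nat_lit 33692452) (nat_lit 0) (nat_lit 0),Row.mk (nat_lit 13944) (nat_lit 9163) (nat_lit 154866258) (nat_lit 9350) (nat_lit 33692452) (nat_lit 0) (nat_lit 0),Row.mk (nat_lit 14112) (nat_lit 9163) (nat_lit 154866258) (nat_lit 9350) (nat_lit 33692452) (nat_lit 0) (nat_lit 0),Row.mk (nat_lit 14280) (nat_lit 9163) (nat_lit 154866258) (nat_lit 9350) (nat_lit 33692452) (nat_lit 0) (nat_lit 0),Row.mk (nat_lit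 14448) (nat_lit 9163) (nat_lit 154866258) (nat_lit 9350) (nat_lit 33692452) (nat_lit 0) (nat_lit 0),Row.mk (nat_lit 14616) (nat_lit 9163) (nat_lit 154866258) (nat_lit 9350) (nat_lit 33692452) (nat_lit 0) (nat_lit 0),Row.mk (nat_lit 14784) (nat_lit 9163) (nat_lit 154866258) (nat_lit 9350) (nat_lit 33692452) (nat_lit 0) (nat_lit 0),Row.mk (nat_lit 14952) (nat_lit 9163) (nat_lit 154866258) (nat_lit 9350) (nat_lit 33692452) (nat_lit 0) (nat_lit 0),Row.mk (nat_lit 15120) (nat_lit 9163) (nat_lit 154866258) (nat_lit 9350) (nat_lit 33692452) (nat_lit 0) (nat_lit 0),Row.mk (nat_lit 15288) (nat_lit 9163) (nat_lit 154866258) (nat_lit 9350) (nat_lit 33692452) (nat_lit 0) (nat_lit 0),Row.mk (nat_lit 15456) (nat_lit 9163) (nat_lit 154866258) (nat_lit 9350) (nat_lit 33692452) (nat_lit 0) (nat_lit 0),Row.mk (nat_lit 15624) (nat_lit 9163) (nat_lit 154866258) (nat_lit 9350) (nat_lit 33692452) (nat_lit 0) (nat_lit 0),Row.mk (nat_lit 15792) (nat_lit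 9163) (nat_lit 154866258) (nat_lit 9350) (nat_lit 33692452) (nat_lit 0) (nat_lit 0),Row.mk (nat_lit 15960) (nat_lit 9163) (nat_lit 154866258) (nat_lit 9350) (nat_lit 33692452) (nat_lit 0) (nat_lit 0),Row.mk (nat_lit 16128) (nat_lit 9163) (nat_lit 154866258) (nat_lit 9350) (nat_lit 33692452) (nat_lit 0) (nat_lit 0),Row.mk (nat_lit 16296) (nat_lit 9163) (nat_lit 154866258) (nat_lit 9350) (nat_lit 33692452) (nat_lit 0) (nat_lit 0),Row.mk (nat_lit 16464) (nat_lit 9163) (nat_lit 154866258) (nat_lit 9350) (nat_lit 33692452) (nat_lit 0) (nat_lit 0),Row.mk (nat_lit 16632) (nat_lit 9163) (nat_lit 154866258) (nat_lit 9350) (nat_lit 33692452) (nat_lit 0) (nat_lit 0),Row.mk (nat_lit 16800) (nat_lit 9163) (nat_lit 154866258) (nat_lit 9350) (nat_lit 33692452) (nat_lit 0) (nat_lit 0),Row.mk (nat_lit 16968) (nat_lit 9163) (nat_lit 154866258) (nat_lit 9350) (nat_lit 33692452) (nat_lit 0) (nat_lit 0),Row.mk (nat_lit 17136) (nat_lit 9163) (nat_lit 154866258)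 (nat_lit 9350) (nat_lit 33692452) (nat_lit 0) (nat_lit 0),Row.mk (nat_lit 17304) (nat_lit 9163) (nat_lit 154866258) (nat_lit 9350) (nat_lit 33692452) (nat_lit 0) (nat_lit 0),Row.mk (nat_lit 17472) (nat_lit 9163) (nat_lit 154866258) (nat_lit 9350) (nat_lit 33692452) (nat_lit 0) (nat_lit 0),Row.mk (nat_lit 17640) (nat_lit 9163) (nat_lit 154866258) (nat_lit 9350) (nat_lit 33692452) (nat_lit 0) (nat_lit 0),Row.mk (nat_lit 17808) (nat_lit 9163) (nat_lit 154866258) (nat_lit 9350) (nat_lit 33692452) (nat_lit 0) (nat_lit 0),Row.mk (nat_lit 17976) (nat_lit 9163) (nat_lit 154866258) (nat_lit 9350) (nat_lit 33692452) (nat_lit 0) (nat_lit 0),Row.mk (nat_lit 18144) (nat_lit 9163) (nat_lit 154866258) (nat_lit 9350) (nat_lit 33692452) (nat_lit 0) (nat_lit 0),Row.mk (nat_lit 18312) (nat_lit 9163) (nat_lit 154866258) (nat_lit 9350) (nat_lit 33692452) (nat_lit 0) (nat_lit 0),Row.mk (nat_lit 18480) (nat_lit 9163) (nat_lit 154866258) (nat_lit 9350) (nat_lit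 33692452) (nat_lit 0) (nat_lit 0),Row.mk (nat_lit 18648) (nat_lit 9163) (nat_lit 154866258) (nat_lit 9350) (nat_lit 33692452) (nat_lit 0) (nat_lit 0),Row.mk (nat_lit 18816) (nat_lit 9163) (nat_lit 154866258) (nat_lit 9350) (nat_lit 33692452) (nat_lit 0) (nat_lit 0),Row.mk (nat_lit 18984) (nat_lit 9163) (nat_lit 154866258) (nat_lit 9350) (nat_lit 33692452) (nat_lit 0) (nat_lit 0),Row.mk (nat_lit 19152) (nat_lit 9163) (nat_lit 154866258) (nat_lit 9350) (nat_lit 33692452) (nat_lit 0) (nat_lit 0),Row.mk (nat_lit 19320) (nat_lit 9163) (nat_lit 154866258) (nat_lit 9350) (nat_lit 33692452) (nat_lit 0) (nat_lit 0),Row.mk (nat_lit 19488) (nat_lit 9163) (nat_lit 154866258) (nat_lit 9350) (nat_lit 33692452) (nat_lit 0) (nat_lit 0),Row.mk (nat_lit 19656) (nat_lit 9163) (nat_lit 154866258) (nat_lit 9350) (nat_lit 33692452) (nat_lit 0) (nat_lit 0),Row.mk (nat_lit 19824) (nat_lit 9163) (nat_lit 154866258) (nat_lit 9350) (nat_lit 33692452) (nat_lit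 0) (nat_lit 0),Row.mk (nat_lit 19992) (nat_lit 9163) (nat_lit 154866258) (nat_lit 9350) (nat_lit 33692452) (nat_lit 0) (nat_lit 0),Row.mk (nat_lit 20160) (nat_lit 9163) (nat_lit 154866258) (nat_lit 9350) (nat_lit 33692452) (nat_lit 0) (nat_lit 0),Row.mk (nat_lit 20328) (nat_lit 9163) (nat_lit 154866258) (nat_lit 9350) (nat_lit 33692452) (nat_lit 0) (nat_lit 0),Row.mk (nat_lit 20496) (nat_lit 9163) (nat_lit 154866258) (nat_lit 9350) (nat_lit 33692452) (nat_lit 0) (nat_lit 0),Row.mk (nat_lit 20664) (nat_lit 9163) (nat_lit 154866258) (nat_lit 9350) (nat_lit 33692452) (nat_lit 0) (nat_lit 0),Row.mk (nat_lit 20832) (nat_lit 9163) (nat_lit 154866258) (nat_lit 9350) (nat_lit 33692452) (nat_lit 0) (nat_lit 0),Row.mk (nat_lit 21000) (nat_lit 9163) (nat_lit 154866258) (nat_lit 9350) (nat_lit 33692452) (nat_lit 0) (nat_lit 0),Row.mk (nat_lit 21168) (nat_lit 9163) (nat_lit 154866258) (nat_lit 9350) (nat_lit 33692452) (nat_lit 0) (nat_lit 0),Row.mk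 (nat_lit 21336) (nat_lit 9163) (nat_lit 154866258) (nat_lit 9350) (nat_lit 33692452) (nat_lit 0) (nat_lit 0),Row.mk (nat_lit 21504) (nat_lit 9163) (nat_lit 154866258) (nat_lit 9350) (nat_lit 33692452) (nat_lit 0) (nat_lit 0),Row.mk (nat_lit 21672) (nat_lit 9163) (nat_lit 154866258) (nat_lit 9350) (nat_lit 33692452) (nat_lit 0) (nat_lit 0),Row.mk (nat_lit 21840) (nat_lit 9163) (nat_lit 154866258) (nat_lit 9350) (nat_lit 33692452) (nat_lit 0) (nat_lit 0),Row.mk (nat_lit 22008) (nat_lit 9163) (nat_lit 154866258) (nat_lit 9350) (nat_lit 33692452) (nat_lit 0) (nat_lit 0),Row.mk (nat_lit 22176) (nat_lit 9163) (nat_lit 154866258) (nat_lit 9350) (nat_lit 33692452) (nat_lit 0) (nat_lit 0),Row.mk (nat_lit 22344) (nat_lit 9163) (nat_lit 154866258) (nat_lit 9350) (nat_lit 33692452) (nat_lit 0) (nat_lit 0),Row.mk (nat_lit 22512) (nat_lit 9163) (nat_lit 154866258) (nat_lit 9350) (nat_lit 33692452) (nat_lit 0) (nat_lit 0),Row.mk (nat_lit 22680)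 (nat_lit 9163) (nat_lit 154866258) (nat_lit 9350) (nat_lit 33692452) (nat_lit 0) (nat_lit 0),Row.mk (nat_lit 22848) (nat_lit 9163) (nat_lit 154866258) (nat_lit 9350) (nat_lit 33692452) (nat_lit 0) (nat_lit 0),Row.mk (nat_lit 23016) (nat_lit 9163) (nat_lit 154866258) (nat_lit 9350) (nat_lit 33692452) (nat_lit 0) (nat_lit 0),Row.mk (nat_lit 23184) (nat_lit 9163) (nat_lit 154866258) (nat_lit 9350) (nat_lit 33692452) (nat_lit 0) (nat_lit 0),Row.mk (nat_lit 23352) (nat_lit 9163) (nat_lit 154866258) (nat_lit 9350) (nat_lit 33692452) (nat_lit 0) (nat_lit 0),Row.mk (nat_lit 23520) (nat_lit 9163) (nat_lit 154866258) (nat_lit 9350) (nat_lit 33692452) (nat_lit 0) (nat_lit 0),Row.mk (nat_lit 23688) (nat_lit 9163) (nat_lit 154866258) (nat_lit 9350) (nat_lit 33692452) (nat_lit 0) (nat_lit 0),Row.mk (nat_lit 23856) (nat_lit 9163) (nat_lit 154866258) (nat_lit 9350) (nat_lit 33692452) (nat_lit 0) (nat_lit 0),Row.mk (nat_lit 24024) (nat_lit 9163) (nat_lit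 154866258) (nat_lit 9350) (nat_lit 33692452) (nat_lit 0) (nat_lit 0),Row.mk (nat_lit 24192) (nat_lit 9163) (nat_lit 154866258) (nat_lit 9350) (nat_lit 33692452) (nat_lit 0) (nat_lit 0),Row.mk (nat_lit 24360) (nat_lit 9163) (nat_lit 154866258) (nat_lit 9350) (nat_lit 33692452) (nat_lit 0) (nat_lit 0),Row.mk (nat_lit 24528) (nat_lit 9163) (nat_lit 154866258) (nat_lit 9350) (nat_lit 33692452) (nat_lit 0) (nat_lit 0),Row.mk (nat_lit 24696) (nat_lit 9163) (nat_lit 154866258) (nat_lit 9350) (nat_lit 33692452) (nat_lit 0) (nat_lit 0),Row.mk (nat_lit 24864) (nat_lit 9163) (nat_lit 154866258) (nat_lit 9350) (nat_lit 33692452) (nat_lit 0) (nat_lit 0),Row.mk (nat_lit 25032) (nat_lit 9163) (nat_lit 154866258) (nat_lit 9350) (nat_lit 33692452) (nat_lit 0) (nat_lit 0),Row.mk (nat_lit 25200) (nat_lit 9163) (nat_lit 154866258) (nat_lit 9350) (nat_lit 33692452) (nat_lit 0) (nat_lit 0),Row.mk (nat_lit 25368) (nat_lit 9163) (nat_lit 154866258) (nat_lit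 9350) (nat_lit 33692452) (nat_lit 0) (nat_lit 0),Row.mk (nat_lit 25536) (nat_lit 9163) (nat_lit 154866258) (nat_lit 9350) (nat_lit 33692452) (nat_lit 0) (nat_lit 0),Row.mk (nat_lit 25704) (nat_lit 9163) (nat_lit 154866258) (nat_lit 9350) (nat_lit 33692452) (nat_lit 0) (nat_lit 0),Row.mk (nat_lit 25872) (nat_lit 9163) (nat_lit 154866258) (nat_lit 9350) (nat_lit 33692452) (nat_lit 0) (nat_lit 0),Row.mk (nat_lit 26040) (nat_lit 9163) (nat_lit 154866258) (nat_lit 9350) (nat_lit 33692452) (nat_lit 0) (nat_lit 0),Row.mk (nat_lit 26208) (nat_lit 9163) (nat_lit 154866258) (nat_lit 9350) (nat_lit 33692452) (nat_lit 0) (nat_lit 0),Row.mk (nat_lit 26376) (nat_lit 9163) (nat_lit 154866258) (nat_lit 9350) (nat_lit 33692452) (nat_lit 0) (nat_lit 0),Row.mk (nat_lit 26544) (nat_lit 9163) (nat_lit 154866258) (nat_lit 9350) (nat_lit 33692452) (nat_lit 0) (nat_lit 0),Row.mk (nat_lit 26712) (nat_lit 9163) (nat_lit 154866258) (nat_lit 9350) (nat_lit 33692452)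 (nat_lit 0) (nat_lit 0),Row.mk (nat_lit 26880) (nat_lit 9163) (nat_lit 154866258) (nat_lit 9350) (nat_lit 33692452) (nat_lit 0) (nat_lit 0),Row.mk (nat_lit 27048) (nat_lit 9163) (nat_lit 154866258) (nat_lit 9350) (nat_lit 33692452) (nat_lit 0) (nat_lit 0),Row.mk (nat_lit 27216) (nat_lit 9163) (nat_lit 154866258) (nat_lit 9350) (nat_lit 33692452) (nat_lit 0) (nat_lit 0),Row.mk (nat_lit 27384) (nat_lit 9163) (nat_lit 154866258) (nat_lit 9350) (nat_lit 33692452) (nat_lit 0) (nat_lit 0),Row.mk (nat_lit 27552) (nat_lit 9163) (nat_lit 154866258) (nat_lit 9350) (nat_lit 33692452) (nat_lit 0) (nat_lit 0),Row.mk (nat_lit 27720) (nat_lit 9163) (nat_lit 154866258) (nat_lit 9350) (nat_lit 33692452) (nat_lit 0) (nat_lit 0),Row.mk (nat_lit 27888) (nat_lit 9163) (nat_lit 154866258) (nat_lit 9350) (nat_lit 33692452) (nat_lit 0) (nat_lit 0)],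
[Row.mk (nat_lit 13272) (nat_lit 8602) (nat_lit 201812828) (nat_lit 8789) (nat_lit 33692452) (nat_lit 0) (nat_lit 0),Row.mk (nat_lit 13440) (nat_lit 8602) (nat_lit 201812828) (nat_lit 8789) (nat_lit 33692452) (nat_lit 0) (nat_lit 0),Row.mk (nat_lit 13608) (nat_lit 8602) (nat_lit 201812828) (nat_lit 8789) (nat_lit 33692452) (nat_lit 0) (nat_lit 0),Row.mk (nat_lit 13776) (nat_lit 8602) (nat_lit 201812828) (nat_lit 8789) (nat_lit 33692452) (nat_lit 0) (nat_lit 0),Row.mk (nat_lit 13944) (nat_lit 8602) (nat_lit 201812828) (nat_lit 8789) (nat_lit 33692452) (nat_lit 0) (nat_lit 0),Row.mk (nat_lit 14112) (nat_lit 8602) (nat_lit 201812828) (nat_lit 8789) (nat_lit 33692452) (nat_lit 0) (nat_lit 0),Row.mk (nat_lit 14280) (nat_lit 8602) (nat_lit 201812828) (nat_lit 8789) (nat_lit 33692452) (nat_lit 0) (nat_lit 0),Row.mk (nat_lit 14448) (nat_lit 8602) (nat_lit 201812828) (nat_lit 8789) (nat_lit 33692452) (nat_lit 0) (nat_lit 0),Row.mk (nat_lit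 14616) (nat_lit 8602) (nat_lit 201812828) (nat_lit 8789) (nat_lit 33692452) (nat_lit 0) (nat_lit 0),Row.mk (nat_lit 14784) (nat_lit 8602) (nat_lit 201812828) (nat_lit 8789) (nat_lit 33692452) (nat_lit 0) (nat_lit 0),Row.mk (nat_lit 14952) (nat_lit 8602) (nat_lit 201812828) (nat_lit 8789) (nat_lit 33692452) (nat_lit 0) (nat_lit 0),Row.mk (nat_lit 15120) (nat_lit 8602) (nat_lit 201812828) (nat_lit 8789) (nat_lit 33692452) (nat_lit 0) (nat_lit 0),Row.mk (nat_lit 15288) (nat_lit 8602) (nat_lit 201812828) (nat_lit 8789) (nat_lit 33692452) (nat_lit 0) (nat_lit 0),Row.mk (nat_lit 15456) (nat_lit 8602) (nat_lit 201812828) (nat_lit 8789) (nat_lit 33692452) (nat_lit 0) (nat_lit 0),Row.mk (nat_lit 15624) (nat_lit 8602) (nat_lit 201812828) (nat_lit 8789) (nat_lit 33692452) (nat_lit 0) (nat_lit 0),Row.mk (nat_lit 15792) (nat_lit 8602) (nat_lit 201812828) (nat_lit 8789) (nat_lit 33692452) (nat_lit 0) (nat_lit 0),Row.mk (nat_lit 15960) (nat_lit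 8602) (nat_lit 201812828) (nat_lit 8789) (nat_lit 33692452) (nat_lit 0) (nat_lit 0),Row.mk (nat_lit 16128) (nat_lit 8602) (nat_lit 201812828) (nat_lit 8789) (nat_lit 33692452) (nat_lit 0) (nat_lit 0),Row.mk (nat_lit 16296) (nat_lit 8602) (nat_lit 201812828) (nat_lit 8789) (nat_lit 33692452) (nat_lit 0) (nat_lit 0),Row.mk (nat_lit 16464) (nat_lit 8602) (nat_lit 201812828) (nat_lit 8789) (nat_lit 33692452) (nat_lit 0) (nat_lit 0),Row.mk (nat_lit 16632) (nat_lit 8602) (nat_lit 201812828) (nat_lit 8789) (nat_lit 33692452) (nat_lit 0) (nat_lit 0),Row.mk (nat_lit 16800) (nat_lit 8602) (nat_lit 201812828) (nat_lit 8789) (nat_lit 33692452) (nat_lit 0) (nat_lit 0),Row.mk (nat_lit 16968) (nat_lit 8602) (nat_lit 201812828) (nat_lit 8789) (nat_lit 33692452) (nat_lit 0) (nat_lit 0),Row.mk (nat_lit 17136) (nat_lit 8602) (nat_lit 201812828) (nat_lit 8789) (nat_lit 33692452) (nat_lit 0) (nat_lit 0),Row.mk (nat_lit 17304) (nat_lit 8602) (nat_lit 201812828)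 (nat_lit 8789) (nat_lit 33692452) (nat_lit 0) (nat_lit 0),Row.mk (nat_lit 17472) (nat_lit 8602) (nat_lit 201812828) (nat_lit 8789) (nat_lit 33692452) (nat_lit 0) (nat_lit 0),Row.mk (nat_lit 17640) (nat_lit 8602) (nat_lit 201812828) (nat_lit 8789) (nat_lit 33692452) (nat_lit 0) (nat_lit 0),Row.mk (nat_lit 17808) (nat_lit 8602) (nat_lit 201812828) (nat_lit 8789) (nat_lit 33692452) (nat_lit 0) (nat_lit 0),Row.mk (nat_lit 17976) (nat_lit 8602) (nat_lit 201812828) (nat_lit 8789) (nat_lit 33692452) (nat_lit 0) (nat_lit 0),Row.mk (nat_lit 18144) (nat_lit 8602) (nat_lit 201812828) (nat_lit 8789) (nat_lit 33692452) (nat_lit 0) (nat_lit 0),Row.mk (nat_lit 18312) (nat_lit 8602) (nat_lit 201812828) (nat_lit 8789) (nat_lit 33692452) (nat_lit 0) (nat_lit 0),Row.mk (nat_lit 18480) (nat_lit 8602) (nat_lit 201812828) (nat_lit 8789) (nat_lit 33692452) (nat_lit 0) (nat_lit 0),Row.mk (nat_lit 18648) (nat_lit 8602) (nat_lit 201812828) (nat_lit 8789) (nat_lit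 33692452) (nat_lit 0) (nat_lit 0),Row.mk (nat_lit 18816) (nat_lit 8602) (nat_lit 201812828) (nat_lit 8789) (nat_lit 33692452) (nat_lit 0) (nat_lit 0),Row.mk (nat_lit 18984) (nat_lit 8602) (nat_lit 201812828) (nat_lit 8789) (nat_lit 33692452) (nat_lit 0) (nat_lit 0),Row.mk (nat_lit 19152) (nat_lit 8602) (nat_lit 201812828) (nat_lit 8789) (nat_lit 33692452) (nat_lit 0) (nat_lit 0),Row.mk (nat_lit 19320) (nat_lit 8602) (nat_lit 201812828) (nat_lit 8789) (nat_lit 33692452) (nat_lit 0) (nat_lit 0),Row.mk (nat_lit 19488) (nat_lit 8602) (nat_lit 201812828) (nat_lit 8789) (nat_lit 33692452) (nat_lit 0) (nat_lit 0),Row.mk (nat_lit 19656) (nat_lit 8602) (nat_lit 201812828) (nat_lit 8789) (nat_lit 33692452) (nat_lit 0) (nat_lit 0),Row.mk (nat_lit 19824) (nat_lit 8602) (nat_lit 201812828) (nat_lit 8789) (nat_lit 33692452) (nat_lit 0) (nat_lit 0),Row.mk (nat_lit 19992) (nat_lit 8602) (nat_lit 201812828) (nat_lit 8789) (nat_lit 33692452) (nat_lit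 0) (nat_lit 0),Row.mk (nat_lit 20160) (nat_lit 8602) (nat_lit 201812828) (nat_lit 8789) (nat_lit 33692452) (nat_lit 0) (nat_lit 0),Row.mk (nat_lit 20328) (nat_lit 8602) (nat_lit 201812828) (nat_lit 8789) (nat_lit 33692452) (nat_lit 0) (nat_lit 0),Row.mk (nat_lit 20496) (nat_lit 8602) (nat_lit 201812828) (nat_lit 8789) (nat_lit 33692452) (nat_lit 0) (nat_lit 0),Row.mk (nat_lit 20664) (nat_lit 8602) (nat_lit 201812828) (nat_lit 8789) (nat_lit 33692452) (nat_lit 0) (nat_lit 0),Row.mk (nat_lit 20832) (nat_lit 8602) (nat_lit 201812828) (nat_lit 8789) (nat_lit 33692452) (nat_lit 0) (nat_lit 0),Row.mk (nat_lit 21000) (nat_lit 8602) (nat_lit 201812828) (nat_lit 8789) (nat_lit 33692452) (nat_lit 0) (nat_lit 0),Row.mk (nat_lit 21168) (nat_lit 8602) (nat_lit 201812828) (nat_lit 8789) (nat_lit 33692452) (nat_lit 0) (nat_lit 0),Row.mk (nat_lit 21336) (nat_lit 8602) (nat_lit 201812828) (nat_lit 8789) (nat_lit 33692452) (nat_lit 0) (nat_lit 0),Row.mk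 (nat_lit 21504) (nat_lit 8602) (nat_lit 201812828) (nat_lit 8789) (nat_lit 33692452) (nat_lit 0) (nat_lit 0),Row.mk (nat_lit 21672) (nat_lit 8602) (nat_lit 201812828) (nat_lit 8789) (nat_lit 33692452) (nat_lit 0) (nat_lit 0),Row.mk (nat_lit 21840) (nat_lit 8602) (nat_lit 201812828) (nat_lit 8789) (nat_lit 33692452) (nat_lit 0) (nat_lit 0),Row.mk (nat_lit 22008) (nat_lit 8602) (nat_lit 201812828) (nat_lit 8789) (nat_lit 33692452) (nat_lit 0) (nat_lit 0),Row.mk (nat_lit 22176) (nat_lit 8602) (nat_lit 201812828) (nat_lit 8789) (nat_lit 33692452) (nat_lit 0) (nat_lit 0),Row.mk (nat_lit 22344) (nat_lit 8602) (nat_lit 201812828) (nat_lit 8789) (nat_lit 33692452) (nat_lit 0) (nat_lit 0),Row.mk (nat_lit 22512) (nat_lit 8602) (nat_lit 201812828) (nat_lit 8789) (nat_lit 33692452) (nat_lit 0) (nat_lit 0),Row.mk (nat_lit 22680) (nat_lit 8602) (nat_lit 201812828) (nat_lit 8789) (nat_lit 33692452) (nat_lit 0) (nat_lit 0),Row.mk (nat_lit 22848)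 (nat_lit 8602) (nat_lit 201812828) (nat_lit 8789) (nat_lit 33692452) (nat_lit 0) (nat_lit 0),Row.mk (nat_lit 23016) (nat_lit 8602) (nat_lit 201812828) (nat_lit 8789) (nat_lit 33692452) (nat_lit 0) (nat_lit 0),Row.mk (nat_lit 23184) (nat_lit 8602) (nat_lit 201812828) (nat_lit 8789) (nat_lit 33692452) (nat_lit 0) (nat_lit 0),Row.mk (nat_lit 23352) (nat_lit 8602) (nat_lit 201812828) (nat_lit 8789) (nat_lit 33692452) (nat_lit 0) (nat_lit 0),Row.mk (nat_lit 23520) (nat_lit 8602) (nat_lit 201812828) (nat_lit 8789) (nat_lit 33692452) (nat_lit 0) (nat_lit 0),Row.mk (nat_lit 23688) (nat_lit 8602) (nat_lit 201812828) (nat_lit 8789) (nat_lit 33692452) (nat_lit 0) (nat_lit 0),Row.mk (nat_lit 23856) (nat_lit 8602) (nat_lit 201812828) (nat_lit 8789) (nat_lit 33692452) (nat_lit 0) (nat_lit 0),Row.mk (nat_lit 24024) (nat_lit 8602) (nat_lit 201812828) (nat_lit 8789) (nat_lit 33692452) (nat_lit 0) (nat_lit 0),Row.mk (nat_lit 24192) (nat_lit 8602) (nat_lit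 201812828) (nat_lit 8789) (nat_lit 33692452) (nat_lit 0) (nat_lit 0),Row.mk (nat_lit 24360) (nat_lit 8602) (nat_lit 201812828) (nat_lit 8789) (nat_lit 33692452) (nat_lit 0) (nat_lit 0),Row.mk (nat_lit 24528) (nat_lit 8602) (nat_lit 201812828) (nat_lit 8789) (nat_lit 33692452) (nat_lit 0) (nat_lit 0),Row.mk (nat_lit 24696) (nat_lit 8602) (nat_lit 201812828) (nat_lit 8789) (nat_lit 33692452) (nat_lit 0) (nat_lit 0),Row.mk (nat_lit 24864) (nat_lit 8602) (nat_lit 201812828) (nat_lit 8789) (nat_lit 33692452) (nat_lit 0) (nat_lit 0),Row.mk (nat_lit 25032) (nat_lit 8602) (nat_lit 201812828) (nat_lit 8789) (nat_lit 33692452) (nat_lit 0) (nat_lit 0),Row.mk (nat_lit 25200) (nat_lit 8602) (nat_lit 201812828) (nat_lit 8789) (nat_lit 33692452) (nat_lit 0) (nat_lit 0),Row.mk (nat_lit 25368) (nat_lit 8602) (nat_lit 201812828) (nat_lit 8789) (nat_lit 33692452) (nat_lit 0) (nat_lit 0),Row.mk (nat_lit 25536) (nat_lit 8602) (nat_lit 201812828) (nat_lit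 8789) (nat_lit 33692452) (nat_lit 0) (nat_lit 0),Row.mk (nat_lit 25704) (nat_lit 8602) (nat_lit 201812828) (nat_lit 8789) (nat_lit 33692452) (nat_lit 0) (nat_lit 0),Row.mk (nat_lit 25872) (nat_lit 8602) (nat_lit 201812828) (nat_lit 8789) (nat_lit 33692452) (nat_lit 0) (nat_lit 0),Row.mk (nat_lit 26040) (nat_lit 8602) (nat_lit 201812828) (nat_lit 8789) (nat_lit 33692452) (nat_lit 0) (nat_lit 0),Row.mk (nat_lit 26208) (nat_lit 8602) (nat_lit 201812828) (nat_lit 8789) (nat_lit 33692452) (nat_lit 0) (nat_lit 0),Row.mk (nat_lit 26376) (nat_lit 8602) (nat_lit 201812828) (nat_lit 8789) (nat_lit 33692452) (nat_lit 0) (nat_lit 0),Row.mk (nat_lit 26544) (nat_lit 8602) (nat_lit 201812828) (nat_lit 8789) (nat_lit 33692452) (nat_lit 0) (nat_lit 0),Row.mk (nat_lit 26712) (nat_lit 8602) (nat_lit 201812828) (nat_lit 8789) (nat_lit 33692452) (nat_lit 0) (nat_lit 0),Row.mk (nat_lit 26880) (nat_lit 8602) (nat_lit 201812828) (nat_lit 8789) (nat_lit 33692452)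 (nat_lit 0) (nat_lit 0),Row.mk (nat_lit 27048) (nat_lit 8602) (nat_lit 201812828) (nat_lit 8789) (nat_lit 33692452) (nat_lit 0) (nat_lit 0),Row.mk (nat_lit 27216) (nat_lit 8602) (nat_lit 201812828) (nat_lit 8789) (nat_lit 33692452) (nat_lit 0) (nat_lit 0),Row.mk (nat_lit 27384) (nat_lit 8602) (nat_lit 201812828) (nat_lit 8789) (nat_lit 33692452) (nat_lit 0) (nat_lit 0),Row.mk (nat_lit 27552) (nat_lit 8602) (nat_lit 201812828) (nat_lit 8789) (nat_lit 33692452) (nat_lit 0) (nat_lit 0),Row.mk (nat_lit 27720) (nat_lit 8602) (nat_lit 201812828) (nat_lit 8789) (nat_lit 33692452) (nat_lit 0) (nat_lit 0),Row.mk (nat_lit 27888) (nat_lit 8602) (nat_lit 201812828) (nat_lit 8789) (nat_lit 33692452) (nat_lit 0) (nat_lit 0)],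
[Row.mk (nat_lit 13440) (nat_lit 8041) (nat_lit 260447962) (nat_lit 8228) (nat_lit 33692452) (nat_lit 0) (nat_lit 0),Row.mk (nat_lit 13608) (nat_lit 8041) (nat_lit 260447962) (nat_lit 8228) (nat_lit 33692452) (nat_lit 0) (nat_lit 0),Row.mk (nat_lit 13776) (nat_lit 8041) (nat_lit 260447962) (nat_lit 8228) (nat_lit 33692452) (nat_lit 0) (nat_lit 0),Row.mk (nat_lit 13944) (nat_lit 8041) (nat_lit 260447962) (nat_lit 8228) (nat_lit 33692452) (nat_lit 0) (nat_lit 0),Row.mk (nat_lit 14112) (nat_lit 8041) (nat_lit 260447962) (nat_lit 8228) (nat_lit 33692452) (nat_lit 0) (nat_lit 0),Row.mk (nat_lit 14280) (nat_lit 8041) (nat_lit 260447962) (nat_lit 8228) (nat_lit 33692452) (nat_lit 0) (nat_lit 0),Row.mk (nat_lit 14448) (nat_lit 8041) (nat_lit 260447962) (nat_lit 8228) (nat_lit 33692452) (nat_lit 0) (nat_lit 0),Row.mk (nat_lit 14616) (nat_lit 8041) (nat_lit 260447962) (nat_lit 8228) (nat_lit 33692452) (nat_lit 0) (nat_lit 0),Row.mk (nat_lit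 14784) (nat_lit 8041) (nat_lit 260447962) (nat_lit 8228) (nat_lit 33692452) (nat_lit 0) (nat_lit 0),Row.mk (nat_lit 14952) (nat_lit 8041) (nat_lit 260447962) (nat_lit 8228) (nat_lit 33692452) (nat_lit 0) (nat_lit 0),Row.mk (nat_lit 15120) (nat_lit 8041) (nat_lit 260447962) (nat_lit 8228) (nat_lit 33692452) (nat_lit 0) (nat_lit 0),Row.mk (nat_lit 15288) (nat_lit 8041) (nat_lit 260447962) (nat_lit 8228) (nat_lit 33692452) (nat_lit 0) (nat_lit 0),Row.mk (nat_lit 15456) (nat_lit 8041) (nat_lit 260447962) (nat_lit 8228) (nat_lit 33692452) (nat_lit 0) (nat_lit 0),Row.mk (nat_lit 15624) (nat_lit 8041) (nat_lit 260447962) (nat_lit 8228) (nat_lit 33692452) (nat_lit 0) (nat_lit 0),Row.mk (nat_lit 15792) (nat_lit 8041) (nat_lit 260447962) (nat_lit 8228) (nat_lit 33692452) (nat_lit 0) (nat_lit 0),Row.mk (nat_lit 15960) (nat_lit 8041) (nat_lit 260447962) (nat_lit 8228) (nat_lit 33692452) (nat_lit 0) (nat_lit 0),Row.mk (nat_lit 16128) (nat_lit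 8041) (nat_lit 260447962) (nat_lit 8228) (nat_lit 33692452) (nat_lit 0) (nat_lit 0),Row.mk (nat_lit 16296) (nat_lit 8041) (nat_lit 260447962) (nat_lit 8228) (nat_lit 33692452) (nat_lit 0) (nat_lit 0),Row.mk (nat_lit 16464) (nat_lit 8041) (nat_lit 260447962) (nat_lit 8228) (nat_lit 33692452) (nat_lit 0) (nat_lit 0),Row.mk (nat_lit 16632) (nat_lit 8041) (nat_lit 260447962) (nat_lit 8228) (nat_lit 33692452) (nat_lit 0) (nat_lit 0),Row.mk (nat_lit 16800) (nat_lit 8041) (nat_lit 260447962) (nat_lit 8228) (nat_lit 33692452) (nat_lit 0) (nat_lit 0),Row.mk (nat_lit 16968) (nat_lit 8041) (nat_lit 260447962) (nat_lit 8228) (nat_lit 33692452) (nat_lit 0) (nat_lit 0),Row.mk (nat_lit 17136) (nat_lit 8041) (nat_lit 260447962) (nat_lit 8228) (nat_lit 33692452) (nat_lit 0) (nat_lit 0),Row.mk (nat_lit 17304) (nat_lit 8041) (nat_lit 260447962) (nat_lit 8228) (nat_lit 33692452) (nat_lit 0) (nat_lit 0),Row.mk (nat_lit 17472) (nat_lit 8041) (nat_lit 260447962)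 (nat_lit 8228) (nat_lit 33692452) (nat_lit 0) (nat_lit 0),Row.mk (nat_lit 17640) (nat_lit 8041) (nat_lit 260447962) (nat_lit 8228) (nat_lit 33692452) (nat_lit 0) (nat_lit 0),Row.mk (nat_lit 17808) (nat_lit 8041) (nat_lit 260447962) (nat_lit 8228) (nat_lit 33692452) (nat_lit 0) (nat_lit 0),Row.mk (nat_lit 17976) (nat_lit 8041) (nat_lit 260447962) (nat_lit 8228) (nat_lit 33692452) (nat_lit 0) (nat_lit 0),Row.mk (nat_lit 18144) (nat_lit 8041) (nat_lit 260447962) (nat_lit 8228) (nat_lit 33692452) (nat_lit 0) (nat_lit 0),Row.mk (nat_lit 18312) (nat_lit 8041) (nat_lit 260447962) (nat_lit 8228) (nat_lit 33692452) (nat_lit 0) (nat_lit 0),Row.mk (nat_lit 18480) (nat_lit 8041) (nat_lit 260447962) (nat_lit 8228) (nat_lit 33692452) (nat_lit 0) (nat_lit 0),Row.mk (nat_lit 18648) (nat_lit 8041) (nat_lit 260447962) (nat_lit 8228) (nat_lit 33692452) (nat_lit 0) (nat_lit 0),Row.mk (nat_lit 18816) (nat_lit 8041) (nat_lit 260447962) (nat_lit 8228) (nat_lit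 33692452) (nat_lit 0) (nat_lit 0),Row.mk (nat_lit 18984) (nat_lit 8041) (nat_lit 260447962) (nat_lit 8228) (nat_lit 33692452) (nat_lit 0) (nat_lit 0),Row.mk (nat_lit 19152) (nat_lit 8041) (nat_lit 260447962) (nat_lit 8228) (nat_lit 33692452) (nat_lit 0) (nat_lit 0),Row.mk (nat_lit 19320) (nat_lit 8041) (nat_lit 260447962) (nat_lit 8228) (nat_lit 33692452) (nat_lit 0) (nat_lit 0),Row.mk (nat_lit 19488) (nat_lit 8041) (nat_lit 260447962) (nat_lit 8228) (nat_lit 33692452) (nat_lit 0) (nat_lit 0),Row.mk (nat_lit 19656) (nat_lit 8041) (nat_lit 260447962) (nat_lit 8228) (nat_lit 33692452) (nat_lit 0) (nat_lit 0),Row.mk (nat_lit 19824) (nat_lit 8041) (nat_lit 260447962) (nat_lit 8228) (nat_lit 33692452) (nat_lit 0) (nat_lit 0),Row.mk (nat_lit 19992) (nat_lit 8041) (nat_lit 260447962) (nat_lit 8228) (nat_lit 33692452) (nat_lit 0) (nat_lit 0),Row.mk (nat_lit 20160) (nat_lit 8041) (nat_lit 260447962) (nat_lit 8228) (nat_lit 33692452) (nat_lit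 0) (nat_lit 0),Row.mk (nat_lit 20328) (nat_lit 8041) (nat_lit 260447962) (nat_lit 8228) (nat_lit 33692452) (nat_lit 0) (nat_lit 0),Row.mk (nat_lit 20496) (nat_lit 8041) (nat_lit 260447962) (nat_lit 8228) (nat_lit 33692452) (nat_lit 0) (nat_lit 0),Row.mk (nat_lit 20664) (nat_lit 8041) (nat_lit 260447962) (nat_lit 8228) (nat_lit 33692452) (nat_lit 0) (nat_lit 0),Row.mk (nat_lit 20832) (nat_lit 8041) (nat_lit 260447962) (nat_lit 8228) (nat_lit 33692452) (nat_lit 0) (nat_lit 0),Row.mk (nat_lit 21000) (nat_lit 8041) (nat_lit 260447962) (nat_lit 8228) (nat_lit 33692452) (nat_lit 0) (nat_lit 0),Row.mk (nat_lit 21168) (nat_lit 8041) (nat_lit 260447962) (nat_lit 8228) (nat_lit 33692452) (nat_lit 0) (nat_lit 0),Row.mk (nat_lit 21336) (nat_lit 8041) (nat_lit 260447962) (nat_lit 8228) (nat_lit 33692452) (nat_lit 0) (nat_lit 0),Row.mk (nat_lit 21504) (nat_lit 8041) (nat_lit 260447962) (nat_lit 8228) (nat_lit 33692452) (nat_lit 0) (nat_lit 0),Row.mk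 (nat_lit 21672) (nat_lit 8041) (nat_lit 260447962) (nat_lit 8228) (nat_lit 33692452) (nat_lit 0) (nat_lit 0),Row.mk (nat_lit 21840) (nat_lit 8041) (nat_lit 260447962) (nat_lit 8228) (nat_lit 33692452) (nat_lit 0) (nat_lit 0),Row.mk (nat_lit 22008) (nat_lit 8041) (nat_lit 260447962) (nat_lit 8228) (nat_lit 33692452) (nat_lit 0) (nat_lit 0),Row.mk (nat_lit 22176) (nat_lit 8041) (nat_lit 260447962) (nat_lit 8228) (nat_lit 33692452) (nat_lit 0) (nat_lit 0),Row.mk (nat_lit 22344) (nat_lit 8041) (nat_lit 260447962) (nat_lit 8228) (nat_lit 33692452) (nat_lit 0) (nat_lit 0),Row.mk (nat_lit 22512) (nat_lit 8041) (nat_lit 260447962) (nat_lit 8228) (nat_lit 33692452) (nat_lit 0) (nat_lit 0),Row.mk (nat_lit 22680) (nat_lit 8041) (nat_lit 260447962) (nat_lit 8228) (nat_lit 33692452) (nat_lit 0) (nat_lit 0),Row.mk (nat_lit 22848) (nat_lit 8041) (nat_lit 260447962) (nat_lit 8228) (nat_lit 33692452) (nat_lit 0) (nat_lit 0),Row.mk (nat_lit 23016)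 (nat_lit 8041) (nat_lit 260447962) (nat_lit 8228) (nat_lit 33692452) (nat_lit 0) (nat_lit 0),Row.mk (nat_lit 23184) (nat_lit 8041) (nat_lit 260447962) (nat_lit 8228) (nat_lit 33692452) (nat_lit 0) (nat_lit 0),Row.mk (nat_lit 23352) (nat_lit 8041) (nat_lit 260447962) (nat_lit 8228) (nat_lit 33692452) (nat_lit 0) (nat_lit 0),Row.mk (nat_lit 23520) (nat_lit 8041) (nat_lit 260447962) (nat_lit 8228) (nat_lit 33692452) (nat_lit 0) (nat_lit 0),Row.mk (nat_lit 23688) (nat_lit 8041) (nat_lit 260447962) (nat_lit 8228) (nat_lit 33692452) (nat_lit 0) (nat_lit 0),Row.mk (nat_lit 23856) (nat_lit 8041) (nat_lit 260447962) (nat_lit 8228) (nat_lit 33692452) (nat_lit 0) (nat_lit 0),Row.mk (nat_lit 24024) (nat_lit 8041) (nat_lit 260447962) (nat_lit 8228) (nat_lit 33692452) (nat_lit 0) (nat_lit 0),Row.mk (nat_lit 24192) (nat_lit 8041) (nat_lit 260447962) (nat_lit 8228) (nat_lit 33692452) (nat_lit 0) (nat_lit 0),Row.mk (nat_lit 24360) (nat_lit 8041) (nat_lit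 260447962) (nat_lit 8228) (nat_lit 33692452) (nat_lit 0) (nat_lit 0),Row.mk (nat_lit 24528) (nat_lit 8041) (nat_lit 260447962) (nat_lit 8228) (nat_lit 33692452) (nat_lit 0) (nat_lit 0),Row.mk (nat_lit 24696) (nat_lit 8041) (nat_lit 260447962) (nat_lit 8228) (nat_lit 33692452) (nat_lit 0) (nat_lit 0),Row.mk (nat_lit 24864) (nat_lit 8041) (nat_lit 260447962) (nat_lit 8228) (nat_lit 33692452) (nat_lit 0) (nat_lit 0),Row.mk (nat_lit 25032) (nat_lit 8041) (nat_lit 260447962) (nat_lit 8228) (nat_lit 33692452) (nat_lit 0) (nat_lit 0),Row.mk (nat_lit 25200) (nat_lit 8041) (nat_lit 260447962) (nat_lit 8228) (nat_lit 33692452) (nat_lit 0) (nat_lit 0),Row.mk (nat_lit 25368) (nat_lit 8041) (nat_lit 260447962) (nat_lit 8228) (nat_lit 33692452) (nat_lit 0) (nat_lit 0),Row.mk (nat_lit 25536) (nat_lit 8041) (nat_lit 260447962) (nat_lit 8228) (nat_lit 33692452) (nat_lit 0) (nat_lit 0),Row.mk (nat_lit 25704) (nat_lit 8041) (nat_lit 260447962) (nat_lit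 8228) (nat_lit 33692452) (nat_lit 0) (nat_lit 0),Row.mk (nat_lit 25872) (nat_lit 8041) (nat_lit 260447962) (nat_lit 8228) (nat_lit 33692452) (nat_lit 0) (nat_lit 0),Row.mk (nat_lit 26040) (nat_lit 8041) (nat_lit 260447962) (nat_lit 8228) (nat_lit 33692452) (nat_lit 0) (nat_lit 0),Row.mk (nat_lit 26208) (nat_lit 8041) (nat_lit 260447962) (nat_lit 8228) (nat_lit 33692452) (nat_lit 0) (nat_lit 0),Row.mk (nat_lit 26376) (nat_lit 8041) (nat_lit 260447962) (nat_lit 8228) (nat_lit 33692452) (nat_lit 0) (nat_lit 0),Row.mk (nat_lit 26544) (nat_lit 8041) (nat_lit 260447962) (nat_lit 8228) (nat_lit 33692452) (nat_lit 0) (nat_lit 0),Row.mk (nat_lit 26712) (nat_lit 8041) (nat_lit 260447962) (nat_lit 8228) (nat_lit 33692452) (nat_lit 0) (nat_lit 0),Row.mk (nat_lit 26880) (nat_lit 8041) (nat_lit 260447962) (nat_lit 8228) (nat_lit 33692452) (nat_lit 0) (nat_lit 0),Row.mk (nat_lit 27048) (nat_lit 8041) (nat_lit 260447962) (nat_lit 8228) (nat_lit 33692452)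 (nat_lit 0) (nat_lit 0),Row.mk (nat_lit 27216) (nat_lit 8041) (nat_lit 260447962) (nat_lit 8228) (nat_lit 33692452) (nat_lit 0) (nat_lit 0),Row.mk (nat_lit 27384) (nat_lit 8041) (nat_lit 260447962) (nat_lit 8228) (nat_lit 33692452) (nat_lit 0) (nat_lit 0),Row.mk (nat_lit 27552) (nat_lit 8041) (nat_lit 260447962) (nat_lit 8228) (nat_lit 33692452) (nat_lit 0) (nat_lit 0),Row.mk (nat_lit 27720) (nat_lit 8041) (nat_lit 260447962) (nat_lit 8228) (nat_lit 33692452) (nat_lit 0) (nat_lit 0),Row.mk (nat_lit 27888) (nat_lit 8041) (nat_lit 260447962) (nat_lit 8228) (nat_lit 33692452) (nat_lit 0) (nat_lit 0),Row.mk (nat_lit 28056) (nat_lit 8041) (nat_lit 260447962) (nat_lit 8228) (nat_lit 33692452) (nat_lit 0) (nat_lit 0)],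
[Row.mk (nat_lit 13608) (nat_lit 7480) (nat_lit 333681830) (nat_lit 7667) (nat_lit 33692452) (nat_lit 0) (nat_lit 0),Row.mk (nat_lit 13776) (nat_lit 7480) (nat_lit 333681830) (nat_lit 7667) (nat_lit 33692452) (nat_lit 0) (nat_lit 0),Row.mk (nat_lit 13944) (nat_lit 7480) (nat_lit 333681830) (nat_lit 7667) (nat_lit 33692452) (nat_lit 0) (nat_lit 0),Row.mk (nat_lit 14112) (nat_lit 7480) (nat_lit 333681830) (nat_lit 7667) (nat_lit 33692452) (nat_lit 0) (nat_lit 0),Row.mk (nat_lit 14280) (nat_lit 7480) (nat_lit 333681830) (nat_lit 7667) (nat_lit 33692452) (nat_lit 0) (nat_lit 0),Row.mk (nat_lit 14448) (nat_lit 7480) (nat_lit 333681830) (nat_lit 7667) (nat_lit 33692452) (nat_lit 0) (nat_lit 0),Row.mk (nat_lit 14616) (nat_lit 7480) (nat_lit 333681830) (nat_lit 7667) (nat_lit 33692452) (nat_lit 0) (nat_lit 0),Row.mk (nat_lit 14784) (nat_lit 7480) (nat_lit 333681830) (nat_lit 7667) (nat_lit 33692452) (nat_lit 0) (nat_lit 0),Row.mk (nat_lit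 14952) (nat_lit 7480) (nat_lit 333681830) (nat_lit 7667) (nat_lit 33692452) (nat_lit 0) (nat_lit 0),Row.mk (nat_lit 15120) (nat_lit 7480) (nat_lit 333681830) (nat_lit 7667) (nat_lit 33692452) (nat_lit 0) (nat_lit 0),Row.mk (nat_lit 15288) (nat_lit 7480) (nat_lit 333681830) (nat_lit 7667) (nat_lit 33692452) (nat_lit 0) (nat_lit 0),Row.mk (nat_lit 15456) (nat_lit 7480) (nat_lit 333681830) (nat_lit 7667) (nat_lit 33692452) (nat_lit 0) (nat_lit 0),Row.mk (nat_lit 15624) (nat_lit 7480) (nat_lit 333681830) (nat_lit 7667) (nat_lit 33692452) (nat_lit 0) (nat_lit 0),Row.mk (nat_lit 15792) (nat_lit 7480) (nat_lit 333681830) (nat_lit 7667) (nat_lit 33692452) (nat_lit 0) (nat_lit 0),Row.mk (nat_lit 15960) (nat_lit 7480) (nat_lit 333681830) (nat_lit 7667) (nat_lit 33692452) (nat_lit 0) (nat_lit 0),Row.mk (nat_lit 16128) (nat_lit 7480) (nat_lit 333681830) (nat_lit 7667) (nat_lit 33692452) (nat_lit 0) (nat_lit 0),Row.mk (nat_lit 16296) (nat_lit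 7480) (nat_lit 333681830) (nat_lit 7667) (nat_lit 33692452) (nat_lit 0) (nat_lit 0),Row.mk (nat_lit 16464) (nat_lit 7480) (nat_lit 333681830) (nat_lit 7667) (nat_lit 33692452) (nat_lit 0) (nat_lit 0),Row.mk (nat_lit 16632) (nat_lit 7480) (nat_lit 333681830) (nat_lit 7667) (nat_lit 33692452) (nat_lit 0) (nat_lit 0),Row.mk (nat_lit 16800) (nat_lit 7480) (nat_lit 333681830) (nat_lit 7667) (nat_lit 33692452) (nat_lit 0) (nat_lit 0),Row.mk (nat_lit 16968) (nat_lit 7480) (nat_lit 333681830) (nat_lit 7667) (nat_lit 33692452) (nat_lit 0) (nat_lit 0),Row.mk (nat_lit 17136) (nat_lit 7480) (nat_lit 333681830) (nat_lit 7667) (nat_lit 33692452) (nat_lit 0) (nat_lit 0),Row.mk (nat_lit 17304) (nat_lit 7480) (nat_lit 333681830) (nat_lit 7667) (nat_lit 33692452) (nat_lit 0) (nat_lit 0),Row.mk (nat_lit 17472) (nat_lit 7480) (nat_lit 333681830) (nat_lit 7667) (nat_lit 33692452) (nat_lit 0) (nat_lit 0),Row.mk (nat_lit 17640) (nat_lit 7480) (nat_lit 333681830)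 (nat_lit 7667) (nat_lit 33692452) (nat_lit 0) (nat_lit 0),Row.mk (nat_lit 17808) (nat_lit 7480) (nat_lit 333681830) (nat_lit 7667) (nat_lit 33692452) (nat_lit 0) (nat_lit 0),Row.mk (nat_lit 17976) (nat_lit 7480) (nat_lit 333681830) (nat_lit 7667) (nat_lit 33692452) (nat_lit 0) (nat_lit 0),Row.mk (nat_lit 18144) (nat_lit 7480) (nat_lit 333681830) (nat_lit 7667) (nat_lit 33692452) (nat_lit 0) (nat_lit 0),Row.mk (nat_lit 18312) (nat_lit 7480) (nat_lit 333681830) (nat_lit 7667) (nat_lit 33692452) (nat_lit 0) (nat_lit 0),Row.mk (nat_lit 18480) (nat_lit 7480) (nat_lit 333681830) (nat_lit 7667) (nat_lit 33692452) (nat_lit 0) (nat_lit 0),Row.mk (nat_lit 18648) (nat_lit 7480) (nat_lit 333681830) (nat_lit 7667) (nat_lit 33692452) (nat_lit 0) (nat_lit 0),Row.mk (nat_lit 18816) (nat_lit 7480) (nat_lit 333681830) (nat_lit 7667) (nat_lit 33692452) (nat_lit 0) (nat_lit 0),Row.mk (nat_lit 18984) (nat_lit 7480) (nat_lit 333681830) (nat_lit 7667) (nat_lit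 33692452) (nat_lit 0) (nat_lit 0),Row.mk (nat_lit 19152) (nat_lit 7480) (nat_lit 333681830) (nat_lit 7667) (nat_lit 33692452) (nat_lit 0) (nat_lit 0),Row.mk (nat_lit 19320) (nat_lit 7480) (nat_lit 333681830) (nat_lit 7667) (nat_lit 33692452) (nat_lit 0) (nat_lit 0),Row.mk (nat_lit 19488) (nat_lit 7480) (nat_lit 333681830) (nat_lit 7667) (nat_lit 33692452) (nat_lit 0) (nat_lit 0),Row.mk (nat_lit 19656) (nat_lit 7480) (nat_lit 333681830) (nat_lit 7667) (nat_lit 33692452) (nat_lit 0) (nat_lit 0),Row.mk (nat_lit 19824) (nat_lit 7480) (nat_lit 333681830) (nat_lit 7667) (nat_lit 33692452) (nat_lit 0) (nat_lit 0),Row.mk (nat_lit 19992) (nat_lit 7480) (nat_lit 333681830) (nat_lit 7667) (nat_lit 33692452) (nat_lit 0) (nat_lit 0),Row.mk (nat_lit 20160) (nat_lit 7480) (nat_lit 333681830) (nat_lit 7667) (nat_lit 33692452) (nat_lit 0) (nat_lit 0),Row.mk (nat_lit 20328) (nat_lit 7480) (nat_lit 333681830) (nat_lit 7667) (nat_lit 33692452) (nat_lit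 0) (nat_lit 0),Row.mk (nat_lit 20496) (nat_lit 7480) (nat_lit 333681830) (nat_lit 7667) (nat_lit 33692452) (nat_lit 0) (nat_lit 0),Row.mk (nat_lit 20664) (nat_lit 7480) (nat_lit 333681830) (nat_lit 7667) (nat_lit 33692452) (nat_lit 0) (nat_lit 0),Row.mk (nat_lit 20832) (nat_lit 7480) (nat_lit 333681830) (nat_lit 7667) (nat_lit 33692452) (nat_lit 0) (nat_lit 0),Row.mk (nat_lit 21000) (nat_lit 7480) (nat_lit 333681830) (nat_lit 7667) (nat_lit 33692452) (nat_lit 0) (nat_lit 0),Row.mk (nat_lit 21168) (nat_lit 7480) (nat_lit 333681830) (nat_lit 7667) (nat_lit 33692452) (nat_lit 0) (nat_lit 0),Row.mk (nat_lit 21336) (nat_lit 7480) (nat_lit 333681830) (nat_lit 7667) (nat_lit 33692452) (nat_lit 0) (nat_lit 0),Row.mk (nat_lit 21504) (nat_lit 7480) (nat_lit 333681830) (nat_lit 7667) (nat_lit 33692452) (nat_lit 0) (nat_lit 0),Row.mk (nat_lit 21672) (nat_lit 7480) (nat_lit 333681830) (nat_lit 7667) (nat_lit 33692452) (nat_lit 0) (nat_lit 0),Row.mk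 (nat_lit 21840) (nat_lit 7480) (nat_lit 333681830) (nat_lit 7667) (nat_lit 33692452) (nat_lit 0) (nat_lit 0),Row.mk (nat_lit 22008) (nat_lit 7480) (nat_lit 333681830) (nat_lit 7667) (nat_lit 33692452) (nat_lit 0) (nat_lit 0),Row.mk (nat_lit 22176) (nat_lit 7480) (nat_lit 333681830) (nat_lit 7667) (nat_lit 33692452) (nat_lit 0) (nat_lit 0),Row.mk (nat_lit 22344) (nat_lit 7480) (nat_lit 333681830) (nat_lit 7667) (nat_lit 33692452) (nat_lit 0) (nat_lit 0),Row.mk (nat_lit 22512) (nat_lit 7480) (nat_lit 333681830) (nat_lit 7667) (nat_lit 33692452) (nat_lit 0) (nat_lit 0),Row.mk (nat_lit 22680) (nat_lit 7480) (nat_lit 333681830) (nat_lit 7667) (nat_lit 33692452) (nat_lit 0) (nat_lit 0),Row.mk (nat_lit 22848) (nat_lit 7480) (nat_lit 333681830) (nat_lit 7667) (nat_lit 33692452) (nat_lit 0) (nat_lit 0),Row.mk (nat_lit 23016) (nat_lit 7480) (nat_lit 333681830) (nat_lit 7667) (nat_lit 33692452) (nat_lit 0) (nat_lit 0),Row.mk (nat_lit 23184)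 (nat_lit 7480) (nat_lit 333681830) (nat_lit 7667) (nat_lit 33692452) (nat_lit 0) (nat_lit 0),Row.mk (nat_lit 23352) (nat_lit 7480) (nat_lit 333681830) (nat_lit 7667) (nat_lit 33692452) (nat_lit 0) (nat_lit 0),Row.mk (nat_lit 23520) (nat_lit 7480) (nat_lit 333681830) (nat_lit 7667) (nat_lit 33692452) (nat_lit 0) (nat_lit 0),Row.mk (nat_lit 23688) (nat_lit 7480) (nat_lit 333681830) (nat_lit 7667) (nat_lit 33692452) (nat_lit 0) (nat_lit 0),Row.mk (nat_lit 23856) (nat_lit 7480) (nat_lit 333681830) (nat_lit 7667) (nat_lit 33692452) (nat_lit 0) (nat_lit 0),Row.mk (nat_lit 24024) (nat_lit 7480) (nat_lit 333681830) (nat_lit 7667) (nat_lit 33692452) (nat_lit 0) (nat_lit 0),Row.mk (nat_lit 24192) (nat_lit 7480) (nat_lit 333681830) (nat_lit 7667) (nat_lit 33692452) (nat_lit 0) (nat_lit 0),Row.mk (nat_lit 24360) (nat_lit 7480) (nat_lit 333681830) (nat_lit 7667) (nat_lit 33692452) (nat_lit 0) (nat_lit 0),Row.mk (nat_lit 24528) (nat_lit 7480) (nat_lit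 333681830) (nat_lit 7667) (nat_lit 33692452) (nat_lit 0) (nat_lit 0),Row.mk (nat_lit 24696) (nat_lit 7480) (nat_lit 333681830) (nat_lit 7667) (nat_lit 33692452) (nat_lit 0) (nat_lit 0),Row.mk (nat_lit 24864) (nat_lit 7480) (nat_lit 333681830) (nat_lit 7667) (nat_lit 33692452) (nat_lit 0) (nat_lit 0),Row.mk (nat_lit 25032) (nat_lit 7480) (nat_lit 333681830) (nat_lit 7667) (nat_lit 33692452) (nat_lit 0) (nat_lit 0),Row.mk (nat_lit 25200) (nat_lit 7480) (nat_lit 333681830) (nat_lit 7667) (nat_lit 33692452) (nat_lit 0) (nat_lit 0),Row.mk (nat_lit 25368) (nat_lit 7480) (nat_lit 333681830) (nat_lit 7667) (nat_lit 33692452) (nat_lit 0) (nat_lit 0),Row.mk (nat_lit 25536) (nat_lit 7480) (nat_lit 333681830) (nat_lit 7667) (nat_lit 33692452) (nat_lit 0) (nat_lit 0),Row.mk (nat_lit 25704) (nat_lit 7480) (nat_lit 333681830) (nat_lit 7667) (nat_lit 33692452) (nat_lit 0) (nat_lit 0),Row.mk (nat_lit 25872) (nat_lit 7480) (nat_lit 333681830) (nat_lit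 7667) (nat_lit 33692452) (nat_lit 0) (nat_lit 0),Row.mk (nat_lit 26040) (nat_lit 7480) (nat_lit 333681830) (nat_lit 7667) (nat_lit 33692452) (nat_lit 0) (nat_lit 0),Row.mk (nat_lit 26208) (nat_lit 7480) (nat_lit 333681830) (nat_lit 7667) (nat_lit 33692452) (nat_lit 0) (nat_lit 0),Row.mk (nat_lit 26376) (nat_lit 7480) (nat_lit 333681830) (nat_lit 7667) (nat_lit 33692452) (nat_lit 0) (nat_lit 0),Row.mk (nat_lit 26544) (nat_lit 7480) (nat_lit 333681830) (nat_lit 7667) (nat_lit 33692452) (nat_lit 0) (nat_lit 0),Row.mk (nat_lit 26712) (nat_lit 7480) (nat_lit 333681830) (nat_lit 7667) (nat_lit 33692452) (nat_lit 0) (nat_lit 0),Row.mk (nat_lit 26880) (nat_lit 7480) (nat_lit 333681830) (nat_lit 7667) (nat_lit 33692452) (nat_lit 0) (nat_lit 0),Row.mk (nat_lit 27048) (nat_lit 7480) (nat_lit 333681830) (nat_lit 7667) (nat_lit 33692452) (nat_lit 0) (nat_lit 0),Row.mk (nat_lit 27216) (nat_lit 7480) (nat_lit 333681830) (nat_lit 7667) (nat_lit 33692452)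 (nat_lit 0) (nat_lit 0),Row.mk (nat_lit 27384) (nat_lit 7480) (nat_lit 333681830) (nat_lit 7667) (nat_lit 33692452) (nat_lit 0) (nat_lit 0),Row.mk (nat_lit 27552) (nat_lit 7480) (nat_lit 333681830) (nat_lit 7667) (nat_lit 33692452) (nat_lit 0) (nat_lit 0),Row.mk (nat_lit 27720) (nat_lit 7480) (nat_lit 333681830) (nat_lit 7667) (nat_lit 33692452) (nat_lit 0) (nat_lit 0),Row.mk (nat_lit 27888) (nat_lit 7480) (nat_lit 333681830) (nat_lit 7667) (nat_lit 33692452) (nat_lit 0) (nat_lit 0),Row.mk (nat_lit 28056) (nat_lit 7480) (nat_lit 333681830) (nat_lit 7667) (nat_lit 33692452) (nat_lit 0) (nat_lit 0),Row.mk (nat_lit 28224) (nat_lit 7480) (nat_lit 333681830) (nat_lit 7667) (nat_lit 33692452) (nat_lit 0) (nat_lit 0)],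
[Row.mk (nat_lit 13776) (nat_lit 6919) (nat_lit 425149164) (nat_lit 7106) (nat_lit 33692452) (nat_lit 0) (nat_lit 0),Row.mk (nat_lit 13944) (nat_lit 6919) (nat_lit 425149164) (nat_lit 7106) (nat_lit 33692452) (nat_lit 0) (nat_lit 0),Row.mk (nat_lit 14112) (nat_lit 6919) (nat_lit 425149164) (nat_lit 7106) (nat_lit 33692452) (nat_lit 0) (nat_lit 0),Row.mk (nat_lit 14280) (nat_lit 6919) (nat_lit 425149164) (nat_lit 7106) (nat_lit 33692452) (nat_lit 0) (nat_lit 0),Row.mk (nat_lit 14448) (nat_lit 6919) (nat_lit 425149164) (nat_lit 7106) (nat_lit 33692452) (nat_lit 0) (nat_lit 0),Row.mk (nat_lit 14616) (nat_lit 6919) (nat_lit 425149164) (nat_lit 7106) (nat_lit 33692452) (nat_lit 0) (nat_lit 0),Row.mk (nat_lit 14784) (nat_lit 6919) (nat_lit 425149164) (nat_lit 7106) (nat_lit 33692452) (nat_lit 0) (nat_lit 0),Row.mk (nat_lit 14952) (nat_lit 6919) (nat_lit 425149164) (nat_lit 7106) (nat_lit 33692452) (nat_lit 0) (nat_lit 0),Row.mk (nat_lit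 15120) (nat_lit 6919) (nat_lit 425149164) (nat_lit 7106) (nat_lit 33692452) (nat_lit 0) (nat_lit 0),Row.mk (nat_lit 15288) (nat_lit 6919) (nat_lit 425149164) (nat_lit 7106) (nat_lit 33692452) (nat_lit 0) (nat_lit 0),Row.mk (nat_lit 15456) (nat_lit 6919) (nat_lit 425149164) (nat_lit 7106) (nat_lit 33692452) (nat_lit 0) (nat_lit 0),Row.mk (nat_lit 15624) (nat_lit 6919) (nat_lit 425149164) (nat_lit 7106) (nat_lit 33692452) (nat_lit 0) (nat_lit 0),Row.mk (nat_lit 15792) (nat_lit 6919) (nat_lit 425149164) (nat_lit 7106) (nat_lit 33692452) (nat_lit 0) (nat_lit 0),Row.mk (nat_lit 15960) (nat_lit 6919) (nat_lit 425149164) (nat_lit 7106) (nat_lit 33692452) (nat_lit 0) (nat_lit 0),Row.mk (nat_lit 16128) (nat_lit 6919) (nat_lit 425149164) (nat_lit 7106) (nat_lit 33692452) (nat_lit 0) (nat_lit 0),Row.mk (nat_lit 16296) (nat_lit 6919) (nat_lit 425149164) (nat_lit 7106) (nat_lit 33692452) (nat_lit 0) (nat_lit 0),Row.mk (nat_lit 16464) (nat_lit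 6919) (nat_lit 425149164) (nat_lit 7106) (nat_lit 33692452) (nat_lit 0) (nat_lit 0),Row.mk (nat_lit 16632) (nat_lit 6919) (nat_lit 425149164) (nat_lit 7106) (nat_lit 33692452) (nat_lit 0) (nat_lit 0),Row.mk (nat_lit 16800) (nat_lit 6919) (nat_lit 425149164) (nat_lit 7106) (nat_lit 33692452) (nat_lit 0) (nat_lit 0),Row.mk (nat_lit 16968) (nat_lit 6919) (nat_lit 425149164) (nat_lit 7106) (nat_lit 33692452) (nat_lit 0) (nat_lit 0),Row.mk (nat_lit 17136) (nat_lit 6919) (nat_lit 425149164) (nat_lit 7106) (nat_lit 33692452) (nat_lit 0) (nat_lit 0),Row.mk (nat_lit 17304) (nat_lit 6919) (nat_lit 425149164) (nat_lit 7106) (nat_lit 33692452) (nat_lit 0) (nat_lit 0),Row.mk (nat_lit 17472) (nat_lit 6919) (nat_lit 425149164) (nat_lit 7106) (nat_lit 33692452) (nat_lit 0) (nat_lit 0),Row.mk (nat_lit 17640) (nat_lit 6919) (nat_lit 425149164) (nat_lit 7106) (nat_lit 33692452) (nat_lit 0) (nat_lit 0),Row.mk (nat_lit 17808) (nat_lit 6919) (nat_lit 425149164)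 (nat_lit 7106) (nat_lit 33692452) (nat_lit 0) (nat_lit 0),Row.mk (nat_lit 17976) (nat_lit 6919) (nat_lit 425149164) (nat_lit 7106) (nat_lit 33692452) (nat_lit 0) (nat_lit 0),Row.mk (nat_lit 18144) (nat_lit 6919) (nat_lit 425149164) (nat_lit 7106) (nat_lit 33692452) (nat_lit 0) (nat_lit 0),Row.mk (nat_lit 18312) (nat_lit 6919) (nat_lit 425149164) (nat_lit 7106) (nat_lit 33692452) (nat_lit 0) (nat_lit 0),Row.mk (nat_lit 18480) (nat_lit 6919) (nat_lit 425149164) (nat_lit 7106) (nat_lit 33692452) (nat_lit 0) (nat_lit 0),Row.mk (nat_lit 18648) (nat_lit 6919) (nat_lit 425149164) (nat_lit 7106) (nat_lit 33692452) (nat_lit 0) (nat_lit 0),Row.mk (nat_lit 18816) (nat_lit 6919) (nat_lit 425149164) (nat_lit 7106) (nat_lit 33692452) (nat_lit 0) (nat_lit 0),Row.mk (nat_lit 18984) (nat_lit 6919) (nat_lit 425149164) (nat_lit 7106) (nat_lit 33692452) (nat_lit 0) (nat_lit 0),Row.mk (nat_lit 19152) (nat_lit 6919) (nat_lit 425149164) (nat_lit 7106) (nat_lit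 33692452) (nat_lit 0) (nat_lit 0),Row.mk (nat_lit 19320) (nat_lit 6919) (nat_lit 425149164) (nat_lit 7106) (nat_lit 33692452) (nat_lit 0) (nat_lit 0),Row.mk (nat_lit 19488) (nat_lit 6919) (nat_lit 425149164) (nat_lit 7106) (nat_lit 33692452) (nat_lit 0) (nat_lit 0),Row.mk (nat_lit 19656) (nat_lit 6919) (nat_lit 425149164) (nat_lit 7106) (nat_lit 33692452) (nat_lit 0) (nat_lit 0),Row.mk (nat_lit 19824) (nat_lit 6919) (nat_lit 425149164) (nat_lit 7106) (nat_lit 33692452) (nat_lit 0) (nat_lit 0),Row.mk (nat_lit 19992) (nat_lit 6919) (nat_lit 425149164) (nat_lit 7106) (nat_lit 33692452) (nat_lit 0) (nat_lit 0),Row.mk (nat_lit 20160) (nat_lit 6919) (nat_lit 425149164) (nat_lit 7106) (nat_lit 33692452) (nat_lit 0) (nat_lit 0),Row.mk (nat_lit 20328) (nat_lit 6919) (nat_lit 425149164) (nat_lit 7106) (nat_lit 33692452) (nat_lit 0) (nat_lit 0),Row.mk (nat_lit 20496) (nat_lit 6919) (nat_lit 425149164) (nat_lit 7106) (nat_lit 33692452) (nat_lit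 0) (nat_lit 0),Row.mk (nat_lit 20664) (nat_lit 6919) (nat_lit 425149164) (nat_lit 7106) (nat_lit 33692452) (nat_lit 0) (nat_lit 0),Row.mk (nat_lit 20832) (nat_lit 6919) (nat_lit 425149164) (nat_lit 7106) (nat_lit 33692452) (nat_lit 0) (nat_lit 0),Row.mk (nat_lit 21000) (nat_lit 6919) (nat_lit 425149164) (nat_lit 7106) (nat_lit 33692452) (nat_lit 0) (nat_lit 0),Row.mk (nat_lit 21168) (nat_lit 6919) (nat_lit 425149164) (nat_lit 7106) (nat_lit 33692452) (nat_lit 0) (nat_lit 0),Row.mk (nat_lit 21336) (nat_lit 6919) (nat_lit 425149164) (nat_lit 7106) (nat_lit 33692452) (nat_lit 0) (nat_lit 0),Row.mk (nat_lit 21504) (nat_lit 6919) (nat_lit 425149164) (nat_lit 7106) (nat_lit 33692452) (nat_lit 0) (nat_lit 0),Row.mk (nat_lit 21672) (nat_lit 6919) (nat_lit 425149164) (nat_lit 7106) (nat_lit 33692452) (nat_lit 0) (nat_lit 0),Row.mk (nat_lit 21840) (nat_lit 6919) (nat_lit 425149164) (nat_lit 7106) (nat_lit 33692452) (nat_lit 0) (nat_lit 0),Row.mk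 (nat_lit 22008) (nat_lit 6919) (nat_lit 425149164) (nat_lit 7106) (nat_lit 33692452) (nat_lit 0) (nat_lit 0),Row.mk (nat_lit 22176) (nat_lit 6919) (nat_lit 425149164) (nat_lit 7106) (nat_lit 33692452) (nat_lit 0) (nat_lit 0),Row.mk (nat_lit 22344) (nat_lit 6919) (nat_lit 425149164) (nat_lit 7106) (nat_lit 33692452) (nat_lit 0) (nat_lit 0),Row.mk (nat_lit 22512) (nat_lit 6919) (nat_lit 425149164) (nat_lit 7106) (nat_lit 33692452) (nat_lit 0) (nat_lit 0),Row.mk (nat_lit 22680) (nat_lit 6919) (nat_lit 425149164) (nat_lit 7106) (nat_lit 33692452) (nat_lit 0) (nat_lit 0),Row.mk (nat_lit 22848) (nat_lit 6919) (nat_lit 425149164) (nat_lit 7106) (nat_lit 33692452) (nat_lit 0) (nat_lit 0),Row.mk (nat_lit 23016) (nat_lit 6919) (nat_lit 425149164) (nat_lit 7106) (nat_lit 33692452) (nat_lit 0) (nat_lit 0),Row.mk (nat_lit 23184) (nat_lit 6919) (nat_lit 425149164) (nat_lit 7106) (nat_lit 33692452) (nat_lit 0) (nat_lit 0),Row.mk (nat_lit 23352)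 (nat_lit 6919) (nat_lit 425149164) (nat_lit 7106) (nat_lit 33692452) (nat_lit 0) (nat_lit 0),Row.mk (nat_lit 23520) (nat_lit 6919) (nat_lit 425149164) (nat_lit 7106) (nat_lit 33692452) (nat_lit 0) (nat_lit 0),Row.mk (nat_lit 23688) (nat_lit 6919) (nat_lit 425149164) (nat_lit 7106) (nat_lit 33692452) (nat_lit 0) (nat_lit 0),Row.mk (nat_lit 23856) (nat_lit 6919) (nat_lit 425149164) (nat_lit 7106) (nat_lit 33692452) (nat_lit 0) (nat_lit 0),Row.mk (nat_lit 24024) (nat_lit 6919) (nat_lit 425149164) (nat_lit 7106) (nat_lit 33692452) (nat_lit 0) (nat_lit 0),Row.mk (nat_lit 24192) (nat_lit 6919) (nat_lit 425149164) (nat_lit 7106) (nat_lit 33692452) (nat_lit 0) (nat_lit 0),Row.mk (nat_lit 24360) (nat_lit 6919) (nat_lit 425149164) (nat_lit 7106) (nat_lit 33692452) (nat_lit 0) (nat_lit 0),Row.mk (nat_lit 24528) (nat_lit 6919) (nat_lit 425149164) (nat_lit 7106) (nat_lit 33692452) (nat_lit 0) (nat_lit 0),Row.mk (nat_lit 24696) (nat_lit 6919) (nat_lit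 425149164) (nat_lit 7106) (nat_lit 33692452) (nat_lit 0) (nat_lit 0),Row.mk (nat_lit 24864) (nat_lit 6919) (nat_lit 425149164) (nat_lit 7106) (nat_lit 33692452) (nat_lit 0) (nat_lit 0),Row.mk (nat_lit 25032) (nat_lit 6919) (nat_lit 425149164) (nat_lit 7106) (nat_lit 33692452) (nat_lit 0) (nat_lit 0),Row.mk (nat_lit 25200) (nat_lit 6919) (nat_lit 425149164) (nat_lit 7106) (nat_lit 33692452) (nat_lit 0) (nat_lit 0),Row.mk (nat_lit 25368) (nat_lit 6919) (nat_lit 425149164) (nat_lit 7106) (nat_lit 33692452) (nat_lit 0) (nat_lit 0),Row.mk (nat_lit 25536) (nat_lit 6919) (nat_lit 425149164) (nat_lit 7106) (nat_lit 33692452) (nat_lit 0) (nat_lit 0),Row.mk (nat_lit 25704) (nat_lit 6919) (nat_lit 425149164) (nat_lit 7106) (nat_lit 33692452) (nat_lit 0) (nat_lit 0),Row.mk (nat_lit 25872) (nat_lit 6919) (nat_lit 425149164) (nat_lit 7106) (nat_lit 33692452) (nat_lit 0) (nat_lit 0),Row.mk (nat_lit 26040) (nat_lit 6919) (nat_lit 425149164) (nat_lit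 7106) (nat_lit 33692452) (nat_lit 0) (nat_lit 0),Row.mk (nat_lit 26208) (nat_lit 6919) (nat_lit 425149164) (nat_lit 7106) (nat_lit 33692452) (nat_lit 0) (nat_lit 0),Row.mk (nat_lit 26376) (nat_lit 6919) (nat_lit 425149164) (nat_lit 7106) (nat_lit 33692452) (nat_lit 0) (nat_lit 0),Row.mk (nat_lit 26544) (nat_lit 6919) (nat_lit 425149164) (nat_lit 7106) (nat_lit 33692452) (nat_lit 0) (nat_lit 0),Row.mk (nat_lit 26712) (nat_lit 6919) (nat_lit 425149164) (nat_lit 7106) (nat_lit 33692452) (nat_lit 0) (nat_lit 0),Row.mk (nat_lit 26880) (nat_lit 6919) (nat_lit 425149164) (nat_lit 7106) (nat_lit 33692452) (nat_lit 0) (nat_lit 0),Row.mk (nat_lit 27048) (nat_lit 6919) (nat_lit 425149164) (nat_lit 7106) (nat_lit 33692452) (nat_lit 0) (nat_lit 0),Row.mk (nat_lit 27216) (nat_lit 6919) (nat_lit 425149164) (nat_lit 7106) (nat_lit 33692452) (nat_lit 0) (nat_lit 0),Row.mk (nat_lit 27384) (nat_lit 6919) (nat_lit 425149164) (nat_lit 7106) (nat_lit 33692452)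 (nat_lit 0) (nat_lit 0),Row.mk (nat_lit 27552) (nat_lit 6919) (nat_lit 425149164) (nat_lit 7106) (nat_lit 33692452) (nat_lit 0) (nat_lit 0),Row.mk (nat_lit 27720) (nat_lit 6919) (nat_lit 425149164) (nat_lit 7106) (nat_lit 33692452) (nat_lit 0) (nat_lit 0),Row.mk (nat_lit 27888) (nat_lit 6919) (nat_lit 425149164) (nat_lit 7106) (nat_lit 33692452) (nat_lit 0) (nat_lit 0),Row.mk (nat_lit 28056) (nat_lit 6919) (nat_lit 425149164) (nat_lit 7106) (nat_lit 33692452) (nat_lit 0) (nat_lit 0),Row.mk (nat_lit 28224) (nat_lit 6919) (nat_lit 425149164) (nat_lit 7106) (nat_lit 33692452) (nat_lit 0) (nat_lit 0)],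
[Row.mk (nat_lit 13944) (nat_lit 6358) (nat_lit 539389658) (nat_lit 6545) (nat_lit 33692452) (nat_lit 0) (nat_lit 0),Row.mk (nat_lit 14112) (nat_lit 6358) (nat_lit 539389658) (nat_lit 6545) (nat_lit 33692452) (nat_lit 0) (nat_lit 0),Row.mk (nat_lit 14280) (nat_lit 6358) (nat_lit 539389658) (nat_lit 6545) (nat_lit 33692452) (nat_lit 0) (nat_lit 0),Row.mk (nat_lit 14448) (nat_lit 6358) (nat_lit 539389658) (nat_lit 6545) (nat_lit 33692452) (nat_lit 0) (nat_lit 0),Row.mk (nat_lit 14616) (nat_lit 6358) (nat_lit 539389658) (nat_lit 6545) (nat_lit 33692452) (nat_lit 0) (nat_lit 0),Row.mk (nat_lit 14784) (nat_lit 6358) (nat_lit 539389658) (nat_lit 6545) (nat_lit 33692452) (nat_lit 0) (nat_lit 0),Row.mk (nat_lit 14952) (nat_lit 6358) (nat_lit 539389658) (nat_lit 6545) (nat_lit 33692452) (nat_lit 0) (nat_lit 0),Row.mk (nat_lit 15120) (nat_lit 6358) (nat_lit 539389658) (nat_lit 6545) (nat_lit 33692452) (nat_lit 0) (nat_lit 0),Row.mk (nat_lit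 15288) (nat_lit 6358) (nat_lit 539389658) (nat_lit 6545) (nat_lit 33692452) (nat_lit 0) (nat_lit 0),Row.mk (nat_lit 15456) (nat_lit 6358) (nat_lit 539389658) (nat_lit 6545) (nat_lit 33692452) (nat_lit 0) (nat_lit 0),Row.mk (nat_lit 15624) (nat_lit 6358) (nat_lit 539389658) (nat_lit 6545) (nat_lit 33692452) (nat_lit 0) (nat_lit 0),Row.mk (nat_lit 15792) (nat_lit 6358) (nat_lit 539389658) (nat_lit 6545) (nat_lit 33692452) (nat_lit 0) (nat_lit 0),Row.mk (nat_lit 15960) (nat_lit 6358) (nat_lit 539389658) (nat_lit 6545) (nat_lit 33692452) (nat_lit 0) (nat_lit 0),Row.mk (nat_lit 16128) (nat_lit 6358) (nat_lit 539389658) (nat_lit 6545) (nat_lit 33692452) (nat_lit 0) (nat_lit 0),Row.mk (nat_lit 16296) (nat_lit 6358) (nat_lit 539389658) (nat_lit 6545) (nat_lit 33692452) (nat_lit 0) (nat_lit 0),Row.mk (nat_lit 16464) (nat_lit 6358) (nat_lit 539389658) (nat_lit 6545) (nat_lit 33692452) (nat_lit 0) (nat_lit 0),Row.mk (nat_lit 16632) (nat_lit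 6358) (nat_lit 539389658) (nat_lit 6545) (nat_lit 33692452) (nat_lit 0) (nat_lit 0),Row.mk (nat_lit 16800) (nat_lit 6358) (nat_lit 539389658) (nat_lit 6545) (nat_lit 33692452) (nat_lit 0) (nat_lit 0),Row.mk (nat_lit 16968) (nat_lit 6358) (nat_lit 539389658) (nat_lit 6545) (nat_lit 33692452) (nat_lit 0) (nat_lit 0),Row.mk (nat_lit 17136) (nat_lit 6358) (nat_lit 539389658) (nat_lit 6545) (nat_lit 33692452) (nat_lit 0) (nat_lit 0),Row.mk (nat_lit 17304) (nat_lit 6358) (nat_lit 539389658) (nat_lit 6545) (nat_lit 33692452) (nat_lit 0) (nat_lit 0),Row.mk (nat_lit 17472) (nat_lit 6358) (nat_lit 539389658) (nat_lit 6545) (nat_lit 33692452) (nat_lit 0) (nat_lit 0),Row.mk (nat_lit 17640) (nat_lit 6358) (nat_lit 539389658) (nat_lit 6545) (nat_lit 33692452) (nat_lit 0) (nat_lit 0),Row.mk (nat_lit 17808) (nat_lit 6358) (nat_lit 539389658) (nat_lit 6545) (nat_lit 33692452) (nat_lit 0) (nat_lit 0),Row.mk (nat_lit 17976) (nat_lit 6358) (nat_lit 539389658)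 (nat_lit 6545) (nat_lit 33692452) (nat_lit 0) (nat_lit 0),Row.mk (nat_lit 18144) (nat_lit 6358) (nat_lit 539389658) (nat_lit 6545) (nat_lit 33692452) (nat_lit 0) (nat_lit 0),Row.mk (nat_lit 18312) (nat_lit 6358) (nat_lit 539389658) (nat_lit 6545) (nat_lit 33692452) (nat_lit 0) (nat_lit 0),Row.mk (nat_lit 18480) (nat_lit 6358) (nat_lit 539389658) (nat_lit 6545) (nat_lit 33692452) (nat_lit 0) (nat_lit 0),Row.mk (nat_lit 18648) (nat_lit 6358) (nat_lit 539389658) (nat_lit 6545) (nat_lit 33692452) (nat_lit 0) (nat_lit 0),Row.mk (nat_lit 18816) (nat_lit 6358) (nat_lit 539389658) (nat_lit 6545) (nat_lit 33692452) (nat_lit 0) (nat_lit 0),Row.mk (nat_lit 18984) (nat_lit 6358) (nat_lit 539389658) (nat_lit 6545) (nat_lit 33692452) (nat_lit 0) (nat_lit 0),Row.mk (nat_lit 19152) (nat_lit 6358) (nat_lit 539389658) (nat_lit 6545) (nat_lit 33692452) (nat_lit 0) (nat_lit 0),Row.mk (nat_lit 19320) (nat_lit 6358) (nat_lit 539389658) (nat_lit 6545) (nat_lit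 33692452) (nat_lit 0) (nat_lit 0),Row.mk (nat_lit 19488) (nat_lit 6358) (nat_lit 539389658) (nat_lit 6545) (nat_lit 33692452) (nat_lit 0) (nat_lit 0),Row.mk (nat_lit 19656) (nat_lit 6358) (nat_lit 539389658) (nat_lit 6545) (nat_lit 33692452) (nat_lit 0) (nat_lit 0),Row.mk (nat_lit 19824) (nat_lit 6358) (nat_lit 539389658) (nat_lit 6545) (nat_lit 33692452) (nat_lit 0) (nat_lit 0),Row.mk (nat_lit 19992) (nat_lit 6358) (nat_lit 539389658) (nat_lit 6545) (nat_lit 33692452) (nat_lit 0) (nat_lit 0),Row.mk (nat_lit 20160) (nat_lit 6358) (nat_lit 539389658) (nat_lit 6545) (nat_lit 33692452) (nat_lit 0) (nat_lit 0),Row.mk (nat_lit 20328) (nat_lit 6358) (nat_lit 539389658) (nat_lit 6545) (nat_lit 33692452) (nat_lit 0) (nat_lit 0),Row.mk (nat_lit 20496) (nat_lit 6358) (nat_lit 539389658) (nat_lit 6545) (nat_lit 33692452) (nat_lit 0) (nat_lit 0),Row.mk (nat_lit 20664) (nat_lit 6358) (nat_lit 539389658) (nat_lit 6545) (nat_lit 33692452) (nat_lit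 0) (nat_lit 0),Row.mk (nat_lit 20832) (nat_lit 6358) (nat_lit 539389658) (nat_lit 6545) (nat_lit 33692452) (nat_lit 0) (nat_lit 0),Row.mk (nat_lit 21000) (nat_lit 6358) (nat_lit 539389658) (nat_lit 6545) (nat_lit 33692452) (nat_lit 0) (nat_lit 0),Row.mk (nat_lit 21168) (nat_lit 6358) (nat_lit 539389658) (nat_lit 6545) (nat_lit 33692452) (nat_lit 0) (nat_lit 0),Row.mk (nat_lit 21336) (nat_lit 6358) (nat_lit 539389658) (nat_lit 6545) (nat_lit 33692452) (nat_lit 0) (nat_lit 0),Row.mk (nat_lit 21504) (nat_lit 6358) (nat_lit 539389658) (nat_lit 6545) (nat_lit 33692452) (nat_lit 0) (nat_lit 0),Row.mk (nat_lit 21672) (nat_lit 6358) (nat_lit 539389658) (nat_lit 6545) (nat_lit 33692452) (nat_lit 0) (nat_lit 0),Row.mk (nat_lit 21840) (nat_lit 6358) (nat_lit 539389658) (nat_lit 6545) (nat_lit 33692452) (nat_lit 0) (nat_lit 0),Row.mk (nat_lit 22008) (nat_lit 6358) (nat_lit 539389658) (nat_lit 6545) (nat_lit 33692452) (nat_lit 0) (nat_lit 0),Row.mk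 (nat_lit 22176) (nat_lit 6358) (nat_lit 539389658) (nat_lit 6545) (nat_lit 33692452) (nat_lit 0) (nat_lit 0),Row.mk (nat_lit 22344) (nat_lit 6358) (nat_lit 539389658) (nat_lit 6545) (nat_lit 33692452) (nat_lit 0) (nat_lit 0),Row.mk (nat_lit 22512) (nat_lit 6358) (nat_lit 539389658) (nat_lit 6545) (nat_lit 33692452) (nat_lit 0) (nat_lit 0),Row.mk (nat_lit 22680) (nat_lit 6358) (nat_lit 539389658) (nat_lit 6545) (nat_lit 33692452) (nat_lit 0) (nat_lit 0),Row.mk (nat_lit 22848) (nat_lit 6358) (nat_lit 539389658) (nat_lit 6545) (nat_lit 33692452) (nat_lit 0) (nat_lit 0),Row.mk (nat_lit 23016) (nat_lit 6358) (nat_lit 539389658) (nat_lit 6545) (nat_lit 33692452) (nat_lit 0) (nat_lit 0),Row.mk (nat_lit 23184) (nat_lit 6358) (nat_lit 539389658) (nat_lit 6545) (nat_lit 33692452) (nat_lit 0) (nat_lit 0),Row.mk (nat_lit 23352) (nat_lit 6358) (nat_lit 539389658) (nat_lit 6545) (nat_lit 33692452) (nat_lit 0) (nat_lit 0),Row.mk (nat_lit 23520)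 (nat_lit 6358) (nat_lit 539389658) (nat_lit 6545) (nat_lit 33692452) (nat_lit 0) (nat_lit 0),Row.mk (nat_lit 23688) (nat_lit 6358) (nat_lit 539389658) (nat_lit 6545) (nat_lit 33692452) (nat_lit 0) (nat_lit 0),Row.mk (nat_lit 23856) (nat_lit 6358) (nat_lit 539389658) (nat_lit 6545) (nat_lit 33692452) (nat_lit 0) (nat_lit 0),Row.mk (nat_lit 24024) (nat_lit 6358) (nat_lit 539389658) (nat_lit 6545) (nat_lit 33692452) (nat_lit 0) (nat_lit 0),Row.mk (nat_lit 24192) (nat_lit 6358) (nat_lit 539389658) (nat_lit 6545) (nat_lit 33692452) (nat_lit 0) (nat_lit 0),Row.mk (nat_lit 24360) (nat_lit 6358) (nat_lit 539389658) (nat_lit 6545) (nat_lit 33692452) (nat_lit 0) (nat_lit 0),Row.mk (nat_lit 24528) (nat_lit 6358) (nat_lit 539389658) (nat_lit 6545) (nat_lit 33692452) (nat_lit 0) (nat_lit 0),Row.mk (nat_lit 24696) (nat_lit 6358) (nat_lit 539389658) (nat_lit 6545) (nat_lit 33692452) (nat_lit 0) (nat_lit 0),Row.mk (nat_lit 24864) (nat_lit 6358) (nat_lit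 539389658) (nat_lit 6545) (nat_lit 33692452) (nat_lit 0) (nat_lit 0),Row.mk (nat_lit 25032) (nat_lit 6358) (nat_lit 539389658) (nat_lit 6545) (nat_lit 33692452) (nat_lit 0) (nat_lit 0),Row.mk (nat_lit 25200) (nat_lit 6358) (nat_lit 539389658) (nat_lit 6545) (nat_lit 33692452) (nat_lit 0) (nat_lit 0),Row.mk (nat_lit 25368) (nat_lit 6358) (nat_lit 539389658) (nat_lit 6545) (nat_lit 33692452) (nat_lit 0) (nat_lit 0),Row.mk (nat_lit 25536) (nat_lit 6358) (nat_lit 539389658) (nat_lit 6545) (nat_lit 33692452) (nat_lit 0) (nat_lit 0),Row.mk (nat_lit 25704) (nat_lit 6358) (nat_lit 539389658) (nat_lit 6545) (nat_lit 33692452) (nat_lit 0) (nat_lit 0),Row.mk (nat_lit 25872) (nat_lit 6358) (nat_lit 539389658) (nat_lit 6545) (nat_lit 33692452) (nat_lit 0) (nat_lit 0),Row.mk (nat_lit 26040) (nat_lit 6358) (nat_lit 539389658) (nat_lit 6545) (nat_lit 33692452) (nat_lit 0) (nat_lit 0),Row.mk (nat_lit 26208) (nat_lit 6358) (nat_lit 539389658) (nat_lit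 6545) (nat_lit 33692452) (nat_lit 0) (nat_lit 0),Row.mk (nat_lit 26376) (nat_lit 6358) (nat_lit 539389658) (nat_lit 6545) (nat_lit 33692452) (nat_lit 0) (nat_lit 0),Row.mk (nat_lit 26544) (nat_lit 6358) (nat_lit 539389658) (nat_lit 6545) (nat_lit 33692452) (nat_lit 0) (nat_lit 0),Row.mk (nat_lit 26712) (nat_lit 6358) (nat_lit 539389658) (nat_lit 6545) (nat_lit 33692452) (nat_lit 0) (nat_lit 0),Row.mk (nat_lit 26880) (nat_lit 6358) (nat_lit 539389658) (nat_lit 6545) (nat_lit 33692452) (nat_lit 0) (nat_lit 0),Row.mk (nat_lit 27048) (nat_lit 6358) (nat_lit 539389658) (nat_lit 6545) (nat_lit 33692452) (nat_lit 0) (nat_lit 0),Row.mk (nat_lit 27216) (nat_lit 6358) (nat_lit 539389658) (nat_lit 6545) (nat_lit 33692452) (nat_lit 0) (nat_lit 0),Row.mk (nat_lit 27384) (nat_lit 6358) (nat_lit 539389658) (nat_lit 6545) (nat_lit 33692452) (nat_lit 0) (nat_lit 0),Row.mk (nat_lit 27552) (nat_lit 6358) (nat_lit 539389658) (nat_lit 6545) (nat_lit 33692452)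 (nat_lit 0) (nat_lit 0),Row.mk (nat_lit 27720) (nat_lit 6358) (nat_lit 539389658) (nat_lit 6545) (nat_lit 33692452) (nat_lit 0) (nat_lit 0),Row.mk (nat_lit 27888) (nat_lit 6358) (nat_lit 539389658) (nat_lit 6545) (nat_lit 33692452) (nat_lit 0) (nat_lit 0),Row.mk (nat_lit 28056) (nat_lit 6358) (nat_lit 539389658) (nat_lit 6545) (nat_lit 33692452) (nat_lit 0) (nat_lit 0),Row.mk (nat_lit 28224) (nat_lit 6358) (nat_lit 539389658) (nat_lit 6545) (nat_lit 33692452) (nat_lit 0) (nat_lit 0),Row.mk (nat_lit 28392) (nat_lit 6358) (nat_lit 539389658) (nat_lit 6545) (nat_lit 33692452) (nat_lit 0) (nat_lit 0)],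
[Row.mk (nat_lit 14112) (nat_lit 5797) (nat_lit 682073279) (nat_lit 5984) (nat_lit 33692452) (nat_lit 0) (nat_lit 0),Row.mk (nat_lit 14280) (nat_lit 5797) (nat_lit 682073279) (nat_lit 5984) (nat_lit 33692452) (nat_lit 0) (nat_lit 0),Row.mk (nat_lit 14448) (nat_lit 5797) (nat_lit 682073279) (nat_lit 5984) (nat_lit 33692452) (nat_lit 0) (nat_lit 0),Row.mk (nat_lit 14616) (nat_lit 5797) (nat_lit 682073279) (nat_lit 5984) (nat_lit 33692452) (nat_lit 0) (nat_lit 0),Row.mk (nat_lit 14784) (nat_lit 5797) (nat_lit 682073279) (nat_lit 5984) (nat_lit 33692452) (nat_lit 0) (nat_lit 0),Row.mk (nat_lit 14952) (nat_lit 5797) (nat_lit 682073279) (nat_lit 5984) (nat_lit 33692452) (nat_lit 0) (nat_lit 0),Row.mk (nat_lit 15120) (nat_lit 5797) (nat_lit 682073279) (nat_lit 5984) (nat_lit 33692452) (nat_lit 0) (nat_lit 0),Row.mk (nat_lit 15288) (nat_lit 5797) (nat_lit 682073279) (nat_lit 5984) (nat_lit 33692452) (nat_lit 0) (nat_lit 0),Row.mk (nat_lit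 15456) (nat_lit 5797) (nat_lit 682073279) (nat_lit 5984) (nat_lit 33692452) (nat_lit 0) (nat_lit 0),Row.mk (nat_lit 15624) (nat_lit 5797) (nat_lit 682073279) (nat_lit 5984) (nat_lit 33692452) (nat_lit 0) (nat_lit 0),Row.mk (nat_lit 15792) (nat_lit 5797) (nat_lit 682073279) (nat_lit 5984) (nat_lit 33692452) (nat_lit 0) (nat_lit 0),Row.mk (nat_lit 15960) (nat_lit 5797) (nat_lit 682073279) (nat_lit 5984) (nat_lit 33692452) (nat_lit 0) (nat_lit 0),Row.mk (nat_lit 16128) (nat_lit 5797) (nat_lit 682073279) (nat_lit 5984) (nat_lit 33692452) (nat_lit 0) (nat_lit 0),Row.mk (nat_lit 16296) (nat_lit 5797) (nat_lit 682073279) (nat_lit 5984) (nat_lit 33692452) (nat_lit 0) (nat_lit 0),Row.mk (nat_lit 16464) (nat_lit 5797) (nat_lit 682073279) (nat_lit 5984) (nat_lit 33692452) (nat_lit 0) (nat_lit 0),Row.mk (nat_lit 16632) (nat_lit 5797) (nat_lit 682073279) (nat_lit 5984) (nat_lit 33692452) (nat_lit 0) (nat_lit 0),Row.mk (nat_lit 16800) (nat_lit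 5797) (nat_lit 682073279) (nat_lit 5984) (nat_lit 33692452) (nat_lit 0) (nat_lit 0),Row.mk (nat_lit 16968) (nat_lit 5797) (nat_lit 682073279) (nat_lit 5984) (nat_lit 33692452) (nat_lit 0) (nat_lit 0),Row.mk (nat_lit 17136) (nat_lit 5797) (nat_lit 682073279) (nat_lit 5984) (nat_lit 33692452) (nat_lit 0) (nat_lit 0),Row.mk (nat_lit 17304) (nat_lit 5797) (nat_lit 682073279) (nat_lit 5984) (nat_lit 33692452) (nat_lit 0) (nat_lit 0),Row.mk (nat_lit 17472) (nat_lit 5797) (nat_lit 682073279) (nat_lit 5984) (nat_lit 33692452) (nat_lit 0) (nat_lit 0),Row.mk (nat_lit 17640) (nat_lit 5797) (nat_lit 682073279) (nat_lit 5984) (nat_lit 33692452) (nat_lit 0) (nat_lit 0),Row.mk (nat_lit 17808) (nat_lit 5797) (nat_lit 682073279) (nat_lit 5984) (nat_lit 33692452) (nat_lit 0) (nat_lit 0),Row.mk (nat_lit 17976) (nat_lit 5797) (nat_lit 682073279) (nat_lit 5984) (nat_lit 33692452) (nat_lit 0) (nat_lit 0),Row.mk (nat_lit 18144) (nat_lit 5797) (nat_lit 682073279)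 (nat_lit 5984) (nat_lit 33692452) (nat_lit 0) (nat_lit 0),Row.mk (nat_lit 18312) (nat_lit 5797) (nat_lit 682073279) (nat_lit 5984) (nat_lit 33692452) (nat_lit 0) (nat_lit 0),Row.mk (nat_lit 18480) (nat_lit 5797) (nat_lit 682073279) (nat_lit 5984) (nat_lit 33692452) (nat_lit 0) (nat_lit 0),Row.mk (nat_lit 18648) (nat_lit 5797) (nat_lit 682073279) (nat_lit 5984) (nat_lit 33692452) (nat_lit 0) (nat_lit 0),Row.mk (nat_lit 18816) (nat_lit 5797) (nat_lit 682073279) (nat_lit 5984) (nat_lit 33692452) (nat_lit 0) (nat_lit 0),Row.mk (nat_lit 18984) (nat_lit 5797) (nat_lit 682073279) (nat_lit 5984) (nat_lit 33692452) (nat_lit 0) (nat_lit 0),Row.mk (nat_lit 19152) (nat_lit 5797) (nat_lit 682073279) (nat_lit 5984) (nat_lit 33692452) (nat_lit 0) (nat_lit 0),Row.mk (nat_lit 19320) (nat_lit 5797) (nat_lit 682073279) (nat_lit 5984) (nat_lit 33692452) (nat_lit 0) (nat_lit 0),Row.mk (nat_lit 19488) (nat_lit 5797) (nat_lit 682073279) (nat_lit 5984) (nat_lit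 33692452) (nat_lit 0) (nat_lit 0),Row.mk (nat_lit 19656) (nat_lit 5797) (nat_lit 682073279) (nat_lit 5984) (nat_lit 33692452) (nat_lit 0) (nat_lit 0),Row.mk (nat_lit 19824) (nat_lit 5797) (nat_lit 682073279) (nat_lit 5984) (nat_lit 33692452) (nat_lit 0) (nat_lit 0),Row.mk (nat_lit 19992) (nat_lit 5797) (nat_lit 682073279) (nat_lit 5984) (nat_lit 33692452) (nat_lit 0) (nat_lit 0),Row.mk (nat_lit 20160) (nat_lit 5797) (nat_lit 682073279) (nat_lit 5984) (nat_lit 33692452) (nat_lit 0) (nat_lit 0),Row.mk (nat_lit 20328) (nat_lit 5797) (nat_lit 682073279) (nat_lit 5984) (nat_lit 33692452) (nat_lit 0) (nat_lit 0),Row.mk (nat_lit 20496) (nat_lit 5797) (nat_lit 682073279) (nat_lit 5984) (nat_lit 33692452) (nat_lit 0) (nat_lit 0),Row.mk (nat_lit 20664) (nat_lit 5797) (nat_lit 682073279) (nat_lit 5984) (nat_lit 33692452) (nat_lit 0) (nat_lit 0),Row.mk (nat_lit 20832) (nat_lit 5797) (nat_lit 682073279) (nat_lit 5984) (nat_lit 33692452) (nat_lit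 0) (nat_lit 0),Row.mk (nat_lit 21000) (nat_lit 5797) (nat_lit 682073279) (nat_lit 5984) (nat_lit 33692452) (nat_lit 0) (nat_lit 0),Row.mk (nat_lit 21168) (nat_lit 5797) (nat_lit 682073279) (nat_lit 5984) (nat_lit 33692452) (nat_lit 0) (nat_lit 0),Row.mk (nat_lit 21336) (nat_lit 5797) (nat_lit 682073279) (nat_lit 5984) (nat_lit 33692452) (nat_lit 0) (nat_lit 0),Row.mk (nat_lit 21504) (nat_lit 5797) (nat_lit 682073279) (nat_lit 5984) (nat_lit 33692452) (nat_lit 0) (nat_lit 0),Row.mk (nat_lit 21672) (nat_lit 5797) (nat_lit 682073279) (nat_lit 5984) (nat_lit 33692452) (nat_lit 0) (nat_lit 0),Row.mk (nat_lit 21840) (nat_lit 5797) (nat_lit 682073279) (nat_lit 5984) (nat_lit 33692452) (nat_lit 0) (nat_lit 0),Row.mk (nat_lit 22008) (nat_lit 5797) (nat_lit 682073279) (nat_lit 5984) (nat_lit 33692452) (nat_lit 0) (nat_lit 0),Row.mk (nat_lit 22176) (nat_lit 5797) (nat_lit 682073279) (nat_lit 5984) (nat_lit 33692452) (nat_lit 0) (nat_lit 0),Row.mk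 (nat_lit 22344) (nat_lit 5797) (nat_lit 682073279) (nat_lit 5984) (nat_lit 33692452) (nat_lit 0) (nat_lit 0),Row.mk (nat_lit 22512) (nat_lit 5797) (nat_lit 682073279) (nat_lit 5984) (nat_lit 33692452) (nat_lit 0) (nat_lit 0),Row.mk (nat_lit 22680) (nat_lit 5797) (nat_lit 682073279) (nat_lit 5984) (nat_lit 33692452) (nat_lit 0) (nat_lit 0),Row.mk (nat_lit 22848) (nat_lit 5797) (nat_lit 682073279) (nat_lit 5984) (nat_lit 33692452) (nat_lit 0) (nat_lit 0),Row.mk (nat_lit 23016) (nat_lit 5797) (nat_lit 682073279) (nat_lit 5984) (nat_lit 33692452) (nat_lit 0) (nat_lit 0),Row.mk (nat_lit 23184) (nat_lit 5797) (nat_lit 682073279) (nat_lit 5984) (nat_lit 33692452) (nat_lit 0) (nat_lit 0),Row.mk (nat_lit 23352) (nat_lit 5797) (nat_lit 682073279) (nat_lit 5984) (nat_lit 33692452) (nat_lit 0) (nat_lit 0),Row.mk (nat_lit 23520) (nat_lit 5797) (nat_lit 682073279) (nat_lit 5984) (nat_lit 33692452) (nat_lit 0) (nat_lit 0),Row.mk (nat_lit 23688)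 (nat_lit 5797) (nat_lit 682073279) (nat_lit 5984) (nat_lit 33692452) (nat_lit 0) (nat_lit 0),Row.mk (nat_lit 23856) (nat_lit 5797) (nat_lit 682073279) (nat_lit 5984) (nat_lit 33692452) (nat_lit 0) (nat_lit 0),Row.mk (nat_lit 24024) (nat_lit 5797) (nat_lit 682073279) (nat_lit 5984) (nat_lit 33692452) (nat_lit 0) (nat_lit 0),Row.mk (nat_lit 24192) (nat_lit 5797) (nat_lit 682073279) (nat_lit 5984) (nat_lit 33692452) (nat_lit 0) (nat_lit 0),Row.mk (nat_lit 24360) (nat_lit 5797) (nat_lit 682073279) (nat_lit 5984) (nat_lit 33692452) (nat_lit 0) (nat_lit 0),Row.mk (nat_lit 24528) (nat_lit 5797) (nat_lit 682073279) (nat_lit 5984) (nat_lit 33692452) (nat_lit 0) (nat_lit 0),Row.mk (nat_lit 24696) (nat_lit 5797) (nat_lit 682073279) (nat_lit 5984) (nat_lit 33692452) (nat_lit 0) (nat_lit 0),Row.mk (nat_lit 24864) (nat_lit 5797) (nat_lit 682073279) (nat_lit 5984) (nat_lit 33692452) (nat_lit 0) (nat_lit 0),Row.mk (nat_lit 25032) (nat_lit 5797) (nat_lit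 682073279) (nat_lit 5984) (nat_lit 33692452) (nat_lit 0) (nat_lit 0),Row.mk (nat_lit 25200) (nat_lit 5797) (nat_lit 682073279) (nat_lit 5984) (nat_lit 33692452) (nat_lit 0) (nat_lit 0),Row.mk (nat_lit 25368) (nat_lit 5797) (nat_lit 682073279) (nat_lit 5984) (nat_lit 33692452) (nat_lit 0) (nat_lit 0),Row.mk (nat_lit 25536) (nat_lit 5797) (nat_lit 682073279) (nat_lit 5984) (nat_lit 33692452) (nat_lit 0) (nat_lit 0),Row.mk (nat_lit 25704) (nat_lit 5797) (nat_lit 682073279) (nat_lit 5984) (nat_lit 33692452) (nat_lit 0) (nat_lit 0),Row.mk (nat_lit 25872) (nat_lit 5797) (nat_lit 682073279) (nat_lit 5984) (nat_lit 33692452) (nat_lit 0) (nat_lit 0),Row.mk (nat_lit 26040) (nat_lit 5797) (nat_lit 682073279) (nat_lit 5984) (nat_lit 33692452) (nat_lit 0) (nat_lit 0),Row.mk (nat_lit 26208) (nat_lit 5797) (nat_lit 682073279) (nat_lit 5984) (nat_lit 33692452) (nat_lit 0) (nat_lit 0),Row.mk (nat_lit 26376) (nat_lit 5797) (nat_lit 682073279) (nat_lit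 5984) (nat_lit 33692452) (nat_lit 0) (nat_lit 0),Row.mk (nat_lit 26544) (nat_lit 5797) (nat_lit 682073279) (nat_lit 5984) (nat_lit 33692452) (nat_lit 0) (nat_lit 0),Row.mk (nat_lit 26712) (nat_lit 5797) (nat_lit 682073279) (nat_lit 5984) (nat_lit 33692452) (nat_lit 0) (nat_lit 0),Row.mk (nat_lit 26880) (nat_lit 5797) (nat_lit 682073279) (nat_lit 5984) (nat_lit 33692452) (nat_lit 0) (nat_lit 0),Row.mk (nat_lit 27048) (nat_lit 5797) (nat_lit 682073279) (nat_lit 5984) (nat_lit 33692452) (nat_lit 0) (nat_lit 0),Row.mk (nat_lit 27216) (nat_lit 5797) (nat_lit 682073279) (nat_lit 5984) (nat_lit 33692452) (nat_lit 0) (nat_lit 0),Row.mk (nat_lit 27384) (nat_lit 5797) (nat_lit 682073279) (nat_lit 5984) (nat_lit 33692452) (nat_lit 0) (nat_lit 0),Row.mk (nat_lit 27552) (nat_lit 5797) (nat_lit 682073279) (nat_lit 5984) (nat_lit 33692452) (nat_lit 0) (nat_lit 0),Row.mk (nat_lit 27720) (nat_lit 5797) (nat_lit 682073279) (nat_lit 5984) (nat_lit 33692452)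 (nat_lit 0) (nat_lit 0),Row.mk (nat_lit 27888) (nat_lit 5797) (nat_lit 682073279) (nat_lit 5984) (nat_lit 33692452) (nat_lit 0) (nat_lit 0),Row.mk (nat_lit 28056) (nat_lit 5797) (nat_lit 682073279) (nat_lit 5984) (nat_lit 33692452) (nat_lit 0) (nat_lit 0),Row.mk (nat_lit 28224) (nat_lit 5797) (nat_lit 682073279) (nat_lit 5984) (nat_lit 33692452) (nat_lit 0) (nat_lit 0),Row.mk (nat_lit 28392) (nat_lit 5797) (nat_lit 682073279) (nat_lit 5984) (nat_lit 33692452) (nat_lit 0) (nat_lit 0),Row.mk (nat_lit 28560) (nat_lit 5797) (nat_lit 682073279) (nat_lit 5984) (nat_lit 33692452) (nat_lit 0) (nat_lit 0)],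
[Row.mk (nat_lit 14280) (nat_lit 5236) (nat_lit 860281679) (nat_lit 5423) (nat_lit 33692452) (nat_lit 0) (nat_lit 0),Row.mk (nat_lit 14448) (nat_lit 5236) (nat_lit 860281679) (nat_lit 5423) (nat_lit 33692452) (nat_lit 0) (nat_lit 0),Row.mk (nat_lit 14616) (nat_lit 5236) (nat_lit 860281679) (nat_lit 5423) (nat_lit 33692452) (nat_lit 0) (nat_lit 0),Row.mk (nat_lit 14784) (nat_lit 5236) (nat_lit 860281679) (nat_lit 5423) (nat_lit 33692452) (nat_lit 0) (nat_lit 0),Row.mk (nat_lit 14952) (nat_lit 5236) (nat_lit 860281679) (nat_lit 5423) (nat_lit 33692452) (nat_lit 0) (nat_lit 0),Row.mk (nat_lit 15120) (nat_lit 5236) (nat_lit 860281679) (nat_lit 5423) (nat_lit 33692452) (nat_lit 0) (nat_lit 0),Row.mk (nat_lit 15288) (nat_lit 5236) (nat_lit 860281679) (nat_lit 5423) (nat_lit 33692452) (nat_lit 0) (nat_lit 0),Row.mk (nat_lit 15456) (nat_lit 5236) (nat_lit 860281679) (nat_lit 5423) (nat_lit 33692452) (nat_lit 0) (nat_lit 0),Row.mk (nat_lit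 15624) (nat_lit 5236) (nat_lit 860281679) (nat_lit 5423) (nat_lit 33692452) (nat_lit 0) (nat_lit 0),Row.mk (nat_lit 15792) (nat_lit 5236) (nat_lit 860281679) (nat_lit 5423) (nat_lit 33692452) (nat_lit 0) (nat_lit 0),Row.mk (nat_lit 15960) (nat_lit 5236) (nat_lit 860281679) (nat_lit 5423) (nat_lit 33692452) (nat_lit 0) (nat_lit 0),Row.mk (nat_lit 16128) (nat_lit 5236) (nat_lit 860281679) (nat_lit 5423) (nat_lit 33692452) (nat_lit 0) (nat_lit 0),Row.mk (nat_lit 16296) (nat_lit 5236) (nat_lit 860281679) (nat_lit 5423) (nat_lit 33692452) (nat_lit 0) (nat_lit 0),Row.mk (nat_lit 16464) (nat_lit 5236) (nat_lit 860281679) (nat_lit 5423) (nat_lit 33692452) (nat_lit 0) (nat_lit 0),Row.mk (nat_lit 16632) (nat_lit 5236) (nat_lit 860281679) (nat_lit 5423) (nat_lit 33692452) (nat_lit 0) (nat_lit 0),Row.mk (nat_lit 16800) (nat_lit 5236) (nat_lit 860281679) (nat_lit 5423) (nat_lit 33692452) (nat_lit 0) (nat_lit 0),Row.mk (nat_lit 16968) (nat_lit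 5236) (nat_lit 860281679) (nat_lit 5423) (nat_lit 33692452) (nat_lit 0) (nat_lit 0),Row.mk (nat_lit 17136) (nat_lit 5236) (nat_lit 860281679) (nat_lit 5423) (nat_lit 33692452) (nat_lit 0) (nat_lit 0),Row.mk (nat_lit 17304) (nat_lit 5236) (nat_lit 860281679) (nat_lit 5423) (nat_lit 33692452) (nat_lit 0) (nat_lit 0),Row.mk (nat_lit 17472) (nat_lit 5236) (nat_lit 860281679) (nat_lit 5423) (nat_lit 33692452) (nat_lit 0) (nat_lit 0),Row.mk (nat_lit 17640) (nat_lit 5236) (nat_lit 860281679) (nat_lit 5423) (nat_lit 33692452) (nat_lit 0) (nat_lit 0),Row.mk (nat_lit 17808) (nat_lit 5236) (nat_lit 860281679) (nat_lit 5423) (nat_lit 33692452) (nat_lit 0) (nat_lit 0),Row.mk (nat_lit 17976) (nat_lit 5236) (nat_lit 860281679) (nat_lit 5423) (nat_lit 33692452) (nat_lit 0) (nat_lit 0),Row.mk (nat_lit 18144) (nat_lit 5236) (nat_lit 860281679) (nat_lit 5423) (nat_lit 33692452) (nat_lit 0) (nat_lit 0),Row.mk (nat_lit 18312) (nat_lit 5236) (nat_lit 860281679)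 (nat_lit 5423) (nat_lit 33692452) (nat_lit 0) (nat_lit 0),Row.mk (nat_lit 18480) (nat_lit 5236) (nat_lit 860281679) (nat_lit 5423) (nat_lit 33692452) (nat_lit 0) (nat_lit 0),Row.mk (nat_lit 18648) (nat_lit 5236) (nat_lit 860281679) (nat_lit 5423) (nat_lit 33692452) (nat_lit 0) (nat_lit 0),Row.mk (nat_lit 18816) (nat_lit 5236) (nat_lit 860281679) (nat_lit 5423) (nat_lit 33692452) (nat_lit 0) (nat_lit 0),Row.mk (nat_lit 18984) (nat_lit 5236) (nat_lit 860281679) (nat_lit 5423) (nat_lit 33692452) (nat_lit 0) (nat_lit 0),Row.mk (nat_lit 19152) (nat_lit 5236) (nat_lit 860281679) (nat_lit 5423) (nat_lit 33692452) (nat_lit 0) (nat_lit 0),Row.mk (nat_lit 19320) (nat_lit 5236) (nat_lit 860281679) (nat_lit 5423) (nat_lit 33692452) (nat_lit 0) (nat_lit 0),Row.mk (nat_lit 19488) (nat_lit 5236) (nat_lit 860281679) (nat_lit 5423) (nat_lit 33692452) (nat_lit 0) (nat_lit 0),Row.mk (nat_lit 19656) (nat_lit 5236) (nat_lit 860281679) (nat_lit 5423) (nat_lit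 33692452) (nat_lit 0) (nat_lit 0),Row.mk (nat_lit 19824) (nat_lit 5236) (nat_lit 860281679) (nat_lit 5423) (nat_lit 33692452) (nat_lit 0) (nat_lit 0),Row.mk (nat_lit 19992) (nat_lit 5236) (nat_lit 860281679) (nat_lit 5423) (nat_lit 33692452) (nat_lit 0) (nat_lit 0),Row.mk (nat_lit 20160) (nat_lit 5236) (nat_lit 860281679) (nat_lit 5423) (nat_lit 33692452) (nat_lit 0) (nat_lit 0),Row.mk (nat_lit 20328) (nat_lit 5236) (nat_lit 860281679) (nat_lit 5423) (nat_lit 33692452) (nat_lit 0) (nat_lit 0),Row.mk (nat_lit 20496) (nat_lit 5236) (nat_lit 860281679) (nat_lit 5423) (nat_lit 33692452) (nat_lit 0) (nat_lit 0),Row.mk (nat_lit 20664) (nat_lit 5236) (nat_lit 860281679) (nat_lit 5423) (nat_lit 33692452) (nat_lit 0) (nat_lit 0),Row.mk (nat_lit 20832) (nat_lit 5236) (nat_lit 860281679) (nat_lit 5423) (nat_lit 33692452) (nat_lit 0) (nat_lit 0),Row.mk (nat_lit 21000) (nat_lit 5236) (nat_lit 860281679) (nat_lit 5423) (nat_lit 33692452) (nat_lit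 0) (nat_lit 0),Row.mk (nat_lit 21168) (nat_lit 5236) (nat_lit 860281679) (nat_lit 5423) (nat_lit 33692452) (nat_lit 0) (nat_lit 0),Row.mk (nat_lit 21336) (nat_lit 5236) (nat_lit 860281679) (nat_lit 5423) (nat_lit 33692452) (nat_lit 0) (nat_lit 0),Row.mk (nat_lit 21504) (nat_lit 5236) (nat_lit 860281679) (nat_lit 5423) (nat_lit 33692452) (nat_lit 0) (nat_lit 0),Row.mk (nat_lit 21672) (nat_lit 5236) (nat_lit 860281679) (nat_lit 5423) (nat_lit 33692452) (nat_lit 0) (nat_lit 0),Row.mk (nat_lit 21840) (nat_lit 5236) (nat_lit 860281679) (nat_lit 5423) (nat_lit 33692452) (nat_lit 0) (nat_lit 0),Row.mk (nat_lit 22008) (nat_lit 5236) (nat_lit 860281679) (nat_lit 5423) (nat_lit 33692452) (nat_lit 0) (nat_lit 0),Row.mk (nat_lit 22176) (nat_lit 5236) (nat_lit 860281679) (nat_lit 5423) (nat_lit 33692452) (nat_lit 0) (nat_lit 0),Row.mk (nat_lit 22344) (nat_lit 5236) (nat_lit 860281679) (nat_lit 5423) (nat_lit 33692452) (nat_lit 0) (nat_lit 0),Row.mk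 (nat_lit 22512) (nat_lit 5236) (nat_lit 860281679) (nat_lit 5423) (nat_lit 33692452) (nat_lit 0) (nat_lit 0),Row.mk (nat_lit 22680) (nat_lit 5236) (nat_lit 860281679) (nat_lit 5423) (nat_lit 33692452) (nat_lit 0) (nat_lit 0),Row.mk (nat_lit 22848) (nat_lit 5236) (nat_lit 860281679) (nat_lit 5423) (nat_lit 33692452) (nat_lit 0) (nat_lit 0),Row.mk (nat_lit 23016) (nat_lit 5236) (nat_lit 860281679) (nat_lit 5423) (nat_lit 33692452) (nat_lit 0) (nat_lit 0),Row.mk (nat_lit 23184) (nat_lit 5236) (nat_lit 860281679) (nat_lit 5423) (nat_lit 33692452) (nat_lit 0) (nat_lit 0),Row.mk (nat_lit 23352) (nat_lit 5236) (nat_lit 860281679) (nat_lit 5423) (nat_lit 33692452) (nat_lit 0) (nat_lit 0),Row.mk (nat_lit 23520) (nat_lit 5236) (nat_lit 860281679) (nat_lit 5423) (nat_lit 33692452) (nat_lit 0) (nat_lit 0),Row.mk (nat_lit 23688) (nat_lit 5236) (nat_lit 860281679) (nat_lit 5423) (nat_lit 33692452) (nat_lit 0) (nat_lit 0),Row.mk (nat_lit 23856)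 (nat_lit 5236) (nat_lit 860281679) (nat_lit 5423) (nat_lit 33692452) (nat_lit 0) (nat_lit 0),Row.mk (nat_lit 24024) (nat_lit 5236) (nat_lit 860281679) (nat_lit 5423) (nat_lit 33692452) (nat_lit 0) (nat_lit 0),Row.mk (nat_lit 24192) (nat_lit 5236) (nat_lit 860281679) (nat_lit 5423) (nat_lit 33692452) (nat_lit 0) (nat_lit 0),Row.mk (nat_lit 24360) (nat_lit 5236) (nat_lit 860281679) (nat_lit 5423) (nat_lit 33692452) (nat_lit 0) (nat_lit 0),Row.mk (nat_lit 24528) (nat_lit 5236) (nat_lit 860281679) (nat_lit 5423) (nat_lit 33692452) (nat_lit 0) (nat_lit 0),Row.mk (nat_lit 24696) (nat_lit 5236) (nat_lit 860281679) (nat_lit 5423) (nat_lit 33692452) (nat_lit 0) (nat_lit 0),Row.mk (nat_lit 24864) (nat_lit 5236) (nat_lit 860281679) (nat_lit 5423) (nat_lit 33692452) (nat_lit 0) (nat_lit 0),Row.mk (nat_lit 25032) (nat_lit 5236) (nat_lit 860281679) (nat_lit 5423) (nat_lit 33692452) (nat_lit 0) (nat_lit 0),Row.mk (nat_lit 25200) (nat_lit 5236) (nat_lit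 860281679) (nat_lit 5423) (nat_lit 33692452) (nat_lit 0) (nat_lit 0),Row.mk (nat_lit 25368) (nat_lit 5236) (nat_lit 860281679) (nat_lit 5423) (nat_lit 33692452) (nat_lit 0) (nat_lit 0),Row.mk (nat_lit 25536) (nat_lit 5236) (nat_lit 860281679) (nat_lit 5423) (nat_lit 33692452) (nat_lit 0) (nat_lit 0),Row.mk (nat_lit 25704) (nat_lit 5236) (nat_lit 860281679) (nat_lit 5423) (nat_lit 33692452) (nat_lit 0) (nat_lit 0),Row.mk (nat_lit 25872) (nat_lit 5236) (nat_lit 860281679) (nat_lit 5423) (nat_lit 33692452) (nat_lit 0) (nat_lit 0),Row.mk (nat_lit 26040) (nat_lit 5236) (nat_lit 860281679) (nat_lit 5423) (nat_lit 33692452) (nat_lit 0) (nat_lit 0),Row.mk (nat_lit 26208) (nat_lit 5236) (nat_lit 860281679) (nat_lit 5423) (nat_lit 33692452) (nat_lit 0) (nat_lit 0),Row.mk (nat_lit 26376) (nat_lit 5236) (nat_lit 860281679) (nat_lit 5423) (nat_lit 33692452) (nat_lit 0) (nat_lit 0),Row.mk (nat_lit 26544) (nat_lit 5236) (nat_lit 860281679) (nat_lit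 5423) (nat_lit 33692452) (nat_lit 0) (nat_lit 0),Row.mk (nat_lit 26712) (nat_lit 5236) (nat_lit 860281679) (nat_lit 5423) (nat_lit 33692452) (nat_lit 0) (nat_lit 0),Row.mk (nat_lit 26880) (nat_lit 5236) (nat_lit 860281679) (nat_lit 5423) (nat_lit 33692452) (nat_lit 0) (nat_lit 0),Row.mk (nat_lit 27048) (nat_lit 5236) (nat_lit 860281679) (nat_lit 5423) (nat_lit 33692452) (nat_lit 0) (nat_lit 0),Row.mk (nat_lit 27216) (nat_lit 5236) (nat_lit 860281679) (nat_lit 5423) (nat_lit 33692452) (nat_lit 0) (nat_lit 0),Row.mk (nat_lit 27384) (nat_lit 5236) (nat_lit 860281679) (nat_lit 5423) (nat_lit 33692452) (nat_lit 0) (nat_lit 0),Row.mk (nat_lit 27552) (nat_lit 5236) (nat_lit 860281679) (nat_lit 5423) (nat_lit 33692452) (nat_lit 0) (nat_lit 0),Row.mk (nat_lit 27720) (nat_lit 5236) (nat_lit 860281679) (nat_lit 5423) (nat_lit 33692452) (nat_lit 0) (nat_lit 0),Row.mk (nat_lit 27888) (nat_lit 5236) (nat_lit 860281679) (nat_lit 5423) (nat_lit 33692452)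 (nat_lit 0) (nat_lit 0),Row.mk (nat_lit 28056) (nat_lit 5236) (nat_lit 860281679) (nat_lit 5423) (nat_lit 33692452) (nat_lit 0) (nat_lit 0),Row.mk (nat_lit 28224) (nat_lit 5236) (nat_lit 860281679) (nat_lit 5423) (nat_lit 33692452) (nat_lit 0) (nat_lit 0),Row.mk (nat_lit 28392) (nat_lit 5236) (nat_lit 860281679) (nat_lit 5423) (nat_lit 33692452) (nat_lit 0) (nat_lit 0),Row.mk (nat_lit 28560) (nat_lit 5236) (nat_lit 860281679) (nat_lit 5423) (nat_lit 33692452) (nat_lit 0) (nat_lit 0),Row.mk (nat_lit 28728) (nat_lit 5236) (nat_lit 860281679) (nat_lit 5423) (nat_lit 33692452) (nat_lit 0) (nat_lit 0)],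
[Row.mk (nat_lit 14448) (nat_lit 4675) (nat_lit 1082859672) (nat_lit 4862) (nat_lit 33692452) (nat_lit 0) (nat_lit 0),Row.mk (nat_lit 14616) (nat_lit 4675) (nat_lit 1082859672) (nat_lit 4862) (nat_lit 33692452) (nat_lit 0) (nat_lit 0),Row.mk (nat_lit 14784) (nat_lit 4675) (nat_lit 1082859672) (nat_lit 4862) (nat_lit 33692452) (nat_lit 0) (nat_lit 0),Row.mk (nat_lit 14952) (nat_lit 4675) (nat_lit 1082859672) (nat_lit 4862) (nat_lit 33692452) (nat_lit 0) (nat_lit 0),Row.mk (nat_lit 15120) (nat_lit 4675) (nat_lit 1082859672) (nat_lit 4862) (nat_lit 33692452) (nat_lit 0) (nat_lit 0),Row.mk (nat_lit 15288) (nat_lit 4675) (nat_lit 1082859672) (nat_lit 4862) (nat_lit 33692452) (nat_lit 0) (nat_lit 0),Row.mk (nat_lit 15456) (nat_lit 4675) (nat_lit 1082859672) (nat_lit 4862) (nat_lit 33692452) (nat_lit 0) (nat_lit 0),Row.mk (nat_lit 15624) (nat_lit 4675) (nat_lit 1082859672) (nat_lit 4862) (nat_lit 33692452) (nat_lit 0) (nat_lit 0),Row.mk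 (nat_lit 15792) (nat_lit 4675) (nat_lit 1082859672) (nat_lit 4862) (nat_lit 33692452) (nat_lit 0) (nat_lit 0),Row.mk (nat_lit 15960) (nat_lit 4675) (nat_lit 1082859672) (nat_lit 4862) (nat_lit 33692452) (nat_lit 0) (nat_lit 0),Row.mk (nat_lit 16128) (nat_lit 4675) (nat_lit 1082859672) (nat_lit 4862) (nat_lit 33692452) (nat_lit 0) (nat_lit 0),Row.mk (nat_lit 16296) (nat_lit 4675) (nat_lit 1082859672) (nat_lit 4862) (nat_lit 33692452) (nat_lit 0) (nat_lit 0),Row.mk (nat_lit 16464) (nat_lit 4675) (nat_lit 1082859672) (nat_lit 4862) (nat_lit 33692452) (nat_lit 0) (nat_lit 0),Row.mk (nat_lit 16632) (nat_lit 4675) (nat_lit 1082859672) (nat_lit 4862) (nat_lit 33692452) (nat_lit 0) (nat_lit 0),Row.mk (nat_lit 16800) (nat_lit 4675) (nat_lit 1082859672) (nat_lit 4862) (nat_lit 33692452) (nat_lit 0) (nat_lit 0),Row.mk (nat_lit 16968) (nat_lit 4675) (nat_lit 1082859672) (nat_lit 4862) (nat_lit 33692452) (nat_lit 0) (nat_lit 0),Row.mk (nat_lit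 17136) (nat_lit 4675) (nat_lit 1082859672) (nat_lit 4862) (nat_lit 33692452) (nat_lit 0) (nat_lit 0),Row.mk (nat_lit 17304) (nat_lit 4675) (nat_lit 1082859672) (nat_lit 4862) (nat_lit 33692452) (nat_lit 0) (nat_lit 0),Row.mk (nat_lit 17472) (nat_lit 4675) (nat_lit 1082859672) (nat_lit 4862) (nat_lit 33692452) (nat_lit 0) (nat_lit 0),Row.mk (nat_lit 17640) (nat_lit 4675) (nat_lit 1082859672) (nat_lit 4862) (nat_lit 33692452) (nat_lit 0) (nat_lit 0),Row.mk (nat_lit 17808) (nat_lit 4675) (nat_lit 1082859672) (nat_lit 4862) (nat_lit 33692452) (nat_lit 0) (nat_lit 0),Row.mk (nat_lit 17976) (nat_lit 4675) (nat_lit 1082859672) (nat_lit 4862) (nat_lit 33692452) (nat_lit 0) (nat_lit 0),Row.mk (nat_lit 18144) (nat_lit 4675) (nat_lit 1082859672) (nat_lit 4862) (nat_lit 33692452) (nat_lit 0) (nat_lit 0),Row.mk (nat_lit 18312) (nat_lit 4675) (nat_lit 1082859672) (nat_lit 4862) (nat_lit 33692452) (nat_lit 0) (nat_lit 0),Row.mk (nat_lit 18480) (nat_lit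 4675) (nat_lit 1082859672) (nat_lit 4862) (nat_lit 33692452) (nat_lit 0) (nat_lit 0),Row.mk (nat_lit 18648) (nat_lit 4675) (nat_lit 1082859672) (nat_lit 4862) (nat_lit 33692452) (nat_lit 0) (nat_lit 0),Row.mk (nat_lit 18816) (nat_lit 4675) (nat_lit 1082859672) (nat_lit 4862) (nat_lit 33692452) (nat_lit 0) (nat_lit 0),Row.mk (nat_lit 18984) (nat_lit 4675) (nat_lit 1082859672) (nat_lit 4862) (nat_lit 33692452) (nat_lit 0) (nat_lit 0),Row.mk (nat_lit 19152) (nat_lit 4675) (nat_lit 1082859672) (nat_lit 4862) (nat_lit 33692452) (nat_lit 0) (nat_lit 0),Row.mk (nat_lit 19320) (nat_lit 4675) (nat_lit 1082859672) (nat_lit 4862) (nat_lit 33692452) (nat_lit 0) (nat_lit 0),Row.mk (nat_lit 19488) (nat_lit 4675) (nat_lit 1082859672) (nat_lit 4862) (nat_lit 33692452) (nat_lit 0) (nat_lit 0),Row.mk (nat_lit 19656) (nat_lit 4675) (nat_lit 1082859672) (nat_lit 4862) (nat_lit 33692452) (nat_lit 0) (nat_lit 0),Row.mk (nat_lit 19824) (nat_lit 4675) (nat_lit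 1082859672) (nat_lit 4862) (nat_lit 33692452) (nat_lit 0) (nat_lit 0),Row.mk (nat_lit 19992) (nat_lit 4675) (nat_lit 1082859672) (nat_lit 4862) (nat_lit 33692452) (nat_lit 0) (nat_lit 0),Row.mk (nat_lit 20160) (nat_lit 4675) (nat_lit 1082859672) (nat_lit 4862) (nat_lit 33692452) (nat_lit 0) (nat_lit 0),Row.mk (nat_lit 20328) (nat_lit 4675) (nat_lit 1082859672) (nat_lit 4862) (nat_lit 33692452) (nat_lit 0) (nat_lit 0),Row.mk (nat_lit 20496) (nat_lit 4675) (nat_lit 1082859672) (nat_lit 4862) (nat_lit 33692452) (nat_lit 0) (nat_lit 0),Row.mk (nat_lit 20664) (nat_lit 4675) (nat_lit 1082859672) (nat_lit 4862) (nat_lit 33692452) (nat_lit 0) (nat_lit 0),Row.mk (nat_lit 20832) (nat_lit 4675) (nat_lit 1082859672) (nat_lit 4862) (nat_lit 33692452) (nat_lit 0) (nat_lit 0),Row.mk (nat_lit 21000) (nat_lit 4675) (nat_lit 1082859672) (nat_lit 4862) (nat_lit 33692452) (nat_lit 0) (nat_lit 0),Row.mk (nat_lit 21168) (nat_lit 4675) (nat_lit 1082859672)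 (nat_lit 4862) (nat_lit 33692452) (nat_lit 0) (nat_lit 0),Row.mk (nat_lit 21336) (nat_lit 4675) (nat_lit 1082859672) (nat_lit 4862) (nat_lit 33692452) (nat_lit 0) (nat_lit 0),Row.mk (nat_lit 21504) (nat_lit 4675) (nat_lit 1082859672) (nat_lit 4862) (nat_lit 33692452) (nat_lit 0) (nat_lit 0),Row.mk (nat_lit 21672) (nat_lit 4675) (nat_lit 1082859672) (nat_lit 4862) (nat_lit 33692452) (nat_lit 0) (nat_lit 0),Row.mk (nat_lit 21840) (nat_lit 4675) (nat_lit 1082859672) (nat_lit 4862) (nat_lit 33692452) (nat_lit 0) (nat_lit 0),Row.mk (nat_lit 22008) (nat_lit 4675) (nat_lit 1082859672) (nat_lit 4862) (nat_lit 33692452) (nat_lit 0) (nat_lit 0),Row.mk (nat_lit 22176) (nat_lit 4675) (nat_lit 1082859672) (nat_lit 4862) (nat_lit 33692452) (nat_lit 0) (nat_lit 0),Row.mk (nat_lit 22344) (nat_lit 4675) (nat_lit 1082859672) (nat_lit 4862) (nat_lit 33692452) (nat_lit 0) (nat_lit 0),Row.mk (nat_lit 22512) (nat_lit 4675) (nat_lit 1082859672) (nat_lit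 4862) (nat_lit 33692452) (nat_lit 0) (nat_lit 0),Row.mk (nat_lit 22680) (nat_lit 4675) (nat_lit 1082859672) (nat_lit 4862) (nat_lit 33692452) (nat_lit 0) (nat_lit 0),Row.mk (nat_lit 22848) (nat_lit 4675) (nat_lit 1082859672) (nat_lit 4862) (nat_lit 33692452) (nat_lit 0) (nat_lit 0),Row.mk (nat_lit 23016) (nat_lit 4675) (nat_lit 1082859672) (nat_lit 4862) (nat_lit 33692452) (nat_lit 0) (nat_lit 0),Row.mk (nat_lit 23184) (nat_lit 4675) (nat_lit 1082859672) (nat_lit 4862) (nat_lit 33692452) (nat_lit 0) (nat_lit 0),Row.mk (nat_lit 23352) (nat_lit 4675) (nat_lit 1082859672) (nat_lit 4862) (nat_lit 33692452) (nat_lit 0) (nat_lit 0),Row.mk (nat_lit 23520) (nat_lit 4675) (nat_lit 1082859672) (nat_lit 4862) (nat_lit 33692452) (nat_lit 0) (nat_lit 0),Row.mk (nat_lit 23688) (nat_lit 4675) (nat_lit 1082859672) (nat_lit 4862) (nat_lit 33692452) (nat_lit 0) (nat_lit 0),Row.mk (nat_lit 23856) (nat_lit 4675) (nat_lit 1082859672) (nat_lit 4862) (nat_lit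 33692452) (nat_lit 0) (nat_lit 0),Row.mk (nat_lit 24024) (nat_lit 4675) (nat_lit 1082859672) (nat_lit 4862) (nat_lit 33692452) (nat_lit 0) (nat_lit 0),Row.mk (nat_lit 24192) (nat_lit 4675) (nat_lit 1082859672) (nat_lit 4862) (nat_lit 33692452) (nat_lit 0) (nat_lit 0),Row.mk (nat_lit 24360) (nat_lit 4675) (nat_lit 1082859672) (nat_lit 4862) (nat_lit 33692452) (nat_lit 0) (nat_lit 0),Row.mk (nat_lit 24528) (nat_lit 4675) (nat_lit 1082859672) (nat_lit 4862) (nat_lit 33692452) (nat_lit 0) (nat_lit 0),Row.mk (nat_lit 24696) (nat_lit 4675) (nat_lit 1082859672) (nat_lit 4862) (nat_lit 33692452) (nat_lit 0) (nat_lit 0),Row.mk (nat_lit 24864) (nat_lit 4675) (nat_lit 1082859672) (nat_lit 4862) (nat_lit 33692452) (nat_lit 0) (nat_lit 0),Row.mk (nat_lit 25032) (nat_lit 4675) (nat_lit 1082859672) (nat_lit 4862) (nat_lit 33692452) (nat_lit 0) (nat_lit 0),Row.mk (nat_lit 25200) (nat_lit 4675) (nat_lit 1082859672) (nat_lit 4862) (nat_lit 33692452)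 (nat_lit 0) (nat_lit 0),Row.mk (nat_lit 25368) (nat_lit 4675) (nat_lit 1082859672) (nat_lit 4862) (nat_lit 33692452) (nat_lit 0) (nat_lit 0),Row.mk (nat_lit 25536) (nat_lit 4675) (nat_lit 1082859672) (nat_lit 4862) (nat_lit 33692452) (nat_lit 0) (nat_lit 0),Row.mk (nat_lit 25704) (nat_lit 4675) (nat_lit 1082859672) (nat_lit 4862) (nat_lit 33692452) (nat_lit 0) (nat_lit 0),Row.mk (nat_lit 25872) (nat_lit 4675) (nat_lit 1082859672) (nat_lit 4862) (nat_lit 33692452) (nat_lit 0) (nat_lit 0),Row.mk (nat_lit 26040) (nat_lit 4675) (nat_lit 1082859672) (nat_lit 4862) (nat_lit 33692452) (nat_lit 0) (nat_lit 0),Row.mk (nat_lit 26208) (nat_lit 4675) (nat_lit 1082859672) (nat_lit 4862) (nat_lit 33692452) (nat_lit 0) (nat_lit 0),Row.mk (nat_lit 26376) (nat_lit 4675) (nat_lit 1082859672) (nat_lit 4862) (nat_lit 33692452) (nat_lit 0) (nat_lit 0),Row.mk (nat_lit 26544) (nat_lit 4675) (nat_lit 1082859672) (nat_lit 4862) (nat_lit 33692452) (nat_lit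 0) (nat_lit 0),Row.mk (nat_lit 26712) (nat_lit 4675) (nat_lit 1082859672) (nat_lit 4862) (nat_lit 33692452) (nat_lit 0) (nat_lit 0),Row.mk (nat_lit 26880) (nat_lit 4675) (nat_lit 1082859672) (nat_lit 4862) (nat_lit 33692452) (nat_lit 0) (nat_lit 0),Row.mk (nat_lit 27048) (nat_lit 4675) (nat_lit 1082859672) (nat_lit 4862) (nat_lit 33692452) (nat_lit 0) (nat_lit 0),Row.mk (nat_lit 27216) (nat_lit 4675) (nat_lit 1082859672) (nat_lit 4862) (nat_lit 33692452) (nat_lit 0) (nat_lit 0),Row.mk (nat_lit 27384) (nat_lit 4675) (nat_lit 1082859672) (nat_lit 4862) (nat_lit 33692452) (nat_lit 0) (nat_lit 0),Row.mk (nat_lit 27552) (nat_lit 4675) (nat_lit 1082859672) (nat_lit 4862) (nat_lit 33692452) (nat_lit 0) (nat_lit 0),Row.mk (nat_lit 27720) (nat_lit 4675) (nat_lit 1082859672) (nat_lit 4862) (nat_lit 33692452) (nat_lit 0) (nat_lit 0),Row.mk (nat_lit 27888) (nat_lit 4675) (nat_lit 1082859672) (nat_lit 4862) (nat_lit 33692452) (nat_lit 0) (nat_lit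 0),Row.mk (nat_lit 28056) (nat_lit 4675) (nat_lit 1082859672) (nat_lit 4862) (nat_lit 33692452) (nat_lit 0) (nat_lit 0),Row.mk (nat_lit 28224) (nat_lit 4675) (nat_lit 1082859672) (nat_lit 4862) (nat_lit 33692452) (nat_lit 0) (nat_lit 0),Row.mk (nat_lit 28392) (nat_lit 4675) (nat_lit 1082859672) (nat_lit 4862) (nat_lit 33692452) (nat_lit 0) (nat_lit 0),Row.mk (nat_lit 28560) (nat_lit 4675) (nat_lit 1082859672) (nat_lit 4862) (nat_lit 33692452) (nat_lit 0) (nat_lit 0),Row.mk (nat_lit 28728) (nat_lit 4675) (nat_lit 1082859672) (nat_lit 4862) (nat_lit 33692452) (nat_lit 0) (nat_lit 0)],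
[Row.mk (nat_lit 14616) (nat_lit 4114) (nat_lit 1360854216) (nat_lit 4301) (nat_lit 33692452) (nat_lit 0) (nat_lit 0),Row.mk (nat_lit 14784) (nat_lit 4114) (nat_lit 1360854216) (nat_lit 4301) (nat_lit 33692452) (nat_lit 0) (nat_lit 0),Row.mk (nat_lit 14952) (nat_lit 4114) (nat_lit 1360854216) (nat_lit 4301) (nat_lit 33692452) (nat_lit 0) (nat_lit 0),Row.mk (nat_lit 15120) (nat_lit 4114) (nat_lit 1360854216) (nat_lit 4301) (nat_lit 33692452) (nat_lit 0) (nat_lit 0),Row.mk (nat_lit 15288) (nat_lit 4114) (nat_lit 1360854216) (nat_lit 4301) (nat_lit 33692452) (nat_lit 0) (nat_lit 0),Row.mk (nat_lit 15456) (nat_lit 4114) (nat_lit 1360854216) (nat_lit 4301) (nat_lit 33692452) (nat_lit 0) (nat_lit 0),Row.mk (nat_lit 15624) (nat_lit 4114) (nat_lit 1360854216) (nat_lit 4301) (nat_lit 33692452) (nat_lit 0) (nat_lit 0),Row.mk (nat_lit 15792) (nat_lit 4114) (nat_lit 1360854216) (nat_lit 4301) (nat_lit 33692452) (nat_lit 0) (nat_lit 0),Row.mk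 (nat_lit 15960) (nat_lit 4114) (nat_lit 1360854216) (nat_lit 4301) (nat_lit 33692452) (nat_lit 0) (nat_lit 0),Row.mk (nat_lit 16128) (nat_lit 4114) (nat_lit 1360854216) (nat_lit 4301) (nat_lit 33692452) (nat_lit 0) (nat_lit 0),Row.mk (nat_lit 16296) (nat_lit 4114) (nat_lit 1360854216) (nat_lit 4301) (nat_lit 33692452) (nat_lit 0) (nat_lit 0),Row.mk (nat_lit 16464) (nat_lit 4114) (nat_lit 1360854216) (nat_lit 4301) (nat_lit 33692452) (nat_lit 0) (nat_lit 0),Row.mk (nat_lit 16632) (nat_lit 4114) (nat_lit 1360854216) (nat_lit 4301) (nat_lit 33692452) (nat_lit 0) (nat_lit 0),Row.mk (nat_lit 16800) (nat_lit 4114) (nat_lit 1360854216) (nat_lit 4301) (nat_lit 33692452) (nat_lit 0) (nat_lit 0),Row.mk (nat_lit 16968) (nat_lit 4114) (nat_lit 1360854216) (nat_lit 4301) (nat_lit 33692452) (nat_lit 0) (nat_lit 0),Row.mk (nat_lit 17136) (nat_lit 4114) (nat_lit 1360854216) (nat_lit 4301) (nat_lit 33692452) (nat_lit 0) (nat_lit 0),Row.mk (nat_lit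 17304) (nat_lit 4114) (nat_lit 1360854216) (nat_lit 4301) (nat_lit 33692452) (nat_lit 0) (nat_lit 0),Row.mk (nat_lit 17472) (nat_lit 4114) (nat_lit 1360854216) (nat_lit 4301) (nat_lit 33692452) (nat_lit 0) (nat_lit 0),Row.mk (nat_lit 17640) (nat_lit 4114) (nat_lit 1360854216) (nat_lit 4301) (nat_lit 33692452) (nat_lit 0) (nat_lit 0),Row.mk (nat_lit 17808) (nat_lit 4114) (nat_lit 1360854216) (nat_lit 4301) (nat_lit 33692452) (nat_lit 0) (nat_lit 0),Row.mk (nat_lit 17976) (nat_lit 4114) (nat_lit 1360854216) (nat_lit 4301) (nat_lit 33692452) (nat_lit 0) (nat_lit 0),Row.mk (nat_lit 18144) (nat_lit 4114) (nat_lit 1360854216) (nat_lit 4301) (nat_lit 33692452) (nat_lit 0) (nat_lit 0),Row.mk (nat_lit 18312) (nat_lit 4114) (nat_lit 1360854216) (nat_lit 4301) (nat_lit 33692452) (nat_lit 0) (nat_lit 0),Row.mk (nat_lit 18480) (nat_lit 4114) (nat_lit 1360854216) (nat_lit 4301) (nat_lit 33692452) (nat_lit 0) (nat_lit 0),Row.mk (nat_lit 18648) (nat_lit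 4114) (nat_lit 1360854216) (nat_lit 4301) (nat_lit 33692452) (nat_lit 0) (nat_lit 0),Row.mk (nat_lit 18816) (nat_lit 4114) (nat_lit 1360854216) (nat_lit 4301) (nat_lit 33692452) (nat_lit 0) (nat_lit 0),Row.mk (nat_lit 18984) (nat_lit 4114) (nat_lit 1360854216) (nat_lit 4301) (nat_lit 33692452) (nat_lit 0) (nat_lit 0),Row.mk (nat_lit 19152) (nat_lit 4114) (nat_lit 1360854216) (nat_lit 4301) (nat_lit 33692452) (nat_lit 0) (nat_lit 0),Row.mk (nat_lit 19320) (nat_lit 4114) (nat_lit 1360854216) (nat_lit 4301) (nat_lit 33692452) (nat_lit 0) (nat_lit 0),Row.mk (nat_lit 19488) (nat_lit 4114) (nat_lit 1360854216) (nat_lit 4301) (nat_lit 33692452) (nat_lit 0) (nat_lit 0),Row.mk (nat_lit 19656) (nat_lit 4114) (nat_lit 1360854216) (nat_lit 4301) (nat_lit 33692452) (nat_lit 0) (nat_lit 0),Row.mk (nat_lit 19824) (nat_lit 4114) (nat_lit 1360854216) (nat_lit 4301) (nat_lit 33692452) (nat_lit 0) (nat_lit 0),Row.mk (nat_lit 19992) (nat_lit 4114) (nat_lit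 1360854216) (nat_lit 4301) (nat_lit 33692452) (nat_lit 0) (nat_lit 0),Row.mk (nat_lit 20160) (nat_lit 4114) (nat_lit 1360854216) (nat_lit 4301) (nat_lit 33692452) (nat_lit 0) (nat_lit 0),Row.mk (nat_lit 20328) (nat_lit 4114) (nat_lit 1360854216) (nat_lit 4301) (nat_lit 33692452) (nat_lit 0) (nat_lit 0),Row.mk (nat_lit 20496) (nat_lit 4114) (nat_lit 1360854216) (nat_lit 4301) (nat_lit 33692452) (nat_lit 0) (nat_lit 0),Row.mk (nat_lit 20664) (nat_lit 4114) (nat_lit 1360854216) (nat_lit 4301) (nat_lit 33692452) (nat_lit 0) (nat_lit 0),Row.mk (nat_lit 20832) (nat_lit 4114) (nat_lit 1360854216) (nat_lit 4301) (nat_lit 33692452) (nat_lit 0) (nat_lit 0),Row.mk (nat_lit 21000) (nat_lit 4114) (nat_lit 1360854216) (nat_lit 4301) (nat_lit 33692452) (nat_lit 0) (nat_lit 0),Row.mk (nat_lit 21168) (nat_lit 4114) (nat_lit 1360854216) (nat_lit 4301) (nat_lit 33692452) (nat_lit 0) (nat_lit 0),Row.mk (nat_lit 21336) (nat_lit 4114) (nat_lit 1360854216)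 (nat_lit 4301) (nat_lit 33692452) (nat_lit 0) (nat_lit 0),Row.mk (nat_lit 21504) (nat_lit 4114) (nat_lit 1360854216) (nat_lit 4301) (nat_lit 33692452) (nat_lit 0) (nat_lit 0),Row.mk (nat_lit 21672) (nat_lit 4114) (nat_lit 1360854216) (nat_lit 4301) (nat_lit 33692452) (nat_lit 0) (nat_lit 0),Row.mk (nat_lit 21840) (nat_lit 4114) (nat_lit 1360854216) (nat_lit 4301) (nat_lit 33692452) (nat_lit 0) (nat_lit 0),Row.mk (nat_lit 22008) (nat_lit 4114) (nat_lit 1360854216) (nat_lit 4301) (nat_lit 33692452) (nat_lit 0) (nat_lit 0),Row.mk (nat_lit 22176) (nat_lit 4114) (nat_lit 1360854216) (nat_lit 4301) (nat_lit 33692452) (nat_lit 0) (nat_lit 0),Row.mk (nat_lit 22344) (nat_lit 4114) (nat_lit 1360854216) (nat_lit 4301) (nat_lit 33692452) (nat_lit 0) (nat_lit 0),Row.mk (nat_lit 22512) (nat_lit 4114) (nat_lit 1360854216) (nat_lit 4301) (nat_lit 33692452) (nat_lit 0) (nat_lit 0),Row.mk (nat_lit 22680) (nat_lit 4114) (nat_lit 1360854216) (nat_lit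 4301) (nat_lit 33692452) (nat_lit 0) (nat_lit 0),Row.mk (nat_lit 22848) (nat_lit 4114) (nat_lit 1360854216) (nat_lit 4301) (nat_lit 33692452) (nat_lit 0) (nat_lit 0),Row.mk (nat_lit 23016) (nat_lit 4114) (nat_lit 1360854216) (nat_lit 4301) (nat_lit 33692452) (nat_lit 0) (nat_lit 0),Row.mk (nat_lit 23184) (nat_lit 4114) (nat_lit 1360854216) (nat_lit 4301) (nat_lit 33692452) (nat_lit 0) (nat_lit 0),Row.mk (nat_lit 23352) (nat_lit 4114) (nat_lit 1360854216) (nat_lit 4301) (nat_lit 33692452) (nat_lit 0) (nat_lit 0),Row.mk (nat_lit 23520) (nat_lit 4114) (nat_lit 1360854216) (nat_lit 4301) (nat_lit 33692452) (nat_lit 0) (nat_lit 0),Row.mk (nat_lit 23688) (nat_lit 4114) (nat_lit 1360854216) (nat_lit 4301) (nat_lit 33692452) (nat_lit 0) (nat_lit 0),Row.mk (nat_lit 23856) (nat_lit 4114) (nat_lit 1360854216) (nat_lit 4301) (nat_lit 33692452) (nat_lit 0) (nat_lit 0),Row.mk (nat_lit 24024) (nat_lit 4114) (nat_lit 1360854216) (nat_lit 4301) (nat_lit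 33692452) (nat_lit 0) (nat_lit 0),Row.mk (nat_lit 24192) (nat_lit 4114) (nat_lit 1360854216) (nat_lit 4301) (nat_lit 33692452) (nat_lit 0) (nat_lit 0),Row.mk (nat_lit 24360) (nat_lit 4114) (nat_lit 1360854216) (nat_lit 4301) (nat_lit 33692452) (nat_lit 0) (nat_lit 0),Row.mk (nat_lit 24528) (nat_lit 4114) (nat_lit 1360854216) (nat_lit 4301) (nat_lit 33692452) (nat_lit 0) (nat_lit 0),Row.mk (nat_lit 24696) (nat_lit 4114) (nat_lit 1360854216) (nat_lit 4301) (nat_lit 33692452) (nat_lit 0) (nat_lit 0),Row.mk (nat_lit 24864) (nat_lit 4114) (nat_lit 1360854216) (nat_lit 4301) (nat_lit 33692452) (nat_lit 0) (nat_lit 0),Row.mk (nat_lit 25032) (nat_lit 4114) (nat_lit 1360854216) (nat_lit 4301) (nat_lit 33692452) (nat_lit 0) (nat_lit 0),Row.mk (nat_lit 25200) (nat_lit 4114) (nat_lit 1360854216) (nat_lit 4301) (nat_lit 33692452) (nat_lit 0) (nat_lit 0),Row.mk (nat_lit 25368) (nat_lit 4114) (nat_lit 1360854216) (nat_lit 4301) (nat_lit 33692452)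 (nat_lit 0) (nat_lit 0),Row.mk (nat_lit 25536) (nat_lit 4114) (nat_lit 1360854216) (nat_lit 4301) (nat_lit 33692452) (nat_lit 0) (nat_lit 0),Row.mk (nat_lit 25704) (nat_lit 4114) (nat_lit 1360854216) (nat_lit 4301) (nat_lit 33692452) (nat_lit 0) (nat_lit 0),Row.mk (nat_lit 25872) (nat_lit 4114) (nat_lit 1360854216) (nat_lit 4301) (nat_lit 33692452) (nat_lit 0) (nat_lit 0),Row.mk (nat_lit 26040) (nat_lit 4114) (nat_lit 1360854216) (nat_lit 4301) (nat_lit 33692452) (nat_lit 0) (nat_lit 0),Row.mk (nat_lit 26208) (nat_lit 4114) (nat_lit 1360854216) (nat_lit 4301) (nat_lit 33692452) (nat_lit 0) (nat_lit 0),Row.mk (nat_lit 26376) (nat_lit 4114) (nat_lit 1360854216) (nat_lit 4301) (nat_lit 33692452) (nat_lit 0) (nat_lit 0),Row.mk (nat_lit 26544) (nat_lit 4114) (nat_lit 1360854216) (nat_lit 4301) (nat_lit 33692452) (nat_lit 0) (nat_lit 0),Row.mk (nat_lit 26712) (nat_lit 4114) (nat_lit 1360854216) (nat_lit 4301) (nat_lit 33692452) (nat_lit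 0) (nat_lit 0),Row.mk (nat_lit 26880) (nat_lit 4114) (nat_lit 1360854216) (nat_lit 4301) (nat_lit 33692452) (nat_lit 0) (nat_lit 0),Row.mk (nat_lit 27048) (nat_lit 4114) (nat_lit 1360854216) (nat_lit 4301) (nat_lit 33692452) (nat_lit 0) (nat_lit 0),Row.mk (nat_lit 27216) (nat_lit 4114) (nat_lit 1360854216) (nat_lit 4301) (nat_lit 33692452) (nat_lit 0) (nat_lit 0),Row.mk (nat_lit 27384) (nat_lit 4114) (nat_lit 1360854216) (nat_lit 4301) (nat_lit 33692452) (nat_lit 0) (nat_lit 0),Row.mk (nat_lit 27552) (nat_lit 4114) (nat_lit 1360854216) (nat_lit 4301) (nat_lit 33692452) (nat_lit 0) (nat_lit 0),Row.mk (nat_lit 27720) (nat_lit 4114) (nat_lit 1360854216) (nat_lit 4301) (nat_lit 33692452) (nat_lit 0) (nat_lit 0),Row.mk (nat_lit 27888) (nat_lit 4114) (nat_lit 1360854216) (nat_lit 4301) (nat_lit 33692452) (nat_lit 0) (nat_lit 0),Row.mk (nat_lit 28056) (nat_lit 4114) (nat_lit 1360854216) (nat_lit 4301) (nat_lit 33692452) (nat_lit 0) (nat_lit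 0),Row.mk (nat_lit 28224) (nat_lit 4114) (nat_lit 1360854216) (nat_lit 4301) (nat_lit 33692452) (nat_lit 0) (nat_lit 0),Row.mk (nat_lit 28392) (nat_lit 4114) (nat_lit 1360854216) (nat_lit 4301) (nat_lit 33692452) (nat_lit 0) (nat_lit 0),Row.mk (nat_lit 28560) (nat_lit 4114) (nat_lit 1360854216) (nat_lit 4301) (nat_lit 33692452) (nat_lit 0) (nat_lit 0),Row.mk (nat_lit 28728) (nat_lit 4114) (nat_lit 1360854216) (nat_lit 4301) (nat_lit 33692452) (nat_lit 0) (nat_lit 0),Row.mk (nat_lit 28896) (nat_lit 4114) (nat_lit 1360854216) (nat_lit 4301) (nat_lit 33692452) (nat_lit 0) (nat_lit 0)],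
[Row.mk (nat_lit 14784) (nat_lit 3553) (nat_lit 1708062695) (nat_lit 3740) (nat_lit 33692452) (nat_lit 0) (nat_lit 0),Row.mk (nat_lit 14952) (nat_lit 3553) (nat_lit 1708062695) (nat_lit 3740) (nat_lit 33692452) (nat_lit 0) (nat_lit 0),Row.mk (nat_lit 15120) (nat_lit 3553) (nat_lit 1708062695) (nat_lit 3740) (nat_lit 33692452) (nat_lit 0) (nat_lit 0),Row.mk (nat_lit 15288) (nat_lit 3553) (nat_lit 1708062695) (nat_lit 3740) (nat_lit 33692452) (nat_lit 0) (nat_lit 0),Row.mk (nat_lit 15456) (nat_lit 3553) (nat_lit 1708062695) (nat_lit 3740) (nat_lit 33692452) (nat_lit 0) (nat_lit 0),Row.mk (nat_lit 15624) (nat_lit 3553) (nat_lit 1708062695) (nat_lit 3740) (nat_lit 33692452) (nat_lit 0) (nat_lit 0),Row.mk (nat_lit 15792) (nat_lit 3553) (nat_lit 1708062695) (nat_lit 3740) (nat_lit 33692452) (nat_lit 0) (nat_lit 0),Row.mk (nat_lit 15960) (nat_lit 3553) (nat_lit 1708062695) (nat_lit 3740) (nat_lit 33692452) (nat_lit 0) (nat_lit 0),Row.mk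 (nat_lit 16128) (nat_lit 3553) (nat_lit 1708062695) (nat_lit 3740) (nat_lit 33692452) (nat_lit 0) (nat_lit 0),Row.mk (nat_lit 16296) (nat_lit 3553) (nat_lit 1708062695) (nat_lit 3740) (nat_lit 33692452) (nat_lit 0) (nat_lit 0),Row.mk (nat_lit 16464) (nat_lit 3553) (nat_lit 1708062695) (nat_lit 3740) (nat_lit 33692452) (nat_lit 0) (nat_lit 0),Row.mk (nat_lit 16632) (nat_lit 3553) (nat_lit 1708062695) (nat_lit 3740) (nat_lit 33692452) (nat_lit 0) (nat_lit 0),Row.mk (nat_lit 16800) (nat_lit 3553) (nat_lit 1708062695) (nat_lit 3740) (nat_lit 33692452) (nat_lit 0) (nat_lit 0),Row.mk (nat_lit 16968) (nat_lit 3553) (nat_lit 1708062695) (nat_lit 3740) (nat_lit 33692452) (nat_lit 0) (nat_lit 0),Row.mk (nat_lit 17136) (nat_lit 3553) (nat_lit 1708062695) (nat_lit 3740) (nat_lit 33692452) (nat_lit 0) (nat_lit 0),Row.mk (nat_lit 17304) (nat_lit 3553) (nat_lit 1708062695) (nat_lit 3740) (nat_lit 33692452) (nat_lit 0) (nat_lit 0),Row.mk (nat_lit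 17472) (nat_lit 3553) (nat_lit 1708062695) (nat_lit 3740) (nat_lit 33692452) (nat_lit 0) (nat_lit 0),Row.mk (nat_lit 17640) (nat_lit 3553) (nat_lit 1708062695) (nat_lit 3740) (nat_lit 33692452) (nat_lit 0) (nat_lit 0),Row.mk (nat_lit 17808) (nat_lit 3553) (nat_lit 1708062695) (nat_lit 3740) (nat_lit 33692452) (nat_lit 0) (nat_lit 0),Row.mk (nat_lit 17976) (nat_lit 3553) (nat_lit 1708062695) (nat_lit 3740) (nat_lit 33692452) (nat_lit 0) (nat_lit 0),Row.mk (nat_lit 18144) (nat_lit 3553) (nat_lit 1708062695) (nat_lit 3740) (nat_lit 33692452) (nat_lit 0) (nat_lit 0),Row.mk (nat_lit 18312) (nat_lit 3553) (nat_lit 1708062695) (nat_lit 3740) (nat_lit 33692452) (nat_lit 0) (nat_lit 0),Row.mk (nat_lit 18480) (nat_lit 3553) (nat_lit 1708062695) (nat_lit 3740) (nat_lit 33692452) (nat_lit 0) (nat_lit 0),Row.mk (nat_lit 18648) (nat_lit 3553) (nat_lit 1708062695) (nat_lit 3740) (nat_lit 33692452) (nat_lit 0) (nat_lit 0),Row.mk (nat_lit 18816) (nat_lit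 3553) (nat_lit 1708062695) (nat_lit 3740) (nat_lit 33692452) (nat_lit 0) (nat_lit 0),Row.mk (nat_lit 18984) (nat_lit 3553) (nat_lit 1708062695) (nat_lit 3740) (nat_lit 33692452) (nat_lit 0) (nat_lit 0),Row.mk (nat_lit 19152) (nat_lit 3553) (nat_lit 1708062695) (nat_lit 3740) (nat_lit 33692452) (nat_lit 0) (nat_lit 0),Row.mk (nat_lit 19320) (nat_lit 3553) (nat_lit 1708062695) (nat_lit 3740) (nat_lit 33692452) (nat_lit 0) (nat_lit 0),Row.mk (nat_lit 19488) (nat_lit 3553) (nat_lit 1708062695) (nat_lit 3740) (nat_lit 33692452) (nat_lit 0) (nat_lit 0),Row.mk (nat_lit 19656) (nat_lit 3553) (nat_lit 1708062695) (nat_lit 3740) (nat_lit 33692452) (nat_lit 0) (nat_lit 0),Row.mk (nat_lit 19824) (nat_lit 3553) (nat_lit 1708062695) (nat_lit 3740) (nat_lit 33692452) (nat_lit 0) (nat_lit 0),Row.mk (nat_lit 19992) (nat_lit 3553) (nat_lit 1708062695) (nat_lit 3740) (nat_lit 33692452) (nat_lit 0) (nat_lit 0),Row.mk (nat_lit 20160) (nat_lit 3553) (nat_lit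 1708062695) (nat_lit 3740) (nat_lit 33692452) (nat_lit 0) (nat_lit 0),Row.mk (nat_lit 20328) (nat_lit 3553) (nat_lit 1708062695) (nat_lit 3740) (nat_lit 33692452) (nat_lit 0) (nat_lit 0),Row.mk (nat_lit 20496) (nat_lit 3553) (nat_lit 1708062695) (nat_lit 3740) (nat_lit 33692452) (nat_lit 0) (nat_lit 0),Row.mk (nat_lit 20664) (nat_lit 3553) (nat_lit 1708062695) (nat_lit 3740) (nat_lit 33692452) (nat_lit 0) (nat_lit 0),Row.mk (nat_lit 20832) (nat_lit 3553) (nat_lit 1708062695) (nat_lit 3740) (nat_lit 33692452) (nat_lit 0) (nat_lit 0),Row.mk (nat_lit 21000) (nat_lit 3553) (nat_lit 1708062695) (nat_lit 3740) (nat_lit 33692452) (nat_lit 0) (nat_lit 0),Row.mk (nat_lit 21168) (nat_lit 3553) (nat_lit 1708062695) (nat_lit 3740) (nat_lit 33692452) (nat_lit 0) (nat_lit 0),Row.mk (nat_lit 21336) (nat_lit 3553) (nat_lit 1708062695) (nat_lit 3740) (nat_lit 33692452) (nat_lit 0) (nat_lit 0),Row.mk (nat_lit 21504) (nat_lit 3553) (nat_lit 1708062695)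 (nat_lit 3740) (nat_lit 33692452) (nat_lit 0) (nat_lit 0),Row.mk (nat_lit 21672) (nat_lit 3553) (nat_lit 1708062695) (nat_lit 3740) (nat_lit 33692452) (nat_lit 0) (nat_lit 0),Row.mk (nat_lit 21840) (nat_lit 3553) (nat_lit 1708062695) (nat_lit 3740) (nat_lit 33692452) (nat_lit 0) (nat_lit 0),Row.mk (nat_lit 22008) (nat_lit 3553) (nat_lit 1708062695) (nat_lit 3740) (nat_lit 33692452) (nat_lit 0) (nat_lit 0),Row.mk (nat_lit 22176) (nat_lit 3553) (nat_lit 1708062695) (nat_lit 3740) (nat_lit 33692452) (nat_lit 0) (nat_lit 0),Row.mk (nat_lit 22344) (nat_lit 3553) (nat_lit 1708062695) (nat_lit 3740) (nat_lit 33692452) (nat_lit 0) (nat_lit 0),Row.mk (nat_lit 22512) (nat_lit 3553) (nat_lit 1708062695) (nat_lit 3740) (nat_lit 33692452) (nat_lit 0) (nat_lit 0),Row.mk (nat_lit 22680) (nat_lit 3553) (nat_lit 1708062695) (nat_lit 3740) (nat_lit 33692452) (nat_lit 0) (nat_lit 0),Row.mk (nat_lit 22848) (nat_lit 3553) (nat_lit 1708062695) (nat_lit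 3740) (nat_lit 33692452) (nat_lit 0) (nat_lit 0),Row.mk (nat_lit 23016) (nat_lit 3553) (nat_lit 1708062695) (nat_lit 3740) (nat_lit 33692452) (nat_lit 0) (nat_lit 0),Row.mk (nat_lit 23184) (nat_lit 3553) (nat_lit 1708062695) (nat_lit 3740) (nat_lit 33692452) (nat_lit 0) (nat_lit 0),Row.mk (nat_lit 23352) (nat_lit 3553) (nat_lit 1708062695) (nat_lit 3740) (nat_lit 33692452) (nat_lit 0) (nat_lit 0),Row.mk (nat_lit 23520) (nat_lit 3553) (nat_lit 1708062695) (nat_lit 3740) (nat_lit 33692452) (nat_lit 0) (nat_lit 0),Row.mk (nat_lit 23688) (nat_lit 3553) (nat_lit 1708062695) (nat_lit 3740) (nat_lit 33692452) (nat_lit 0) (nat_lit 0),Row.mk (nat_lit 23856) (nat_lit 3553) (nat_lit 1708062695) (nat_lit 3740) (nat_lit 33692452) (nat_lit 0) (nat_lit 0),Row.mk (nat_lit 24024) (nat_lit 3553) (nat_lit 1708062695) (nat_lit 3740) (nat_lit 33692452) (nat_lit 0) (nat_lit 0),Row.mk (nat_lit 24192) (nat_lit 3553) (nat_lit 1708062695) (nat_lit 3740) (nat_lit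 33692452) (nat_lit 0) (nat_lit 0),Row.mk (nat_lit 24360) (nat_lit 3553) (nat_lit 1708062695) (nat_lit 3740) (nat_lit 33692452) (nat_lit 0) (nat_lit 0),Row.mk (nat_lit 24528) (nat_lit 3553) (nat_lit 1708062695) (nat_lit 3740) (nat_lit 33692452) (nat_lit 0) (nat_lit 0),Row.mk (nat_lit 24696) (nat_lit 3553) (nat_lit 1708062695) (nat_lit 3740) (nat_lit 33692452) (nat_lit 0) (nat_lit 0),Row.mk (nat_lit 24864) (nat_lit 3553) (nat_lit 1708062695) (nat_lit 3740) (nat_lit 33692452) (nat_lit 0) (nat_lit 0),Row.mk (nat_lit 25032) (nat_lit 3553) (nat_lit 1708062695) (nat_lit 3740) (nat_lit 33692452) (nat_lit 0) (nat_lit 0),Row.mk (nat_lit 25200) (nat_lit 3553) (nat_lit 1708062695) (nat_lit 3740) (nat_lit 33692452) (nat_lit 0) (nat_lit 0),Row.mk (nat_lit 25368) (nat_lit 3553) (nat_lit 1708062695) (nat_lit 3740) (nat_lit 33692452) (nat_lit 0) (nat_lit 0),Row.mk (nat_lit 25536) (nat_lit 3553) (nat_lit 1708062695) (nat_lit 3740) (nat_lit 33692452)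 (nat_lit 0) (nat_lit 0),Row.mk (nat_lit 25704) (nat_lit 3553) (nat_lit 1708062695) (nat_lit 3740) (nat_lit 33692452) (nat_lit 0) (nat_lit 0),Row.mk (nat_lit 25872) (nat_lit 3553) (nat_lit 1708062695) (nat_lit 3740) (nat_lit 33692452) (nat_lit 0) (nat_lit 0),Row.mk (nat_lit 26040) (nat_lit 3553) (nat_lit 1708062695) (nat_lit 3740) (nat_lit 33692452) (nat_lit 0) (nat_lit 0),Row.mk (nat_lit 26208) (nat_lit 3553) (nat_lit 1708062695) (nat_lit 3740) (nat_lit 33692452) (nat_lit 0) (nat_lit 0),Row.mk (nat_lit 26376) (nat_lit 3553) (nat_lit 1708062695) (nat_lit 3740) (nat_lit 33692452) (nat_lit 0) (nat_lit 0),Row.mk (nat_lit 26544) (nat_lit 3553) (nat_lit 1708062695) (nat_lit 3740) (nat_lit 33692452) (nat_lit 0) (nat_lit 0),Row.mk (nat_lit 26712) (nat_lit 3553) (nat_lit 1708062695) (nat_lit 3740) (nat_lit 33692452) (nat_lit 0) (nat_lit 0),Row.mk (nat_lit 26880) (nat_lit 3553) (nat_lit 1708062695) (nat_lit 3740) (nat_lit 33692452) (nat_lit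 0) (nat_lit 0),Row.mk (nat_lit 27048) (nat_lit 3553) (nat_lit 1708062695) (nat_lit 3740) (nat_lit 33692452) (nat_lit 0) (nat_lit 0),Row.mk (nat_lit 27216) (nat_lit 3553) (nat_lit 1708062695) (nat_lit 3740) (nat_lit 33692452) (nat_lit 0) (nat_lit 0),Row.mk (nat_lit 27384) (nat_lit 3553) (nat_lit 1708062695) (nat_lit 3740) (nat_lit 33692452) (nat_lit 0) (nat_lit 0),Row.mk (nat_lit 27552) (nat_lit 3553) (nat_lit 1708062695) (nat_lit 3740) (nat_lit 33692452) (nat_lit 0) (nat_lit 0),Row.mk (nat_lit 27720) (nat_lit 3553) (nat_lit 1708062695) (nat_lit 3740) (nat_lit 33692452) (nat_lit 0) (nat_lit 0),Row.mk (nat_lit 27888) (nat_lit 3553) (nat_lit 1708062695) (nat_lit 3740) (nat_lit 33692452) (nat_lit 0) (nat_lit 0),Row.mk (nat_lit 28056) (nat_lit 3553) (nat_lit 1708062695) (nat_lit 3740) (nat_lit 33692452) (nat_lit 0) (nat_lit 0),Row.mk (nat_lit 28224) (nat_lit 3553) (nat_lit 1708062695) (nat_lit 3740) (nat_lit 33692452) (nat_lit 0) (nat_lit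 0),Row.mk (nat_lit 28392) (nat_lit 3553) (nat_lit 1708062695) (nat_lit 3740) (nat_lit 33692452) (nat_lit 0) (nat_lit 0),Row.mk (nat_lit 28560) (nat_lit 3553) (nat_lit 1708062695) (nat_lit 3740) (nat_lit 33692452) (nat_lit 0) (nat_lit 0),Row.mk (nat_lit 28728) (nat_lit 3553) (nat_lit 1708062695) (nat_lit 3740) (nat_lit 33692452) (nat_lit 0) (nat_lit 0),Row.mk (nat_lit 28896) (nat_lit 3553) (nat_lit 1708062695) (nat_lit 3740) (nat_lit 33692452) (nat_lit 0) (nat_lit 0),Row.mk (nat_lit 29064) (nat_lit 3553) (nat_lit 1708062695) (nat_lit 3740) (nat_lit 33692452) (nat_lit 0) (nat_lit 0)],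
[Row.mk (nat_lit 14952) (nat_lit 2992) (nat_lit 2141717710) (nat_lit 3179) (nat_lit 33692452) (nat_lit 0) (nat_lit 0),Row.mk (nat_lit 15120) (nat_lit 2992) (nat_lit 2141717710) (nat_lit 3179) (nat_lit 33692452) (nat_lit 0) (nat_lit 0),Row.mk (nat_lit 15288) (nat_lit 2992) (nat_lit 2141717710) (nat_lit 3179) (nat_lit 33692452) (nat_lit 0) (nat_lit 0),Row.mk (nat_lit 15456) (nat_lit 2992) (nat_lit 2141717710) (nat_lit 3179) (nat_lit 33692452) (nat_lit 0) (nat_lit 0),Row.mk (nat_lit 15624) (nat_lit 2992) (nat_lit 2141717710) (nat_lit 3179) (nat_lit 33692452) (nat_lit 0) (nat_lit 0),Row.mk (nat_lit 15792) (nat_lit 2992) (nat_lit 2141717710) (nat_lit 3179) (nat_lit 33692452) (nat_lit 0) (nat_lit 0),Row.mk (nat_lit 15960) (nat_lit 2992) (nat_lit 2141717710) (nat_lit 3179) (nat_lit 33692452) (nat_lit 0) (nat_lit 0),Row.mk (nat_lit 16128) (nat_lit 2992) (nat_lit 2141717710) (nat_lit 3179) (nat_lit 33692452) (nat_lit 0) (nat_lit 0),Row.mk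 (nat_lit 16296) (nat_lit 2992) (nat_lit 2141717710) (nat_lit 3179) (nat_lit 33692452) (nat_lit 0) (nat_lit 0),Row.mk (nat_lit 16464) (nat_lit 2992) (nat_lit 2141717710) (nat_lit 3179) (nat_lit 33692452) (nat_lit 0) (nat_lit 0),Row.mk (nat_lit 16632) (nat_lit 2992) (nat_lit 2141717710) (nat_lit 3179) (nat_lit 33692452) (nat_lit 0) (nat_lit 0),Row.mk (nat_lit 16800) (nat_lit 2992) (nat_lit 2141717710) (nat_lit 3179) (nat_lit 33692452) (nat_lit 0) (nat_lit 0),Row.mk (nat_lit 16968) (nat_lit 2992) (nat_lit 2141717710) (nat_lit 3179) (nat_lit 33692452) (nat_lit 0) (nat_lit 0),Row.mk (nat_lit 17136) (nat_lit 2992) (nat_lit 2141717710) (nat_lit 3179) (nat_lit 33692452) (nat_lit 0) (nat_lit 0),Row.mk (nat_lit 17304) (nat_lit 2992) (nat_lit 2141717710) (nat_lit 3179) (nat_lit 33692452) (nat_lit 0) (nat_lit 0),Row.mk (nat_lit 17472) (nat_lit 2992) (nat_lit 2141717710) (nat_lit 3179) (nat_lit 33692452) (nat_lit 0) (nat_lit 0),Row.mk (nat_lit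 17640) (nat_lit 2992) (nat_lit 2141717710) (nat_lit 3179) (nat_lit 33692452) (nat_lit 0) (nat_lit 0),Row.mk (nat_lit 17808) (nat_lit 2992) (nat_lit 2141717710) (nat_lit 3179) (nat_lit 33692452) (nat_lit 0) (nat_lit 0),Row.mk (nat_lit 17976) (nat_lit 2992) (nat_lit 2141717710) (nat_lit 3179) (nat_lit 33692452) (nat_lit 0) (nat_lit 0),Row.mk (nat_lit 18144) (nat_lit 2992) (nat_lit 2141717710) (nat_lit 3179) (nat_lit 33692452) (nat_lit 0) (nat_lit 0),Row.mk (nat_lit 18312) (nat_lit 2992) (nat_lit 2141717710) (nat_lit 3179) (nat_lit 33692452) (nat_lit 0) (nat_lit 0),Row.mk (nat_lit 18480) (nat_lit 2992) (nat_lit 2141717710) (nat_lit 3179) (nat_lit 33692452) (nat_lit 0) (nat_lit 0),Row.mk (nat_lit 18648) (nat_lit 2992) (nat_lit 2141717710) (nat_lit 3179) (nat_lit 33692452) (nat_lit 0) (nat_lit 0),Row.mk (nat_lit 18816) (nat_lit 2992) (nat_lit 2141717710) (nat_lit 3179) (nat_lit 33692452) (nat_lit 0) (nat_lit 0),Row.mk (nat_lit 18984) (nat_lit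 2992) (nat_lit 2141717710) (nat_lit 3179) (nat_lit 33692452) (nat_lit 0) (nat_lit 0),Row.mk (nat_lit 19152) (nat_lit 2992) (nat_lit 2141717710) (nat_lit 3179) (nat_lit 33692452) (nat_lit 0) (nat_lit 0),Row.mk (nat_lit 19320) (nat_lit 2992) (nat_lit 2141717710) (nat_lit 3179) (nat_lit 33692452) (nat_lit 0) (nat_lit 0),Row.mk (nat_lit 19488) (nat_lit 2992) (nat_lit 2141717710) (nat_lit 3179) (nat_lit 33692452) (nat_lit 0) (nat_lit 0),Row.mk (nat_lit 19656) (nat_lit 2992) (nat_lit 2141717710) (nat_lit 3179) (nat_lit 33692452) (nat_lit 0) (nat_lit 0),Row.mk (nat_lit 19824) (nat_lit 2992) (nat_lit 2141717710) (nat_lit 3179) (nat_lit 33692452) (nat_lit 0) (nat_lit 0),Row.mk (nat_lit 19992) (nat_lit 2992) (nat_lit 2141717710) (nat_lit 3179) (nat_lit 33692452) (nat_lit 0) (nat_lit 0),Row.mk (nat_lit 20160) (nat_lit 2992) (nat_lit 2141717710) (nat_lit 3179) (nat_lit 33692452) (nat_lit 0) (nat_lit 0),Row.mk (nat_lit 20328) (nat_lit 2992) (nat_lit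 2141717710) (nat_lit 3179) (nat_lit 33692452) (nat_lit 0) (nat_lit 0),Row.mk (nat_lit 20496) (nat_lit 2992) (nat_lit 2141717710) (nat_lit 3179) (nat_lit 33692452) (nat_lit 0) (nat_lit 0),Row.mk (nat_lit 20664) (nat_lit 2992) (nat_lit 2141717710) (nat_lit 3179) (nat_lit 33692452) (nat_lit 0) (nat_lit 0),Row.mk (nat_lit 20832) (nat_lit 2992) (nat_lit 2141717710) (nat_lit 3179) (nat_lit 33692452) (nat_lit 0) (nat_lit 0),Row.mk (nat_lit 21000) (nat_lit 2992) (nat_lit 2141717710) (nat_lit 3179) (nat_lit 33692452) (nat_lit 0) (nat_lit 0),Row.mk (nat_lit 21168) (nat_lit 2992) (nat_lit 2141717710) (nat_lit 3179) (nat_lit 33692452) (nat_lit 0) (nat_lit 0),Row.mk (nat_lit 21336) (nat_lit 2992) (nat_lit 2141717710) (nat_lit 3179) (nat_lit 33692452) (nat_lit 0) (nat_lit 0),Row.mk (nat_lit 21504) (nat_lit 2992) (nat_lit 2141717710) (nat_lit 3179) (nat_lit 33692452) (nat_lit 0) (nat_lit 0),Row.mk (nat_lit 21672) (nat_lit 2992) (nat_lit 2141717710)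 (nat_lit 3179) (nat_lit 33692452) (nat_lit 0) (nat_lit 0),Row.mk (nat_lit 21840) (nat_lit 2992) (nat_lit 2141717710) (nat_lit 3179) (nat_lit 33692452) (nat_lit 0) (nat_lit 0),Row.mk (nat_lit 22008) (nat_lit 2992) (nat_lit 2141717710) (nat_lit 3179) (nat_lit 33692452) (nat_lit 0) (nat_lit 0),Row.mk (nat_lit 22176) (nat_lit 2992) (nat_lit 2141717710) (nat_lit 3179) (nat_lit 33692452) (nat_lit 0) (nat_lit 0),Row.mk (nat_lit 22344) (nat_lit 2992) (nat_lit 2141717710) (nat_lit 3179) (nat_lit 33692452) (nat_lit 0) (nat_lit 0),Row.mk (nat_lit 22512) (nat_lit 2992) (nat_lit 2141717710) (nat_lit 3179) (nat_lit 33692452) (nat_lit 0) (nat_lit 0),Row.mk (nat_lit 22680) (nat_lit 2992) (nat_lit 2141717710) (nat_lit 3179) (nat_lit 33692452) (nat_lit 0) (nat_lit 0),Row.mk (nat_lit 22848) (nat_lit 2992) (nat_lit 2141717710) (nat_lit 3179) (nat_lit 33692452) (nat_lit 0) (nat_lit 0),Row.mk (nat_lit 23016) (nat_lit 2992) (nat_lit 2141717710) (nat_lit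 3179) (nat_lit 33692452) (nat_lit 0) (nat_lit 0),Row.mk (nat_lit 23184) (nat_lit 2992) (nat_lit 2141717710) (nat_lit 3179) (nat_lit 33692452) (nat_lit 0) (nat_lit 0),Row.mk (nat_lit 23352) (nat_lit 2992) (nat_lit 2141717710) (nat_lit 3179) (nat_lit 33692452) (nat_lit 0) (nat_lit 0),Row.mk (nat_lit 23520) (nat_lit 2992) (nat_lit 2141717710) (nat_lit 3179) (nat_lit 33692452) (nat_lit 0) (nat_lit 0),Row.mk (nat_lit 23688) (nat_lit 2992) (nat_lit 2141717710) (nat_lit 3179) (nat_lit 33692452) (nat_lit 0) (nat_lit 0),Row.mk (nat_lit 23856) (nat_lit 2992) (nat_lit 2141717710) (nat_lit 3179) (nat_lit 33692452) (nat_lit 0) (nat_lit 0),Row.mk (nat_lit 24024) (nat_lit 2992) (nat_lit 2141717710) (nat_lit 3179) (nat_lit 33692452) (nat_lit 0) (nat_lit 0),Row.mk (nat_lit 24192) (nat_lit 2992) (nat_lit 2141717710) (nat_lit 3179) (nat_lit 33692452) (nat_lit 0) (nat_lit 0),Row.mk (nat_lit 24360) (nat_lit 2992) (nat_lit 2141717710) (nat_lit 3179) (nat_lit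 33692452) (nat_lit 0) (nat_lit 0),Row.mk (nat_lit 24528) (nat_lit 2992) (nat_lit 2141717710) (nat_lit 3179) (nat_lit 33692452) (nat_lit 0) (nat_lit 0),Row.mk (nat_lit 24696) (nat_lit 2992) (nat_lit 2141717710) (nat_lit 3179) (nat_lit 33692452) (nat_lit 0) (nat_lit 0),Row.mk (nat_lit 24864) (nat_lit 2992) (nat_lit 2141717710) (nat_lit 3179) (nat_lit 33692452) (nat_lit 0) (nat_lit 0),Row.mk (nat_lit 25032) (nat_lit 2992) (nat_lit 2141717710) (nat_lit 3179) (nat_lit 33692452) (nat_lit 0) (nat_lit 0),Row.mk (nat_lit 25200) (nat_lit 2992) (nat_lit 2141717710) (nat_lit 3179) (nat_lit 33692452) (nat_lit 0) (nat_lit 0),Row.mk (nat_lit 25368) (nat_lit 2992) (nat_lit 2141717710) (nat_lit 3179) (nat_lit 33692452) (nat_lit 0) (nat_lit 0),Row.mk (nat_lit 25536) (nat_lit 2992) (nat_lit 2141717710) (nat_lit 3179) (nat_lit 33692452) (nat_lit 0) (nat_lit 0),Row.mk (nat_lit 25704) (nat_lit 2992) (nat_lit 2141717710) (nat_lit 3179) (nat_lit 33692452)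 (nat_lit 0) (nat_lit 0),Row.mk (nat_lit 25872) (nat_lit 2992) (nat_lit 2141717710) (nat_lit 3179) (nat_lit 33692452) (nat_lit 0) (nat_lit 0),Row.mk (nat_lit 26040) (nat_lit 2992) (nat_lit 2141717710) (nat_lit 3179) (nat_lit 33692452) (nat_lit 0) (nat_lit 0),Row.mk (nat_lit 26208) (nat_lit 2992) (nat_lit 2141717710) (nat_lit 3179) (nat_lit 33692452) (nat_lit 0) (nat_lit 0),Row.mk (nat_lit 26376) (nat_lit 2992) (nat_lit 2141717710) (nat_lit 3179) (nat_lit 33692452) (nat_lit 0) (nat_lit 0),Row.mk (nat_lit 26544) (nat_lit 2992) (nat_lit 2141717710) (nat_lit 3179) (nat_lit 33692452) (nat_lit 0) (nat_lit 0),Row.mk (nat_lit 26712) (nat_lit 2992) (nat_lit 2141717710) (nat_lit 3179) (nat_lit 33692452) (nat_lit 0) (nat_lit 0),Row.mk (nat_lit 26880) (nat_lit 2992) (nat_lit 2141717710) (nat_lit 3179) (nat_lit 33692452) (nat_lit 0) (nat_lit 0),Row.mk (nat_lit 27048) (nat_lit 2992) (nat_lit 2141717710) (nat_lit 3179) (nat_lit 33692452) (nat_lit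 0) (nat_lit 0),Row.mk (nat_lit 27216) (nat_lit 2992) (nat_lit 2141717710) (nat_lit 3179) (nat_lit 33692452) (nat_lit 0) (nat_lit 0),Row.mk (nat_lit 27384) (nat_lit 2992) (nat_lit 2141717710) (nat_lit 3179) (nat_lit 33692452) (nat_lit 0) (nat_lit 0),Row.mk (nat_lit 27552) (nat_lit 2992) (nat_lit 2141717710) (nat_lit 3179) (nat_lit 33692452) (nat_lit 0) (nat_lit 0),Row.mk (nat_lit 27720) (nat_lit 2992) (nat_lit 2141717710) (nat_lit 3179) (nat_lit 33692452) (nat_lit 0) (nat_lit 0),Row.mk (nat_lit 27888) (nat_lit 2992) (nat_lit 2141717710) (nat_lit 3179) (nat_lit 33692452) (nat_lit 0) (nat_lit 0),Row.mk (nat_lit 28056) (nat_lit 2992) (nat_lit 2141717710) (nat_lit 3179) (nat_lit 33692452) (nat_lit 0) (nat_lit 0),Row.mk (nat_lit 28224) (nat_lit 2992) (nat_lit 2141717710) (nat_lit 3179) (nat_lit 33692452) (nat_lit 0) (nat_lit 0),Row.mk (nat_lit 28392) (nat_lit 2992) (nat_lit 2141717710) (nat_lit 3179) (nat_lit 33692452) (nat_lit 0) (nat_lit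 0),Row.mk (nat_lit 28560) (nat_lit 2992) (nat_lit 2141717710) (nat_lit 3179) (nat_lit 33692452) (nat_lit 0) (nat_lit 0),Row.mk (nat_lit 28728) (nat_lit 2992) (nat_lit 2141717710) (nat_lit 3179) (nat_lit 33692452) (nat_lit 0) (nat_lit 0),Row.mk (nat_lit 28896) (nat_lit 2992) (nat_lit 2141717710) (nat_lit 3179) (nat_lit 33692452) (nat_lit 0) (nat_lit 0),Row.mk (nat_lit 29064) (nat_lit 2992) (nat_lit 2141717710) (nat_lit 3179) (nat_lit 33692452) (nat_lit 0) (nat_lit 0)],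
[Row.mk (nat_lit 15120) (nat_lit 2431) (nat_lit 2683342361) (nat_lit 2618) (nat_lit 33692452) (nat_lit 0) (nat_lit 0),Row.mk (nat_lit 15288) (nat_lit 2431) (nat_lit 2683342361) (nat_lit 2618) (nat_lit 33692452) (nat_lit 0) (nat_lit 0),Row.mk (nat_lit 15456) (nat_lit 2431) (nat_lit 2683342361) (nat_lit 2618) (nat_lit 33692452) (nat_lit 0) (nat_lit 0),Row.mk (nat_lit 15624) (nat_lit 2431) (nat_lit 2683342361) (nat_lit 2618) (nat_lit 33692452) (nat_lit 0) (nat_lit 0),Row.mk (nat_lit 15792) (nat_lit 2431) (nat_lit 2683342361) (nat_lit 2618) (nat_lit 33692452) (nat_lit 0) (nat_lit 0),Row.mk (nat_lit 15960) (nat_lit 2431) (nat_lit 2683342361) (nat_lit 2618) (nat_lit 33692452) (nat_lit 0) (nat_lit 0),Row.mk (nat_lit 16128) (nat_lit 2431) (nat_lit 2683342361) (nat_lit 2618) (nat_lit 33692452) (nat_lit 0) (nat_lit 0),Row.mk (nat_lit 16296) (nat_lit 2431) (nat_lit 2683342361) (nat_lit 2618) (nat_lit 33692452) (nat_lit 0) (nat_lit 0),Row.mk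 (nat_lit 16464) (nat_lit 2431) (nat_lit 2683342361) (nat_lit 2618) (nat_lit 33692452) (nat_lit 0) (nat_lit 0),Row.mk (nat_lit 16632) (nat_lit 2431) (nat_lit 2683342361) (nat_lit 2618) (nat_lit 33692452) (nat_lit 0) (nat_lit 0),Row.mk (nat_lit 16800) (nat_lit 2431) (nat_lit 2683342361) (nat_lit 2618) (nat_lit 33692452) (nat_lit 0) (nat_lit 0),Row.mk (nat_lit 16968) (nat_lit 2431) (nat_lit 2683342361) (nat_lit 2618) (nat_lit 33692452) (nat_lit 0) (nat_lit 0),Row.mk (nat_lit 17136) (nat_lit 2431) (nat_lit 2683342361) (nat_lit 2618) (nat_lit 33692452) (nat_lit 0) (nat_lit 0),Row.mk (nat_lit 17304) (nat_lit 2431) (nat_lit 2683342361) (nat_lit 2618) (nat_lit 33692452) (nat_lit 0) (nat_lit 0),Row.mk (nat_lit 17472) (nat_lit 2431) (nat_lit 2683342361) (nat_lit 2618) (nat_lit 33692452) (nat_lit 0) (nat_lit 0),Row.mk (nat_lit 17640) (nat_lit 2431) (nat_lit 2683342361) (nat_lit 2618) (nat_lit 33692452) (nat_lit 0) (nat_lit 0),Row.mk (nat_lit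 17808) (nat_lit 2431) (nat_lit 2683342361) (nat_lit 2618) (nat_lit 33692452) (nat_lit 0) (nat_lit 0),Row.mk (nat_lit 17976) (nat_lit 2431) (nat_lit 2683342361) (nat_lit 2618) (nat_lit 33692452) (nat_lit 0) (nat_lit 0),Row.mk (nat_lit 18144) (nat_lit 2431) (nat_lit 2683342361) (nat_lit 2618) (nat_lit 33692452) (nat_lit 0) (nat_lit 0),Row.mk (nat_lit 18312) (nat_lit 2431) (nat_lit 2683342361) (nat_lit 2618) (nat_lit 33692452) (nat_lit 0) (nat_lit 0),Row.mk (nat_lit 18480) (nat_lit 2431) (nat_lit 2683342361) (nat_lit 2618) (nat_lit 33692452) (nat_lit 0) (nat_lit 0),Row.mk (nat_lit 18648) (nat_lit 2431) (nat_lit 2683342361) (nat_lit 2618) (nat_lit 33692452) (nat_lit 0) (nat_lit 0),Row.mk (nat_lit 18816) (nat_lit 2431) (nat_lit 2683342361) (nat_lit 2618) (nat_lit 33692452) (nat_lit 0) (nat_lit 0),Row.mk (nat_lit 18984) (nat_lit 2431) (nat_lit 2683342361) (nat_lit 2618) (nat_lit 33692452) (nat_lit 0) (nat_lit 0),Row.mk (nat_lit 19152) (nat_lit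 2431) (nat_lit 2683342361) (nat_lit 2618) (nat_lit 33692452) (nat_lit 0) (nat_lit 0),Row.mk (nat_lit 19320) (nat_lit 2431) (nat_lit 2683342361) (nat_lit 2618) (nat_lit 33692452) (nat_lit 0) (nat_lit 0),Row.mk (nat_lit 19488) (nat_lit 2431) (nat_lit 2683342361) (nat_lit 2618) (nat_lit 33692452) (nat_lit 0) (nat_lit 0),Row.mk (nat_lit 19656) (nat_lit 2431) (nat_lit 2683342361) (nat_lit 2618) (nat_lit 33692452) (nat_lit 0) (nat_lit 0),Row.mk (nat_lit 19824) (nat_lit 2431) (nat_lit 2683342361) (nat_lit 2618) (nat_lit 33692452) (nat_lit 0) (nat_lit 0),Row.mk (nat_lit 19992) (nat_lit 2431) (nat_lit 2683342361) (nat_lit 2618) (nat_lit 33692452) (nat_lit 0) (nat_lit 0),Row.mk (nat_lit 20160) (nat_lit 2431) (nat_lit 2683342361) (nat_lit 2618) (nat_lit 33692452) (nat_lit 0) (nat_lit 0),Row.mk (nat_lit 20328) (nat_lit 2431) (nat_lit 2683342361) (nat_lit 2618) (nat_lit 33692452) (nat_lit 0) (nat_lit 0),Row.mk (nat_lit 20496) (nat_lit 2431) (nat_lit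 2683342361) (nat_lit 2618) (nat_lit 33692452) (nat_lit 0) (nat_lit 0),Row.mk (nat_lit 20664) (nat_lit 2431) (nat_lit 2683342361) (nat_lit 2618) (nat_lit 33692452) (nat_lit 0) (nat_lit 0),Row.mk (nat_lit 20832) (nat_lit 2431) (nat_lit 2683342361) (nat_lit 2618) (nat_lit 33692452) (nat_lit 0) (nat_lit 0),Row.mk (nat_lit 21000) (nat_lit 2431) (nat_lit 2683342361) (nat_lit 2618) (nat_lit 33692452) (nat_lit 0) (nat_lit 0),Row.mk (nat_lit 21168) (nat_lit 2431) (nat_lit 2683342361) (nat_lit 2618) (nat_lit 33692452) (nat_lit 0) (nat_lit 0),Row.mk (nat_lit 21336) (nat_lit 2431) (nat_lit 2683342361) (nat_lit 2618) (nat_lit 33692452) (nat_lit 0) (nat_lit 0),Row.mk (nat_lit 21504) (nat_lit 2431) (nat_lit 2683342361) (nat_lit 2618) (nat_lit 33692452) (nat_lit 0) (nat_lit 0),Row.mk (nat_lit 21672) (nat_lit 2431) (nat_lit 2683342361) (nat_lit 2618) (nat_lit 33692452) (nat_lit 0) (nat_lit 0),Row.mk (nat_lit 21840) (nat_lit 2431) (nat_lit 2683342361)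 (nat_lit 2618) (nat_lit 33692452) (nat_lit 0) (nat_lit 0),Row.mk (nat_lit 22008) (nat_lit 2431) (nat_lit 2683342361) (nat_lit 2618) (nat_lit 33692452) (nat_lit 0) (nat_lit 0),Row.mk (nat_lit 22176) (nat_lit 2431) (nat_lit 2683342361) (nat_lit 2618) (nat_lit 33692452) (nat_lit 0) (nat_lit 0),Row.mk (nat_lit 22344) (nat_lit 2431) (nat_lit 2683342361) (nat_lit 2618) (nat_lit 33692452) (nat_lit 0) (nat_lit 0),Row.mk (nat_lit 22512) (nat_lit 2431) (nat_lit 2683342361) (nat_lit 2618) (nat_lit 33692452) (nat_lit 0) (nat_lit 0),Row.mk (nat_lit 22680) (nat_lit 2431) (nat_lit 2683342361) (nat_lit 2618) (nat_lit 33692452) (nat_lit 0) (nat_lit 0),Row.mk (nat_lit 22848) (nat_lit 2431) (nat_lit 2683342361) (nat_lit 2618) (nat_lit 33692452) (nat_lit 0) (nat_lit 0),Row.mk (nat_lit 23016) (nat_lit 2431) (nat_lit 2683342361) (nat_lit 2618) (nat_lit 33692452) (nat_lit 0) (nat_lit 0),Row.mk (nat_lit 23184) (nat_lit 2431) (nat_lit 2683342361) (nat_lit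 2618) (nat_lit 33692452) (nat_lit 0) (nat_lit 0),Row.mk (nat_lit 23352) (nat_lit 2431) (nat_lit 2683342361) (nat_lit 2618) (nat_lit 33692452) (nat_lit 0) (nat_lit 0),Row.mk (nat_lit 23520) (nat_lit 2431) (nat_lit 2683342361) (nat_lit 2618) (nat_lit 33692452) (nat_lit 0) (nat_lit 0),Row.mk (nat_lit 23688) (nat_lit 2431) (nat_lit 2683342361) (nat_lit 2618) (nat_lit 33692452) (nat_lit 0) (nat_lit 0),Row.mk (nat_lit 23856) (nat_lit 2431) (nat_lit 2683342361) (nat_lit 2618) (nat_lit 33692452) (nat_lit 0) (nat_lit 0),Row.mk (nat_lit 24024) (nat_lit 2431) (nat_lit 2683342361) (nat_lit 2618) (nat_lit 33692452) (nat_lit 0) (nat_lit 0),Row.mk (nat_lit 24192) (nat_lit 2431) (nat_lit 2683342361) (nat_lit 2618) (nat_lit 33692452) (nat_lit 0) (nat_lit 0),Row.mk (nat_lit 24360) (nat_lit 2431) (nat_lit 2683342361) (nat_lit 2618) (nat_lit 33692452) (nat_lit 0) (nat_lit 0),Row.mk (nat_lit 24528) (nat_lit 2431) (nat_lit 2683342361) (nat_lit 2618) (nat_lit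 33692452) (nat_lit 0) (nat_lit 0),Row.mk (nat_lit 24696) (nat_lit 2431) (nat_lit 2683342361) (nat_lit 2618) (nat_lit 33692452) (nat_lit 0) (nat_lit 0),Row.mk (nat_lit 24864) (nat_lit 2431) (nat_lit 2683342361) (nat_lit 2618) (nat_lit 33692452) (nat_lit 0) (nat_lit 0),Row.mk (nat_lit 25032) (nat_lit 2431) (nat_lit 2683342361) (nat_lit 2618) (nat_lit 33692452) (nat_lit 0) (nat_lit 0),Row.mk (nat_lit 25200) (nat_lit 2431) (nat_lit 2683342361) (nat_lit 2618) (nat_lit 33692452) (nat_lit 0) (nat_lit 0),Row.mk (nat_lit 25368) (nat_lit 2431) (nat_lit 2683342361) (nat_lit 2618) (nat_lit 33692452) (nat_lit 0) (nat_lit 0),Row.mk (nat_lit 25536) (nat_lit 2431) (nat_lit 2683342361) (nat_lit 2618) (nat_lit 33692452) (nat_lit 0) (nat_lit 0),Row.mk (nat_lit 25704) (nat_lit 2431) (nat_lit 2683342361) (nat_lit 2618) (nat_lit 33692452) (nat_lit 0) (nat_lit 0),Row.mk (nat_lit 25872) (nat_lit 2431) (nat_lit 2683342361) (nat_lit 2618) (nat_lit 33692452)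 (nat_lit 0) (nat_lit 0),Row.mk (nat_lit 26040) (nat_lit 2431) (nat_lit 2683342361) (nat_lit 2618) (nat_lit 33692452) (nat_lit 0) (nat_lit 0),Row.mk (nat_lit 26208) (nat_lit 2431) (nat_lit 2683342361) (nat_lit 2618) (nat_lit 33692452) (nat_lit 0) (nat_lit 0),Row.mk (nat_lit 26376) (nat_lit 2431) (nat_lit 2683342361) (nat_lit 2618) (nat_lit 33692452) (nat_lit 0) (nat_lit 0),Row.mk (nat_lit 26544) (nat_lit 2431) (nat_lit 2683342361) (nat_lit 2618) (nat_lit 33692452) (nat_lit 0) (nat_lit 0),Row.mk (nat_lit 26712) (nat_lit 2431) (nat_lit 2683342361) (nat_lit 2618) (nat_lit 33692452) (nat_lit 0) (nat_lit 0),Row.mk (nat_lit 26880) (nat_lit 2431) (nat_lit 2683342361) (nat_lit 2618) (nat_lit 33692452) (nat_lit 0) (nat_lit 0),Row.mk (nat_lit 27048) (nat_lit 2431) (nat_lit 2683342361) (nat_lit 2618) (nat_lit 33692452) (nat_lit 0) (nat_lit 0),Row.mk (nat_lit 27216) (nat_lit 2431) (nat_lit 2683342361) (nat_lit 2618) (nat_lit 33692452) (nat_lit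 0) (nat_lit 0),Row.mk (nat_lit 27384) (nat_lit 2431) (nat_lit 2683342361) (nat_lit 2618) (nat_lit 33692452) (nat_lit 0) (nat_lit 0),Row.mk (nat_lit 27552) (nat_lit 2431) (nat_lit 2683342361) (nat_lit 2618) (nat_lit 33692452) (nat_lit 0) (nat_lit 0),Row.mk (nat_lit 27720) (nat_lit 2431) (nat_lit 2683342361) (nat_lit 2618) (nat_lit 33692452) (nat_lit 0) (nat_lit 0),Row.mk (nat_lit 27888) (nat_lit 2431) (nat_lit 2683342361) (nat_lit 2618) (nat_lit 33692452) (nat_lit 0) (nat_lit 0),Row.mk (nat_lit 28056) (nat_lit 2431) (nat_lit 2683342361) (nat_lit 2618) (nat_lit 33692452) (nat_lit 0) (nat_lit 0),Row.mk (nat_lit 28224) (nat_lit 2431) (nat_lit 2683342361) (nat_lit 2618) (nat_lit 33692452) (nat_lit 0) (nat_lit 0),Row.mk (nat_lit 28392) (nat_lit 2431) (nat_lit 2683342361) (nat_lit 2618) (nat_lit 33692452) (nat_lit 0) (nat_lit 0),Row.mk (nat_lit 28560) (nat_lit 2431) (nat_lit 2683342361) (nat_lit 2618) (nat_lit 33692452) (nat_lit 0) (nat_lit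 0),Row.mk (nat_lit 28728) (nat_lit 2431) (nat_lit 2683342361) (nat_lit 2618) (nat_lit 33692452) (nat_lit 0) (nat_lit 0),Row.mk (nat_lit 28896) (nat_lit 2431) (nat_lit 2683342361) (nat_lit 2618) (nat_lit 33692452) (nat_lit 0) (nat_lit 0),Row.mk (nat_lit 29064) (nat_lit 2431) (nat_lit 2683342361) (nat_lit 2618) (nat_lit 33692452) (nat_lit 0) (nat_lit 0),Row.mk (nat_lit 29232) (nat_lit 2431) (nat_lit 2683342361) (nat_lit 2618) (nat_lit 33692452) (nat_lit 0) (nat_lit 0)],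
[Row.mk (nat_lit 15288) (nat_lit 1870) (nat_lit 3359818485) (nat_lit 2057) (nat_lit 33692452) (nat_lit 0) (nat_lit 0),Row.mk (nat_lit 15456) (nat_lit 1870) (nat_lit 3359818485) (nat_lit 2057) (nat_lit 33692452) (nat_lit 0) (nat_lit 0),Row.mk (nat_lit 15624) (nat_lit 1870) (nat_lit 3359818485) (nat_lit 2057) (nat_lit 33692452) (nat_lit 0) (nat_lit 0),Row.mk (nat_lit 15792) (nat_lit 1870) (nat_lit 3359818485) (nat_lit 2057) (nat_lit 33692452) (nat_lit 0) (nat_lit 0),Row.mk (nat_lit 15960) (nat_lit 1870) (nat_lit 3359818485) (nat_lit 2057) (nat_lit 33692452) (nat_lit 0) (nat_lit 0),Row.mk (nat_lit 16128) (nat_lit 1870) (nat_lit 3359818485) (nat_lit 2057) (nat_lit 33692452) (nat_lit 0) (nat_lit 0),Row.mk (nat_lit 16296) (nat_lit 1870) (nat_lit 3359818485) (nat_lit 2057) (nat_lit 33692452) (nat_lit 0) (nat_lit 0),Row.mk (nat_lit 16464) (nat_lit 1870) (nat_lit 3359818485) (nat_lit 2057) (nat_lit 33692452) (nat_lit 0) (nat_lit 0),Row.mk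 (nat_lit 16632) (nat_lit 1870) (nat_lit 3359818485) (nat_lit 2057) (nat_lit 33692452) (nat_lit 0) (nat_lit 0),Row.mk (nat_lit 16800) (nat_lit 1870) (nat_lit 3359818485) (nat_lit 2057) (nat_lit 33692452) (nat_lit 0) (nat_lit 0),Row.mk (nat_lit 16968) (nat_lit 1870) (nat_lit 3359818485) (nat_lit 2057) (nat_lit 33692452) (nat_lit 0) (nat_lit 0),Row.mk (nat_lit 17136) (nat_lit 1870) (nat_lit 3359818485) (nat_lit 2057) (nat_lit 33692452) (nat_lit 0) (nat_lit 0),Row.mk (nat_lit 17304) (nat_lit 1870) (nat_lit 3359818485) (nat_lit 2057) (nat_lit 33692452) (nat_lit 0) (nat_lit 0),Row.mk (nat_lit 17472) (nat_lit 1870) (nat_lit 3359818485) (nat_lit 2057) (nat_lit 33692452) (nat_lit 0) (nat_lit 0),Row.mk (nat_lit 17640) (nat_lit 1870) (nat_lit 3359818485) (nat_lit 2057) (nat_lit 33692452) (nat_lit 0) (nat_lit 0),Row.mk (nat_lit 17808) (nat_lit 1870) (nat_lit 3359818485) (nat_lit 2057) (nat_lit 33692452) (nat_lit 0) (nat_lit 0),Row.mk (nat_lit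 17976) (nat_lit 1870) (nat_lit 3359818485) (nat_lit 2057) (nat_lit 33692452) (nat_lit 0) (nat_lit 0),Row.mk (nat_lit 18144) (nat_lit 1870) (nat_lit 3359818485) (nat_lit 2057) (nat_lit 33692452) (nat_lit 0) (nat_lit 0),Row.mk (nat_lit 18312) (nat_lit 1870) (nat_lit 3359818485) (nat_lit 2057) (nat_lit 33692452) (nat_lit 0) (nat_lit 0),Row.mk (nat_lit 18480) (nat_lit 1870) (nat_lit 3359818485) (nat_lit 2057) (nat_lit 33692452) (nat_lit 0) (nat_lit 0),Row.mk (nat_lit 18648) (nat_lit 1870) (nat_lit 3359818485) (nat_lit 2057) (nat_lit 33692452) (nat_lit 0) (nat_lit 0),Row.mk (nat_lit 18816) (nat_lit 1870) (nat_lit 3359818485) (nat_lit 2057) (nat_lit 33692452) (nat_lit 0) (nat_lit 0),Row.mk (nat_lit 18984) (nat_lit 1870) (nat_lit 3359818485) (nat_lit 2057) (nat_lit 33692452) (nat_lit 0) (nat_lit 0),Row.mk (nat_lit 19152) (nat_lit 1870) (nat_lit 3359818485) (nat_lit 2057) (nat_lit 33692452) (nat_lit 0) (nat_lit 0),Row.mk (nat_lit 19320) (nat_lit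 1870) (nat_lit 3359818485) (nat_lit 2057) (nat_lit 33692452) (nat_lit 0) (nat_lit 0),Row.mk (nat_lit 19488) (nat_lit 1870) (nat_lit 3359818485) (nat_lit 2057) (nat_lit 33692452) (nat_lit 0) (nat_lit 0),Row.mk (nat_lit 19656) (nat_lit 1870) (nat_lit 3359818485) (nat_lit 2057) (nat_lit 33692452) (nat_lit 0) (nat_lit 0),Row.mk (nat_lit 19824) (nat_lit 1870) (nat_lit 3359818485) (nat_lit 2057) (nat_lit 33692452) (nat_lit 0) (nat_lit 0),Row.mk (nat_lit 19992) (nat_lit 1870) (nat_lit 3359818485) (nat_lit 2057) (nat_lit 33692452) (nat_lit 0) (nat_lit 0),Row.mk (nat_lit 20160) (nat_lit 1870) (nat_lit 3359818485) (nat_lit 2057) (nat_lit 33692452) (nat_lit 0) (nat_lit 0),Row.mk (nat_lit 20328) (nat_lit 1870) (nat_lit 3359818485) (nat_lit 2057) (nat_lit 33692452) (nat_lit 0) (nat_lit 0),Row.mk (nat_lit 20496) (nat_lit 1870) (nat_lit 3359818485) (nat_lit 2057) (nat_lit 33692452) (nat_lit 0) (nat_lit 0),Row.mk (nat_lit 20664) (nat_lit 1870) (nat_lit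 3359818485) (nat_lit 2057) (nat_lit 33692452) (nat_lit 0) (nat_lit 0),Row.mk (nat_lit 20832) (nat_lit 1870) (nat_lit 3359818485) (nat_lit 2057) (nat_lit 33692452) (nat_lit 0) (nat_lit 0),Row.mk (nat_lit 21000) (nat_lit 1870) (nat_lit 3359818485) (nat_lit 2057) (nat_lit 33692452) (nat_lit 0) (nat_lit 0),Row.mk (nat_lit 21168) (nat_lit 1870) (nat_lit 3359818485) (nat_lit 2057) (nat_lit 33692452) (nat_lit 0) (nat_lit 0),Row.mk (nat_lit 21336) (nat_lit 1870) (nat_lit 3359818485) (nat_lit 2057) (nat_lit 33692452) (nat_lit 0) (nat_lit 0),Row.mk (nat_lit 21504) (nat_lit 1870) (nat_lit 3359818485) (nat_lit 2057) (nat_lit 33692452) (nat_lit 0) (nat_lit 0),Row.mk (nat_lit 21672) (nat_lit 1870) (nat_lit 3359818485) (nat_lit 2057) (nat_lit 33692452) (nat_lit 0) (nat_lit 0),Row.mk (nat_lit 21840) (nat_lit 1870) (nat_lit 3359818485) (nat_lit 2057) (nat_lit 33692452) (nat_lit 0) (nat_lit 0),Row.mk (nat_lit 22008) (nat_lit 1870) (nat_lit 3359818485)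 (nat_lit 2057) (nat_lit 33692452) (nat_lit 0) (nat_lit 0),Row.mk (nat_lit 22176) (nat_lit 1870) (nat_lit 3359818485) (nat_lit 2057) (nat_lit 33692452) (nat_lit 0) (nat_lit 0),Row.mk (nat_lit 22344) (nat_lit 1870) (nat_lit 3359818485) (nat_lit 2057) (nat_lit 33692452) (nat_lit 0) (nat_lit 0),Row.mk (nat_lit 22512) (nat_lit 1870) (nat_lit 3359818485) (nat_lit 2057) (nat_lit 33692452) (nat_lit 0) (nat_lit 0),Row.mk (nat_lit 22680) (nat_lit 1870) (nat_lit 3359818485) (nat_lit 2057) (nat_lit 33692452) (nat_lit 0) (nat_lit 0),Row.mk (nat_lit 22848) (nat_lit 1870) (nat_lit 3359818485) (nat_lit 2057) (nat_lit 33692452) (nat_lit 0) (nat_lit 0),Row.mk (nat_lit 23016) (nat_lit 1870) (nat_lit 3359818485) (nat_lit 2057) (nat_lit 33692452) (nat_lit 0) (nat_lit 0),Row.mk (nat_lit 23184) (nat_lit 1870) (nat_lit 3359818485) (nat_lit 2057) (nat_lit 33692452) (nat_lit 0) (nat_lit 0),Row.mk (nat_lit 23352) (nat_lit 1870) (nat_lit 3359818485) (nat_lit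 2057) (nat_lit 33692452) (nat_lit 0) (nat_lit 0),Row.mk (nat_lit 23520) (nat_lit 1870) (nat_lit 3359818485) (nat_lit 2057) (nat_lit 33692452) (nat_lit 0) (nat_lit 0),Row.mk (nat_lit 23688) (nat_lit 1870) (nat_lit 3359818485) (nat_lit 2057) (nat_lit 33692452) (nat_lit 0) (nat_lit 0),Row.mk (nat_lit 23856) (nat_lit 1870) (nat_lit 3359818485) (nat_lit 2057) (nat_lit 33692452) (nat_lit 0) (nat_lit 0),Row.mk (nat_lit 24024) (nat_lit 1870) (nat_lit 3359818485) (nat_lit 2057) (nat_lit 33692452) (nat_lit 0) (nat_lit 0),Row.mk (nat_lit 24192) (nat_lit 1870) (nat_lit 3359818485) (nat_lit 2057) (nat_lit 33692452) (nat_lit 0) (nat_lit 0),Row.mk (nat_lit 24360) (nat_lit 1870) (nat_lit 3359818485) (nat_lit 2057) (nat_lit 33692452) (nat_lit 0) (nat_lit 0),Row.mk (nat_lit 24528) (nat_lit 1870) (nat_lit 3359818485) (nat_lit 2057) (nat_lit 33692452) (nat_lit 0) (nat_lit 0),Row.mk (nat_lit 24696) (nat_lit 1870) (nat_lit 3359818485) (nat_lit 2057) (nat_lit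 33692452) (nat_lit 0) (nat_lit 0),Row.mk (nat_lit 24864) (nat_lit 1870) (nat_lit 3359818485) (nat_lit 2057) (nat_lit 33692452) (nat_lit 0) (nat_lit 0),Row.mk (nat_lit 25032) (nat_lit 1870) (nat_lit 3359818485) (nat_lit 2057) (nat_lit 33692452) (nat_lit 0) (nat_lit 0),Row.mk (nat_lit 25200) (nat_lit 1870) (nat_lit 3359818485) (nat_lit 2057) (nat_lit 33692452) (nat_lit 0) (nat_lit 0),Row.mk (nat_lit 25368) (nat_lit 1870) (nat_lit 3359818485) (nat_lit 2057) (nat_lit 33692452) (nat_lit 0) (nat_lit 0),Row.mk (nat_lit 25536) (nat_lit 1870) (nat_lit 3359818485) (nat_lit 2057) (nat_lit 33692452) (nat_lit 0) (nat_lit 0),Row.mk (nat_lit 25704) (nat_lit 1870) (nat_lit 3359818485) (nat_lit 2057) (nat_lit 33692452) (nat_lit 0) (nat_lit 0),Row.mk (nat_lit 25872) (nat_lit 1870) (nat_lit 3359818485) (nat_lit 2057) (nat_lit 33692452) (nat_lit 0) (nat_lit 0),Row.mk (nat_lit 26040) (nat_lit 1870) (nat_lit 3359818485) (nat_lit 2057) (nat_lit 33692452)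 (nat_lit 0) (nat_lit 0),Row.mk (nat_lit 26208) (nat_lit 1870) (nat_lit 3359818485) (nat_lit 2057) (nat_lit 33692452) (nat_lit 0) (nat_lit 0),Row.mk (nat_lit 26376) (nat_lit 1870) (nat_lit 3359818485) (nat_lit 2057) (nat_lit 33692452) (nat_lit 0) (nat_lit 0),Row.mk (nat_lit 26544) (nat_lit 1870) (nat_lit 3359818485) (nat_lit 2057) (nat_lit 33692452) (nat_lit 0) (nat_lit 0),Row.mk (nat_lit 26712) (nat_lit 1870) (nat_lit 3359818485) (nat_lit 2057) (nat_lit 33692452) (nat_lit 0) (nat_lit 0),Row.mk (nat_lit 26880) (nat_lit 1870) (nat_lit 3359818485) (nat_lit 2057) (nat_lit 33692452) (nat_lit 0) (nat_lit 0),Row.mk (nat_lit 27048) (nat_lit 1870) (nat_lit 3359818485) (nat_lit 2057) (nat_lit 33692452) (nat_lit 0) (nat_lit 0),Row.mk (nat_lit 27216) (nat_lit 1870) (nat_lit 3359818485) (nat_lit 2057) (nat_lit 33692452) (nat_lit 0) (nat_lit 0),Row.mk (nat_lit 27384) (nat_lit 1870) (nat_lit 3359818485) (nat_lit 2057) (nat_lit 33692452) (nat_lit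 0) (nat_lit 0),Row.mk (nat_lit 27552) (nat_lit 1870) (nat_lit 3359818485) (nat_lit 2057) (nat_lit 33692452) (nat_lit 0) (nat_lit 0),Row.mk (nat_lit 27720) (nat_lit 1870) (nat_lit 3359818485) (nat_lit 2057) (nat_lit 33692452) (nat_lit 0) (nat_lit 0),Row.mk (nat_lit 27888) (nat_lit 1870) (nat_lit 3359818485) (nat_lit 2057) (nat_lit 33692452) (nat_lit 0) (nat_lit 0),Row.mk (nat_lit 28056) (nat_lit 1870) (nat_lit 3359818485) (nat_lit 2057) (nat_lit 33692452) (nat_lit 0) (nat_lit 0),Row.mk (nat_lit 28224) (nat_lit 1870) (nat_lit 3359818485) (nat_lit 2057) (nat_lit 33692452) (nat_lit 0) (nat_lit 0),Row.mk (nat_lit 28392) (nat_lit 1870) (nat_lit 3359818485) (nat_lit 2057) (nat_lit 33692452) (nat_lit 0) (nat_lit 0),Row.mk (nat_lit 28560) (nat_lit 1870) (nat_lit 3359818485) (nat_lit 2057) (nat_lit 33692452) (nat_lit 0) (nat_lit 0),Row.mk (nat_lit 28728) (nat_lit 1870) (nat_lit 3359818485) (nat_lit 2057) (nat_lit 33692452) (nat_lit 0) (nat_lit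 0),Row.mk (nat_lit 28896) (nat_lit 1870) (nat_lit 3359818485) (nat_lit 2057) (nat_lit 33692452) (nat_lit 0) (nat_lit 0),Row.mk (nat_lit 29064) (nat_lit 1870) (nat_lit 3359818485) (nat_lit 2057) (nat_lit 33692452) (nat_lit 0) (nat_lit 0),Row.mk (nat_lit 29232) (nat_lit 1870) (nat_lit 3359818485) (nat_lit 2057) (nat_lit 33692452) (nat_lit 0) (nat_lit 0),Row.mk (nat_lit 29400) (nat_lit 1870) (nat_lit 3359818485) (nat_lit 2057) (nat_lit 33692452) (nat_lit 0) (nat_lit 0)],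
[Row.mk (nat_lit 15456) (nat_lit 1309) (nat_lit 4204720844) (nat_lit 1496) (nat_lit 33692452) (nat_lit 0) (nat_lit 0),Row.mk (nat_lit 15624) (nat_lit 1309) (nat_lit 4204720844) (nat_lit 1496) (nat_lit 33692452) (nat_lit 0) (nat_lit 0),Row.mk (nat_lit 15792) (nat_lit 1309) (nat_lit 4204720844) (nat_lit 1496) (nat_lit 33692452) (nat_lit 0) (nat_lit 0),Row.mk (nat_lit 15960) (nat_lit 1309) (nat_lit 4204720844) (nat_lit 1496) (nat_lit 33692452) (nat_lit 0) (nat_lit 0),Row.mk (nat_lit 16128) (nat_lit 1309) (nat_lit 4204720844) (nat_lit 1496) (nat_lit 33692452) (nat_lit 0) (nat_lit 0),Row.mk (nat_lit 16296) (nat_lit 1309) (nat_lit 4204720844) (nat_lit 1496) (nat_lit 33692452) (nat_lit 0) (nat_lit 0),Row.mk (nat_lit 16464) (nat_lit 1309) (nat_lit 4204720844) (nat_lit 1496) (nat_lit 33692452) (nat_lit 0) (nat_lit 0),Row.mk (nat_lit 16632) (nat_lit 1309) (nat_lit 4204720844) (nat_lit 1496) (nat_lit 33692452) (nat_lit 0) (nat_lit 0),Row.mk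 (nat_lit 16800) (nat_lit 1309) (nat_lit 4204720844) (nat_lit 1496) (nat_lit 33692452) (nat_lit 0) (nat_lit 0),Row.mk (nat_lit 16968) (nat_lit 1309) (nat_lit 4204720844) (nat_lit 1496) (nat_lit 33692452) (nat_lit 0) (nat_lit 0),Row.mk (nat_lit 17136) (nat_lit 1309) (nat_lit 4204720844) (nat_lit 1496) (nat_lit 33692452) (nat_lit 0) (nat_lit 0),Row.mk (nat_lit 17304) (nat_lit 1309) (nat_lit 4204720844) (nat_lit 1496) (nat_lit 33692452) (nat_lit 0) (nat_lit 0),Row.mk (nat_lit 17472) (nat_lit 1309) (nat_lit 4204720844) (nat_lit 1496) (nat_lit 33692452) (nat_lit 0) (nat_lit 0),Row.mk (nat_lit 17640) (nat_lit 1309) (nat_lit 4204720844) (nat_lit 1496) (nat_lit 33692452) (nat_lit 0) (nat_lit 0),Row.mk (nat_lit 17808) (nat_lit 1309) (nat_lit 4204720844) (nat_lit 1496) (nat_lit 33692452) (nat_lit 0) (nat_lit 0),Row.mk (nat_lit 17976) (nat_lit 1309) (nat_lit 4204720844) (nat_lit 1496) (nat_lit 33692452) (nat_lit 0) (nat_lit 0),Row.mk (nat_lit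 18144) (nat_lit 1309) (nat_lit 4204720844) (nat_lit 1496) (nat_lit 33692452) (nat_lit 0) (nat_lit 0),Row.mk (nat_lit 18312) (nat_lit 1309) (nat_lit 4204720844) (nat_lit 1496) (nat_lit 33692452) (nat_lit 0) (nat_lit 0),Row.mk (nat_lit 18480) (nat_lit 1309) (nat_lit 4204720844) (nat_lit 1496) (nat_lit 33692452) (nat_lit 0) (nat_lit 0),Row.mk (nat_lit 18648) (nat_lit 1309) (nat_lit 4204720844) (nat_lit 1496) (nat_lit 33692452) (nat_lit 0) (nat_lit 0),Row.mk (nat_lit 18816) (nat_lit 1309) (nat_lit 4204720844) (nat_lit 1496) (nat_lit 33692452) (nat_lit 0) (nat_lit 0),Row.mk (nat_lit 18984) (nat_lit 1309) (nat_lit 4204720844) (nat_lit 1496) (nat_lit 33692452) (nat_lit 0) (nat_lit 0),Row.mk (nat_lit 19152) (nat_lit 1309) (nat_lit 4204720844) (nat_lit 1496) (nat_lit 33692452) (nat_lit 0) (nat_lit 0),Row.mk (nat_lit 19320) (nat_lit 1309) (nat_lit 4204720844) (nat_lit 1496) (nat_lit 33692452) (nat_lit 0) (nat_lit 0),Row.mk (nat_lit 19488) (nat_lit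 1309) (nat_lit 4204720844) (nat_lit 1496) (nat_lit 33692452) (nat_lit 0) (nat_lit 0),Row.mk (nat_lit 19656) (nat_lit 1309) (nat_lit 4204720844) (nat_lit 1496) (nat_lit 33692452) (nat_lit 0) (nat_lit 0),Row.mk (nat_lit 19824) (nat_lit 1309) (nat_lit 4204720844) (nat_lit 1496) (nat_lit 33692452) (nat_lit 0) (nat_lit 0),Row.mk (nat_lit 19992) (nat_lit 1309) (nat_lit 4204720844) (nat_lit 1496) (nat_lit 33692452) (nat_lit 0) (nat_lit 0),Row.mk (nat_lit 20160) (nat_lit 1309) (nat_lit 4204720844) (nat_lit 1496) (nat_lit 33692452) (nat_lit 0) (nat_lit 0),Row.mk (nat_lit 20328) (nat_lit 1309) (nat_lit 4204720844) (nat_lit 1496) (nat_lit 33692452) (nat_lit 0) (nat_lit 0),Row.mk (nat_lit 20496) (nat_lit 1309) (nat_lit 4204720844) (nat_lit 1496) (nat_lit 33692452) (nat_lit 0) (nat_lit 0),Row.mk (nat_lit 20664) (nat_lit 1309) (nat_lit 4204720844) (nat_lit 1496) (nat_lit 33692452) (nat_lit 0) (nat_lit 0),Row.mk (nat_lit 20832) (nat_lit 1309) (nat_lit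 4204720844) (nat_lit 1496) (nat_lit 33692452) (nat_lit 0) (nat_lit 0),Row.mk (nat_lit 21000) (nat_lit 1309) (nat_lit 4204720844) (nat_lit 1496) (nat_lit 33692452) (nat_lit 0) (nat_lit 0),Row.mk (nat_lit 21168) (nat_lit 1309) (nat_lit 4204720844) (nat_lit 1496) (nat_lit 33692452) (nat_lit 0) (nat_lit 0),Row.mk (nat_lit 21336) (nat_lit 1309) (nat_lit 4204720844) (nat_lit 1496) (nat_lit 33692452) (nat_lit 0) (nat_lit 0),Row.mk (nat_lit 21504) (nat_lit 1309) (nat_lit 4204720844) (nat_lit 1496) (nat_lit 33692452) (nat_lit 0) (nat_lit 0),Row.mk (nat_lit 21672) (nat_lit 1309) (nat_lit 4204720844) (nat_lit 1496) (nat_lit 33692452) (nat_lit 0) (nat_lit 0),Row.mk (nat_lit 21840) (nat_lit 1309) (nat_lit 4204720844) (nat_lit 1496) (nat_lit 33692452) (nat_lit 0) (nat_lit 0),Row.mk (nat_lit 22008) (nat_lit 1309) (nat_lit 4204720844) (nat_lit 1496) (nat_lit 33692452) (nat_lit 0) (nat_lit 0),Row.mk (nat_lit 22176) (nat_lit 1309) (nat_lit 4204720844)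 (nat_lit 1496) (nat_lit 33692452) (nat_lit 0) (nat_lit 0),Row.mk (nat_lit 22344) (nat_lit 1309) (nat_lit 4204720844) (nat_lit 1496) (nat_lit 33692452) (nat_lit 0) (nat_lit 0),Row.mk (nat_lit 22512) (nat_lit 1309) (nat_lit 4204720844) (nat_lit 1496) (nat_lit 33692452) (nat_lit 0) (nat_lit 0),Row.mk (nat_lit 22680) (nat_lit 1309) (nat_lit 4204720844) (nat_lit 1496) (nat_lit 33692452) (nat_lit 0) (nat_lit 0),Row.mk (nat_lit 22848) (nat_lit 1309) (nat_lit 4204720844) (nat_lit 1496) (nat_lit 33692452) (nat_lit 0) (nat_lit 0),Row.mk (nat_lit 23016) (nat_lit 1309) (nat_lit 4204720844) (nat_lit 1496) (nat_lit 33692452) (nat_lit 0) (nat_lit 0),Row.mk (nat_lit 23184) (nat_lit 1309) (nat_lit 4204720844) (nat_lit 1496) (nat_lit 33692452) (nat_lit 0) (nat_lit 0),Row.mk (nat_lit 23352) (nat_lit 1309) (nat_lit 4204720844) (nat_lit 1496) (nat_lit 33692452) (nat_lit 0) (nat_lit 0),Row.mk (nat_lit 23520) (nat_lit 1309) (nat_lit 4204720844) (nat_lit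 1496) (nat_lit 33692452) (nat_lit 0) (nat_lit 0),Row.mk (nat_lit 23688) (nat_lit 1309) (nat_lit 4204720844) (nat_lit 1496) (nat_lit 33692452) (nat_lit 0) (nat_lit 0),Row.mk (nat_lit 23856) (nat_lit 1309) (nat_lit 4204720844) (nat_lit 1496) (nat_lit 33692452) (nat_lit 0) (nat_lit 0),Row.mk (nat_lit 24024) (nat_lit 1309) (nat_lit 4204720844) (nat_lit 1496) (nat_lit 33692452) (nat_lit 0) (nat_lit 0),Row.mk (nat_lit 24192) (nat_lit 1309) (nat_lit 4204720844) (nat_lit 1496) (nat_lit 33692452) (nat_lit 0) (nat_lit 0),Row.mk (nat_lit 24360) (nat_lit 1309) (nat_lit 4204720844) (nat_lit 1496) (nat_lit 33692452) (nat_lit 0) (nat_lit 0),Row.mk (nat_lit 24528) (nat_lit 1309) (nat_lit 4204720844) (nat_lit 1496) (nat_lit 33692452) (nat_lit 0) (nat_lit 0),Row.mk (nat_lit 24696) (nat_lit 1309) (nat_lit 4204720844) (nat_lit 1496) (nat_lit 33692452) (nat_lit 0) (nat_lit 0),Row.mk (nat_lit 24864) (nat_lit 1309) (nat_lit 4204720844) (nat_lit 1496) (nat_lit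 33692452) (nat_lit 0) (nat_lit 0),Row.mk (nat_lit 25032) (nat_lit 1309) (nat_lit 4204720844) (nat_lit 1496) (nat_lit 33692452) (nat_lit 0) (nat_lit 0),Row.mk (nat_lit 25200) (nat_lit 1309) (nat_lit 4204720844) (nat_lit 1496) (nat_lit 33692452) (nat_lit 0) (nat_lit 0),Row.mk (nat_lit 25368) (nat_lit 1309) (nat_lit 4204720844) (nat_lit 1496) (nat_lit 33692452) (nat_lit 0) (nat_lit 0),Row.mk (nat_lit 25536) (nat_lit 1309) (nat_lit 4204720844) (nat_lit 1496) (nat_lit 33692452) (nat_lit 0) (nat_lit 0),Row.mk (nat_lit 25704) (nat_lit 1309) (nat_lit 4204720844) (nat_lit 1496) (nat_lit 33692452) (nat_lit 0) (nat_lit 0),Row.mk (nat_lit 25872) (nat_lit 1309) (nat_lit 4204720844) (nat_lit 1496) (nat_lit 33692452) (nat_lit 0) (nat_lit 0),Row.mk (nat_lit 26040) (nat_lit 1309) (nat_lit 4204720844) (nat_lit 1496) (nat_lit 33692452) (nat_lit 0) (nat_lit 0),Row.mk (nat_lit 26208) (nat_lit 1309) (nat_lit 4204720844) (nat_lit 1496) (nat_lit 33692452)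 (nat_lit 0) (nat_lit 0),Row.mk (nat_lit 26376) (nat_lit 1309) (nat_lit 4204720844) (nat_lit 1496) (nat_lit 33692452) (nat_lit 0) (nat_lit 0),Row.mk (nat_lit 26544) (nat_lit 1309) (nat_lit 4204720844) (nat_lit 1496) (nat_lit 33692452) (nat_lit 0) (nat_lit 0),Row.mk (nat_lit 26712) (nat_lit 1309) (nat_lit 4204720844) (nat_lit 1496) (nat_lit 33692452) (nat_lit 0) (nat_lit 0),Row.mk (nat_lit 26880) (nat_lit 1309) (nat_lit 4204720844) (nat_lit 1496) (nat_lit 33692452) (nat_lit 0) (nat_lit 0),Row.mk (nat_lit 27048) (nat_lit 1309) (nat_lit 4204720844) (nat_lit 1496) (nat_lit 33692452) (nat_lit 0) (nat_lit 0),Row.mk (nat_lit 27216) (nat_lit 1309) (nat_lit 4204720844) (nat_lit 1496) (nat_lit 33692452) (nat_lit 0) (nat_lit 0),Row.mk (nat_lit 27384) (nat_lit 1309) (nat_lit 4204720844) (nat_lit 1496) (nat_lit 33692452) (nat_lit 0) (nat_lit 0),Row.mk (nat_lit 27552) (nat_lit 1309) (nat_lit 4204720844) (nat_lit 1496) (nat_lit 33692452) (nat_lit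 0) (nat_lit 0),Row.mk (nat_lit 27720) (nat_lit 1309) (nat_lit 4204720844) (nat_lit 1496) (nat_lit 33692452) (nat_lit 0) (nat_lit 0),Row.mk (nat_lit 27888) (nat_lit 1309) (nat_lit 4204720844) (nat_lit 1496) (nat_lit 33692452) (nat_lit 0) (nat_lit 0),Row.mk (nat_lit 28056) (nat_lit 1309) (nat_lit 4204720844) (nat_lit 1496) (nat_lit 33692452) (nat_lit 0) (nat_lit 0),Row.mk (nat_lit 28224) (nat_lit 1309) (nat_lit 4204720844) (nat_lit 1496) (nat_lit 33692452) (nat_lit 0) (nat_lit 0),Row.mk (nat_lit 28392) (nat_lit 1309) (nat_lit 4204720844) (nat_lit 1496) (nat_lit 33692452) (nat_lit 0) (nat_lit 0),Row.mk (nat_lit 28560) (nat_lit 1309) (nat_lit 4204720844) (nat_lit 1496) (nat_lit 33692452) (nat_lit 0) (nat_lit 0),Row.mk (nat_lit 28728) (nat_lit 1309) (nat_lit 4204720844) (nat_lit 1496) (nat_lit 33692452) (nat_lit 0) (nat_lit 0),Row.mk (nat_lit 28896) (nat_lit 1309) (nat_lit 4204720844) (nat_lit 1496) (nat_lit 33692452) (nat_lit 0) (nat_lit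 0),Row.mk (nat_lit 29064) (nat_lit 1309) (nat_lit 4204720844) (nat_lit 1496) (nat_lit 33692452) (nat_lit 0) (nat_lit 0),Row.mk (nat_lit 29232) (nat_lit 1309) (nat_lit 4204720844) (nat_lit 1496) (nat_lit 33692452) (nat_lit 0) (nat_lit 0),Row.mk (nat_lit 29400) (nat_lit 1309) (nat_lit 4204720844) (nat_lit 1496) (nat_lit 33692452) (nat_lit 0) (nat_lit 0)],
[Row.mk (nat_lit 15624) (nat_lit 748) (nat_lit 5259983508) (nat_lit 935) (nat_lit 33692452) (nat_lit 0) (nat_lit 0),Row.mk (nat_lit 15792) (nat_lit 748) (nat_lit 5259983508) (nat_lit 935) (nat_lit 33692452) (nat_lit 0) (nat_lit 0),Row.mk (nat_lit 15960) (nat_lit 748) (nat_lit 5259983508) (nat_lit 935) (nat_lit 33692452) (nat_lit 0) (nat_lit 0),Row.mk (nat_lit 16128) (nat_lit 748) (nat_lit 5259983508) (nat_lit 935) (nat_lit 33692452) (nat_lit 0) (nat_lit 0),Row.mk (nat_lit 16296) (nat_lit 748) (nat_lit 5259983508) (nat_lit 935) (nat_lit 33692452) (nat_lit 0) (nat_lit 0),Row.mk (nat_lit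 16464) (nat_lit 748) (nat_lit 5259983508) (nat_lit 935) (nat_lit 33692452) (nat_lit 0) (nat_lit 0),Row.mk (nat_lit 16632) (nat_lit 748) (nat_lit 5259983508) (nat_lit 935) (nat_lit 33692452) (nat_lit 0) (nat_lit 0),Row.mk (nat_lit 16800) (nat_lit 748) (nat_lit 5259983508) (nat_lit 935) (nat_lit 33692452) (nat_lit 0) (nat_lit 0),Row.mk (nat_lit 16968) (nat_lit 748) (nat_lit 5259983508) (nat_lit 935) (nat_lit 33692452) (nat_lit 0) (nat_lit 0),Row.mk (nat_lit 17136) (nat_lit 748) (nat_lit 5259983508) (nat_lit 935) (nat_lit 33692452) (nat_lit 0) (nat_lit 0),Row.mk (nat_lit 17304) (nat_lit 748) (nat_lit 5259983508) (nat_lit 935) (nat_lit 33692452) (nat_lit 0) (nat_lit 0),Row.mk (nat_lit 17472) (nat_lit 748) (nat_lit 5259983508) (nat_lit 935) (nat_lit 33692452) (nat_lit 0) (nat_lit 0),Row.mk (nat_lit 17640) (nat_lit 748) (nat_lit 5259983508) (nat_lit 935) (nat_lit 33692452) (nat_lit 0) (nat_lit 0),Row.mk (nat_lit 17808) (nat_lit 748) (nat_lit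 5259983508) (nat_lit 935) (nat_lit 33692452) (nat_lit 0) (nat_lit 0),Row.mk (nat_lit 17976) (nat_lit 748) (nat_lit 5259983508) (nat_lit 935) (nat_lit 33692452) (nat_lit 0) (nat_lit 0),Row.mk (nat_lit 18144) (nat_lit 748) (nat_lit 5259983508) (nat_lit 935) (nat_lit 33692452) (nat_lit 0) (nat_lit 0),Row.mk (nat_lit 18312) (nat_lit 748) (nat_lit 5259983508) (nat_lit 935) (nat_lit 33692452) (nat_lit 0) (nat_lit 0),Row.mk (nat_lit 18480) (nat_lit 748) (nat_lit 5259983508) (nat_lit 935) (nat_lit 33692452) (nat_lit 0) (nat_lit 0),Row.mk (nat_lit 18648) (nat_lit 748) (nat_lit 5259983508) (nat_lit 935) (nat_lit 33692452) (nat_lit 0) (nat_lit 0),Row.mk (nat_lit 18816) (nat_lit 748) (nat_lit 5259983508) (nat_lit 935) (nat_lit 33692452) (nat_lit 0) (nat_lit 0),Row.mk (nat_lit 18984) (nat_lit 748) (nat_lit 5259983508) (nat_lit 935) (nat_lit 33692452) (nat_lit 0) (nat_lit 0),Row.mk (nat_lit 19152) (nat_lit 748) (nat_lit 5259983508) (nat_lit 935)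 (nat_lit 33692452) (nat_lit 0) (nat_lit 0),Row.mk (nat_lit 19320) (nat_lit 748) (nat_lit 5259983508) (nat_lit 935) (nat_lit 33692452) (nat_lit 0) (nat_lit 0),Row.mk (nat_lit 19488) (nat_lit 748) (nat_lit 5259983508) (nat_lit 935) (nat_lit 33692452) (nat_lit 0) (nat_lit 0),Row.mk (nat_lit 19656) (nat_lit 748) (nat_lit 5259983508) (nat_lit 935) (nat_lit 33692452) (nat_lit 0) (nat_lit 0),Row.mk (nat_lit 19824) (nat_lit 748) (nat_lit 5259983508) (nat_lit 935) (nat_lit 33692452) (nat_lit 0) (nat_lit 0),Row.mk (nat_lit 19992) (nat_lit 748) (nat_lit 5259983508) (nat_lit 935) (nat_lit 33692452) (nat_lit 0) (nat_lit 0),Row.mk (nat_lit 20160) (nat_lit 748) (nat_lit 5259983508) (nat_lit 935) (nat_lit 33692452) (nat_lit 0) (nat_lit 0),Row.mk (nat_lit 20328) (nat_lit 748) (nat_lit 5259983508) (nat_lit 935) (nat_lit 33692452) (nat_lit 0) (nat_lit 0),Row.mk (nat_lit 20496) (nat_lit 748) (nat_lit 5259983508) (nat_lit 935) (nat_lit 33692452) (nat_lit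 0) (nat_lit 0),Row.mk (nat_lit 20664) (nat_lit 748) (nat_lit 5259983508) (nat_lit 935) (nat_lit 33692452) (nat_lit 0) (nat_lit 0),Row.mk (nat_lit 20832) (nat_lit 748) (nat_lit 5259983508) (nat_lit 935) (nat_lit 33692452) (nat_lit 0) (nat_lit 0),Row.mk (nat_lit 21000) (nat_lit 748) (nat_lit 5259983508) (nat_lit 935) (nat_lit 33692452) (nat_lit 0) (nat_lit 0),Row.mk (nat_lit 21168) (nat_lit 748) (nat_lit 5259983508) (nat_lit 935) (nat_lit 33692452) (nat_lit 0) (nat_lit 0),Row.mk (nat_lit 21336) (nat_lit 748) (nat_lit 5259983508) (nat_lit 935) (nat_lit 33692452) (nat_lit 0) (nat_lit 0),Row.mk (nat_lit 21504) (nat_lit 748) (nat_lit 5259983508) (nat_lit 935) (nat_lit 33692452) (nat_lit 0) (nat_lit 0),Row.mk (nat_lit 21672) (nat_lit 748) (nat_lit 5259983508) (nat_lit 935) (nat_lit 33692452) (nat_lit 0) (nat_lit 0),Row.mk (nat_lit 21840) (nat_lit 748) (nat_lit 5259983508) (nat_lit 935) (nat_lit 33692452) (nat_lit 0) (nat_lit 0),Row.mk (nat_lit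 22008) (nat_lit 748) (nat_lit 5259983508) (nat_lit 935) (nat_lit 33692452) (nat_lit 0) (nat_lit 0),Row.mk (nat_lit 22176) (nat_lit 748) (nat_lit 5259983508) (nat_lit 935) (nat_lit 33692452) (nat_lit 0) (nat_lit 0),Row.mk (nat_lit 22344) (nat_lit 748) (nat_lit 5259983508) (nat_lit 935) (nat_lit 33692452) (nat_lit 0) (nat_lit 0),Row.mk (nat_lit 22512) (nat_lit 748) (nat_lit 5259983508) (nat_lit 935) (nat_lit 33692452) (nat_lit 0) (nat_lit 0),Row.mk (nat_lit 22680) (nat_lit 748) (nat_lit 5259983508) (nat_lit 935) (nat_lit 33692452) (nat_lit 0) (nat_lit 0),Row.mk (nat_lit 22848) (nat_lit 748) (nat_lit 5259983508) (nat_lit 935) (nat_lit 33692452) (nat_lit 0) (nat_lit 0),Row.mk (nat_lit 23016) (nat_lit 748) (nat_lit 5259983508) (nat_lit 935) (nat_lit 33692452) (nat_lit 0) (nat_lit 0),Row.mk (nat_lit 23184) (nat_lit 748) (nat_lit 5259983508) (nat_lit 935) (nat_lit 33692452) (nat_lit 0) (nat_lit 0),Row.mk (nat_lit 23352) (nat_lit 748) (nat_lit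 5259983508) (nat_lit 935) (nat_lit 33692452) (nat_lit 0) (nat_lit 0),Row.mk (nat_lit 23520) (nat_lit 748) (nat_lit 5259983508) (nat_lit 935) (nat_lit 33692452) (nat_lit 0) (nat_lit 0),Row.mk (nat_lit 23688) (nat_lit 748) (nat_lit 5259983508) (nat_lit 935) (nat_lit 33692452) (nat_lit 0) (nat_lit 0),Row.mk (nat_lit 23856) (nat_lit 748) (nat_lit 5259983508) (nat_lit 935) (nat_lit 33692452) (nat_lit 0) (nat_lit 0),Row.mk (nat_lit 24024) (nat_lit 748) (nat_lit 5259983508) (nat_lit 935) (nat_lit 33692452) (nat_lit 0) (nat_lit 0),Row.mk (nat_lit 24192) (nat_lit 748) (nat_lit 5259983508) (nat_lit 935) (nat_lit 33692452) (nat_lit 0) (nat_lit 0),Row.mk (nat_lit 24360) (nat_lit 748) (nat_lit 5259983508) (nat_lit 935) (nat_lit 33692452) (nat_lit 0) (nat_lit 0),Row.mk (nat_lit 24528) (nat_lit 748) (nat_lit 5259983508) (nat_lit 935) (nat_lit 33692452) (nat_lit 0) (nat_lit 0),Row.mk (nat_lit 24696) (nat_lit 748) (nat_lit 5259983508) (nat_lit 935)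 (nat_lit 33692452) (nat_lit 0) (nat_lit 0),Row.mk (nat_lit 24864) (nat_lit 748) (nat_lit 5259983508) (nat_lit 935) (nat_lit 33692452) (nat_lit 0) (nat_lit 0),Row.mk (nat_lit 25032) (nat_lit 748) (nat_lit 5259983508) (nat_lit 935) (nat_lit 33692452) (nat_lit 0) (nat_lit 0),Row.mk (nat_lit 25200) (nat_lit 748) (nat_lit 5259983508) (nat_lit 935) (nat_lit 33692452) (nat_lit 0) (nat_lit 0),Row.mk (nat_lit 25368) (nat_lit 748) (nat_lit 5259983508) (nat_lit 935) (nat_lit 33692452) (nat_lit 0) (nat_lit 0),Row.mk (nat_lit 25536) (nat_lit 748) (nat_lit 5259983508) (nat_lit 935) (nat_lit 33692452) (nat_lit 0) (nat_lit 0),Row.mk (nat_lit 25704) (nat_lit 748) (nat_lit 5259983508) (nat_lit 935) (nat_lit 33692452) (nat_lit 0) (nat_lit 0),Row.mk (nat_lit 25872) (nat_lit 748) (nat_lit 5259983508) (nat_lit 935) (nat_lit 33692452) (nat_lit 0) (nat_lit 0),Row.mk (nat_lit 26040) (nat_lit 748) (nat_lit 5259983508) (nat_lit 935) (nat_lit 33692452) (nat_lit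 0) (nat_lit 0),Row.mk (nat_lit 26208) (nat_lit 748) (nat_lit 5259983508) (nat_lit 935) (nat_lit 33692452) (nat_lit 0) (nat_lit 0),Row.mk (nat_lit 26376) (nat_lit 748) (nat_lit 5259983508) (nat_lit 935) (nat_lit 33692452) (nat_lit 0) (nat_lit 0),Row.mk (nat_lit 26544) (nat_lit 748) (nat_lit 5259983508) (nat_lit 935) (nat_lit 33692452) (nat_lit 0) (nat_lit 0),Row.mk (nat_lit 26712) (nat_lit 748) (nat_lit 5259983508) (nat_lit 935) (nat_lit 33692452) (nat_lit 0) (nat_lit 0),Row.mk (nat_lit 26880) (nat_lit 748) (nat_lit 5259983508) (nat_lit 935) (nat_lit 33692452) (nat_lit 0) (nat_lit 0),Row.mk (nat_lit 27048) (nat_lit 748) (nat_lit 5259983508) (nat_lit 935) (nat_lit 33692452) (nat_lit 0) (nat_lit 0),Row.mk (nat_lit 27216) (nat_lit 748) (nat_lit 5259983508) (nat_lit 935) (nat_lit 33692452) (nat_lit 0) (nat_lit 0),Row.mk (nat_lit 27384) (nat_lit 748) (nat_lit 5259983508) (nat_lit 935) (nat_lit 33692452) (nat_lit 0) (nat_lit 0),Row.mk (nat_lit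 27552) (nat_lit 748) (nat_lit 5259983508) (nat_lit 935) (nat_lit 33692452) (nat_lit 0) (nat_lit 0),Row.mk (nat_lit 27720) (nat_lit 748) (nat_lit 5259983508) (nat_lit 935) (nat_lit 33692452) (nat_lit 0) (nat_lit 0),Row.mk (nat_lit 27888) (nat_lit 748) (nat_lit 5259983508) (nat_lit 935) (nat_lit 33692452) (nat_lit 0) (nat_lit 0),Row.mk (nat_lit 28056) (nat_lit 748) (nat_lit 5259983508) (nat_lit 935) (nat_lit 33692452) (nat_lit 0) (nat_lit 0),Row.mk (nat_lit 28224) (nat_lit 748) (nat_lit 5259983508) (nat_lit 935) (nat_lit 33692452) (nat_lit 0) (nat_lit 0),Row.mk (nat_lit 28392) (nat_lit 748) (nat_lit 5259983508) (nat_lit 935) (nat_lit 33692452) (nat_lit 0) (nat_lit 0),Row.mk (nat_lit 28560) (nat_lit 748) (nat_lit 5259983508) (nat_lit 935) (nat_lit 33692452) (nat_lit 0) (nat_lit 0),Row.mk (nat_lit 28728) (nat_lit 748) (nat_lit 5259983508) (nat_lit 935) (nat_lit 33692452) (nat_lit 0) (nat_lit 0),Row.mk (nat_lit 28896) (nat_lit 748) (nat_lit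 5259983508) (nat_lit 935) (nat_lit 33692452) (nat_lit 0) (nat_lit 0),Row.mk (nat_lit 29064) (nat_lit 748) (nat_lit 5259983508) (nat_lit 935) (nat_lit 33692452) (nat_lit 0) (nat_lit 0),Row.mk (nat_lit 29232) (nat_lit 748) (nat_lit 5259983508) (nat_lit 935) (nat_lit 33692452) (nat_lit 0) (nat_lit 0),Row.mk (nat_lit 29400) (nat_lit 748) (nat_lit 5259983508) (nat_lit 935) (nat_lit 33692452) (nat_lit 0) (nat_lit 0),Row.mk (nat_lit 29568) (nat_lit 748) (nat_lit 5259983508) (nat_lit 935) (nat_lit 33692452) (nat_lit 0) (nat_lit 0)],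
[Row.mk (nat_lit 15792) (nat_lit 187) (nat_lit 6577981119) (nat_lit 374) (nat_lit 33692452) (nat_lit 0) (nat_lit 0),Row.mk (nat_lit 15960) (nat_lit 187) (nat_lit 6577981119) (nat_lit 374) (nat_lit 33692452) (nat_lit 0) (nat_lit 0),Row.mk (nat_lit 16128) (nat_lit 187) (nat_lit 6577981119) (nat_lit 374) (nat_lit 33692452) (nat_lit 0) (nat_lit 0),Row.mk (nat_lit 16296) (nat_lit 187) (nat_lit 6577981119) (nat_lit 374) (nat_lit 33692452) (nat_lit 0) (nat_lit 0),Row.mk (nat_lit 16464) (nat_lit 187) (nat_lit 6577981119) (nat_lit 374) (nat_lit 33692452) (nat_lit 0) (nat_lit 0),Row.mk (nat_lit 16632) (nat_lit 187) (nat_lit 6577981119) (nat_lit 374) (nat_lit 33692452) (nat_lit 0) (nat_lit 0),Row.mk (nat_lit 16800) (nat_lit 187) (nat_lit 6577981119) (nat_lit 374) (nat_lit 33692452) (nat_lit 0) (nat_lit 0),Row.mk (nat_lit 16968) (nat_lit 187) (nat_lit 6577981119) (nat_lit 374) (nat_lit 33692452) (nat_lit 0) (nat_lit 0),Row.mk (nat_lit 17136)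 (nat_lit 187) (nat_lit 6577981119) (nat_lit 374) (nat_lit 33692452) (nat_lit 0) (nat_lit 0),Row.mk (nat_lit 17304) (nat_lit 187) (nat_lit 6577981119) (nat_lit 374) (nat_lit 33692452) (nat_lit 0) (nat_lit 0),Row.mk (nat_lit 17472) (nat_lit 187) (nat_lit 6577981119) (nat_lit 374) (nat_lit 33692452) (nat_lit 0) (nat_lit 0),Row.mk (nat_lit 17640) (nat_lit 187) (nat_lit 6577981119) (nat_lit 374) (nat_lit 33692452) (nat_lit 0) (nat_lit 0),Row.mk (nat_lit 17808) (nat_lit 187) (nat_lit 6577981119) (nat_lit 374) (nat_lit 33692452) (nat_lit 0) (nat_lit 0),Row.mk (nat_lit 17976) (nat_lit 187) (nat_lit 6577981119) (nat_lit 374) (nat_lit 33692452) (nat_lit 0) (nat_lit 0),Row.mk (nat_lit 18144) (nat_lit 187) (nat_lit 6577981119) (nat_lit 374) (nat_lit 33692452) (nat_lit 0) (nat_lit 0),Row.mk (nat_lit 18312) (nat_lit 187) (nat_lit 6577981119) (nat_lit 374) (nat_lit 33692452) (nat_lit 0) (nat_lit 0),Row.mk (nat_lit 18480) (nat_lit 187) (nat_lit 6577981119)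 (nat_lit 374) (nat_lit 33692452) (nat_lit 0) (nat_lit 0),Row.mk (nat_lit 18648) (nat_lit 187) (nat_lit 6577981119) (nat_lit 374) (nat_lit 33692452) (nat_lit 0) (nat_lit 0),Row.mk (nat_lit 18816) (nat_lit 187) (nat_lit 6577981119) (nat_lit 374) (nat_lit 33692452) (nat_lit 0) (nat_lit 0),Row.mk (nat_lit 18984) (nat_lit 187) (nat_lit 6577981119) (nat_lit 374) (nat_lit 33692452) (nat_lit 0) (nat_lit 0),Row.mk (nat_lit 19152) (nat_lit 187) (nat_lit 6577981119) (nat_lit 374) (nat_lit 33692452) (nat_lit 0) (nat_lit 0),Row.mk (nat_lit 19320) (nat_lit 187) (nat_lit 6577981119) (nat_lit 374) (nat_lit 33692452) (nat_lit 0) (nat_lit 0),Row.mk (nat_lit 19488) (nat_lit 187) (nat_lit 6577981119) (nat_lit 374) (nat_lit 33692452) (nat_lit 0) (nat_lit 0),Row.mk (nat_lit 19656) (nat_lit 187) (nat_lit 6577981119) (nat_lit 374) (nat_lit 33692452) (nat_lit 0) (nat_lit 0),Row.mk (nat_lit 19824) (nat_lit 187) (nat_lit 6577981119) (nat_lit 374) (nat_lit 33692452)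 (nat_lit 0) (nat_lit 0),Row.mk (nat_lit 19992) (nat_lit 187) (nat_lit 6577981119) (nat_lit 374) (nat_lit 33692452) (nat_lit 0) (nat_lit 0),Row.mk (nat_lit 20160) (nat_lit 187) (nat_lit 6577981119) (nat_lit 374) (nat_lit 33692452) (nat_lit 0) (nat_lit 0),Row.mk (nat_lit 20328) (nat_lit 187) (nat_lit 6577981119) (nat_lit 374) (nat_lit 33692452) (nat_lit 0) (nat_lit 0),Row.mk (nat_lit 20496) (nat_lit 187) (nat_lit 6577981119) (nat_lit 374) (nat_lit 33692452) (nat_lit 0) (nat_lit 0),Row.mk (nat_lit 20664) (nat_lit 187) (nat_lit 6577981119) (nat_lit 374) (nat_lit 33692452) (nat_lit 0) (nat_lit 0),Row.mk (nat_lit 20832) (nat_lit 187) (nat_lit 6577981119) (nat_lit 374) (nat_lit 33692452) (nat_lit 0) (nat_lit 0),Row.mk (nat_lit 21000) (nat_lit 187) (nat_lit 6577981119) (nat_lit 374) (nat_lit 33692452) (nat_lit 0) (nat_lit 0),Row.mk (nat_lit 21168) (nat_lit 187) (nat_lit 6577981119) (nat_lit 374) (nat_lit 33692452) (nat_lit 0) (nat_lit 0),Row.mk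 (nat_lit 21336) (nat_lit 187) (nat_lit 6577981119) (nat_lit 374) (nat_lit 33692452) (nat_lit 0) (nat_lit 0),Row.mk (nat_lit 21504) (nat_lit 187) (nat_lit 6577981119) (nat_lit 374) (nat_lit 33692452) (nat_lit 0) (nat_lit 0),Row.mk (nat_lit 21672) (nat_lit 187) (nat_lit 6577981119) (nat_lit 374) (nat_lit 33692452) (nat_lit 0) (nat_lit 0),Row.mk (nat_lit 21840) (nat_lit 187) (nat_lit 6577981119) (nat_lit 374) (nat_lit 33692452) (nat_lit 0) (nat_lit 0),Row.mk (nat_lit 22008) (nat_lit 187) (nat_lit 6577981119) (nat_lit 374) (nat_lit 33692452) (nat_lit 0) (nat_lit 0),Row.mk (nat_lit 22176) (nat_lit 187) (nat_lit 6577981119) (nat_lit 374) (nat_lit 33692452) (nat_lit 0) (nat_lit 0),Row.mk (nat_lit 22344) (nat_lit 187) (nat_lit 6577981119) (nat_lit 374) (nat_lit 33692452) (nat_lit 0) (nat_lit 0),Row.mk (nat_lit 22512) (nat_lit 187) (nat_lit 6577981119) (nat_lit 374) (nat_lit 33692452) (nat_lit 0) (nat_lit 0),Row.mk (nat_lit 22680) (nat_lit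 187) (nat_lit 6577981119) (nat_lit 374) (nat_lit 33692452) (nat_lit 0) (nat_lit 0),Row.mk (nat_lit 22848) (nat_lit 187) (nat_lit 6577981119) (nat_lit 374) (nat_lit 33692452) (nat_lit 0) (nat_lit 0),Row.mk (nat_lit 23016) (nat_lit 187) (nat_lit 6577981119) (nat_lit 374) (nat_lit 33692452) (nat_lit 0) (nat_lit 0),Row.mk (nat_lit 23184) (nat_lit 187) (nat_lit 6577981119) (nat_lit 374) (nat_lit 33692452) (nat_lit 0) (nat_lit 0),Row.mk (nat_lit 23352) (nat_lit 187) (nat_lit 6577981119) (nat_lit 374) (nat_lit 33692452) (nat_lit 0) (nat_lit 0),Row.mk (nat_lit 23520) (nat_lit 187) (nat_lit 6577981119) (nat_lit 374) (nat_lit 33692452) (nat_lit 0) (nat_lit 0),Row.mk (nat_lit 23688) (nat_lit 187) (nat_lit 6577981119) (nat_lit 374) (nat_lit 33692452) (nat_lit 0) (nat_lit 0),Row.mk (nat_lit 23856) (nat_lit 187) (nat_lit 6577981119) (nat_lit 374) (nat_lit 33692452) (nat_lit 0) (nat_lit 0),Row.mk (nat_lit 24024) (nat_lit 187) (nat_lit 6577981119)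 (nat_lit 374) (nat_lit 33692452) (nat_lit 0) (nat_lit 0),Row.mk (nat_lit 24192) (nat_lit 187) (nat_lit 6577981119) (nat_lit 374) (nat_lit 33692452) (nat_lit 0) (nat_lit 0),Row.mk (nat_lit 24360) (nat_lit 187) (nat_lit 6577981119) (nat_lit 374) (nat_lit 33692452) (nat_lit 0) (nat_lit 0),Row.mk (nat_lit 24528) (nat_lit 187) (nat_lit 6577981119) (nat_lit 374) (nat_lit 33692452) (nat_lit 0) (nat_lit 0),Row.mk (nat_lit 24696) (nat_lit 187) (nat_lit 6577981119) (nat_lit 374) (nat_lit 33692452) (nat_lit 0) (nat_lit 0),Row.mk (nat_lit 24864) (nat_lit 187) (nat_lit 6577981119) (nat_lit 374) (nat_lit 33692452) (nat_lit 0) (nat_lit 0),Row.mk (nat_lit 25032) (nat_lit 187) (nat_lit 6577981119) (nat_lit 374) (nat_lit 33692452) (nat_lit 0) (nat_lit 0),Row.mk (nat_lit 25200) (nat_lit 187) (nat_lit 6577981119) (nat_lit 374) (nat_lit 33692452) (nat_lit 0) (nat_lit 0),Row.mk (nat_lit 25368) (nat_lit 187) (nat_lit 6577981119) (nat_lit 374) (nat_lit 33692452)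 (nat_lit 0) (nat_lit 0),Row.mk (nat_lit 25536) (nat_lit 187) (nat_lit 6577981119) (nat_lit 374) (nat_lit 33692452) (nat_lit 0) (nat_lit 0),Row.mk (nat_lit 25704) (nat_lit 187) (nat_lit 6577981119) (nat_lit 374) (nat_lit 33692452) (nat_lit 0) (nat_lit 0),Row.mk (nat_lit 25872) (nat_lit 187) (nat_lit 6577981119) (nat_lit 374) (nat_lit 33692452) (nat_lit 0) (nat_lit 0),Row.mk (nat_lit 26040) (nat_lit 187) (nat_lit 6577981119) (nat_lit 374) (nat_lit 33692452) (nat_lit 0) (nat_lit 0),Row.mk (nat_lit 26208) (nat_lit 187) (nat_lit 6577981119) (nat_lit 374) (nat_lit 33692452) (nat_lit 0) (nat_lit 0),Row.mk (nat_lit 26376) (nat_lit 187) (nat_lit 6577981119) (nat_lit 374) (nat_lit 33692452) (nat_lit 0) (nat_lit 0),Row.mk (nat_lit 26544) (nat_lit 187) (nat_lit 6577981119) (nat_lit 374) (nat_lit 33692452) (nat_lit 0) (nat_lit 0),Row.mk (nat_lit 26712) (nat_lit 187) (nat_lit 6577981119) (nat_lit 374) (nat_lit 33692452) (nat_lit 0) (nat_lit 0),Row.mk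 (nat_lit 26880) (nat_lit 187) (nat_lit 6577981119) (nat_lit 374) (nat_lit 33692452) (nat_lit 0) (nat_lit 0),Row.mk (nat_lit 27048) (nat_lit 187) (nat_lit 6577981119) (nat_lit 374) (nat_lit 33692452) (nat_lit 0) (nat_lit 0),Row.mk (nat_lit 27216) (nat_lit 187) (nat_lit 6577981119) (nat_lit 374) (nat_lit 33692452) (nat_lit 0) (nat_lit 0),Row.mk (nat_lit 27384) (nat_lit 187) (nat_lit 6577981119) (nat_lit 374) (nat_lit 33692452) (nat_lit 0) (nat_lit 0),Row.mk (nat_lit 27552) (nat_lit 187) (nat_lit 6577981119) (nat_lit 374) (nat_lit 33692452) (nat_lit 0) (nat_lit 0),Row.mk (nat_lit 27720) (nat_lit 187) (nat_lit 6577981119) (nat_lit 374) (nat_lit 33692452) (nat_lit 0) (nat_lit 0),Row.mk (nat_lit 27888) (nat_lit 187) (nat_lit 6577981119) (nat_lit 374) (nat_lit 33692452) (nat_lit 0) (nat_lit 0),Row.mk (nat_lit 28056) (nat_lit 187) (nat_lit 6577981119) (nat_lit 374) (nat_lit 33692452) (nat_lit 0) (nat_lit 0),Row.mk (nat_lit 28224) (nat_lit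 187) (nat_lit 6577981119) (nat_lit 374) (nat_lit 33692452) (nat_lit 0) (nat_lit 0),Row.mk (nat_lit 28392) (nat_lit 187) (nat_lit 6577981119) (nat_lit 374) (nat_lit 33692452) (nat_lit 0) (nat_lit 0),Row.mk (nat_lit 28560) (nat_lit 187) (nat_lit 6577981119) (nat_lit 374) (nat_lit 33692452) (nat_lit 0) (nat_lit 0),Row.mk (nat_lit 28728) (nat_lit 187) (nat_lit 6577981119) (nat_lit 374) (nat_lit 33692452) (nat_lit 0) (nat_lit 0),Row.mk (nat_lit 28896) (nat_lit 187) (nat_lit 6577981119) (nat_lit 374) (nat_lit 33692452) (nat_lit 0) (nat_lit 0),Row.mk (nat_lit 29064) (nat_lit 187) (nat_lit 6577981119) (nat_lit 374) (nat_lit 33692452) (nat_lit 0) (nat_lit 0),Row.mk (nat_lit 29232) (nat_lit 187) (nat_lit 6577981119) (nat_lit 374) (nat_lit 33692452) (nat_lit 0) (nat_lit 0),Row.mk (nat_lit 29400) (nat_lit 187) (nat_lit 6577981119) (nat_lit 374) (nat_lit 33692452) (nat_lit 0) (nat_lit 0),Row.mk (nat_lit 29568) (nat_lit 187) (nat_lit 6577981119)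 (nat_lit 374) (nat_lit 33692452) (nat_lit 0) (nat_lit 0)],
[Row.mk (nat_lit 16128) (nat_lit 32912) (nat_lit 8388608) (nat_lit 61897) (nat_lit 8249432185) (nat_lit 0) (nat_lit 0),Row.mk (nat_lit 16296) (nat_lit 32912) (nat_lit 8388608) (nat_lit 61897) (nat_lit 8249432185) (nat_lit 0) (nat_lit 0),Row.mk (nat_lit 16464) (nat_lit 32912) (nat_lit 8388608) (nat_lit 61897) (nat_lit 8249432185) (nat_lit 0) (nat_lit 0),Row.mk (nat_lit 16632) (nat_lit 32912) (nat_lit 8388608) (nat_lit 61897) (nat_lit 8249432185) (nat_lit 0) (nat_lit 0),Row.mk (nat_lit 16800) (nat_lit 32912) (nat_lit 8388608) (nat_lit 61897) (nat_lit 8249432185) (nat_lit 0) (nat_lit 0),Row.mk (nat_lit 16968) (nat_lit 32912) (nat_lit 8388608) (nat_lit 61897) (nat_lit 8249432185) (nat_lit 0) (nat_lit 0),Row.mk (nat_lit 17136) (nat_lit 32912) (nat_lit 8388608) (nat_lit 61897) (nat_lit 8249432185) (nat_lit 0) (nat_lit 0),Row.mk (nat_lit 17304) (nat_lit 32912) (nat_lit 8388608) (nat_lit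 61897) (nat_lit 8249432185) (nat_lit 0) (nat_lit 0),Row.mk (nat_lit 17472) (nat_lit 32912) (nat_lit 8388608) (nat_lit 61897) (nat_lit 8249432185) (nat_lit 0) (nat_lit 0),Row.mk (nat_lit 17640) (nat_lit 32912) (nat_lit 8388608) (nat_lit 61897) (nat_lit 8249432185) (nat_lit 0) (nat_lit 0),Row.mk (nat_lit 17808) (nat_lit 32912) (nat_lit 8388608) (nat_lit 61897) (nat_lit 8249432185) (nat_lit 0) (nat_lit 0),Row.mk (nat_lit 17976) (nat_lit 32912) (nat_lit 8388608) (nat_lit 61897) (nat_lit 8249432185) (nat_lit 0) (nat_lit 0),Row.mk (nat_lit 18144) (nat_lit 32912) (nat_lit 8388608) (nat_lit 61897) (nat_lit 8249432185) (nat_lit 0) (nat_lit 0),Row.mk (nat_lit 18312) (nat_lit 32912) (nat_lit 8388608) (nat_lit 61897) (nat_lit 8249432185) (nat_lit 0) (nat_lit 0),Row.mk (nat_lit 18480) (nat_lit 32912) (nat_lit 8388608) (nat_lit 61897) (nat_lit 8249432185) (nat_lit 0) (nat_lit 0),Row.mk (nat_lit 18648) (nat_lit 32912) (nat_lit 8388608) (nat_lit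 61897) (nat_lit 8249432185) (nat_lit 0) (nat_lit 0),Row.mk (nat_lit 18816) (nat_lit 32912) (nat_lit 8388608) (nat_lit 61897) (nat_lit 8249432185) (nat_lit 0) (nat_lit 0),Row.mk (nat_lit 18984) (nat_lit 32912) (nat_lit 8388608) (nat_lit 61897) (nat_lit 8249432185) (nat_lit 0) (nat_lit 0),Row.mk (nat_lit 19152) (nat_lit 32912) (nat_lit 8388608) (nat_lit 61897) (nat_lit 8249432185) (nat_lit 0) (nat_lit 0),Row.mk (nat_lit 19320) (nat_lit 32912) (nat_lit 8388608) (nat_lit 61897) (nat_lit 8249432185) (nat_lit 0) (nat_lit 0),Row.mk (nat_lit 19488) (nat_lit 32912) (nat_lit 8388608) (nat_lit 61897) (nat_lit 8249432185) (nat_lit 0) (nat_lit 0),Row.mk (nat_lit 19656) (nat_lit 32912) (nat_lit 8388608) (nat_lit 61897) (nat_lit 8249432185) (nat_lit 0) (nat_lit 0),Row.mk (nat_lit 19824) (nat_lit 32912) (nat_lit 8388608) (nat_lit 61897) (nat_lit 8249432185) (nat_lit 0) (nat_lit 0),Row.mk (nat_lit 19992) (nat_lit 32912) (nat_lit 8388608) (nat_lit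 61897) (nat_lit 8249432185) (nat_lit 0) (nat_lit 0),Row.mk (nat_lit 20160) (nat_lit 32912) (nat_lit 8388608) (nat_lit 61897) (nat_lit 8249432185) (nat_lit 0) (nat_lit 0),Row.mk (nat_lit 20328) (nat_lit 32912) (nat_lit 8388608) (nat_lit 61897) (nat_lit 8249432185) (nat_lit 0) (nat_lit 0),Row.mk (nat_lit 20496) (nat_lit 32912) (nat_lit 8388608) (nat_lit 61897) (nat_lit 8249432185) (nat_lit 0) (nat_lit 0),Row.mk (nat_lit 20664) (nat_lit 32912) (nat_lit 8388608) (nat_lit 61897) (nat_lit 8249432185) (nat_lit 0) (nat_lit 0),Row.mk (nat_lit 20832) (nat_lit 32912) (nat_lit 8388608) (nat_lit 61897) (nat_lit 8249432185) (nat_lit 0) (nat_lit 0),Row.mk (nat_lit 21000) (nat_lit 32912) (nat_lit 8388608) (nat_lit 61897) (nat_lit 8249432185) (nat_lit 0) (nat_lit 0),Row.mk (nat_lit 21168) (nat_lit 32912) (nat_lit 8388608) (nat_lit 61897) (nat_lit 8249432185) (nat_lit 0) (nat_lit 0),Row.mk (nat_lit 21336) (nat_lit 32912) (nat_lit 8388608) (nat_lit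 61897) (nat_lit 8249432185) (nat_lit 0) (nat_lit 0),Row.mk (nat_lit 21504) (nat_lit 32912) (nat_lit 8388608) (nat_lit 61897) (nat_lit 8249432185) (nat_lit 0) (nat_lit 0),Row.mk (nat_lit 21672) (nat_lit 32912) (nat_lit 8388608) (nat_lit 61897) (nat_lit 8249432185) (nat_lit 0) (nat_lit 0),Row.mk (nat_lit 21840) (nat_lit 32912) (nat_lit 8388608) (nat_lit 61897) (nat_lit 8249432185) (nat_lit 0) (nat_lit 0),Row.mk (nat_lit 22008) (nat_lit 32912) (nat_lit 8388608) (nat_lit 61897) (nat_lit 8249432185) (nat_lit 0) (nat_lit 0),Row.mk (nat_lit 22176) (nat_lit 32912) (nat_lit 8388608) (nat_lit 61897) (nat_lit 8249432185) (nat_lit 0) (nat_lit 0),Row.mk (nat_lit 22344) (nat_lit 32912) (nat_lit 8388608) (nat_lit 61897) (nat_lit 8249432185) (nat_lit 0) (nat_lit 0),Row.mk (nat_lit 22512) (nat_lit 32912) (nat_lit 8388608) (nat_lit 61897) (nat_lit 8249432185) (nat_lit 0) (nat_lit 0),Row.mk (nat_lit 22680) (nat_lit 32912) (nat_lit 8388608) (nat_lit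 61897) (nat_lit 8249432185) (nat_lit 0) (nat_lit 0),Row.mk (nat_lit 22848) (nat_lit 32912) (nat_lit 8388608) (nat_lit 61897) (nat_lit 8249432185) (nat_lit 0) (nat_lit 0),Row.mk (nat_lit 23016) (nat_lit 32912) (nat_lit 8388608) (nat_lit 61897) (nat_lit 8249432185) (nat_lit 0) (nat_lit 0),Row.mk (nat_lit 23184) (nat_lit 32912) (nat_lit 8388608) (nat_lit 61897) (nat_lit 8249432185) (nat_lit 0) (nat_lit 0),Row.mk (nat_lit 23352) (nat_lit 32912) (nat_lit 8388608) (nat_lit 61897) (nat_lit 8249432185) (nat_lit 0) (nat_lit 0),Row.mk (nat_lit 23520) (nat_lit 32912) (nat_lit 8388608) (nat_lit 61897) (nat_lit 8249432185) (nat_lit 0) (nat_lit 0),Row.mk (nat_lit 23688) (nat_lit 32912) (nat_lit 8388608) (nat_lit 61897) (nat_lit 8249432185) (nat_lit 0) (nat_lit 0),Row.mk (nat_lit 23856) (nat_lit 32912) (nat_lit 8388608) (nat_lit 61897) (nat_lit 8249432185) (nat_lit 0) (nat_lit 0),Row.mk (nat_lit 24024) (nat_lit 32912) (nat_lit 8388608) (nat_lit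 61897) (nat_lit 8249432185) (nat_lit 0) (nat_lit 0),Row.mk (nat_lit 24192) (nat_lit 32912) (nat_lit 8388608) (nat_lit 61897) (nat_lit 8249432185) (nat_lit 0) (nat_lit 0),Row.mk (nat_lit 24360) (nat_lit 32912) (nat_lit 8388608) (nat_lit 61897) (nat_lit 8249432185) (nat_lit 0) (nat_lit 0),Row.mk (nat_lit 24528) (nat_lit 32912) (nat_lit 8388608) (nat_lit 61897) (nat_lit 8249432185) (nat_lit 0) (nat_lit 0),Row.mk (nat_lit 24696) (nat_lit 32912) (nat_lit 8388608) (nat_lit 61897) (nat_lit 8249432185) (nat_lit 0) (nat_lit 0),Row.mk (nat_lit 24864) (nat_lit 32912) (nat_lit 8388608) (nat_lit 61897) (nat_lit 8249432185) (nat_lit 0) (nat_lit 0),Row.mk (nat_lit 25032) (nat_lit 32912) (nat_lit 8388608) (nat_lit 61897) (nat_lit 8249432185) (nat_lit 0) (nat_lit 0),Row.mk (nat_lit 25200) (nat_lit 32912) (nat_lit 8388608) (nat_lit 61897) (nat_lit 8249432185) (nat_lit 0) (nat_lit 0),Row.mk (nat_lit 25368) (nat_lit 32912) (nat_lit 8388608) (nat_lit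 61897) (nat_lit 8249432185) (nat_lit 0) (nat_lit 0),Row.mk (nat_lit 25536) (nat_lit 32912) (nat_lit 8388608) (nat_lit 61897) (nat_lit 8249432185) (nat_lit 0) (nat_lit 0),Row.mk (nat_lit 25704) (nat_lit 32912) (nat_lit 8388608) (nat_lit 61897) (nat_lit 8249432185) (nat_lit 0) (nat_lit 0),Row.mk (nat_lit 25872) (nat_lit 32912) (nat_lit 8388608) (nat_lit 61897) (nat_lit 8249432185) (nat_lit 0) (nat_lit 0),Row.mk (nat_lit 26040) (nat_lit 32912) (nat_lit 8388608) (nat_lit 61897) (nat_lit 8249432185) (nat_lit 0) (nat_lit 0),Row.mk (nat_lit 26208) (nat_lit 32912) (nat_lit 8388608) (nat_lit 61897) (nat_lit 8249432185) (nat_lit 0) (nat_lit 0),Row.mk (nat_lit 26376) (nat_lit 32912) (nat_lit 8388608) (nat_lit 61897) (nat_lit 8249432185) (nat_lit 0) (nat_lit 0),Row.mk (nat_lit 26544) (nat_lit 32912) (nat_lit 8388608) (nat_lit 61897) (nat_lit 8249432185) (nat_lit 0) (nat_lit 0),Row.mk (nat_lit 26712) (nat_lit 32912) (nat_lit 8388608) (nat_lit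 61897) (nat_lit 8249432185) (nat_lit 0) (nat_lit 0),Row.mk (nat_lit 26880) (nat_lit 32912) (nat_lit 8388608) (nat_lit 61897) (nat_lit 8249432185) (nat_lit 0) (nat_lit 0),Row.mk (nat_lit 27048) (nat_lit 32912) (nat_lit 8388608) (nat_lit 61897) (nat_lit 8249432185) (nat_lit 0) (nat_lit 0),Row.mk (nat_lit 27216) (nat_lit 32912) (nat_lit 8388608) (nat_lit 61897) (nat_lit 8249432185) (nat_lit 0) (nat_lit 0),Row.mk (nat_lit 27384) (nat_lit 32912) (nat_lit 8388608) (nat_lit 61897) (nat_lit 8249432185) (nat_lit 0) (nat_lit 0),Row.mk (nat_lit 27552) (nat_lit 32912) (nat_lit 8388608) (nat_lit 61897) (nat_lit 8249432185) (nat_lit 0) (nat_lit 0),Row.mk (nat_lit 27720) (nat_lit 32912) (nat_lit 8388608) (nat_lit 61897) (nat_lit 8249432185) (nat_lit 0) (nat_lit 0),Row.mk (nat_lit 27888) (nat_lit 32912) (nat_lit 8388608) (nat_lit 61897) (nat_lit 8249432185) (nat_lit 0) (nat_lit 0),Row.mk (nat_lit 28056) (nat_lit 32912) (nat_lit 8388608) (nat_lit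 61897) (nat_lit 8249432185) (nat_lit 0) (nat_lit 0),Row.mk (nat_lit 28224) (nat_lit 32912) (nat_lit 8388608) (nat_lit 61897) (nat_lit 8249432185) (nat_lit 0) (nat_lit 0),Row.mk (nat_lit 28392) (nat_lit 32912) (nat_lit 8388608) (nat_lit 61897) (nat_lit 8249432185) (nat_lit 0) (nat_lit 0),Row.mk (nat_lit 28560) (nat_lit 32912) (nat_lit 8388608) (nat_lit 61897) (nat_lit 8249432185) (nat_lit 0) (nat_lit 0),Row.mk (nat_lit 28728) (nat_lit 32912) (nat_lit 8388608) (nat_lit 61897) (nat_lit 8249432185) (nat_lit 0) (nat_lit 0),Row.mk (nat_lit 28896) (nat_lit 32912) (nat_lit 8388608) (nat_lit 61897) (nat_lit 8249432185) (nat_lit 0) (nat_lit 0),Row.mk (nat_lit 29064) (nat_lit 32912) (nat_lit 8388608) (nat_lit 61897) (nat_lit 8249432185) (nat_lit 0) (nat_lit 0),Row.mk (nat_lit 29232) (nat_lit 32912) (nat_lit 8388608) (nat_lit 61897) (nat_lit 8249432185) (nat_lit 0) (nat_lit 0),Row.mk (nat_lit 29400) (nat_lit 32912) (nat_lit 8388608) (nat_lit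 61897) (nat_lit 8249432185) (nat_lit 0) (nat_lit 0),Row.mk (nat_lit 29568) (nat_lit 32912) (nat_lit 8388608) (nat_lit 61897) (nat_lit 8249432185) (nat_lit 0) (nat_lit 0),Row.mk (nat_lit 29736) (nat_lit 32912) (nat_lit 8388608) (nat_lit 61897) (nat_lit 8249432185) (nat_lit 0) (nat_lit 0)],
[Row.mk (nat_lit 18312) (nat_lit 32912) (nat_lit 8388608) (nat_lit 61897) (nat_lit 10305430352) (nat_lit 0) (nat_lit 0),Row.mk (nat_lit 18480) (nat_lit 32912) (nat_lit 8388608) (nat_lit 61897) (nat_lit 10305430352) (nat_lit 0) (nat_lit 0),Row.mk (nat_lit 18648) (nat_lit 32912) (nat_lit 8388608) (nat_lit 61897) (nat_lit 10305430352) (nat_lit 0) (nat_lit 0),Row.mk (nat_lit 18816) (nat_lit 32912) (nat_lit 8388608) (nat_lit 61897) (nat_lit 10305430352) (nat_lit 0) (nat_lit 0),Row.mk (nat_lit 18984) (nat_lit 32912) (nat_lit 8388608) (nat_lit 61897) (nat_lit 10305430352) (nat_lit 0) (nat_lit 0),Row.mk (nat_lit 19152) (nat_lit 32912) (nat_lit 8388608) (nat_lit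 61897) (nat_lit 10305430352) (nat_lit 0) (nat_lit 0),Row.mk (nat_lit 19320) (nat_lit 32912) (nat_lit 8388608) (nat_lit 61897) (nat_lit 10305430352) (nat_lit 0) (nat_lit 0),Row.mk (nat_lit 19488) (nat_lit 32912) (nat_lit 8388608) (nat_lit 61897) (nat_lit 10305430352) (nat_lit 0) (nat_lit 0),Row.mk (nat_lit 19656) (nat_lit 32912) (nat_lit 8388608) (nat_lit 61897) (nat_lit 10305430352) (nat_lit 0) (nat_lit 0),Row.mk (nat_lit 19824) (nat_lit 32912) (nat_lit 8388608) (nat_lit 61897) (nat_lit 10305430352) (nat_lit 0) (nat_lit 0),Row.mk (nat_lit 19992) (nat_lit 32912) (nat_lit 8388608) (nat_lit 61897) (nat_lit 10305430352) (nat_lit 0) (nat_lit 0),Row.mk (nat_lit 20160) (nat_lit 32912) (nat_lit 8388608) (nat_lit 61897) (nat_lit 10305430352) (nat_lit 0) (nat_lit 0),Row.mk (nat_lit 20328) (nat_lit 32912) (nat_lit 8388608) (nat_lit 61897) (nat_lit 10305430352) (nat_lit 0) (nat_lit 0),Row.mk (nat_lit 20496) (nat_lit 32912) (nat_lit 8388608) (nat_lit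 61897) (nat_lit 10305430352) (nat_lit 0) (nat_lit 0),Row.mk (nat_lit 20664) (nat_lit 32912) (nat_lit 8388608) (nat_lit 61897) (nat_lit 10305430352) (nat_lit 0) (nat_lit 0),Row.mk (nat_lit 20832) (nat_lit 32912) (nat_lit 8388608) (nat_lit 61897) (nat_lit 10305430352) (nat_lit 0) (nat_lit 0),Row.mk (nat_lit 21000) (nat_lit 32912) (nat_lit 8388608) (nat_lit 61897) (nat_lit 10305430352) (nat_lit 0) (nat_lit 0),Row.mk (nat_lit 21168) (nat_lit 32912) (nat_lit 8388608) (nat_lit 61897) (nat_lit 10305430352) (nat_lit 0) (nat_lit 0),Row.mk (nat_lit 21336) (nat_lit 32912) (nat_lit 8388608) (nat_lit 61897) (nat_lit 10305430352) (nat_lit 0) (nat_lit 0),Row.mk (nat_lit 21504) (nat_lit 32912) (nat_lit 8388608) (nat_lit 61897) (nat_lit 10305430352) (nat_lit 0) (nat_lit 0),Row.mk (nat_lit 21672) (nat_lit 32912) (nat_lit 8388608) (nat_lit 61897) (nat_lit 10305430352) (nat_lit 0) (nat_lit 0),Row.mk (nat_lit 21840) (nat_lit 32912) (nat_lit 8388608) (nat_lit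 61897) (nat_lit 10305430352) (nat_lit 0) (nat_lit 0),Row.mk (nat_lit 22008) (nat_lit 32912) (nat_lit 8388608) (nat_lit 61897) (nat_lit 10305430352) (nat_lit 0) (nat_lit 0),Row.mk (nat_lit 22176) (nat_lit 32912) (nat_lit 8388608) (nat_lit 61897) (nat_lit 10305430352) (nat_lit 0) (nat_lit 0),Row.mk (nat_lit 22344) (nat_lit 32912) (nat_lit 8388608) (nat_lit 61897) (nat_lit 10305430352) (nat_lit 0) (nat_lit 0),Row.mk (nat_lit 22512) (nat_lit 32912) (nat_lit 8388608) (nat_lit 61897) (nat_lit 10305430352) (nat_lit 0) (nat_lit 0),Row.mk (nat_lit 22680) (nat_lit 32912) (nat_lit 8388608) (nat_lit 61897) (nat_lit 10305430352) (nat_lit 0) (nat_lit 0),Row.mk (nat_lit 22848) (nat_lit 32912) (nat_lit 8388608) (nat_lit 61897) (nat_lit 10305430352) (nat_lit 0) (nat_lit 0),Row.mk (nat_lit 23016) (nat_lit 32912) (nat_lit 8388608) (nat_lit 61897) (nat_lit 10305430352) (nat_lit 0) (nat_lit 0),Row.mk (nat_lit 23184) (nat_lit 32912) (nat_lit 8388608) (nat_lit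 61897) (nat_lit 10305430352) (nat_lit 0) (nat_lit 0),Row.mk (nat_lit 23352) (nat_lit 32912) (nat_lit 8388608) (nat_lit 61897) (nat_lit 10305430352) (nat_lit 0) (nat_lit 0),Row.mk (nat_lit 23520) (nat_lit 32912) (nat_lit 8388608) (nat_lit 61897) (nat_lit 10305430352) (nat_lit 0) (nat_lit 0),Row.mk (nat_lit 23688) (nat_lit 32912) (nat_lit 8388608) (nat_lit 61897) (nat_lit 10305430352) (nat_lit 0) (nat_lit 0),Row.mk (nat_lit 23856) (nat_lit 32912) (nat_lit 8388608) (nat_lit 61897) (nat_lit 10305430352) (nat_lit 0) (nat_lit 0),Row.mk (nat_lit 24024) (nat_lit 32912) (nat_lit 8388608) (nat_lit 61897) (nat_lit 10305430352) (nat_lit 0) (nat_lit 0),Row.mk (nat_lit 24192) (nat_lit 32912) (nat_lit 8388608) (nat_lit 61897) (nat_lit 10305430352) (nat_lit 0) (nat_lit 0),Row.mk (nat_lit 24360) (nat_lit 32912) (nat_lit 8388608) (nat_lit 61897) (nat_lit 10305430352) (nat_lit 0) (nat_lit 0),Row.mk (nat_lit 24528) (nat_lit 32912) (nat_lit 8388608) (nat_lit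 61897) (nat_lit 10305430352) (nat_lit 0) (nat_lit 0),Row.mk (nat_lit 24696) (nat_lit 32912) (nat_lit 8388608) (nat_lit 61897) (nat_lit 10305430352) (nat_lit 0) (nat_lit 0),Row.mk (nat_lit 24864) (nat_lit 32912) (nat_lit 8388608) (nat_lit 61897) (nat_lit 10305430352) (nat_lit 0) (nat_lit 0),Row.mk (nat_lit 25032) (nat_lit 32912) (nat_lit 8388608) (nat_lit 61897) (nat_lit 10305430352) (nat_lit 0) (nat_lit 0),Row.mk (nat_lit 25200) (nat_lit 32912) (nat_lit 8388608) (nat_lit 61897) (nat_lit 10305430352) (nat_lit 0) (nat_lit 0),Row.mk (nat_lit 25368) (nat_lit 32912) (nat_lit 8388608) (nat_lit 61897) (nat_lit 10305430352) (nat_lit 0) (nat_lit 0),Row.mk (nat_lit 25536) (nat_lit 32912) (nat_lit 8388608) (nat_lit 61897) (nat_lit 10305430352) (nat_lit 0) (nat_lit 0),Row.mk (nat_lit 25704) (nat_lit 32912) (nat_lit 8388608) (nat_lit 61897) (nat_lit 10305430352) (nat_lit 0) (nat_lit 0),Row.mk (nat_lit 25872) (nat_lit 32912) (nat_lit 8388608) (nat_lit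 61897) (nat_lit 10305430352) (nat_lit 0) (nat_lit 0),Row.mk (nat_lit 26040) (nat_lit 32912) (nat_lit 8388608) (nat_lit 61897) (nat_lit 10305430352) (nat_lit 0) (nat_lit 0),Row.mk (nat_lit 26208) (nat_lit 32912) (nat_lit 8388608) (nat_lit 61897) (nat_lit 10305430352) (nat_lit 0) (nat_lit 0),Row.mk (nat_lit 26376) (nat_lit 32912) (nat_lit 8388608) (nat_lit 61897) (nat_lit 10305430352) (nat_lit 0) (nat_lit 0),Row.mk (nat_lit 26544) (nat_lit 32912) (nat_lit 8388608) (nat_lit 61897) (nat_lit 10305430352) (nat_lit 0) (nat_lit 0),Row.mk (nat_lit 26712) (nat_lit 32912) (nat_lit 8388608) (nat_lit 61897) (nat_lit 10305430352) (nat_lit 0) (nat_lit 0),Row.mk (nat_lit 26880) (nat_lit 32912) (nat_lit 8388608) (nat_lit 61897) (nat_lit 10305430352) (nat_lit 0) (nat_lit 0),Row.mk (nat_lit 27048) (nat_lit 32912) (nat_lit 8388608) (nat_lit 61897) (nat_lit 10305430352) (nat_lit 0) (nat_lit 0),Row.mk (nat_lit 27216) (nat_lit 32912) (nat_lit 8388608) (nat_lit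 61897) (nat_lit 10305430352) (nat_lit 0) (nat_lit 0),Row.mk (nat_lit 27384) (nat_lit 32912) (nat_lit 8388608) (nat_lit 61897) (nat_lit 10305430352) (nat_lit 0) (nat_lit 0),Row.mk (nat_lit 27552) (nat_lit 32912) (nat_lit 8388608) (nat_lit 61897) (nat_lit 10305430352) (nat_lit 0) (nat_lit 0),Row.mk (nat_lit 27720) (nat_lit 32912) (nat_lit 8388608) (nat_lit 61897) (nat_lit 10305430352) (nat_lit 0) (nat_lit 0),Row.mk (nat_lit 27888) (nat_lit 32912) (nat_lit 8388608) (nat_lit 61897) (nat_lit 10305430352) (nat_lit 0) (nat_lit 0),Row.mk (nat_lit 28056) (nat_lit 32912) (nat_lit 8388608) (nat_lit 61897) (nat_lit 10305430352) (nat_lit 0) (nat_lit 0),Row.mk (nat_lit 28224) (nat_lit 32912) (nat_lit 8388608) (nat_lit 61897) (nat_lit 10305430352) (nat_lit 0) (nat_lit 0),Row.mk (nat_lit 28392) (nat_lit 32912) (nat_lit 8388608) (nat_lit 61897) (nat_lit 10305430352) (nat_lit 0) (nat_lit 0),Row.mk (nat_lit 28560) (nat_lit 32912) (nat_lit 8388608) (nat_lit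 61897) (nat_lit 10305430352) (nat_lit 0) (nat_lit 0),Row.mk (nat_lit 28728) (nat_lit 32912) (nat_lit 8388608) (nat_lit 61897) (nat_lit 10305430352) (nat_lit 0) (nat_lit 0),Row.mk (nat_lit 28896) (nat_lit 32912) (nat_lit 8388608) (nat_lit 61897) (nat_lit 10305430352) (nat_lit 0) (nat_lit 0),Row.mk (nat_lit 29064) (nat_lit 32912) (nat_lit 8388608) (nat_lit 61897) (nat_lit 10305430352) (nat_lit 0) (nat_lit 0),Row.mk (nat_lit 29232) (nat_lit 32912) (nat_lit 8388608) (nat_lit 61897) (nat_lit 10305430352) (nat_lit 0) (nat_lit 0),Row.mk (nat_lit 29400) (nat_lit 32912) (nat_lit 8388608) (nat_lit 61897) (nat_lit 10305430352) (nat_lit 0) (nat_lit 0),Row.mk (nat_lit 29568) (nat_lit 32912) (nat_lit 8388608) (nat_lit 61897) (nat_lit 10305430352) (nat_lit 0) (nat_lit 0),Row.mk (nat_lit 29736) (nat_lit 32912) (nat_lit 8388608) (nat_lit 61897) (nat_lit 10305430352) (nat_lit 0) (nat_lit 0),Row.mk (nat_lit 29904) (nat_lit 32912) (nat_lit 8388608) (nat_lit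 61897) (nat_lit 10305430352) (nat_lit 0) (nat_lit 0)],
[Row.mk (nat_lit 20328) (nat_lit 32912) (nat_lit 8388608) (nat_lit 61897) (nat_lit 12873322465) (nat_lit 0) (nat_lit 0),Row.mk (nat_lit 20496) (nat_lit 32912) (nat_lit 8388608) (nat_lit 61897) (nat_lit 12873322465) (nat_lit 0) (nat_lit 0),Row.mk (nat_lit 20664) (nat_lit 32912) (nat_lit 8388608) (nat_lit 61897) (nat_lit 12873322465) (nat_lit 0) (nat_lit 0),Row.mk (nat_lit 20832) (nat_lit 32912) (nat_lit 8388608) (nat_lit 61897) (nat_lit 12873322465) (nat_lit 0) (nat_lit 0),Row.mk (nat_lit 21000) (nat_lit 32912) (nat_lit 8388608) (nat_lit 61897) (nat_lit 12873322465) (nat_lit 0) (nat_lit 0),Row.mk (nat_lit 21168) (nat_lit 32912) (nat_lit 8388608) (nat_lit 61897) (nat_lit 12873322465) (nat_lit 0) (nat_lit 0),Row.mk (nat_lit 21336) (nat_lit 32912) (nat_lit 8388608) (nat_lit 61897) (nat_lit 12873322465) (nat_lit 0) (nat_lit 0),Row.mk (nat_lit 21504) (nat_lit 32912) (nat_lit 8388608)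 (nat_lit 61897) (nat_lit 12873322465) (nat_lit 0) (nat_lit 0),Row.mk (nat_lit 21672) (nat_lit 32912) (nat_lit 8388608) (nat_lit 61897) (nat_lit 12873322465) (nat_lit 0) (nat_lit 0),Row.mk (nat_lit 21840) (nat_lit 32912) (nat_lit 8388608) (nat_lit 61897) (nat_lit 12873322465) (nat_lit 0) (nat_lit 0),Row.mk (nat_lit 22008) (nat_lit 32912) (nat_lit 8388608) (nat_lit 61897) (nat_lit 12873322465) (nat_lit 0) (nat_lit 0),Row.mk (nat_lit 22176) (nat_lit 32912) (nat_lit 8388608) (nat_lit 61897) (nat_lit 12873322465) (nat_lit 0) (nat_lit 0),Row.mk (nat_lit 22344) (nat_lit 32912) (nat_lit 8388608) (nat_lit 61897) (nat_lit 12873322465) (nat_lit 0) (nat_lit 0),Row.mk (nat_lit 22512) (nat_lit 32912) (nat_lit 8388608) (nat_lit 61897) (nat_lit 12873322465) (nat_lit 0) (nat_lit 0),Row.mk (nat_lit 22680) (nat_lit 32912) (nat_lit 8388608) (nat_lit 61897) (nat_lit 12873322465) (nat_lit 0) (nat_lit 0),Row.mk (nat_lit 22848) (nat_lit 32912) (nat_lit 8388608)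 (nat_lit 61897) (nat_lit 12873322465) (nat_lit 0) (nat_lit 0),Row.mk (nat_lit 23016) (nat_lit 32912) (nat_lit 8388608) (nat_lit 61897) (nat_lit 12873322465) (nat_lit 0) (nat_lit 0),Row.mk (nat_lit 23184) (nat_lit 32912) (nat_lit 8388608) (nat_lit 61897) (nat_lit 12873322465) (nat_lit 0) (nat_lit 0),Row.mk (nat_lit 23352) (nat_lit 32912) (nat_lit 8388608) (nat_lit 61897) (nat_lit 12873322465) (nat_lit 0) (nat_lit 0),Row.mk (nat_lit 23520) (nat_lit 32912) (nat_lit 8388608) (nat_lit 61897) (nat_lit 12873322465) (nat_lit 0) (nat_lit 0),Row.mk (nat_lit 23688) (nat_lit 32912) (nat_lit 8388608) (nat_lit 61897) (nat_lit 12873322465) (nat_lit 0) (nat_lit 0),Row.mk (nat_lit 23856) (nat_lit 32912) (nat_lit 8388608) (nat_lit 61897) (nat_lit 12873322465) (nat_lit 0) (nat_lit 0),Row.mk (nat_lit 24024) (nat_lit 32912) (nat_lit 8388608) (nat_lit 61897) (nat_lit 12873322465) (nat_lit 0) (nat_lit 0),Row.mk (nat_lit 24192) (nat_lit 32912) (nat_lit 8388608)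 (nat_lit 61897) (nat_lit 12873322465) (nat_lit 0) (nat_lit 0),Row.mk (nat_lit 24360) (nat_lit 32912) (nat_lit 8388608) (nat_lit 61897) (nat_lit 12873322465) (nat_lit 0) (nat_lit 0),Row.mk (nat_lit 24528) (nat_lit 32912) (nat_lit 8388608) (nat_lit 61897) (nat_lit 12873322465) (nat_lit 0) (nat_lit 0),Row.mk (nat_lit 24696) (nat_lit 32912) (nat_lit 8388608) (nat_lit 61897) (nat_lit 12873322465) (nat_lit 0) (nat_lit 0),Row.mk (nat_lit 24864) (nat_lit 32912) (nat_lit 8388608) (nat_lit 61897) (nat_lit 12873322465) (nat_lit 0) (nat_lit 0),Row.mk (nat_lit 25032) (nat_lit 32912) (nat_lit 8388608) (nat_lit 61897) (nat_lit 12873322465) (nat_lit 0) (nat_lit 0),Row.mk (nat_lit 25200) (nat_lit 32912) (nat_lit 8388608) (nat_lit 61897) (nat_lit 12873322465) (nat_lit 0) (nat_lit 0),Row.mk (nat_lit 25368) (nat_lit 32912) (nat_lit 8388608) (nat_lit 61897) (nat_lit 12873322465) (nat_lit 0) (nat_lit 0),Row.mk (nat_lit 25536) (nat_lit 32912) (nat_lit 8388608)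 (nat_lit 61897) (nat_lit 12873322465) (nat_lit 0) (nat_lit 0),Row.mk (nat_lit 25704) (nat_lit 32912) (nat_lit 8388608) (nat_lit 61897) (nat_lit 12873322465) (nat_lit 0) (nat_lit 0),Row.mk (nat_lit 25872) (nat_lit 32912) (nat_lit 8388608) (nat_lit 61897) (nat_lit 12873322465) (nat_lit 0) (nat_lit 0),Row.mk (nat_lit 26040) (nat_lit 32912) (nat_lit 8388608) (nat_lit 61897) (nat_lit 12873322465) (nat_lit 0) (nat_lit 0),Row.mk (nat_lit 26208) (nat_lit 32912) (nat_lit 8388608) (nat_lit 61897) (nat_lit 12873322465) (nat_lit 0) (nat_lit 0),Row.mk (nat_lit 26376) (nat_lit 32912) (nat_lit 8388608) (nat_lit 61897) (nat_lit 12873322465) (nat_lit 0) (nat_lit 0),Row.mk (nat_lit 26544) (nat_lit 32912) (nat_lit 8388608) (nat_lit 61897) (nat_lit 12873322465) (nat_lit 0) (nat_lit 0),Row.mk (nat_lit 26712) (nat_lit 32912) (nat_lit 8388608) (nat_lit 61897) (nat_lit 12873322465) (nat_lit 0) (nat_lit 0),Row.mk (nat_lit 26880) (nat_lit 32912) (nat_lit 8388608)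 (nat_lit 61897) (nat_lit 12873322465) (nat_lit 0) (nat_lit 0),Row.mk (nat_lit 27048) (nat_lit 32912) (nat_lit 8388608) (nat_lit 61897) (nat_lit 12873322465) (nat_lit 0) (nat_lit 0),Row.mk (nat_lit 27216) (nat_lit 32912) (nat_lit 8388608) (nat_lit 61897) (nat_lit 12873322465) (nat_lit 0) (nat_lit 0),Row.mk (nat_lit 27384) (nat_lit 32912) (nat_lit 8388608) (nat_lit 61897) (nat_lit 12873322465) (nat_lit 0) (nat_lit 0),Row.mk (nat_lit 27552) (nat_lit 32912) (nat_lit 8388608) (nat_lit 61897) (nat_lit 12873322465) (nat_lit 0) (nat_lit 0),Row.mk (nat_lit 27720) (nat_lit 32912) (nat_lit 8388608) (nat_lit 61897) (nat_lit 12873322465) (nat_lit 0) (nat_lit 0),Row.mk (nat_lit 27888) (nat_lit 32912) (nat_lit 8388608) (nat_lit 61897) (nat_lit 12873322465) (nat_lit 0) (nat_lit 0),Row.mk (nat_lit 28056) (nat_lit 32912) (nat_lit 8388608) (nat_lit 61897) (nat_lit 12873322465) (nat_lit 0) (nat_lit 0),Row.mk (nat_lit 28224) (nat_lit 32912) (nat_lit 8388608)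 (nat_lit 61897) (nat_lit 12873322465) (nat_lit 0) (nat_lit 0),Row.mk (nat_lit 28392) (nat_lit 32912) (nat_lit 8388608) (nat_lit 61897) (nat_lit 12873322465) (nat_lit 0) (nat_lit 0),Row.mk (nat_lit 28560) (nat_lit 32912) (nat_lit 8388608) (nat_lit 61897) (nat_lit 12873322465) (nat_lit 0) (nat_lit 0),Row.mk (nat_lit 28728) (nat_lit 32912) (nat_lit 8388608) (nat_lit 61897) (nat_lit 12873322465) (nat_lit 0) (nat_lit 0),Row.mk (nat_lit 28896) (nat_lit 32912) (nat_lit 8388608) (nat_lit 61897) (nat_lit 12873322465) (nat_lit 0) (nat_lit 0),Row.mk (nat_lit 29064) (nat_lit 32912) (nat_lit 8388608) (nat_lit 61897) (nat_lit 12873322465) (nat_lit 0) (nat_lit 0),Row.mk (nat_lit 29232) (nat_lit 32912) (nat_lit 8388608) (nat_lit 61897) (nat_lit 12873322465) (nat_lit 0) (nat_lit 0),Row.mk (nat_lit 29400) (nat_lit 32912) (nat_lit 8388608) (nat_lit 61897) (nat_lit 12873322465) (nat_lit 0) (nat_lit 0),Row.mk (nat_lit 29568) (nat_lit 32912) (nat_lit 8388608)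 (nat_lit 61897) (nat_lit 12873322465) (nat_lit 0) (nat_lit 0),Row.mk (nat_lit 29736) (nat_lit 32912) (nat_lit 8388608) (nat_lit 61897) (nat_lit 12873322465) (nat_lit 0) (nat_lit 0),Row.mk (nat_lit 29904) (nat_lit 32912) (nat_lit 8388608) (nat_lit 61897) (nat_lit 12873322465) (nat_lit 0) (nat_lit 0)],
[Row.mk (nat_lit 20832) (nat_lit 32912) (nat_lit 8388608) (nat_lit 61897) (nat_lit 16080557766) (nat_lit 0) (nat_lit 0),Row.mk (nat_lit 21000) (nat_lit 32912) (nat_lit 8388608) (nat_lit 61897) (nat_lit 16080557766) (nat_lit 0) (nat_lit 0),Row.mk (nat_lit 21168) (nat_lit 32912) (nat_lit 8388608) (nat_lit 61897) (nat_lit 16080557766) (nat_lit 0) (nat_lit 0),Row.mk (nat_lit 21336) (nat_lit 32912) (nat_lit 8388608) (nat_lit 61897) (nat_lit 16080557766) (nat_lit 0) (nat_lit 0),Row.mk (nat_lit 21504) (nat_lit 32912) (nat_lit 8388608) (nat_lit 61897) (nat_lit 16080557766) (nat_lit 0) (nat_lit 0),Row.mk (nat_lit 21672) (nat_lit 32912) (nat_lit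 8388608) (nat_lit 61897) (nat_lit 16080557766) (nat_lit 0) (nat_lit 0),Row.mk (nat_lit 21840) (nat_lit 32912) (nat_lit 8388608) (nat_lit 61897) (nat_lit 16080557766) (nat_lit 0) (nat_lit 0),Row.mk (nat_lit 22008) (nat_lit 32912) (nat_lit 8388608) (nat_lit 61897) (nat_lit 16080557766) (nat_lit 0) (nat_lit 0),Row.mk (nat_lit 22176) (nat_lit 32912) (nat_lit 8388608) (nat_lit 61897) (nat_lit 16080557766) (nat_lit 0) (nat_lit 0),Row.mk (nat_lit 22344) (nat_lit 32912) (nat_lit 8388608) (nat_lit 61897) (nat_lit 16080557766) (nat_lit 0) (nat_lit 0),Row.mk (nat_lit 22512) (nat_lit 32912) (nat_lit 8388608) (nat_lit 61897) (nat_lit 16080557766) (nat_lit 0) (nat_lit 0),Row.mk (nat_lit 22680) (nat_lit 32912) (nat_lit 8388608) (nat_lit 61897) (nat_lit 16080557766) (nat_lit 0) (nat_lit 0),Row.mk (nat_lit 22848) (nat_lit 32912) (nat_lit 8388608) (nat_lit 61897) (nat_lit 16080557766) (nat_lit 0) (nat_lit 0),Row.mk (nat_lit 23016) (nat_lit 32912) (nat_lit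 8388608) (nat_lit 61897) (nat_lit 16080557766) (nat_lit 0) (nat_lit 0),Row.mk (nat_lit 23184) (nat_lit 32912) (nat_lit 8388608) (nat_lit 61897) (nat_lit 16080557766) (nat_lit 0) (nat_lit 0),Row.mk (nat_lit 23352) (nat_lit 32912) (nat_lit 8388608) (nat_lit 61897) (nat_lit 16080557766) (nat_lit 0) (nat_lit 0),Row.mk (nat_lit 23520) (nat_lit 32912) (nat_lit 8388608) (nat_lit 61897) (nat_lit 16080557766) (nat_lit 0) (nat_lit 0),Row.mk (nat_lit 23688) (nat_lit 32912) (nat_lit 8388608) (nat_lit 61897) (nat_lit 16080557766) (nat_lit 0) (nat_lit 0),Row.mk (nat_lit 23856) (nat_lit 32912) (nat_lit 8388608) (nat_lit 61897) (nat_lit 16080557766) (nat_lit 0) (nat_lit 0),Row.mk (nat_lit 24024) (nat_lit 32912) (nat_lit 8388608) (nat_lit 61897) (nat_lit 16080557766) (nat_lit 0) (nat_lit 0),Row.mk (nat_lit 24192) (nat_lit 32912) (nat_lit 8388608) (nat_lit 61897) (nat_lit 16080557766) (nat_lit 0) (nat_lit 0),Row.mk (nat_lit 24360) (nat_lit 32912) (nat_lit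 8388608) (nat_lit 61897) (nat_lit 16080557766) (nat_lit 0) (nat_lit 0),Row.mk (nat_lit 24528) (nat_lit 32912) (nat_lit 8388608) (nat_lit 61897) (nat_lit 16080557766) (nat_lit 0) (nat_lit 0),Row.mk (nat_lit 24696) (nat_lit 32912) (nat_lit 8388608) (nat_lit 61897) (nat_lit 16080557766) (nat_lit 0) (nat_lit 0),Row.mk (nat_lit 24864) (nat_lit 32912) (nat_lit 8388608) (nat_lit 61897) (nat_lit 16080557766) (nat_lit 0) (nat_lit 0),Row.mk (nat_lit 25032) (nat_lit 32912) (nat_lit 8388608) (nat_lit 61897) (nat_lit 16080557766) (nat_lit 0) (nat_lit 0),Row.mk (nat_lit 25200) (nat_lit 32912) (nat_lit 8388608) (nat_lit 61897) (nat_lit 16080557766) (nat_lit 0) (nat_lit 0),Row.mk (nat_lit 25368) (nat_lit 32912) (nat_lit 8388608) (nat_lit 61897) (nat_lit 16080557766) (nat_lit 0) (nat_lit 0),Row.mk (nat_lit 25536) (nat_lit 32912) (nat_lit 8388608) (nat_lit 61897) (nat_lit 16080557766) (nat_lit 0) (nat_lit 0),Row.mk (nat_lit 25704) (nat_lit 32912) (nat_lit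 8388608) (nat_lit 61897) (nat_lit 16080557766) (nat_lit 0) (nat_lit 0),Row.mk (nat_lit 25872) (nat_lit 32912) (nat_lit 8388608) (nat_lit 61897) (nat_lit 16080557766) (nat_lit 0) (nat_lit 0),Row.mk (nat_lit 26040) (nat_lit 32912) (nat_lit 8388608) (nat_lit 61897) (nat_lit 16080557766) (nat_lit 0) (nat_lit 0),Row.mk (nat_lit 26208) (nat_lit 32912) (nat_lit 8388608) (nat_lit 61897) (nat_lit 16080557766) (nat_lit 0) (nat_lit 0),Row.mk (nat_lit 26376) (nat_lit 32912) (nat_lit 8388608) (nat_lit 61897) (nat_lit 16080557766) (nat_lit 0) (nat_lit 0),Row.mk (nat_lit 26544) (nat_lit 32912) (nat_lit 8388608) (nat_lit 61897) (nat_lit 16080557766) (nat_lit 0) (nat_lit 0),Row.mk (nat_lit 26712) (nat_lit 32912) (nat_lit 8388608) (nat_lit 61897) (nat_lit 16080557766) (nat_lit 0) (nat_lit 0),Row.mk (nat_lit 26880) (nat_lit 32912) (nat_lit 8388608) (nat_lit 61897) (nat_lit 16080557766) (nat_lit 0) (nat_lit 0),Row.mk (nat_lit 27048) (nat_lit 32912) (nat_lit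 8388608) (nat_lit 61897) (nat_lit 16080557766) (nat_lit 0) (nat_lit 0),Row.mk (nat_lit 27216) (nat_lit 32912) (nat_lit 8388608) (nat_lit 61897) (nat_lit 16080557766) (nat_lit 0) (nat_lit 0),Row.mk (nat_lit 27384) (nat_lit 32912) (nat_lit 8388608) (nat_lit 61897) (nat_lit 16080557766) (nat_lit 0) (nat_lit 0),Row.mk (nat_lit 27552) (nat_lit 32912) (nat_lit 8388608) (nat_lit 61897) (nat_lit 16080557766) (nat_lit 0) (nat_lit 0),Row.mk (nat_lit 27720) (nat_lit 32912) (nat_lit 8388608) (nat_lit 61897) (nat_lit 16080557766) (nat_lit 0) (nat_lit 0),Row.mk (nat_lit 27888) (nat_lit 32912) (nat_lit 8388608) (nat_lit 61897) (nat_lit 16080557766) (nat_lit 0) (nat_lit 0),Row.mk (nat_lit 28056) (nat_lit 32912) (nat_lit 8388608) (nat_lit 61897) (nat_lit 16080557766) (nat_lit 0) (nat_lit 0),Row.mk (nat_lit 28224) (nat_lit 32912) (nat_lit 8388608) (nat_lit 61897) (nat_lit 16080557766) (nat_lit 0) (nat_lit 0),Row.mk (nat_lit 28392) (nat_lit 32912) (nat_lit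 8388608) (nat_lit 61897) (nat_lit 16080557766) (nat_lit 0) (nat_lit 0),Row.mk (nat_lit 28560) (nat_lit 32912) (nat_lit 8388608) (nat_lit 61897) (nat_lit 16080557766) (nat_lit 0) (nat_lit 0),Row.mk (nat_lit 28728) (nat_lit 32912) (nat_lit 8388608) (nat_lit 61897) (nat_lit 16080557766) (nat_lit 0) (nat_lit 0),Row.mk (nat_lit 28896) (nat_lit 32912) (nat_lit 8388608) (nat_lit 61897) (nat_lit 16080557766) (nat_lit 0) (nat_lit 0),Row.mk (nat_lit 29064) (nat_lit 32912) (nat_lit 8388608) (nat_lit 61897) (nat_lit 16080557766) (nat_lit 0) (nat_lit 0),Row.mk (nat_lit 29232) (nat_lit 32912) (nat_lit 8388608) (nat_lit 61897) (nat_lit 16080557766) (nat_lit 0) (nat_lit 0),Row.mk (nat_lit 29400) (nat_lit 32912) (nat_lit 8388608) (nat_lit 61897) (nat_lit 16080557766) (nat_lit 0) (nat_lit 0),Row.mk (nat_lit 29568) (nat_lit 32912) (nat_lit 8388608) (nat_lit 61897) (nat_lit 16080557766) (nat_lit 0) (nat_lit 0),Row.mk (nat_lit 29736) (nat_lit 32912) (nat_lit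 8388608) (nat_lit 61897) (nat_lit 16080557766) (nat_lit 0) (nat_lit 0),Row.mk (nat_lit 29904) (nat_lit 32912) (nat_lit 8388608) (nat_lit 61897) (nat_lit 16080557766) (nat_lit 0) (nat_lit 0),Row.mk (nat_lit 30072) (nat_lit 32912) (nat_lit 8388608) (nat_lit 61897) (nat_lit 16080557766) (nat_lit 0) (nat_lit 0)],
[Row.mk (nat_lit 21168) (nat_lit 32912) (nat_lit 8388608) (nat_lit 61897) (nat_lit 20086317287) (nat_lit 0) (nat_lit 0),Row.mk (nat_lit 21336) (nat_lit 32912) (nat_lit 8388608) (nat_lit 61897) (nat_lit 20086317287) (nat_lit 0) (nat_lit 0),Row.mk (nat_lit 21504) (nat_lit 32912) (nat_lit 8388608) (nat_lit 61897) (nat_lit 20086317287) (nat_lit 0) (nat_lit 0),Row.mk (nat_lit 21672) (nat_lit 32912) (nat_lit 8388608) (nat_lit 61897) (nat_lit 20086317287) (nat_lit 0) (nat_lit 0),Row.mk (nat_lit 21840) (nat_lit 32912) (nat_lit 8388608) (nat_lit 61897) (nat_lit 20086317287) (nat_lit 0) (nat_lit 0),Row.mk (nat_lit 22008) (nat_lit 32912)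 (nat_lit 8388608) (nat_lit 61897) (nat_lit 20086317287) (nat_lit 0) (nat_lit 0),Row.mk (nat_lit 22176) (nat_lit 32912) (nat_lit 8388608) (nat_lit 61897) (nat_lit 20086317287) (nat_lit 0) (nat_lit 0),Row.mk (nat_lit 22344) (nat_lit 32912) (nat_lit 8388608) (nat_lit 61897) (nat_lit 20086317287) (nat_lit 0) (nat_lit 0),Row.mk (nat_lit 22512) (nat_lit 32912) (nat_lit 8388608) (nat_lit 61897) (nat_lit 20086317287) (nat_lit 0) (nat_lit 0),Row.mk (nat_lit 22680) (nat_lit 32912) (nat_lit 8388608) (nat_lit 61897) (nat_lit 20086317287) (nat_lit 0) (nat_lit 0),Row.mk (nat_lit 22848) (nat_lit 32912) (nat_lit 8388608) (nat_lit 61897) (nat_lit 20086317287) (nat_lit 0) (nat_lit 0),Row.mk (nat_lit 23016) (nat_lit 32912) (nat_lit 8388608) (nat_lit 61897) (nat_lit 20086317287) (nat_lit 0) (nat_lit 0),Row.mk (nat_lit 23184) (nat_lit 32912) (nat_lit 8388608) (nat_lit 61897) (nat_lit 20086317287) (nat_lit 0) (nat_lit 0),Row.mk (nat_lit 23352) (nat_lit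 32912) (nat_lit 8388608) (nat_lit 61897) (nat_lit 20086317287) (nat_lit 0) (nat_lit 0),Row.mk (nat_lit 23520) (nat_lit 32912) (nat_lit 8388608) (nat_lit 61897) (nat_lit 20086317287) (nat_lit 0) (nat_lit 0),Row.mk (nat_lit 23688) (nat_lit 32912) (nat_lit 8388608) (nat_lit 61897) (nat_lit 20086317287) (nat_lit 0) (nat_lit 0),Row.mk (nat_lit 23856) (nat_lit 32912) (nat_lit 8388608) (nat_lit 61897) (nat_lit 20086317287) (nat_lit 0) (nat_lit 0),Row.mk (nat_lit 24024) (nat_lit 32912) (nat_lit 8388608) (nat_lit 61897) (nat_lit 20086317287) (nat_lit 0) (nat_lit 0),Row.mk (nat_lit 24192) (nat_lit 32912) (nat_lit 8388608) (nat_lit 61897) (nat_lit 20086317287) (nat_lit 0) (nat_lit 0),Row.mk (nat_lit 24360) (nat_lit 32912) (nat_lit 8388608) (nat_lit 61897) (nat_lit 20086317287) (nat_lit 0) (nat_lit 0),Row.mk (nat_lit 24528) (nat_lit 32912) (nat_lit 8388608) (nat_lit 61897) (nat_lit 20086317287) (nat_lit 0) (nat_lit 0),Row.mk (nat_lit 24696) (nat_lit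 32912) (nat_lit 8388608) (nat_lit 61897) (nat_lit 20086317287) (nat_lit 0) (nat_lit 0),Row.mk (nat_lit 24864) (nat_lit 32912) (nat_lit 8388608) (nat_lit 61897) (nat_lit 20086317287) (nat_lit 0) (nat_lit 0),Row.mk (nat_lit 25032) (nat_lit 32912) (nat_lit 8388608) (nat_lit 61897) (nat_lit 20086317287) (nat_lit 0) (nat_lit 0),Row.mk (nat_lit 25200) (nat_lit 32912) (nat_lit 8388608) (nat_lit 61897) (nat_lit 20086317287) (nat_lit 0) (nat_lit 0),Row.mk (nat_lit 25368) (nat_lit 32912) (nat_lit 8388608) (nat_lit 61897) (nat_lit 20086317287) (nat_lit 0) (nat_lit 0),Row.mk (nat_lit 25536) (nat_lit 32912) (nat_lit 8388608) (nat_lit 61897) (nat_lit 20086317287) (nat_lit 0) (nat_lit 0),Row.mk (nat_lit 25704) (nat_lit 32912) (nat_lit 8388608) (nat_lit 61897) (nat_lit 20086317287) (nat_lit 0) (nat_lit 0),Row.mk (nat_lit 25872) (nat_lit 32912) (nat_lit 8388608) (nat_lit 61897) (nat_lit 20086317287) (nat_lit 0) (nat_lit 0),Row.mk (nat_lit 26040) (nat_lit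 32912) (nat_lit 8388608) (nat_lit 61897) (nat_lit 20086317287) (nat_lit 0) (nat_lit 0),Row.mk (nat_lit 26208) (nat_lit 32912) (nat_lit 8388608) (nat_lit 61897) (nat_lit 20086317287) (nat_lit 0) (nat_lit 0),Row.mk (nat_lit 26376) (nat_lit 32912) (nat_lit 8388608) (nat_lit 61897) (nat_lit 20086317287) (nat_lit 0) (nat_lit 0),Row.mk (nat_lit 26544) (nat_lit 32912) (nat_lit 8388608) (nat_lit 61897) (nat_lit 20086317287) (nat_lit 0) (nat_lit 0),Row.mk (nat_lit 26712) (nat_lit 32912) (nat_lit 8388608) (nat_lit 61897) (nat_lit 20086317287) (nat_lit 0) (nat_lit 0),Row.mk (nat_lit 26880) (nat_lit 32912) (nat_lit 8388608) (nat_lit 61897) (nat_lit 20086317287) (nat_lit 0) (nat_lit 0),Row.mk (nat_lit 27048) (nat_lit 32912) (nat_lit 8388608) (nat_lit 61897) (nat_lit 20086317287) (nat_lit 0) (nat_lit 0),Row.mk (nat_lit 27216) (nat_lit 32912) (nat_lit 8388608) (nat_lit 61897) (nat_lit 20086317287) (nat_lit 0) (nat_lit 0),Row.mk (nat_lit 27384) (nat_lit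 32912) (nat_lit 8388608) (nat_lit 61897) (nat_lit 20086317287) (nat_lit 0) (nat_lit 0),Row.mk (nat_lit 27552) (nat_lit 32912) (nat_lit 8388608) (nat_lit 61897) (nat_lit 20086317287) (nat_lit 0) (nat_lit 0),Row.mk (nat_lit 27720) (nat_lit 32912) (nat_lit 8388608) (nat_lit 61897) (nat_lit 20086317287) (nat_lit 0) (nat_lit 0),Row.mk (nat_lit 27888) (nat_lit 32912) (nat_lit 8388608) (nat_lit 61897) (nat_lit 20086317287) (nat_lit 0) (nat_lit 0),Row.mk (nat_lit 28056) (nat_lit 32912) (nat_lit 8388608) (nat_lit 61897) (nat_lit 20086317287) (nat_lit 0) (nat_lit 0),Row.mk (nat_lit 28224) (nat_lit 32912) (nat_lit 8388608) (nat_lit 61897) (nat_lit 20086317287) (nat_lit 0) (nat_lit 0),Row.mk (nat_lit 28392) (nat_lit 32912) (nat_lit 8388608) (nat_lit 61897) (nat_lit 20086317287) (nat_lit 0) (nat_lit 0),Row.mk (nat_lit 28560) (nat_lit 32912) (nat_lit 8388608) (nat_lit 61897) (nat_lit 20086317287) (nat_lit 0) (nat_lit 0),Row.mk (nat_lit 28728) (nat_lit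 32912) (nat_lit 8388608) (nat_lit 61897) (nat_lit 20086317287) (nat_lit 0) (nat_lit 0),Row.mk (nat_lit 28896) (nat_lit 32912) (nat_lit 8388608) (nat_lit 61897) (nat_lit 20086317287) (nat_lit 0) (nat_lit 0),Row.mk (nat_lit 29064) (nat_lit 32912) (nat_lit 8388608) (nat_lit 61897) (nat_lit 20086317287) (nat_lit 0) (nat_lit 0),Row.mk (nat_lit 29232) (nat_lit 32912) (nat_lit 8388608) (nat_lit 61897) (nat_lit 20086317287) (nat_lit 0) (nat_lit 0),Row.mk (nat_lit 29400) (nat_lit 32912) (nat_lit 8388608) (nat_lit 61897) (nat_lit 20086317287) (nat_lit 0) (nat_lit 0),Row.mk (nat_lit 29568) (nat_lit 32912) (nat_lit 8388608) (nat_lit 61897) (nat_lit 20086317287) (nat_lit 0) (nat_lit 0),Row.mk (nat_lit 29736) (nat_lit 32912) (nat_lit 8388608) (nat_lit 61897) (nat_lit 20086317287) (nat_lit 0) (nat_lit 0),Row.mk (nat_lit 29904) (nat_lit 32912) (nat_lit 8388608) (nat_lit 61897) (nat_lit 20086317287) (nat_lit 0) (nat_lit 0),Row.mk (nat_lit 30072) (nat_lit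 32912) (nat_lit 8388608) (nat_lit 61897) (nat_lit 20086317287) (nat_lit 0) (nat_lit 0)],
[Row.mk (nat_lit 21504) (nat_lit 32912) (nat_lit 8388608) (nat_lit 61897) (nat_lit 25089414294) (nat_lit 0) (nat_lit 0),Row.mk (nat_lit 21672) (nat_lit 32912) (nat_lit 8388608) (nat_lit 61897) (nat_lit 25089414294) (nat_lit 0) (nat_lit 0),Row.mk (nat_lit 21840) (nat_lit 32912) (nat_lit 8388608) (nat_lit 61897) (nat_lit 25089414294) (nat_lit 0) (nat_lit 0),Row.mk (nat_lit 22008) (nat_lit 32912) (nat_lit 8388608) (nat_lit 61897) (nat_lit 25089414294) (nat_lit 0) (nat_lit 0),Row.mk (nat_lit 22176) (nat_lit 32912) (nat_lit 8388608) (nat_lit 61897) (nat_lit 25089414294) (nat_lit 0) (nat_lit 0),Row.mk (nat_lit 22344) (nat_lit 32912) (nat_lit 8388608) (nat_lit 61897) (nat_lit 25089414294) (nat_lit 0) (nat_lit 0),Row.mk (nat_lit 22512) (nat_lit 32912) (nat_lit 8388608) (nat_lit 61897) (nat_lit 25089414294) (nat_lit 0) (nat_lit 0),Row.mk (nat_lit 22680)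 (nat_lit 32912) (nat_lit 8388608) (nat_lit 61897) (nat_lit 25089414294) (nat_lit 0) (nat_lit 0),Row.mk (nat_lit 22848) (nat_lit 32912) (nat_lit 8388608) (nat_lit 61897) (nat_lit 25089414294) (nat_lit 0) (nat_lit 0),Row.mk (nat_lit 23016) (nat_lit 32912) (nat_lit 8388608) (nat_lit 61897) (nat_lit 25089414294) (nat_lit 0) (nat_lit 0),Row.mk (nat_lit 23184) (nat_lit 32912) (nat_lit 8388608) (nat_lit 61897) (nat_lit 25089414294) (nat_lit 0) (nat_lit 0),Row.mk (nat_lit 23352) (nat_lit 32912) (nat_lit 8388608) (nat_lit 61897) (nat_lit 25089414294) (nat_lit 0) (nat_lit 0),Row.mk (nat_lit 23520) (nat_lit 32912) (nat_lit 8388608) (nat_lit 61897) (nat_lit 25089414294) (nat_lit 0) (nat_lit 0),Row.mk (nat_lit 23688) (nat_lit 32912) (nat_lit 8388608) (nat_lit 61897) (nat_lit 25089414294) (nat_lit 0) (nat_lit 0),Row.mk (nat_lit 23856) (nat_lit 32912) (nat_lit 8388608) (nat_lit 61897) (nat_lit 25089414294) (nat_lit 0) (nat_lit 0),Row.mk (nat_lit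 24024) (nat_lit 32912) (nat_lit 8388608) (nat_lit 61897) (nat_lit 25089414294) (nat_lit 0) (nat_lit 0),Row.mk (nat_lit 24192) (nat_lit 32912) (nat_lit 8388608) (nat_lit 61897) (nat_lit 25089414294) (nat_lit 0) (nat_lit 0),Row.mk (nat_lit 24360) (nat_lit 32912) (nat_lit 8388608) (nat_lit 61897) (nat_lit 25089414294) (nat_lit 0) (nat_lit 0),Row.mk (nat_lit 24528) (nat_lit 32912) (nat_lit 8388608) (nat_lit 61897) (nat_lit 25089414294) (nat_lit 0) (nat_lit 0),Row.mk (nat_lit 24696) (nat_lit 32912) (nat_lit 8388608) (nat_lit 61897) (nat_lit 25089414294) (nat_lit 0) (nat_lit 0),Row.mk (nat_lit 24864) (nat_lit 32912) (nat_lit 8388608) (nat_lit 61897) (nat_lit 25089414294) (nat_lit 0) (nat_lit 0),Row.mk (nat_lit 25032) (nat_lit 32912) (nat_lit 8388608) (nat_lit 61897) (nat_lit 25089414294) (nat_lit 0) (nat_lit 0),Row.mk (nat_lit 25200) (nat_lit 32912) (nat_lit 8388608) (nat_lit 61897) (nat_lit 25089414294) (nat_lit 0) (nat_lit 0),Row.mk (nat_lit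 25368) (nat_lit 32912) (nat_lit 8388608) (nat_lit 61897) (nat_lit 25089414294) (nat_lit 0) (nat_lit 0),Row.mk (nat_lit 25536) (nat_lit 32912) (nat_lit 8388608) (nat_lit 61897) (nat_lit 25089414294) (nat_lit 0) (nat_lit 0),Row.mk (nat_lit 25704) (nat_lit 32912) (nat_lit 8388608) (nat_lit 61897) (nat_lit 25089414294) (nat_lit 0) (nat_lit 0),Row.mk (nat_lit 25872) (nat_lit 32912) (nat_lit 8388608) (nat_lit 61897) (nat_lit 25089414294) (nat_lit 0) (nat_lit 0),Row.mk (nat_lit 26040) (nat_lit 32912) (nat_lit 8388608) (nat_lit 61897) (nat_lit 25089414294) (nat_lit 0) (nat_lit 0),Row.mk (nat_lit 26208) (nat_lit 32912) (nat_lit 8388608) (nat_lit 61897) (nat_lit 25089414294) (nat_lit 0) (nat_lit 0),Row.mk (nat_lit 26376) (nat_lit 32912) (nat_lit 8388608) (nat_lit 61897) (nat_lit 25089414294) (nat_lit 0) (nat_lit 0),Row.mk (nat_lit 26544) (nat_lit 32912) (nat_lit 8388608) (nat_lit 61897) (nat_lit 25089414294) (nat_lit 0) (nat_lit 0),Row.mk (nat_lit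 26712) (nat_lit 32912) (nat_lit 8388608) (nat_lit 61897) (nat_lit 25089414294) (nat_lit 0) (nat_lit 0),Row.mk (nat_lit 26880) (nat_lit 32912) (nat_lit 8388608) (nat_lit 61897) (nat_lit 25089414294) (nat_lit 0) (nat_lit 0),Row.mk (nat_lit 27048) (nat_lit 32912) (nat_lit 8388608) (nat_lit 61897) (nat_lit 25089414294) (nat_lit 0) (nat_lit 0),Row.mk (nat_lit 27216) (nat_lit 32912) (nat_lit 8388608) (nat_lit 61897) (nat_lit 25089414294) (nat_lit 0) (nat_lit 0),Row.mk (nat_lit 27384) (nat_lit 32912) (nat_lit 8388608) (nat_lit 61897) (nat_lit 25089414294) (nat_lit 0) (nat_lit 0),Row.mk (nat_lit 27552) (nat_lit 32912) (nat_lit 8388608) (nat_lit 61897) (nat_lit 25089414294) (nat_lit 0) (nat_lit 0),Row.mk (nat_lit 27720) (nat_lit 32912) (nat_lit 8388608) (nat_lit 61897) (nat_lit 25089414294) (nat_lit 0) (nat_lit 0),Row.mk (nat_lit 27888) (nat_lit 32912) (nat_lit 8388608) (nat_lit 61897) (nat_lit 25089414294) (nat_lit 0) (nat_lit 0),Row.mk (nat_lit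 28056) (nat_lit 32912) (nat_lit 8388608) (nat_lit 61897) (nat_lit 25089414294) (nat_lit 0) (nat_lit 0),Row.mk (nat_lit 28224) (nat_lit 32912) (nat_lit 8388608) (nat_lit 61897) (nat_lit 25089414294) (nat_lit 0) (nat_lit 0),Row.mk (nat_lit 28392) (nat_lit 32912) (nat_lit 8388608) (nat_lit 61897) (nat_lit 25089414294) (nat_lit 0) (nat_lit 0),Row.mk (nat_lit 28560) (nat_lit 32912) (nat_lit 8388608) (nat_lit 61897) (nat_lit 25089414294) (nat_lit 0) (nat_lit 0),Row.mk (nat_lit 28728) (nat_lit 32912) (nat_lit 8388608) (nat_lit 61897) (nat_lit 25089414294) (nat_lit 0) (nat_lit 0),Row.mk (nat_lit 28896) (nat_lit 32912) (nat_lit 8388608) (nat_lit 61897) (nat_lit 25089414294) (nat_lit 0) (nat_lit 0),Row.mk (nat_lit 29064) (nat_lit 32912) (nat_lit 8388608) (nat_lit 61897) (nat_lit 25089414294) (nat_lit 0) (nat_lit 0),Row.mk (nat_lit 29232) (nat_lit 32912) (nat_lit 8388608) (nat_lit 61897) (nat_lit 25089414294) (nat_lit 0) (nat_lit 0),Row.mk (nat_lit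 29400) (nat_lit 32912) (nat_lit 8388608) (nat_lit 61897) (nat_lit 25089414294) (nat_lit 0) (nat_lit 0),Row.mk (nat_lit 29568) (nat_lit 32912) (nat_lit 8388608) (nat_lit 61897) (nat_lit 25089414294) (nat_lit 0) (nat_lit 0),Row.mk (nat_lit 29736) (nat_lit 32912) (nat_lit 8388608) (nat_lit 61897) (nat_lit 25089414294) (nat_lit 0) (nat_lit 0),Row.mk (nat_lit 29904) (nat_lit 32912) (nat_lit 8388608) (nat_lit 61897) (nat_lit 25089414294) (nat_lit 0) (nat_lit 0),Row.mk (nat_lit 30072) (nat_lit 32912) (nat_lit 8388608) (nat_lit 61897) (nat_lit 25089414294) (nat_lit 0) (nat_lit 0),Row.mk (nat_lit 30240) (nat_lit 32912) (nat_lit 8388608) (nat_lit 61897) (nat_lit 25089414294) (nat_lit 0) (nat_lit 0)],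
[Row.mk (nat_lit 21672) (nat_lit 32912) (nat_lit 8388608) (nat_lit 61897) (nat_lit 31338161762) (nat_lit 0) (nat_lit 0),Row.mk (nat_lit 21840) (nat_lit 32912) (nat_lit 8388608) (nat_lit 61897) (nat_lit 31338161762) (nat_lit 0) (nat_lit 0),Row.mk (nat_lit 22008) (nat_lit 32912) (nat_lit 8388608) (nat_lit 61897) (nat_lit 31338161762) (nat_lit 0) (nat_lit 0),Row.mk (nat_lit 22176) (nat_lit 32912) (nat_lit 8388608) (nat_lit 61897) (nat_lit 31338161762) (nat_lit 0) (nat_lit 0),Row.mk (nat_lit 22344) (nat_lit 32912) (nat_lit 8388608) (nat_lit 61897) (nat_lit 31338161762) (nat_lit 0) (nat_lit 0),Row.mk (nat_lit 22512) (nat_lit 32912) (nat_lit 8388608) (nat_lit 61897) (nat_lit 31338161762) (nat_lit 0) (nat_lit 0),Row.mk (nat_lit 22680) (nat_lit 32912) (nat_lit 8388608) (nat_lit 61897) (nat_lit 31338161762) (nat_lit 0) (nat_lit 0),Row.mk (nat_lit 22848) (nat_lit 32912) (nat_lit 8388608) (nat_lit 61897) (nat_lit 31338161762) (nat_lit 0) (nat_lit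 0),Row.mk (nat_lit 23016) (nat_lit 32912) (nat_lit 8388608) (nat_lit 61897) (nat_lit 31338161762) (nat_lit 0) (nat_lit 0),Row.mk (nat_lit 23184) (nat_lit 32912) (nat_lit 8388608) (nat_lit 61897) (nat_lit 31338161762) (nat_lit 0) (nat_lit 0),Row.mk (nat_lit 23352) (nat_lit 32912) (nat_lit 8388608) (nat_lit 61897) (nat_lit 31338161762) (nat_lit 0) (nat_lit 0),Row.mk (nat_lit 23520) (nat_lit 32912) (nat_lit 8388608) (nat_lit 61897) (nat_lit 31338161762) (nat_lit 0) (nat_lit 0),Row.mk (nat_lit 23688) (nat_lit 32912) (nat_lit 8388608) (nat_lit 61897) (nat_lit 31338161762) (nat_lit 0) (nat_lit 0),Row.mk (nat_lit 23856) (nat_lit 32912) (nat_lit 8388608) (nat_lit 61897) (nat_lit 31338161762) (nat_lit 0) (nat_lit 0),Row.mk (nat_lit 24024) (nat_lit 32912) (nat_lit 8388608) (nat_lit 61897) (nat_lit 31338161762) (nat_lit 0) (nat_lit 0),Row.mk (nat_lit 24192) (nat_lit 32912) (nat_lit 8388608) (nat_lit 61897) (nat_lit 31338161762) (nat_lit 0) (nat_lit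 0),Row.mk (nat_lit 24360) (nat_lit 32912) (nat_lit 8388608) (nat_lit 61897) (nat_lit 31338161762) (nat_lit 0) (nat_lit 0),Row.mk (nat_lit 24528) (nat_lit 32912) (nat_lit 8388608) (nat_lit 61897) (nat_lit 31338161762) (nat_lit 0) (nat_lit 0),Row.mk (nat_lit 24696) (nat_lit 32912) (nat_lit 8388608) (nat_lit 61897) (nat_lit 31338161762) (nat_lit 0) (nat_lit 0),Row.mk (nat_lit 24864) (nat_lit 32912) (nat_lit 8388608) (nat_lit 61897) (nat_lit 31338161762) (nat_lit 0) (nat_lit 0),Row.mk (nat_lit 25032) (nat_lit 32912) (nat_lit 8388608) (nat_lit 61897) (nat_lit 31338161762) (nat_lit 0) (nat_lit 0),Row.mk (nat_lit 25200) (nat_lit 32912) (nat_lit 8388608) (nat_lit 61897) (nat_lit 31338161762) (nat_lit 0) (nat_lit 0),Row.mk (nat_lit 25368) (nat_lit 32912) (nat_lit 8388608) (nat_lit 61897) (nat_lit 31338161762) (nat_lit 0) (nat_lit 0),Row.mk (nat_lit 25536) (nat_lit 32912) (nat_lit 8388608) (nat_lit 61897) (nat_lit 31338161762) (nat_lit 0) (nat_lit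 0),Row.mk (nat_lit 25704) (nat_lit 32912) (nat_lit 8388608) (nat_lit 61897) (nat_lit 31338161762) (nat_lit 0) (nat_lit 0),Row.mk (nat_lit 25872) (nat_lit 32912) (nat_lit 8388608) (nat_lit 61897) (nat_lit 31338161762) (nat_lit 0) (nat_lit 0),Row.mk (nat_lit 26040) (nat_lit 32912) (nat_lit 8388608) (nat_lit 61897) (nat_lit 31338161762) (nat_lit 0) (nat_lit 0),Row.mk (nat_lit 26208) (nat_lit 32912) (nat_lit 8388608) (nat_lit 61897) (nat_lit 31338161762) (nat_lit 0) (nat_lit 0),Row.mk (nat_lit 26376) (nat_lit 32912) (nat_lit 8388608) (nat_lit 61897) (nat_lit 31338161762) (nat_lit 0) (nat_lit 0),Row.mk (nat_lit 26544) (nat_lit 32912) (nat_lit 8388608) (nat_lit 61897) (nat_lit 31338161762) (nat_lit 0) (nat_lit 0),Row.mk (nat_lit 26712) (nat_lit 32912) (nat_lit 8388608) (nat_lit 61897) (nat_lit 31338161762) (nat_lit 0) (nat_lit 0),Row.mk (nat_lit 26880) (nat_lit 32912) (nat_lit 8388608) (nat_lit 61897) (nat_lit 31338161762) (nat_lit 0) (nat_lit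 0),Row.mk (nat_lit 27048) (nat_lit 32912) (nat_lit 8388608) (nat_lit 61897) (nat_lit 31338161762) (nat_lit 0) (nat_lit 0),Row.mk (nat_lit 27216) (nat_lit 32912) (nat_lit 8388608) (nat_lit 61897) (nat_lit 31338161762) (nat_lit 0) (nat_lit 0),Row.mk (nat_lit 27384) (nat_lit 32912) (nat_lit 8388608) (nat_lit 61897) (nat_lit 31338161762) (nat_lit 0) (nat_lit 0),Row.mk (nat_lit 27552) (nat_lit 32912) (nat_lit 8388608) (nat_lit 61897) (nat_lit 31338161762) (nat_lit 0) (nat_lit 0),Row.mk (nat_lit 27720) (nat_lit 32912) (nat_lit 8388608) (nat_lit 61897) (nat_lit 31338161762) (nat_lit 0) (nat_lit 0),Row.mk (nat_lit 27888) (nat_lit 32912) (nat_lit 8388608) (nat_lit 61897) (nat_lit 31338161762) (nat_lit 0) (nat_lit 0),Row.mk (nat_lit 28056) (nat_lit 32912) (nat_lit 8388608) (nat_lit 61897) (nat_lit 31338161762) (nat_lit 0) (nat_lit 0),Row.mk (nat_lit 28224) (nat_lit 32912) (nat_lit 8388608) (nat_lit 61897) (nat_lit 31338161762) (nat_lit 0) (nat_lit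 0),Row.mk (nat_lit 28392) (nat_lit 32912) (nat_lit 8388608) (nat_lit 61897) (nat_lit 31338161762) (nat_lit 0) (nat_lit 0),Row.mk (nat_lit 28560) (nat_lit 32912) (nat_lit 8388608) (nat_lit 61897) (nat_lit 31338161762) (nat_lit 0) (nat_lit 0),Row.mk (nat_lit 28728) (nat_lit 32912) (nat_lit 8388608) (nat_lit 61897) (nat_lit 31338161762) (nat_lit 0) (nat_lit 0),Row.mk (nat_lit 28896) (nat_lit 32912) (nat_lit 8388608) (nat_lit 61897) (nat_lit 31338161762) (nat_lit 0) (nat_lit 0),Row.mk (nat_lit 29064) (nat_lit 32912) (nat_lit 8388608) (nat_lit 61897) (nat_lit 31338161762) (nat_lit 0) (nat_lit 0),Row.mk (nat_lit 29232) (nat_lit 32912) (nat_lit 8388608) (nat_lit 61897) (nat_lit 31338161762) (nat_lit 0) (nat_lit 0),Row.mk (nat_lit 29400) (nat_lit 32912) (nat_lit 8388608) (nat_lit 61897) (nat_lit 31338161762) (nat_lit 0) (nat_lit 0),Row.mk (nat_lit 29568) (nat_lit 32912) (nat_lit 8388608) (nat_lit 61897) (nat_lit 31338161762) (nat_lit 0) (nat_lit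 0),Row.mk (nat_lit 29736) (nat_lit 32912) (nat_lit 8388608) (nat_lit 61897) (nat_lit 31338161762) (nat_lit 0) (nat_lit 0),Row.mk (nat_lit 29904) (nat_lit 32912) (nat_lit 8388608) (nat_lit 61897) (nat_lit 31338161762) (nat_lit 0) (nat_lit 0),Row.mk (nat_lit 30072) (nat_lit 32912) (nat_lit 8388608) (nat_lit 61897) (nat_lit 31338161762) (nat_lit 0) (nat_lit 0),Row.mk (nat_lit 30240) (nat_lit 32912) (nat_lit 8388608) (nat_lit 61897) (nat_lit 31338161762) (nat_lit 0) (nat_lit 0)],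
[Row.mk (nat_lit 21840) (nat_lit 32912) (nat_lit 8388608) (nat_lit 61897) (nat_lit 39142696606) (nat_lit 0) (nat_lit 0),Row.mk (nat_lit 22008) (nat_lit 32912) (nat_lit 8388608) (nat_lit 61897) (nat_lit 39142696606) (nat_lit 0) (nat_lit 0),Row.mk (nat_lit 22176) (nat_lit 32912) (nat_lit 8388608) (nat_lit 61897) (nat_lit 39142696606) (nat_lit 0) (nat_lit 0),Row.mk (nat_lit 22344) (nat_lit 32912) (nat_lit 8388608) (nat_lit 61897) (nat_lit 39142696606) (nat_lit 0) (nat_lit 0),Row.mk (nat_lit 22512) (nat_lit 32912) (nat_lit 8388608) (nat_lit 61897) (nat_lit 39142696606) (nat_lit 0) (nat_lit 0),Row.mk (nat_lit 22680) (nat_lit 32912) (nat_lit 8388608) (nat_lit 61897) (nat_lit 39142696606) (nat_lit 0) (nat_lit 0),Row.mk (nat_lit 22848) (nat_lit 32912) (nat_lit 8388608) (nat_lit 61897) (nat_lit 39142696606) (nat_lit 0) (nat_lit 0),Row.mk (nat_lit 23016) (nat_lit 32912) (nat_lit 8388608) (nat_lit 61897) (nat_lit 39142696606) (nat_lit 0) (nat_lit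 0),Row.mk (nat_lit 23184) (nat_lit 32912) (nat_lit 8388608) (nat_lit 61897) (nat_lit 39142696606) (nat_lit 0) (nat_lit 0),Row.mk (nat_lit 23352) (nat_lit 32912) (nat_lit 8388608) (nat_lit 61897) (nat_lit 39142696606) (nat_lit 0) (nat_lit 0),Row.mk (nat_lit 23520) (nat_lit 32912) (nat_lit 8388608) (nat_lit 61897) (nat_lit 39142696606) (nat_lit 0) (nat_lit 0),Row.mk (nat_lit 23688) (nat_lit 32912) (nat_lit 8388608) (nat_lit 61897) (nat_lit 39142696606) (nat_lit 0) (nat_lit 0),Row.mk (nat_lit 23856) (nat_lit 32912) (nat_lit 8388608) (nat_lit 61897) (nat_lit 39142696606) (nat_lit 0) (nat_lit 0),Row.mk (nat_lit 24024) (nat_lit 32912) (nat_lit 8388608) (nat_lit 61897) (nat_lit 39142696606) (nat_lit 0) (nat_lit 0),Row.mk (nat_lit 24192) (nat_lit 32912) (nat_lit 8388608) (nat_lit 61897) (nat_lit 39142696606) (nat_lit 0) (nat_lit 0),Row.mk (nat_lit 24360) (nat_lit 32912) (nat_lit 8388608) (nat_lit 61897) (nat_lit 39142696606) (nat_lit 0) (nat_lit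 0),Row.mk (nat_lit 24528) (nat_lit 32912) (nat_lit 8388608) (nat_lit 61897) (nat_lit 39142696606) (nat_lit 0) (nat_lit 0),Row.mk (nat_lit 24696) (nat_lit 32912) (nat_lit 8388608) (nat_lit 61897) (nat_lit 39142696606) (nat_lit 0) (nat_lit 0),Row.mk (nat_lit 24864) (nat_lit 32912) (nat_lit 8388608) (nat_lit 61897) (nat_lit 39142696606) (nat_lit 0) (nat_lit 0),Row.mk (nat_lit 25032) (nat_lit 32912) (nat_lit 8388608) (nat_lit 61897) (nat_lit 39142696606) (nat_lit 0) (nat_lit 0),Row.mk (nat_lit 25200) (nat_lit 32912) (nat_lit 8388608) (nat_lit 61897) (nat_lit 39142696606) (nat_lit 0) (nat_lit 0),Row.mk (nat_lit 25368) (nat_lit 32912) (nat_lit 8388608) (nat_lit 61897) (nat_lit 39142696606) (nat_lit 0) (nat_lit 0),Row.mk (nat_lit 25536) (nat_lit 32912) (nat_lit 8388608) (nat_lit 61897) (nat_lit 39142696606) (nat_lit 0) (nat_lit 0),Row.mk (nat_lit 25704) (nat_lit 32912) (nat_lit 8388608) (nat_lit 61897) (nat_lit 39142696606) (nat_lit 0) (nat_lit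 0),Row.mk (nat_lit 25872) (nat_lit 32912) (nat_lit 8388608) (nat_lit 61897) (nat_lit 39142696606) (nat_lit 0) (nat_lit 0),Row.mk (nat_lit 26040) (nat_lit 32912) (nat_lit 8388608) (nat_lit 61897) (nat_lit 39142696606) (nat_lit 0) (nat_lit 0),Row.mk (nat_lit 26208) (nat_lit 32912) (nat_lit 8388608) (nat_lit 61897) (nat_lit 39142696606) (nat_lit 0) (nat_lit 0),Row.mk (nat_lit 26376) (nat_lit 32912) (nat_lit 8388608) (nat_lit 61897) (nat_lit 39142696606) (nat_lit 0) (nat_lit 0),Row.mk (nat_lit 26544) (nat_lit 32912) (nat_lit 8388608) (nat_lit 61897) (nat_lit 39142696606) (nat_lit 0) (nat_lit 0),Row.mk (nat_lit 26712) (nat_lit 32912) (nat_lit 8388608) (nat_lit 61897) (nat_lit 39142696606) (nat_lit 0) (nat_lit 0),Row.mk (nat_lit 26880) (nat_lit 32912) (nat_lit 8388608) (nat_lit 61897) (nat_lit 39142696606) (nat_lit 0) (nat_lit 0),Row.mk (nat_lit 27048) (nat_lit 32912) (nat_lit 8388608) (nat_lit 61897) (nat_lit 39142696606) (nat_lit 0) (nat_lit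 0),Row.mk (nat_lit 27216) (nat_lit 32912) (nat_lit 8388608) (nat_lit 61897) (nat_lit 39142696606) (nat_lit 0) (nat_lit 0),Row.mk (nat_lit 27384) (nat_lit 32912) (nat_lit 8388608) (nat_lit 61897) (nat_lit 39142696606) (nat_lit 0) (nat_lit 0),Row.mk (nat_lit 27552) (nat_lit 32912) (nat_lit 8388608) (nat_lit 61897) (nat_lit 39142696606) (nat_lit 0) (nat_lit 0),Row.mk (nat_lit 27720) (nat_lit 32912) (nat_lit 8388608) (nat_lit 61897) (nat_lit 39142696606) (nat_lit 0) (nat_lit 0),Row.mk (nat_lit 27888) (nat_lit 32912) (nat_lit 8388608) (nat_lit 61897) (nat_lit 39142696606) (nat_lit 0) (nat_lit 0),Row.mk (nat_lit 28056) (nat_lit 32912) (nat_lit 8388608) (nat_lit 61897) (nat_lit 39142696606) (nat_lit 0) (nat_lit 0),Row.mk (nat_lit 28224) (nat_lit 32912) (nat_lit 8388608) (nat_lit 61897) (nat_lit 39142696606) (nat_lit 0) (nat_lit 0),Row.mk (nat_lit 28392) (nat_lit 32912) (nat_lit 8388608) (nat_lit 61897) (nat_lit 39142696606) (nat_lit 0) (nat_lit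 0),Row.mk (nat_lit 28560) (nat_lit 32912) (nat_lit 8388608) (nat_lit 61897) (nat_lit 39142696606) (nat_lit 0) (nat_lit 0),Row.mk (nat_lit 28728) (nat_lit 32912) (nat_lit 8388608) (nat_lit 61897) (nat_lit 39142696606) (nat_lit 0) (nat_lit 0),Row.mk (nat_lit 28896) (nat_lit 32912) (nat_lit 8388608) (nat_lit 61897) (nat_lit 39142696606) (nat_lit 0) (nat_lit 0),Row.mk (nat_lit 29064) (nat_lit 32912) (nat_lit 8388608) (nat_lit 61897) (nat_lit 39142696606) (nat_lit 0) (nat_lit 0),Row.mk (nat_lit 29232) (nat_lit 32912) (nat_lit 8388608) (nat_lit 61897) (nat_lit 39142696606) (nat_lit 0) (nat_lit 0),Row.mk (nat_lit 29400) (nat_lit 32912) (nat_lit 8388608) (nat_lit 61897) (nat_lit 39142696606) (nat_lit 0) (nat_lit 0),Row.mk (nat_lit 29568) (nat_lit 32912) (nat_lit 8388608) (nat_lit 61897) (nat_lit 39142696606) (nat_lit 0) (nat_lit 0),Row.mk (nat_lit 29736) (nat_lit 32912) (nat_lit 8388608) (nat_lit 61897) (nat_lit 39142696606) (nat_lit 0) (nat_lit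 0),Row.mk (nat_lit 29904) (nat_lit 32912) (nat_lit 8388608) (nat_lit 61897) (nat_lit 39142696606) (nat_lit 0) (nat_lit 0),Row.mk (nat_lit 30072) (nat_lit 32912) (nat_lit 8388608) (nat_lit 61897) (nat_lit 39142696606) (nat_lit 0) (nat_lit 0),Row.mk (nat_lit 30240) (nat_lit 32912) (nat_lit 8388608) (nat_lit 61897) (nat_lit 39142696606) (nat_lit 0) (nat_lit 0),Row.mk (nat_lit 30408) (nat_lit 32912) (nat_lit 8388608) (nat_lit 61897) (nat_lit 39142696606) (nat_lit 0) (nat_lit 0)],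
[Row.mk (nat_lit 22176) (nat_lit 32912) (nat_lit 8388608) (nat_lit 61897) (nat_lit 48890372351) (nat_lit 0) (nat_lit 0),Row.mk (nat_lit 22344) (nat_lit 32912) (nat_lit 8388608) (nat_lit 61897) (nat_lit 48890372351) (nat_lit 0) (nat_lit 0),Row.mk (nat_lit 22512) (nat_lit 32912) (nat_lit 8388608) (nat_lit 61897) (nat_lit 48890372351) (nat_lit 0) (nat_lit 0),Row.mk (nat_lit 22680) (nat_lit 32912) (nat_lit 8388608) (nat_lit 61897) (nat_lit 48890372351) (nat_lit 0) (nat_lit 0),Row.mk (nat_lit 22848) (nat_lit 32912) (nat_lit 8388608) (nat_lit 61897) (nat_lit 48890372351) (nat_lit 0) (nat_lit 0),Row.mk (nat_lit 23016) (nat_lit 32912) (nat_lit 8388608) (nat_lit 61897) (nat_lit 48890372351) (nat_lit 0) (nat_lit 0),Row.mk (nat_lit 23184) (nat_lit 32912) (nat_lit 8388608) (nat_lit 61897) (nat_lit 48890372351) (nat_lit 0) (nat_lit 0),Row.mk (nat_lit 23352) (nat_lit 32912) (nat_lit 8388608) (nat_lit 61897) (nat_lit 48890372351) (nat_lit 0) (nat_lit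 0),Row.mk (nat_lit 23520) (nat_lit 32912) (nat_lit 8388608) (nat_lit 61897) (nat_lit 48890372351) (nat_lit 0) (nat_lit 0),Row.mk (nat_lit 23688) (nat_lit 32912) (nat_lit 8388608) (nat_lit 61897) (nat_lit 48890372351) (nat_lit 0) (nat_lit 0),Row.mk (nat_lit 23856) (nat_lit 32912) (nat_lit 8388608) (nat_lit 61897) (nat_lit 48890372351) (nat_lit 0) (nat_lit 0),Row.mk (nat_lit 24024) (nat_lit 32912) (nat_lit 8388608) (nat_lit 61897) (nat_lit 48890372351) (nat_lit 0) (nat_lit 0),Row.mk (nat_lit 24192) (nat_lit 32912) (nat_lit 8388608) (nat_lit 61897) (nat_lit 48890372351) (nat_lit 0) (nat_lit 0),Row.mk (nat_lit 24360) (nat_lit 32912) (nat_lit 8388608) (nat_lit 61897) (nat_lit 48890372351) (nat_lit 0) (nat_lit 0),Row.mk (nat_lit 24528) (nat_lit 32912) (nat_lit 8388608) (nat_lit 61897) (nat_lit 48890372351) (nat_lit 0) (nat_lit 0),Row.mk (nat_lit 24696) (nat_lit 32912) (nat_lit 8388608) (nat_lit 61897) (nat_lit 48890372351) (nat_lit 0) (nat_lit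 0),Row.mk (nat_lit 24864) (nat_lit 32912) (nat_lit 8388608) (nat_lit 61897) (nat_lit 48890372351) (nat_lit 0) (nat_lit 0),Row.mk (nat_lit 25032) (nat_lit 32912) (nat_lit 8388608) (nat_lit 61897) (nat_lit 48890372351) (nat_lit 0) (nat_lit 0),Row.mk (nat_lit 25200) (nat_lit 32912) (nat_lit 8388608) (nat_lit 61897) (nat_lit 48890372351) (nat_lit 0) (nat_lit 0),Row.mk (nat_lit 25368) (nat_lit 32912) (nat_lit 8388608) (nat_lit 61897) (nat_lit 48890372351) (nat_lit 0) (nat_lit 0),Row.mk (nat_lit 25536) (nat_lit 32912) (nat_lit 8388608) (nat_lit 61897) (nat_lit 48890372351) (nat_lit 0) (nat_lit 0),Row.mk (nat_lit 25704) (nat_lit 32912) (nat_lit 8388608) (nat_lit 61897) (nat_lit 48890372351) (nat_lit 0) (nat_lit 0),Row.mk (nat_lit 25872) (nat_lit 32912) (nat_lit 8388608) (nat_lit 61897) (nat_lit 48890372351) (nat_lit 0) (nat_lit 0),Row.mk (nat_lit 26040) (nat_lit 32912) (nat_lit 8388608) (nat_lit 61897) (nat_lit 48890372351) (nat_lit 0) (nat_lit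 0),Row.mk (nat_lit 26208) (nat_lit 32912) (nat_lit 8388608) (nat_lit 61897) (nat_lit 48890372351) (nat_lit 0) (nat_lit 0),Row.mk (nat_lit 26376) (nat_lit 32912) (nat_lit 8388608) (nat_lit 61897) (nat_lit 48890372351) (nat_lit 0) (nat_lit 0),Row.mk (nat_lit 26544) (nat_lit 32912) (nat_lit 8388608) (nat_lit 61897) (nat_lit 48890372351) (nat_lit 0) (nat_lit 0),Row.mk (nat_lit 26712) (nat_lit 32912) (nat_lit 8388608) (nat_lit 61897) (nat_lit 48890372351) (nat_lit 0) (nat_lit 0),Row.mk (nat_lit 26880) (nat_lit 32912) (nat_lit 8388608) (nat_lit 61897) (nat_lit 48890372351) (nat_lit 0) (nat_lit 0),Row.mk (nat_lit 27048) (nat_lit 32912) (nat_lit 8388608) (nat_lit 61897) (nat_lit 48890372351) (nat_lit 0) (nat_lit 0),Row.mk (nat_lit 27216) (nat_lit 32912) (nat_lit 8388608) (nat_lit 61897) (nat_lit 48890372351) (nat_lit 0) (nat_lit 0),Row.mk (nat_lit 27384) (nat_lit 32912) (nat_lit 8388608) (nat_lit 61897) (nat_lit 48890372351) (nat_lit 0) (nat_lit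 0),Row.mk (nat_lit 27552) (nat_lit 32912) (nat_lit 8388608) (nat_lit 61897) (nat_lit 48890372351) (nat_lit 0) (nat_lit 0),Row.mk (nat_lit 27720) (nat_lit 32912) (nat_lit 8388608) (nat_lit 61897) (nat_lit 48890372351) (nat_lit 0) (nat_lit 0),Row.mk (nat_lit 27888) (nat_lit 32912) (nat_lit 8388608) (nat_lit 61897) (nat_lit 48890372351) (nat_lit 0) (nat_lit 0),Row.mk (nat_lit 28056) (nat_lit 32912) (nat_lit 8388608) (nat_lit 61897) (nat_lit 48890372351) (nat_lit 0) (nat_lit 0),Row.mk (nat_lit 28224) (nat_lit 32912) (nat_lit 8388608) (nat_lit 61897) (nat_lit 48890372351) (nat_lit 0) (nat_lit 0),Row.mk (nat_lit 28392) (nat_lit 32912) (nat_lit 8388608) (nat_lit 61897) (nat_lit 48890372351) (nat_lit 0) (nat_lit 0),Row.mk (nat_lit 28560) (nat_lit 32912) (nat_lit 8388608) (nat_lit 61897) (nat_lit 48890372351) (nat_lit 0) (nat_lit 0),Row.mk (nat_lit 28728) (nat_lit 32912) (nat_lit 8388608) (nat_lit 61897) (nat_lit 48890372351) (nat_lit 0) (nat_lit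 0),Row.mk (nat_lit 28896) (nat_lit 32912) (nat_lit 8388608) (nat_lit 61897) (nat_lit 48890372351) (nat_lit 0) (nat_lit 0),Row.mk (nat_lit 29064) (nat_lit 32912) (nat_lit 8388608) (nat_lit 61897) (nat_lit 48890372351) (nat_lit 0) (nat_lit 0),Row.mk (nat_lit 29232) (nat_lit 32912) (nat_lit 8388608) (nat_lit 61897) (nat_lit 48890372351) (nat_lit 0) (nat_lit 0),Row.mk (nat_lit 29400) (nat_lit 32912) (nat_lit 8388608) (nat_lit 61897) (nat_lit 48890372351) (nat_lit 0) (nat_lit 0),Row.mk (nat_lit 29568) (nat_lit 32912) (nat_lit 8388608) (nat_lit 61897) (nat_lit 48890372351) (nat_lit 0) (nat_lit 0),Row.mk (nat_lit 29736) (nat_lit 32912) (nat_lit 8388608) (nat_lit 61897) (nat_lit 48890372351) (nat_lit 0) (nat_lit 0),Row.mk (nat_lit 29904) (nat_lit 32912) (nat_lit 8388608) (nat_lit 61897) (nat_lit 48890372351) (nat_lit 0) (nat_lit 0),Row.mk (nat_lit 30072) (nat_lit 32912) (nat_lit 8388608) (nat_lit 61897) (nat_lit 48890372351) (nat_lit 0) (nat_lit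 0),Row.mk (nat_lit 30240) (nat_lit 32912) (nat_lit 8388608) (nat_lit 61897) (nat_lit 48890372351) (nat_lit 0) (nat_lit 0),Row.mk (nat_lit 30408) (nat_lit 32912) (nat_lit 8388608) (nat_lit 61897) (nat_lit 48890372351) (nat_lit 0) (nat_lit 0)],
[Row.mk (nat_lit 22344) (nat_lit 32912) (nat_lit 8388608) (nat_lit 61897) (nat_lit 61064984206) (nat_lit 0) (nat_lit 0),Row.mk (nat_lit 22512) (nat_lit 32912) (nat_lit 8388608) (nat_lit 61897) (nat_lit 61064984206) (nat_lit 0) (nat_lit 0),Row.mk (nat_lit 22680) (nat_lit 32912) (nat_lit 8388608) (nat_lit 61897) (nat_lit 61064984206) (nat_lit 0) (nat_lit 0),Row.mk (nat_lit 22848) (nat_lit 32912) (nat_lit 8388608) (nat_lit 61897) (nat_lit 61064984206) (nat_lit 0) (nat_lit 0),Row.mk (nat_lit 23016) (nat_lit 32912) (nat_lit 8388608) (nat_lit 61897) (nat_lit 61064984206) (nat_lit 0) (nat_lit 0),Row.mk (nat_lit 23184) (nat_lit 32912) (nat_lit 8388608) (nat_lit 61897) (nat_lit 61064984206) (nat_lit 0)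 (nat_lit 0),Row.mk (nat_lit 23352) (nat_lit 32912) (nat_lit 8388608) (nat_lit 61897) (nat_lit 61064984206) (nat_lit 0) (nat_lit 0),Row.mk (nat_lit 23520) (nat_lit 32912) (nat_lit 8388608) (nat_lit 61897) (nat_lit 61064984206) (nat_lit 0) (nat_lit 0),Row.mk (nat_lit 23688) (nat_lit 32912) (nat_lit 8388608) (nat_lit 61897) (nat_lit 61064984206) (nat_lit 0) (nat_lit 0),Row.mk (nat_lit 23856) (nat_lit 32912) (nat_lit 8388608) (nat_lit 61897) (nat_lit 61064984206) (nat_lit 0) (nat_lit 0),Row.mk (nat_lit 24024) (nat_lit 32912) (nat_lit 8388608) (nat_lit 61897) (nat_lit 61064984206) (nat_lit 0) (nat_lit 0),Row.mk (nat_lit 24192) (nat_lit 32912) (nat_lit 8388608) (nat_lit 61897) (nat_lit 61064984206) (nat_lit 0) (nat_lit 0),Row.mk (nat_lit 24360) (nat_lit 32912) (nat_lit 8388608) (nat_lit 61897) (nat_lit 61064984206) (nat_lit 0) (nat_lit 0),Row.mk (nat_lit 24528) (nat_lit 32912) (nat_lit 8388608) (nat_lit 61897) (nat_lit 61064984206) (nat_lit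 0) (nat_lit 0),Row.mk (nat_lit 24696) (nat_lit 32912) (nat_lit 8388608) (nat_lit 61897) (nat_lit 61064984206) (nat_lit 0) (nat_lit 0),Row.mk (nat_lit 24864) (nat_lit 32912) (nat_lit 8388608) (nat_lit 61897) (nat_lit 61064984206) (nat_lit 0) (nat_lit 0),Row.mk (nat_lit 25032) (nat_lit 32912) (nat_lit 8388608) (nat_lit 61897) (nat_lit 61064984206) (nat_lit 0) (nat_lit 0),Row.mk (nat_lit 25200) (nat_lit 32912) (nat_lit 8388608) (nat_lit 61897) (nat_lit 61064984206) (nat_lit 0) (nat_lit 0),Row.mk (nat_lit 25368) (nat_lit 32912) (nat_lit 8388608) (nat_lit 61897) (nat_lit 61064984206) (nat_lit 0) (nat_lit 0),Row.mk (nat_lit 25536) (nat_lit 32912) (nat_lit 8388608) (nat_lit 61897) (nat_lit 61064984206) (nat_lit 0) (nat_lit 0),Row.mk (nat_lit 25704) (nat_lit 32912) (nat_lit 8388608) (nat_lit 61897) (nat_lit 61064984206) (nat_lit 0) (nat_lit 0),Row.mk (nat_lit 25872) (nat_lit 32912) (nat_lit 8388608) (nat_lit 61897) (nat_lit 61064984206) (nat_lit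 0) (nat_lit 0),Row.mk (nat_lit 26040) (nat_lit 32912) (nat_lit 8388608) (nat_lit 61897) (nat_lit 61064984206) (nat_lit 0) (nat_lit 0),Row.mk (nat_lit 26208) (nat_lit 32912) (nat_lit 8388608) (nat_lit 61897) (nat_lit 61064984206) (nat_lit 0) (nat_lit 0),Row.mk (nat_lit 26376) (nat_lit 32912) (nat_lit 8388608) (nat_lit 61897) (nat_lit 61064984206) (nat_lit 0) (nat_lit 0),Row.mk (nat_lit 26544) (nat_lit 32912) (nat_lit 8388608) (nat_lit 61897) (nat_lit 61064984206) (nat_lit 0) (nat_lit 0),Row.mk (nat_lit 26712) (nat_lit 32912) (nat_lit 8388608) (nat_lit 61897) (nat_lit 61064984206) (nat_lit 0) (nat_lit 0),Row.mk (nat_lit 26880) (nat_lit 32912) (nat_lit 8388608) (nat_lit 61897) (nat_lit 61064984206) (nat_lit 0) (nat_lit 0),Row.mk (nat_lit 27048) (nat_lit 32912) (nat_lit 8388608) (nat_lit 61897) (nat_lit 61064984206) (nat_lit 0) (nat_lit 0),Row.mk (nat_lit 27216) (nat_lit 32912) (nat_lit 8388608) (nat_lit 61897) (nat_lit 61064984206) (nat_lit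 0) (nat_lit 0),Row.mk (nat_lit 27384) (nat_lit 32912) (nat_lit 8388608) (nat_lit 61897) (nat_lit 61064984206) (nat_lit 0) (nat_lit 0),Row.mk (nat_lit 27552) (nat_lit 32912) (nat_lit 8388608) (nat_lit 61897) (nat_lit 61064984206) (nat_lit 0) (nat_lit 0),Row.mk (nat_lit 27720) (nat_lit 32912) (nat_lit 8388608) (nat_lit 61897) (nat_lit 61064984206) (nat_lit 0) (nat_lit 0),Row.mk (nat_lit 27888) (nat_lit 32912) (nat_lit 8388608) (nat_lit 61897) (nat_lit 61064984206) (nat_lit 0) (nat_lit 0),Row.mk (nat_lit 28056) (nat_lit 32912) (nat_lit 8388608) (nat_lit 61897) (nat_lit 61064984206) (nat_lit 0) (nat_lit 0),Row.mk (nat_lit 28224) (nat_lit 32912) (nat_lit 8388608) (nat_lit 61897) (nat_lit 61064984206) (nat_lit 0) (nat_lit 0),Row.mk (nat_lit 28392) (nat_lit 32912) (nat_lit 8388608) (nat_lit 61897) (nat_lit 61064984206) (nat_lit 0) (nat_lit 0),Row.mk (nat_lit 28560) (nat_lit 32912) (nat_lit 8388608) (nat_lit 61897) (nat_lit 61064984206) (nat_lit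 0) (nat_lit 0),Row.mk (nat_lit 28728) (nat_lit 32912) (nat_lit 8388608) (nat_lit 61897) (nat_lit 61064984206) (nat_lit 0) (nat_lit 0),Row.mk (nat_lit 28896) (nat_lit 32912) (nat_lit 8388608) (nat_lit 61897) (nat_lit 61064984206) (nat_lit 0) (nat_lit 0),Row.mk (nat_lit 29064) (nat_lit 32912) (nat_lit 8388608) (nat_lit 61897) (nat_lit 61064984206) (nat_lit 0) (nat_lit 0),Row.mk (nat_lit 29232) (nat_lit 32912) (nat_lit 8388608) (nat_lit 61897) (nat_lit 61064984206) (nat_lit 0) (nat_lit 0),Row.mk (nat_lit 29400) (nat_lit 32912) (nat_lit 8388608) (nat_lit 61897) (nat_lit 61064984206) (nat_lit 0) (nat_lit 0),Row.mk (nat_lit 29568) (nat_lit 32912) (nat_lit 8388608) (nat_lit 61897) (nat_lit 61064984206) (nat_lit 0) (nat_lit 0),Row.mk (nat_lit 29736) (nat_lit 32912) (nat_lit 8388608) (nat_lit 61897) (nat_lit 61064984206) (nat_lit 0) (nat_lit 0),Row.mk (nat_lit 29904) (nat_lit 32912) (nat_lit 8388608) (nat_lit 61897) (nat_lit 61064984206) (nat_lit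 0) (nat_lit 0),Row.mk (nat_lit 30072) (nat_lit 32912) (nat_lit 8388608) (nat_lit 61897) (nat_lit 61064984206) (nat_lit 0) (nat_lit 0),Row.mk (nat_lit 30240) (nat_lit 32912) (nat_lit 8388608) (nat_lit 61897) (nat_lit 61064984206) (nat_lit 0) (nat_lit 0),Row.mk (nat_lit 30408) (nat_lit 32912) (nat_lit 8388608) (nat_lit 61897) (nat_lit 61064984206) (nat_lit 0) (nat_lit 0)],
[Row.mk (nat_lit 22512) (nat_lit 32912) (nat_lit 8388608) (nat_lit 61897) (nat_lit 76270780715) (nat_lit 0) (nat_lit 0),Row.mk (nat_lit 22680) (nat_lit 32912) (nat_lit 8388608) (nat_lit 61897) (nat_lit 76270780715) (nat_lit 0) (nat_lit 0),Row.mk (nat_lit 22848) (nat_lit 32912) (nat_lit 8388608) (nat_lit 61897) (nat_lit 76270780715) (nat_lit 0) (nat_lit 0),Row.mk (nat_lit 23016) (nat_lit 32912) (nat_lit 8388608) (nat_lit 61897) (nat_lit 76270780715) (nat_lit 0) (nat_lit 0),Row.mk (nat_lit 23184) (nat_lit 32912) (nat_lit 8388608) (nat_lit 61897) (nat_lit 76270780715)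 (nat_lit 0) (nat_lit 0),Row.mk (nat_lit 23352) (nat_lit 32912) (nat_lit 8388608) (nat_lit 61897) (nat_lit 76270780715) (nat_lit 0) (nat_lit 0),Row.mk (nat_lit 23520) (nat_lit 32912) (nat_lit 8388608) (nat_lit 61897) (nat_lit 76270780715) (nat_lit 0) (nat_lit 0),Row.mk (nat_lit 23688) (nat_lit 32912) (nat_lit 8388608) (nat_lit 61897) (nat_lit 76270780715) (nat_lit 0) (nat_lit 0),Row.mk (nat_lit 23856) (nat_lit 32912) (nat_lit 8388608) (nat_lit 61897) (nat_lit 76270780715) (nat_lit 0) (nat_lit 0),Row.mk (nat_lit 24024) (nat_lit 32912) (nat_lit 8388608) (nat_lit 61897) (nat_lit 76270780715) (nat_lit 0) (nat_lit 0),Row.mk (nat_lit 24192) (nat_lit 32912) (nat_lit 8388608) (nat_lit 61897) (nat_lit 76270780715) (nat_lit 0) (nat_lit 0),Row.mk (nat_lit 24360) (nat_lit 32912) (nat_lit 8388608) (nat_lit 61897) (nat_lit 76270780715) (nat_lit 0) (nat_lit 0),Row.mk (nat_lit 24528) (nat_lit 32912) (nat_lit 8388608) (nat_lit 61897) (nat_lit 76270780715)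 (nat_lit 0) (nat_lit 0),Row.mk (nat_lit 24696) (nat_lit 32912) (nat_lit 8388608) (nat_lit 61897) (nat_lit 76270780715) (nat_lit 0) (nat_lit 0),Row.mk (nat_lit 24864) (nat_lit 32912) (nat_lit 8388608) (nat_lit 61897) (nat_lit 76270780715) (nat_lit 0) (nat_lit 0),Row.mk (nat_lit 25032) (nat_lit 32912) (nat_lit 8388608) (nat_lit 61897) (nat_lit 76270780715) (nat_lit 0) (nat_lit 0),Row.mk (nat_lit 25200) (nat_lit 32912) (nat_lit 8388608) (nat_lit 61897) (nat_lit 76270780715) (nat_lit 0) (nat_lit 0),Row.mk (nat_lit 25368) (nat_lit 32912) (nat_lit 8388608) (nat_lit 61897) (nat_lit 76270780715) (nat_lit 0) (nat_lit 0),Row.mk (nat_lit 25536) (nat_lit 32912) (nat_lit 8388608) (nat_lit 61897) (nat_lit 76270780715) (nat_lit 0) (nat_lit 0),Row.mk (nat_lit 25704) (nat_lit 32912) (nat_lit 8388608) (nat_lit 61897) (nat_lit 76270780715) (nat_lit 0) (nat_lit 0),Row.mk (nat_lit 25872) (nat_lit 32912) (nat_lit 8388608) (nat_lit 61897) (nat_lit 76270780715)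 (nat_lit 0) (nat_lit 0),Row.mk (nat_lit 26040) (nat_lit 32912) (nat_lit 8388608) (nat_lit 61897) (nat_lit 76270780715) (nat_lit 0) (nat_lit 0),Row.mk (nat_lit 26208) (nat_lit 32912) (nat_lit 8388608) (nat_lit 61897) (nat_lit 76270780715) (nat_lit 0) (nat_lit 0),Row.mk (nat_lit 26376) (nat_lit 32912) (nat_lit 8388608) (nat_lit 61897) (nat_lit 76270780715) (nat_lit 0) (nat_lit 0),Row.mk (nat_lit 26544) (nat_lit 32912) (nat_lit 8388608) (nat_lit 61897) (nat_lit 76270780715) (nat_lit 0) (nat_lit 0),Row.mk (nat_lit 26712) (nat_lit 32912) (nat_lit 8388608) (nat_lit 61897) (nat_lit 76270780715) (nat_lit 0) (nat_lit 0),Row.mk (nat_lit 26880) (nat_lit 32912) (nat_lit 8388608) (nat_lit 61897) (nat_lit 76270780715) (nat_lit 0) (nat_lit 0),Row.mk (nat_lit 27048) (nat_lit 32912) (nat_lit 8388608) (nat_lit 61897) (nat_lit 76270780715) (nat_lit 0) (nat_lit 0),Row.mk (nat_lit 27216) (nat_lit 32912) (nat_lit 8388608) (nat_lit 61897) (nat_lit 76270780715)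 (nat_lit 0) (nat_lit 0),Row.mk (nat_lit 27384) (nat_lit 32912) (nat_lit 8388608) (nat_lit 61897) (nat_lit 76270780715) (nat_lit 0) (nat_lit 0),Row.mk (nat_lit 27552) (nat_lit 32912) (nat_lit 8388608) (nat_lit 61897) (nat_lit 76270780715) (nat_lit 0) (nat_lit 0),Row.mk (nat_lit 27720) (nat_lit 32912) (nat_lit 8388608) (nat_lit 61897) (nat_lit 76270780715) (nat_lit 0) (nat_lit 0),Row.mk (nat_lit 27888) (nat_lit 32912) (nat_lit 8388608) (nat_lit 61897) (nat_lit 76270780715) (nat_lit 0) (nat_lit 0),Row.mk (nat_lit 28056) (nat_lit 32912) (nat_lit 8388608) (nat_lit 61897) (nat_lit 76270780715) (nat_lit 0) (nat_lit 0),Row.mk (nat_lit 28224) (nat_lit 32912) (nat_lit 8388608) (nat_lit 61897) (nat_lit 76270780715) (nat_lit 0) (nat_lit 0),Row.mk (nat_lit 28392) (nat_lit 32912) (nat_lit 8388608) (nat_lit 61897) (nat_lit 76270780715) (nat_lit 0) (nat_lit 0),Row.mk (nat_lit 28560) (nat_lit 32912) (nat_lit 8388608) (nat_lit 61897) (nat_lit 76270780715)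 (nat_lit 0) (nat_lit 0),Row.mk (nat_lit 28728) (nat_lit 32912) (nat_lit 8388608) (nat_lit 61897) (nat_lit 76270780715) (nat_lit 0) (nat_lit 0),Row.mk (nat_lit 28896) (nat_lit 32912) (nat_lit 8388608) (nat_lit 61897) (nat_lit 76270780715) (nat_lit 0) (nat_lit 0),Row.mk (nat_lit 29064) (nat_lit 32912) (nat_lit 8388608) (nat_lit 61897) (nat_lit 76270780715) (nat_lit 0) (nat_lit 0),Row.mk (nat_lit 29232) (nat_lit 32912) (nat_lit 8388608) (nat_lit 61897) (nat_lit 76270780715) (nat_lit 0) (nat_lit 0),Row.mk (nat_lit 29400) (nat_lit 32912) (nat_lit 8388608) (nat_lit 61897) (nat_lit 76270780715) (nat_lit 0) (nat_lit 0),Row.mk (nat_lit 29568) (nat_lit 32912) (nat_lit 8388608) (nat_lit 61897) (nat_lit 76270780715) (nat_lit 0) (nat_lit 0),Row.mk (nat_lit 29736) (nat_lit 32912) (nat_lit 8388608) (nat_lit 61897) (nat_lit 76270780715) (nat_lit 0) (nat_lit 0),Row.mk (nat_lit 29904) (nat_lit 32912) (nat_lit 8388608) (nat_lit 61897) (nat_lit 76270780715)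 (nat_lit 0) (nat_lit 0),Row.mk (nat_lit 30072) (nat_lit 32912) (nat_lit 8388608) (nat_lit 61897) (nat_lit 76270780715) (nat_lit 0) (nat_lit 0),Row.mk (nat_lit 30240) (nat_lit 32912) (nat_lit 8388608) (nat_lit 61897) (nat_lit 76270780715) (nat_lit 0) (nat_lit 0),Row.mk (nat_lit 30408) (nat_lit 32912) (nat_lit 8388608) (nat_lit 61897) (nat_lit 76270780715) (nat_lit 0) (nat_lit 0),Row.mk (nat_lit 30576) (nat_lit 32912) (nat_lit 8388608) (nat_lit 61897) (nat_lit 76270780715) (nat_lit 0) (nat_lit 0)],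
[Row.mk (nat_lit 22680) (nat_lit 32912) (nat_lit 8388608) (nat_lit 61897) (nat_lit 95262453733) (nat_lit 0) (nat_lit 0),Row.mk (nat_lit 22848) (nat_lit 32912) (nat_lit 8388608) (nat_lit 61897) (nat_lit 95262453733) (nat_lit 0) (nat_lit 0),Row.mk (nat_lit 23016) (nat_lit 32912) (nat_lit 8388608) (nat_lit 61897) (nat_lit 95262453733) (nat_lit 0) (nat_lit 0),Row.mk (nat_lit 23184) (nat_lit 32912) (nat_lit 8388608) (nat_lit 61897) (nat_lit 95262453733) (nat_lit 0) (nat_lit 0),Row.mk (nat_lit 23352) (nat_lit 32912) (nat_lit 8388608) (nat_lit 61897) (nat_lit 95262453733) (nat_lit 0) (nat_lit 0),Row.mk (nat_lit 23520) (nat_lit 32912) (nat_lit 8388608) (nat_lit 61897) (nat_lit 95262453733) (nat_lit 0) (nat_lit 0),Row.mk (nat_lit 23688) (nat_lit 32912) (nat_lit 8388608) (nat_lit 61897) (nat_lit 95262453733) (nat_lit 0) (nat_lit 0),Row.mk (nat_lit 23856) (nat_lit 32912) (nat_lit 8388608) (nat_lit 61897) (nat_lit 95262453733) (nat_lit 0) (nat_lit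 0),Row.mk (nat_lit 24024) (nat_lit 32912) (nat_lit 8388608) (nat_lit 61897) (nat_lit 95262453733) (nat_lit 0) (nat_lit 0),Row.mk (nat_lit 24192) (nat_lit 32912) (nat_lit 8388608) (nat_lit 61897) (nat_lit 95262453733) (nat_lit 0) (nat_lit 0),Row.mk (nat_lit 24360) (nat_lit 32912) (nat_lit 8388608) (nat_lit 61897) (nat_lit 95262453733) (nat_lit 0) (nat_lit 0),Row.mk (nat_lit 24528) (nat_lit 32912) (nat_lit 8388608) (nat_lit 61897) (nat_lit 95262453733) (nat_lit 0) (nat_lit 0),Row.mk (nat_lit 24696) (nat_lit 32912) (nat_lit 8388608) (nat_lit 61897) (nat_lit 95262453733) (nat_lit 0) (nat_lit 0),Row.mk (nat_lit 24864) (nat_lit 32912) (nat_lit 8388608) (nat_lit 61897) (nat_lit 95262453733) (nat_lit 0) (nat_lit 0),Row.mk (nat_lit 25032) (nat_lit 32912) (nat_lit 8388608) (nat_lit 61897) (nat_lit 95262453733) (nat_lit 0) (nat_lit 0),Row.mk (nat_lit 25200) (nat_lit 32912) (nat_lit 8388608) (nat_lit 61897) (nat_lit 95262453733) (nat_lit 0) (nat_lit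 0),Row.mk (nat_lit 25368) (nat_lit 32912) (nat_lit 8388608) (nat_lit 61897) (nat_lit 95262453733) (nat_lit 0) (nat_lit 0),Row.mk (nat_lit 25536) (nat_lit 32912) (nat_lit 8388608) (nat_lit 61897) (nat_lit 95262453733) (nat_lit 0) (nat_lit 0),Row.mk (nat_lit 25704) (nat_lit 32912) (nat_lit 8388608) (nat_lit 61897) (nat_lit 95262453733) (nat_lit 0) (nat_lit 0),Row.mk (nat_lit 25872) (nat_lit 32912) (nat_lit 8388608) (nat_lit 61897) (nat_lit 95262453733) (nat_lit 0) (nat_lit 0),Row.mk (nat_lit 26040) (nat_lit 32912) (nat_lit 8388608) (nat_lit 61897) (nat_lit 95262453733) (nat_lit 0) (nat_lit 0),Row.mk (nat_lit 26208) (nat_lit 32912) (nat_lit 8388608) (nat_lit 61897) (nat_lit 95262453733) (nat_lit 0) (nat_lit 0),Row.mk (nat_lit 26376) (nat_lit 32912) (nat_lit 8388608) (nat_lit 61897) (nat_lit 95262453733) (nat_lit 0) (nat_lit 0),Row.mk (nat_lit 26544) (nat_lit 32912) (nat_lit 8388608) (nat_lit 61897) (nat_lit 95262453733) (nat_lit 0) (nat_lit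 0),Row.mk (nat_lit 26712) (nat_lit 32912) (nat_lit 8388608) (nat_lit 61897) (nat_lit 95262453733) (nat_lit 0) (nat_lit 0),Row.mk (nat_lit 26880) (nat_lit 32912) (nat_lit 8388608) (nat_lit 61897) (nat_lit 95262453733) (nat_lit 0) (nat_lit 0),Row.mk (nat_lit 27048) (nat_lit 32912) (nat_lit 8388608) (nat_lit 61897) (nat_lit 95262453733) (nat_lit 0) (nat_lit 0),Row.mk (nat_lit 27216) (nat_lit 32912) (nat_lit 8388608) (nat_lit 61897) (nat_lit 95262453733) (nat_lit 0) (nat_lit 0),Row.mk (nat_lit 27384) (nat_lit 32912) (nat_lit 8388608) (nat_lit 61897) (nat_lit 95262453733) (nat_lit 0) (nat_lit 0),Row.mk (nat_lit 27552) (nat_lit 32912) (nat_lit 8388608) (nat_lit 61897) (nat_lit 95262453733) (nat_lit 0) (nat_lit 0),Row.mk (nat_lit 27720) (nat_lit 32912) (nat_lit 8388608) (nat_lit 61897) (nat_lit 95262453733) (nat_lit 0) (nat_lit 0),Row.mk (nat_lit 27888) (nat_lit 32912) (nat_lit 8388608) (nat_lit 61897) (nat_lit 95262453733) (nat_lit 0) (nat_lit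 0),Row.mk (nat_lit 28056) (nat_lit 32912) (nat_lit 8388608) (nat_lit 61897) (nat_lit 95262453733) (nat_lit 0) (nat_lit 0),Row.mk (nat_lit 28224) (nat_lit 32912) (nat_lit 8388608) (nat_lit 61897) (nat_lit 95262453733) (nat_lit 0) (nat_lit 0),Row.mk (nat_lit 28392) (nat_lit 32912) (nat_lit 8388608) (nat_lit 61897) (nat_lit 95262453733) (nat_lit 0) (nat_lit 0),Row.mk (nat_lit 28560) (nat_lit 32912) (nat_lit 8388608) (nat_lit 61897) (nat_lit 95262453733) (nat_lit 0) (nat_lit 0),Row.mk (nat_lit 28728) (nat_lit 32912) (nat_lit 8388608) (nat_lit 61897) (nat_lit 95262453733) (nat_lit 0) (nat_lit 0),Row.mk (nat_lit 28896) (nat_lit 32912) (nat_lit 8388608) (nat_lit 61897) (nat_lit 95262453733) (nat_lit 0) (nat_lit 0),Row.mk (nat_lit 29064) (nat_lit 32912) (nat_lit 8388608) (nat_lit 61897) (nat_lit 95262453733) (nat_lit 0) (nat_lit 0),Row.mk (nat_lit 29232) (nat_lit 32912) (nat_lit 8388608) (nat_lit 61897) (nat_lit 95262453733) (nat_lit 0) (nat_lit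 0),Row.mk (nat_lit 29400) (nat_lit 32912) (nat_lit 8388608) (nat_lit 61897) (nat_lit 95262453733) (nat_lit 0) (nat_lit 0),Row.mk (nat_lit 29568) (nat_lit 32912) (nat_lit 8388608) (nat_lit 61897) (nat_lit 95262453733) (nat_lit 0) (nat_lit 0),Row.mk (nat_lit 29736) (nat_lit 32912) (nat_lit 8388608) (nat_lit 61897) (nat_lit 95262453733) (nat_lit 0) (nat_lit 0),Row.mk (nat_lit 29904) (nat_lit 32912) (nat_lit 8388608) (nat_lit 61897) (nat_lit 95262453733) (nat_lit 0) (nat_lit 0),Row.mk (nat_lit 30072) (nat_lit 32912) (nat_lit 8388608) (nat_lit 61897) (nat_lit 95262453733) (nat_lit 0) (nat_lit 0),Row.mk (nat_lit 30240) (nat_lit 32912) (nat_lit 8388608) (nat_lit 61897) (nat_lit 95262453733) (nat_lit 0) (nat_lit 0),Row.mk (nat_lit 30408) (nat_lit 32912) (nat_lit 8388608) (nat_lit 61897) (nat_lit 95262453733) (nat_lit 0) (nat_lit 0),Row.mk (nat_lit 30576) (nat_lit 32912) (nat_lit 8388608) (nat_lit 61897) (nat_lit 95262453733) (nat_lit 0) (nat_lit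 0)],
[Row.mk (nat_lit 22848) (nat_lit 32912) (nat_lit 8388608) (nat_lit 61897) (nat_lit 118982595181) (nat_lit 0) (nat_lit 0),Row.mk (nat_lit 23016) (nat_lit 32912) (nat_lit 8388608) (nat_lit 61897) (nat_lit 118982595181) (nat_lit 0) (nat_lit 0),Row.mk (nat_lit 23184) (nat_lit 32912) (nat_lit 8388608) (nat_lit 61897) (nat_lit 118982595181) (nat_lit 0) (nat_lit 0),Row.mk (nat_lit 23352) (nat_lit 32912) (nat_lit 8388608) (nat_lit 61897) (nat_lit 118982595181) (nat_lit 0) (nat_lit 0),Row.mk (nat_lit 23520) (nat_lit 32912) (nat_lit 8388608) (nat_lit 61897) (nat_lit 118982595181) (nat_lit 0) (nat_lit 0),Row.mk (nat_lit 23688) (nat_lit 32912) (nat_lit 8388608) (nat_lit 61897) (nat_lit 118982595181) (nat_lit 0) (nat_lit 0),Row.mk (nat_lit 23856) (nat_lit 32912) (nat_lit 8388608) (nat_lit 61897) (nat_lit 118982595181) (nat_lit 0) (nat_lit 0),Row.mk (nat_lit 24024) (nat_lit 32912) (nat_lit 8388608) (nat_lit 61897) (nat_lit 118982595181) (nat_lit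 0) (nat_lit 0),Row.mk (nat_lit 24192) (nat_lit 32912) (nat_lit 8388608) (nat_lit 61897) (nat_lit 118982595181) (nat_lit 0) (nat_lit 0),Row.mk (nat_lit 24360) (nat_lit 32912) (nat_lit 8388608) (nat_lit 61897) (nat_lit 118982595181) (nat_lit 0) (nat_lit 0),Row.mk (nat_lit 24528) (nat_lit 32912) (nat_lit 8388608) (nat_lit 61897) (nat_lit 118982595181) (nat_lit 0) (nat_lit 0),Row.mk (nat_lit 24696) (nat_lit 32912) (nat_lit 8388608) (nat_lit 61897) (nat_lit 118982595181) (nat_lit 0) (nat_lit 0),Row.mk (nat_lit 24864) (nat_lit 32912) (nat_lit 8388608) (nat_lit 61897) (nat_lit 118982595181) (nat_lit 0) (nat_lit 0),Row.mk (nat_lit 25032) (nat_lit 32912) (nat_lit 8388608) (nat_lit 61897) (nat_lit 118982595181) (nat_lit 0) (nat_lit 0),Row.mk (nat_lit 25200) (nat_lit 32912) (nat_lit 8388608) (nat_lit 61897) (nat_lit 118982595181) (nat_lit 0) (nat_lit 0),Row.mk (nat_lit 25368) (nat_lit 32912) (nat_lit 8388608) (nat_lit 61897) (nat_lit 118982595181)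 (nat_lit 0) (nat_lit 0),Row.mk (nat_lit 25536) (nat_lit 32912) (nat_lit 8388608) (nat_lit 61897) (nat_lit 118982595181) (nat_lit 0) (nat_lit 0),Row.mk (nat_lit 25704) (nat_lit 32912) (nat_lit 8388608) (nat_lit 61897) (nat_lit 118982595181) (nat_lit 0) (nat_lit 0),Row.mk (nat_lit 25872) (nat_lit 32912) (nat_lit 8388608) (nat_lit 61897) (nat_lit 118982595181) (nat_lit 0) (nat_lit 0),Row.mk (nat_lit 26040) (nat_lit 32912) (nat_lit 8388608) (nat_lit 61897) (nat_lit 118982595181) (nat_lit 0) (nat_lit 0),Row.mk (nat_lit 26208) (nat_lit 32912) (nat_lit 8388608) (nat_lit 61897) (nat_lit 118982595181) (nat_lit 0) (nat_lit 0),Row.mk (nat_lit 26376) (nat_lit 32912) (nat_lit 8388608) (nat_lit 61897) (nat_lit 118982595181) (nat_lit 0) (nat_lit 0),Row.mk (nat_lit 26544) (nat_lit 32912) (nat_lit 8388608) (nat_lit 61897) (nat_lit 118982595181) (nat_lit 0) (nat_lit 0),Row.mk (nat_lit 26712) (nat_lit 32912) (nat_lit 8388608) (nat_lit 61897) (nat_lit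 118982595181) (nat_lit 0) (nat_lit 0),Row.mk (nat_lit 26880) (nat_lit 32912) (nat_lit 8388608) (nat_lit 61897) (nat_lit 118982595181) (nat_lit 0) (nat_lit 0),Row.mk (nat_lit 27048) (nat_lit 32912) (nat_lit 8388608) (nat_lit 61897) (nat_lit 118982595181) (nat_lit 0) (nat_lit 0),Row.mk (nat_lit 27216) (nat_lit 32912) (nat_lit 8388608) (nat_lit 61897) (nat_lit 118982595181) (nat_lit 0) (nat_lit 0),Row.mk (nat_lit 27384) (nat_lit 32912) (nat_lit 8388608) (nat_lit 61897) (nat_lit 118982595181) (nat_lit 0) (nat_lit 0),Row.mk (nat_lit 27552) (nat_lit 32912) (nat_lit 8388608) (nat_lit 61897) (nat_lit 118982595181) (nat_lit 0) (nat_lit 0),Row.mk (nat_lit 27720) (nat_lit 32912) (nat_lit 8388608) (nat_lit 61897) (nat_lit 118982595181) (nat_lit 0) (nat_lit 0),Row.mk (nat_lit 27888) (nat_lit 32912) (nat_lit 8388608) (nat_lit 61897) (nat_lit 118982595181) (nat_lit 0) (nat_lit 0),Row.mk (nat_lit 28056) (nat_lit 32912) (nat_lit 8388608) (nat_lit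 61897) (nat_lit 118982595181) (nat_lit 0) (nat_lit 0),Row.mk (nat_lit 28224) (nat_lit 32912) (nat_lit 8388608) (nat_lit 61897) (nat_lit 118982595181) (nat_lit 0) (nat_lit 0),Row.mk (nat_lit 28392) (nat_lit 32912) (nat_lit 8388608) (nat_lit 61897) (nat_lit 118982595181) (nat_lit 0) (nat_lit 0),Row.mk (nat_lit 28560) (nat_lit 32912) (nat_lit 8388608) (nat_lit 61897) (nat_lit 118982595181) (nat_lit 0) (nat_lit 0),Row.mk (nat_lit 28728) (nat_lit 32912) (nat_lit 8388608) (nat_lit 61897) (nat_lit 118982595181) (nat_lit 0) (nat_lit 0),Row.mk (nat_lit 28896) (nat_lit 32912) (nat_lit 8388608) (nat_lit 61897) (nat_lit 118982595181) (nat_lit 0) (nat_lit 0),Row.mk (nat_lit 29064) (nat_lit 32912) (nat_lit 8388608) (nat_lit 61897) (nat_lit 118982595181) (nat_lit 0) (nat_lit 0),Row.mk (nat_lit 29232) (nat_lit 32912) (nat_lit 8388608) (nat_lit 61897) (nat_lit 118982595181) (nat_lit 0) (nat_lit 0),Row.mk (nat_lit 29400) (nat_lit 32912) (nat_lit 8388608)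 (nat_lit 61897) (nat_lit 118982595181) (nat_lit 0) (nat_lit 0),Row.mk (nat_lit 29568) (nat_lit 32912) (nat_lit 8388608) (nat_lit 61897) (nat_lit 118982595181) (nat_lit 0) (nat_lit 0),Row.mk (nat_lit 29736) (nat_lit 32912) (nat_lit 8388608) (nat_lit 61897) (nat_lit 118982595181) (nat_lit 0) (nat_lit 0),Row.mk (nat_lit 29904) (nat_lit 32912) (nat_lit 8388608) (nat_lit 61897) (nat_lit 118982595181) (nat_lit 0) (nat_lit 0),Row.mk (nat_lit 30072) (nat_lit 32912) (nat_lit 8388608) (nat_lit 61897) (nat_lit 118982595181) (nat_lit 0) (nat_lit 0),Row.mk (nat_lit 30240) (nat_lit 32912) (nat_lit 8388608) (nat_lit 61897) (nat_lit 118982595181) (nat_lit 0) (nat_lit 0),Row.mk (nat_lit 30408) (nat_lit 32912) (nat_lit 8388608) (nat_lit 61897) (nat_lit 118982595181) (nat_lit 0) (nat_lit 0),Row.mk (nat_lit 30576) (nat_lit 32912) (nat_lit 8388608) (nat_lit 61897) (nat_lit 118982595181) (nat_lit 0) (nat_lit 0),Row.mk (nat_lit 30744) (nat_lit 32912) (nat_lit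 8388608) (nat_lit 61897) (nat_lit 118982595181) (nat_lit 0) (nat_lit 0)],
[Row.mk (nat_lit 23016) (nat_lit 32912) (nat_lit 8388608) (nat_lit 61897) (nat_lit 148608479629) (nat_lit 0) (nat_lit 0),Row.mk (nat_lit 23184) (nat_lit 32912) (nat_lit 8388608) (nat_lit 61897) (nat_lit 148608479629) (nat_lit 0) (nat_lit 0),Row.mk (nat_lit 23352) (nat_lit 32912) (nat_lit 8388608) (nat_lit 61897) (nat_lit 148608479629) (nat_lit 0) (nat_lit 0),Row.mk (nat_lit 23520) (nat_lit 32912) (nat_lit 8388608) (nat_lit 61897) (nat_lit 148608479629) (nat_lit 0) (nat_lit 0),Row.mk (nat_lit 23688) (nat_lit 32912) (nat_lit 8388608) (nat_lit 61897) (nat_lit 148608479629) (nat_lit 0) (nat_lit 0),Row.mk (nat_lit 23856) (nat_lit 32912) (nat_lit 8388608) (nat_lit 61897) (nat_lit 148608479629) (nat_lit 0) (nat_lit 0),Row.mk (nat_lit 24024) (nat_lit 32912) (nat_lit 8388608) (nat_lit 61897) (nat_lit 148608479629) (nat_lit 0) (nat_lit 0),Row.mk (nat_lit 24192) (nat_lit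 32912) (nat_lit 8388608) (nat_lit 61897) (nat_lit 148608479629) (nat_lit 0) (nat_lit 0),Row.mk (nat_lit 24360) (nat_lit 32912) (nat_lit 8388608) (nat_lit 61897) (nat_lit 148608479629) (nat_lit 0) (nat_lit 0),Row.mk (nat_lit 24528) (nat_lit 32912) (nat_lit 8388608) (nat_lit 61897) (nat_lit 148608479629) (nat_lit 0) (nat_lit 0),Row.mk (nat_lit 24696) (nat_lit 32912) (nat_lit 8388608) (nat_lit 61897) (nat_lit 148608479629) (nat_lit 0) (nat_lit 0),Row.mk (nat_lit 24864) (nat_lit 32912) (nat_lit 8388608) (nat_lit 61897) (nat_lit 148608479629) (nat_lit 0) (nat_lit 0),Row.mk (nat_lit 25032) (nat_lit 32912) (nat_lit 8388608) (nat_lit 61897) (nat_lit 148608479629) (nat_lit 0) (nat_lit 0),Row.mk (nat_lit 25200) (nat_lit 32912) (nat_lit 8388608) (nat_lit 61897) (nat_lit 148608479629) (nat_lit 0) (nat_lit 0),Row.mk (nat_lit 25368) (nat_lit 32912) (nat_lit 8388608) (nat_lit 61897) (nat_lit 148608479629) (nat_lit 0) (nat_lit 0),Row.mk (nat_lit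 25536) (nat_lit 32912) (nat_lit 8388608) (nat_lit 61897) (nat_lit 148608479629) (nat_lit 0) (nat_lit 0),Row.mk (nat_lit 25704) (nat_lit 32912) (nat_lit 8388608) (nat_lit 61897) (nat_lit 148608479629) (nat_lit 0) (nat_lit 0),Row.mk (nat_lit 25872) (nat_lit 32912) (nat_lit 8388608) (nat_lit 61897) (nat_lit 148608479629) (nat_lit 0) (nat_lit 0),Row.mk (nat_lit 26040) (nat_lit 32912) (nat_lit 8388608) (nat_lit 61897) (nat_lit 148608479629) (nat_lit 0) (nat_lit 0),Row.mk (nat_lit 26208) (nat_lit 32912) (nat_lit 8388608) (nat_lit 61897) (nat_lit 148608479629) (nat_lit 0) (nat_lit 0),Row.mk (nat_lit 26376) (nat_lit 32912) (nat_lit 8388608) (nat_lit 61897) (nat_lit 148608479629) (nat_lit 0) (nat_lit 0),Row.mk (nat_lit 26544) (nat_lit 32912) (nat_lit 8388608) (nat_lit 61897) (nat_lit 148608479629) (nat_lit 0) (nat_lit 0),Row.mk (nat_lit 26712) (nat_lit 32912) (nat_lit 8388608) (nat_lit 61897) (nat_lit 148608479629) (nat_lit 0) (nat_lit 0),Row.mk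 (nat_lit 26880) (nat_lit 32912) (nat_lit 8388608) (nat_lit 61897) (nat_lit 148608479629) (nat_lit 0) (nat_lit 0),Row.mk (nat_lit 27048) (nat_lit 32912) (nat_lit 8388608) (nat_lit 61897) (nat_lit 148608479629) (nat_lit 0) (nat_lit 0),Row.mk (nat_lit 27216) (nat_lit 32912) (nat_lit 8388608) (nat_lit 61897) (nat_lit 148608479629) (nat_lit 0) (nat_lit 0),Row.mk (nat_lit 27384) (nat_lit 32912) (nat_lit 8388608) (nat_lit 61897) (nat_lit 148608479629) (nat_lit 0) (nat_lit 0),Row.mk (nat_lit 27552) (nat_lit 32912) (nat_lit 8388608) (nat_lit 61897) (nat_lit 148608479629) (nat_lit 0) (nat_lit 0),Row.mk (nat_lit 27720) (nat_lit 32912) (nat_lit 8388608) (nat_lit 61897) (nat_lit 148608479629) (nat_lit 0) (nat_lit 0),Row.mk (nat_lit 27888) (nat_lit 32912) (nat_lit 8388608) (nat_lit 61897) (nat_lit 148608479629) (nat_lit 0) (nat_lit 0),Row.mk (nat_lit 28056) (nat_lit 32912) (nat_lit 8388608) (nat_lit 61897) (nat_lit 148608479629) (nat_lit 0) (nat_lit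 0),Row.mk (nat_lit 28224) (nat_lit 32912) (nat_lit 8388608) (nat_lit 61897) (nat_lit 148608479629) (nat_lit 0) (nat_lit 0),Row.mk (nat_lit 28392) (nat_lit 32912) (nat_lit 8388608) (nat_lit 61897) (nat_lit 148608479629) (nat_lit 0) (nat_lit 0),Row.mk (nat_lit 28560) (nat_lit 32912) (nat_lit 8388608) (nat_lit 61897) (nat_lit 148608479629) (nat_lit 0) (nat_lit 0),Row.mk (nat_lit 28728) (nat_lit 32912) (nat_lit 8388608) (nat_lit 61897) (nat_lit 148608479629) (nat_lit 0) (nat_lit 0),Row.mk (nat_lit 28896) (nat_lit 32912) (nat_lit 8388608) (nat_lit 61897) (nat_lit 148608479629) (nat_lit 0) (nat_lit 0),Row.mk (nat_lit 29064) (nat_lit 32912) (nat_lit 8388608) (nat_lit 61897) (nat_lit 148608479629) (nat_lit 0) (nat_lit 0),Row.mk (nat_lit 29232) (nat_lit 32912) (nat_lit 8388608) (nat_lit 61897) (nat_lit 148608479629) (nat_lit 0) (nat_lit 0),Row.mk (nat_lit 29400) (nat_lit 32912) (nat_lit 8388608) (nat_lit 61897) (nat_lit 148608479629) (nat_lit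 0) (nat_lit 0),Row.mk (nat_lit 29568) (nat_lit 32912) (nat_lit 8388608) (nat_lit 61897) (nat_lit 148608479629) (nat_lit 0) (nat_lit 0),Row.mk (nat_lit 29736) (nat_lit 32912) (nat_lit 8388608) (nat_lit 61897) (nat_lit 148608479629) (nat_lit 0) (nat_lit 0),Row.mk (nat_lit 29904) (nat_lit 32912) (nat_lit 8388608) (nat_lit 61897) (nat_lit 148608479629) (nat_lit 0) (nat_lit 0),Row.mk (nat_lit 30072) (nat_lit 32912) (nat_lit 8388608) (nat_lit 61897) (nat_lit 148608479629) (nat_lit 0) (nat_lit 0),Row.mk (nat_lit 30240) (nat_lit 32912) (nat_lit 8388608) (nat_lit 61897) (nat_lit 148608479629) (nat_lit 0) (nat_lit 0),Row.mk (nat_lit 30408) (nat_lit 32912) (nat_lit 8388608) (nat_lit 61897) (nat_lit 148608479629) (nat_lit 0) (nat_lit 0),Row.mk (nat_lit 30576) (nat_lit 32912) (nat_lit 8388608) (nat_lit 61897) (nat_lit 148608479629) (nat_lit 0) (nat_lit 0),Row.mk (nat_lit 30744) (nat_lit 32912) (nat_lit 8388608) (nat_lit 61897) (nat_lit 148608479629)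 (nat_lit 0) (nat_lit 0)],
[Row.mk (nat_lit 23184) (nat_lit 32912) (nat_lit 8388608) (nat_lit 61897) (nat_lit 185610494615) (nat_lit 0) (nat_lit 0),Row.mk (nat_lit 23352) (nat_lit 32912) (nat_lit 8388608) (nat_lit 61897) (nat_lit 185610494615) (nat_lit 0) (nat_lit 0),Row.mk (nat_lit 23520) (nat_lit 32912) (nat_lit 8388608) (nat_lit 61897) (nat_lit 185610494615) (nat_lit 0) (nat_lit 0),Row.mk (nat_lit 23688) (nat_lit 32912) (nat_lit 8388608) (nat_lit 61897) (nat_lit 185610494615) (nat_lit 0) (nat_lit 0),Row.mk (nat_lit 23856) (nat_lit 32912) (nat_lit 8388608) (nat_lit 61897) (nat_lit 185610494615) (nat_lit 0) (nat_lit 0),Row.mk (nat_lit 24024) (nat_lit 32912) (nat_lit 8388608) (nat_lit 61897) (nat_lit 185610494615) (nat_lit 0) (nat_lit 0),Row.mk (nat_lit 24192) (nat_lit 32912) (nat_lit 8388608) (nat_lit 61897) (nat_lit 185610494615) (nat_lit 0) (nat_lit 0),Row.mk (nat_lit 24360) (nat_lit 32912) (nat_lit 8388608) (nat_lit 61897) (nat_lit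 185610494615) (nat_lit 0) (nat_lit 0),Row.mk (nat_lit 24528) (nat_lit 32912) (nat_lit 8388608) (nat_lit 61897) (nat_lit 185610494615) (nat_lit 0) (nat_lit 0),Row.mk (nat_lit 24696) (nat_lit 32912) (nat_lit 8388608) (nat_lit 61897) (nat_lit 185610494615) (nat_lit 0) (nat_lit 0),Row.mk (nat_lit 24864) (nat_lit 32912) (nat_lit 8388608) (nat_lit 61897) (nat_lit 185610494615) (nat_lit 0) (nat_lit 0),Row.mk (nat_lit 25032) (nat_lit 32912) (nat_lit 8388608) (nat_lit 61897) (nat_lit 185610494615) (nat_lit 0) (nat_lit 0),Row.mk (nat_lit 25200) (nat_lit 32912) (nat_lit 8388608) (nat_lit 61897) (nat_lit 185610494615) (nat_lit 0) (nat_lit 0),Row.mk (nat_lit 25368) (nat_lit 32912) (nat_lit 8388608) (nat_lit 61897) (nat_lit 185610494615) (nat_lit 0) (nat_lit 0),Row.mk (nat_lit 25536) (nat_lit 32912) (nat_lit 8388608) (nat_lit 61897) (nat_lit 185610494615) (nat_lit 0) (nat_lit 0),Row.mk (nat_lit 25704) (nat_lit 32912) (nat_lit 8388608) (nat_lit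 61897) (nat_lit 185610494615) (nat_lit 0) (nat_lit 0),Row.mk (nat_lit 25872) (nat_lit 32912) (nat_lit 8388608) (nat_lit 61897) (nat_lit 185610494615) (nat_lit 0) (nat_lit 0),Row.mk (nat_lit 26040) (nat_lit 32912) (nat_lit 8388608) (nat_lit 61897) (nat_lit 185610494615) (nat_lit 0) (nat_lit 0),Row.mk (nat_lit 26208) (nat_lit 32912) (nat_lit 8388608) (nat_lit 61897) (nat_lit 185610494615) (nat_lit 0) (nat_lit 0),Row.mk (nat_lit 26376) (nat_lit 32912) (nat_lit 8388608) (nat_lit 61897) (nat_lit 185610494615) (nat_lit 0) (nat_lit 0),Row.mk (nat_lit 26544) (nat_lit 32912) (nat_lit 8388608) (nat_lit 61897) (nat_lit 185610494615) (nat_lit 0) (nat_lit 0),Row.mk (nat_lit 26712) (nat_lit 32912) (nat_lit 8388608) (nat_lit 61897) (nat_lit 185610494615) (nat_lit 0) (nat_lit 0),Row.mk (nat_lit 26880) (nat_lit 32912) (nat_lit 8388608) (nat_lit 61897) (nat_lit 185610494615) (nat_lit 0) (nat_lit 0),Row.mk (nat_lit 27048) (nat_lit 32912) (nat_lit 8388608)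 (nat_lit 61897) (nat_lit 185610494615) (nat_lit 0) (nat_lit 0),Row.mk (nat_lit 27216) (nat_lit 32912) (nat_lit 8388608) (nat_lit 61897) (nat_lit 185610494615) (nat_lit 0) (nat_lit 0),Row.mk (nat_lit 27384) (nat_lit 32912) (nat_lit 8388608) (nat_lit 61897) (nat_lit 185610494615) (nat_lit 0) (nat_lit 0),Row.mk (nat_lit 27552) (nat_lit 32912) (nat_lit 8388608) (nat_lit 61897) (nat_lit 185610494615) (nat_lit 0) (nat_lit 0),Row.mk (nat_lit 27720) (nat_lit 32912) (nat_lit 8388608) (nat_lit 61897) (nat_lit 185610494615) (nat_lit 0) (nat_lit 0),Row.mk (nat_lit 27888) (nat_lit 32912) (nat_lit 8388608) (nat_lit 61897) (nat_lit 185610494615) (nat_lit 0) (nat_lit 0),Row.mk (nat_lit 28056) (nat_lit 32912) (nat_lit 8388608) (nat_lit 61897) (nat_lit 185610494615) (nat_lit 0) (nat_lit 0),Row.mk (nat_lit 28224) (nat_lit 32912) (nat_lit 8388608) (nat_lit 61897) (nat_lit 185610494615) (nat_lit 0) (nat_lit 0),Row.mk (nat_lit 28392) (nat_lit 32912) (nat_lit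 8388608) (nat_lit 61897) (nat_lit 185610494615) (nat_lit 0) (nat_lit 0),Row.mk (nat_lit 28560) (nat_lit 32912) (nat_lit 8388608) (nat_lit 61897) (nat_lit 185610494615) (nat_lit 0) (nat_lit 0),Row.mk (nat_lit 28728) (nat_lit 32912) (nat_lit 8388608) (nat_lit 61897) (nat_lit 185610494615) (nat_lit 0) (nat_lit 0),Row.mk (nat_lit 28896) (nat_lit 32912) (nat_lit 8388608) (nat_lit 61897) (nat_lit 185610494615) (nat_lit 0) (nat_lit 0),Row.mk (nat_lit 29064) (nat_lit 32912) (nat_lit 8388608) (nat_lit 61897) (nat_lit 185610494615) (nat_lit 0) (nat_lit 0),Row.mk (nat_lit 29232) (nat_lit 32912) (nat_lit 8388608) (nat_lit 61897) (nat_lit 185610494615) (nat_lit 0) (nat_lit 0),Row.mk (nat_lit 29400) (nat_lit 32912) (nat_lit 8388608) (nat_lit 61897) (nat_lit 185610494615) (nat_lit 0) (nat_lit 0),Row.mk (nat_lit 29568) (nat_lit 32912) (nat_lit 8388608) (nat_lit 61897) (nat_lit 185610494615) (nat_lit 0) (nat_lit 0),Row.mk (nat_lit 29736) (nat_lit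 32912) (nat_lit 8388608) (nat_lit 61897) (nat_lit 185610494615) (nat_lit 0) (nat_lit 0),Row.mk (nat_lit 29904) (nat_lit 32912) (nat_lit 8388608) (nat_lit 61897) (nat_lit 185610494615) (nat_lit 0) (nat_lit 0),Row.mk (nat_lit 30072) (nat_lit 32912) (nat_lit 8388608) (nat_lit 61897) (nat_lit 185610494615) (nat_lit 0) (nat_lit 0),Row.mk (nat_lit 30240) (nat_lit 32912) (nat_lit 8388608) (nat_lit 61897) (nat_lit 185610494615) (nat_lit 0) (nat_lit 0),Row.mk (nat_lit 30408) (nat_lit 32912) (nat_lit 8388608) (nat_lit 61897) (nat_lit 185610494615) (nat_lit 0) (nat_lit 0),Row.mk (nat_lit 30576) (nat_lit 32912) (nat_lit 8388608) (nat_lit 61897) (nat_lit 185610494615) (nat_lit 0) (nat_lit 0),Row.mk (nat_lit 30744) (nat_lit 32912) (nat_lit 8388608) (nat_lit 61897) (nat_lit 185610494615) (nat_lit 0) (nat_lit 0)],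
[Row.mk (nat_lit 23352) (nat_lit 32912) (nat_lit 8388608) (nat_lit 61897) (nat_lit 231825118704) (nat_lit 0) (nat_lit 0),Row.mk (nat_lit 23520) (nat_lit 32912) (nat_lit 8388608) (nat_lit 61897) (nat_lit 231825118704) (nat_lit 0) (nat_lit 0),Row.mk (nat_lit 23688) (nat_lit 32912) (nat_lit 8388608) (nat_lit 61897) (nat_lit 231825118704) (nat_lit 0) (nat_lit 0),Row.mk (nat_lit 23856) (nat_lit 32912) (nat_lit 8388608) (nat_lit 61897) (nat_lit 231825118704) (nat_lit 0) (nat_lit 0),Row.mk (nat_lit 24024) (nat_lit 32912) (nat_lit 8388608) (nat_lit 61897) (nat_lit 231825118704) (nat_lit 0) (nat_lit 0),Row.mk (nat_lit 24192) (nat_lit 32912) (nat_lit 8388608) (nat_lit 61897) (nat_lit 231825118704) (nat_lit 0) (nat_lit 0),Row.mk (nat_lit 24360) (nat_lit 32912) (nat_lit 8388608) (nat_lit 61897) (nat_lit 231825118704) (nat_lit 0) (nat_lit 0),Row.mk (nat_lit 24528) (nat_lit 32912) (nat_lit 8388608) (nat_lit 61897) (nat_lit 231825118704) (nat_lit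 0) (nat_lit 0),Row.mk (nat_lit 24696) (nat_lit 32912) (nat_lit 8388608) (nat_lit 61897) (nat_lit 231825118704) (nat_lit 0) (nat_lit 0),Row.mk (nat_lit 24864) (nat_lit 32912) (nat_lit 8388608) (nat_lit 61897) (nat_lit 231825118704) (nat_lit 0) (nat_lit 0),Row.mk (nat_lit 25032) (nat_lit 32912) (nat_lit 8388608) (nat_lit 61897) (nat_lit 231825118704) (nat_lit 0) (nat_lit 0),Row.mk (nat_lit 25200) (nat_lit 32912) (nat_lit 8388608) (nat_lit 61897) (nat_lit 231825118704) (nat_lit 0) (nat_lit 0),Row.mk (nat_lit 25368) (nat_lit 32912) (nat_lit 8388608) (nat_lit 61897) (nat_lit 231825118704) (nat_lit 0) (nat_lit 0),Row.mk (nat_lit 25536) (nat_lit 32912) (nat_lit 8388608) (nat_lit 61897) (nat_lit 231825118704) (nat_lit 0) (nat_lit 0),Row.mk (nat_lit 25704) (nat_lit 32912) (nat_lit 8388608) (nat_lit 61897) (nat_lit 231825118704) (nat_lit 0) (nat_lit 0),Row.mk (nat_lit 25872) (nat_lit 32912) (nat_lit 8388608) (nat_lit 61897) (nat_lit 231825118704)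 (nat_lit 0) (nat_lit 0),Row.mk (nat_lit 26040) (nat_lit 32912) (nat_lit 8388608) (nat_lit 61897) (nat_lit 231825118704) (nat_lit 0) (nat_lit 0),Row.mk (nat_lit 26208) (nat_lit 32912) (nat_lit 8388608) (nat_lit 61897) (nat_lit 231825118704) (nat_lit 0) (nat_lit 0),Row.mk (nat_lit 26376) (nat_lit 32912) (nat_lit 8388608) (nat_lit 61897) (nat_lit 231825118704) (nat_lit 0) (nat_lit 0),Row.mk (nat_lit 26544) (nat_lit 32912) (nat_lit 8388608) (nat_lit 61897) (nat_lit 231825118704) (nat_lit 0) (nat_lit 0),Row.mk (nat_lit 26712) (nat_lit 32912) (nat_lit 8388608) (nat_lit 61897) (nat_lit 231825118704) (nat_lit 0) (nat_lit 0),Row.mk (nat_lit 26880) (nat_lit 32912) (nat_lit 8388608) (nat_lit 61897) (nat_lit 231825118704) (nat_lit 0) (nat_lit 0),Row.mk (nat_lit 27048) (nat_lit 32912) (nat_lit 8388608) (nat_lit 61897) (nat_lit 231825118704) (nat_lit 0) (nat_lit 0),Row.mk (nat_lit 27216) (nat_lit 32912) (nat_lit 8388608) (nat_lit 61897) (nat_lit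 231825118704) (nat_lit 0) (nat_lit 0),Row.mk (nat_lit 27384) (nat_lit 32912) (nat_lit 8388608) (nat_lit 61897) (nat_lit 231825118704) (nat_lit 0) (nat_lit 0),Row.mk (nat_lit 27552) (nat_lit 32912) (nat_lit 8388608) (nat_lit 61897) (nat_lit 231825118704) (nat_lit 0) (nat_lit 0),Row.mk (nat_lit 27720) (nat_lit 32912) (nat_lit 8388608) (nat_lit 61897) (nat_lit 231825118704) (nat_lit 0) (nat_lit 0),Row.mk (nat_lit 27888) (nat_lit 32912) (nat_lit 8388608) (nat_lit 61897) (nat_lit 231825118704) (nat_lit 0) (nat_lit 0),Row.mk (nat_lit 28056) (nat_lit 32912) (nat_lit 8388608) (nat_lit 61897) (nat_lit 231825118704) (nat_lit 0) (nat_lit 0),Row.mk (nat_lit 28224) (nat_lit 32912) (nat_lit 8388608) (nat_lit 61897) (nat_lit 231825118704) (nat_lit 0) (nat_lit 0),Row.mk (nat_lit 28392) (nat_lit 32912) (nat_lit 8388608) (nat_lit 61897) (nat_lit 231825118704) (nat_lit 0) (nat_lit 0),Row.mk (nat_lit 28560) (nat_lit 32912) (nat_lit 8388608) (nat_lit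 61897) (nat_lit 231825118704) (nat_lit 0) (nat_lit 0),Row.mk (nat_lit 28728) (nat_lit 32912) (nat_lit 8388608) (nat_lit 61897) (nat_lit 231825118704) (nat_lit 0) (nat_lit 0),Row.mk (nat_lit 28896) (nat_lit 32912) (nat_lit 8388608) (nat_lit 61897) (nat_lit 231825118704) (nat_lit 0) (nat_lit 0),Row.mk (nat_lit 29064) (nat_lit 32912) (nat_lit 8388608) (nat_lit 61897) (nat_lit 231825118704) (nat_lit 0) (nat_lit 0),Row.mk (nat_lit 29232) (nat_lit 32912) (nat_lit 8388608) (nat_lit 61897) (nat_lit 231825118704) (nat_lit 0) (nat_lit 0),Row.mk (nat_lit 29400) (nat_lit 32912) (nat_lit 8388608) (nat_lit 61897) (nat_lit 231825118704) (nat_lit 0) (nat_lit 0),Row.mk (nat_lit 29568) (nat_lit 32912) (nat_lit 8388608) (nat_lit 61897) (nat_lit 231825118704) (nat_lit 0) (nat_lit 0),Row.mk (nat_lit 29736) (nat_lit 32912) (nat_lit 8388608) (nat_lit 61897) (nat_lit 231825118704) (nat_lit 0) (nat_lit 0),Row.mk (nat_lit 29904) (nat_lit 32912) (nat_lit 8388608)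 (nat_lit 61897) (nat_lit 231825118704) (nat_lit 0) (nat_lit 0),Row.mk (nat_lit 30072) (nat_lit 32912) (nat_lit 8388608) (nat_lit 61897) (nat_lit 231825118704) (nat_lit 0) (nat_lit 0),Row.mk (nat_lit 30240) (nat_lit 32912) (nat_lit 8388608) (nat_lit 61897) (nat_lit 231825118704) (nat_lit 0) (nat_lit 0),Row.mk (nat_lit 30408) (nat_lit 32912) (nat_lit 8388608) (nat_lit 61897) (nat_lit 231825118704) (nat_lit 0) (nat_lit 0),Row.mk (nat_lit 30576) (nat_lit 32912) (nat_lit 8388608) (nat_lit 61897) (nat_lit 231825118704) (nat_lit 0) (nat_lit 0),Row.mk (nat_lit 30744) (nat_lit 32912) (nat_lit 8388608) (nat_lit 61897) (nat_lit 231825118704) (nat_lit 0) (nat_lit 0)],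
[Row.mk (nat_lit 23520) (nat_lit 32912) (nat_lit 8388608) (nat_lit 61897) (nat_lit 289546069319) (nat_lit 0) (nat_lit 0),Row.mk (nat_lit 23688) (nat_lit 32912) (nat_lit 8388608) (nat_lit 61897) (nat_lit 289546069319) (nat_lit 0) (nat_lit 0),Row.mk (nat_lit 23856) (nat_lit 32912) (nat_lit 8388608) (nat_lit 61897) (nat_lit 289546069319) (nat_lit 0) (nat_lit 0),Row.mk (nat_lit 24024) (nat_lit 32912) (nat_lit 8388608) (nat_lit 61897) (nat_lit 289546069319) (nat_lit 0) (nat_lit 0),Row.mk (nat_lit 24192) (nat_lit 32912) (nat_lit 8388608) (nat_lit 61897) (nat_lit 289546069319) (nat_lit 0) (nat_lit 0),Row.mk (nat_lit 24360) (nat_lit 32912) (nat_lit 8388608) (nat_lit 61897) (nat_lit 289546069319) (nat_lit 0) (nat_lit 0),Row.mk (nat_lit 24528) (nat_lit 32912) (nat_lit 8388608) (nat_lit 61897) (nat_lit 289546069319) (nat_lit 0) (nat_lit 0),Row.mk (nat_lit 24696) (nat_lit 32912) (nat_lit 8388608) (nat_lit 61897) (nat_lit 289546069319) (nat_lit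 0) (nat_lit 0),Row.mk (nat_lit 24864) (nat_lit 32912) (nat_lit 8388608) (nat_lit 61897) (nat_lit 289546069319) (nat_lit 0) (nat_lit 0),Row.mk (nat_lit 25032) (nat_lit 32912) (nat_lit 8388608) (nat_lit 61897) (nat_lit 289546069319) (nat_lit 0) (nat_lit 0),Row.mk (nat_lit 25200) (nat_lit 32912) (nat_lit 8388608) (nat_lit 61897) (nat_lit 289546069319) (nat_lit 0) (nat_lit 0),Row.mk (nat_lit 25368) (nat_lit 32912) (nat_lit 8388608) (nat_lit 61897) (nat_lit 289546069319) (nat_lit 0) (nat_lit 0),Row.mk (nat_lit 25536) (nat_lit 32912) (nat_lit 8388608) (nat_lit 61897) (nat_lit 289546069319) (nat_lit 0) (nat_lit 0),Row.mk (nat_lit 25704) (nat_lit 32912) (nat_lit 8388608) (nat_lit 61897) (nat_lit 289546069319) (nat_lit 0) (nat_lit 0),Row.mk (nat_lit 25872) (nat_lit 32912) (nat_lit 8388608) (nat_lit 61897) (nat_lit 289546069319) (nat_lit 0) (nat_lit 0),Row.mk (nat_lit 26040) (nat_lit 32912) (nat_lit 8388608) (nat_lit 61897) (nat_lit 289546069319)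 (nat_lit 0) (nat_lit 0),Row.mk (nat_lit 26208) (nat_lit 32912) (nat_lit 8388608) (nat_lit 61897) (nat_lit 289546069319) (nat_lit 0) (nat_lit 0),Row.mk (nat_lit 26376) (nat_lit 32912) (nat_lit 8388608) (nat_lit 61897) (nat_lit 289546069319) (nat_lit 0) (nat_lit 0),Row.mk (nat_lit 26544) (nat_lit 32912) (nat_lit 8388608) (nat_lit 61897) (nat_lit 289546069319) (nat_lit 0) (nat_lit 0),Row.mk (nat_lit 26712) (nat_lit 32912) (nat_lit 8388608) (nat_lit 61897) (nat_lit 289546069319) (nat_lit 0) (nat_lit 0),Row.mk (nat_lit 26880) (nat_lit 32912) (nat_lit 8388608) (nat_lit 61897) (nat_lit 289546069319) (nat_lit 0) (nat_lit 0),Row.mk (nat_lit 27048) (nat_lit 32912) (nat_lit 8388608) (nat_lit 61897) (nat_lit 289546069319) (nat_lit 0) (nat_lit 0),Row.mk (nat_lit 27216) (nat_lit 32912) (nat_lit 8388608) (nat_lit 61897) (nat_lit 289546069319) (nat_lit 0) (nat_lit 0),Row.mk (nat_lit 27384) (nat_lit 32912) (nat_lit 8388608) (nat_lit 61897) (nat_lit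 289546069319) (nat_lit 0) (nat_lit 0),Row.mk (nat_lit 27552) (nat_lit 32912) (nat_lit 8388608) (nat_lit 61897) (nat_lit 289546069319) (nat_lit 0) (nat_lit 0),Row.mk (nat_lit 27720) (nat_lit 32912) (nat_lit 8388608) (nat_lit 61897) (nat_lit 289546069319) (nat_lit 0) (nat_lit 0),Row.mk (nat_lit 27888) (nat_lit 32912) (nat_lit 8388608) (nat_lit 61897) (nat_lit 289546069319) (nat_lit 0) (nat_lit 0),Row.mk (nat_lit 28056) (nat_lit 32912) (nat_lit 8388608) (nat_lit 61897) (nat_lit 289546069319) (nat_lit 0) (nat_lit 0),Row.mk (nat_lit 28224) (nat_lit 32912) (nat_lit 8388608) (nat_lit 61897) (nat_lit 289546069319) (nat_lit 0) (nat_lit 0),Row.mk (nat_lit 28392) (nat_lit 32912) (nat_lit 8388608) (nat_lit 61897) (nat_lit 289546069319) (nat_lit 0) (nat_lit 0),Row.mk (nat_lit 28560) (nat_lit 32912) (nat_lit 8388608) (nat_lit 61897) (nat_lit 289546069319) (nat_lit 0) (nat_lit 0),Row.mk (nat_lit 28728) (nat_lit 32912) (nat_lit 8388608) (nat_lit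 61897) (nat_lit 289546069319) (nat_lit 0) (nat_lit 0),Row.mk (nat_lit 28896) (nat_lit 32912) (nat_lit 8388608) (nat_lit 61897) (nat_lit 289546069319) (nat_lit 0) (nat_lit 0),Row.mk (nat_lit 29064) (nat_lit 32912) (nat_lit 8388608) (nat_lit 61897) (nat_lit 289546069319) (nat_lit 0) (nat_lit 0),Row.mk (nat_lit 29232) (nat_lit 32912) (nat_lit 8388608) (nat_lit 61897) (nat_lit 289546069319) (nat_lit 0) (nat_lit 0),Row.mk (nat_lit 29400) (nat_lit 32912) (nat_lit 8388608) (nat_lit 61897) (nat_lit 289546069319) (nat_lit 0) (nat_lit 0),Row.mk (nat_lit 29568) (nat_lit 32912) (nat_lit 8388608) (nat_lit 61897) (nat_lit 289546069319) (nat_lit 0) (nat_lit 0),Row.mk (nat_lit 29736) (nat_lit 32912) (nat_lit 8388608) (nat_lit 61897) (nat_lit 289546069319) (nat_lit 0) (nat_lit 0),Row.mk (nat_lit 29904) (nat_lit 32912) (nat_lit 8388608) (nat_lit 61897) (nat_lit 289546069319) (nat_lit 0) (nat_lit 0),Row.mk (nat_lit 30072) (nat_lit 32912) (nat_lit 8388608)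 (nat_lit 61897) (nat_lit 289546069319) (nat_lit 0) (nat_lit 0),Row.mk (nat_lit 30240) (nat_lit 32912) (nat_lit 8388608) (nat_lit 61897) (nat_lit 289546069319) (nat_lit 0) (nat_lit 0),Row.mk (nat_lit 30408) (nat_lit 32912) (nat_lit 8388608) (nat_lit 61897) (nat_lit 289546069319) (nat_lit 0) (nat_lit 0),Row.mk (nat_lit 30576) (nat_lit 32912) (nat_lit 8388608) (nat_lit 61897) (nat_lit 289546069319) (nat_lit 0) (nat_lit 0),Row.mk (nat_lit 30744) (nat_lit 32912) (nat_lit 8388608) (nat_lit 61897) (nat_lit 289546069319) (nat_lit 0) (nat_lit 0),Row.mk (nat_lit 30912) (nat_lit 32912) (nat_lit 8388608) (nat_lit 61897) (nat_lit 289546069319) (nat_lit 0) (nat_lit 0)],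
[Row.mk (nat_lit 23688) (nat_lit 32912) (nat_lit 8388608) (nat_lit 61897) (nat_lit 361638144187) (nat_lit 0) (nat_lit 0),Row.mk (nat_lit 23856) (nat_lit 32912) (nat_lit 8388608) (nat_lit 61897) (nat_lit 361638144187) (nat_lit 0) (nat_lit 0),Row.mk (nat_lit 24024) (nat_lit 32912) (nat_lit 8388608) (nat_lit 61897) (nat_lit 361638144187) (nat_lit 0) (nat_lit 0),Row.mk (nat_lit 24192) (nat_lit 32912) (nat_lit 8388608) (nat_lit 61897) (nat_lit 361638144187) (nat_lit 0) (nat_lit 0),Row.mk (nat_lit 24360) (nat_lit 32912) (nat_lit 8388608) (nat_lit 61897) (nat_lit 361638144187) (nat_lit 0) (nat_lit 0),Row.mk (nat_lit 24528) (nat_lit 32912) (nat_lit 8388608) (nat_lit 61897) (nat_lit 361638144187) (nat_lit 0) (nat_lit 0),Row.mk (nat_lit 24696) (nat_lit 32912) (nat_lit 8388608) (nat_lit 61897) (nat_lit 361638144187) (nat_lit 0) (nat_lit 0),Row.mk (nat_lit 24864) (nat_lit 32912) (nat_lit 8388608) (nat_lit 61897) (nat_lit 361638144187) (nat_lit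 0) (nat_lit 0),Row.mk (nat_lit 25032) (nat_lit 32912) (nat_lit 8388608) (nat_lit 61897) (nat_lit 361638144187) (nat_lit 0) (nat_lit 0),Row.mk (nat_lit 25200) (nat_lit 32912) (nat_lit 8388608) (nat_lit 61897) (nat_lit 361638144187) (nat_lit 0) (nat_lit 0),Row.mk (nat_lit 25368) (nat_lit 32912) (nat_lit 8388608) (nat_lit 61897) (nat_lit 361638144187) (nat_lit 0) (nat_lit 0),Row.mk (nat_lit 25536) (nat_lit 32912) (nat_lit 8388608) (nat_lit 61897) (nat_lit 361638144187) (nat_lit 0) (nat_lit 0),Row.mk (nat_lit 25704) (nat_lit 32912) (nat_lit 8388608) (nat_lit 61897) (nat_lit 361638144187) (nat_lit 0) (nat_lit 0),Row.mk (nat_lit 25872) (nat_lit 32912) (nat_lit 8388608) (nat_lit 61897) (nat_lit 361638144187) (nat_lit 0) (nat_lit 0),Row.mk (nat_lit 26040) (nat_lit 32912) (nat_lit 8388608) (nat_lit 61897) (nat_lit 361638144187) (nat_lit 0) (nat_lit 0),Row.mk (nat_lit 26208) (nat_lit 32912) (nat_lit 8388608) (nat_lit 61897) (nat_lit 361638144187)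 (nat_lit 0) (nat_lit 0),Row.mk (nat_lit 26376) (nat_lit 32912) (nat_lit 8388608) (nat_lit 61897) (nat_lit 361638144187) (nat_lit 0) (nat_lit 0),Row.mk (nat_lit 26544) (nat_lit 32912) (nat_lit 8388608) (nat_lit 61897) (nat_lit 361638144187) (nat_lit 0) (nat_lit 0),Row.mk (nat_lit 26712) (nat_lit 32912) (nat_lit 8388608) (nat_lit 61897) (nat_lit 361638144187) (nat_lit 0) (nat_lit 0),Row.mk (nat_lit 26880) (nat_lit 32912) (nat_lit 8388608) (nat_lit 61897) (nat_lit 361638144187) (nat_lit 0) (nat_lit 0),Row.mk (nat_lit 27048) (nat_lit 32912) (nat_lit 8388608) (nat_lit 61897) (nat_lit 361638144187) (nat_lit 0) (nat_lit 0),Row.mk (nat_lit 27216) (nat_lit 32912) (nat_lit 8388608) (nat_lit 61897) (nat_lit 361638144187) (nat_lit 0) (nat_lit 0),Row.mk (nat_lit 27384) (nat_lit 32912) (nat_lit 8388608) (nat_lit 61897) (nat_lit 361638144187) (nat_lit 0) (nat_lit 0),Row.mk (nat_lit 27552) (nat_lit 32912) (nat_lit 8388608) (nat_lit 61897) (nat_lit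 361638144187) (nat_lit 0) (nat_lit 0),Row.mk (nat_lit 27720) (nat_lit 32912) (nat_lit 8388608) (nat_lit 61897) (nat_lit 361638144187) (nat_lit 0) (nat_lit 0),Row.mk (nat_lit 27888) (nat_lit 32912) (nat_lit 8388608) (nat_lit 61897) (nat_lit 361638144187) (nat_lit 0) (nat_lit 0),Row.mk (nat_lit 28056) (nat_lit 32912) (nat_lit 8388608) (nat_lit 61897) (nat_lit 361638144187) (nat_lit 0) (nat_lit 0),Row.mk (nat_lit 28224) (nat_lit 32912) (nat_lit 8388608) (nat_lit 61897) (nat_lit 361638144187) (nat_lit 0) (nat_lit 0),Row.mk (nat_lit 28392) (nat_lit 32912) (nat_lit 8388608) (nat_lit 61897) (nat_lit 361638144187) (nat_lit 0) (nat_lit 0),Row.mk (nat_lit 28560) (nat_lit 32912) (nat_lit 8388608) (nat_lit 61897) (nat_lit 361638144187) (nat_lit 0) (nat_lit 0),Row.mk (nat_lit 28728) (nat_lit 32912) (nat_lit 8388608) (nat_lit 61897) (nat_lit 361638144187) (nat_lit 0) (nat_lit 0),Row.mk (nat_lit 28896) (nat_lit 32912) (nat_lit 8388608) (nat_lit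 61897) (nat_lit 361638144187) (nat_lit 0) (nat_lit 0),Row.mk (nat_lit 29064) (nat_lit 32912) (nat_lit 8388608) (nat_lit 61897) (nat_lit 361638144187) (nat_lit 0) (nat_lit 0),Row.mk (nat_lit 29232) (nat_lit 32912) (nat_lit 8388608) (nat_lit 61897) (nat_lit 361638144187) (nat_lit 0) (nat_lit 0),Row.mk (nat_lit 29400) (nat_lit 32912) (nat_lit 8388608) (nat_lit 61897) (nat_lit 361638144187) (nat_lit 0) (nat_lit 0),Row.mk (nat_lit 29568) (nat_lit 32912) (nat_lit 8388608) (nat_lit 61897) (nat_lit 361638144187) (nat_lit 0) (nat_lit 0),Row.mk (nat_lit 29736) (nat_lit 32912) (nat_lit 8388608) (nat_lit 61897) (nat_lit 361638144187) (nat_lit 0) (nat_lit 0),Row.mk (nat_lit 29904) (nat_lit 32912) (nat_lit 8388608) (nat_lit 61897) (nat_lit 361638144187) (nat_lit 0) (nat_lit 0),Row.mk (nat_lit 30072) (nat_lit 32912) (nat_lit 8388608) (nat_lit 61897) (nat_lit 361638144187) (nat_lit 0) (nat_lit 0),Row.mk (nat_lit 30240) (nat_lit 32912) (nat_lit 8388608)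 (nat_lit 61897) (nat_lit 361638144187) (nat_lit 0) (nat_lit 0),Row.mk (nat_lit 30408) (nat_lit 32912) (nat_lit 8388608) (nat_lit 61897) (nat_lit 361638144187) (nat_lit 0) (nat_lit 0),Row.mk (nat_lit 30576) (nat_lit 32912) (nat_lit 8388608) (nat_lit 61897) (nat_lit 361638144187) (nat_lit 0) (nat_lit 0),Row.mk (nat_lit 30744) (nat_lit 32912) (nat_lit 8388608) (nat_lit 61897) (nat_lit 361638144187) (nat_lit 0) (nat_lit 0),Row.mk (nat_lit 30912) (nat_lit 32912) (nat_lit 8388608) (nat_lit 61897) (nat_lit 361638144187) (nat_lit 0) (nat_lit 0)],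
[Row.mk (nat_lit 23856) (nat_lit 32912) (nat_lit 8388608) (nat_lit 61897) (nat_lit 451679406563) (nat_lit 0) (nat_lit 0),Row.mk (nat_lit 24024) (nat_lit 32912) (nat_lit 8388608) (nat_lit 61897) (nat_lit 451679406563) (nat_lit 0) (nat_lit 0),Row.mk (nat_lit 24192) (nat_lit 32912) (nat_lit 8388608) (nat_lit 61897) (nat_lit 451679406563) (nat_lit 0) (nat_lit 0),Row.mk (nat_lit 24360) (nat_lit 32912) (nat_lit 8388608) (nat_lit 61897) (nat_lit 451679406563) (nat_lit 0) (nat_lit 0),Row.mk (nat_lit 24528) (nat_lit 32912) (nat_lit 8388608) (nat_lit 61897) (nat_lit 451679406563) (nat_lit 0) (nat_lit 0),Row.mk (nat_lit 24696) (nat_lit 32912) (nat_lit 8388608) (nat_lit 61897) (nat_lit 451679406563) (nat_lit 0) (nat_lit 0),Row.mk (nat_lit 24864) (nat_lit 32912) (nat_lit 8388608) (nat_lit 61897) (nat_lit 451679406563) (nat_lit 0) (nat_lit 0),Row.mk (nat_lit 25032) (nat_lit 32912) (nat_lit 8388608) (nat_lit 61897) (nat_lit 451679406563) (nat_lit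 0) (nat_lit 0),Row.mk (nat_lit 25200) (nat_lit 32912) (nat_lit 8388608) (nat_lit 61897) (nat_lit 451679406563) (nat_lit 0) (nat_lit 0),Row.mk (nat_lit 25368) (nat_lit 32912) (nat_lit 8388608) (nat_lit 61897) (nat_lit 451679406563) (nat_lit 0) (nat_lit 0),Row.mk (nat_lit 25536) (nat_lit 32912) (nat_lit 8388608) (nat_lit 61897) (nat_lit 451679406563) (nat_lit 0) (nat_lit 0),Row.mk (nat_lit 25704) (nat_lit 32912) (nat_lit 8388608) (nat_lit 61897) (nat_lit 451679406563) (nat_lit 0) (nat_lit 0),Row.mk (nat_lit 25872) (nat_lit 32912) (nat_lit 8388608) (nat_lit 61897) (nat_lit 451679406563) (nat_lit 0) (nat_lit 0),Row.mk (nat_lit 26040) (nat_lit 32912) (nat_lit 8388608) (nat_lit 61897) (nat_lit 451679406563) (nat_lit 0) (nat_lit 0),Row.mk (nat_lit 26208) (nat_lit 32912) (nat_lit 8388608) (nat_lit 61897) (nat_lit 451679406563) (nat_lit 0) (nat_lit 0),Row.mk (nat_lit 26376) (nat_lit 32912) (nat_lit 8388608) (nat_lit 61897) (nat_lit 451679406563)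 (nat_lit 0) (nat_lit 0),Row.mk (nat_lit 26544) (nat_lit 32912) (nat_lit 8388608) (nat_lit 61897) (nat_lit 451679406563) (nat_lit 0) (nat_lit 0),Row.mk (nat_lit 26712) (nat_lit 32912) (nat_lit 8388608) (nat_lit 61897) (nat_lit 451679406563) (nat_lit 0) (nat_lit 0),Row.mk (nat_lit 26880) (nat_lit 32912) (nat_lit 8388608) (nat_lit 61897) (nat_lit 451679406563) (nat_lit 0) (nat_lit 0),Row.mk (nat_lit 27048) (nat_lit 32912) (nat_lit 8388608) (nat_lit 61897) (nat_lit 451679406563) (nat_lit 0) (nat_lit 0),Row.mk (nat_lit 27216) (nat_lit 32912) (nat_lit 8388608) (nat_lit 61897) (nat_lit 451679406563) (nat_lit 0) (nat_lit 0),Row.mk (nat_lit 27384) (nat_lit 32912) (nat_lit 8388608) (nat_lit 61897) (nat_lit 451679406563) (nat_lit 0) (nat_lit 0),Row.mk (nat_lit 27552) (nat_lit 32912) (nat_lit 8388608) (nat_lit 61897) (nat_lit 451679406563) (nat_lit 0) (nat_lit 0),Row.mk (nat_lit 27720) (nat_lit 32912) (nat_lit 8388608) (nat_lit 61897) (nat_lit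 451679406563) (nat_lit 0) (nat_lit 0),Row.mk (nat_lit 27888) (nat_lit 32912) (nat_lit 8388608) (nat_lit 61897) (nat_lit 451679406563) (nat_lit 0) (nat_lit 0),Row.mk (nat_lit 28056) (nat_lit 32912) (nat_lit 8388608) (nat_lit 61897) (nat_lit 451679406563) (nat_lit 0) (nat_lit 0),Row.mk (nat_lit 28224) (nat_lit 32912) (nat_lit 8388608) (nat_lit 61897) (nat_lit 451679406563) (nat_lit 0) (nat_lit 0),Row.mk (nat_lit 28392) (nat_lit 32912) (nat_lit 8388608) (nat_lit 61897) (nat_lit 451679406563) (nat_lit 0) (nat_lit 0),Row.mk (nat_lit 28560) (nat_lit 32912) (nat_lit 8388608) (nat_lit 61897) (nat_lit 451679406563) (nat_lit 0) (nat_lit 0),Row.mk (nat_lit 28728) (nat_lit 32912) (nat_lit 8388608) (nat_lit 61897) (nat_lit 451679406563) (nat_lit 0) (nat_lit 0),Row.mk (nat_lit 28896) (nat_lit 32912) (nat_lit 8388608) (nat_lit 61897) (nat_lit 451679406563) (nat_lit 0) (nat_lit 0),Row.mk (nat_lit 29064) (nat_lit 32912) (nat_lit 8388608) (nat_lit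 61897) (nat_lit 451679406563) (nat_lit 0) (nat_lit 0),Row.mk (nat_lit 29232) (nat_lit 32912) (nat_lit 8388608) (nat_lit 61897) (nat_lit 451679406563) (nat_lit 0) (nat_lit 0),Row.mk (nat_lit 29400) (nat_lit 32912) (nat_lit 8388608) (nat_lit 61897) (nat_lit 451679406563) (nat_lit 0) (nat_lit 0),Row.mk (nat_lit 29568) (nat_lit 32912) (nat_lit 8388608) (nat_lit 61897) (nat_lit 451679406563) (nat_lit 0) (nat_lit 0),Row.mk (nat_lit 29736) (nat_lit 32912) (nat_lit 8388608) (nat_lit 61897) (nat_lit 451679406563) (nat_lit 0) (nat_lit 0),Row.mk (nat_lit 29904) (nat_lit 32912) (nat_lit 8388608) (nat_lit 61897) (nat_lit 451679406563) (nat_lit 0) (nat_lit 0),Row.mk (nat_lit 30072) (nat_lit 32912) (nat_lit 8388608) (nat_lit 61897) (nat_lit 451679406563) (nat_lit 0) (nat_lit 0),Row.mk (nat_lit 30240) (nat_lit 32912) (nat_lit 8388608) (nat_lit 61897) (nat_lit 451679406563) (nat_lit 0) (nat_lit 0),Row.mk (nat_lit 30408) (nat_lit 32912) (nat_lit 8388608)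 (nat_lit 61897) (nat_lit 451679406563) (nat_lit 0) (nat_lit 0),Row.mk (nat_lit 30576) (nat_lit 32912) (nat_lit 8388608) (nat_lit 61897) (nat_lit 451679406563) (nat_lit 0) (nat_lit 0),Row.mk (nat_lit 30744) (nat_lit 32912) (nat_lit 8388608) (nat_lit 61897) (nat_lit 451679406563) (nat_lit 0) (nat_lit 0),Row.mk (nat_lit 30912) (nat_lit 32912) (nat_lit 8388608) (nat_lit 61897) (nat_lit 451679406563) (nat_lit 0) (nat_lit 0)],
[Row.mk (nat_lit 24024) (nat_lit 32912) (nat_lit 8388608) (nat_lit 61897) (nat_lit 564138771133) (nat_lit 0) (nat_lit 0),Row.mk (nat_lit 24192) (nat_lit 32912) (nat_lit 8388608) (nat_lit 61897) (nat_lit 564138771133) (nat_lit 0) (nat_lit 0),Row.mk (nat_lit 24360) (nat_lit 32912) (nat_lit 8388608) (nat_lit 61897) (nat_lit 564138771133) (nat_lit 0) (nat_lit 0),Row.mk (nat_lit 24528) (nat_lit 32912) (nat_lit 8388608) (nat_lit 61897) (nat_lit 564138771133) (nat_lit 0) (nat_lit 0),Row.mk (nat_lit 24696) (nat_lit 32912)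 (nat_lit 8388608) (nat_lit 61897) (nat_lit 564138771133) (nat_lit 0) (nat_lit 0),Row.mk (nat_lit 24864) (nat_lit 32912) (nat_lit 8388608) (nat_lit 61897) (nat_lit 564138771133) (nat_lit 0) (nat_lit 0),Row.mk (nat_lit 25032) (nat_lit 32912) (nat_lit 8388608) (nat_lit 61897) (nat_lit 564138771133) (nat_lit 0) (nat_lit 0),Row.mk (nat_lit 25200) (nat_lit 32912) (nat_lit 8388608) (nat_lit 61897) (nat_lit 564138771133) (nat_lit 0) (nat_lit 0),Row.mk (nat_lit 25368) (nat_lit 32912) (nat_lit 8388608) (nat_lit 61897) (nat_lit 564138771133) (nat_lit 0) (nat_lit 0),Row.mk (nat_lit 25536) (nat_lit 32912) (nat_lit 8388608) (nat_lit 61897) (nat_lit 564138771133) (nat_lit 0) (nat_lit 0),Row.mk (nat_lit 25704) (nat_lit 32912) (nat_lit 8388608) (nat_lit 61897) (nat_lit 564138771133) (nat_lit 0) (nat_lit 0),Row.mk (nat_lit 25872) (nat_lit 32912) (nat_lit 8388608) (nat_lit 61897) (nat_lit 564138771133) (nat_lit 0) (nat_lit 0),Row.mk (nat_lit 26040)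 (nat_lit 32912) (nat_lit 8388608) (nat_lit 61897) (nat_lit 564138771133) (nat_lit 0) (nat_lit 0),Row.mk (nat_lit 26208) (nat_lit 32912) (nat_lit 8388608) (nat_lit 61897) (nat_lit 564138771133) (nat_lit 0) (nat_lit 0),Row.mk (nat_lit 26376) (nat_lit 32912) (nat_lit 8388608) (nat_lit 61897) (nat_lit 564138771133) (nat_lit 0) (nat_lit 0),Row.mk (nat_lit 26544) (nat_lit 32912) (nat_lit 8388608) (nat_lit 61897) (nat_lit 564138771133) (nat_lit 0) (nat_lit 0),Row.mk (nat_lit 26712) (nat_lit 32912) (nat_lit 8388608) (nat_lit 61897) (nat_lit 564138771133) (nat_lit 0) (nat_lit 0),Row.mk (nat_lit 26880) (nat_lit 32912) (nat_lit 8388608) (nat_lit 61897) (nat_lit 564138771133) (nat_lit 0) (nat_lit 0),Row.mk (nat_lit 27048) (nat_lit 32912) (nat_lit 8388608) (nat_lit 61897) (nat_lit 564138771133) (nat_lit 0) (nat_lit 0),Row.mk (nat_lit 27216) (nat_lit 32912) (nat_lit 8388608) (nat_lit 61897) (nat_lit 564138771133) (nat_lit 0) (nat_lit 0),Row.mk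 (nat_lit 27384) (nat_lit 32912) (nat_lit 8388608) (nat_lit 61897) (nat_lit 564138771133) (nat_lit 0) (nat_lit 0),Row.mk (nat_lit 27552) (nat_lit 32912) (nat_lit 8388608) (nat_lit 61897) (nat_lit 564138771133) (nat_lit 0) (nat_lit 0),Row.mk (nat_lit 27720) (nat_lit 32912) (nat_lit 8388608) (nat_lit 61897) (nat_lit 564138771133) (nat_lit 0) (nat_lit 0),Row.mk (nat_lit 27888) (nat_lit 32912) (nat_lit 8388608) (nat_lit 61897) (nat_lit 564138771133) (nat_lit 0) (nat_lit 0),Row.mk (nat_lit 28056) (nat_lit 32912) (nat_lit 8388608) (nat_lit 61897) (nat_lit 564138771133) (nat_lit 0) (nat_lit 0),Row.mk (nat_lit 28224) (nat_lit 32912) (nat_lit 8388608) (nat_lit 61897) (nat_lit 564138771133) (nat_lit 0) (nat_lit 0),Row.mk (nat_lit 28392) (nat_lit 32912) (nat_lit 8388608) (nat_lit 61897) (nat_lit 564138771133) (nat_lit 0) (nat_lit 0),Row.mk (nat_lit 28560) (nat_lit 32912) (nat_lit 8388608) (nat_lit 61897) (nat_lit 564138771133) (nat_lit 0) (nat_lit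 0),Row.mk (nat_lit 28728) (nat_lit 32912) (nat_lit 8388608) (nat_lit 61897) (nat_lit 564138771133) (nat_lit 0) (nat_lit 0),Row.mk (nat_lit 28896) (nat_lit 32912) (nat_lit 8388608) (nat_lit 61897) (nat_lit 564138771133) (nat_lit 0) (nat_lit 0),Row.mk (nat_lit 29064) (nat_lit 32912) (nat_lit 8388608) (nat_lit 61897) (nat_lit 564138771133) (nat_lit 0) (nat_lit 0),Row.mk (nat_lit 29232) (nat_lit 32912) (nat_lit 8388608) (nat_lit 61897) (nat_lit 564138771133) (nat_lit 0) (nat_lit 0),Row.mk (nat_lit 29400) (nat_lit 32912) (nat_lit 8388608) (nat_lit 61897) (nat_lit 564138771133) (nat_lit 0) (nat_lit 0),Row.mk (nat_lit 29568) (nat_lit 32912) (nat_lit 8388608) (nat_lit 61897) (nat_lit 564138771133) (nat_lit 0) (nat_lit 0),Row.mk (nat_lit 29736) (nat_lit 32912) (nat_lit 8388608) (nat_lit 61897) (nat_lit 564138771133) (nat_lit 0) (nat_lit 0),Row.mk (nat_lit 29904) (nat_lit 32912) (nat_lit 8388608) (nat_lit 61897) (nat_lit 564138771133) (nat_lit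 0) (nat_lit 0),Row.mk (nat_lit 30072) (nat_lit 32912) (nat_lit 8388608) (nat_lit 61897) (nat_lit 564138771133) (nat_lit 0) (nat_lit 0),Row.mk (nat_lit 30240) (nat_lit 32912) (nat_lit 8388608) (nat_lit 61897) (nat_lit 564138771133) (nat_lit 0) (nat_lit 0),Row.mk (nat_lit 30408) (nat_lit 32912) (nat_lit 8388608) (nat_lit 61897) (nat_lit 564138771133) (nat_lit 0) (nat_lit 0),Row.mk (nat_lit 30576) (nat_lit 32912) (nat_lit 8388608) (nat_lit 61897) (nat_lit 564138771133) (nat_lit 0) (nat_lit 0),Row.mk (nat_lit 30744) (nat_lit 32912) (nat_lit 8388608) (nat_lit 61897) (nat_lit 564138771133) (nat_lit 0) (nat_lit 0),Row.mk (nat_lit 30912) (nat_lit 32912) (nat_lit 8388608) (nat_lit 61897) (nat_lit 564138771133) (nat_lit 0) (nat_lit 0)],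
[Row.mk (nat_lit 24192) (nat_lit 32912) (nat_lit 8388608) (nat_lit 61897) (nat_lit 704597804532) (nat_lit 0) (nat_lit 0),Row.mk (nat_lit 24360) (nat_lit 32912) (nat_lit 8388608) (nat_lit 61897) (nat_lit 704597804532) (nat_lit 0) (nat_lit 0),Row.mk (nat_lit 24528) (nat_lit 32912) (nat_lit 8388608) (nat_lit 61897) (nat_lit 704597804532) (nat_lit 0) (nat_lit 0),Row.mk (nat_lit 24696) (nat_lit 32912) (nat_lit 8388608) (nat_lit 61897) (nat_lit 704597804532) (nat_lit 0) (nat_lit 0),Row.mk (nat_lit 24864) (nat_lit 32912) (nat_lit 8388608) (nat_lit 61897) (nat_lit 704597804532) (nat_lit 0) (nat_lit 0),Row.mk (nat_lit 25032) (nat_lit 32912) (nat_lit 8388608) (nat_lit 61897) (nat_lit 704597804532) (nat_lit 0) (nat_lit 0),Row.mk (nat_lit 25200) (nat_lit 32912) (nat_lit 8388608) (nat_lit 61897) (nat_lit 704597804532) (nat_lit 0) (nat_lit 0),Row.mk (nat_lit 25368) (nat_lit 32912) (nat_lit 8388608) (nat_lit 61897) (nat_lit 704597804532) (nat_lit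 0) (nat_lit 0),Row.mk (nat_lit 25536) (nat_lit 32912) (nat_lit 8388608) (nat_lit 61897) (nat_lit 704597804532) (nat_lit 0) (nat_lit 0),Row.mk (nat_lit 25704) (nat_lit 32912) (nat_lit 8388608) (nat_lit 61897) (nat_lit 704597804532) (nat_lit 0) (nat_lit 0),Row.mk (nat_lit 25872) (nat_lit 32912) (nat_lit 8388608) (nat_lit 61897) (nat_lit 704597804532) (nat_lit 0) (nat_lit 0),Row.mk (nat_lit 26040) (nat_lit 32912) (nat_lit 8388608) (nat_lit 61897) (nat_lit 704597804532) (nat_lit 0) (nat_lit 0),Row.mk (nat_lit 26208) (nat_lit 32912) (nat_lit 8388608) (nat_lit 61897) (nat_lit 704597804532) (nat_lit 0) (nat_lit 0),Row.mk (nat_lit 26376) (nat_lit 32912) (nat_lit 8388608) (nat_lit 61897) (nat_lit 704597804532) (nat_lit 0) (nat_lit 0),Row.mk (nat_lit 26544) (nat_lit 32912) (nat_lit 8388608) (nat_lit 61897) (nat_lit 704597804532) (nat_lit 0) (nat_lit 0),Row.mk (nat_lit 26712) (nat_lit 32912) (nat_lit 8388608) (nat_lit 61897) (nat_lit 704597804532)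 (nat_lit 0) (nat_lit 0),Row.mk (nat_lit 26880) (nat_lit 32912) (nat_lit 8388608) (nat_lit 61897) (nat_lit 704597804532) (nat_lit 0) (nat_lit 0),Row.mk (nat_lit 27048) (nat_lit 32912) (nat_lit 8388608) (nat_lit 61897) (nat_lit 704597804532) (nat_lit 0) (nat_lit 0),Row.mk (nat_lit 27216) (nat_lit 32912) (nat_lit 8388608) (nat_lit 61897) (nat_lit 704597804532) (nat_lit 0) (nat_lit 0),Row.mk (nat_lit 27384) (nat_lit 32912) (nat_lit 8388608) (nat_lit 61897) (nat_lit 704597804532) (nat_lit 0) (nat_lit 0),Row.mk (nat_lit 27552) (nat_lit 32912) (nat_lit 8388608) (nat_lit 61897) (nat_lit 704597804532) (nat_lit 0) (nat_lit 0),Row.mk (nat_lit 27720) (nat_lit 32912) (nat_lit 8388608) (nat_lit 61897) (nat_lit 704597804532) (nat_lit 0) (nat_lit 0),Row.mk (nat_lit 27888) (nat_lit 32912) (nat_lit 8388608) (nat_lit 61897) (nat_lit 704597804532) (nat_lit 0) (nat_lit 0),Row.mk (nat_lit 28056) (nat_lit 32912) (nat_lit 8388608) (nat_lit 61897) (nat_lit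 704597804532) (nat_lit 0) (nat_lit 0),Row.mk (nat_lit 28224) (nat_lit 32912) (nat_lit 8388608) (nat_lit 61897) (nat_lit 704597804532) (nat_lit 0) (nat_lit 0),Row.mk (nat_lit 28392) (nat_lit 32912) (nat_lit 8388608) (nat_lit 61897) (nat_lit 704597804532) (nat_lit 0) (nat_lit 0),Row.mk (nat_lit 28560) (nat_lit 32912) (nat_lit 8388608) (nat_lit 61897) (nat_lit 704597804532) (nat_lit 0) (nat_lit 0),Row.mk (nat_lit 28728) (nat_lit 32912) (nat_lit 8388608) (nat_lit 61897) (nat_lit 704597804532) (nat_lit 0) (nat_lit 0),Row.mk (nat_lit 28896) (nat_lit 32912) (nat_lit 8388608) (nat_lit 61897) (nat_lit 704597804532) (nat_lit 0) (nat_lit 0),Row.mk (nat_lit 29064) (nat_lit 32912) (nat_lit 8388608) (nat_lit 61897) (nat_lit 704597804532) (nat_lit 0) (nat_lit 0),Row.mk (nat_lit 29232) (nat_lit 32912) (nat_lit 8388608) (nat_lit 61897) (nat_lit 704597804532) (nat_lit 0) (nat_lit 0),Row.mk (nat_lit 29400) (nat_lit 32912) (nat_lit 8388608) (nat_lit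 61897) (nat_lit 704597804532) (nat_lit 0) (nat_lit 0),Row.mk (nat_lit 29568) (nat_lit 32912) (nat_lit 8388608) (nat_lit 61897) (nat_lit 704597804532) (nat_lit 0) (nat_lit 0),Row.mk (nat_lit 29736) (nat_lit 32912) (nat_lit 8388608) (nat_lit 61897) (nat_lit 704597804532) (nat_lit 0) (nat_lit 0),Row.mk (nat_lit 29904) (nat_lit 32912) (nat_lit 8388608) (nat_lit 61897) (nat_lit 704597804532) (nat_lit 0) (nat_lit 0),Row.mk (nat_lit 30072) (nat_lit 32912) (nat_lit 8388608) (nat_lit 61897) (nat_lit 704597804532) (nat_lit 0) (nat_lit 0),Row.mk (nat_lit 30240) (nat_lit 32912) (nat_lit 8388608) (nat_lit 61897) (nat_lit 704597804532) (nat_lit 0) (nat_lit 0),Row.mk (nat_lit 30408) (nat_lit 32912) (nat_lit 8388608) (nat_lit 61897) (nat_lit 704597804532) (nat_lit 0) (nat_lit 0),Row.mk (nat_lit 30576) (nat_lit 32912) (nat_lit 8388608) (nat_lit 61897) (nat_lit 704597804532) (nat_lit 0) (nat_lit 0),Row.mk (nat_lit 30744) (nat_lit 32912) (nat_lit 8388608)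 (nat_lit 61897) (nat_lit 704597804532) (nat_lit 0) (nat_lit 0),Row.mk (nat_lit 30912) (nat_lit 32912) (nat_lit 8388608) (nat_lit 61897) (nat_lit 704597804532) (nat_lit 0) (nat_lit 0)],
[Row.mk (nat_lit 24360) (nat_lit 32912) (nat_lit 8388608) (nat_lit 61897) (nat_lit 880027748841) (nat_lit 0) (nat_lit 0),Row.mk (nat_lit 24528) (nat_lit 32912) (nat_lit 8388608) (nat_lit 61897) (nat_lit 880027748841) (nat_lit 0) (nat_lit 0),Row.mk (nat_lit 24696) (nat_lit 32912) (nat_lit 8388608) (nat_lit 61897) (nat_lit 880027748841) (nat_lit 0) (nat_lit 0),Row.mk (nat_lit 24864) (nat_lit 32912) (nat_lit 8388608) (nat_lit 61897) (nat_lit 880027748841) (nat_lit 0) (nat_lit 0),Row.mk (nat_lit 25032) (nat_lit 32912) (nat_lit 8388608) (nat_lit 61897) (nat_lit 880027748841) (nat_lit 0) (nat_lit 0),Row.mk (nat_lit 25200) (nat_lit 32912) (nat_lit 8388608) (nat_lit 61897) (nat_lit 880027748841) (nat_lit 0) (nat_lit 0),Row.mk (nat_lit 25368) (nat_lit 32912)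 (nat_lit 8388608) (nat_lit 61897) (nat_lit 880027748841) (nat_lit 0) (nat_lit 0),Row.mk (nat_lit 25536) (nat_lit 32912) (nat_lit 8388608) (nat_lit 61897) (nat_lit 880027748841) (nat_lit 0) (nat_lit 0),Row.mk (nat_lit 25704) (nat_lit 32912) (nat_lit 8388608) (nat_lit 61897) (nat_lit 880027748841) (nat_lit 0) (nat_lit 0),Row.mk (nat_lit 25872) (nat_lit 32912) (nat_lit 8388608) (nat_lit 61897) (nat_lit 880027748841) (nat_lit 0) (nat_lit 0),Row.mk (nat_lit 26040) (nat_lit 32912) (nat_lit 8388608) (nat_lit 61897) (nat_lit 880027748841) (nat_lit 0) (nat_lit 0),Row.mk (nat_lit 26208) (nat_lit 32912) (nat_lit 8388608) (nat_lit 61897) (nat_lit 880027748841) (nat_lit 0) (nat_lit 0),Row.mk (nat_lit 26376) (nat_lit 32912) (nat_lit 8388608) (nat_lit 61897) (nat_lit 880027748841) (nat_lit 0) (nat_lit 0),Row.mk (nat_lit 26544) (nat_lit 32912) (nat_lit 8388608) (nat_lit 61897) (nat_lit 880027748841) (nat_lit 0) (nat_lit 0),Row.mk (nat_lit 26712)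 (nat_lit 32912) (nat_lit 8388608) (nat_lit 61897) (nat_lit 880027748841) (nat_lit 0) (nat_lit 0),Row.mk (nat_lit 26880) (nat_lit 32912) (nat_lit 8388608) (nat_lit 61897) (nat_lit 880027748841) (nat_lit 0) (nat_lit 0),Row.mk (nat_lit 27048) (nat_lit 32912) (nat_lit 8388608) (nat_lit 61897) (nat_lit 880027748841) (nat_lit 0) (nat_lit 0),Row.mk (nat_lit 27216) (nat_lit 32912) (nat_lit 8388608) (nat_lit 61897) (nat_lit 880027748841) (nat_lit 0) (nat_lit 0),Row.mk (nat_lit 27384) (nat_lit 32912) (nat_lit 8388608) (nat_lit 61897) (nat_lit 880027748841) (nat_lit 0) (nat_lit 0),Row.mk (nat_lit 27552) (nat_lit 32912) (nat_lit 8388608) (nat_lit 61897) (nat_lit 880027748841) (nat_lit 0) (nat_lit 0),Row.mk (nat_lit 27720) (nat_lit 32912) (nat_lit 8388608) (nat_lit 61897) (nat_lit 880027748841) (nat_lit 0) (nat_lit 0),Row.mk (nat_lit 27888) (nat_lit 32912) (nat_lit 8388608) (nat_lit 61897) (nat_lit 880027748841) (nat_lit 0) (nat_lit 0),Row.mk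 (nat_lit 28056) (nat_lit 32912) (nat_lit 8388608) (nat_lit 61897) (nat_lit 880027748841) (nat_lit 0) (nat_lit 0),Row.mk (nat_lit 28224) (nat_lit 32912) (nat_lit 8388608) (nat_lit 61897) (nat_lit 880027748841) (nat_lit 0) (nat_lit 0),Row.mk (nat_lit 28392) (nat_lit 32912) (nat_lit 8388608) (nat_lit 61897) (nat_lit 880027748841) (nat_lit 0) (nat_lit 0),Row.mk (nat_lit 28560) (nat_lit 32912) (nat_lit 8388608) (nat_lit 61897) (nat_lit 880027748841) (nat_lit 0) (nat_lit 0),Row.mk (nat_lit 28728) (nat_lit 32912) (nat_lit 8388608) (nat_lit 61897) (nat_lit 880027748841) (nat_lit 0) (nat_lit 0),Row.mk (nat_lit 28896) (nat_lit 32912) (nat_lit 8388608) (nat_lit 61897) (nat_lit 880027748841) (nat_lit 0) (nat_lit 0),Row.mk (nat_lit 29064) (nat_lit 32912) (nat_lit 8388608) (nat_lit 61897) (nat_lit 880027748841) (nat_lit 0) (nat_lit 0),Row.mk (nat_lit 29232) (nat_lit 32912) (nat_lit 8388608) (nat_lit 61897) (nat_lit 880027748841) (nat_lit 0) (nat_lit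 0),Row.mk (nat_lit 29400) (nat_lit 32912) (nat_lit 8388608) (nat_lit 61897) (nat_lit 880027748841) (nat_lit 0) (nat_lit 0),Row.mk (nat_lit 29568) (nat_lit 32912) (nat_lit 8388608) (nat_lit 61897) (nat_lit 880027748841) (nat_lit 0) (nat_lit 0),Row.mk (nat_lit 29736) (nat_lit 32912) (nat_lit 8388608) (nat_lit 61897) (nat_lit 880027748841) (nat_lit 0) (nat_lit 0),Row.mk (nat_lit 29904) (nat_lit 32912) (nat_lit 8388608) (nat_lit 61897) (nat_lit 880027748841) (nat_lit 0) (nat_lit 0),Row.mk (nat_lit 30072) (nat_lit 32912) (nat_lit 8388608) (nat_lit 61897) (nat_lit 880027748841) (nat_lit 0) (nat_lit 0),Row.mk (nat_lit 30240) (nat_lit 32912) (nat_lit 8388608) (nat_lit 61897) (nat_lit 880027748841) (nat_lit 0) (nat_lit 0),Row.mk (nat_lit 30408) (nat_lit 32912) (nat_lit 8388608) (nat_lit 61897) (nat_lit 880027748841) (nat_lit 0) (nat_lit 0),Row.mk (nat_lit 30576) (nat_lit 32912) (nat_lit 8388608) (nat_lit 61897) (nat_lit 880027748841) (nat_lit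 0) (nat_lit 0),Row.mk (nat_lit 30744) (nat_lit 32912) (nat_lit 8388608) (nat_lit 61897) (nat_lit 880027748841) (nat_lit 0) (nat_lit 0),Row.mk (nat_lit 30912) (nat_lit 32912) (nat_lit 8388608) (nat_lit 61897) (nat_lit 880027748841) (nat_lit 0) (nat_lit 0),Row.mk (nat_lit 31080) (nat_lit 32912) (nat_lit 8388608) (nat_lit 61897) (nat_lit 880027748841) (nat_lit 0) (nat_lit 0)],
[Row.mk (nat_lit 24528) (nat_lit 32912) (nat_lit 8388608) (nat_lit 61897) (nat_lit 1099135517246) (nat_lit 0) (nat_lit 0),Row.mk (nat_lit 24696) (nat_lit 32912) (nat_lit 8388608) (nat_lit 61897) (nat_lit 1099135517246) (nat_lit 0) (nat_lit 0),Row.mk (nat_lit 24864) (nat_lit 32912) (nat_lit 8388608) (nat_lit 61897) (nat_lit 1099135517246) (nat_lit 0) (nat_lit 0),Row.mk (nat_lit 25032) (nat_lit 32912) (nat_lit 8388608) (nat_lit 61897) (nat_lit 1099135517246) (nat_lit 0) (nat_lit 0),Row.mk (nat_lit 25200) (nat_lit 32912) (nat_lit 8388608) (nat_lit 61897) (nat_lit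 1099135517246) (nat_lit 0) (nat_lit 0),Row.mk (nat_lit 25368) (nat_lit 32912) (nat_lit 8388608) (nat_lit 61897) (nat_lit 1099135517246) (nat_lit 0) (nat_lit 0),Row.mk (nat_lit 25536) (nat_lit 32912) (nat_lit 8388608) (nat_lit 61897) (nat_lit 1099135517246) (nat_lit 0) (nat_lit 0),Row.mk (nat_lit 25704) (nat_lit 32912) (nat_lit 8388608) (nat_lit 61897) (nat_lit 1099135517246) (nat_lit 0) (nat_lit 0),Row.mk (nat_lit 25872) (nat_lit 32912) (nat_lit 8388608) (nat_lit 61897) (nat_lit 1099135517246) (nat_lit 0) (nat_lit 0),Row.mk (nat_lit 26040) (nat_lit 32912) (nat_lit 8388608) (nat_lit 61897) (nat_lit 1099135517246) (nat_lit 0) (nat_lit 0),Row.mk (nat_lit 26208) (nat_lit 32912) (nat_lit 8388608) (nat_lit 61897) (nat_lit 1099135517246) (nat_lit 0) (nat_lit 0),Row.mk (nat_lit 26376) (nat_lit 32912) (nat_lit 8388608) (nat_lit 61897) (nat_lit 1099135517246) (nat_lit 0) (nat_lit 0),Row.mk (nat_lit 26544) (nat_lit 32912) (nat_lit 8388608) (nat_lit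 61897) (nat_lit 1099135517246) (nat_lit 0) (nat_lit 0),Row.mk (nat_lit 26712) (nat_lit 32912) (nat_lit 8388608) (nat_lit 61897) (nat_lit 1099135517246) (nat_lit 0) (nat_lit 0),Row.mk (nat_lit 26880) (nat_lit 32912) (nat_lit 8388608) (nat_lit 61897) (nat_lit 1099135517246) (nat_lit 0) (nat_lit 0),Row.mk (nat_lit 27048) (nat_lit 32912) (nat_lit 8388608) (nat_lit 61897) (nat_lit 1099135517246) (nat_lit 0) (nat_lit 0),Row.mk (nat_lit 27216) (nat_lit 32912) (nat_lit 8388608) (nat_lit 61897) (nat_lit 1099135517246) (nat_lit 0) (nat_lit 0),Row.mk (nat_lit 27384) (nat_lit 32912) (nat_lit 8388608) (nat_lit 61897) (nat_lit 1099135517246) (nat_lit 0) (nat_lit 0),Row.mk (nat_lit 27552) (nat_lit 32912) (nat_lit 8388608) (nat_lit 61897) (nat_lit 1099135517246) (nat_lit 0) (nat_lit 0),Row.mk (nat_lit 27720) (nat_lit 32912) (nat_lit 8388608) (nat_lit 61897) (nat_lit 1099135517246) (nat_lit 0) (nat_lit 0),Row.mk (nat_lit 27888) (nat_lit 32912) (nat_lit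 8388608) (nat_lit 61897) (nat_lit 1099135517246) (nat_lit 0) (nat_lit 0),Row.mk (nat_lit 28056) (nat_lit 32912) (nat_lit 8388608) (nat_lit 61897) (nat_lit 1099135517246) (nat_lit 0) (nat_lit 0),Row.mk (nat_lit 28224) (nat_lit 32912) (nat_lit 8388608) (nat_lit 61897) (nat_lit 1099135517246) (nat_lit 0) (nat_lit 0),Row.mk (nat_lit 28392) (nat_lit 32912) (nat_lit 8388608) (nat_lit 61897) (nat_lit 1099135517246) (nat_lit 0) (nat_lit 0),Row.mk (nat_lit 28560) (nat_lit 32912) (nat_lit 8388608) (nat_lit 61897) (nat_lit 1099135517246) (nat_lit 0) (nat_lit 0),Row.mk (nat_lit 28728) (nat_lit 32912) (nat_lit 8388608) (nat_lit 61897) (nat_lit 1099135517246) (nat_lit 0) (nat_lit 0),Row.mk (nat_lit 28896) (nat_lit 32912) (nat_lit 8388608) (nat_lit 61897) (nat_lit 1099135517246) (nat_lit 0) (nat_lit 0),Row.mk (nat_lit 29064) (nat_lit 32912) (nat_lit 8388608) (nat_lit 61897) (nat_lit 1099135517246) (nat_lit 0) (nat_lit 0),Row.mk (nat_lit 29232) (nat_lit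 32912) (nat_lit 8388608) (nat_lit 61897) (nat_lit 1099135517246) (nat_lit 0) (nat_lit 0),Row.mk (nat_lit 29400) (nat_lit 32912) (nat_lit 8388608) (nat_lit 61897) (nat_lit 1099135517246) (nat_lit 0) (nat_lit 0),Row.mk (nat_lit 29568) (nat_lit 32912) (nat_lit 8388608) (nat_lit 61897) (nat_lit 1099135517246) (nat_lit 0) (nat_lit 0),Row.mk (nat_lit 29736) (nat_lit 32912) (nat_lit 8388608) (nat_lit 61897) (nat_lit 1099135517246) (nat_lit 0) (nat_lit 0),Row.mk (nat_lit 29904) (nat_lit 32912) (nat_lit 8388608) (nat_lit 61897) (nat_lit 1099135517246) (nat_lit 0) (nat_lit 0),Row.mk (nat_lit 30072) (nat_lit 32912) (nat_lit 8388608) (nat_lit 61897) (nat_lit 1099135517246) (nat_lit 0) (nat_lit 0),Row.mk (nat_lit 30240) (nat_lit 32912) (nat_lit 8388608) (nat_lit 61897) (nat_lit 1099135517246) (nat_lit 0) (nat_lit 0),Row.mk (nat_lit 30408) (nat_lit 32912) (nat_lit 8388608) (nat_lit 61897) (nat_lit 1099135517246) (nat_lit 0) (nat_lit 0),Row.mk (nat_lit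 30576) (nat_lit 32912) (nat_lit 8388608) (nat_lit 61897) (nat_lit 1099135517246) (nat_lit 0) (nat_lit 0),Row.mk (nat_lit 30744) (nat_lit 32912) (nat_lit 8388608) (nat_lit 61897) (nat_lit 1099135517246) (nat_lit 0) (nat_lit 0),Row.mk (nat_lit 30912) (nat_lit 32912) (nat_lit 8388608) (nat_lit 61897) (nat_lit 1099135517246) (nat_lit 0) (nat_lit 0),Row.mk (nat_lit 31080) (nat_lit 32912) (nat_lit 8388608) (nat_lit 61897) (nat_lit 1099135517246) (nat_lit 0) (nat_lit 0)],
[Row.mk (nat_lit 24864) (nat_lit 32912) (nat_lit 8388608) (nat_lit 61897) (nat_lit 1372795834270) (nat_lit 0) (nat_lit 0),Row.mk (nat_lit 25032) (nat_lit 32912) (nat_lit 8388608) (nat_lit 61897) (nat_lit 1372795834270) (nat_lit 0) (nat_lit 0),Row.mk (nat_lit 25200) (nat_lit 32912) (nat_lit 8388608) (nat_lit 61897) (nat_lit 1372795834270) (nat_lit 0) (nat_lit 0),Row.mk (nat_lit 25368) (nat_lit 32912) (nat_lit 8388608) (nat_lit 61897) (nat_lit 1372795834270) (nat_lit 0) (nat_lit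 0),Row.mk (nat_lit 25536) (nat_lit 32912) (nat_lit 8388608) (nat_lit 61897) (nat_lit 1372795834270) (nat_lit 0) (nat_lit 0),Row.mk (nat_lit 25704) (nat_lit 32912) (nat_lit 8388608) (nat_lit 61897) (nat_lit 1372795834270) (nat_lit 0) (nat_lit 0),Row.mk (nat_lit 25872) (nat_lit 32912) (nat_lit 8388608) (nat_lit 61897) (nat_lit 1372795834270) (nat_lit 0) (nat_lit 0),Row.mk (nat_lit 26040) (nat_lit 32912) (nat_lit 8388608) (nat_lit 61897) (nat_lit 1372795834270) (nat_lit 0) (nat_lit 0),Row.mk (nat_lit 26208) (nat_lit 32912) (nat_lit 8388608) (nat_lit 61897) (nat_lit 1372795834270) (nat_lit 0) (nat_lit 0),Row.mk (nat_lit 26376) (nat_lit 32912) (nat_lit 8388608) (nat_lit 61897) (nat_lit 1372795834270) (nat_lit 0) (nat_lit 0),Row.mk (nat_lit 26544) (nat_lit 32912) (nat_lit 8388608) (nat_lit 61897) (nat_lit 1372795834270) (nat_lit 0) (nat_lit 0),Row.mk (nat_lit 26712) (nat_lit 32912) (nat_lit 8388608) (nat_lit 61897) (nat_lit 1372795834270)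 (nat_lit 0) (nat_lit 0),Row.mk (nat_lit 26880) (nat_lit 32912) (nat_lit 8388608) (nat_lit 61897) (nat_lit 1372795834270) (nat_lit 0) (nat_lit 0),Row.mk (nat_lit 27048) (nat_lit 32912) (nat_lit 8388608) (nat_lit 61897) (nat_lit 1372795834270) (nat_lit 0) (nat_lit 0),Row.mk (nat_lit 27216) (nat_lit 32912) (nat_lit 8388608) (nat_lit 61897) (nat_lit 1372795834270) (nat_lit 0) (nat_lit 0),Row.mk (nat_lit 27384) (nat_lit 32912) (nat_lit 8388608) (nat_lit 61897) (nat_lit 1372795834270) (nat_lit 0) (nat_lit 0),Row.mk (nat_lit 27552) (nat_lit 32912) (nat_lit 8388608) (nat_lit 61897) (nat_lit 1372795834270) (nat_lit 0) (nat_lit 0),Row.mk (nat_lit 27720) (nat_lit 32912) (nat_lit 8388608) (nat_lit 61897) (nat_lit 1372795834270) (nat_lit 0) (nat_lit 0),Row.mk (nat_lit 27888) (nat_lit 32912) (nat_lit 8388608) (nat_lit 61897) (nat_lit 1372795834270) (nat_lit 0) (nat_lit 0),Row.mk (nat_lit 28056) (nat_lit 32912) (nat_lit 8388608) (nat_lit 61897)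 (nat_lit 1372795834270) (nat_lit 0) (nat_lit 0),Row.mk (nat_lit 28224) (nat_lit 32912) (nat_lit 8388608) (nat_lit 61897) (nat_lit 1372795834270) (nat_lit 0) (nat_lit 0),Row.mk (nat_lit 28392) (nat_lit 32912) (nat_lit 8388608) (nat_lit 61897) (nat_lit 1372795834270) (nat_lit 0) (nat_lit 0),Row.mk (nat_lit 28560) (nat_lit 32912) (nat_lit 8388608) (nat_lit 61897) (nat_lit 1372795834270) (nat_lit 0) (nat_lit 0),Row.mk (nat_lit 28728) (nat_lit 32912) (nat_lit 8388608) (nat_lit 61897) (nat_lit 1372795834270) (nat_lit 0) (nat_lit 0),Row.mk (nat_lit 28896) (nat_lit 32912) (nat_lit 8388608) (nat_lit 61897) (nat_lit 1372795834270) (nat_lit 0) (nat_lit 0),Row.mk (nat_lit 29064) (nat_lit 32912) (nat_lit 8388608) (nat_lit 61897) (nat_lit 1372795834270) (nat_lit 0) (nat_lit 0),Row.mk (nat_lit 29232) (nat_lit 32912) (nat_lit 8388608) (nat_lit 61897) (nat_lit 1372795834270) (nat_lit 0) (nat_lit 0),Row.mk (nat_lit 29400) (nat_lit 32912) (nat_lit 8388608)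 (nat_lit 61897) (nat_lit 1372795834270) (nat_lit 0) (nat_lit 0),Row.mk (nat_lit 29568) (nat_lit 32912) (nat_lit 8388608) (nat_lit 61897) (nat_lit 1372795834270) (nat_lit 0) (nat_lit 0),Row.mk (nat_lit 29736) (nat_lit 32912) (nat_lit 8388608) (nat_lit 61897) (nat_lit 1372795834270) (nat_lit 0) (nat_lit 0),Row.mk (nat_lit 29904) (nat_lit 32912) (nat_lit 8388608) (nat_lit 61897) (nat_lit 1372795834270) (nat_lit 0) (nat_lit 0),Row.mk (nat_lit 30072) (nat_lit 32912) (nat_lit 8388608) (nat_lit 61897) (nat_lit 1372795834270) (nat_lit 0) (nat_lit 0),Row.mk (nat_lit 30240) (nat_lit 32912) (nat_lit 8388608) (nat_lit 61897) (nat_lit 1372795834270) (nat_lit 0) (nat_lit 0),Row.mk (nat_lit 30408) (nat_lit 32912) (nat_lit 8388608) (nat_lit 61897) (nat_lit 1372795834270) (nat_lit 0) (nat_lit 0),Row.mk (nat_lit 30576) (nat_lit 32912) (nat_lit 8388608) (nat_lit 61897) (nat_lit 1372795834270) (nat_lit 0) (nat_lit 0),Row.mk (nat_lit 30744) (nat_lit 32912)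 (nat_lit 8388608) (nat_lit 61897) (nat_lit 1372795834270) (nat_lit 0) (nat_lit 0),Row.mk (nat_lit 30912) (nat_lit 32912) (nat_lit 8388608) (nat_lit 61897) (nat_lit 1372795834270) (nat_lit 0) (nat_lit 0),Row.mk (nat_lit 31080) (nat_lit 32912) (nat_lit 8388608) (nat_lit 61897) (nat_lit 1372795834270) (nat_lit 0) (nat_lit 0)],
[Row.mk (nat_lit 25032) (nat_lit 32912) (nat_lit 8388608) (nat_lit 61897) (nat_lit 1714590968505) (nat_lit 0) (nat_lit 0),Row.mk (nat_lit 25200) (nat_lit 32912) (nat_lit 8388608) (nat_lit 61897) (nat_lit 1714590968505) (nat_lit 0) (nat_lit 0),Row.mk (nat_lit 25368) (nat_lit 32912) (nat_lit 8388608) (nat_lit 61897) (nat_lit 1714590968505) (nat_lit 0) (nat_lit 0),Row.mk (nat_lit 25536) (nat_lit 32912) (nat_lit 8388608) (nat_lit 61897) (nat_lit 1714590968505) (nat_lit 0) (nat_lit 0),Row.mk (nat_lit 25704) (nat_lit 32912) (nat_lit 8388608) (nat_lit 61897) (nat_lit 1714590968505) (nat_lit 0) (nat_lit 0),Row.mk (nat_lit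 25872) (nat_lit 32912) (nat_lit 8388608) (nat_lit 61897) (nat_lit 1714590968505) (nat_lit 0) (nat_lit 0),Row.mk (nat_lit 26040) (nat_lit 32912) (nat_lit 8388608) (nat_lit 61897) (nat_lit 1714590968505) (nat_lit 0) (nat_lit 0),Row.mk (nat_lit 26208) (nat_lit 32912) (nat_lit 8388608) (nat_lit 61897) (nat_lit 1714590968505) (nat_lit 0) (nat_lit 0),Row.mk (nat_lit 26376) (nat_lit 32912) (nat_lit 8388608) (nat_lit 61897) (nat_lit 1714590968505) (nat_lit 0) (nat_lit 0),Row.mk (nat_lit 26544) (nat_lit 32912) (nat_lit 8388608) (nat_lit 61897) (nat_lit 1714590968505) (nat_lit 0) (nat_lit 0),Row.mk (nat_lit 26712) (nat_lit 32912) (nat_lit 8388608) (nat_lit 61897) (nat_lit 1714590968505) (nat_lit 0) (nat_lit 0),Row.mk (nat_lit 26880) (nat_lit 32912) (nat_lit 8388608) (nat_lit 61897) (nat_lit 1714590968505) (nat_lit 0) (nat_lit 0),Row.mk (nat_lit 27048) (nat_lit 32912) (nat_lit 8388608) (nat_lit 61897) (nat_lit 1714590968505) (nat_lit 0) (nat_lit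 0),Row.mk (nat_lit 27216) (nat_lit 32912) (nat_lit 8388608) (nat_lit 61897) (nat_lit 1714590968505) (nat_lit 0) (nat_lit 0),Row.mk (nat_lit 27384) (nat_lit 32912) (nat_lit 8388608) (nat_lit 61897) (nat_lit 1714590968505) (nat_lit 0) (nat_lit 0),Row.mk (nat_lit 27552) (nat_lit 32912) (nat_lit 8388608) (nat_lit 61897) (nat_lit 1714590968505) (nat_lit 0) (nat_lit 0),Row.mk (nat_lit 27720) (nat_lit 32912) (nat_lit 8388608) (nat_lit 61897) (nat_lit 1714590968505) (nat_lit 0) (nat_lit 0),Row.mk (nat_lit 27888) (nat_lit 32912) (nat_lit 8388608) (nat_lit 61897) (nat_lit 1714590968505) (nat_lit 0) (nat_lit 0),Row.mk (nat_lit 28056) (nat_lit 32912) (nat_lit 8388608) (nat_lit 61897) (nat_lit 1714590968505) (nat_lit 0) (nat_lit 0),Row.mk (nat_lit 28224) (nat_lit 32912) (nat_lit 8388608) (nat_lit 61897) (nat_lit 1714590968505) (nat_lit 0) (nat_lit 0),Row.mk (nat_lit 28392) (nat_lit 32912) (nat_lit 8388608) (nat_lit 61897) (nat_lit 1714590968505)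 (nat_lit 0) (nat_lit 0),Row.mk (nat_lit 28560) (nat_lit 32912) (nat_lit 8388608) (nat_lit 61897) (nat_lit 1714590968505) (nat_lit 0) (nat_lit 0),Row.mk (nat_lit 28728) (nat_lit 32912) (nat_lit 8388608) (nat_lit 61897) (nat_lit 1714590968505) (nat_lit 0) (nat_lit 0),Row.mk (nat_lit 28896) (nat_lit 32912) (nat_lit 8388608) (nat_lit 61897) (nat_lit 1714590968505) (nat_lit 0) (nat_lit 0),Row.mk (nat_lit 29064) (nat_lit 32912) (nat_lit 8388608) (nat_lit 61897) (nat_lit 1714590968505) (nat_lit 0) (nat_lit 0),Row.mk (nat_lit 29232) (nat_lit 32912) (nat_lit 8388608) (nat_lit 61897) (nat_lit 1714590968505) (nat_lit 0) (nat_lit 0),Row.mk (nat_lit 29400) (nat_lit 32912) (nat_lit 8388608) (nat_lit 61897) (nat_lit 1714590968505) (nat_lit 0) (nat_lit 0),Row.mk (nat_lit 29568) (nat_lit 32912) (nat_lit 8388608) (nat_lit 61897) (nat_lit 1714590968505) (nat_lit 0) (nat_lit 0),Row.mk (nat_lit 29736) (nat_lit 32912) (nat_lit 8388608) (nat_lit 61897)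 (nat_lit 1714590968505) (nat_lit 0) (nat_lit 0),Row.mk (nat_lit 29904) (nat_lit 32912) (nat_lit 8388608) (nat_lit 61897) (nat_lit 1714590968505) (nat_lit 0) (nat_lit 0),Row.mk (nat_lit 30072) (nat_lit 32912) (nat_lit 8388608) (nat_lit 61897) (nat_lit 1714590968505) (nat_lit 0) (nat_lit 0),Row.mk (nat_lit 30240) (nat_lit 32912) (nat_lit 8388608) (nat_lit 61897) (nat_lit 1714590968505) (nat_lit 0) (nat_lit 0),Row.mk (nat_lit 30408) (nat_lit 32912) (nat_lit 8388608) (nat_lit 61897) (nat_lit 1714590968505) (nat_lit 0) (nat_lit 0),Row.mk (nat_lit 30576) (nat_lit 32912) (nat_lit 8388608) (nat_lit 61897) (nat_lit 1714590968505) (nat_lit 0) (nat_lit 0),Row.mk (nat_lit 30744) (nat_lit 32912) (nat_lit 8388608) (nat_lit 61897) (nat_lit 1714590968505) (nat_lit 0) (nat_lit 0),Row.mk (nat_lit 30912) (nat_lit 32912) (nat_lit 8388608) (nat_lit 61897) (nat_lit 1714590968505) (nat_lit 0) (nat_lit 0),Row.mk (nat_lit 31080) (nat_lit 32912) (nat_lit 8388608)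 (nat_lit 61897) (nat_lit 1714590968505) (nat_lit 0) (nat_lit 0),Row.mk (nat_lit 31248) (nat_lit 32912) (nat_lit 8388608) (nat_lit 61897) (nat_lit 1714590968505) (nat_lit 0) (nat_lit 0)],
[Row.mk (nat_lit 25200) (nat_lit 32912) (nat_lit 8388608) (nat_lit 61897) (nat_lit 2141484845766) (nat_lit 0) (nat_lit 0),Row.mk (nat_lit 25368) (nat_lit 32912) (nat_lit 8388608) (nat_lit 61897) (nat_lit 2141484845766) (nat_lit 0) (nat_lit 0),Row.mk (nat_lit 25536) (nat_lit 32912) (nat_lit 8388608) (nat_lit 61897) (nat_lit 2141484845766) (nat_lit 0) (nat_lit 0),Row.mk (nat_lit 25704) (nat_lit 32912) (nat_lit 8388608) (nat_lit 61897) (nat_lit 2141484845766) (nat_lit 0) (nat_lit 0),Row.mk (nat_lit 25872) (nat_lit 32912) (nat_lit 8388608) (nat_lit 61897) (nat_lit 2141484845766) (nat_lit 0) (nat_lit 0),Row.mk (nat_lit 26040) (nat_lit 32912) (nat_lit 8388608) (nat_lit 61897) (nat_lit 2141484845766) (nat_lit 0) (nat_lit 0),Row.mk (nat_lit 26208) (nat_lit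 32912) (nat_lit 8388608) (nat_lit 61897) (nat_lit 2141484845766) (nat_lit 0) (nat_lit 0),Row.mk (nat_lit 26376) (nat_lit 32912) (nat_lit 8388608) (nat_lit 61897) (nat_lit 2141484845766) (nat_lit 0) (nat_lit 0),Row.mk (nat_lit 26544) (nat_lit 32912) (nat_lit 8388608) (nat_lit 61897) (nat_lit 2141484845766) (nat_lit 0) (nat_lit 0),Row.mk (nat_lit 26712) (nat_lit 32912) (nat_lit 8388608) (nat_lit 61897) (nat_lit 2141484845766) (nat_lit 0) (nat_lit 0),Row.mk (nat_lit 26880) (nat_lit 32912) (nat_lit 8388608) (nat_lit 61897) (nat_lit 2141484845766) (nat_lit 0) (nat_lit 0),Row.mk (nat_lit 27048) (nat_lit 32912) (nat_lit 8388608) (nat_lit 61897) (nat_lit 2141484845766) (nat_lit 0) (nat_lit 0),Row.mk (nat_lit 27216) (nat_lit 32912) (nat_lit 8388608) (nat_lit 61897) (nat_lit 2141484845766) (nat_lit 0) (nat_lit 0),Row.mk (nat_lit 27384) (nat_lit 32912) (nat_lit 8388608) (nat_lit 61897) (nat_lit 2141484845766) (nat_lit 0) (nat_lit 0),Row.mk (nat_lit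 27552) (nat_lit 32912) (nat_lit 8388608) (nat_lit 61897) (nat_lit 2141484845766) (nat_lit 0) (nat_lit 0),Row.mk (nat_lit 27720) (nat_lit 32912) (nat_lit 8388608) (nat_lit 61897) (nat_lit 2141484845766) (nat_lit 0) (nat_lit 0),Row.mk (nat_lit 27888) (nat_lit 32912) (nat_lit 8388608) (nat_lit 61897) (nat_lit 2141484845766) (nat_lit 0) (nat_lit 0),Row.mk (nat_lit 28056) (nat_lit 32912) (nat_lit 8388608) (nat_lit 61897) (nat_lit 2141484845766) (nat_lit 0) (nat_lit 0),Row.mk (nat_lit 28224) (nat_lit 32912) (nat_lit 8388608) (nat_lit 61897) (nat_lit 2141484845766) (nat_lit 0) (nat_lit 0),Row.mk (nat_lit 28392) (nat_lit 32912) (nat_lit 8388608) (nat_lit 61897) (nat_lit 2141484845766) (nat_lit 0) (nat_lit 0),Row.mk (nat_lit 28560) (nat_lit 32912) (nat_lit 8388608) (nat_lit 61897) (nat_lit 2141484845766) (nat_lit 0) (nat_lit 0),Row.mk (nat_lit 28728) (nat_lit 32912) (nat_lit 8388608) (nat_lit 61897) (nat_lit 2141484845766) (nat_lit 0) (nat_lit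 0),Row.mk (nat_lit 28896) (nat_lit 32912) (nat_lit 8388608) (nat_lit 61897) (nat_lit 2141484845766) (nat_lit 0) (nat_lit 0),Row.mk (nat_lit 29064) (nat_lit 32912) (nat_lit 8388608) (nat_lit 61897) (nat_lit 2141484845766) (nat_lit 0) (nat_lit 0),Row.mk (nat_lit 29232) (nat_lit 32912) (nat_lit 8388608) (nat_lit 61897) (nat_lit 2141484845766) (nat_lit 0) (nat_lit 0),Row.mk (nat_lit 29400) (nat_lit 32912) (nat_lit 8388608) (nat_lit 61897) (nat_lit 2141484845766) (nat_lit 0) (nat_lit 0),Row.mk (nat_lit 29568) (nat_lit 32912) (nat_lit 8388608) (nat_lit 61897) (nat_lit 2141484845766) (nat_lit 0) (nat_lit 0),Row.mk (nat_lit 29736) (nat_lit 32912) (nat_lit 8388608) (nat_lit 61897) (nat_lit 2141484845766) (nat_lit 0) (nat_lit 0),Row.mk (nat_lit 29904) (nat_lit 32912) (nat_lit 8388608) (nat_lit 61897) (nat_lit 2141484845766) (nat_lit 0) (nat_lit 0),Row.mk (nat_lit 30072) (nat_lit 32912) (nat_lit 8388608) (nat_lit 61897) (nat_lit 2141484845766)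 (nat_lit 0) (nat_lit 0),Row.mk (nat_lit 30240) (nat_lit 32912) (nat_lit 8388608) (nat_lit 61897) (nat_lit 2141484845766) (nat_lit 0) (nat_lit 0),Row.mk (nat_lit 30408) (nat_lit 32912) (nat_lit 8388608) (nat_lit 61897) (nat_lit 2141484845766) (nat_lit 0) (nat_lit 0),Row.mk (nat_lit 30576) (nat_lit 32912) (nat_lit 8388608) (nat_lit 61897) (nat_lit 2141484845766) (nat_lit 0) (nat_lit 0),Row.mk (nat_lit 30744) (nat_lit 32912) (nat_lit 8388608) (nat_lit 61897) (nat_lit 2141484845766) (nat_lit 0) (nat_lit 0),Row.mk (nat_lit 30912) (nat_lit 32912) (nat_lit 8388608) (nat_lit 61897) (nat_lit 2141484845766) (nat_lit 0) (nat_lit 0),Row.mk (nat_lit 31080) (nat_lit 32912) (nat_lit 8388608) (nat_lit 61897) (nat_lit 2141484845766) (nat_lit 0) (nat_lit 0),Row.mk (nat_lit 31248) (nat_lit 32912) (nat_lit 8388608) (nat_lit 61897) (nat_lit 2141484845766) (nat_lit 0) (nat_lit 0)],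
[Row.mk (nat_lit 25368) (nat_lit 32912) (nat_lit 8388608) (nat_lit 61897) (nat_lit 2674665000160) (nat_lit 0) (nat_lit 0),Row.mk (nat_lit 25536) (nat_lit 32912) (nat_lit 8388608) (nat_lit 61897) (nat_lit 2674665000160) (nat_lit 0) (nat_lit 0),Row.mk (nat_lit 25704) (nat_lit 32912) (nat_lit 8388608) (nat_lit 61897) (nat_lit 2674665000160) (nat_lit 0) (nat_lit 0),Row.mk (nat_lit 25872) (nat_lit 32912) (nat_lit 8388608) (nat_lit 61897) (nat_lit 2674665000160) (nat_lit 0) (nat_lit 0),Row.mk (nat_lit 26040) (nat_lit 32912) (nat_lit 8388608) (nat_lit 61897) (nat_lit 2674665000160) (nat_lit 0) (nat_lit 0),Row.mk (nat_lit 26208) (nat_lit 32912) (nat_lit 8388608) (nat_lit 61897) (nat_lit 2674665000160) (nat_lit 0) (nat_lit 0),Row.mk (nat_lit 26376) (nat_lit 32912) (nat_lit 8388608) (nat_lit 61897) (nat_lit 2674665000160) (nat_lit 0) (nat_lit 0),Row.mk (nat_lit 26544) (nat_lit 32912) (nat_lit 8388608) (nat_lit 61897) (nat_lit 2674665000160)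 (nat_lit 0) (nat_lit 0),Row.mk (nat_lit 26712) (nat_lit 32912) (nat_lit 8388608) (nat_lit 61897) (nat_lit 2674665000160) (nat_lit 0) (nat_lit 0),Row.mk (nat_lit 26880) (nat_lit 32912) (nat_lit 8388608) (nat_lit 61897) (nat_lit 2674665000160) (nat_lit 0) (nat_lit 0),Row.mk (nat_lit 27048) (nat_lit 32912) (nat_lit 8388608) (nat_lit 61897) (nat_lit 2674665000160) (nat_lit 0) (nat_lit 0),Row.mk (nat_lit 27216) (nat_lit 32912) (nat_lit 8388608) (nat_lit 61897) (nat_lit 2674665000160) (nat_lit 0) (nat_lit 0),Row.mk (nat_lit 27384) (nat_lit 32912) (nat_lit 8388608) (nat_lit 61897) (nat_lit 2674665000160) (nat_lit 0) (nat_lit 0),Row.mk (nat_lit 27552) (nat_lit 32912) (nat_lit 8388608) (nat_lit 61897) (nat_lit 2674665000160) (nat_lit 0) (nat_lit 0),Row.mk (nat_lit 27720) (nat_lit 32912) (nat_lit 8388608) (nat_lit 61897) (nat_lit 2674665000160) (nat_lit 0) (nat_lit 0),Row.mk (nat_lit 27888) (nat_lit 32912) (nat_lit 8388608) (nat_lit 61897)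 (nat_lit 2674665000160) (nat_lit 0) (nat_lit 0),Row.mk (nat_lit 28056) (nat_lit 32912) (nat_lit 8388608) (nat_lit 61897) (nat_lit 2674665000160) (nat_lit 0) (nat_lit 0),Row.mk (nat_lit 28224) (nat_lit 32912) (nat_lit 8388608) (nat_lit 61897) (nat_lit 2674665000160) (nat_lit 0) (nat_lit 0),Row.mk (nat_lit 28392) (nat_lit 32912) (nat_lit 8388608) (nat_lit 61897) (nat_lit 2674665000160) (nat_lit 0) (nat_lit 0),Row.mk (nat_lit 28560) (nat_lit 32912) (nat_lit 8388608) (nat_lit 61897) (nat_lit 2674665000160) (nat_lit 0) (nat_lit 0),Row.mk (nat_lit 28728) (nat_lit 32912) (nat_lit 8388608) (nat_lit 61897) (nat_lit 2674665000160) (nat_lit 0) (nat_lit 0),Row.mk (nat_lit 28896) (nat_lit 32912) (nat_lit 8388608) (nat_lit 61897) (nat_lit 2674665000160) (nat_lit 0) (nat_lit 0),Row.mk (nat_lit 29064) (nat_lit 32912) (nat_lit 8388608) (nat_lit 61897) (nat_lit 2674665000160) (nat_lit 0) (nat_lit 0),Row.mk (nat_lit 29232) (nat_lit 32912) (nat_lit 8388608)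 (nat_lit 61897) (nat_lit 2674665000160) (nat_lit 0) (nat_lit 0),Row.mk (nat_lit 29400) (nat_lit 32912) (nat_lit 8388608) (nat_lit 61897) (nat_lit 2674665000160) (nat_lit 0) (nat_lit 0),Row.mk (nat_lit 29568) (nat_lit 32912) (nat_lit 8388608) (nat_lit 61897) (nat_lit 2674665000160) (nat_lit 0) (nat_lit 0),Row.mk (nat_lit 29736) (nat_lit 32912) (nat_lit 8388608) (nat_lit 61897) (nat_lit 2674665000160) (nat_lit 0) (nat_lit 0),Row.mk (nat_lit 29904) (nat_lit 32912) (nat_lit 8388608) (nat_lit 61897) (nat_lit 2674665000160) (nat_lit 0) (nat_lit 0),Row.mk (nat_lit 30072) (nat_lit 32912) (nat_lit 8388608) (nat_lit 61897) (nat_lit 2674665000160) (nat_lit 0) (nat_lit 0),Row.mk (nat_lit 30240) (nat_lit 32912) (nat_lit 8388608) (nat_lit 61897) (nat_lit 2674665000160) (nat_lit 0) (nat_lit 0),Row.mk (nat_lit 30408) (nat_lit 32912) (nat_lit 8388608) (nat_lit 61897) (nat_lit 2674665000160) (nat_lit 0) (nat_lit 0),Row.mk (nat_lit 30576) (nat_lit 32912)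 (nat_lit 8388608) (nat_lit 61897) (nat_lit 2674665000160) (nat_lit 0) (nat_lit 0),Row.mk (nat_lit 30744) (nat_lit 32912) (nat_lit 8388608) (nat_lit 61897) (nat_lit 2674665000160) (nat_lit 0) (nat_lit 0),Row.mk (nat_lit 30912) (nat_lit 32912) (nat_lit 8388608) (nat_lit 61897) (nat_lit 2674665000160) (nat_lit 0) (nat_lit 0),Row.mk (nat_lit 31080) (nat_lit 32912) (nat_lit 8388608) (nat_lit 61897) (nat_lit 2674665000160) (nat_lit 0) (nat_lit 0),Row.mk (nat_lit 31248) (nat_lit 32912) (nat_lit 8388608) (nat_lit 61897) (nat_lit 2674665000160) (nat_lit 0) (nat_lit 0)],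
[Row.mk (nat_lit 25536) (nat_lit 32912) (nat_lit 8388608) (nat_lit 61897) (nat_lit 3340594150663) (nat_lit 0) (nat_lit 0),Row.mk (nat_lit 25704) (nat_lit 32912) (nat_lit 8388608) (nat_lit 61897) (nat_lit 3340594150663) (nat_lit 0) (nat_lit 0),Row.mk (nat_lit 25872) (nat_lit 32912) (nat_lit 8388608) (nat_lit 61897) (nat_lit 3340594150663) (nat_lit 0) (nat_lit 0),Row.mk (nat_lit 26040) (nat_lit 32912) (nat_lit 8388608) (nat_lit 61897) (nat_lit 3340594150663) (nat_lit 0) (nat_lit 0),Row.mk (nat_lit 26208) (nat_lit 32912) (nat_lit 8388608) (nat_lit 61897) (nat_lit 3340594150663) (nat_lit 0) (nat_lit 0),Row.mk (nat_lit 26376) (nat_lit 32912) (nat_lit 8388608) (nat_lit 61897) (nat_lit 3340594150663) (nat_lit 0) (nat_lit 0),Row.mk (nat_lit 26544) (nat_lit 32912) (nat_lit 8388608) (nat_lit 61897) (nat_lit 3340594150663) (nat_lit 0) (nat_lit 0),Row.mk (nat_lit 26712) (nat_lit 32912) (nat_lit 8388608) (nat_lit 61897) (nat_lit 3340594150663)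 (nat_lit 0) (nat_lit 0),Row.mk (nat_lit 26880) (nat_lit 32912) (nat_lit 8388608) (nat_lit 61897) (nat_lit 3340594150663) (nat_lit 0) (nat_lit 0),Row.mk (nat_lit 27048) (nat_lit 32912) (nat_lit 8388608) (nat_lit 61897) (nat_lit 3340594150663) (nat_lit 0) (nat_lit 0),Row.mk (nat_lit 27216) (nat_lit 32912) (nat_lit 8388608) (nat_lit 61897) (nat_lit 3340594150663) (nat_lit 0) (nat_lit 0),Row.mk (nat_lit 27384) (nat_lit 32912) (nat_lit 8388608) (nat_lit 61897) (nat_lit 3340594150663) (nat_lit 0) (nat_lit 0),Row.mk (nat_lit 27552) (nat_lit 32912) (nat_lit 8388608) (nat_lit 61897) (nat_lit 3340594150663) (nat_lit 0) (nat_lit 0),Row.mk (nat_lit 27720) (nat_lit 32912) (nat_lit 8388608) (nat_lit 61897) (nat_lit 3340594150663) (nat_lit 0) (nat_lit 0),Row.mk (nat_lit 27888) (nat_lit 32912) (nat_lit 8388608) (nat_lit 61897) (nat_lit 3340594150663) (nat_lit 0) (nat_lit 0),Row.mk (nat_lit 28056) (nat_lit 32912) (nat_lit 8388608) (nat_lit 61897)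 (nat_lit 3340594150663) (nat_lit 0) (nat_lit 0),Row.mk (nat_lit 28224) (nat_lit 32912) (nat_lit 8388608) (nat_lit 61897) (nat_lit 3340594150663) (nat_lit 0) (nat_lit 0),Row.mk (nat_lit 28392) (nat_lit 32912) (nat_lit 8388608) (nat_lit 61897) (nat_lit 3340594150663) (nat_lit 0) (nat_lit 0),Row.mk (nat_lit 28560) (nat_lit 32912) (nat_lit 8388608) (nat_lit 61897) (nat_lit 3340594150663) (nat_lit 0) (nat_lit 0),Row.mk (nat_lit 28728) (nat_lit 32912) (nat_lit 8388608) (nat_lit 61897) (nat_lit 3340594150663) (nat_lit 0) (nat_lit 0),Row.mk (nat_lit 28896) (nat_lit 32912) (nat_lit 8388608) (nat_lit 61897) (nat_lit 3340594150663) (nat_lit 0) (nat_lit 0),Row.mk (nat_lit 29064) (nat_lit 32912) (nat_lit 8388608) (nat_lit 61897) (nat_lit 3340594150663) (nat_lit 0) (nat_lit 0),Row.mk (nat_lit 29232) (nat_lit 32912) (nat_lit 8388608) (nat_lit 61897) (nat_lit 3340594150663) (nat_lit 0) (nat_lit 0),Row.mk (nat_lit 29400) (nat_lit 32912) (nat_lit 8388608)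 (nat_lit 61897) (nat_lit 3340594150663) (nat_lit 0) (nat_lit 0),Row.mk (nat_lit 29568) (nat_lit 32912) (nat_lit 8388608) (nat_lit 61897) (nat_lit 3340594150663) (nat_lit 0) (nat_lit 0),Row.mk (nat_lit 29736) (nat_lit 32912) (nat_lit 8388608) (nat_lit 61897) (nat_lit 3340594150663) (nat_lit 0) (nat_lit 0),Row.mk (nat_lit 29904) (nat_lit 32912) (nat_lit 8388608) (nat_lit 61897) (nat_lit 3340594150663) (nat_lit 0) (nat_lit 0),Row.mk (nat_lit 30072) (nat_lit 32912) (nat_lit 8388608) (nat_lit 61897) (nat_lit 3340594150663) (nat_lit 0) (nat_lit 0),Row.mk (nat_lit 30240) (nat_lit 32912) (nat_lit 8388608) (nat_lit 61897) (nat_lit 3340594150663) (nat_lit 0) (nat_lit 0),Row.mk (nat_lit 30408) (nat_lit 32912) (nat_lit 8388608) (nat_lit 61897) (nat_lit 3340594150663) (nat_lit 0) (nat_lit 0),Row.mk (nat_lit 30576) (nat_lit 32912) (nat_lit 8388608) (nat_lit 61897) (nat_lit 3340594150663) (nat_lit 0) (nat_lit 0),Row.mk (nat_lit 30744) (nat_lit 32912)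 (nat_lit 8388608) (nat_lit 61897) (nat_lit 3340594150663) (nat_lit 0) (nat_lit 0),Row.mk (nat_lit 30912) (nat_lit 32912) (nat_lit 8388608) (nat_lit 61897) (nat_lit 3340594150663) (nat_lit 0) (nat_lit 0),Row.mk (nat_lit 31080) (nat_lit 32912) (nat_lit 8388608) (nat_lit 61897) (nat_lit 3340594150663) (nat_lit 0) (nat_lit 0),Row.mk (nat_lit 31248) (nat_lit 32912) (nat_lit 8388608) (nat_lit 61897) (nat_lit 3340594150663) (nat_lit 0) (nat_lit 0),Row.mk (nat_lit 31416) (nat_lit 32912) (nat_lit 8388608) (nat_lit 61897) (nat_lit 3340594150663) (nat_lit 0) (nat_lit 0)],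
[Row.mk (nat_lit 25704) (nat_lit 32912) (nat_lit 8388608) (nat_lit 61897) (nat_lit 4172323594897) (nat_lit 0) (nat_lit 0),Row.mk (nat_lit 25872) (nat_lit 32912) (nat_lit 8388608) (nat_lit 61897) (nat_lit 4172323594897) (nat_lit 0) (nat_lit 0),Row.mk (nat_lit 26040) (nat_lit 32912) (nat_lit 8388608) (nat_lit 61897) (nat_lit 4172323594897) (nat_lit 0) (nat_lit 0),Row.mk (nat_lit 26208) (nat_lit 32912) (nat_lit 8388608) (nat_lit 61897) (nat_lit 4172323594897) (nat_lit 0) (nat_lit 0),Row.mk (nat_lit 26376) (nat_lit 32912) (nat_lit 8388608) (nat_lit 61897) (nat_lit 4172323594897) (nat_lit 0) (nat_lit 0),Row.mk (nat_lit 26544) (nat_lit 32912) (nat_lit 8388608) (nat_lit 61897) (nat_lit 4172323594897) (nat_lit 0) (nat_lit 0),Row.mk (nat_lit 26712) (nat_lit 32912) (nat_lit 8388608) (nat_lit 61897) (nat_lit 4172323594897) (nat_lit 0) (nat_lit 0),Row.mk (nat_lit 26880) (nat_lit 32912) (nat_lit 8388608) (nat_lit 61897) (nat_lit 4172323594897)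 (nat_lit 0) (nat_lit 0),Row.mk (nat_lit 27048) (nat_lit 32912) (nat_lit 8388608) (nat_lit 61897) (nat_lit 4172323594897) (nat_lit 0) (nat_lit 0),Row.mk (nat_lit 27216) (nat_lit 32912) (nat_lit 8388608) (nat_lit 61897) (nat_lit 4172323594897) (nat_lit 0) (nat_lit 0),Row.mk (nat_lit 27384) (nat_lit 32912) (nat_lit 8388608) (nat_lit 61897) (nat_lit 4172323594897) (nat_lit 0) (nat_lit 0),Row.mk (nat_lit 27552) (nat_lit 32912) (nat_lit 8388608) (nat_lit 61897) (nat_lit 4172323594897) (nat_lit 0) (nat_lit 0),Row.mk (nat_lit 27720) (nat_lit 32912) (nat_lit 8388608) (nat_lit 61897) (nat_lit 4172323594897) (nat_lit 0) (nat_lit 0),Row.mk (nat_lit 27888) (nat_lit 32912) (nat_lit 8388608) (nat_lit 61897) (nat_lit 4172323594897) (nat_lit 0) (nat_lit 0),Row.mk (nat_lit 28056) (nat_lit 32912) (nat_lit 8388608) (nat_lit 61897) (nat_lit 4172323594897) (nat_lit 0) (nat_lit 0),Row.mk (nat_lit 28224) (nat_lit 32912) (nat_lit 8388608) (nat_lit 61897)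 (nat_lit 4172323594897) (nat_lit 0) (nat_lit 0),Row.mk (nat_lit 28392) (nat_lit 32912) (nat_lit 8388608) (nat_lit 61897) (nat_lit 4172323594897) (nat_lit 0) (nat_lit 0),Row.mk (nat_lit 28560) (nat_lit 32912) (nat_lit 8388608) (nat_lit 61897) (nat_lit 4172323594897) (nat_lit 0) (nat_lit 0),Row.mk (nat_lit 28728) (nat_lit 32912) (nat_lit 8388608) (nat_lit 61897) (nat_lit 4172323594897) (nat_lit 0) (nat_lit 0),Row.mk (nat_lit 28896) (nat_lit 32912) (nat_lit 8388608) (nat_lit 61897) (nat_lit 4172323594897) (nat_lit 0) (nat_lit 0),Row.mk (nat_lit 29064) (nat_lit 32912) (nat_lit 8388608) (nat_lit 61897) (nat_lit 4172323594897) (nat_lit 0) (nat_lit 0),Row.mk (nat_lit 29232) (nat_lit 32912) (nat_lit 8388608) (nat_lit 61897) (nat_lit 4172323594897) (nat_lit 0) (nat_lit 0),Row.mk (nat_lit 29400) (nat_lit 32912) (nat_lit 8388608) (nat_lit 61897) (nat_lit 4172323594897) (nat_lit 0) (nat_lit 0),Row.mk (nat_lit 29568) (nat_lit 32912) (nat_lit 8388608)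 (nat_lit 61897) (nat_lit 4172323594897) (nat_lit 0) (nat_lit 0),Row.mk (nat_lit 29736) (nat_lit 32912) (nat_lit 8388608) (nat_lit 61897) (nat_lit 4172323594897) (nat_lit 0) (nat_lit 0),Row.mk (nat_lit 29904) (nat_lit 32912) (nat_lit 8388608) (nat_lit 61897) (nat_lit 4172323594897) (nat_lit 0) (nat_lit 0),Row.mk (nat_lit 30072) (nat_lit 32912) (nat_lit 8388608) (nat_lit 61897) (nat_lit 4172323594897) (nat_lit 0) (nat_lit 0),Row.mk (nat_lit 30240) (nat_lit 32912) (nat_lit 8388608) (nat_lit 61897) (nat_lit 4172323594897) (nat_lit 0) (nat_lit 0),Row.mk (nat_lit 30408) (nat_lit 32912) (nat_lit 8388608) (nat_lit 61897) (nat_lit 4172323594897) (nat_lit 0) (nat_lit 0),Row.mk (nat_lit 30576) (nat_lit 32912) (nat_lit 8388608) (nat_lit 61897) (nat_lit 4172323594897) (nat_lit 0) (nat_lit 0),Row.mk (nat_lit 30744) (nat_lit 32912) (nat_lit 8388608) (nat_lit 61897) (nat_lit 4172323594897) (nat_lit 0) (nat_lit 0),Row.mk (nat_lit 30912) (nat_lit 32912)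 (nat_lit 8388608) (nat_lit 61897) (nat_lit 4172323594897) (nat_lit 0) (nat_lit 0),Row.mk (nat_lit 31080) (nat_lit 32912) (nat_lit 8388608) (nat_lit 61897) (nat_lit 4172323594897) (nat_lit 0) (nat_lit 0),Row.mk (nat_lit 31248) (nat_lit 32912) (nat_lit 8388608) (nat_lit 61897) (nat_lit 4172323594897) (nat_lit 0) (nat_lit 0),Row.mk (nat_lit 31416) (nat_lit 32912) (nat_lit 8388608) (nat_lit 61897) (nat_lit 4172323594897) (nat_lit 0) (nat_lit 0)],
[Row.mk (nat_lit 25872) (nat_lit 32912) (nat_lit 8388608) (nat_lit 61897) (nat_lit 5211133606266) (nat_lit 0) (nat_lit 0),Row.mk (nat_lit 26040) (nat_lit 32912) (nat_lit 8388608) (nat_lit 61897) (nat_lit 5211133606266) (nat_lit 0) (nat_lit 0),Row.mk (nat_lit 26208) (nat_lit 32912) (nat_lit 8388608) (nat_lit 61897) (nat_lit 5211133606266) (nat_lit 0) (nat_lit 0),Row.mk (nat_lit 26376) (nat_lit 32912) (nat_lit 8388608) (nat_lit 61897) (nat_lit 5211133606266) (nat_lit 0) (nat_lit 0),Row.mk (nat_lit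 26544) (nat_lit 32912) (nat_lit 8388608) (nat_lit 61897) (nat_lit 5211133606266) (nat_lit 0) (nat_lit 0),Row.mk (nat_lit 26712) (nat_lit 32912) (nat_lit 8388608) (nat_lit 61897) (nat_lit 5211133606266) (nat_lit 0) (nat_lit 0),Row.mk (nat_lit 26880) (nat_lit 32912) (nat_lit 8388608) (nat_lit 61897) (nat_lit 5211133606266) (nat_lit 0) (nat_lit 0),Row.mk (nat_lit 27048) (nat_lit 32912) (nat_lit 8388608) (nat_lit 61897) (nat_lit 5211133606266) (nat_lit 0) (nat_lit 0),Row.mk (nat_lit 27216) (nat_lit 32912) (nat_lit 8388608) (nat_lit 61897) (nat_lit 5211133606266) (nat_lit 0) (nat_lit 0),Row.mk (nat_lit 27384) (nat_lit 32912) (nat_lit 8388608) (nat_lit 61897) (nat_lit 5211133606266) (nat_lit 0) (nat_lit 0),Row.mk (nat_lit 27552) (nat_lit 32912) (nat_lit 8388608) (nat_lit 61897) (nat_lit 5211133606266) (nat_lit 0) (nat_lit 0),Row.mk (nat_lit 27720) (nat_lit 32912) (nat_lit 8388608) (nat_lit 61897) (nat_lit 5211133606266) (nat_lit 0) (nat_lit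 0),Row.mk (nat_lit 27888) (nat_lit 32912) (nat_lit 8388608) (nat_lit 61897) (nat_lit 5211133606266) (nat_lit 0) (nat_lit 0),Row.mk (nat_lit 28056) (nat_lit 32912) (nat_lit 8388608) (nat_lit 61897) (nat_lit 5211133606266) (nat_lit 0) (nat_lit 0),Row.mk (nat_lit 28224) (nat_lit 32912) (nat_lit 8388608) (nat_lit 61897) (nat_lit 5211133606266) (nat_lit 0) (nat_lit 0),Row.mk (nat_lit 28392) (nat_lit 32912) (nat_lit 8388608) (nat_lit 61897) (nat_lit 5211133606266) (nat_lit 0) (nat_lit 0),Row.mk (nat_lit 28560) (nat_lit 32912) (nat_lit 8388608) (nat_lit 61897) (nat_lit 5211133606266) (nat_lit 0) (nat_lit 0),Row.mk (nat_lit 28728) (nat_lit 32912) (nat_lit 8388608) (nat_lit 61897) (nat_lit 5211133606266) (nat_lit 0) (nat_lit 0),Row.mk (nat_lit 28896) (nat_lit 32912) (nat_lit 8388608) (nat_lit 61897) (nat_lit 5211133606266) (nat_lit 0) (nat_lit 0),Row.mk (nat_lit 29064) (nat_lit 32912) (nat_lit 8388608) (nat_lit 61897) (nat_lit 5211133606266)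 (nat_lit 0) (nat_lit 0),Row.mk (nat_lit 29232) (nat_lit 32912) (nat_lit 8388608) (nat_lit 61897) (nat_lit 5211133606266) (nat_lit 0) (nat_lit 0),Row.mk (nat_lit 29400) (nat_lit 32912) (nat_lit 8388608) (nat_lit 61897) (nat_lit 5211133606266) (nat_lit 0) (nat_lit 0),Row.mk (nat_lit 29568) (nat_lit 32912) (nat_lit 8388608) (nat_lit 61897) (nat_lit 5211133606266) (nat_lit 0) (nat_lit 0),Row.mk (nat_lit 29736) (nat_lit 32912) (nat_lit 8388608) (nat_lit 61897) (nat_lit 5211133606266) (nat_lit 0) (nat_lit 0),Row.mk (nat_lit 29904) (nat_lit 32912) (nat_lit 8388608) (nat_lit 61897) (nat_lit 5211133606266) (nat_lit 0) (nat_lit 0),Row.mk (nat_lit 30072) (nat_lit 32912) (nat_lit 8388608) (nat_lit 61897) (nat_lit 5211133606266) (nat_lit 0) (nat_lit 0),Row.mk (nat_lit 30240) (nat_lit 32912) (nat_lit 8388608) (nat_lit 61897) (nat_lit 5211133606266) (nat_lit 0) (nat_lit 0),Row.mk (nat_lit 30408) (nat_lit 32912) (nat_lit 8388608) (nat_lit 61897)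 (nat_lit 5211133606266) (nat_lit 0) (nat_lit 0),Row.mk (nat_lit 30576) (nat_lit 32912) (nat_lit 8388608) (nat_lit 61897) (nat_lit 5211133606266) (nat_lit 0) (nat_lit 0),Row.mk (nat_lit 30744) (nat_lit 32912) (nat_lit 8388608) (nat_lit 61897) (nat_lit 5211133606266) (nat_lit 0) (nat_lit 0),Row.mk (nat_lit 30912) (nat_lit 32912) (nat_lit 8388608) (nat_lit 61897) (nat_lit 5211133606266) (nat_lit 0) (nat_lit 0),Row.mk (nat_lit 31080) (nat_lit 32912) (nat_lit 8388608) (nat_lit 61897) (nat_lit 5211133606266) (nat_lit 0) (nat_lit 0),Row.mk (nat_lit 31248) (nat_lit 32912) (nat_lit 8388608) (nat_lit 61897) (nat_lit 5211133606266) (nat_lit 0) (nat_lit 0),Row.mk (nat_lit 31416) (nat_lit 32912) (nat_lit 8388608) (nat_lit 61897) (nat_lit 5211133606266) (nat_lit 0) (nat_lit 0),Row.mk (nat_lit 31584) (nat_lit 32912) (nat_lit 8388608) (nat_lit 61897) (nat_lit 5211133606266) (nat_lit 0) (nat_lit 0)],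
[Row.mk (nat_lit 26208) (nat_lit 32912) (nat_lit 8388608) (nat_lit 61897) (nat_lit 6508582250415) (nat_lit 0) (nat_lit 0),Row.mk (nat_lit 26376) (nat_lit 32912) (nat_lit 8388608) (nat_lit 61897) (nat_lit 6508582250415) (nat_lit 0) (nat_lit 0),Row.mk (nat_lit 26544) (nat_lit 32912) (nat_lit 8388608) (nat_lit 61897) (nat_lit 6508582250415) (nat_lit 0) (nat_lit 0),Row.mk (nat_lit 26712) (nat_lit 32912) (nat_lit 8388608) (nat_lit 61897) (nat_lit 6508582250415) (nat_lit 0) (nat_lit 0),Row.mk (nat_lit 26880) (nat_lit 32912) (nat_lit 8388608) (nat_lit 61897) (nat_lit 6508582250415) (nat_lit 0) (nat_lit 0),Row.mk (nat_lit 27048) (nat_lit 32912) (nat_lit 8388608) (nat_lit 61897) (nat_lit 6508582250415) (nat_lit 0) (nat_lit 0),Row.mk (nat_lit 27216) (nat_lit 32912) (nat_lit 8388608) (nat_lit 61897) (nat_lit 6508582250415) (nat_lit 0) (nat_lit 0),Row.mk (nat_lit 27384) (nat_lit 32912) (nat_lit 8388608) (nat_lit 61897) (nat_lit 6508582250415)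 (nat_lit 0) (nat_lit 0),Row.mk (nat_lit 27552) (nat_lit 32912) (nat_lit 8388608) (nat_lit 61897) (nat_lit 6508582250415) (nat_lit 0) (nat_lit 0),Row.mk (nat_lit 27720) (nat_lit 32912) (nat_lit 8388608) (nat_lit 61897) (nat_lit 6508582250415) (nat_lit 0) (nat_lit 0),Row.mk (nat_lit 27888) (nat_lit 32912) (nat_lit 8388608) (nat_lit 61897) (nat_lit 6508582250415) (nat_lit 0) (nat_lit 0),Row.mk (nat_lit 28056) (nat_lit 32912) (nat_lit 8388608) (nat_lit 61897) (nat_lit 6508582250415) (nat_lit 0) (nat_lit 0),Row.mk (nat_lit 28224) (nat_lit 32912) (nat_lit 8388608) (nat_lit 61897) (nat_lit 6508582250415) (nat_lit 0) (nat_lit 0),Row.mk (nat_lit 28392) (nat_lit 32912) (nat_lit 8388608) (nat_lit 61897) (nat_lit 6508582250415) (nat_lit 0) (nat_lit 0),Row.mk (nat_lit 28560) (nat_lit 32912) (nat_lit 8388608) (nat_lit 61897) (nat_lit 6508582250415) (nat_lit 0) (nat_lit 0),Row.mk (nat_lit 28728) (nat_lit 32912) (nat_lit 8388608) (nat_lit 61897)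 (nat_lit 6508582250415) (nat_lit 0) (nat_lit 0),Row.mk (nat_lit 28896) (nat_lit 32912) (nat_lit 8388608) (nat_lit 61897) (nat_lit 6508582250415) (nat_lit 0) (nat_lit 0),Row.mk (nat_lit 29064) (nat_lit 32912) (nat_lit 8388608) (nat_lit 61897) (nat_lit 6508582250415) (nat_lit 0) (nat_lit 0),Row.mk (nat_lit 29232) (nat_lit 32912) (nat_lit 8388608) (nat_lit 61897) (nat_lit 6508582250415) (nat_lit 0) (nat_lit 0),Row.mk (nat_lit 29400) (nat_lit 32912) (nat_lit 8388608) (nat_lit 61897) (nat_lit 6508582250415) (nat_lit 0) (nat_lit 0),Row.mk (nat_lit 29568) (nat_lit 32912) (nat_lit 8388608) (nat_lit 61897) (nat_lit 6508582250415) (nat_lit 0) (nat_lit 0),Row.mk (nat_lit 29736) (nat_lit 32912) (nat_lit 8388608) (nat_lit 61897) (nat_lit 6508582250415) (nat_lit 0) (nat_lit 0),Row.mk (nat_lit 29904) (nat_lit 32912) (nat_lit 8388608) (nat_lit 61897) (nat_lit 6508582250415) (nat_lit 0) (nat_lit 0),Row.mk (nat_lit 30072) (nat_lit 32912) (nat_lit 8388608)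 (nat_lit 61897) (nat_lit 6508582250415) (nat_lit 0) (nat_lit 0),Row.mk (nat_lit 30240) (nat_lit 32912) (nat_lit 8388608) (nat_lit 61897) (nat_lit 6508582250415) (nat_lit 0) (nat_lit 0),Row.mk (nat_lit 30408) (nat_lit 32912) (nat_lit 8388608) (nat_lit 61897) (nat_lit 6508582250415) (nat_lit 0) (nat_lit 0),Row.mk (nat_lit 30576) (nat_lit 32912) (nat_lit 8388608) (nat_lit 61897) (nat_lit 6508582250415) (nat_lit 0) (nat_lit 0),Row.mk (nat_lit 30744) (nat_lit 32912) (nat_lit 8388608) (nat_lit 61897) (nat_lit 6508582250415) (nat_lit 0) (nat_lit 0),Row.mk (nat_lit 30912) (nat_lit 32912) (nat_lit 8388608) (nat_lit 61897) (nat_lit 6508582250415) (nat_lit 0) (nat_lit 0),Row.mk (nat_lit 31080) (nat_lit 32912) (nat_lit 8388608) (nat_lit 61897) (nat_lit 6508582250415) (nat_lit 0) (nat_lit 0),Row.mk (nat_lit 31248) (nat_lit 32912) (nat_lit 8388608) (nat_lit 61897) (nat_lit 6508582250415) (nat_lit 0) (nat_lit 0),Row.mk (nat_lit 31416) (nat_lit 32912)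 (nat_lit 8388608) (nat_lit 61897) (nat_lit 6508582250415) (nat_lit 0) (nat_lit 0),Row.mk (nat_lit 31584) (nat_lit 32912) (nat_lit 8388608) (nat_lit 61897) (nat_lit 6508582250415) (nat_lit 0) (nat_lit 0)],
[Row.mk (nat_lit 29232) (nat_lit 32912) (nat_lit 8388608) (nat_lit 61897) (nat_lit 8129064307559) (nat_lit 0) (nat_lit 0),Row.mk (nat_lit 29400) (nat_lit 32912) (nat_lit 8388608) (nat_lit 61897) (nat_lit 8129064307559) (nat_lit 0) (nat_lit 0),Row.mk (nat_lit 29568) (nat_lit 32912) (nat_lit 8388608) (nat_lit 61897) (nat_lit 8129064307559) (nat_lit 0) (nat_lit 0),Row.mk (nat_lit 29736) (nat_lit 32912) (nat_lit 8388608) (nat_lit 61897) (nat_lit 8129064307559) (nat_lit 0) (nat_lit 0),Row.mk (nat_lit 29904) (nat_lit 32912) (nat_lit 8388608) (nat_lit 61897) (nat_lit 8129064307559) (nat_lit 0) (nat_lit 0),Row.mk (nat_lit 30072) (nat_lit 32912) (nat_lit 8388608) (nat_lit 61897) (nat_lit 8129064307559) (nat_lit 0) (nat_lit 0),Row.mk (nat_lit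 30240) (nat_lit 32912) (nat_lit 8388608) (nat_lit 61897) (nat_lit 8129064307559) (nat_lit 0) (nat_lit 0),Row.mk (nat_lit 30408) (nat_lit 32912) (nat_lit 8388608) (nat_lit 61897) (nat_lit 8129064307559) (nat_lit 0) (nat_lit 0),Row.mk (nat_lit 30576) (nat_lit 32912) (nat_lit 8388608) (nat_lit 61897) (nat_lit 8129064307559) (nat_lit 0) (nat_lit 0),Row.mk (nat_lit 30744) (nat_lit 32912) (nat_lit 8388608) (nat_lit 61897) (nat_lit 8129064307559) (nat_lit 0) (nat_lit 0),Row.mk (nat_lit 30912) (nat_lit 32912) (nat_lit 8388608) (nat_lit 61897) (nat_lit 8129064307559) (nat_lit 0) (nat_lit 0),Row.mk (nat_lit 31080) (nat_lit 32912) (nat_lit 8388608) (nat_lit 61897) (nat_lit 8129064307559) (nat_lit 0) (nat_lit 0),Row.mk (nat_lit 31248) (nat_lit 32912) (nat_lit 8388608) (nat_lit 61897) (nat_lit 8129064307559) (nat_lit 0) (nat_lit 0),Row.mk (nat_lit 31416) (nat_lit 32912) (nat_lit 8388608) (nat_lit 61897) (nat_lit 8129064307559) (nat_lit 0) (nat_lit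 0),Row.mk (nat_lit 31584) (nat_lit 32912) (nat_lit 8388608) (nat_lit 61897) (nat_lit 8129064307559) (nat_lit 0) (nat_lit 0),Row.mk (nat_lit 31752) (nat_lit 32912) (nat_lit 8388608) (nat_lit 61897) (nat_lit 8129064307559) (nat_lit 0) (nat_lit 0)],
[Row.mk (nat_lit 30408) (nat_lit 32912) (nat_lit 8388608) (nat_lit 61897) (nat_lit 10153007304739) (nat_lit 0) (nat_lit 0),Row.mk (nat_lit 30576) (nat_lit 32912) (nat_lit 8388608) (nat_lit 61897) (nat_lit 10153007304739) (nat_lit 0) (nat_lit 0),Row.mk (nat_lit 30744) (nat_lit 32912) (nat_lit 8388608) (nat_lit 61897) (nat_lit 10153007304739) (nat_lit 0) (nat_lit 0),Row.mk (nat_lit 30912) (nat_lit 32912) (nat_lit 8388608) (nat_lit 61897) (nat_lit 10153007304739) (nat_lit 0) (nat_lit 0),Row.mk (nat_lit 31080) (nat_lit 32912) (nat_lit 8388608) (nat_lit 61897) (nat_lit 10153007304739) (nat_lit 0) (nat_lit 0),Row.mk (nat_lit 31248) (nat_lit 32912) (nat_lit 8388608) (nat_lit 61897) (nat_lit 10153007304739)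 (nat_lit 0) (nat_lit 0),Row.mk (nat_lit 31416) (nat_lit 32912) (nat_lit 8388608) (nat_lit 61897) (nat_lit 10153007304739) (nat_lit 0) (nat_lit 0),Row.mk (nat_lit 31584) (nat_lit 32912) (nat_lit 8388608) (nat_lit 61897) (nat_lit 10153007304739) (nat_lit 0) (nat_lit 0),Row.mk (nat_lit 31752) (nat_lit 32912) (nat_lit 8388608) (nat_lit 61897) (nat_lit 10153007304739) (nat_lit 0) (nat_lit 0)],
[Row.mk (nat_lit 30744) (nat_lit 32912) (nat_lit 8388608) (nat_lit 61897) (nat_lit 12680863283010) (nat_lit 0) (nat_lit 0),Row.mk (nat_lit 30912) (nat_lit 32912) (nat_lit 8388608) (nat_lit 61897) (nat_lit 12680863283010) (nat_lit 0) (nat_lit 0),Row.mk (nat_lit 31080) (nat_lit 32912) (nat_lit 8388608) (nat_lit 61897) (nat_lit 12680863283010) (nat_lit 0) (nat_lit 0),Row.mk (nat_lit 31248) (nat_lit 32912) (nat_lit 8388608) (nat_lit 61897) (nat_lit 12680863283010) (nat_lit 0) (nat_lit 0),Row.mk (nat_lit 31416) (nat_lit 32912) (nat_lit 8388608) (nat_lit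 61897) (nat_lit 12680863283010) (nat_lit 0) (nat_lit 0),Row.mk (nat_lit 31584) (nat_lit 32912) (nat_lit 8388608) (nat_lit 61897) (nat_lit 12680863283010) (nat_lit 0) (nat_lit 0),Row.mk (nat_lit 31752) (nat_lit 32912) (nat_lit 8388608) (nat_lit 61897) (nat_lit 12680863283010) (nat_lit 0) (nat_lit 0),Row.mk (nat_lit 31920) (nat_lit 32912) (nat_lit 8388608) (nat_lit 61897) (nat_lit 12680863283010) (nat_lit 0) (nat_lit 0)],
[Row.mk (nat_lit 31248) (nat_lit 32912) (nat_lit 8388608) (nat_lit 61897) (nat_lit 15838094418365) (nat_lit 0) (nat_lit 0),Row.mk (nat_lit 31416) (nat_lit 32912) (nat_lit 8388608) (nat_lit 61897) (nat_lit 15838094418365) (nat_lit 0) (nat_lit 0),Row.mk (nat_lit 31584) (nat_lit 32912) (nat_lit 8388608) (nat_lit 61897) (nat_lit 15838094418365) (nat_lit 0) (nat_lit 0),Row.mk (nat_lit 31752) (nat_lit 32912) (nat_lit 8388608) (nat_lit 61897) (nat_lit 15838094418365) (nat_lit 0) (nat_lit 0),Row.mk (nat_lit 31920) (nat_lit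 32912) (nat_lit 8388608) (nat_lit 61897) (nat_lit 15838094418365) (nat_lit 0) (nat_lit 0),Row.mk (nat_lit 32088) (nat_lit 32912) (nat_lit 8388608) (nat_lit 61897) (nat_lit 15838094418365) (nat_lit 0) (nat_lit 0)],
[Row.mk (nat_lit 31416) (nat_lit 32912) (nat_lit 8388608) (nat_lit 61897) (nat_lit 19781399941994) (nat_lit 0) (nat_lit 0),Row.mk (nat_lit 31584) (nat_lit 32912) (nat_lit 8388608) (nat_lit 61897) (nat_lit 19781399941994) (nat_lit 0) (nat_lit 0),Row.mk (nat_lit 31752) (nat_lit 32912) (nat_lit 8388608) (nat_lit 61897) (nat_lit 19781399941994) (nat_lit 0) (nat_lit 0),Row.mk (nat_lit 31920) (nat_lit 32912) (nat_lit 8388608) (nat_lit 61897) (nat_lit 19781399941994) (nat_lit 0) (nat_lit 0),Row.mk (nat_lit 32088) (nat_lit 32912) (nat_lit 8388608) (nat_lit 61897) (nat_lit 19781399941994) (nat_lit 0) (nat_lit 0),Row.mk (nat_lit 32256) (nat_lit 32912) (nat_lit 8388608) (nat_lit 61897) (nat_lit 19781399941994) (nat_lit 0) (nat_lit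 0)],
[Row.mk (nat_lit 31752) (nat_lit 32912) (nat_lit 8388608) (nat_lit 61897) (nat_lit 24706493413474) (nat_lit 0) (nat_lit 0),Row.mk (nat_lit 31920) (nat_lit 32912) (nat_lit 8388608) (nat_lit 61897) (nat_lit 24706493413474) (nat_lit 0) (nat_lit 0),Row.mk (nat_lit 32088) (nat_lit 32912) (nat_lit 8388608) (nat_lit 61897) (nat_lit 24706493413474) (nat_lit 0) (nat_lit 0),Row.mk (nat_lit 32256) (nat_lit 32912) (nat_lit 8388608) (nat_lit 61897) (nat_lit 24706493413474) (nat_lit 0) (nat_lit 0),Row.mk (nat_lit 32424) (nat_lit 32912) (nat_lit 8388608) (nat_lit 61897) (nat_lit 24706493413474) (nat_lit 0) (nat_lit 0)],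
[Row.mk (nat_lit 31920) (nat_lit 32912) (nat_lit 8388608) (nat_lit 61897) (nat_lit 30857816347356) (nat_lit 0) (nat_lit 0),Row.mk (nat_lit 32088) (nat_lit 32912) (nat_lit 8388608) (nat_lit 61897) (nat_lit 30857816347356) (nat_lit 0) (nat_lit 0),Row.mk (nat_lit 32256) (nat_lit 32912) (nat_lit 8388608) (nat_lit 61897) (nat_lit 30857816347356) (nat_lit 0) (nat_lit 0),Row.mk (nat_lit 32424) (nat_lit 32912) (nat_lit 8388608) (nat_lit 61897) (nat_lit 30857816347356) (nat_lit 0) (nat_lit 0),Row.mk (nat_lit 32592) (nat_lit 32912) (nat_lit 8388608) (nat_lit 61897) (nat_lit 30857816347356) (nat_lit 0) (nat_lit 0)],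
[Row.mk (nat_lit 32088) (nat_lit 32912) (nat_lit 8388608) (nat_lit 61897) (nat_lit 38540670298458) (nat_lit 0) (nat_lit 0),Row.mk (nat_lit 32256) (nat_lit 32912) (nat_lit 8388608) (nat_lit 61897) (nat_lit 38540670298458) (nat_lit 0) (nat_lit 0),Row.mk (nat_lit 32424) (nat_lit 32912) (nat_lit 8388608) (nat_lit 61897) (nat_lit 38540670298458) (nat_lit 0) (nat_lit 0),Row.mk (nat_lit 32592) (nat_lit 32912) (nat_lit 8388608) (nat_lit 61897) (nat_lit 38540670298458) (nat_lit 0) (nat_lit 0),Row.mk (nat_lit 32760) (nat_lit 32912) (nat_lit 8388608) (nat_lit 61897) (nat_lit 38540670298458) (nat_lit 0) (nat_lit 0)],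
[Row.mk (nat_lit 32256) (nat_lit 32912) (nat_lit 8388608) (nat_lit 61897) (nat_lit 48136369543713) (nat_lit 0) (nat_lit 0),Row.mk (nat_lit 32424) (nat_lit 32912) (nat_lit 8388608) (nat_lit 61897) (nat_lit 48136369543713) (nat_lit 0) (nat_lit 0),Row.mk (nat_lit 32592) (nat_lit 32912) (nat_lit 8388608) (nat_lit 61897) (nat_lit 48136369543713) (nat_lit 0) (nat_lit 0),Row.mk (nat_lit 32760) (nat_lit 32912) (nat_lit 8388608) (nat_lit 61897) (nat_lit 48136369543713) (nat_lit 0) (nat_lit 0)],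
[Row.mk (nat_lit 32424) (nat_lit 32912) (nat_lit 8388608) (nat_lit 61897) (nat_lit 60121166416258) (nat_lit 0) (nat_lit 0),Row.mk (nat_lit 32592) (nat_lit 32912) (nat_lit 8388608) (nat_lit 61897) (nat_lit 60121166416258) (nat_lit 0) (nat_lit 0),Row.mk (nat_lit 32760) (nat_lit 32912) (nat_lit 8388608) (nat_lit 61897) (nat_lit 60121166416258) (nat_lit 0) (nat_lit 0),Row.mk (nat_lit 32928) (nat_lit 32912) (nat_lit 8388608) (nat_lit 61897) (nat_lit 60121166416258) (nat_lit 0) (nat_lit 0)],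
[Row.mk (nat_lit 32592) (nat_lit 32912) (nat_lit 8388608) (nat_lit 61897) (nat_lit 75089888591161) (nat_lit 0) (nat_lit 0),Row.mk (nat_lit 32760) (nat_lit 32912) (nat_lit 8388608) (nat_lit 61897) (nat_lit 75089888591161) (nat_lit 0) (nat_lit 0),Row.mk (nat_lit 32928) (nat_lit 32912) (nat_lit 8388608) (nat_lit 61897) (nat_lit 75089888591161) (nat_lit 0) (nat_lit 0),Row.mk (nat_lit 33096) (nat_lit 32912) (nat_lit 8388608) (nat_lit 61897) (nat_lit 75089888591161) (nat_lit 0) (nat_lit 0)],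
[Row.mk (nat_lit 32928) (nat_lit 32912) (nat_lit 8388608) (nat_lit 61897) (nat_lit 93785461485077) (nat_lit 0) (nat_lit 0),Row.mk (nat_lit 33096) (nat_lit 32912) (nat_lit 8388608) (nat_lit 61897) (nat_lit 93785461485077) (nat_lit 0) (nat_lit 0),Row.mk (nat_lit 33264) (nat_lit 32912) (nat_lit 8388608) (nat_lit 61897) (nat_lit 93785461485077) (nat_lit 0) (nat_lit 0)],
[Row.mk (nat_lit 33096) (nat_lit 32912) (nat_lit 8388608) (nat_lit 61897) (nat_lit 117135781021219) (nat_lit 0) (nat_lit 0),Row.mk (nat_lit 33264) (nat_lit 32912) (nat_lit 8388608) (nat_lit 61897) (nat_lit 117135781021219) (nat_lit 0) (nat_lit 0),Row.mk (nat_lit 33432) (nat_lit 32912) (nat_lit 8388608) (nat_lit 61897) (nat_lit 117135781021219) (nat_lit 0) (nat_lit 0)],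
[Row.mk (nat_lit 33264) (nat_lit 32912) (nat_lit 8388608) (nat_lit 61897) (nat_lit 146299766823302) (nat_lit 0) (nat_lit 0),Row.mk (nat_lit 33432) (nat_lit 32912) (nat_lit 8388608) (nat_lit 61897) (nat_lit 146299766823302) (nat_lit 0) (nat_lit 0),Row.mk (nat_lit 33600) (nat_lit 32912) (nat_lit 8388608) (nat_lit 61897) (nat_lit 146299766823302) (nat_lit 0) (nat_lit 0)],
[Row.mk (nat_lit 33432) (nat_lit 32912) (nat_lit 8388608) (nat_lit 61897) (nat_lit 182724881543792) (nat_lit 0) (nat_lit 0),Row.mk (nat_lit 33600) (nat_lit 32912) (nat_lit 8388608) (nat_lit 61897) (nat_lit 182724881543792) (nat_lit 0) (nat_lit 0),Row.mk (nat_lit 33768) (nat_lit 32912) (nat_lit 8388608) (nat_lit 61897) (nat_lit 182724881543792) (nat_lit 0) (nat_lit 0)],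
[Row.mk (nat_lit 33600) (nat_lit 32912) (nat_lit 8388608) (nat_lit 61897) (nat_lit 228218971117311) (nat_lit 0) (nat_lit 0),Row.mk (nat_lit 33768) (nat_lit 32912) (nat_lit 8388608) (nat_lit 61897) (nat_lit 228218971117311) (nat_lit 0) (nat_lit 0),Row.mk (nat_lit 33936) (nat_lit 32912) (nat_lit 8388608) (nat_lit 61897) (nat_lit 228218971117311) (nat_lit 0) (nat_lit 0)],
[Row.mk (nat_lit 33768) (nat_lit 32912) (nat_lit 8388608) (nat_lit 61897) (nat_lit 285039991504083) (nat_lit 0) (nat_lit 0),Row.mk (nat_lit 33936) (nat_lit 32912) (nat_lit 8388608) (nat_lit 61897) (nat_lit 285039991504083) (nat_lit 0) (nat_lit 0),Row.mk (nat_lit 34104) (nat_lit 32912) (nat_lit 8388608) (nat_lit 61897) (nat_lit 285039991504083) (nat_lit 0) (nat_lit 0)],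
[Row.mk (nat_lit 33936) (nat_lit 32912) (nat_lit 8388608) (nat_lit 61897) (nat_lit 356008075227935) (nat_lit 0) (nat_lit 0),Row.mk (nat_lit 34104) (nat_lit 32912) (nat_lit 8388608) (nat_lit 61897) (nat_lit 356008075227935) (nat_lit 0) (nat_lit 0),Row.mk (nat_lit 34272) (nat_lit 32912) (nat_lit 8388608) (nat_lit 61897) (nat_lit 356008075227935) (nat_lit 0) (nat_lit 0)],
[Row.mk (nat_lit 34104) (nat_lit 32912) (nat_lit 8388608) (nat_lit 61897) (nat_lit 444645499778800) (nat_lit 0) (nat_lit 0),Row.mk (nat_lit 34272) (nat_lit 32912) (nat_lit 8388608) (nat_lit 61897) (nat_lit 444645499778800) (nat_lit 0) (nat_lit 0),Row.mk (nat_lit 34440) (nat_lit 32912) (nat_lit 8388608) (nat_lit 61897) (nat_lit 444645499778800) (nat_lit 0) (nat_lit 0)],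
[Row.mk (nat_lit 34272) (nat_lit 32912) (nat_lit 8388608) (nat_lit 61897) (nat_lit 555351504770867) (nat_lit 0) (nat_lit 0),Row.mk (nat_lit 34440) (nat_lit 32912) (nat_lit 8388608) (nat_lit 61897) (nat_lit 555351504770867) (nat_lit 0) (nat_lit 0),Row.mk (nat_lit 34608) (nat_lit 32912) (nat_lit 8388608) (nat_lit 61897) (nat_lit 555351504770867) (nat_lit 0) (nat_lit 0)],
[Row.mk (nat_lit 34440) (nat_lit 32912) (nat_lit 8388608) (nat_lit 61897) (nat_lit 693620634355862) (nat_lit 0) (nat_lit 0),Row.mk (nat_lit 34608) (nat_lit 32912) (nat_lit 8388608) (nat_lit 61897) (nat_lit 693620634355862) (nat_lit 0) (nat_lit 0),Row.mk (nat_lit 34776) (nat_lit 32912) (nat_lit 8388608) (nat_lit 61897) (nat_lit 693620634355862) (nat_lit 0) (nat_lit 0)],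
[Row.mk (nat_lit 34608) (nat_lit 32912) (nat_lit 8388608) (nat_lit 61897) (nat_lit 866315441629974) (nat_lit 0) (nat_lit 0),Row.mk (nat_lit 34776) (nat_lit 32912) (nat_lit 8388608) (nat_lit 61897) (nat_lit 866315441629974) (nat_lit 0) (nat_lit 0),Row.mk (nat_lit 34944) (nat_lit 32912) (nat_lit 8388608) (nat_lit 61897) (nat_lit 866315441629974) (nat_lit 0) (nat_lit 0)],
[Row.mk (nat_lit 34776) (nat_lit 32912) (nat_lit 8388608) (nat_lit 61897) (nat_lit 1082007089859453) (nat_lit 0) (nat_lit 0),Row.mk (nat_lit 34944) (nat_lit 32912) (nat_lit 8388608) (nat_lit 61897) (nat_lit 1082007089859453) (nat_lit 0) (nat_lit 0),Row.mk (nat_lit 35112) (nat_lit 32912) (nat_lit 8388608) (nat_lit 61897) (nat_lit 1082007089859453) (nat_lit 0) (nat_lit 0)],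
[Row.mk (nat_lit 34944) (nat_lit 32912) (nat_lit 8388608) (nat_lit 61897) (nat_lit 1351400755194769) (nat_lit 0) (nat_lit 0),Row.mk (nat_lit 35112) (nat_lit 32912) (nat_lit 8388608) (nat_lit 61897) (nat_lit 1351400755194769) (nat_lit 0) (nat_lit 0)],
[Row.mk (nat_lit 35280) (nat_lit 32912) (nat_lit 8388608) (nat_lit 61897) (nat_lit 1687866944398277) (nat_lit 0) (nat_lit 0)],
[Row.mk (nat_lit 35448) (nat_lit 32912) (nat_lit 8388608) (nat_lit 61897) (nat_lit 2108105097868658) (nat_lit 0) (nat_lit 0)],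
[Row.mk (nat_lit 35616) (nat_lit 32912) (nat_lit 8388608) (nat_lit 61897) (nat_lit 2632972413809816) (nat_lit 0) (nat_lit 0)],
[Row.mk (nat_lit 35784) (nat_lit 32912) (nat_lit 8388608) (nat_lit 61897) (nat_lit 3288519029623443) (nat_lit 0) (nat_lit 0)],
[Row.mk (nat_lit 35952) (nat_lit 32912) (nat_lit 8388608) (nat_lit 61897) (nat_lit 4107280938495811) (nat_lit 0) (nat_lit 0)],
[],
[],
[],
[],
[],
[],
[],
[],
[],
[],
[],
[],
[],
[],
[],
[],
[],
[],
[],
[],
[],
[],
[],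
[],
[],
[],
[],
[],
[],
[],
[],
[],
[],
[]]

/-- The tables. -/
noncomputable def tabs : Tabs := Tabs.mk labs tb0 tb1 tb2 tb3

end Vale.Agent.P154.Hel.Burn.Data
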